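import Mathlib
import Vale.Agent.P157.ParDefs
import Vale.Agent.P367.GT.Stein

set_option linter.all false

section

/-!
Definitions for the Guerra upper bound (module U of the Parisi plan): the cascades in dimension
`N`, the tilted chain, and the log-weights of a finite system in a Gaussian field.
-/

open MeasureTheory ProbabilityTheory

namespace Vale.Agent.P157.Par

/-- The standard Gaussian measure on `ℝ^N`. -/
noncomputable abbrev gN (N : ℕ) : Measure (Fin N → ℝ) := Measure.pi fun _ => gaussianReal 0 1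

variable {N : ℕ}

/-- One step of the cascade in dimension `N`: `y ↦ (1/m) log E exp(m G(y + √v z))`. -/
noncomputable def gstepN (m v : ℝ) (G : (Fin N → ℝ) → ℝ) : (Fin N → ℝ) → ℝ := fun y =>
  1 / m * Real.log (∫ z, Real.exp (m * G (y + √v • z)) ∂(gN N))

/-- One step of the tilted chain: `y ↦ E[h(y + √v z) e^{m G(y + √v z)}] / E[e^{m G(y + √v z)}]`. -/
noncomputable def tiltN (m v : ℝ) (G h : (Fin N → ℝ) → ℝ) : (Fin N → ℝ) → ℝ := fun y =>
  (∫ z, h (y + √v • z) * Real.exp (m * G (y + √v • z)) ∂(gN N)) /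
    ∫ z, Real.exp (m * G (y + √v • z)) ∂(gN N)

/-- The value of the full cascade started at the level `l` with the function `G`. -/
noncomputable def topN (m r : ℕ → ℝ) : ℕ → ((Fin N → ℝ) → ℝ) → ℝ
  | 0, G => ∫ z, G (√(r 0) • z) ∂(gN N)
  | l + 1, G => topN m r l (gstepN (m (l + 1)) (r (l + 1) - r l) G)

/-- The average of `h` over the state at the level `l` of the tilted chain, when the log-weight at
the level `l` is `G`. -/
noncomputable def chainAv (m r : ℕ → ℝ) : ℕ → ((Fin N → ℝ) → ℝ) → ((Fin N → ℝ) → ℝ) → ℝ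
  | 0, _, h => ∫ z, h (√(r 0) • z) ∂(gN N)
  | l + 1, G, h => chainAv m r l (gstepN (m (l + 1)) (r (l + 1) - r l) G)
      (tiltN (m (l + 1)) (r (l + 1) - r l) G h)

/-- The overlap path of the tilted chain: `Rs m r l G B j = (1/N) E_chain |B_j|²` for `j ≤ l`, where
`B_l = B` and `B_{j-1}` is the tilted average of `B_j`. -/
noncomputable def Rs (m r : ℕ → ℝ) : ℕ → ((Fin N → ℝ) → ℝ) → ((Fin N → ℝ) → Fin N → ℝ) → ℕ → ℝ
  | 0, G, B, _ => chainAv m r 0 G (fun y => ∑ i, B y i ^ 2) / N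
  | l + 1, G, B, j => if j ≤ l then
      Rs m r l (gstepN (m (l + 1)) (r (l + 1) - r l) G)
        (fun y i => tiltN (m (l + 1)) (r (l + 1) - r l) G (fun y => B y i) y) j
      else chainAv m r (l + 1) G (fun y => ∑ i, B y i ^ 2) / N

theorem topN_succ_def (m r : ℕ → ℝ) (l : ℕ) (G : (Fin N → ℝ) → ℝ) :
    topN m r (l + 1) G = topN m r l (gstepN (m (l + 1)) (r (l + 1) - r l) G) := by
  have h1 := @topN.eq_1
  have h2 := @topN.eq_def
  simp only [topN]

theorem chainAv_succ_def (m r : ℕ → ℝ) (l : ℕ) (G h : (Fin N → ℝ) → ℝ) :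
    chainAv m r (l + 1) G h = chainAv m r l (gstepN (m (l + 1)) (r (l + 1) - r l) G)
      (tiltN (m (l + 1)) (r (l + 1) - r l) G h) := by
  have h1 := @chainAv.eq_1
  have h2 := @chainAv.eq_def
  simp only [chainAv]

theorem Rs_succ_def (m r : ℕ → ℝ) (l : ℕ) (G : (Fin N → ℝ) → ℝ) (B : (Fin N → ℝ) → Fin N → ℝ)
    {j : ℕ} (hj : j ≤ l) : Rs m r (l + 1) G B j =
      Rs m r l (gstepN (m (l + 1)) (r (l + 1) - r l) G)
        (fun y i => tiltN (m (l + 1)) (r (l + 1) - r l) G (fun y => B y i) y) j := by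
  have h1 := @Rs.eq_1
  have h2 := @Rs.eq_def
  simp only [Rs, if_pos hj]

variable {X : Type} [Fintype X]

/-- The log-partition function in the field `c y`: `y ↦ log ∑_x e^{u x + c ⟨y, φ x⟩}`. -/
noncomputable def lw (φ : X → Fin N → ℝ) (c : ℝ) (u : X → ℝ) : (Fin N → ℝ) → ℝ := fun y =>
  Real.log (∑ x, Real.exp (u x + c * ∑ i, y i * φ x i))

/-- The Gibbs average of a function of `x` in the field `c y`. -/
noncomputable def gw (φ : X → Fin N → ℝ) (c : ℝ) (u : X → ℝ) (h : X → ℝ) (y : Fin N → ℝ) : ℝ :=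
  (∑ x, Real.exp (u x + c * ∑ i, y i * φ x i) * h x) /
    ∑ x, Real.exp (u x + c * ∑ i, y i * φ x i)

/-- The Gibbs mean of `x` in the field `c y`. -/
noncomputable def bw (φ : X → Fin N → ℝ) (c : ℝ) (u : X → ℝ) : (Fin N → ℝ) → Fin N → ℝ :=
  fun y i => gw φ c u (fun x => φ x i) y

end Vale.Agent.P157.Par
end

section

/-!
Definitions for the upper bound for general potentials (module U-ALL): a finite system with
standard Gaussian coordinates `z : ι → ℝ` organized in levels, the exponents `m`, the tilted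
conditional averages `T l` and the tilted average `Ex`.
-/

open MeasureTheory ProbabilityTheory

namespace Vale.Agent.P157.Lv

/-- The standard Gaussian measure on `ι → ℝ`. -/
noncomputable abbrev gI (ι : Type) [Fintype ι] : Measure (ι → ℝ) :=
  Measure.pi fun _ => gaussianReal 0 1

variable {ι X : Type}

/-- The coordinates of level at most `l` are taken from `z`, the others from `w`. -/
def mix (lev : ι → ℕ) (l : ℕ) (z w : ι → ℝ) : ι → ℝ := fun e => if lev e ≤ l then z e else w e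

/-- The average over the coordinates of level larger than `l`. -/
noncomputable def J [Fintype ι] (lev : ι → ℕ) (l : ℕ) (h : (ι → ℝ) → ℝ) : (ι → ℝ) → ℝ :=
  fun z => ∫ w, h (mix lev l z w) ∂(gI ι)

/-- `h` depends only on the coordinates of level at most `l`. -/
def Dep (lev : ι → ℕ) (l : ℕ) (h : (ι → ℝ) → ℝ) : Prop := ∀ z w, h (mix lev l z w) = h z

/-- Measurable functions of at most exponential growth. -/
structure EG [Fintype ι] (h : (ι → ℝ) → ℝ) : Prop where
  meas : Measurable h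
  bdd : ∃ C a : ℝ, 0 ≤ C ∧ 0 ≤ a ∧ ∀ y, |h y| ≤ C * Real.exp (a * ‖y‖)

/-- Lipschitz functions. -/
def Lip [Fintype ι] (G : (ι → ℝ) → ℝ) : Prop :=
  ∃ L : ℝ, 0 ≤ L ∧ ∀ y y', |G y - G y'| ≤ L * ‖y - y'‖

/-- `H'` is the partial derivative of `H` in the coordinate `e`. -/
def PD [DecidableEq ι] (e : ι) (H H' : (ι → ℝ) → ℝ) : Prop :=
  ∀ (y : ι → ℝ) (x : ℝ), HasDerivAt (fun t => H (Function.update y e t))
    (H' (Function.update y e x)) x

/-- A system: the levels of the Gaussian coordinates, the number of levels (they are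
`0, …, K`), the exponents and the energy. -/
structure Sy (ι X : Type) where
  lev : ι → ℕ
  K : ℕ
  m : ℕ → ℝ
  H : (ι → ℝ) → X → ℝ

namespace Sy

variable [Fintype ι] [Fintype X] (S : Sy ι X)

/-- The log-partition function. -/
noncomputable def top (z : ι → ℝ) : ℝ := Real.log (∑ x, Real.exp (S.H z x))

/-- One step of the recursion, from the level `l + 1` to the level `l`. -/
noncomputable def stp (l : ℕ) (F : (ι → ℝ) → ℝ) : (ι → ℝ) → ℝ := fun z =>
  1 / S.m (l + 1) * Real.log (J S.lev l (fun z => Real.exp (S.m (l + 1) * F z)) z)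

/-- The value at the level `l` of the recursion started at the level `l + d`. -/
noncomputable def rec' : ℕ → ℕ → (ι → ℝ) → ℝ
  | _, 0 => S.top
  | l, d + 1 => S.stp l (rec' (l + 1) d)

/-- The log-weight at the level `l`. -/
noncomputable def lg (l : ℕ) : (ι → ℝ) → ℝ := S.rec' l (S.K - l)

/-- The free energy. -/
noncomputable def fe : ℝ := ∫ z, S.lg 0 z ∂(gI ι)

/-- The density of the tilted law of the levels larger than `l`. -/
noncomputable def dn (l : ℕ) (z : ι → ℝ) : ℝ :=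
  Real.exp (∑ i ∈ Finset.Ico l S.K, S.m (i + 1) * (S.lg (i + 1) z - S.lg i z))

/-- The Gibbs weights. -/
noncomputable def gb (z : ι → ℝ) (x : X) : ℝ := Real.exp (S.H z x) / ∑ x', Real.exp (S.H z x')

/-- The Gibbs average. -/
noncomputable def av (h : (ι → ℝ) → X → ℝ) : (ι → ℝ) → ℝ := fun z => ∑ x, S.gb z x * h z x

/-- The tilted conditional average given the levels at most `l`. -/
noncomputable def T (l : ℕ) (h : (ι → ℝ) → X → ℝ) : (ι → ℝ) → ℝ :=
  J S.lev l (fun z => S.dn l z * S.av h z)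

/-- The tilted average. -/
noncomputable def Ex (h : (ι → ℝ) → X → ℝ) : ℝ := ∫ z, S.dn 0 z * S.av h z ∂(gI ι)

/-- The weights of the levels. -/
def p (l : ℕ) : ℝ := S.m (l + 1) - S.m l

/-- Regularity of a system. -/
structure Reg : Prop where
  m0 : S.m 0 = 0
  mK : S.m (S.K + 1) = 1
  mono : ∀ l ≤ S.K, S.m l ≤ S.m (l + 1)
  pos : 0 < S.m 1
  lev : ∀ e, S.lev e ≤ S.K
  lip : ∀ x, Lip fun z => S.H z x

/-- Regularity of a system with the partial derivatives `D e` of the energy. -/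
structure RegD [DecidableEq ι] (D : ι → (ι → ℝ) → X → ℝ) : Prop extends S.Reg where
  pd : ∀ e x, PD e (fun z => S.H z x) (fun z => D e z x)
  md : ∀ e x, Measurable fun z => D e z x
  bd : ∃ C : ℝ, ∀ e z x, |D e z x| ≤ C

end Sy

/-- The system with another energy. -/
def Sy.wH (S : Sy ι X) (H' : (ι → ℝ) → X → ℝ) : Sy ι X := { S with H := H' }

/-- Observables of exponential growth. -/
def Nh [Fintype ι] (h : (ι → ℝ) → X → ℝ) : Prop := ∀ x, EG fun z => h z x

end Vale.Agent.P157.Lv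
end

section

/-!
Functions of exponential growth on `ℝ^ι`, averages over the higher levels, partial derivatives.
-/

open MeasureTheory ProbabilityTheory Filter Topology

namespace Vale.Agent.P157.Lv

variable {ι : Type} [Fintype ι]

section eg

lemma Lip.continuous {G : (ι → ℝ) → ℝ} (h : Lip G) : Continuous G := by
  obtain ⟨L, hL, h⟩ := h
  refine (LipschitzWith.of_dist_le_mul (K := ⟨L, hL⟩) fun y y' => ?_).continuous
  rw [Real.dist_eq, dist_eq_norm]; exact h y y'

lemma Lip.measurable {G : (ι → ℝ) → ℝ} (h : Lip G) : Measurable G := h.continuous.measurable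

lemma EG.of_bdd {h : (ι → ℝ) → ℝ} (hm : Measurable h) {C : ℝ} (hC : ∀ y, |h y| ≤ C) : EG h :=
  ⟨hm, |C|, 0, abs_nonneg _, le_rfl, fun y => by simpa using (hC y).trans (le_abs_self C)⟩

lemma EG.const (c : ℝ) : EG (fun _ : ι → ℝ => c) := EG.of_bdd measurable_const fun _ => le_rfl

lemma EG.add {f g : (ι → ℝ) → ℝ} (hf : EG f) (hg : EG g) : EG (fun y => f y + g y) := by
  obtain ⟨C, a, hC, ha, h1⟩ := hf.bdd
  obtain ⟨D, b, hD, hb, h2⟩ := hg.bdd
  refine ⟨hf.meas.add hg.meas, C + D, max a b, by positivity, by positivity, fun y => ?_⟩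
  have e1 : Real.exp (a * ‖y‖) ≤ Real.exp (max a b * ‖y‖) :=
    Real.exp_le_exp.2 (mul_le_mul_of_nonneg_right (le_max_left _ _) (norm_nonneg _))
  have e2 : Real.exp (b * ‖y‖) ≤ Real.exp (max a b * ‖y‖) :=
    Real.exp_le_exp.2 (mul_le_mul_of_nonneg_right (le_max_right _ _) (norm_nonneg _))
  calc |f y + g y| ≤ |f y| + |g y| := abs_add_le _ _
    _ ≤ C * Real.exp (a * ‖y‖) + D * Real.exp (b * ‖y‖) := add_le_add (h1 y) (h2 y)
    _ ≤ C * Real.exp (max a b * ‖y‖) + D * Real.exp (max a b * ‖y‖) := by gcongr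
    _ = _ := by ring

lemma EG.mul {f g : (ι → ℝ) → ℝ} (hf : EG f) (hg : EG g) : EG (fun y => f y * g y) := by
  obtain ⟨C, a, hC, ha, h1⟩ := hf.bdd
  obtain ⟨D, b, hD, hb, h2⟩ := hg.bdd
  refine ⟨hf.meas.mul hg.meas, C * D, a + b, by positivity, by positivity, fun y => ?_⟩
  calc |f y * g y| = |f y| * |g y| := abs_mul _ _
    _ ≤ (C * Real.exp (a * ‖y‖)) * (D * Real.exp (b * ‖y‖)) := by
        gcongr
        · exact h1 y
        · exact h2 y
    _ = C * D * Real.exp ((a + b) * ‖y‖) := by rw [add_mul, Real.exp_add]; ring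

lemma EG.const_mul {f : (ι → ℝ) → ℝ} (c : ℝ) (hf : EG f) : EG (fun y => c * f y) :=
  (EG.const c).mul hf

lemma EG.neg {f : (ι → ℝ) → ℝ} (hf : EG f) : EG (fun y => -f y) := by
  simpa using hf.const_mul (-1)

lemma EG.sub {f g : (ι → ℝ) → ℝ} (hf : EG f) (hg : EG g) : EG (fun y => f y - g y) := by
  simpa [sub_eq_add_neg] using hf.add hg.neg

lemma EG.sum {κ : Type*} (s : Finset κ) {f : κ → (ι → ℝ) → ℝ} (hf : ∀ i ∈ s, EG (f i)) :
    EG (fun y => ∑ i ∈ s, f i y) := by
  classical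
  induction s using Finset.induction_on with
  | empty => simpa using EG.const 0
  | insert a s ha ih =>
    simp only [Finset.sum_insert ha]
    exact (hf a (Finset.mem_insert_self a s)).add
      (ih fun i hi => hf i (Finset.mem_insert_of_mem hi))

lemma EG.pow {f : (ι → ℝ) → ℝ} (hf : EG f) (n : ℕ) : EG (fun y => f y ^ n) := by
  induction n with
  | zero => simpa using EG.const 1
  | succ n ih => simpa [pow_succ] using ih.mul hf

lemma EG.mono {f g : (ι → ℝ) → ℝ} (hg : EG g) (hf : Measurable f) (h : ∀ y, |f y| ≤ |g y|) :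
    EG f := by
  obtain ⟨C, a, hC, ha, h1⟩ := hg.bdd
  exact ⟨hf, C, a, hC, ha, fun y => (h y).trans (h1 y)⟩

lemma EG.abs {f : (ι → ℝ) → ℝ} (hf : EG f) : EG (fun y => |f y|) :=
  hf.mono hf.meas.abs fun y => by simp

lemma EG.coord (i : ι) : EG (fun y : ι → ℝ => y i) := by
  refine ⟨measurable_pi_apply i, 1, 1, zero_le_one, zero_le_one, fun y => ?_⟩
  rw [one_mul, one_mul, ← Real.norm_eq_abs]
  exact (norm_le_pi_norm y i).trans ((Real.add_one_le_exp ‖y‖).trans' (by linarith))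

lemma Lip.eg {G : (ι → ℝ) → ℝ} (h : Lip G) : EG G := by
  obtain ⟨L, hL, h'⟩ := id h
  refine ⟨h.measurable, |G 0| + L, 1, by positivity, zero_le_one, fun y => ?_⟩
  have h1 : |G y| ≤ |G 0| + L * ‖y‖ := by
    have := h' y 0
    rw [sub_zero] at this
    calc |G y| = |(G y - G 0) + G 0| := by ring_nf
      _ ≤ |G y - G 0| + |G 0| := abs_add_le _ _
      _ ≤ _ := by linarith
  have h2 : ‖y‖ ≤ Real.exp ‖y‖ := (Real.add_one_le_exp ‖y‖).trans' (by linarith)
  have h3 : 1 ≤ Real.exp ‖y‖ := Real.one_le_exp (norm_nonneg _)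
  rw [one_mul]
  calc |G y| ≤ |G 0| + L * ‖y‖ := h1
    _ ≤ |G 0| * Real.exp ‖y‖ + L * Real.exp ‖y‖ := by
        refine add_le_add (le_mul_of_one_le_right (abs_nonneg _) h3) (by gcongr)
    _ = _ := by ring

lemma Lip.exp_eg {G : (ι → ℝ) → ℝ} (h : Lip G) (m : ℝ) : EG (fun y => Real.exp (m * G y)) := by
  obtain ⟨L, hL, h'⟩ := id h
  refine ⟨Real.measurable_exp.comp (h.measurable.const_mul m), Real.exp (|m| * |G 0|), |m| * L,
    (Real.exp_pos _).le, by positivity, fun y => ?_⟩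
  rw [abs_of_pos (Real.exp_pos _), ← Real.exp_add, Real.exp_le_exp]
  have h1 : |G y| ≤ |G 0| + L * ‖y‖ := by
    have := h' y 0
    rw [sub_zero] at this
    calc |G y| = |(G y - G 0) + G 0| := by ring_nf
      _ ≤ |G y - G 0| + |G 0| := abs_add_le _ _
      _ ≤ _ := by linarith
  calc m * G y ≤ |m * G y| := le_abs_self _
    _ = |m| * |G y| := abs_mul _ _
    _ ≤ |m| * (|G 0| + L * ‖y‖) := by gcongr
    _ = _ := by ring

lemma Lip.add {F G : (ι → ℝ) → ℝ} (hF : Lip F) (hG : Lip G) : Lip (fun y => F y + G y) := by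
  obtain ⟨L, hL, h1⟩ := hF
  obtain ⟨M, hM, h2⟩ := hG
  refine ⟨L + M, add_nonneg hL hM, fun y y' => ?_⟩
  calc |F y + G y - (F y' + G y')| = |(F y - F y') + (G y - G y')| := by ring_nf
    _ ≤ |F y - F y'| + |G y - G y'| := abs_add_le _ _
    _ ≤ L * ‖y - y'‖ + M * ‖y - y'‖ := add_le_add (h1 y y') (h2 y y')
    _ = _ := by ring

lemma Lip.const_mul {F : (ι → ℝ) → ℝ} (hF : Lip F) (c : ℝ) : Lip (fun y => c * F y) := by
  obtain ⟨L, hL, h1⟩ := hF
  refine ⟨|c| * L, mul_nonneg (abs_nonneg _) hL, fun y y' => ?_⟩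
  rw [← mul_sub, abs_mul, mul_assoc]
  exact mul_le_mul_of_nonneg_left (h1 y y') (abs_nonneg _)

lemma Lip.const (c : ℝ) : Lip (fun _ : ι → ℝ => c) :=
  ⟨0, le_rfl, fun y y' => by simp⟩

lemma Lip.coord (i : ι) : Lip (fun y : ι → ℝ => y i) := by
  refine ⟨1, zero_le_one, fun y y' => ?_⟩
  rw [one_mul, ← Real.norm_eq_abs]
  exact norm_le_pi_norm (y - y') i

lemma Lip.sum {κ : Type*} (s : Finset κ) {f : κ → (ι → ℝ) → ℝ} (hf : ∀ i ∈ s, Lip (f i)) :
    Lip (fun y => ∑ i ∈ s, f i y) := by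
  classical
  induction s using Finset.induction_on with
  | empty => simpa using Lip.const 0
  | insert a s ha ih =>
    simp only [Finset.sum_insert ha]
    exact (hf a (Finset.mem_insert_self a s)).add
      (ih fun i hi => hf i (Finset.mem_insert_of_mem hi))

/-- Composition with a Lipschitz function of one variable. -/
lemma Lip.comp {F : (ι → ℝ) → ℝ} (hF : Lip F) {g : ℝ → ℝ} {L : ℝ} (hL : 0 ≤ L)
    (hg : ∀ x y, |g x - g y| ≤ L * |x - y|) : Lip (fun y => g (F y)) := by
  obtain ⟨M, hM, h1⟩ := hF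
  refine ⟨L * M, mul_nonneg hL hM, fun y y' => (hg _ _).trans ?_⟩
  rw [mul_assoc]
  exact mul_le_mul_of_nonneg_left (h1 y y') hL

lemma integrable_exp_norm (a : ℝ) :
    Integrable (fun z : ι → ℝ => Real.exp (a * ‖z‖)) (gI ι) := by
  have h1 : Integrable (fun x : ℝ => Real.exp (|a| * |x|)) (gaussianReal 0 1) :=
    ProbabilityTheory.integrable_exp_mul_abs (X := fun x => x) (t := |a|)
      (by simpa using integrable_exp_mul_gaussianReal (μ := 0) (v := 1) (|a|))
      (by simpa using integrable_exp_mul_gaussianReal (μ := 0) (v := 1) (-|a|))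
  have h2 : Integrable (fun z : ι → ℝ => ∏ i, Real.exp (|a| * |z i|)) (gI ι) :=
    Integrable.fintype_prod (f := fun _ x => Real.exp (|a| * |x|)) fun _ => h1
  refine h2.mono' ?_ (Filter.Eventually.of_forall fun z => ?_)
  · exact (by fun_prop : Continuous fun z : ι → ℝ => Real.exp (a * ‖z‖)).aestronglyMeasurable
  · rw [Real.norm_eq_abs, abs_of_pos (Real.exp_pos _), ← Real.exp_sum, Real.exp_le_exp,
      ← Finset.mul_sum]
    have hn : ‖z‖ ≤ ∑ i, |z i| := by
      refine (pi_norm_le_iff_of_nonneg (Finset.sum_nonneg fun i _ => abs_nonneg _)).2 fun i => ?_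
      rw [Real.norm_eq_abs]
      exact Finset.single_le_sum (f := fun i => |z i|) (fun i _ => abs_nonneg _)
        (Finset.mem_univ i)
    calc a * ‖z‖ ≤ |a| * ‖z‖ := mul_le_mul_of_nonneg_right (le_abs_self a) (norm_nonneg _)
      _ ≤ |a| * ∑ i, |z i| := by gcongr

lemma EG.integrable {h : (ι → ℝ) → ℝ} (hh : EG h) : Integrable h (gI ι) := by
  obtain ⟨C, a, hC, ha, hb⟩ := hh.bdd
  refine ((integrable_exp_norm a).const_mul C).mono' hh.meas.aestronglyMeasurable
    (Filter.Eventually.of_forall fun z => ?_)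
  rw [Real.norm_eq_abs]
  exact hb z

end eg

section J

variable {lev : ι → ℕ} {l : ℕ}

omit [Fintype ι] in
lemma mix_mix_left (l : ℕ) (z w w' : ι → ℝ) :
    mix lev l (mix lev l z w) w' = mix lev l z w' := by
  funext e
  unfold mix
  split_ifs <;> rfl

omit [Fintype ι] in
lemma mix_le {l l' : ℕ} (hl : l ≤ l') (z w w' : ι → ℝ) :
    mix lev l (mix lev l' z w) w' = mix lev l z w' := by
  funext e
  unfold mix
  by_cases h : lev e ≤ l
  · rw [if_pos h, if_pos (h.trans hl), if_pos h]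
  · rw [if_neg h, if_neg h]

omit [Fintype ι] in
lemma mix_self (l : ℕ) (z : ι → ℝ) : mix lev l z z = z := by
  funext e
  unfold mix
  split_ifs <;> rfl

omit [Fintype ι] in
lemma mix_top {K : ℕ} (hK : ∀ e, lev e ≤ K) (z w : ι → ℝ) : mix lev K z w = z := by
  funext e
  unfold mix
  rw [if_pos (hK e)]

omit [Fintype ι] in
/-- Mixing at a higher level after mixing at a lower level. -/
lemma mix_assoc {l l' : ℕ} (hl : l ≤ l') (z w w' : ι → ℝ) :
    mix lev l' (mix lev l z w) w' = mix lev l z (mix lev l' w w') := by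
  funext e
  unfold mix
  by_cases h : lev e ≤ l
  · rw [if_pos h, if_pos (h.trans hl), if_pos h]
  · rw [if_neg h, if_neg h]

lemma norm_mix_le (z w : ι → ℝ) : ‖mix lev l z w‖ ≤ ‖z‖ + ‖w‖ := by
  rw [pi_norm_le_iff_of_nonneg (by positivity)]
  intro e
  unfold mix
  split_ifs
  · linarith [norm_le_pi_norm z e, norm_nonneg w]
  · linarith [norm_le_pi_norm w e, norm_nonneg z]

omit [Fintype ι] in
lemma measurable_mix (lev : ι → ℕ) (l : ℕ) :
    Measurable (fun q : (ι → ℝ) × (ι → ℝ) => mix lev l q.1 q.2) := by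
  rw [measurable_pi_iff]
  intro e
  unfold mix
  split_ifs
  · exact (measurable_pi_apply e).comp measurable_fst
  · exact (measurable_pi_apply e).comp measurable_snd

omit [Fintype ι] in
lemma measurable_mix_right (lev : ι → ℕ) (l : ℕ) (z : ι → ℝ) :
    Measurable (fun w : ι → ℝ => mix lev l z w) :=
  (measurable_mix lev l).comp measurable_prodMk_left

/-- Resampling the coordinates of the higher levels. -/
lemma map_mix (lev : ι → ℕ) (l : ℕ) :
    ((gI ι).prod (gI ι)).map (fun q : (ι → ℝ) × (ι → ℝ) => mix lev l q.1 q.2) = gI ι := by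
  symm
  apply Measure.pi_eq
  intro s hs
  rw [Measure.map_apply (measurable_mix lev l) (MeasurableSet.univ_pi hs)]
  have h1 : (fun q : (ι → ℝ) × (ι → ℝ) => mix lev l q.1 q.2) ⁻¹' (Set.univ.pi s)
      = (Set.univ.pi fun e => if lev e ≤ l then s e else Set.univ) ×ˢ
        (Set.univ.pi fun e => if lev e ≤ l then Set.univ else s e) := by
    ext ⟨z, w⟩
    simp only [Set.mem_preimage, Set.mem_pi, Set.mem_univ, forall_true_left, Set.mem_prod, mix]
    constructor
    · intro h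
      refine ⟨fun e => ?_, fun e => ?_⟩
      · have := h e
        by_cases he : lev e ≤ l
        · rw [if_pos he]; rwa [if_pos he] at this
        · rw [if_neg he]; exact Set.mem_univ _
      · have := h e
        by_cases he : lev e ≤ l
        · rw [if_pos he]; exact Set.mem_univ _
        · rw [if_neg he]; rwa [if_neg he] at this
    · rintro ⟨h, h'⟩ e
      by_cases he : lev e ≤ l
      · have := h e
        rw [if_pos he] at this ⊢; exact this
      · have := h' e
        rw [if_neg he] at this ⊢; exact this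
  rw [h1, Measure.prod_prod, Measure.pi_pi, Measure.pi_pi, ← Finset.prod_mul_distrib]
  refine Finset.prod_congr rfl fun e _ => ?_
  by_cases he : lev e ≤ l
  · rw [if_pos he, if_pos he, measure_univ, mul_one]
  · rw [if_neg he, if_neg he, measure_univ, one_mul]

lemma integral_mix {h : (ι → ℝ) → ℝ} (hh : EG h) (lev : ι → ℕ) (l : ℕ) :
    ∫ z, ∫ w, h (mix lev l z w) ∂(gI ι) ∂(gI ι) = ∫ z, h z ∂(gI ι) := by
  have hF : Integrable h (((gI ι).prod (gI ι)).map
      (fun q : (ι → ℝ) × (ι → ℝ) => mix lev l q.1 q.2)) := by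
    rw [map_mix]; exact hh.integrable
  have hi : Integrable (fun q : (ι → ℝ) × (ι → ℝ) => h (mix lev l q.1 q.2))
      ((gI ι).prod (gI ι)) :=
    (integrable_map_measure hF.aestronglyMeasurable (measurable_mix lev l).aemeasurable).mp hF
  conv_rhs => rw [← map_mix lev l]
  rw [integral_map (measurable_mix lev l).aemeasurable hF.aestronglyMeasurable, integral_prod _ hi]

lemma EG.mix {h : (ι → ℝ) → ℝ} (hh : EG h) (z : ι → ℝ) :
    Integrable (fun w => h (Lv.mix lev l z w)) (gI ι) := by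
  obtain ⟨C, a, hC, ha, hb⟩ := hh.bdd
  refine ((integrable_exp_norm (ι := ι) a).const_mul (C * Real.exp (a * ‖z‖))).mono'
    (hh.meas.comp (measurable_mix_right lev l z)).aestronglyMeasurable
    (Filter.Eventually.of_forall fun w => ?_)
  rw [Real.norm_eq_abs]
  refine (hb _).trans ?_
  rw [mul_assoc, ← Real.exp_add, ← mul_add]
  gcongr
  exact norm_mix_le z w

lemma EG.J {h : (ι → ℝ) → ℝ} (hh : EG h) (lev : ι → ℕ) (l : ℕ) : EG (Lv.J lev l h) := by
  obtain ⟨C, a, hC, ha, hb⟩ := hh.bdd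
  have hA0 : 0 ≤ ∫ w : ι → ℝ, Real.exp (a * ‖w‖) ∂(gI ι) :=
    integral_nonneg fun w => (Real.exp_pos _).le
  refine ⟨?_, C * ∫ w : ι → ℝ, Real.exp (a * ‖w‖) ∂(gI ι), a, mul_nonneg hC hA0, ha, fun z => ?_⟩
  · have : StronglyMeasurable (Function.uncurry fun (z w : ι → ℝ) => h (Lv.mix lev l z w)) :=
      (hh.meas.comp (measurable_mix lev l)).stronglyMeasurable
    exact this.integral_prod_right.measurable
  · have h1 : |Lv.J lev l h z| ≤ ∫ w, |h (Lv.mix lev l z w)| ∂(gI ι) := by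
      rw [← Real.norm_eq_abs]
      exact (norm_integral_le_integral_norm _)
    refine h1.trans ?_
    have h2 : ∫ w, |h (Lv.mix lev l z w)| ∂(gI ι) ≤
        ∫ w, C * Real.exp (a * ‖z‖) * Real.exp (a * ‖w‖) ∂(gI ι) := by
      refine integral_mono (hh.abs.mix z) ((integrable_exp_norm _).const_mul _) fun w => ?_
      refine (hb _).trans ?_
      rw [mul_assoc, ← Real.exp_add, ← mul_add]
      gcongr
      exact norm_mix_le z w
    refine h2.trans (le_of_eq ?_)
    rw [integral_const_mul]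
    ring

lemma J_add {f g : (ι → ℝ) → ℝ} (hf : EG f) (hg : EG g) (z : ι → ℝ) :
    J lev l (fun z => f z + g z) z = J lev l f z + J lev l g z :=
  integral_add (hf.mix z) (hg.mix z)

lemma J_sub {f g : (ι → ℝ) → ℝ} (hf : EG f) (hg : EG g) (z : ι → ℝ) :
    J lev l (fun z => f z - g z) z = J lev l f z - J lev l g z :=
  integral_sub (hf.mix z) (hg.mix z)

lemma J_const_mul (c : ℝ) (f : (ι → ℝ) → ℝ) (z : ι → ℝ) :
    J lev l (fun z => c * f z) z = c * J lev l f z :=
  integral_const_mul _ _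

lemma J_const (c : ℝ) (z : ι → ℝ) : J lev l (fun _ => c) z = c := by
  unfold J
  simp

lemma J_sum {κ : Type*} (s : Finset κ) {f : κ → (ι → ℝ) → ℝ} (hf : ∀ i ∈ s, EG (f i))
    (z : ι → ℝ) : J lev l (fun z => ∑ i ∈ s, f i z) z = ∑ i ∈ s, J lev l (f i) z :=
  integral_finsetSum _ fun i hi => (hf i hi).mix z

lemma J_mono {f g : (ι → ℝ) → ℝ} (hf : EG f) (hg : EG g) (h : ∀ z, f z ≤ g z) (z : ι → ℝ) :
    J lev l f z ≤ J lev l g z :=
  integral_mono (hf.mix z) (hg.mix z) fun _ => h _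

lemma J_pos {f : (ι → ℝ) → ℝ} (hf : EG f) (h : ∀ z, 0 < f z) (z : ι → ℝ) :
    0 < J lev l f z := by
  unfold J
  rw [integral_pos_iff_support_of_nonneg (fun w => (h _).le) (hf.mix z)]
  have : (Function.support fun w => f (mix lev l z w)) = Set.univ :=
    Set.eq_univ_of_forall fun w => (h _).ne'
  rw [this, measure_univ]
  exact one_pos

/-- Functions of the lower levels can be taken out. -/
lemma Dep.J_mul {φ : (ι → ℝ) → ℝ} (hφ : Dep lev l φ) (h : (ι → ℝ) → ℝ) (z : ι → ℝ) :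
    J lev l (fun z => φ z * h z) z = φ z * J lev l h z := by
  unfold J
  rw [← integral_const_mul]
  refine integral_congr_ae (Filter.Eventually.of_forall fun w => ?_)
  dsimp only
  rw [hφ z w]

lemma dep_J (lev : ι → ℕ) (l : ℕ) (h : (ι → ℝ) → ℝ) : Dep lev l (J lev l h) := by
  intro z w
  unfold J
  simp only [mix_mix_left]

lemma Dep.J_eq {h : (ι → ℝ) → ℝ} (hh : Dep lev l h) (z : ι → ℝ) : J lev l h z = h z := by
  unfold J
  simp only [hh z, integral_const, probReal_univ, one_smul]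

omit [Fintype ι] in
lemma Dep.mono {l' : ℕ} (hl : l ≤ l') {h : (ι → ℝ) → ℝ} (hh : Dep lev l h) : Dep lev l' h := by
  intro z w
  rw [← hh (mix lev l' z w) z, mix_le hl, mix_self]

/-- The tower property. -/
lemma J_J {l' : ℕ} (hl : l ≤ l') {h : (ι → ℝ) → ℝ} (hh : EG h) (z : ι → ℝ) :
    J lev l (J lev l' h) z = J lev l h z := by
  unfold J
  simp only [mix_assoc hl]
  obtain ⟨C, a, hC, ha, hb⟩ := hh.bdd
  refine integral_mix (h := fun w => h (mix lev l z w)) ⟨hh.meas.comp
    (measurable_mix_right lev l z), C * Real.exp (a * ‖z‖), a, by positivity, ha, fun w => ?_⟩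
    lev l'
  refine (hb _).trans ?_
  rw [mul_assoc, ← Real.exp_add, ← mul_add]
  gcongr
  exact norm_mix_le z w

lemma integral_J {h : (ι → ℝ) → ℝ} (hh : EG h) : ∫ z, J lev l h z ∂(gI ι) = ∫ z, h z ∂(gI ι) :=
  integral_mix hh lev l

end J

section stein

theorem integrable_gaussianReal_iff (g : ℝ → ℝ) :
    Integrable g (gaussianReal 0 1) ↔ Integrable (fun x => gaussianPDFReal 0 1 x * g x) := by
  rw [gaussianReal_of_var_ne_zero _ one_ne_zero,
    integrable_withDensity_iff_integrable_smul' (measurable_gaussianPDF 0 1)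
      (Filter.Eventually.of_forall fun x => gaussianPDF_lt_top)]
  simp only [smul_eq_mul, gaussianPDF, ENNReal.toReal_ofReal (gaussianPDFReal_nonneg 0 1 _)]

/-- One-dimensional Gaussian integration by parts. -/
theorem stein_one_int (g g' : ℝ → ℝ) (hd : ∀ x, HasDerivAt g (g' x) x)
    (h0 : Integrable g (gaussianReal 0 1)) (h1 : Integrable (fun x => x * g x) (gaussianReal 0 1))
    (h2 : Integrable g' (gaussianReal 0 1)) :
    ∫ x, x * g x ∂(gaussianReal 0 1) = ∫ x, g' x ∂(gaussianReal 0 1) := by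
  set φ : ℝ → ℝ := gaussianPDFReal 0 1 with hφ
  have hφd : ∀ x, HasDerivAt φ (-(x * φ x)) x := by
    intro x
    have h1 : HasDerivAt (fun y : ℝ => -(y - 0) ^ 2 / (2 * ((1 : NNReal) : ℝ))) (-x) x := by
      have h2 : HasDerivAt (fun y : ℝ => -(y ^ 2) / 2) (-(2 * x) / 2) x := by
        have h0 := ((hasDerivAt_pow 2 x).neg).div_const (2 : ℝ)
        simpa using h0
      have h2' : (fun y : ℝ => -(y - 0) ^ 2 / (2 * ((1 : NNReal) : ℝ))) = fun y => -(y ^ 2) / 2 := by
        funext y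
        simp
      rw [h2']
      have h2'' : -x = -(2 * x) / 2 := by ring
      rw [h2'']
      exact h2
    have h3 := (h1.exp).const_mul ((Real.sqrt (2 * Real.pi * ((1 : NNReal) : ℝ)))⁻¹)
    have h4 : φ = fun y => (Real.sqrt (2 * Real.pi * ((1 : NNReal) : ℝ)))⁻¹
        * Real.exp (-(y - 0) ^ 2 / (2 * ((1 : NNReal) : ℝ))) := by
      funext y
      rw [hφ, gaussianPDFReal_def]
    have h5 : -(x * φ x) = (Real.sqrt (2 * Real.pi * ((1 : NNReal) : ℝ)))⁻¹
        * (Real.exp (-(x - 0) ^ 2 / (2 * ((1 : NNReal) : ℝ))) * -x) := by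
      rw [h4]
      ring
    rw [h5, h4]
    exact h3
  have e1 : ∫ x, x * g x ∂(gaussianReal 0 1) = ∫ x, φ x * (x * g x) := by
    rw [integral_gaussianReal_eq_integral_smul one_ne_zero]
    rfl
  have e2 : ∫ x, g' x ∂(gaussianReal 0 1) = ∫ x, φ x * g' x := by
    rw [integral_gaussianReal_eq_integral_smul one_ne_zero]
    rfl
  rw [integrable_gaussianReal_iff] at h0 h1 h2
  have i1 : Integrable (g * fun x => -(x * φ x)) := by
    refine h1.neg.congr (Filter.Eventually.of_forall fun x => ?_)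
    simp only [Pi.neg_apply, Pi.mul_apply]
    ring
  have i2 : Integrable (g' * φ) := by
    refine h2.congr (Filter.Eventually.of_forall fun x => ?_)
    simp only [Pi.mul_apply]
    ring
  have i3 : Integrable (g * φ) := by
    refine h0.congr (Filter.Eventually.of_forall fun x => ?_)
    simp only [Pi.mul_apply]
    ring
  have key := integral_mul_deriv_eq_deriv_mul_of_integrable (u := g) (v := φ) (u' := g')
    (v' := fun x => -(x * φ x)) (fun x _ => hd x) (fun x _ => hφd x) i1 i2 i3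
  rw [e1, e2]
  have h5 : ∫ x, φ x * (x * g x) = - ∫ x, g x * -(x * φ x) := by
    rw [← integral_neg]
    congr 1
    funext x
    ring
  rw [h5, key, neg_neg]
  congr 1
  funext x
  ring

/-- Gaussian integration by parts in the coordinate `e`. -/
theorem stein_pi_int [DecidableEq ι] (e : ι) (G G' : (ι → ℝ) → ℝ)
    (hd : ∀ J x, HasDerivAt (fun y => G (Function.update J e y)) (G' (Function.update J e x)) x)
    (h0 : Integrable G (gI ι)) (h1 : Integrable (fun J => J e * G J) (gI ι))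
    (h2 : Integrable G' (gI ι)) :
    ∫ J, J e * G J ∂(gI ι) = ∫ J, G' J ∂(gI ι) := by
  have hupd : ((gI ι).prod (gaussianReal 0 1)).map
      (fun q : (ι → ℝ) × ℝ => Function.update q.1 e q.2) = gI ι := Vale.Agent.P367.GT.map_update e
  have hprod : ∀ F : (ι → ℝ) → ℝ, Integrable F (gI ι) →
      Integrable (fun q : (ι → ℝ) × ℝ => F (Function.update q.1 e q.2))
        ((gI ι).prod (gaussianReal 0 1)) := by
    intro F hF
    have hF' : Integrable F (((gI ι).prod (gaussianReal 0 1)).map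
        (fun q : (ι → ℝ) × ℝ => Function.update q.1 e q.2)) := by
      rw [hupd]; exact hF
    exact (integrable_map_measure hF'.aestronglyMeasurable
      (Vale.Agent.P367.GT.measurable_upd e).aemeasurable).mp hF'
  have hres : ∀ F : (ι → ℝ) → ℝ, Integrable F (gI ι) →
      ∫ J, F J ∂(gI ι) = ∫ J, ∫ x, F (Function.update J e x) ∂(gaussianReal 0 1) ∂(gI ι) := by
    intro F hF
    have hF' : Integrable F (((gI ι).prod (gaussianReal 0 1)).map
        (fun q : (ι → ℝ) × ℝ => Function.update q.1 e q.2)) := by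
      rw [hupd]; exact hF
    conv_lhs => rw [← hupd]
    rw [integral_map (Vale.Agent.P367.GT.measurable_upd e).aemeasurable hF'.aestronglyMeasurable]
    rw [integral_prod]
    exact hprod F hF
  rw [hres _ h1, hres _ h2]
  apply integral_congr_ae
  have a0 := (hprod _ h0).prod_right_ae
  have a1 := (hprod _ h1).prod_right_ae
  have a2 := (hprod _ h2).prod_right_ae
  filter_upwards [a0, a1, a2] with J b0 b1 b2
  simp only [Function.update_self] at b1 ⊢
  exact stein_one_int (fun x => G (Function.update J e x)) (fun x => G' (Function.update J e x))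
    (hd J) b0 b1 b2

end stein

section pd

variable [DecidableEq ι] {e : ι}

lemma norm_update_le (y : ι → ℝ) (i : ι) (t : ℝ) :
    ‖Function.update y i t‖ ≤ ‖y‖ + |t| := by
  rw [pi_norm_le_iff_of_nonneg (by positivity)]
  intro j
  by_cases hj : j = i
  · subst hj
    rw [Function.update_self, Real.norm_eq_abs]
    linarith [norm_nonneg y]
  · rw [Function.update_of_ne hj]
    linarith [norm_le_pi_norm y j, abs_nonneg t]

omit [Fintype ι] in
lemma PD.congr {H H' K' : (ι → ℝ) → ℝ} (hd : PD e H H') (h : ∀ y, H' y = K' y) :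
    PD e H K' := by
  intro y x
  rw [← h]
  exact hd y x

lemma PD.add {H H' K K' : (ι → ℝ) → ℝ} (hd : PD e H H') (hk : PD e K K') :
    PD e (fun y => H y + K y) (fun y => H' y + K' y) := fun y x => (hd y x).add (hk y x)

lemma PD.sub {H H' K K' : (ι → ℝ) → ℝ} (hd : PD e H H') (hk : PD e K K') :
    PD e (fun y => H y - K y) (fun y => H' y - K' y) := fun y x => (hd y x).sub (hk y x)

lemma PD.mul {H H' K K' : (ι → ℝ) → ℝ} (hd : PD e H H') (hk : PD e K K') :
    PD e (fun y => H y * K y) (fun y => H' y * K y + H y * K' y) :=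
  fun y x => (hd y x).mul (hk y x)

lemma PD.const_mul {H H' : (ι → ℝ) → ℝ} (hd : PD e H H') (c : ℝ) :
    PD e (fun y => c * H y) (fun y => c * H' y) := fun y x => (hd y x).const_mul c

lemma PD.const (c : ℝ) : PD e (fun _ : ι → ℝ => c) (fun _ => 0) := fun _ x => hasDerivAt_const x c

lemma PD.exp {H H' : (ι → ℝ) → ℝ} (hd : PD e H H') :
    PD e (fun y => Real.exp (H y)) (fun y => Real.exp (H y) * H' y) := fun y x => (hd y x).exp

lemma PD.log {H H' : (ι → ℝ) → ℝ} (hd : PD e H H') (h0 : ∀ y, H y ≠ 0) :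
    PD e (fun y => Real.log (H y)) (fun y => H' y / H y) := fun y x => (hd y x).log (h0 _)

lemma PD.div {H H' K K' : (ι → ℝ) → ℝ} (hd : PD e H H') (hk : PD e K K') (h0 : ∀ y, K y ≠ 0) :
    PD e (fun y => H y / K y) (fun y => (H' y * K y - H y * K' y) / (K y) ^ 2) :=
  fun y x => (hd y x).div (hk y x) (h0 _)

lemma PD.sum {κ : Type*} (s : Finset κ) {H H' : κ → (ι → ℝ) → ℝ}
    (hd : ∀ a ∈ s, PD e (H a) (H' a)) :
    PD e (fun y => ∑ a ∈ s, H a y) (fun y => ∑ a ∈ s, H' a y) :=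
  fun y x => HasDerivAt.fun_sum fun a ha => hd a ha y x

/-- Composition with a function of one variable. -/
lemma PD.comp {H H' : (ι → ℝ) → ℝ} (hd : PD e H H') {g g' : ℝ → ℝ}
    (hg : ∀ x, HasDerivAt g (g' x) x) : PD e (fun y => g (H y)) (fun y => g' (H y) * H' y) :=
  fun y x => (hg _).comp x (hd y x)

lemma PD.coord (e' : ι) : PD e (fun y : ι → ℝ => y e') (fun _ => if e' = e then 1 else 0) := by
  intro y x
  by_cases h : e' = e
  · subst h
    simp only [Function.update_self, if_true]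
    exact hasDerivAt_id x
  · simp only [Function.update_of_ne h, if_neg h]
    exact hasDerivAt_const x _

/-- A function which does not depend on the coordinate `e`. -/
lemma PD.of_indep {H : (ι → ℝ) → ℝ} (h : ∀ y t, H (Function.update y e t) = H y) :
    PD e H (fun _ => 0) := by
  intro y x
  simp only [h]
  exact hasDerivAt_const x _

omit [Fintype ι] in
lemma mix_update {lev : ι → ℕ} {l : ℕ} (he : lev e ≤ l) (z w : ι → ℝ) (t : ℝ) :
    mix lev l (Function.update z e t) w = Function.update (mix lev l z w) e t := by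
  funext j
  unfold mix
  by_cases hj : j = e
  · subst hj
    rw [Function.update_self, Function.update_self, if_pos he]
  · rw [Function.update_of_ne hj, Function.update_of_ne hj]

/-- Differentiation under the average over the higher levels. -/
lemma PD.J {H H' : (ι → ℝ) → ℝ} (hd : PD e H H') (hg : EG H) (hg' : EG H') {lev : ι → ℕ} {l : ℕ}
    (he : lev e ≤ l) : PD e (Lv.J lev l H) (Lv.J lev l H') := by
  intro y x
  obtain ⟨C, a, hC, ha, h1⟩ := hg'.bdd
  refine (hasDerivAt_integral_of_dominated_loc_of_deriv_le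
    (F := fun t w => H (mix lev l (Function.update y e t) w))
    (F' := fun t w => H' (mix lev l (Function.update y e t) w))
    (bound := fun w => C * Real.exp (a * (‖y‖ + |x| + 1)) * Real.exp (a * ‖w‖))
    (Metric.ball_mem_nhds x one_pos) ?_ ?_ ?_ ?_ ?_ ?_).2
  · exact Filter.Eventually.of_forall fun t => (hg.mix _).aestronglyMeasurable
  · exact hg.mix _
  · exact (hg'.mix _).aestronglyMeasurable
  · refine Filter.Eventually.of_forall fun w t ht => ?_
    rw [Metric.mem_ball, Real.dist_eq] at ht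
    have h2 : ‖mix lev l (Function.update y e t) w‖ ≤ (‖y‖ + |x| + 1) + ‖w‖ := by
      refine (norm_mix_le _ _).trans ?_
      have h3 := norm_update_le y e t
      have h4 : |t| ≤ |x| + 1 := by
        have := abs_add_le (t - x) x
        rw [sub_add_cancel] at this
        linarith
      linarith
    rw [Real.norm_eq_abs]
    calc |H' (mix lev l (Function.update y e t) w)|
        ≤ C * Real.exp (a * ‖mix lev l (Function.update y e t) w‖) := h1 _
      _ ≤ C * Real.exp (a * ((‖y‖ + |x| + 1) + ‖w‖)) := by gcongr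
      _ = C * Real.exp (a * (‖y‖ + |x| + 1)) * Real.exp (a * ‖w‖) := by
          rw [mul_assoc, ← Real.exp_add]
          congr 2
          ring
  · exact (integrable_exp_norm a).const_mul _
  · refine Filter.Eventually.of_forall fun w t _ => ?_
    simp only [mix_update he]
    exact hd _ _

/-- Functions of the levels `≤ l` do not depend on the coordinates of level `> l`. -/
lemma Dep.pd {lev : ι → ℕ} {l : ℕ} {H : (ι → ℝ) → ℝ} (h : Dep lev l H) (he : l < lev e) :
    PD e H (fun _ => 0) := by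
  refine PD.of_indep fun y t => ?_
  rw [← h (Function.update y e t) y]
  congr 1
  funext j
  unfold mix
  by_cases hj : lev j ≤ l
  · rw [if_pos hj, Function.update_of_ne]
    rintro rfl
    omega
  · rw [if_neg hj]

/-- Gaussian integration by parts. -/
lemma PD.stein {H H' : (ι → ℝ) → ℝ} (hd : PD e H H') (hg : EG H) (hg' : EG H') :
    ∫ z, z e * H z ∂(gI ι) = ∫ z, H' z ∂(gI ι) :=
  stein_pi_int e H H' hd hg.integrable ((EG.coord e).mul hg).integrable hg'.integrable

end pd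

end Vale.Agent.P157.Lv
end

section

/-!
The tilted chain of a system: log-weights, densities, tilted conditional averages.
-/

open MeasureTheory ProbabilityTheory Filter Topology

namespace Vale.Agent.P157.Lv

set_option linter.unusedSectionVars false

variable {ι X : Type} [Fintype ι] [Fintype X] [Nonempty X] {S : Sy ι X}

namespace Sy

lemma sum_exp_pos (z : ι → ℝ) : 0 < ∑ x, Real.exp (S.H z x) :=
  Finset.sum_pos (fun _ _ => Real.exp_pos _) Finset.univ_nonempty

lemma Reg.m_mono (hS : S.Reg) {l l' : ℕ} (h : l ≤ l') (hl : l' ≤ S.K + 1) : S.m l ≤ S.m l' := by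
  induction l', h using Nat.le_induction with
  | base => exact le_rfl
  | succ n hn ih => exact (ih (by omega)).trans (hS.mono n (by omega))

lemma Reg.m_pos (hS : S.Reg) {l : ℕ} (hl : 1 ≤ l) (hl' : l ≤ S.K + 1) : 0 < S.m l :=
  lt_of_lt_of_le hS.pos (hS.m_mono hl hl')

lemma Reg.m_le_one (hS : S.Reg) {l : ℕ} (hl : l ≤ S.K + 1) : S.m l ≤ 1 := by
  rw [← hS.mK]
  exact hS.m_mono hl le_rfl

/-! ### The log-weights -/

lemma lg_top (S : Sy ι X) : S.lg S.K = S.top := by
  unfold lg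
  rw [Nat.sub_self]
  rfl

lemma lg_step (S : Sy ι X) {l : ℕ} (hl : l < S.K) : S.lg l = S.stp l (S.lg (l + 1)) := by
  unfold lg
  rw [show S.K - l = (S.K - (l + 1)) + 1 by omega]
  rfl

/-- Downward induction on the levels. -/
lemma down_ind {K : ℕ} {P : ℕ → Prop} (top : P K) (step : ∀ l < K, P (l + 1) → P l) :
    ∀ l ≤ K, P l := by
  intro l hl
  obtain ⟨d, rfl⟩ := Nat.exists_eq_add_of_le hl
  clear hl
  induction d generalizing l with
  | zero => exact top
  | succ d ih =>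
    have e : l + (d + 1) = (l + 1) + d := by omega
    refine step l (by omega) ?_
    have h := ih (l := l + 1)
    rw [← e] at h
    exact h top step

/-- One-sided Lipschitz bound of the logarithm of a sum or an average. -/
lemma lc_log_le {a b c : ℝ} (ha : 0 < a) (hb : 0 < b) (h : a ≤ Real.exp c * b) :
    Real.log a - Real.log b ≤ c := by
  have h1 := Real.log_le_log ha h
  rw [Real.log_mul (Real.exp_pos _).ne' hb.ne', Real.log_exp] at h1
  linarith

lemma Reg.lip_top (hS : S.Reg) : Lip S.top := by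
  choose L hL0 hL using hS.lip
  have hsum0 : 0 ≤ ∑ x, L x := Finset.sum_nonneg fun x _ => hL0 x
  have key : ∀ y y', S.top y - S.top y' ≤ (∑ x, L x) * ‖y - y'‖ := by
    intro y y'
    refine lc_log_le (sum_exp_pos y) (sum_exp_pos y') ?_
    rw [Finset.mul_sum]
    refine Finset.sum_le_sum fun x _ => ?_
    rw [← Real.exp_add]
    apply Real.exp_le_exp.2
    have h1 := (abs_le.1 (hL x y y')).2
    have h2 : L x * ‖y - y'‖ ≤ (∑ x, L x) * ‖y - y'‖ :=
      mul_le_mul_of_nonneg_right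
        (Finset.single_le_sum (fun x _ => hL0 x) (Finset.mem_univ x)) (norm_nonneg _)
    simp only at h1
    linarith
  refine ⟨∑ x, L x, hsum0, fun y y' => ?_⟩
  rw [abs_le]
  have h1 := key y y'
  have h2 := key y' y
  rw [norm_sub_rev] at h2
  exact ⟨by linarith, h1⟩

lemma lc_norm_mix (lev : ι → ℕ) (l : ℕ) (y y' w : ι → ℝ) :
    ‖mix lev l y w - mix lev l y' w‖ ≤ ‖y - y'‖ := by
  rw [pi_norm_le_iff_of_nonneg (norm_nonneg _)]
  intro i
  rw [Pi.sub_apply]
  unfold mix
  split_ifs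
  · exact norm_le_pi_norm (y - y') i
  · rw [sub_self, norm_zero]
    exact norm_nonneg _

lemma lc_lip_stp {F : (ι → ℝ) → ℝ} (hF : Lip F) {l : ℕ} (hm : 0 < S.m (l + 1)) :
    Lip (S.stp l F) := by
  have heg := hF.exp_eg (S.m (l + 1))
  obtain ⟨L, hL0, hL⟩ := hF
  have hpos : ∀ z, 0 < J S.lev l (fun z => Real.exp (S.m (l + 1) * F z)) z :=
    fun z => J_pos heg (fun _ => Real.exp_pos _) z
  have key : ∀ y y', S.stp l F y - S.stp l F y' ≤ L * ‖y - y'‖ := by
    intro y y'
    have h1 : J S.lev l (fun z => Real.exp (S.m (l + 1) * F z)) y ≤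
        Real.exp (S.m (l + 1) * (L * ‖y - y'‖)) *
          J S.lev l (fun z => Real.exp (S.m (l + 1) * F z)) y' := by
      unfold J
      rw [← integral_const_mul]
      refine integral_mono (heg.mix y) ((heg.mix y').const_mul _) fun w => ?_
      simp only
      rw [← Real.exp_add]
      apply Real.exp_le_exp.2
      have h2 := (abs_le.1 (hL (mix S.lev l y w) (mix S.lev l y' w))).2
      have h3 : L * ‖mix S.lev l y w - mix S.lev l y' w‖ ≤ L * ‖y - y'‖ :=
        mul_le_mul_of_nonneg_left (lc_norm_mix _ _ _ _ _) hL0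
      have h4 : F (mix S.lev l y w) ≤ L * ‖y - y'‖ + F (mix S.lev l y' w) := by linarith
      calc S.m (l + 1) * F (mix S.lev l y w)
          ≤ S.m (l + 1) * (L * ‖y - y'‖ + F (mix S.lev l y' w)) :=
            mul_le_mul_of_nonneg_left h4 hm.le
        _ = _ := by ring
    have h5 := lc_log_le (hpos y) (hpos y') h1
    unfold stp
    rw [← mul_sub, one_div, inv_mul_le_iff₀ hm]
    exact h5
  refine ⟨L, hL0, fun y y' => ?_⟩
  rw [abs_le]
  have h1 := key y y'
  have h2 := key y' y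
  rw [norm_sub_rev] at h2
  exact ⟨by linarith, h1⟩

lemma Reg.lip_lg (hS : S.Reg) {l : ℕ} (hl : l ≤ S.K) : Lip (S.lg l) := by
  refine down_ind (P := fun l => Lip (S.lg l)) ?_ ?_ l hl
  · rw [lg_top]
    exact hS.lip_top
  · intro l hl ih
    rw [lg_step S hl]
    exact lc_lip_stp ih (hS.m_pos (by omega) (by omega))

lemma Reg.dep_lg (hS : S.Reg) {l : ℕ} (hl : l ≤ S.K) : Dep S.lev l (S.lg l) := by
  rcases Nat.lt_or_ge l S.K with h | h
  · rw [lg_step S h]
    intro z w
    unfold stp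
    rw [dep_J S.lev l _ z w]
  · have e : l = S.K := le_antisymm hl h
    subst e
    intro z w
    rw [mix_top hS.lev]

lemma Reg.J_exp_lg (hS : S.Reg) {l : ℕ} (hl : l < S.K) (z : ι → ℝ) :
    J S.lev l (fun z => Real.exp (S.m (l + 1) * S.lg (l + 1) z)) z =
      Real.exp (S.m (l + 1) * S.lg l z) := by
  have hm : 0 < S.m (l + 1) := hS.m_pos (by omega) (by omega)
  have heg := (hS.lip_lg (l := l + 1) (by omega)).exp_eg (S.m (l + 1))
  have hpos := J_pos (lev := S.lev) (l := l) heg (fun _ => Real.exp_pos _) z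
  have e : S.lg l z = 1 / S.m (l + 1) *
      Real.log (J S.lev l (fun z => Real.exp (S.m (l + 1) * S.lg (l + 1) z)) z) := by
    rw [lg_step S hl]
    rfl
  rw [e, ← mul_assoc, mul_one_div_cancel hm.ne', one_mul, Real.exp_log hpos]

lemma Reg.integrable_lg (hS : S.Reg) {l : ℕ} (hl : l ≤ S.K) : Integrable (S.lg l) (gI ι) :=
  (hS.lip_lg hl).eg.integrable

/-! ### The densities -/

lemma dn_pos (S : Sy ι X) (l : ℕ) (z : ι → ℝ) : 0 < S.dn l z := Real.exp_pos _

lemma dn_top (S : Sy ι X) (z : ι → ℝ) : S.dn S.K z = 1 := by simp [dn]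

lemma dn_step (S : Sy ι X) {l : ℕ} (hl : l < S.K) (z : ι → ℝ) :
    S.dn l z = Real.exp (S.m (l + 1) * (S.lg (l + 1) z - S.lg l z)) * S.dn (l + 1) z := by
  unfold dn
  rw [← Real.exp_add, Finset.sum_eq_sum_Ico_succ_bot hl]

lemma lc_lip_sum (hS : S.Reg) {a b : ℕ} (hb : b ≤ S.K) :
    Lip fun z => ∑ i ∈ Finset.Ico a b, S.m (i + 1) * (S.lg (i + 1) z - S.lg i z) := by
  refine Lip.sum _ fun i hi => ?_
  rw [Finset.mem_Ico] at hi
  have h1 := hS.lip_lg (l := i + 1) (by omega)
  have h2 := (hS.lip_lg (l := i) (by omega)).const_mul (-1)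
  have h3 := (h1.add h2).const_mul (S.m (i + 1))
  have e : (fun z => S.m (i + 1) * (S.lg (i + 1) z - S.lg i z)) =
      fun z => S.m (i + 1) * (S.lg (i + 1) z + -1 * S.lg i z) := by
    funext z
    ring
  rw [e]
  exact h3

lemma lc_eg_exp {G : (ι → ℝ) → ℝ} (hG : Lip G) : EG fun z => Real.exp (G z) := by
  have h := hG.exp_eg 1
  simp only [one_mul] at h
  exact h

lemma Reg.eg_dn (hS : S.Reg) {l : ℕ} (_hl : l ≤ S.K) : EG (S.dn l) :=
  lc_eg_exp (lc_lip_sum hS le_rfl)

lemma lc_dep_comp {lev : ι → ℕ} {l : ℕ} {f : (ι → ℝ) → ℝ} (hf : Dep lev l f) (g : ℝ → ℝ) :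
    Dep lev l (fun z => g (f z)) := fun z w => congrArg g (hf z w)

lemma lc_dep_add {lev : ι → ℕ} {l : ℕ} {f g : (ι → ℝ) → ℝ} (hf : Dep lev l f)
    (hg : Dep lev l g) : Dep lev l (fun z => f z + g z) := fun z w => by
  simp only [hf z w, hg z w]

lemma lc_dep_mul {lev : ι → ℕ} {l : ℕ} {f g : (ι → ℝ) → ℝ} (hf : Dep lev l f)
    (hg : Dep lev l g) : Dep lev l (fun z => f z * g z) := fun z w => by
  simp only [hf z w, hg z w]

lemma lc_dep_sum {lev : ι → ℕ} {l : ℕ} {κ : Type*} (s : Finset κ) {f : κ → (ι → ℝ) → ℝ}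
    (hf : ∀ i ∈ s, Dep lev l (f i)) : Dep lev l (fun z => ∑ i ∈ s, f i z) := fun z w =>
  Finset.sum_congr rfl fun i hi => hf i hi z w

lemma Reg.J_dn (hS : S.Reg) {l : ℕ} (hl : l ≤ S.K) (z : ι → ℝ) : J S.lev l (S.dn l) z = 1 := by
  revert z
  refine down_ind (P := fun l => ∀ z, J S.lev l (S.dn l) z = 1) ?_ ?_ l hl
  · intro z
    have e : S.dn S.K = fun _ => 1 := funext fun z => dn_top S z
    rw [e, J_const]
  · intro l hl ih z
    have e1 : S.dn l = fun z => Real.exp (S.m (l + 1) * (S.lg (l + 1) z - S.lg l z)) *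
        S.dn (l + 1) z := funext fun z => dn_step S hl z
    have heg := hS.eg_dn hl.le
    rw [← J_J (Nat.le_succ l) heg]
    have hdep : Dep S.lev (l + 1) fun z =>
        Real.exp (S.m (l + 1) * (S.lg (l + 1) z - S.lg l z)) := by
      intro z w
      dsimp only
      rw [hS.dep_lg (l := l + 1) (by omega) z w, (hS.dep_lg hl.le).mono (Nat.le_succ l) z w]
    have e2 : J S.lev l.succ (S.dn l) = fun z =>
        Real.exp (S.m (l + 1) * (S.lg (l + 1) z - S.lg l z)) := by
      funext z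
      rw [e1]
      show J S.lev (l + 1) _ z = _
      rw [hdep.J_mul, ih, mul_one]
    rw [e2]
    have e3 : (fun z => Real.exp (S.m (l + 1) * (S.lg (l + 1) z - S.lg l z))) =
        fun z => Real.exp (-(S.m (l + 1) * S.lg l z)) * Real.exp (S.m (l + 1) * S.lg (l + 1) z) := by
      funext z
      rw [← Real.exp_add]
      congr 1
      ring
    have hdep2 : Dep S.lev l fun z => Real.exp (-(S.m (l + 1) * S.lg l z)) := by
      intro z w
      dsimp only
      rw [hS.dep_lg hl.le z w]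
    rw [e3, hdep2.J_mul, hS.J_exp_lg hl, ← Real.exp_add, neg_add_cancel, Real.exp_zero]

/-! ### The Gibbs average -/

lemma gb_pos (S : Sy ι X) (z : ι → ℝ) (x : X) : 0 < S.gb z x :=
  div_pos (Real.exp_pos _) (sum_exp_pos z)

lemma sum_gb (S : Sy ι X) (z : ι → ℝ) : ∑ x, S.gb z x = 1 := by
  unfold gb
  rw [← Finset.sum_div, div_self (sum_exp_pos z).ne']

lemma Reg.eg_gb (hS : S.Reg) (x : X) : EG (fun z => S.gb z x) := by
  refine EG.of_bdd (C := 1) ?_ ?_
  · unfold gb
    exact ((hS.lip x).measurable.exp).div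
      (Finset.measurable_sum _ fun x' _ => (hS.lip x').measurable.exp)
  · intro y
    rw [abs_of_pos (gb_pos S y x), ← sum_gb S y]
    exact Finset.single_le_sum (f := fun x => S.gb y x) (fun x _ => (gb_pos S y x).le)
      (Finset.mem_univ x)

lemma av_add (S : Sy ι X) (f g : (ι → ℝ) → X → ℝ) (z : ι → ℝ) :
    S.av (fun z x => f z x + g z x) z = S.av f z + S.av g z := by
  unfold av
  rw [← Finset.sum_add_distrib]
  exact Finset.sum_congr rfl fun x _ => mul_add _ _ _

lemma av_sub (S : Sy ι X) (f g : (ι → ℝ) → X → ℝ) (z : ι → ℝ) :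
    S.av (fun z x => f z x - g z x) z = S.av f z - S.av g z := by
  unfold av
  rw [← Finset.sum_sub_distrib]
  exact Finset.sum_congr rfl fun x _ => mul_sub _ _ _

lemma av_sum (S : Sy ι X) {κ : Type*} (s : Finset κ) (f : κ → (ι → ℝ) → X → ℝ) (z : ι → ℝ) :
    S.av (fun z x => ∑ i ∈ s, f i z x) z = ∑ i ∈ s, S.av (f i) z := by
  unfold av
  rw [Finset.sum_comm]
  exact Finset.sum_congr rfl fun x _ => Finset.mul_sum _ _ _

/-- Functions of the Gaussian coordinates can be taken out of the Gibbs average. -/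
lemma av_mul_left (S : Sy ι X) (φ : (ι → ℝ) → ℝ) (f : (ι → ℝ) → X → ℝ) (z : ι → ℝ) :
    S.av (fun z x => φ z * f z x) z = φ z * S.av f z := by
  unfold av
  rw [Finset.mul_sum]
  exact Finset.sum_congr rfl fun x _ => by ring

lemma av_fst (S : Sy ι X) (φ : (ι → ℝ) → ℝ) (z : ι → ℝ) : S.av (fun z _ => φ z) z = φ z := by
  unfold av
  rw [← Finset.sum_mul, sum_gb, one_mul]

lemma av_mono (S : Sy ι X) {f g : (ι → ℝ) → X → ℝ} {z : ι → ℝ} (h : ∀ x, f z x ≤ g z x) :
    S.av f z ≤ S.av g z :=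
  Finset.sum_le_sum fun x _ => mul_le_mul_of_nonneg_left (h x) (gb_pos S z x).le

lemma sq_av_le (S : Sy ι X) (f : (ι → ℝ) → X → ℝ) (z : ι → ℝ) :
    S.av f z ^ 2 ≤ S.av (fun z x => f z x ^ 2) z := by
  obtain ⟨c, hc⟩ : ∃ c, c = S.av f z := ⟨_, rfl⟩
  have h0 : 0 ≤ S.av (fun z x => (f z x - c) ^ 2) z :=
    Finset.sum_nonneg fun x _ => mul_nonneg (gb_pos S z x).le (sq_nonneg _)
  have h1 : S.av (fun z x => (f z x - c) ^ 2) z =
      S.av (fun z x => f z x ^ 2) z - 2 * c * S.av f z + c ^ 2 := by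
    have e : (fun (z : ι → ℝ) (x : X) => (f z x - c) ^ 2) =
        fun z x => (f z x ^ 2 - (fun _ => 2 * c) z * f z x) + (fun _ _ => c ^ 2) z x := by
      funext z x
      ring
    rw [e, av_add S, av_sub S, av_mul_left S, av_fst S (fun _ => c ^ 2)]
  rw [h1, ← hc] at h0
  rw [← hc]
  linarith only [h0]

lemma Reg.eg_av (hS : S.Reg) {h : (ι → ℝ) → X → ℝ} (hh : Nh h) : EG (S.av h) :=
  EG.sum _ fun x _ => (hS.eg_gb x).mul (hh x)

/-! ### Observables -/

lemma Nh.add {f g : (ι → ℝ) → X → ℝ} (hf : Nh f) (hg : Nh g) : Nh fun z x => f z x + g z x :=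
  fun x => (hf x).add (hg x)

lemma Nh.sub {f g : (ι → ℝ) → X → ℝ} (hf : Nh f) (hg : Nh g) : Nh fun z x => f z x - g z x :=
  fun x => (hf x).sub (hg x)

lemma Nh.mul {f g : (ι → ℝ) → X → ℝ} (hf : Nh f) (hg : Nh g) : Nh fun z x => f z x * g z x :=
  fun x => (hf x).mul (hg x)

lemma Nh.const_mul {f : (ι → ℝ) → X → ℝ} (c : ℝ) (hf : Nh f) : Nh fun z x => c * f z x :=
  fun x => (hf x).const_mul c

lemma Nh.abs {f : (ι → ℝ) → X → ℝ} (hf : Nh f) : Nh fun z x => |f z x| := fun x => (hf x).abs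

lemma Nh.pow {f : (ι → ℝ) → X → ℝ} (hf : Nh f) (n : ℕ) : Nh fun z x => f z x ^ n :=
  fun x => (hf x).pow n

lemma Nh.fst {φ : (ι → ℝ) → ℝ} (h : EG φ) : Nh (X := X) fun z _ => φ z := fun _ => h

lemma Nh.snd (f : X → ℝ) : Nh (ι := ι) fun _ x => f x := fun _ => EG.const _

lemma Nh.sum {κ : Type*} (s : Finset κ) {f : κ → (ι → ℝ) → X → ℝ} (hf : ∀ i ∈ s, Nh (f i)) :
    Nh fun z x => ∑ i ∈ s, f i z x := fun x => EG.sum s fun i hi => hf i hi x

/-! ### The tilted conditional average -/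

lemma Reg.eg_T (hS : S.Reg) {l : ℕ} (hl : l ≤ S.K) {h : (ι → ℝ) → X → ℝ} (hh : Nh h) :
    EG (S.T l h) := ((hS.eg_dn hl).mul (hS.eg_av hh)).J _ _

lemma dep_T (S : Sy ι X) (l : ℕ) (h : (ι → ℝ) → X → ℝ) : Dep S.lev l (S.T l h) := dep_J _ _ _

lemma Reg.T_add (hS : S.Reg) {l : ℕ} (hl : l ≤ S.K) {f g : (ι → ℝ) → X → ℝ} (hf : Nh f)
    (hg : Nh g) (z : ι → ℝ) : S.T l (fun z x => f z x + g z x) z = S.T l f z + S.T l g z := by
  unfold T
  rw [← J_add ((hS.eg_dn hl).mul (hS.eg_av hf)) ((hS.eg_dn hl).mul (hS.eg_av hg))]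
  congr 1
  funext z
  rw [av_add S, mul_add]

lemma Reg.T_sub (hS : S.Reg) {l : ℕ} (hl : l ≤ S.K) {f g : (ι → ℝ) → X → ℝ} (hf : Nh f)
    (hg : Nh g) (z : ι → ℝ) : S.T l (fun z x => f z x - g z x) z = S.T l f z - S.T l g z := by
  unfold T
  rw [← J_sub ((hS.eg_dn hl).mul (hS.eg_av hf)) ((hS.eg_dn hl).mul (hS.eg_av hg))]
  congr 1
  funext z
  rw [av_sub S, mul_sub]

lemma Reg.T_sum (hS : S.Reg) {l : ℕ} (hl : l ≤ S.K) {κ : Type*} (s : Finset κ)
    {f : κ → (ι → ℝ) → X → ℝ} (hf : ∀ i ∈ s, Nh (f i)) (z : ι → ℝ) :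
    S.T l (fun z x => ∑ i ∈ s, f i z x) z = ∑ i ∈ s, S.T l (f i) z := by
  unfold T
  rw [← J_sum s fun i hi => (hS.eg_dn hl).mul (hS.eg_av (hf i hi))]
  congr 1
  funext z
  rw [av_sum S, Finset.mul_sum]

lemma T_const_mul (S : Sy ι X) (l : ℕ) (c : ℝ) (f : (ι → ℝ) → X → ℝ) (z : ι → ℝ) :
    S.T l (fun z x => c * f z x) z = c * S.T l f z := by
  unfold T
  rw [← J_const_mul]
  congr 1
  funext z
  rw [av_mul_left S (fun _ => c)]
  ring

/-- Functions of the levels at most `l` can be taken out. -/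
lemma T_mul_left (S : Sy ι X) {l : ℕ} {φ : (ι → ℝ) → ℝ} (hφ : Dep S.lev l φ)
    (f : (ι → ℝ) → X → ℝ) (z : ι → ℝ) : S.T l (fun z x => φ z * f z x) z = φ z * S.T l f z := by
  unfold T
  rw [← hφ.J_mul]
  congr 1
  funext z
  rw [av_mul_left S φ]
  ring

lemma Reg.T_fst (hS : S.Reg) {l : ℕ} (hl : l ≤ S.K) {φ : (ι → ℝ) → ℝ} (hφ : Dep S.lev l φ)
    (z : ι → ℝ) : S.T l (fun z _ => φ z) z = φ z := by
  have e : S.T l (fun z _ => φ z) z = J S.lev l (fun z => φ z * S.dn l z) z := by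
    unfold T
    congr 1
    funext z
    rw [av_fst S φ, mul_comm]
  rw [e, hφ.J_mul, hS.J_dn hl, mul_one]

lemma Reg.T_const (hS : S.Reg) {l : ℕ} (hl : l ≤ S.K) (c : ℝ) (z : ι → ℝ) :
    S.T l (fun _ _ => c) z = c := hS.T_fst hl (φ := fun _ => c) (fun _ _ => rfl) z

lemma Reg.T_mono (hS : S.Reg) {l : ℕ} (hl : l ≤ S.K) {f g : (ι → ℝ) → X → ℝ} (hf : Nh f)
    (hg : Nh g) (h : ∀ z x, f z x ≤ g z x) (z : ι → ℝ) : S.T l f z ≤ S.T l g z :=
  J_mono ((hS.eg_dn hl).mul (hS.eg_av hf)) ((hS.eg_dn hl).mul (hS.eg_av hg))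
    (fun z => mul_le_mul_of_nonneg_left (av_mono S (h z)) (dn_pos S l z).le) z

lemma Reg.abs_T_le (hS : S.Reg) {l : ℕ} (hl : l ≤ S.K) {f : (ι → ℝ) → X → ℝ} (hf : Nh f)
    {C : ℝ} (h : ∀ z x, |f z x| ≤ C) (z : ι → ℝ) : |S.T l f z| ≤ C := by
  rw [abs_le]
  constructor
  · rw [← hS.T_const hl (-C) z]
    exact hS.T_mono hl (fun _ => EG.const _) hf (fun z x => (abs_le.1 (h z x)).1) z
  · rw [← hS.T_const hl C z]
    exact hS.T_mono hl hf (fun _ => EG.const _) (fun z x => (abs_le.1 (h z x)).2) z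

/-- Jensen. -/
lemma Reg.sq_T_le (hS : S.Reg) {l : ℕ} (hl : l ≤ S.K) {f : (ι → ℝ) → X → ℝ} (hf : Nh f)
    (z : ι → ℝ) : S.T l f z ^ 2 ≤ S.T l (fun z x => f z x ^ 2) z := by
  obtain ⟨c, hc⟩ : ∃ c, c = S.T l f z := ⟨_, rfl⟩
  have h0 : 0 ≤ S.T l (fun z x => (f z x - c) ^ 2) z := by
    have h1 := hS.T_mono hl (f := fun _ _ => 0) (g := fun z x => (f z x - c) ^ 2)
      (fun _ => EG.const _) (Nh.pow (Nh.sub hf (fun _ => EG.const c)) 2)
      (fun z x => sq_nonneg _) z
    rwa [hS.T_const hl] at h1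
  have h1 : S.T l (fun z x => (f z x - c) ^ 2) z =
      S.T l (fun z x => f z x ^ 2) z - 2 * c * S.T l f z + c ^ 2 := by
    have e : (fun (z : ι → ℝ) (x : X) => (f z x - c) ^ 2) =
        fun z x => (f z x ^ 2 - 2 * c * f z x) + c ^ 2 := by
      funext z x
      ring
    rw [e, hS.T_add hl (Nh.sub (Nh.pow hf 2) (Nh.const_mul _ hf)) (fun _ => EG.const _),
      hS.T_sub hl (Nh.pow hf 2) (Nh.const_mul _ hf), T_const_mul, hS.T_const hl]
  rw [h1, ← hc] at h0
  rw [← hc]
  linarith only [h0]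

lemma Reg.T_top (hS : S.Reg) (f : (ι → ℝ) → X → ℝ) (z : ι → ℝ) : S.T S.K f z = S.av f z := by
  unfold T J
  simp only [mix_top hS.lev, dn_top, one_mul]
  simp

/-- The tower property. -/
lemma Reg.T_T (hS : S.Reg) {l l' : ℕ} (hl : l ≤ l') (hl' : l' ≤ S.K) {f : (ι → ℝ) → X → ℝ}
    (hf : Nh f) (z : ι → ℝ) : S.T l (fun z _ => S.T l' f z) z = S.T l f z := by
  have hll : l ≤ S.K := hl.trans hl'
  obtain ⟨P, hP⟩ : ∃ P : (ι → ℝ) → ℝ, P = fun z =>
    Real.exp (∑ i ∈ Finset.Ico l l', S.m (i + 1) * (S.lg (i + 1) z - S.lg i z)) := ⟨_, rfl⟩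
  have hdn : ∀ z, S.dn l z = P z * S.dn l' z := by
    intro z
    rw [hP]
    unfold dn
    rw [← Real.exp_add, Finset.sum_Ico_consecutive _ hl hl']
  have hPd : Dep S.lev l' P := by
    rw [hP]
    intro z w
    dsimp only
    congr 1
    refine Finset.sum_congr rfl fun i hi => ?_
    rw [Finset.mem_Ico] at hi
    rw [(hS.dep_lg (l := i + 1) (by omega)).mono (show i + 1 ≤ l' by omega) z w,
      (hS.dep_lg (l := i) (by omega)).mono (show i ≤ l' by omega) z w]
  have hPe : EG P := by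
    rw [hP]
    exact lc_eg_exp (lc_lip_sum hS hl')
  have hTe := hS.eg_T hl' hf
  have e1 : S.T l (fun z _ => S.T l' f z) z =
      J S.lev l (fun z => (P z * S.T l' f z) * S.dn l' z) z := by
    unfold T
    congr 1
    funext z
    rw [av_fst S (fun z => J S.lev l' (fun z => S.dn l' z * S.av f z) z), hdn]
    ring
  have e2 : S.T l f z = J S.lev l (fun z => P z * (S.dn l' z * S.av f z)) z := by
    unfold T
    congr 1
    funext z
    rw [hdn]
    ring
  have hd2 : Dep S.lev l' fun z => P z * S.T l' f z := lc_dep_mul hPd (dep_T S l' f)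
  rw [e1, e2, ← J_J hl ((hPe.mul hTe).mul (hS.eg_dn hl')),
    ← J_J hl (hPe.mul ((hS.eg_dn hl').mul (hS.eg_av hf)))]
  congr 1
  funext z
  rw [hd2.J_mul, hPd.J_mul, hS.J_dn hl', mul_one]
  rfl

/-! ### The tilted average -/

lemma lc_int (hS : S.Reg) {f : (ι → ℝ) → X → ℝ} (hf : Nh f) :
    Integrable (fun z => S.dn 0 z * S.av f z) (gI ι) :=
  ((hS.eg_dn (Nat.zero_le _)).mul (hS.eg_av hf)).integrable

lemma Reg.Ex_add (hS : S.Reg) {f g : (ι → ℝ) → X → ℝ} (hf : Nh f) (hg : Nh g) :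
    S.Ex (fun z x => f z x + g z x) = S.Ex f + S.Ex g := by
  unfold Ex
  rw [← integral_add (lc_int hS hf) (lc_int hS hg)]
  congr 1
  funext z
  rw [av_add S, mul_add]

lemma Reg.Ex_sub (hS : S.Reg) {f g : (ι → ℝ) → X → ℝ} (hf : Nh f) (hg : Nh g) :
    S.Ex (fun z x => f z x - g z x) = S.Ex f - S.Ex g := by
  unfold Ex
  rw [← integral_sub (lc_int hS hf) (lc_int hS hg)]
  congr 1
  funext z
  rw [av_sub S, mul_sub]

lemma Reg.Ex_sum (hS : S.Reg) {κ : Type*} (s : Finset κ) {f : κ → (ι → ℝ) → X → ℝ}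
    (hf : ∀ i ∈ s, Nh (f i)) : S.Ex (fun z x => ∑ i ∈ s, f i z x) = ∑ i ∈ s, S.Ex (f i) := by
  unfold Ex
  rw [← integral_finsetSum s fun i hi => lc_int hS (hf i hi)]
  congr 1
  funext z
  rw [av_sum S, Finset.mul_sum]

lemma Ex_const_mul (S : Sy ι X) (c : ℝ) (f : (ι → ℝ) → X → ℝ) :
    S.Ex (fun z x => c * f z x) = c * S.Ex f := by
  unfold Ex
  rw [← integral_const_mul]
  congr 1
  funext z
  rw [av_mul_left S (fun _ => c)]
  ring

lemma lc_Ex_T0 (hS : S.Reg) {f : (ι → ℝ) → X → ℝ} (hf : Nh f) :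
    S.Ex f = ∫ z, S.T 0 f z ∂(gI ι) :=
  (integral_J ((hS.eg_dn (Nat.zero_le _)).mul (hS.eg_av hf))).symm

lemma Reg.Ex_const (hS : S.Reg) (c : ℝ) : S.Ex (fun _ _ => c) = c := by
  rw [lc_Ex_T0 hS (fun _ => EG.const c)]
  simp only [hS.T_const (Nat.zero_le _)]
  simp

lemma Reg.Ex_mono (hS : S.Reg) {f g : (ι → ℝ) → X → ℝ} (hf : Nh f) (hg : Nh g)
    (h : ∀ z x, f z x ≤ g z x) : S.Ex f ≤ S.Ex g :=
  integral_mono (lc_int hS hf) (lc_int hS hg)
    fun z => mul_le_mul_of_nonneg_left (av_mono S (h z)) (dn_pos S 0 z).le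

lemma Reg.abs_Ex_le (hS : S.Reg) {f : (ι → ℝ) → X → ℝ} (hf : Nh f) :
    |S.Ex f| ≤ S.Ex (fun z x => |f z x|) := by
  rw [abs_le]
  constructor
  · have h := hS.Ex_mono (f := fun z x => -1 * |f z x|) (Nh.const_mul (-1) (Nh.abs hf)) hf
      (fun z x => by
        have := neg_abs_le (f z x)
        linarith)
    rw [Ex_const_mul] at h
    linarith
  · exact hS.Ex_mono hf (Nh.abs hf) fun z x => le_abs_self _

/-- Cauchy-Schwarz. -/
lemma Reg.Ex_cs (hS : S.Reg) {f g : (ι → ℝ) → X → ℝ} (hf : Nh f) (hg : Nh g) :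
    S.Ex (fun z x => f z x * g z x) ^ 2 ≤
      S.Ex (fun z x => f z x ^ 2) * S.Ex (fun z x => g z x ^ 2) := by
  have h0 : ∀ t : ℝ, 0 ≤ S.Ex (fun z x => g z x ^ 2) * (t * t) +
      (-2 * S.Ex (fun z x => f z x * g z x)) * t + S.Ex (fun z x => f z x ^ 2) := by
    intro t
    have h1 : 0 ≤ S.Ex (fun z x => (f z x - t * g z x) ^ 2) := by
      have h2 := hS.Ex_mono (f := fun _ _ => 0) (g := fun z x => (f z x - t * g z x) ^ 2)
        (fun _ => EG.const _) (Nh.pow (Nh.sub hf (Nh.const_mul t hg)) 2)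
        (fun z x => sq_nonneg _)
      rwa [hS.Ex_const] at h2
    have h2 : S.Ex (fun z x => (f z x - t * g z x) ^ 2) = S.Ex (fun z x => f z x ^ 2) -
        2 * t * S.Ex (fun z x => f z x * g z x) + t * t * S.Ex (fun z x => g z x ^ 2) := by
      have e : (fun (z : ι → ℝ) (x : X) => (f z x - t * g z x) ^ 2) =
          fun z x => (f z x ^ 2 - 2 * t * (f z x * g z x)) + t * t * g z x ^ 2 := by
        funext z x
        ring
      rw [e, hS.Ex_add (Nh.sub (Nh.pow hf 2) (Nh.const_mul _ (Nh.mul hf hg)))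
        (Nh.const_mul _ (Nh.pow hg 2)), hS.Ex_sub (Nh.pow hf 2) (Nh.const_mul _ (Nh.mul hf hg)),
        Ex_const_mul, Ex_const_mul]
    rw [h2] at h1
    linarith
  have h3 := discrim_le_zero h0
  unfold discrim at h3
  linarith only [h3]

lemma Reg.Ex_T (hS : S.Reg) {l : ℕ} (hl : l ≤ S.K) {f : (ι → ℝ) → X → ℝ} (hf : Nh f) :
    S.Ex (fun z _ => S.T l f z) = S.Ex f := by
  rw [lc_Ex_T0 hS (fun _ => hS.eg_T hl hf), lc_Ex_T0 hS hf]
  simp only [hS.T_T (Nat.zero_le _) hl hf]

lemma Reg.Ex_mul_T (hS : S.Reg) {l : ℕ} (hl : l ≤ S.K) {φ : (ι → ℝ) → ℝ} (hφ : Dep S.lev l φ)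
    (hφe : EG φ) {f : (ι → ℝ) → X → ℝ} (hf : Nh f) :
    S.Ex (fun z _ => φ z * S.T l f z) = S.Ex (fun z x => φ z * f z x) := by
  rw [← hS.Ex_T hl (f := fun z x => φ z * f z x) (fun x => hφe.mul (hf x))]
  congr 1
  funext z _
  rw [T_mul_left S hφ]

/-- At the level zero the law is not tilted. -/
lemma Reg.Ex_dep (hS : S.Reg) {φ : (ι → ℝ) → ℝ} (hφ : Dep S.lev 0 φ) (hφe : EG φ) :
    S.Ex (fun z _ => φ z) = ∫ z, φ z ∂(gI ι) := by
  rw [lc_Ex_T0 hS (fun _ => hφe)]
  simp only [hS.T_fst (Nat.zero_le _) hφ]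

end Sy

end Vale.Agent.P157.Lv
end

section

/-!
Comparison of two systems which differ by their energies.
-/

open MeasureTheory ProbabilityTheory Filter Topology

namespace Vale.Agent.P157.Lv

set_option linter.unusedSectionVars false

variable {ι X : Type} [Fintype ι] [Fintype X] [Nonempty X] {S : Sy ι X}
  {H' : (ι → ℝ) → X → ℝ}

namespace Sy

/-! ### One step of the recursion -/

/-- The density of one step. -/
noncomputable def pW (S : Sy ι X) (l : ℕ) (z : ι → ℝ) : ℝ :=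
  Real.exp (S.m (l + 1) * (S.lg (l + 1) z - S.lg l z))

lemma pW_pos (S : Sy ι X) (l : ℕ) (z : ι → ℝ) : 0 < S.pW l z := Real.exp_pos _

lemma Reg.pW_dep (hS : S.Reg) {l : ℕ} (hl : l < S.K) : Dep S.lev (l + 1) (S.pW l) := by
  intro z w
  have h1 := hS.dep_lg (l := l + 1) hl z w
  have h2 := Dep.mono (Nat.le_succ l) (hS.dep_lg hl.le) z w
  unfold pW
  rw [h1, h2]

lemma Reg.pW_eg (hS : S.Reg) {l : ℕ} (hl : l < S.K) : EG (S.pW l) := by
  have h1 := (hS.lip_lg (l := l + 1) hl).add ((hS.lip_lg hl.le).const_mul (-1))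
  have h2 := h1.exp_eg (S.m (l + 1))
  have h3 : S.pW l = fun y => Real.exp (S.m (l + 1) * (S.lg (l + 1) y + -1 * S.lg l y)) := by
    funext y
    unfold pW
    congr 1
    ring
  rw [h3]
  exact h2

/-- `exp (m (lg' l - lg l))` is the tilted average of `exp (m (lg' (l + 1) - lg (l + 1)))`. -/
lemma Reg.J_pW_exp (hS : S.Reg) (hS' : (S.wH H').Reg) {l : ℕ} (hl : l < S.K) (z : ι → ℝ) :
    J S.lev l (fun z => S.pW l z *
      Real.exp (S.m (l + 1) * ((S.wH H').lg (l + 1) z - S.lg (l + 1) z))) z =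
      Real.exp (S.m (l + 1) * ((S.wH H').lg l z - S.lg l z)) := by
  have h1 := hS'.J_exp_lg (l := l) hl z
  have h2 : Dep S.lev l (fun z => Real.exp (-(S.m (l + 1) * S.lg l z))) := by
    intro z w
    simp only [hS.dep_lg hl.le z w]
  have h3 := h2.J_mul (fun z => Real.exp (S.m (l + 1) * (S.wH H').lg (l + 1) z)) z
  have h4 : (fun z => S.pW l z *
      Real.exp (S.m (l + 1) * ((S.wH H').lg (l + 1) z - S.lg (l + 1) z))) =
      fun z => Real.exp (-(S.m (l + 1) * S.lg l z)) *
        Real.exp (S.m (l + 1) * (S.wH H').lg (l + 1) z) := by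
    funext y
    unfold pW
    rw [← Real.exp_add, ← Real.exp_add]
    congr 1
    ring
  rw [h4, h3]
  have h5 : J S.lev l (fun z => Real.exp (S.m (l + 1) * (S.wH H').lg (l + 1) z)) z =
      Real.exp (S.m (l + 1) * (S.wH H').lg l z) := h1
  rw [h5, ← Real.exp_add]
  congr 1
  ring

lemma Reg.J_pW (hS : S.Reg) {l : ℕ} (hl : l < S.K) (z : ι → ℝ) : J S.lev l (S.pW l) z = 1 := by
  have h1 : (S.wH S.H) = S := rfl
  have h := Reg.J_pW_exp (H' := S.H) hS (by rw [h1]; exact hS) hl z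
  rw [h1] at h
  simpa using h

lemma Reg.T_step (hS : S.Reg) {l : ℕ} (hl : l < S.K) {h : (ι → ℝ) → X → ℝ} (hh : Nh h)
    (z : ι → ℝ) : S.T l h z = J S.lev l (fun z => S.pW l z * S.T (l + 1) h z) z := by
  have h1 : (fun z => S.dn l z * S.av h z) =
      fun z => S.pW l z * (S.dn (l + 1) z * S.av h z) := by
    funext y
    rw [S.dn_step hl y]
    unfold pW
    ring
  have h2 : (fun z => S.pW l z * S.T (l + 1) h z) =
      J S.lev (l + 1) (fun z => S.pW l z * (S.dn (l + 1) z * S.av h z)) := by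
    funext y
    exact ((hS.pW_dep hl).J_mul (fun z => S.dn (l + 1) z * S.av h z) y).symm
  rw [h2, J_J (Nat.le_succ l) ((hS.pW_eg hl).mul ((hS.eg_dn (l := l + 1) hl).mul (hS.eg_av hh))) z]
  unfold T
  rw [h1]

/-- The comparison of `top`. -/
lemma exp_top_sub (z : ι → ℝ) :
    Real.exp ((S.wH H').top z - S.top z) = ∑ x, S.gb z x * Real.exp (H' z x - S.H z x) := by
  have h1 := S.sum_exp_pos z
  have h2 := (S.wH H').sum_exp_pos z
  unfold top
  rw [Real.exp_sub, Real.exp_log h2, Real.exp_log h1, Finset.sum_div]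
  refine Finset.sum_congr rfl fun x _ => ?_
  unfold gb
  rw [Real.exp_sub]
  have h3 := Real.exp_pos (S.H z x)
  change Real.exp (H' z x) / _ = _
  field_simp

lemma gb_eq (S : Sy ι X) (z : ι → ℝ) (x : X) : S.gb z x = Real.exp (S.H z x - S.top z) := by
  unfold gb top
  rw [Real.exp_sub, Real.exp_log (S.sum_exp_pos z)]

lemma Reg.lip_diff (hS : S.Reg) (hS' : (S.wH H').Reg) (x : X) :
    Lip fun z => H' z x - S.H z x := by
  have h1 : Lip fun z => H' z x := hS'.lip x
  have h2 := h1.add ((hS.lip x).const_mul (-1))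
  have h3 : (fun z => H' z x - S.H z x) = fun z => H' z x + -1 * S.H z x := by
    funext y
    ring
  rw [h3]
  exact h2

lemma Reg.nh_diff (hS : S.Reg) (hS' : (S.wH H').Reg) : Nh fun z x => H' z x - S.H z x :=
  fun x => (hS.lip_diff hS' x).eg

/-- The differences of the log-weights. -/
noncomputable def pD (S : Sy ι X) (H' : (ι → ℝ) → X → ℝ) (l : ℕ) (z : ι → ℝ) : ℝ :=
  (S.wH H').lg l z - S.lg l z

lemma Reg.lip_pD (hS : S.Reg) (hS' : (S.wH H').Reg) {l : ℕ} (hl : l ≤ S.K) :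
    Lip (S.pD H' l) := by
  have h1 : Lip ((S.wH H').lg l) := hS'.lip_lg hl
  have h2 := h1.add ((hS.lip_lg hl).const_mul (-1))
  have h3 : S.pD H' l = fun z => (S.wH H').lg l z + -1 * S.lg l z := by
    funext y
    unfold pD
    ring
  rw [h3]
  exact h2

/-- Pointwise version. -/
theorem Reg.jensen_lg (hS : S.Reg) (hS' : (S.wH H').Reg) {l : ℕ} (hl : l ≤ S.K) (z : ι → ℝ) :
    S.T l (fun z x => H' z x - S.H z x) z ≤ (S.wH H').lg l z - S.lg l z := by
  have key : ∀ l ≤ S.K, ∀ z, S.T l (fun z x => H' z x - S.H z x) z ≤ S.pD H' l z := by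
    refine down_ind (P := fun l => ∀ z, S.T l (fun z x => H' z x - S.H z x) z ≤ S.pD H' l z)
      ?_ ?_
    · intro z
      rw [hS.T_top]
      unfold pD
      rw [lg_top S]
      have h1 : (S.wH H').lg S.K = (S.wH H').top := lg_top (S.wH H')
      rw [h1, ← Real.exp_le_exp, exp_top_sub]
      have h2 := convexOn_exp.map_sum_le (t := Finset.univ) (w := fun x => S.gb z x)
        (p := fun x => H' z x - S.H z x) (fun x _ => (S.gb_pos z x).le) (S.sum_gb z)
        (fun x _ => Set.mem_univ _)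
      simpa [av, smul_eq_mul] using h2
    · intro l hl ih z
      rw [hS.T_step hl (hS.nh_diff hS') z]
      have hm : 0 < S.m (l + 1) := hS.m_pos (by omega) (by omega)
      have hW := hS.pW_eg hl
      have hD := hS.lip_pD hS' (l := l + 1) hl
      have h1 : J S.lev l (fun z => S.pW l z * S.T (l + 1) (fun z x => H' z x - S.H z x) z) z ≤
          J S.lev l (fun z => S.pW l z * S.pD H' (l + 1) z) z :=
        J_mono (hW.mul (hS.eg_T (l := l + 1) hl (hS.nh_diff hS'))) (hW.mul hD.eg)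
          (fun y => mul_le_mul_of_nonneg_left (ih y) (S.pW_pos l y).le) z
      refine h1.trans ?_
      set a : ℝ := J S.lev l (fun z => S.pW l z * S.pD H' (l + 1) z) z with ha
      have h2 := hS.J_pW_exp hS' hl z
      have h3 : Real.exp (S.m (l + 1) * a) ≤ Real.exp (S.m (l + 1) * S.pD H' l z) := by
        have h4 : J S.lev l (fun z => Real.exp (S.m (l + 1) * a) * (S.pW l z +
            (S.m (l + 1) * (S.pW l z * S.pD H' (l + 1) z) -
              S.m (l + 1) * a * S.pW l z))) z ≤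
            J S.lev l (fun z => S.pW l z * Real.exp (S.m (l + 1) * S.pD H' (l + 1) z)) z := by
          refine J_mono ?_ (hW.mul (hD.exp_eg _)) (fun y => ?_) z
          · exact (hW.add (((hW.mul hD.eg).const_mul _).sub (hW.const_mul _))).const_mul _
          · have h5 := Real.add_one_le_exp
              (S.m (l + 1) * S.pD H' (l + 1) y - S.m (l + 1) * a)
            have h6 : Real.exp (S.m (l + 1) * S.pD H' (l + 1) y) =
                Real.exp (S.m (l + 1) * a) *
                  Real.exp (S.m (l + 1) * S.pD H' (l + 1) y - S.m (l + 1) * a) := by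
              rw [← Real.exp_add]
              congr 1
              ring
            rw [h6]
            have h7 := mul_le_mul_of_nonneg_left h5
              (mul_pos (Real.exp_pos (S.m (l + 1) * a)) (S.pW_pos l y)).le
            linarith only [h7]
        rw [J_const_mul, J_add hW (((hW.mul hD.eg).const_mul _).sub (hW.const_mul _)),
          J_sub ((hW.mul hD.eg).const_mul _) (hW.const_mul _), J_const_mul, J_const_mul,
          ← ha, hS.J_pW hl z] at h4
        have h8 : J S.lev l (fun z => S.pW l z * Real.exp (S.m (l + 1) * S.pD H' (l + 1) z)) z =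
          Real.exp (S.m (l + 1) * S.pD H' l z) := h2
        rw [h8] at h4
        calc Real.exp (S.m (l + 1) * a) = Real.exp (S.m (l + 1) * a) *
            (1 + (S.m (l + 1) * a - S.m (l + 1) * a * 1)) := by ring
          _ ≤ _ := h4
      rw [Real.exp_le_exp] at h3
      exact le_of_mul_le_mul_left h3 hm
  exact key l hl z

lemma Reg.Ex_eq_T (hS : S.Reg) {h : (ι → ℝ) → X → ℝ} (hh : Nh h) :
    S.Ex h = ∫ z, S.T 0 h z ∂(gI ι) := by
  unfold Ex T
  rw [integral_J ((hS.eg_dn (Nat.zero_le _)).mul (hS.eg_av hh))]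

lemma Reg.fe_sub (hS : S.Reg) (hS' : (S.wH H').Reg) :
    (S.wH H').fe - S.fe = ∫ z, S.pD H' 0 z ∂(gI ι) := by
  unfold fe pD
  rw [integral_sub (hS'.integrable_lg (Nat.zero_le _)) (hS.integrable_lg (Nat.zero_le _))]

/-- Jensen's inequality: the free energy is above its tangents. -/
theorem Reg.jensen (hS : S.Reg) (hS' : (S.wH H').Reg) :
    S.Ex (fun z x => H' z x - S.H z x) ≤ (S.wH H').fe - S.fe := by
  rw [hS.Ex_eq_T (hS.nh_diff hS'), hS.fe_sub hS']
  refine integral_mono (hS.eg_T (Nat.zero_le _) (hS.nh_diff hS')).integrable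
    (hS.lip_pD hS' (Nat.zero_le _)).eg.integrable fun z => ?_
  exact hS.jensen_lg hS' (Nat.zero_le _) z

theorem Reg.lg_sub_le (hS : S.Reg) (hS' : (S.wH H').Reg) {B : ℝ}
    (hB : ∀ z x, |H' z x - S.H z x| ≤ B) {l : ℕ} (hl : l ≤ S.K) (z : ι → ℝ) :
    |(S.wH H').lg l z - S.lg l z| ≤ B := by
  have key : ∀ l ≤ S.K, ∀ z, |S.pD H' l z| ≤ B := by
    refine down_ind (P := fun l => ∀ z, |S.pD H' l z| ≤ B) ?_ ?_
    · intro z
      unfold pD
      rw [lg_top S]
      have h1 : (S.wH H').lg S.K = (S.wH H').top := lg_top (S.wH H')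
      rw [h1, abs_le]
      constructor
      · rw [← Real.exp_le_exp, exp_top_sub]
        calc Real.exp (-B) = ∑ x, S.gb z x * Real.exp (-B) := by
              rw [← Finset.sum_mul, S.sum_gb z, one_mul]
          _ ≤ _ := Finset.sum_le_sum fun x _ => mul_le_mul_of_nonneg_left
              (Real.exp_le_exp.2 (abs_le.1 (hB z x)).1) (S.gb_pos z x).le
      · rw [← Real.exp_le_exp, exp_top_sub]
        calc _ ≤ ∑ x, S.gb z x * Real.exp B := Finset.sum_le_sum fun x _ =>
              mul_le_mul_of_nonneg_left (Real.exp_le_exp.2 (abs_le.1 (hB z x)).2)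
                (S.gb_pos z x).le
          _ = Real.exp B := by rw [← Finset.sum_mul, S.sum_gb z, one_mul]
    · intro l hl ih z
      have hm : 0 < S.m (l + 1) := hS.m_pos (by omega) (by omega)
      have hW := hS.pW_eg hl
      have hD := hS.lip_pD hS' (l := l + 1) hl
      have h2 : J S.lev l (fun z => S.pW l z * Real.exp (S.m (l + 1) * S.pD H' (l + 1) z)) z =
          Real.exp (S.m (l + 1) * S.pD H' l z) := hS.J_pW_exp hS' hl z
      have hc : ∀ c : ℝ, J S.lev l (fun z => c * S.pW l z) z = c := by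
        intro c
        rw [J_const_mul, hS.J_pW hl z, mul_one]
      rw [abs_le]
      constructor
      · have h3 : Real.exp (S.m (l + 1) * -B) ≤ Real.exp (S.m (l + 1) * S.pD H' l z) := by
          rw [← h2, ← hc (Real.exp (S.m (l + 1) * -B))]
          refine J_mono (hW.const_mul _) (hW.mul (hD.exp_eg _)) (fun y => ?_) z
          rw [mul_comm]
          refine mul_le_mul_of_nonneg_left (Real.exp_le_exp.2 ?_) (S.pW_pos l y).le
          exact mul_le_mul_of_nonneg_left (abs_le.1 (ih y)).1 hm.le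
        rw [Real.exp_le_exp] at h3
        exact le_of_mul_le_mul_left h3 hm
      · have h3 : Real.exp (S.m (l + 1) * S.pD H' l z) ≤ Real.exp (S.m (l + 1) * B) := by
          rw [← h2, ← hc (Real.exp (S.m (l + 1) * B))]
          refine J_mono (hW.mul (hD.exp_eg _)) (hW.const_mul _) (fun y => ?_) z
          rw [mul_comm (Real.exp (S.m (l + 1) * B))]
          refine mul_le_mul_of_nonneg_left (Real.exp_le_exp.2 ?_) (S.pW_pos l y).le
          exact mul_le_mul_of_nonneg_left (abs_le.1 (ih y)).2 hm.le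
        rw [Real.exp_le_exp] at h3
        exact le_of_mul_le_mul_left h3 hm
  exact key l hl z

theorem Reg.fe_sub_le (hS : S.Reg) (hS' : (S.wH H').Reg) {B : ℝ}
    (hB : ∀ z x, |H' z x - S.H z x| ≤ B) : |(S.wH H').fe - S.fe| ≤ B := by
  rw [hS.fe_sub hS']
  have h1 := norm_integral_le_of_norm_le_const (μ := gI ι) (f := S.pD H' 0) (C := B)
    (Filter.Eventually.of_forall fun z => by
      rw [Real.norm_eq_abs]
      exact hS.lg_sub_le hS' hB (Nat.zero_le _) z)
  simpa using h1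

/-- Comparison of the densities. Proof: with `Φ_i = lg' i - lg i`, `|Φ_i| ≤ B`, the logarithm of
the ratio is `H' - H - Φ_K + ∑_{i=l}^{K-1} m_{i+1} (Φ_{i+1} - Φ_i)` and one sums by parts. -/
theorem Reg.dn_gb_le (hS : S.Reg) (hS' : (S.wH H').Reg) {B : ℝ}
    (hB : ∀ z x, |H' z x - S.H z x| ≤ B) {l : ℕ} (hl : l ≤ S.K) (z : ι → ℝ) (x : X) :
    (S.wH H').dn l z * (S.wH H').gb z x ≤ Real.exp (2 * B) * (S.dn l z * S.gb z x) := by
  have hΦ : ∀ i ≤ S.K, |S.pD H' i z| ≤ B := fun i hi => hS.lg_sub_le hS' hB hi z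
  have key : ∀ l ≤ S.K, (∑ i ∈ Finset.Ico l S.K, S.m (i + 1) *
      (S.pD H' (i + 1) z - S.pD H' i z)) - S.pD H' S.K z ≤
      -(S.m (l + 1) * S.pD H' l z) + (1 - S.m (l + 1)) * B := by
    refine down_ind ?_ ?_
    · rw [Finset.Ico_self, Finset.sum_empty, hS.mK]
      linarith
    · intro l hl ih
      rw [Finset.sum_eq_sum_Ico_succ_bot hl]
      have h1 := hS.mono (l + 1) hl
      have h2 := (abs_le.1 (hΦ (l + 1) hl)).1
      linarith only [mul_le_mul_of_nonneg_left h2 (sub_nonneg.2 h1), ih]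
  have h1 := key l hl
  have hm0 : 0 < S.m (l + 1) := hS.m_pos (by omega) (by omega)
  have h2 := (abs_le.1 (hΦ l hl)).1
  have h3 : (∑ i ∈ Finset.Ico l S.K, S.m (i + 1) *
      (S.pD H' (i + 1) z - S.pD H' i z)) - S.pD H' S.K z ≤ B := by
    linarith only [mul_le_mul_of_nonneg_left h2 hm0.le, h1]
  have h4 := (abs_le.1 (hB z x)).2
  rw [gb_eq, gb_eq]
  unfold dn
  rw [← Real.exp_add, ← Real.exp_add, ← Real.exp_add, Real.exp_le_exp]
  have h5 : (∑ i ∈ Finset.Ico l S.K, S.m (i + 1) *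
      (S.pD H' (i + 1) z - S.pD H' i z)) =
      (∑ i ∈ Finset.Ico l S.K, S.m (i + 1) * ((S.wH H').lg (i + 1) z - (S.wH H').lg i z)) -
      ∑ i ∈ Finset.Ico l S.K, S.m (i + 1) * (S.lg (i + 1) z - S.lg i z) := by
    rw [← Finset.sum_sub_distrib]
    refine Finset.sum_congr rfl fun i _ => ?_
    unfold pD
    ring
  have h6 : S.pD H' S.K z = (S.wH H').top z - S.top z := by
    unfold pD
    rw [lg_top S]
    have h7 : (S.wH H').lg S.K = (S.wH H').top := lg_top (S.wH H')
    rw [h7]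
  rw [h5, h6] at h3
  have h8 : (∑ i ∈ Finset.Ico l (S.wH H').K, (S.wH H').m (i + 1) *
      ((S.wH H').lg (i + 1) z - (S.wH H').lg i z)) =
      ∑ i ∈ Finset.Ico l S.K, S.m (i + 1) * ((S.wH H').lg (i + 1) z - (S.wH H').lg i z) := rfl
  have h9 : (S.wH H').H z x = H' z x := rfl
  rw [h8, h9]
  linarith

lemma Reg.dn_av_le (hS : S.Reg) (hS' : (S.wH H').Reg) {B : ℝ}
    (hB : ∀ z x, |H' z x - S.H z x| ≤ B) {l : ℕ} (hl : l ≤ S.K) {h : (ι → ℝ) → X → ℝ}
    (h0 : ∀ z x, 0 ≤ h z x) (z : ι → ℝ) :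
    (S.wH H').dn l z * (S.wH H').av h z ≤ Real.exp (2 * B) * (S.dn l z * S.av h z) := by
  unfold av
  rw [Finset.mul_sum, Finset.mul_sum, Finset.mul_sum]
  refine Finset.sum_le_sum fun x _ => ?_
  have h1 := mul_le_mul_of_nonneg_right (hS.dn_gb_le hS' hB hl z x) (h0 z x)
  linarith

theorem Reg.T_pert_le (hS : S.Reg) (hS' : (S.wH H').Reg) {B : ℝ}
    (hB : ∀ z x, |H' z x - S.H z x| ≤ B) {l : ℕ} (hl : l ≤ S.K) {h : (ι → ℝ) → X → ℝ}
    (hh : Nh h) (h0 : ∀ z x, 0 ≤ h z x) (z : ι → ℝ) :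
    (S.wH H').T l h z ≤ Real.exp (2 * B) * S.T l h z := by
  unfold T
  rw [← J_const_mul]
  have h1 : EG fun z => (S.wH H').dn l z * (S.wH H').av h z :=
    (hS'.eg_dn (l := l) hl).mul (hS'.eg_av hh)
  exact J_mono h1 (((hS.eg_dn hl).mul (hS.eg_av hh)).const_mul _)
    (fun y => hS.dn_av_le hS' hB hl h0 y) z

theorem Reg.Ex_pert_le (hS : S.Reg) (hS' : (S.wH H').Reg) {B : ℝ}
    (hB : ∀ z x, |H' z x - S.H z x| ≤ B) {h : (ι → ℝ) → X → ℝ}
    (hh : Nh h) (h0 : ∀ z x, 0 ≤ h z x) :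
    (S.wH H').Ex h ≤ Real.exp (2 * B) * S.Ex h := by
  unfold Ex
  rw [← integral_const_mul]
  have h1 : EG fun z => (S.wH H').dn 0 z * (S.wH H').av h z :=
    (hS'.eg_dn (Nat.zero_le _)).mul (hS'.eg_av hh)
  exact integral_mono h1.integrable
    (((hS.eg_dn (Nat.zero_le _)).mul (hS.eg_av hh)).const_mul _).integrable
    (fun y => hS.dn_av_le hS' hB (Nat.zero_le _) h0 y)

/-- Concavity of the power `θ`. -/
lemma exp_mul_le_tangent {θ : ℝ} (h0 : 0 ≤ θ) (h1 : θ ≤ 1) (u : ℝ) :
    Real.exp (θ * u) ≤ (1 - θ) + θ * Real.exp u := by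
  have h := convexOn_exp.2 (Set.mem_univ (0 : ℝ)) (Set.mem_univ u) (sub_nonneg.2 h1) h0
    (by ring)
  simpa [smul_eq_mul] using h

/-- The exponents only help: `lg' 0 - lg 0 ≥ (1/m₁) log T₀ exp(m₁ (H' - H))`. Proof: downward
induction `lg' l - lg l ≥ (1/m₁) log T_l exp(m₁ (H' - H))`, by Jensen for `x ↦ x^(m_{l+1}/m₁)`. -/
theorem Reg.thermal (hS : S.Reg) (hS' : (S.wH H').Reg) (z : ι → ℝ) :
    1 / S.m 1 * Real.log (S.T 0 (fun z x => Real.exp (S.m 1 * (H' z x - S.H z x))) z) ≤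
      (S.wH H').lg 0 z - S.lg 0 z := by
  have hm1 : 0 < S.m 1 := hS.pos
  have hm1' : S.m 1 ≤ 1 := hS.m_le_one (by omega)
  set f : (ι → ℝ) → X → ℝ := fun z x => Real.exp (S.m 1 * (H' z x - S.H z x)) with hf
  have hNf : Nh f := fun x => (hS.lip_diff hS' x).exp_eg (S.m 1)
  have key : ∀ l ≤ S.K, ∀ z, S.T l f z ≤ Real.exp (S.m 1 * S.pD H' l z) := by
    refine down_ind (P := fun l => ∀ z, S.T l f z ≤ Real.exp (S.m 1 * S.pD H' l z)) ?_ ?_
    · intro z
      rw [hS.T_top]
      have h6 : S.pD H' S.K z = (S.wH H').top z - S.top z := by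
        unfold pD
        rw [lg_top S]
        have h7 : (S.wH H').lg S.K = (S.wH H').top := lg_top (S.wH H')
        rw [h7]
      rw [h6]
      set c : ℝ := (S.wH H').top z - S.top z with hc
      have h1 : Real.exp c = ∑ x, S.gb z x * Real.exp (H' z x - S.H z x) := exp_top_sub z
      have h2 : ∑ x, S.gb z x * Real.exp (S.m 1 * (H' z x - S.H z x - c)) ≤ 1 := by
        calc ∑ x, S.gb z x * Real.exp (S.m 1 * (H' z x - S.H z x - c)) ≤
            ∑ x, S.gb z x * ((1 - S.m 1) + S.m 1 * Real.exp (H' z x - S.H z x - c)) :=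
              Finset.sum_le_sum fun x _ => mul_le_mul_of_nonneg_left
                (exp_mul_le_tangent hm1.le hm1' _) (S.gb_pos z x).le
          _ = (1 - S.m 1) * ∑ x, S.gb z x + S.m 1 * Real.exp (-c) *
              ∑ x, S.gb z x * Real.exp (H' z x - S.H z x) := by
              rw [Finset.mul_sum, Finset.mul_sum, ← Finset.sum_add_distrib]
              refine Finset.sum_congr rfl fun x _ => ?_
              have h3 : Real.exp (H' z x - S.H z x - c) =
                  Real.exp (-c) * Real.exp (H' z x - S.H z x) := by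
                rw [← Real.exp_add]
                congr 1
                ring
              rw [h3]
              ring
          _ = 1 := by
              rw [S.sum_gb z, ← h1, mul_assoc, ← Real.exp_add]
              simp
      have h3 : S.av f z = Real.exp (S.m 1 * c) *
          ∑ x, S.gb z x * Real.exp (S.m 1 * (H' z x - S.H z x - c)) := by
        unfold av
        rw [Finset.mul_sum]
        refine Finset.sum_congr rfl fun x _ => ?_
        have h4 : f z x = Real.exp (S.m 1 * c) *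
            Real.exp (S.m 1 * (H' z x - S.H z x - c)) := by
          change Real.exp (S.m 1 * (H' z x - S.H z x)) = _
          rw [← Real.exp_add]
          congr 1
          ring
        rw [h4]
        ring
      rw [h3]
      exact mul_le_of_le_one_right (Real.exp_pos _).le h2
    · intro l hl ih z
      rw [hS.T_step hl hNf z]
      have hm : 0 < S.m (l + 1) := hS.m_pos (by omega) (by omega)
      have hmm : S.m 1 ≤ S.m (l + 1) := hS.m_mono (by omega) (by omega)
      have hW := hS.pW_eg hl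
      have hD := hS.lip_pD hS' (l := l + 1) hl
      have h1 : J S.lev l (fun z => S.pW l z * S.T (l + 1) f z) z ≤
          J S.lev l (fun z => S.pW l z * Real.exp (S.m 1 * S.pD H' (l + 1) z)) z :=
        J_mono (hW.mul (hS.eg_T (l := l + 1) hl hNf)) (hW.mul (hD.exp_eg _))
          (fun y => mul_le_mul_of_nonneg_left (ih y) (S.pW_pos l y).le) z
      refine h1.trans ?_
      set c : ℝ := S.pD H' l z with hc
      set θ : ℝ := S.m 1 / S.m (l + 1) with hθ
      have hθ0 : 0 ≤ θ := by positivity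
      have hθ1 : θ ≤ 1 := (div_le_one hm).2 hmm
      have hθm : θ * S.m (l + 1) = S.m 1 := div_mul_cancel₀ _ hm.ne'
      have h2 : J S.lev l (fun z => S.pW l z * Real.exp (S.m (l + 1) * S.pD H' (l + 1) z)) z =
          Real.exp (S.m (l + 1) * c) := hS.J_pW_exp hS' hl z
      have h3 : J S.lev l (fun z => S.pW l z * Real.exp (S.m 1 * S.pD H' (l + 1) z)) z ≤
          J S.lev l (fun z => Real.exp (S.m 1 * c) * ((1 - θ) * S.pW l z +
            θ * Real.exp (-(S.m (l + 1) * c)) *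
              (S.pW l z * Real.exp (S.m (l + 1) * S.pD H' (l + 1) z)))) z := by
        refine J_mono (hW.mul (hD.exp_eg _)) (((hW.const_mul _).add
          ((hW.mul (hD.exp_eg _)).const_mul _)).const_mul _) (fun y => ?_) z
        have h4 := exp_mul_le_tangent hθ0 hθ1 (S.m (l + 1) * (S.pD H' (l + 1) y - c))
        rw [← mul_assoc, hθm] at h4
        have h5 : Real.exp (S.m 1 * S.pD H' (l + 1) y) = Real.exp (S.m 1 * c) *
            Real.exp (S.m 1 * (S.pD H' (l + 1) y - c)) := by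
          rw [← Real.exp_add]
          congr 1
          ring
        have h6 : Real.exp (S.m (l + 1) * (S.pD H' (l + 1) y - c)) =
            Real.exp (-(S.m (l + 1) * c)) * Real.exp (S.m (l + 1) * S.pD H' (l + 1) y) := by
          rw [← Real.exp_add]
          congr 1
          ring
        rw [h6] at h4
        rw [h5]
        have h7 := mul_le_mul_of_nonneg_left h4
          (mul_pos (S.pW_pos l y) (Real.exp_pos (S.m 1 * c))).le
        calc S.pW l y * (Real.exp (S.m 1 * c) * Real.exp (S.m 1 * (S.pD H' (l + 1) y - c))) =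
            S.pW l y * Real.exp (S.m 1 * c) *
              Real.exp (S.m 1 * (S.pD H' (l + 1) y - c)) := by ring
          _ ≤ _ := h7
          _ = _ := by ring
      rw [J_const_mul, J_add (hW.const_mul _) ((hW.mul (hD.exp_eg _)).const_mul _),
        J_const_mul, J_const_mul, h2, hS.J_pW hl z] at h3
      refine h3.trans (le_of_eq ?_)
      rw [mul_assoc θ, ← Real.exp_add]
      simp
  have h1 := key 0 (Nat.zero_le _) z
  have hpos : 0 < S.T 0 f z := by
    unfold T
    refine J_pos ((hS.eg_dn (Nat.zero_le _)).mul (hS.eg_av hNf)) (fun y => ?_) z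
    refine mul_pos (S.dn_pos 0 y) ?_
    unfold av
    exact Finset.sum_pos (fun x _ => mul_pos (S.gb_pos y x) (Real.exp_pos _))
      Finset.univ_nonempty
  have h2 := Real.log_le_log hpos h1
  rw [Real.log_exp] at h2
  calc 1 / S.m 1 * Real.log (S.T 0 f z) ≤ 1 / S.m 1 * (S.m 1 * S.pD H' 0 z) :=
        mul_le_mul_of_nonneg_left h2 (by positivity)
    _ = (S.wH H').lg 0 z - S.lg 0 z := by
        unfold pD
        field_simp

end Sy

end Vale.Agent.P157.Lv
end

section

/-!
Derivatives of the log-weights and of the tilted averages, integration by parts.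
-/

open MeasureTheory ProbabilityTheory Filter Topology

namespace Vale.Agent.P157.Lv

set_option linter.unusedSectionVars false

variable {ι X : Type} [Fintype ι] [DecidableEq ι] [Fintype X] [Nonempty X] {S : Sy ι X}
  {D : ι → (ι → ℝ) → X → ℝ}

namespace Sy

lemma RegD.nh (hS : S.RegD D) (e : ι) : Nh (D e) := by
  obtain ⟨C, hC⟩ := hS.bd
  exact fun x => EG.of_bdd (hS.md e x) (C := C) fun y => hC e y x

/-- The derivative of the log-partition function. -/
lemma RegD.pd_top (hS : S.RegD D) (e : ι) : PD e S.top (S.av (D e)) := by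
  have h1 : PD e (fun z => ∑ x, Real.exp (S.H z x)) (fun z => ∑ x, Real.exp (S.H z x) * D e z x) :=
    PD.sum Finset.univ fun x _ => (hS.pd e x).exp
  refine (h1.log fun z => (sum_exp_pos z).ne').congr fun z => ?_
  simp only [av, gb, Finset.sum_div]
  exact Finset.sum_congr rfl fun x _ => by ring

/-- One step of the tilted conditional averages. -/
lemma Reg.T_stepI (hS : S.Reg) {l : ℕ} (hl : l < S.K) {h : (ι → ℝ) → X → ℝ} (hh : Nh h)
    (z : ι → ℝ) : S.T l h z =
      J S.lev l (fun z => Real.exp (S.m (l + 1) * (S.lg (l + 1) z - S.lg l z)) *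
        S.T (l + 1) h z) z := by
  have hEG : EG (fun z => S.dn l z * S.av h z) := (hS.eg_dn hl.le).mul (hS.eg_av hh)
  have hdep : Dep S.lev (l + 1) (fun z => Real.exp (S.m (l + 1) * (S.lg (l + 1) z - S.lg l z))) := by
    intro z w
    have h1 := hS.dep_lg (l := l + 1) hl z w
    have h2 := (hS.dep_lg (l := l) hl.le).mono (Nat.le_succ l) z w
    simp only [h1, h2]
  have key : J S.lev (l + 1) (fun z => S.dn l z * S.av h z) =
      fun z => Real.exp (S.m (l + 1) * (S.lg (l + 1) z - S.lg l z)) * S.T (l + 1) h z := by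
    funext z
    have := hdep.J_mul (fun z => S.dn (l + 1) z * S.av h z) z
    rw [T, ← this]
    congr 1
    funext z
    rw [dn_step S hl z]
    ring
  rw [← key]
  exact (J_J (Nat.le_succ l) hEG z).symm

/-- `∂_e X_l = T_l(∂_e H)`, for the coordinates of level at most `l`. -/
theorem RegD.pd_lg (hS : S.RegD D) {l : ℕ} (hl : l ≤ S.K) {e : ι} (he : S.lev e ≤ l) :
    PD e (S.lg l) (S.T l (D e)) := by
  revert he
  refine down_ind (P := fun l => S.lev e ≤ l → PD e (S.lg l) (S.T l (D e))) ?_ ?_ l hl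
  · intro _
    rw [lg_top]
    exact (hS.pd_top e).congr fun z => (hS.toReg.T_top (D e) z).symm
  · intro l hl ih he
    have h1 := ih (he.trans (Nat.le_succ l))
    have hm : 0 < S.m (l + 1) := hS.toReg.m_pos (Nat.succ_le_succ (Nat.zero_le l)) (by omega)
    have hLip := hS.toReg.lip_lg (l := l + 1) hl
    have hEGe : EG (fun z => Real.exp (S.m (l + 1) * S.lg (l + 1) z)) := hLip.exp_eg _
    have hEGT : EG (S.T (l + 1) (D e)) := hS.toReg.eg_T hl (hS.nh e)
    have h2 : PD e (J S.lev l (fun z => Real.exp (S.m (l + 1) * S.lg (l + 1) z)))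
        (J S.lev l (fun z => Real.exp (S.m (l + 1) * S.lg (l + 1) z) *
          (S.m (l + 1) * S.T (l + 1) (D e) z))) :=
      PD.J (h1.const_mul (S.m (l + 1))).exp hEGe (hEGe.mul (hEGT.const_mul _)) he
    have hne : ∀ z, J S.lev l (fun z => Real.exp (S.m (l + 1) * S.lg (l + 1) z)) z ≠ 0 :=
      fun z => by rw [hS.toReg.J_exp_lg hl z]; exact (Real.exp_pos _).ne'
    have h3 := (h2.log hne).const_mul (1 / S.m (l + 1))
    rw [lg_step S hl]
    refine PD.congr (H := S.stp l (S.lg (l + 1))) h3 fun z => ?_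
    rw [hS.toReg.J_exp_lg hl z, hS.toReg.T_stepI hl (hS.nh e) z]
    have hdep : Dep S.lev l (fun z => Real.exp (-(S.m (l + 1) * S.lg l z))) := by
      intro z w
      have h2 := (hS.toReg.dep_lg (l := l) hl.le) z w
      simp only [h2]
    have h4 := hdep.J_mul (fun z => Real.exp (S.m (l + 1) * S.lg (l + 1) z) *
      (S.m (l + 1) * S.T (l + 1) (D e) z)) z
    have h5 : J S.lev l (fun z => Real.exp (-(S.m (l + 1) * S.lg l z)) *
        (Real.exp (S.m (l + 1) * S.lg (l + 1) z) * (S.m (l + 1) * S.T (l + 1) (D e) z))) z =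
        S.m (l + 1) * J S.lev l (fun z => Real.exp (S.m (l + 1) * (S.lg (l + 1) z - S.lg l z)) *
        S.T (l + 1) (D e) z) z := by
      rw [← J_const_mul]
      congr 1
      funext z
      have : Real.exp (S.m (l + 1) * (S.lg (l + 1) z - S.lg l z)) =
          Real.exp (-(S.m (l + 1) * S.lg l z)) * Real.exp (S.m (l + 1) * S.lg (l + 1) z) := by
        rw [← Real.exp_add]; congr 1; ring
      rw [this]; ring
    have h6 := h4.symm.trans h5
    rw [Real.exp_neg] at h6
    rw [div_mul_eq_mul_div, one_mul, div_div, div_eq_iff (by positivity)]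
    rw [inv_mul_eq_div, div_eq_iff (Real.exp_pos _).ne'] at h6
    rw [h6]; ring

/-- Derivative of the Gibbs weights. -/
theorem RegD.pd_gb (hS : S.RegD D) (e : ι) (x : X) :
    PD e (fun z => S.gb z x) (fun z => S.gb z x * (D e z x - S.T S.K (D e) z)) := by
  have h1 : PD e (fun z => ∑ x, Real.exp (S.H z x)) (fun z => ∑ x, Real.exp (S.H z x) * D e z x) :=
    PD.sum Finset.univ fun x _ => (hS.pd e x).exp
  refine ((hS.pd e x).exp.div h1 fun z => (sum_exp_pos z).ne').congr fun z => ?_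
  rw [hS.toReg.T_top]
  have h0 := (sum_exp_pos (S := S) z).ne'
  have h2 : S.av (D e) z = (∑ x, Real.exp (S.H z x) * D e z x) / ∑ x, Real.exp (S.H z x) := by
    simp only [av, gb, Finset.sum_div]
    exact Finset.sum_congr rfl fun x _ => by ring
  rw [h2, gb]
  field_simp

/-- Abel summation. -/
lemma abel (m f : ℕ → ℝ) {l K : ℕ} (h : l ≤ K) :
    ∑ i ∈ Finset.Ico l K, m (i + 1) * (f (i + 1) - f i) =
      m (K + 1) * f K - ∑ i ∈ Finset.Ico (l + 1) (K + 1), (m (i + 1) - m i) * f i -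
        m (l + 1) * f l := by
  induction K, h using Nat.le_induction with
  | base => simp
  | succ K hK ih =>
    rw [Finset.sum_Ico_succ_top hK, ih, Finset.sum_Ico_succ_top (Nat.succ_le_succ hK)]
    ring

/-- The derivative of the full density `dn l * gb`, for coordinates of level at most `l`. -/
theorem RegD.pd_dn (hS : S.RegD D) {l : ℕ} (hl : l ≤ S.K) {e : ι} (he : S.lev e ≤ l) :
    PD e (S.dn l) (fun z => S.dn l z * (S.T S.K (D e) z -
      ∑ i ∈ Finset.Ico (l + 1) (S.K + 1), S.p i * S.T i (D e) z - S.m (l + 1) * S.T l (D e) z)) := by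
  have h1 : PD e (fun z => ∑ i ∈ Finset.Ico l S.K, S.m (i + 1) * (S.lg (i + 1) z - S.lg i z))
      (fun z => ∑ i ∈ Finset.Ico l S.K, S.m (i + 1) * (S.T (i + 1) (D e) z - S.T i (D e) z)) := by
    refine PD.sum _ fun i hi => ?_
    obtain ⟨hi1, hi2⟩ := Finset.mem_Ico.1 hi
    exact ((hS.pd_lg (l := i + 1) hi2 (by omega)).sub
      (hS.pd_lg (l := i) hi2.le (by omega))).const_mul _
  refine h1.exp.congr fun z => ?_
  rw [abel S.m (fun i => S.T i (D e) z) hl, hS.mK, one_mul]
  rfl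

/-- The derivative of the density for a coordinate of any level. -/
lemma RegD.pd_dn_zero (hS : S.RegD D) (e : ι) :
    PD e (S.dn 0) (fun z => S.dn 0 z * (S.T S.K (D e) z -
      ∑ i ∈ Finset.Ico (S.lev e) (S.K + 1), S.p i * S.T i (D e) z)) := by
  have hlg : ∀ i ≤ S.K, PD e (S.lg i) (fun z => if S.lev e ≤ i then S.T i (D e) z else 0) := by
    intro i hi
    by_cases he : S.lev e ≤ i
    · simp only [he, if_true]
      exact hS.pd_lg hi he
    · simp only [he, if_false]
      exact (hS.toReg.dep_lg hi).pd (not_le.1 he)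
  have h1 : PD e (fun z => ∑ i ∈ Finset.Ico 0 S.K, S.m (i + 1) * (S.lg (i + 1) z - S.lg i z))
      (fun z => ∑ i ∈ Finset.Ico 0 S.K, S.m (i + 1) *
        ((if S.lev e ≤ i + 1 then S.T (i + 1) (D e) z else 0) -
          (if S.lev e ≤ i then S.T i (D e) z else 0))) := by
    refine PD.sum _ fun i hi => ?_
    obtain ⟨_, hi2⟩ := Finset.mem_Ico.1 hi
    exact ((hlg (i + 1) hi2).sub (hlg i hi2.le)).const_mul _
  refine h1.exp.congr fun z => ?_
  rw [abel S.m (fun i => if S.lev e ≤ i then S.T i (D e) z else 0) (Nat.zero_le S.K), hS.mK,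
    one_mul, if_pos (hS.lev e)]
  have h2 : ∑ i ∈ Finset.Ico (S.lev e) (S.K + 1), S.p i * S.T i (D e) z =
      ∑ i ∈ Finset.Ico 0 (S.K + 1), S.p i * (if S.lev e ≤ i then S.T i (D e) z else 0) := by
    have : Finset.Ico (S.lev e) (S.K + 1) =
        (Finset.Ico 0 (S.K + 1)).filter fun i => S.lev e ≤ i := by
      ext i; simp only [Finset.mem_Ico, Finset.mem_filter]; omega
    rw [this, Finset.sum_filter]
    exact Finset.sum_congr rfl fun i _ => by split_ifs <;> simp
  have h3 := Finset.sum_eq_sum_Ico_succ_bot (Nat.succ_pos S.K)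
    (fun i => S.p i * (if S.lev e ≤ i then S.T i (D e) z else 0))
  rw [h2]
  have h4 : S.p 0 = S.m (0 + 1) := by simp [p, hS.m0]
  rw [h3, h4]
  simp only [p, dn]
  ring

/-- The derivative of a Gibbs average multiplied by a function. -/
lemma RegD.pd_mul_av (hS : S.RegD D) {e : ι} {Y A : (ι → ℝ) → ℝ}
    (hY : PD e Y (fun z => Y z * (S.T S.K (D e) z - A z)))
    {h h' : (ι → ℝ) → X → ℝ} (hd : ∀ x, PD e (fun z => h z x) (fun z => h' z x)) :
    PD e (fun z => Y z * S.av h z)
      (fun z => Y z * S.av (fun z x => h' z x + h z x * (D e z x - A z)) z) := by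
  have h1 : PD e (S.av h) (fun z => ∑ x, (S.gb z x * (D e z x - S.T S.K (D e) z) * h z x +
      S.gb z x * h' z x)) :=
    PD.sum Finset.univ fun x _ => (hS.pd_gb e x).mul (hd x)
  refine (hY.mul h1).congr fun z => ?_
  simp only [av, Finset.mul_sum]
  rw [← Finset.sum_add_distrib]
  exact Finset.sum_congr rfl fun x _ => by ring

/-- Derivative of a tilted average. -/
theorem RegD.pd_T (hS : S.RegD D) {l : ℕ} (hl : l ≤ S.K) {e : ι} (he : S.lev e ≤ l)
    {h h' : (ι → ℝ) → X → ℝ} (hd : ∀ x, PD e (fun z => h z x) (fun z => h' z x)) (hh : Nh h)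
    (hh' : Nh h') :
    PD e (S.T l h) (S.T l (fun z x => h' z x + h z x * (D e z x -
      ∑ i ∈ Finset.Ico (l + 1) (S.K + 1), S.p i * S.T i (D e) z - S.m (l + 1) * S.T l (D e) z))) := by
  have hT : ∀ i ≤ S.K, EG (S.T i (D e)) := fun i hi => hS.toReg.eg_T hi (hS.nh e)
  have hA : EG (fun z => ∑ i ∈ Finset.Ico (l + 1) (S.K + 1), S.p i * S.T i (D e) z) :=
    EG.sum _ fun i hi => (hT i (by have := Finset.mem_Ico.1 hi; omega)).const_mul _
  have hB : EG (fun z => S.m (l + 1) * S.T l (D e) z) := (hT l hl).const_mul _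
  have hN : Nh (fun z x => h' z x + h z x * (D e z x -
      ∑ i ∈ Finset.Ico (l + 1) (S.K + 1), S.p i * S.T i (D e) z - S.m (l + 1) * S.T l (D e) z)) :=
    Nh.add hh' (Nh.mul hh (Nh.sub (Nh.sub (hS.nh e) (Nh.fst hA)) (Nh.fst hB)))
  have h1 : PD e (fun z => S.dn l z * S.av h z) (fun z => S.dn l z * S.av (fun z x =>
      h' z x + h z x * (D e z x - ∑ i ∈ Finset.Ico (l + 1) (S.K + 1), S.p i * S.T i (D e) z -
        S.m (l + 1) * S.T l (D e) z)) z) := by
    have h2 := hS.pd_mul_av (A := fun z => ∑ i ∈ Finset.Ico (l + 1) (S.K + 1),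
      S.p i * S.T i (D e) z + S.m (l + 1) * S.T l (D e) z)
      ((hS.pd_dn hl he).congr fun z => by rw [sub_sub]) hd
    refine h2.congr fun z => ?_
    simp only [sub_sub]
  exact PD.J h1 ((hS.toReg.eg_dn hl).mul (hS.toReg.eg_av hh))
    ((hS.toReg.eg_dn hl).mul (hS.toReg.eg_av hN)) he

/-- **Integration by parts.** -/
theorem RegD.ibp (hS : S.RegD D) (e : ι) {h h' : (ι → ℝ) → X → ℝ}
    (hd : ∀ x, PD e (fun z => h z x) (fun z => h' z x)) (hh : Nh h) (hh' : Nh h') :
    S.Ex (fun z x => z e * h z x) = S.Ex (fun z x => h' z x + h z x * (D e z x -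
      ∑ l ∈ Finset.Ico (S.lev e) (S.K + 1), S.p l * S.T l (D e) z)) := by
  have hT : ∀ i ≤ S.K, EG (S.T i (D e)) := fun i hi => hS.toReg.eg_T hi (hS.nh e)
  have hA : EG (fun z => ∑ i ∈ Finset.Ico (S.lev e) (S.K + 1), S.p i * S.T i (D e) z) :=
    EG.sum _ fun i hi => (hT i (by have := Finset.mem_Ico.1 hi; omega)).const_mul _
  have hN : Nh (fun z x => h' z x + h z x * (D e z x -
      ∑ i ∈ Finset.Ico (S.lev e) (S.K + 1), S.p i * S.T i (D e) z)) :=
    Nh.add hh' (Nh.mul hh (Nh.sub (hS.nh e) (Nh.fst hA)))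
  have h1 := hS.pd_mul_av (hS.pd_dn_zero e) hd
  have h2 := PD.stein h1 ((hS.toReg.eg_dn (Nat.zero_le _)).mul (hS.toReg.eg_av hh))
    ((hS.toReg.eg_dn (Nat.zero_le _)).mul (hS.toReg.eg_av hN))
  rw [Ex, Ex, ← h2]
  congr 1
  funext z
  rw [av_mul_left S (fun z => z e) h z]
  ring

end Sy

end Vale.Agent.P157.Lv
end

section

/-!
Concentration of a linear observable from a bound on the second difference of the free energy.
-/

open MeasureTheory ProbabilityTheory Filter Topology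

namespace Vale.Agent.P157.Lv

set_option linter.unusedSectionVars false

section one

/-- Exponential growth in one variable. -/
def CcE (f : ℝ → ℝ) : Prop := EG (ι := Unit) fun z => f (z ())

lemma CcE.of_bdd {f : ℝ → ℝ} (hm : Measurable f) {C a : ℝ} (hC : 0 ≤ C) (ha : 0 ≤ a)
    (h : ∀ x, |f x| ≤ C * Real.exp (a * |x|)) : CcE f := by
  refine ⟨hm.comp (measurable_pi_apply ()), C, a, hC, ha, fun y => (h _).trans ?_⟩
  have : |y ()| ≤ ‖y‖ := norm_le_pi_norm y ()
  gcongr

lemma CcE.meas {f : ℝ → ℝ} (h : CcE f) : Measurable f :=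
  (EG.meas h).comp (measurable_pi_lambda (fun (x : ℝ) (_ : Unit) => x) fun _ => measurable_id)

lemma CcE.bdd {f : ℝ → ℝ} (h : CcE f) :
    ∃ C a : ℝ, 0 ≤ C ∧ 0 ≤ a ∧ ∀ x, |f x| ≤ C * Real.exp (a * |x|) := by
  obtain ⟨C, a, hC, ha, hb⟩ := EG.bdd h
  refine ⟨C, a, hC, ha, fun x => ?_⟩
  have := hb (fun _ => x)
  rwa [pi_norm_const, Real.norm_eq_abs] at this

lemma CcE.integrable {f : ℝ → ℝ} (h : CcE f) : Integrable f (gaussianReal 0 1) :=
  ((measurePreserving_eval (fun _ : Unit => gaussianReal 0 1) ()).integrable_comp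
    h.meas.aestronglyMeasurable).1 (EG.integrable h)

lemma CcE.mul {f g : ℝ → ℝ} (hf : CcE f) (hg : CcE g) : CcE fun x => f x * g x := EG.mul hf hg
lemma CcE.add {f g : ℝ → ℝ} (hf : CcE f) (hg : CcE g) : CcE fun x => f x + g x := EG.add hf hg
lemma CcE.sub {f g : ℝ → ℝ} (hf : CcE f) (hg : CcE g) : CcE fun x => f x - g x := EG.sub hf hg
lemma CcE.sq {f : ℝ → ℝ} (hf : CcE f) : CcE fun x => f x ^ 2 := EG.pow hf 2
lemma CcE.id : CcE fun x => x := EG.coord (ι := Unit) ()
lemma CcE.const (c : ℝ) : CcE fun _ => c := EG.const c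

lemma CcE.cm {f : ℝ → ℝ} (c : ℝ) (hf : CcE f) : CcE fun x => c * f x := (CcE.const c).mul hf

lemma CcE.int_add {f g : ℝ → ℝ} (hf : CcE f) (hg : CcE g) : ∫ x, (f x + g x) ∂(gaussianReal 0 1) =
    ∫ x, f x ∂(gaussianReal 0 1) + ∫ x, g x ∂(gaussianReal 0 1) :=
  integral_add hf.integrable hg.integrable

lemma CcE.int_sub {f g : ℝ → ℝ} (hf : CcE f) (hg : CcE g) : ∫ x, (f x - g x) ∂(gaussianReal 0 1) =
    ∫ x, f x ∂(gaussianReal 0 1) - ∫ x, g x ∂(gaussianReal 0 1) :=
  integral_sub hf.integrable hg.integrable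

lemma CcE.ii {g : ℝ → ℝ} (hg : CcE g) (x y : ℝ) : IntervalIntegrable g volume x y := by
  obtain ⟨C, a, hC, ha, hb⟩ := hg.bdd
  have hc : Continuous fun x : ℝ => C * Real.exp (a * |x|) := by fun_prop
  refine (hc.intervalIntegrable x y).mono_fun' hg.meas.aestronglyMeasurable
    (Filter.Eventually.of_forall fun u => ?_)
  show ‖g u‖ ≤ C * Real.exp (a * |u|)
  rw [Real.norm_eq_abs]
  exact hb u

lemma CcE.prim {g : ℝ → ℝ} (hg : CcE g) : CcE fun x => ∫ u in (0 : ℝ)..x, g u := by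
  obtain ⟨C, a, hC, ha, hb⟩ := hg.bdd
  refine CcE.of_bdd (intervalIntegral.continuous_primitive hg.ii 0).measurable hC
    (show 0 ≤ a + 1 by linarith) fun x => ?_
  have h1 : ‖∫ u in (0 : ℝ)..x, g u‖ ≤ (C * Real.exp (a * |x|)) * |x - 0| := by
    refine intervalIntegral.norm_integral_le_of_norm_le_const fun u hu => ?_
    rw [Real.norm_eq_abs]
    refine (hb u).trans ?_
    have : |u| ≤ |x| := by
      rcases le_total 0 x with h | h
      · rw [Set.uIoc_of_le h] at hu
        rw [abs_of_pos hu.1, abs_of_nonneg h]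
        exact hu.2
      · rw [Set.uIoc_of_ge h] at hu
        rw [abs_of_nonpos hu.2, abs_of_nonpos h]
        linarith [hu.1]
    gcongr
  rw [sub_zero, Real.norm_eq_abs] at h1
  refine h1.trans ?_
  have h2 : |x| ≤ Real.exp |x| := (Real.add_one_le_exp |x|).trans' (by linarith)
  rw [add_mul, one_mul, Real.exp_add, ← mul_assoc]
  gcongr

lemma cc_gpdf_deriv (x : ℝ) :
    HasDerivAt (gaussianPDFReal 0 1) (-(x * gaussianPDFReal 0 1 x)) x := by
  have h1 : HasDerivAt (fun y : ℝ => -(y - 0) ^ 2 / (2 * ((1 : NNReal) : ℝ))) (-x) x := by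
    have h2 : HasDerivAt (fun y : ℝ => -(y ^ 2) / 2) (-(2 * x) / 2) x := by
      have h0 := ((hasDerivAt_pow 2 x).neg).div_const (2 : ℝ)
      simpa using h0
    have h2' : (fun y : ℝ => -(y - 0) ^ 2 / (2 * ((1 : NNReal) : ℝ))) = fun y => -(y ^ 2) / 2 := by
      funext y
      simp
    rw [h2']
    have h2'' : -x = -(2 * x) / 2 := by ring
    rw [h2'']
    exact h2
  have h3 := (h1.exp).const_mul ((Real.sqrt (2 * Real.pi * ((1 : NNReal) : ℝ)))⁻¹)
  have h4 : gaussianPDFReal 0 1 = fun y => (Real.sqrt (2 * Real.pi * ((1 : NNReal) : ℝ)))⁻¹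
      * Real.exp (-(y - 0) ^ 2 / (2 * ((1 : NNReal) : ℝ))) := by
    funext y
    rw [gaussianPDFReal_def]
  have h5 : -(x * gaussianPDFReal 0 1 x) = (Real.sqrt (2 * Real.pi * ((1 : NNReal) : ℝ)))⁻¹
      * (Real.exp (-(x - 0) ^ 2 / (2 * ((1 : NNReal) : ℝ))) * -x) := by
    rw [h4]
    ring
  rw [h5, h4]
  exact h3

lemma cc_gpdf_even (x : ℝ) : gaussianPDFReal 0 1 (-x) = gaussianPDFReal 0 1 x := by
  rw [gaussianPDFReal_def]
  simp

lemma cc_gpdf_tendsto : Tendsto (gaussianPDFReal 0 1) atTop (𝓝 0) := by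
  rw [gaussianPDFReal_def]
  have h1 : Tendsto (fun y : ℝ => Real.exp (-(y - 0) ^ 2 / (2 * ((1 : NNReal) : ℝ)))) atTop (𝓝 0) := by
    refine Real.tendsto_exp_atBot.comp ?_
    have : (fun y : ℝ => -(y - 0) ^ 2 / (2 * ((1 : NNReal) : ℝ))) = fun y => -((1/2) * y ^ 2) := by
      funext y
      simp
      ring
    rw [this]
    exact tendsto_neg_atTop_atBot.comp ((tendsto_pow_atTop two_ne_zero).const_mul_atTop (by norm_num))
  simpa using h1.const_mul _

lemma cc_gpdf_tail (t : ℝ) (ht : 0 < t) :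
    ∫ x in Set.Ioi t, x * gaussianPDFReal 0 1 x = gaussianPDFReal 0 1 t := by
  have h := integral_Ioi_of_hasDerivAt_of_nonpos' (a := t) (g := gaussianPDFReal 0 1)
    (g' := fun x => -(x * gaussianPDFReal 0 1 x)) (l := 0) (fun x _ => cc_gpdf_deriv x)
    (fun x hx => neg_nonpos.2 (mul_nonneg (ht.trans hx).le (gaussianPDFReal_nonneg 0 1 x)))
    cc_gpdf_tendsto
  rw [integral_neg] at h
  linarith

lemma cc_gpdf_tail_int (t : ℝ) (ht : 0 < t) :
    IntegrableOn (fun x => x * gaussianPDFReal 0 1 x) (Set.Ioi t) := by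
  have h := integrableOn_Ioi_deriv_of_nonpos' (a := t) (g := gaussianPDFReal 0 1)
    (g' := fun x => -(x * gaussianPDFReal 0 1 x)) (l := 0) (fun x _ => cc_gpdf_deriv x)
    (fun x hx => neg_nonpos.2 (mul_nonneg (ht.trans hx).le (gaussianPDFReal_nonneg 0 1 x)))
    cc_gpdf_tendsto
  simpa using h.neg

lemma cc_half_stein {g : ℝ → ℝ} (hg : CcE g) (h0 : ∀ x, 0 ≤ g x) :
    ∫ x in Set.Ioi 0, gaussianPDFReal 0 1 x * (x * ∫ u in (0 : ℝ)..x, g u) =
      ∫ x in Set.Ioi 0, gaussianPDFReal 0 1 x * g x := by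
  have hφm : Measurable (gaussianPDFReal 0 1) := measurable_gaussianPDFReal 0 1
  have hφ0 := gaussianPDFReal_nonneg 0 1
  have hPm : Measurable fun x => ∫ u in (0 : ℝ)..x, g u := hg.prim.meas
  have hP0 : ∀ x : ℝ, 0 ≤ x → 0 ≤ ∫ u in (0 : ℝ)..x, g u := fun x hx =>
    intervalIntegral.integral_nonneg hx fun u _ => h0 u
  rw [integral_eq_lintegral_of_nonneg_ae, integral_eq_lintegral_of_nonneg_ae]
  rotate_left
  · exact Filter.Eventually.of_forall fun x => mul_nonneg (hφ0 x) (h0 x)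
  · exact (hφm.mul hg.meas).aestronglyMeasurable
  · filter_upwards [ae_restrict_mem measurableSet_Ioi] with x hx
    exact mul_nonneg (hφ0 x) (mul_nonneg (le_of_lt hx) (hP0 x (le_of_lt hx)))
  · exact (hφm.mul (measurable_id.mul hPm)).aestronglyMeasurable
  congr 1
  set μ : Measure ℝ := (volume.restrict (Set.Ioi (0 : ℝ))).withDensity
    (fun x => ENNReal.ofReal (x * gaussianPDFReal 0 1 x)) with hμ
  have hden : Measurable fun x : ℝ => ENNReal.ofReal (x * gaussianPDFReal 0 1 x) :=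
    (measurable_id.mul hφm).ennreal_ofReal
  have hid : 0 ≤ᵐ[μ] (fun x : ℝ => x) := by
    rw [hμ]
    refine (withDensity_absolutelyContinuous _ _).ae_le ?_
    filter_upwards [ae_restrict_mem measurableSet_Ioi] with x hx
    exact le_of_lt hx
  have key := lintegral_comp_eq_lintegral_meas_le_mul μ hid measurable_id.aemeasurable
    (g := g) (fun t _ => hg.ii 0 t) (Filter.Eventually.of_forall h0)
  have e1 : ∫⁻ x in Set.Ioi 0, ENNReal.ofReal (gaussianPDFReal 0 1 x * (x * ∫ u in (0 : ℝ)..x, g u)) =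
      ∫⁻ x, ENNReal.ofReal (∫ t in (0 : ℝ)..x, g t) ∂μ := by
    rw [hμ, lintegral_withDensity_eq_lintegral_mul _ hden hPm.ennreal_ofReal]
    refine setLIntegral_congr_fun measurableSet_Ioi fun x hx => ?_
    rw [Pi.mul_apply, ← ENNReal.ofReal_mul (mul_nonneg (le_of_lt hx) (hφ0 x))]
    congr 1
    ring
  rw [e1]
  refine key.trans ?_
  refine setLIntegral_congr_fun measurableSet_Ioi fun t ht => ?_
  have ht' : (0 : ℝ) < t := ht
  have e2 : μ {a : ℝ | t ≤ a} = ENNReal.ofReal (gaussianPDFReal 0 1 t) := by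
    have hset : {a : ℝ | t ≤ a} = Set.Ici t := rfl
    rw [hset, hμ, withDensity_apply _ measurableSet_Ici, Measure.restrict_restrict measurableSet_Ici]
    have hs : Set.Ici t ∩ Set.Ioi 0 = Set.Ici t := by
      refine Set.inter_eq_left.2 fun x hx => ?_
      exact lt_of_lt_of_le ht' hx
    rw [hs, ← cc_gpdf_tail t ht', ofReal_integral_eq_lintegral_ofReal (cc_gpdf_tail_int t ht')]
    · exact (setLIntegral_congr Ioi_ae_eq_Ici).symm
    · filter_upwards [ae_restrict_mem measurableSet_Ioi] with x hx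
      exact mul_nonneg (ht'.trans hx).le (hφ0 x)
  show μ {a : ℝ | t ≤ a} * ENNReal.ofReal (g t) = _
  rw [e2, ← ENNReal.ofReal_mul (hφ0 t)]

lemma CcE.neg_arg {g : ℝ → ℝ} (hg : CcE g) : CcE fun x => g (-x) := by
  obtain ⟨C, a, hC, ha, hb⟩ := hg.bdd
  refine CcE.of_bdd (hg.meas.comp measurable_neg) hC ha fun x => ?_
  have := hb (-x)
  rwa [abs_neg] at this

/-- Integration by parts for a primitive. -/
lemma cc_stein_prim {g : ℝ → ℝ} (hg : CcE g) (h0 : ∀ x, 0 ≤ g x) :
    ∫ x, x * (∫ u in (0 : ℝ)..x, g u) ∂(gaussianReal 0 1) = ∫ x, g x ∂(gaussianReal 0 1) := by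
  rw [integral_gaussianReal_eq_integral_smul one_ne_zero,
    integral_gaussianReal_eq_integral_smul one_ne_zero]
  simp only [smul_eq_mul]
  have i1 : Integrable (fun x => gaussianPDFReal 0 1 x * (x * ∫ u in (0 : ℝ)..x, g u)) :=
    (integrable_gaussianReal_iff _).1 (CcE.id.mul hg.prim).integrable
  have i2 : Integrable (fun x => gaussianPDFReal 0 1 x * g x) :=
    (integrable_gaussianReal_iff _).1 hg.integrable
  have split : ∀ F : ℝ → ℝ, Integrable F → ∫ x, F x =
      (∫ x in Set.Ioi 0, F x) + ∫ x in Set.Ioi 0, F (-x) := by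
    intro F hF
    rw [integral_comp_neg_Ioi (0 : ℝ) F, neg_zero]
    have := integral_add_compl (measurableSet_Ioi (a := (0 : ℝ))) hF
    rw [Set.compl_Ioi] at this
    exact this.symm
  rw [split _ i1, split _ i2, cc_half_stein hg h0]
  congr 1
  have := cc_half_stein hg.neg_arg (fun x => h0 (-x))
  simp only [cc_gpdf_even]
  rw [← this]
  refine setIntegral_congr_fun measurableSet_Ioi fun x _ => ?_
  have e : ∫ u in (0 : ℝ)..x, g (-u) = - ∫ u in (0 : ℝ)..(-x), g u := by
    rw [intervalIntegral.integral_comp_neg, neg_zero, intervalIntegral.integral_symm]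
  simp only [e]
  ring

/-- Cauchy-Schwarz for increments. -/
lemma cc_incr_sq {f f' : ℝ → ℝ} (hd : ∀ x, HasDerivAt f (f' x) x) (hf' : CcE f') (x y : ℝ) :
    (f x - f y) ^ 2 ≤ (x - y) * ((∫ u in (0 : ℝ)..x, f' u ^ 2) - ∫ u in (0 : ℝ)..y, f' u ^ 2) := by
  have main : ∀ x y : ℝ, y < x →
      (f x - f y) ^ 2 ≤ (x - y) * ((∫ u in (0 : ℝ)..x, f' u ^ 2) - ∫ u in (0 : ℝ)..y, f' u ^ 2) := by
    intro x y hxy
    have hpos : 0 < x - y := sub_pos.2 hxy
    rw [intervalIntegral.integral_interval_sub_left (hf'.sq.ii 0 x) (hf'.sq.ii 0 y)]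
    have h1 : ∫ u in y..x, f' u = f x - f y :=
      intervalIntegral.integral_eq_sub_of_hasDerivAt (fun u _ => hd u) (hf'.ii y x)
    obtain ⟨c, hc⟩ : ∃ c, c = (f x - f y) / (x - y) := ⟨_, rfl⟩
    have h2 : 0 ≤ ∫ u in y..x, (f' u - c) ^ 2 :=
      intervalIntegral.integral_nonneg hxy.le fun u _ => sq_nonneg _
    have h3 : ∫ u in y..x, (f' u - c) ^ 2 = (∫ u in y..x, f' u ^ 2) - 2 * c * (f x - f y) +
        c ^ 2 * (x - y) := by
      have e : (fun u => (f' u - c) ^ 2) = fun u => (f' u ^ 2 - 2 * c * f' u) + c ^ 2 := by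
        funext u
        ring
      rw [e, intervalIntegral.integral_add ((hf'.sq.ii y x).sub ((hf'.ii y x).const_mul (2 * c)))
        intervalIntegrable_const, intervalIntegral.integral_sub (hf'.sq.ii y x)
        ((hf'.ii y x).const_mul (2 * c)), intervalIntegral.integral_const_mul, h1,
        intervalIntegral.integral_const, smul_eq_mul]
      ring
    rw [h3] at h2
    have h4 : c * (x - y) = f x - f y := by
      rw [hc]
      field_simp
    have h5 : 0 ≤ (x - y) * ((∫ u in y..x, f' u ^ 2) - 2 * c * (f x - f y) + c ^ 2 * (x - y)) :=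
      mul_nonneg hpos.le h2
    have h6 : (x - y) * ((∫ u in y..x, f' u ^ 2) - 2 * c * (f x - f y) + c ^ 2 * (x - y)) =
        (x - y) * (∫ u in y..x, f' u ^ 2) - 2 * (c * (x - y)) * (f x - f y) + (c * (x - y)) ^ 2 := by
      ring
    rw [h6, h4] at h5
    linarith only [h5]
  rcases lt_trichotomy x y with h | h | h
  · have := main y x h
    linarith only [this]
  · subst h
    simp
  · exact main x y h

/-- Poincare inequality in dimension one. -/
lemma cc_var_one {f f' : ℝ → ℝ} (hd : ∀ x, HasDerivAt f (f' x) x) (hf : CcE f) (hf' : CcE f') :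
    ∫ x, (f x - ∫ y, f y ∂(gaussianReal 0 1)) ^ 2 ∂(gaussianReal 0 1) ≤
      ∫ x, f' x ^ 2 ∂(gaussianReal 0 1) := by
  set γ := gaussianReal 0 1 with hγ
  set P : ℝ → ℝ := fun x => ∫ u in (0 : ℝ)..x, f' u ^ 2 with hP
  have hPe : CcE P := hf'.sq.prim
  have hst : ∫ x, x * P x ∂γ = ∫ x, f' x ^ 2 ∂γ := cc_stein_prim hf'.sq fun x => sq_nonneg _
  have hmean : ∫ x : ℝ, x ∂γ = 0 := integral_id_gaussianReal
  set A := ∫ x, f x ∂γ with hA
  have hvar : ∫ x, (f x - A) ^ 2 ∂γ = (∫ x, f x ^ 2 ∂γ) - A ^ 2 := by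
    have e : (fun x => (f x - A) ^ 2) = fun x => (f x ^ 2 - 2 * A * f x) + A ^ 2 := by
      funext x
      ring
    rw [e, CcE.int_add (hf.sq.sub (hf.cm (2 * A))) (CcE.const _), CcE.int_sub hf.sq (hf.cm (2 * A)),
      integral_const_mul, ← hA, integral_const, probReal_univ, one_smul]
    ring
  have hy : ∀ y, (∫ x, f x ^ 2 ∂γ) - 2 * A * f y + f y ^ 2 ≤
      (∫ x, x * P x ∂γ) - y * (∫ x, P x ∂γ) + y * P y := by
    intro y
    have h1 : ∫ x, (f x - f y) ^ 2 ∂γ ≤ ∫ x, (x - y) * (P x - P y) ∂γ := by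
      refine integral_mono ?_ ?_ fun x => cc_incr_sq hd hf' x y
      · exact (hf.sub (CcE.const (f y))).sq.integrable
      · exact ((CcE.id.sub (CcE.const y)).mul (hPe.sub (CcE.const (P y)))).integrable
    have h2 : ∫ x, (f x - f y) ^ 2 ∂γ = (∫ x, f x ^ 2 ∂γ) - 2 * A * f y + f y ^ 2 := by
      have e : (fun x => (f x - f y) ^ 2) = fun x => (f x ^ 2 - 2 * f y * f x) + f y ^ 2 := by
        funext x
        ring
      rw [e, CcE.int_add (hf.sq.sub (hf.cm (2 * f y))) (CcE.const _),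
        CcE.int_sub hf.sq (hf.cm (2 * f y)), integral_const_mul, ← hA, integral_const,
        probReal_univ, one_smul]
      ring
    have h3 : ∫ x, (x - y) * (P x - P y) ∂γ =
        (∫ x, x * P x ∂γ) - y * (∫ x, P x ∂γ) + y * P y := by
      have e : (fun x => (x - y) * (P x - P y)) =
          fun x => ((x * P x - y * P x) - P y * x) + y * P y := by
        funext x
        ring
      have i1 : CcE (fun x => x * P x) := CcE.id.mul hPe
      have i2 : CcE (fun x => y * P x) := hPe.cm y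
      have i3 : CcE (fun x => P y * x) := CcE.id.cm (P y)
      rw [e, CcE.int_add ((i1.sub i2).sub i3) (CcE.const _),
        CcE.int_sub (i1.sub i2) i3, CcE.int_sub i1 i2, integral_const_mul, integral_const_mul,
        hmean, integral_const, probReal_univ, one_smul]
      ring
    rw [h2, h3] at h1
    exact h1
  have hint : ∫ y, ((∫ x, f x ^ 2 ∂γ) - 2 * A * f y + f y ^ 2) ∂γ ≤
      ∫ y, ((∫ x, x * P x ∂γ) - y * (∫ x, P x ∂γ) + y * P y) ∂γ := by
    refine integral_mono ?_ ?_ hy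
    · exact ((integrable_const _).sub (hf.integrable.const_mul _)).add hf.sq.integrable
    · exact ((integrable_const _).sub (CcE.id.integrable.mul_const _)).add
        (CcE.id.mul hPe).integrable
  rw [CcE.int_add ((CcE.const _).sub (hf.cm (2 * A))) hf.sq,
    CcE.int_sub (CcE.const _) (hf.cm (2 * A)), integral_const_mul, ← hA,
    integral_const, probReal_univ, one_smul,
    CcE.int_add ((CcE.const _).sub (CcE.id.mul (CcE.const (∫ x, P x ∂γ)))) (CcE.id.mul hPe),
    CcE.int_sub (CcE.const _) (CcE.id.mul (CcE.const (∫ x, P x ∂γ))), integral_mul_const, hmean,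
    integral_const, probReal_univ, one_smul] at hint
  rw [hvar, ← hst]
  linarith

end one

section multi

variable {ι : Type} [Fintype ι] [DecidableEq ι]

/-- Resampling of one coordinate. -/
lemma cc_integral_update (e : ι) {F : (ι → ℝ) → ℝ} (hF : EG F) :
    ∫ z, F z ∂(gI ι) = ∫ z, ∫ x, F (Function.update z e x) ∂(gaussianReal 0 1) ∂(gI ι) := by
  have hupd : ((gI ι).prod (gaussianReal 0 1)).map
      (fun q : (ι → ℝ) × ℝ => Function.update q.1 e q.2) = gI ι := Vale.Agent.P367.GT.map_update e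
  have hF' : Integrable F (((gI ι).prod (gaussianReal 0 1)).map
      (fun q : (ι → ℝ) × ℝ => Function.update q.1 e q.2)) := by
    rw [hupd]; exact hF.integrable
  conv_lhs => rw [← hupd]
  rw [integral_map (Vale.Agent.P367.GT.measurable_upd e).aemeasurable hF'.aestronglyMeasurable]
  rw [integral_prod]
  exact (integrable_map_measure hF'.aestronglyMeasurable
    (Vale.Agent.P367.GT.measurable_upd e).aemeasurable).mp hF'

lemma cc_integrable_update (e : ι) {F : (ι → ℝ) → ℝ} (hF : EG F) :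
    Integrable (fun z => ∫ x, F (Function.update z e x) ∂(gaussianReal 0 1)) (gI ι) := by
  have hupd : ((gI ι).prod (gaussianReal 0 1)).map
      (fun q : (ι → ℝ) × ℝ => Function.update q.1 e q.2) = gI ι := Vale.Agent.P367.GT.map_update e
  have hF' : Integrable F (((gI ι).prod (gaussianReal 0 1)).map
      (fun q : (ι → ℝ) × ℝ => Function.update q.1 e q.2)) := by
    rw [hupd]; exact hF.integrable
  exact ((integrable_map_measure hF'.aestronglyMeasurable
    (Vale.Agent.P367.GT.measurable_upd e).aemeasurable).mp hF').integral_prod_left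

lemma EG.cc_update {F : (ι → ℝ) → ℝ} (hF : EG F) (z : ι → ℝ) (e : ι) :
    CcE fun x => F (Function.update z e x) := by
  obtain ⟨C, a, hC, ha, hb⟩ := hF.bdd
  refine CcE.of_bdd (hF.meas.comp (measurable_update z)) (C := C * Real.exp (a * ‖z‖))
    (mul_nonneg hC (Real.exp_pos _).le) ha fun x => (hb _).trans ?_
  rw [mul_assoc, ← Real.exp_add, ← mul_add]
  have := norm_update_le z e x
  gcongr

/-- One step of the tensorization. -/
lemma cc_var_step {lev : ι → ℕ} {l : ℕ} {e : ι} (he : lev e = l + 1)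
    (huniq : ∀ e', lev e' = l + 1 → e' = e) {G G' : (ι → ℝ) → ℝ} (hG : EG G) (hG' : EG G')
    (hd : PD e G G') (hdep : Dep lev (l + 1) G) :
    ∫ z, (G z - J lev l G z) ^ 2 ∂(gI ι) ≤ ∫ z, G' z ^ 2 ∂(gI ι) := by
  have hJ : ∀ z, J lev l G z = ∫ x, G (Function.update z e x) ∂(gaussianReal 0 1) := by
    intro z
    have h1 : ∀ w, G (mix lev l z w) = G (Function.update z e (w e)) := by
      intro w
      rw [← hdep (mix lev l z w) 0, ← hdep (Function.update z e (w e)) 0]
      congr 1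
      funext j
      unfold mix
      by_cases hj : lev j ≤ l + 1
      · rw [if_pos hj, if_pos hj]
        by_cases hje : j = e
        · subst hje
          rw [if_neg (by omega), Function.update_self]
        · have : lev j ≤ l := by
            by_contra h
            exact hje (huniq j (by omega))
          rw [if_pos this, Function.update_of_ne hje]
      · rw [if_neg hj, if_neg hj]
    unfold J
    simp only [h1]
    have hmp := measurePreserving_eval (fun _ : ι => gaussianReal 0 1) e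
    have h3 := integral_map (μ := gI ι) (φ := Function.eval e) (measurable_pi_apply e).aemeasurable
      (f := fun x => G (Function.update z e x)) (hG.cc_update z e).meas.aestronglyMeasurable
    rw [hmp.map_eq] at h3
    exact h3.symm
  have h1 : EG fun z => (G z - J lev l G z) ^ 2 := (hG.sub (hG.J lev l)).pow 2
  rw [cc_integral_update e h1, cc_integral_update e (hG'.pow 2)]
  refine integral_mono (cc_integrable_update e h1) (cc_integrable_update e (hG'.pow 2)) fun z => ?_
  have h2 := cc_var_one (f := fun x => G (Function.update z e x))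
    (f' := fun x => G' (Function.update z e x)) (fun x => hd z x) (hG.cc_update z e) (hG'.cc_update z e)
  refine le_trans (le_of_eq ?_) h2
  refine integral_congr_ae (Filter.Eventually.of_forall fun x => ?_)
  simp only [hJ, Function.update_idem]

lemma cc_sq_J_le {lev : ι → ℕ} {l : ℕ} {h : (ι → ℝ) → ℝ} (hh : EG h) (z : ι → ℝ) :
    J lev l h z ^ 2 ≤ J lev l (fun z => h z ^ 2) z := by
  obtain ⟨c, hc⟩ : ∃ c, c = J lev l h z := ⟨_, rfl⟩
  have h0 : 0 ≤ J lev l (fun z => (h z - c) ^ 2) z := integral_nonneg fun w => sq_nonneg _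
  have h1 : J lev l (fun z => (h z - c) ^ 2) z =
      J lev l (fun z => h z ^ 2) z - 2 * c * J lev l h z + c ^ 2 := by
    have e : (fun z => (h z - c) ^ 2) = fun z => (h z ^ 2 - 2 * c * h z) + c ^ 2 := by
      funext z
      ring
    rw [e, J_add ((hh.pow 2).sub (hh.const_mul _)) (EG.const _), J_sub (hh.pow 2) (hh.const_mul _),
      J_const_mul, J_const]
  rw [h1, ← hc] at h0
  rw [← hc]
  linarith only [h0]

/-- Orthogonality of the increments. -/
lemma cc_var_pyth {lev : ι → ℕ} {l : ℕ} {G : (ι → ℝ) → ℝ} (hG : EG G) (c : ℝ) :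
    ∫ z, (G z - c) ^ 2 ∂(gI ι) =
      ∫ z, (G z - J lev l G z) ^ 2 ∂(gI ι) + ∫ z, (J lev l G z - c) ^ 2 ∂(gI ι) := by
  have hJ := hG.J lev l
  have h0 : ∫ z, (J lev l G z - c) * (G z - J lev l G z) ∂(gI ι) = 0 := by
    rw [← integral_J (lev := lev) (l := l) ((hJ.sub (EG.const c)).mul (hG.sub hJ))]
    have : ∀ z, J lev l (fun z => (J lev l G z - c) * (G z - J lev l G z)) z = 0 := by
      intro z
      have hdep : Dep lev l fun z => J lev l G z - c := by
        intro z w
        have := dep_J lev l G z w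
        simp only [this]
      rw [hdep.J_mul, J_sub hG hJ, (dep_J lev l G).J_eq, sub_self, mul_zero]
    simp only [this, integral_zero]
  have e : ∀ z, (G z - c) ^ 2 = ((G z - J lev l G z) ^ 2 + (J lev l G z - c) ^ 2) +
      2 * ((J lev l G z - c) * (G z - J lev l G z)) := fun z => by ring
  simp only [e]
  rw [integral_add, integral_const_mul, h0, integral_add, mul_zero, add_zero]
  · exact ((hG.sub hJ).pow 2).integrable
  · exact ((hJ.sub (EG.const c)).pow 2).integrable
  · exact (((hG.sub hJ).pow 2).add ((hJ.sub (EG.const c)).pow 2)).integrable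
  · exact (((hJ.sub (EG.const c)).mul (hG.sub hJ)).const_mul 2).integrable

/-- Gaussian Poincare inequality with the constant `1`. -/
theorem cc_var_le_one {F : (ι → ℝ) → ℝ} {F' : ι → (ι → ℝ) → ℝ} (hF : EG F)
    (hd : ∀ e, PD e F (F' e)) (hF' : ∀ e, EG (F' e)) :
    ∫ z, (F z - ∫ w, F w ∂(gI ι)) ^ 2 ∂(gI ι) ≤ ∑ e, ∫ z, F' e z ^ 2 ∂(gI ι) := by
  obtain ⟨n, ⟨eq⟩⟩ : ∃ n, Nonempty (ι ≃ Fin n) := ⟨_, ⟨Fintype.equivFin ι⟩⟩
  obtain ⟨lev, hlev⟩ : ∃ lev : ι → ℕ, ∀ e, lev e = (eq e : ℕ) + 1 := ⟨_, fun _ => rfl⟩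
  have hK : ∀ e, lev e ≤ n := fun e => by rw [hlev]; exact (eq e).2
  have hinj : ∀ e e', lev e = lev e' → e = e' := by
    intro e e' h
    rw [hlev, hlev] at h
    exact eq.injective (Fin.ext (by omega))
  have hJ0 : ∀ z, J lev 0 F z = ∫ w, F w ∂(gI ι) := by
    intro z
    unfold J
    congr 1
    funext w
    congr 1
    funext e
    unfold mix
    rw [if_neg (by rw [hlev]; omega)]
  have hJn : ∀ z, J lev n F z = F z := by
    intro z
    unfold J
    simp only [mix_top hK]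
    simp
  have key : ∀ l ≤ n, ∫ z, (J lev l F z - ∫ w, F w ∂(gI ι)) ^ 2 ∂(gI ι) ≤
      ∑ e, (if lev e ≤ l then ∫ z, F' e z ^ 2 ∂(gI ι) else 0) := by
    intro l
    induction l with
    | zero =>
      intro _
      simp only [hJ0, sub_self]
      rw [integral_eq_zero_of_ae (Filter.Eventually.of_forall fun z => by simp)]
      exact Finset.sum_nonneg fun e _ => by split_ifs <;> [exact integral_nonneg fun z => sq_nonneg _; exact le_rfl]
    | succ l ih =>
      intro hl
      have ih' := ih (by omega)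
      have hG := hF.J lev (l + 1)
      obtain ⟨e, he⟩ : ∃ e, lev e = l + 1 := by
        refine ⟨eq.symm ⟨l, by omega⟩, ?_⟩
        rw [hlev]
        simp
      have h1 := cc_var_pyth (lev := lev) (l := l) hG (∫ w, F w ∂(gI ι))
      have h2 : ∀ z, J lev l (J lev (l + 1) F) z = J lev l F z :=
        fun z => J_J (Nat.le_succ l) hF z
      have h3 := cc_var_step (l := l) he (fun e' h' => hinj e' e (h'.trans he.symm)) hG
        ((hF' e).J lev (l + 1)) (PD.J (hd e) hF (hF' e) he.le) (dep_J lev (l + 1) F)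
      have h4 : ∫ z, J lev (l + 1) (F' e) z ^ 2 ∂(gI ι) ≤ ∫ z, F' e z ^ 2 ∂(gI ι) := by
        rw [← integral_J (lev := lev) (l := l + 1) ((hF' e).pow 2)]
        exact integral_mono (((hF' e).J lev (l + 1)).pow 2).integrable
          (((hF' e).pow 2).J lev (l + 1)).integrable fun z => cc_sq_J_le (hF' e) z
      have h5 : ∑ e', (if lev e' ≤ l + 1 then ∫ z, F' e' z ^ 2 ∂(gI ι) else 0) =
          (∫ z, F' e z ^ 2 ∂(gI ι)) +
          ∑ e', (if lev e' ≤ l then ∫ z, F' e' z ^ 2 ∂(gI ι) else 0) := by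
        have h6 : ∀ e', (if lev e' ≤ l + 1 then ∫ z, F' e' z ^ 2 ∂(gI ι) else 0) =
            (if e' = e then ∫ z, F' e' z ^ 2 ∂(gI ι) else 0) +
            (if lev e' ≤ l then ∫ z, F' e' z ^ 2 ∂(gI ι) else 0) := by
          intro e'
          by_cases h : e' = e
          · subst h
            rw [if_pos (by omega), if_pos rfl, if_neg (by omega), add_zero]
          · rw [if_neg h, zero_add]
            by_cases h' : lev e' ≤ l
            · rw [if_pos h', if_pos (by omega)]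
            · rw [if_neg h', if_neg]
              intro h''
              exact h (hinj e' e (by omega))
        simp only [h6, Finset.sum_add_distrib]
        rw [Finset.sum_ite_eq' Finset.univ e]
        simp
      rw [h5, h1]
      simp only [h2] at h3 ⊢
      linarith only [ih', h4, h3]
  have := key n le_rfl
  simp only [hJn, hK, if_true] at this
  exact this

end multi


variable {ι X : Type} [Fintype ι] [DecidableEq ι] [Fintype X] [Nonempty X]

/-- Gaussian Poincare inequality with the constant `2` (tensorization of the variance, and in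
dimension one `f(z) - f(z') = ∫_0^{π/2} f'(z sin θ + z' cos θ) (z cos θ - z' sin θ) dθ`, which
gives the constant `π² / 8`). -/
theorem var_le {F : (ι → ℝ) → ℝ} {F' : ι → (ι → ℝ) → ℝ} (hF : EG F)
    (hd : ∀ e, PD e F (F' e)) (hF' : ∀ e, EG (F' e)) {V : ℝ} (hV : ∀ z, ∑ e, F' e z ^ 2 ≤ V) :
    ∫ z, (F z - ∫ w, F w ∂(gI ι)) ^ 2 ∂(gI ι) ≤ 2 * V := by
  refine (cc_var_le_one hF hd hF').trans ?_
  have h0 : ∑ e, ∫ z, F' e z ^ 2 ∂(gI ι) = ∫ z, ∑ e, F' e z ^ 2 ∂(gI ι) :=
    (integral_finsetSum _ fun e _ => ((hF' e).pow 2).integrable).symm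
  have h1 : ∫ z, ∑ e, F' e z ^ 2 ∂(gI ι) ≤ ∫ _, V ∂(gI ι) :=
    integral_mono (EG.sum Finset.univ fun e _ => (hF' e).pow 2).integrable
      (integrable_const _) hV
  have h2 : 0 ≤ V := (Finset.sum_nonneg fun e _ => sq_nonneg _).trans (hV 0)
  rw [integral_const, probReal_univ, one_smul] at h1
  rw [h0]
  linarith

namespace Sy

variable {S : Sy ι X} {D : ι → (ι → ℝ) → X → ℝ}

/-- Variance of the log-weight at the level zero. -/
theorem RegD.var_lg_zero (hS : S.RegD D) {V : ℝ}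
    (hV : ∀ z x, ∑ e, (if S.lev e = 0 then D e z x ^ 2 else 0) ≤ V) :
    ∫ z, (S.lg 0 z - S.fe) ^ 2 ∂(gI ι) ≤ 2 * V := by
  have hR := hS.toReg
  refine var_le (F' := fun e => if S.lev e = 0 then S.T 0 (D e) else fun _ => 0)
    (hR.lip_lg (Nat.zero_le _)).eg ?_ ?_ ?_
  · intro e
    by_cases he : S.lev e = 0
    · simp only [he, if_true]
      exact hS.pd_lg (Nat.zero_le _) he.le
    · simp only [he, if_false]
      exact (hR.dep_lg (Nat.zero_le _)).pd (Nat.pos_of_ne_zero he)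
  · intro e
    by_cases he : S.lev e = 0
    · simp only [he, if_true]
      exact hR.eg_T (Nat.zero_le _) (hS.nh e)
    · simp only [he, if_false]
      exact EG.const 0
  · intro z
    have h1 : ∀ e, (if S.lev e = 0 then S.T 0 (D e) else fun _ => 0) z ^ 2 ≤
        S.T 0 (fun z x => if S.lev e = 0 then D e z x ^ 2 else 0) z := by
      intro e
      by_cases he : S.lev e = 0
      · simp only [he, if_true]
        exact hR.sq_T_le (Nat.zero_le _) (hS.nh e) z
      · simp only [he, if_false]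
        rw [hR.T_const (Nat.zero_le _)]
        norm_num
    have hn : ∀ e, Nh (fun z x => if S.lev e = 0 then D e z x ^ 2 else 0) := by
      intro e
      by_cases he : S.lev e = 0
      · simp only [he, if_true]
        exact Nh.pow (hS.nh e) 2
      · simp only [he, if_false]
        exact fun _ => EG.const 0
    calc _ ≤ ∑ e, S.T 0 (fun z x => if S.lev e = 0 then D e z x ^ 2 else 0) z :=
          Finset.sum_le_sum fun e _ => h1 e
      _ = S.T 0 (fun z x => ∑ e, (if S.lev e = 0 then D e z x ^ 2 else 0)) z :=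
          (hR.T_sum (Nat.zero_le _) Finset.univ (fun e _ => hn e) z).symm
      _ ≤ S.T 0 (fun _ _ => V) z := hR.T_mono (Nat.zero_le _) (Nh.sum Finset.univ fun e _ => hn e)
          (fun _ => EG.const _) (fun z x => hV z x) z
      _ = V := hR.T_const (Nat.zero_le _) V z

/-- The system with the energy `H + t h`. -/
def pt (S : Sy ι X) (h : (ι → ℝ) → X → ℝ) (t : ℝ) : Sy ι X := S.wH fun z x => S.H z x + t * h z x

lemma cc_lip (hS : S.Reg) {h : (ι → ℝ) → X → ℝ} (hreg : ∀ t, (S.pt h t).Reg) (x : X) :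
    Lip fun z => h z x := by
  have h1 := ((hreg 1).lip x).add ((hS.lip x).const_mul (-1))
  have : (fun z => (S.pt h 1).H z x + -1 * S.H z x) = fun z => h z x := by
    funext z
    show (S.H z x + 1 * h z x) + -1 * S.H z x = h z x
    ring
  rwa [this] at h1

/-- For a centered observable `y`, `T e^y T e^{-y} ≥ 1 + T y²`. -/
lemma cc_exp (hS : S.Reg) {y : (ι → ℝ) → X → ℝ} (hy : Nh y)
    (hp : Nh fun z x => Real.exp (y z x)) (hm : Nh fun z x => Real.exp (-y z x)) (z : ι → ℝ)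
    (h0 : S.T 0 y z = 0) :
    1 + S.T 0 (fun z x => y z x ^ 2) z ≤
      S.T 0 (fun z x => Real.exp (y z x)) z * S.T 0 (fun z x => Real.exp (-y z x)) z := by
  obtain ⟨P, hP⟩ : ∃ P, P = S.T 0 (fun z x => Real.exp (y z x)) z := ⟨_, rfl⟩
  obtain ⟨M, hM⟩ : ∃ M, M = S.T 0 (fun z x => Real.exp (-y z x)) z := ⟨_, rfl⟩
  obtain ⟨A, hA⟩ : ∃ A, A = S.T 0 (fun z x => y z x ^ 2) z := ⟨_, rfl⟩
  have hz : (0 : ℕ) ≤ S.K := Nat.zero_le _
  have e1 : ∀ u : ℝ, 2 + u ^ 2 ≤ Real.exp u + Real.exp (-u) := by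
    intro u
    have h1 := Real.cosh_eq u
    have h2 : (u / 2) ^ 2 ≤ Real.sinh (u / 2) ^ 2 := by
      rcases le_total 0 (u / 2) with h | h
      · have := Real.self_le_sinh_iff.2 h
        linarith only [mul_nonneg (sub_nonneg.2 this) (sub_nonneg.2 this), mul_nonneg (sub_nonneg.2 h) (sub_nonneg.2 this)]
      · have := Real.sinh_le_self_iff.2 h
        nlinarith only [h, this]
    have h3 := Real.cosh_two_mul (u / 2)
    have h4 := Real.cosh_sq (u / 2)
    have h5 : 2 * (u / 2) = u := by ring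
    rw [h5] at h3
    linarith only [h1, h2, h3, h4]
  have h1 : ∀ b : ℝ, 2 + A + b ^ 2 ≤ Real.exp (-b) * P + Real.exp b * M := by
    intro b
    have h2 := hS.T_mono hz (f := fun z x => (y z x ^ 2 - 2 * b * y z x) + (2 + b ^ 2))
      (g := fun z x => Real.exp (-b) * Real.exp (y z x) + Real.exp b * Real.exp (-y z x))
      (Nh.add (Nh.sub (Nh.pow hy 2) (Nh.const_mul _ hy)) (fun _ => EG.const _))
      (Nh.add (Nh.const_mul _ hp) (Nh.const_mul _ hm)) (fun z x => by
        have := e1 (y z x - b)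
        rw [← Real.exp_add, ← Real.exp_add]
        have e2 : -b + y z x = y z x - b := by ring
        have e3 : b + -y z x = -(y z x - b) := by ring
        rw [e2, e3]
        linarith only [this]) z
    rw [hS.T_add hz (Nh.sub (Nh.pow hy 2) (Nh.const_mul _ hy)) (fun _ => EG.const _),
      hS.T_sub hz (Nh.pow hy 2) (Nh.const_mul _ hy), T_const_mul, h0, hS.T_const hz,
      hS.T_add hz (Nh.const_mul _ hp) (Nh.const_mul _ hm), T_const_mul, T_const_mul, ← hP, ← hM,
      ← hA] at h2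
    linarith only [h2]
  have h3 := hS.T_mono hz (f := fun z x => y z x ^ 2 + (2 + A))
    (g := fun z x => P * Real.exp (-y z x) + M * Real.exp (y z x))
    (Nh.add (Nh.pow hy 2) (fun _ => EG.const _)) (Nh.add (Nh.const_mul _ hm) (Nh.const_mul _ hp))
    (fun z x => by
      have := h1 (y z x)
      linarith) z
  rw [hS.T_add hz (Nh.pow hy 2) (fun _ => EG.const _), hS.T_const hz,
    hS.T_add hz (Nh.const_mul _ hm) (Nh.const_mul _ hp), T_const_mul, T_const_mul, ← hP, ← hM,
    ← hA] at h3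
  rw [← hP, ← hM, ← hA]
  linarith only [h3]

/-- The thermal part: `E (T₀ (h - T₀ h)²) ≤ Q / m₁` if the second difference of the free energy
in the direction `h` is at most `Q t²`. Proof: `Reg.thermal` for `± t` gives
`(1/m₁) log (1 + m₁² t² V) ≤ lg₊ + lg₋ - 2 lg`, `V = T₀ h² - (T₀ h)²` (use `T e^y T e^{-y} ≥
1 + T y²` if `T y = 0`), and `log (1 + y) ≥ y - y²/2`, `t → 0`. -/
theorem Reg.conc_thermal (hS : S.Reg) {h : (ι → ℝ) → X → ℝ} (hh : Nh h)
    (hreg : ∀ t, (S.pt h t).Reg) {Q t₀ : ℝ} (ht₀ : 0 < t₀)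
    (hQ : ∀ t, 0 < t → t ≤ t₀ → (S.pt h t).fe + (S.pt h (-t)).fe - 2 * S.fe ≤ Q * t ^ 2) :
    S.Ex (fun z x => (h z x - S.T 0 h z) ^ 2) ≤ Q / S.m 1 := by
  have hz : (0 : ℕ) ≤ S.K := Nat.zero_le _
  have hm : 0 < S.m 1 := hS.pos
  have hlip := cc_lip hS hreg
  -- the conditional variance
  obtain ⟨W, hW⟩ : ∃ W : (ι → ℝ) → ℝ, W = fun z => S.T 0 (fun z x => h z x ^ 2) z - S.T 0 h z ^ 2 :=
    ⟨_, rfl⟩
  have hWe : EG W := by
    rw [hW]
    exact (hS.eg_T hz (Nh.pow hh 2)).sub ((hS.eg_T hz hh).pow 2)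
  have hvar : ∀ z (c : ℝ), S.T 0 h z = c → S.T 0 (fun z x => (h z x - c) ^ 2) z = W z := by
    intro z c hc
    have e : (fun (z : ι → ℝ) (x : X) => (h z x - c) ^ 2) =
        fun z x => (h z x ^ 2 - 2 * c * h z x) + c ^ 2 := by
      funext z x
      ring
    rw [e, hS.T_add hz (Nh.sub (Nh.pow hh 2) (Nh.const_mul _ hh)) (fun _ => EG.const _),
      hS.T_sub hz (Nh.pow hh 2) (Nh.const_mul _ hh), T_const_mul, hS.T_const hz, hW]
    dsimp only
    rw [hc]
    ring
  have hW0 : ∀ z, 0 ≤ W z := by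
    intro z
    have := hS.sq_T_le hz hh z
    rw [hW]
    dsimp only
    linarith
  have hEx : S.Ex (fun z x => (h z x - S.T 0 h z) ^ 2) = ∫ z, W z ∂(gI ι) := by
    have hT := hS.eg_T hz hh
    have hn : Nh (fun z x => (h z x - S.T 0 h z) ^ 2) := Nh.pow (Nh.sub hh (Nh.fst hT)) 2
    rw [lc_Ex_T0 hS hn]
    congr 1
    funext z
    have e : (fun (z : ι → ℝ) (x : X) => (h z x - S.T 0 h z) ^ 2) =
        fun z x => (h z x ^ 2 - (2 * S.T 0 h z) * h z x) + S.T 0 h z ^ 2 := by
      funext z x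
      ring
    have hd1 : Dep S.lev 0 fun z => 2 * S.T 0 h z := by
      intro z w
      have := dep_T S 0 h z w
      simp only [this]
    have hd2 : Dep S.lev 0 fun z => S.T 0 h z ^ 2 := by
      intro z w
      have := dep_T S 0 h z w
      simp only [this]
    have n1 : Nh fun z x => 2 * S.T 0 h z * h z x := Nh.mul (Nh.fst (hT.const_mul 2)) hh
    rw [e, hS.T_add hz (Nh.sub (Nh.pow hh 2) n1) (Nh.fst (hT.pow 2)),
      hS.T_sub hz (Nh.pow hh 2) n1, T_mul_left S hd1, hS.T_fst hz hd2, hW]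
    ring
  rw [hEx]
  -- the main inequality
  have main : ∀ t, 0 < t → t ≤ t₀ →
      S.m 1 * (∫ z, W z ∂(gI ι)) - S.m 1 ^ 3 * (∫ z, W z ^ 2 ∂(gI ι)) / 2 * t ^ 2 ≤ Q := by
    intro t ht htt
    have hpt : ∀ z, S.m 1 ^ 2 * t ^ 2 * W z - S.m 1 ^ 4 * t ^ 4 / 2 * W z ^ 2 ≤
        S.m 1 * ((S.pt h t).lg 0 z + (S.pt h (-t)).lg 0 z - 2 * S.lg 0 z) := by
      intro z
      have h1 := Reg.thermal hS (hreg t) z
      have h2 := Reg.thermal hS (hreg (-t)) z
      obtain ⟨c, hc⟩ : ∃ c, S.T 0 h z = c := ⟨_, rfl⟩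
      have e1 : (fun (z : ι → ℝ) (x : X) =>
          Real.exp (S.m 1 * ((S.H z x + t * h z x) - S.H z x))) =
          fun z x => Real.exp (S.m 1 * t * c) * Real.exp (S.m 1 * t * (h z x - c)) := by
        funext z x
        rw [← Real.exp_add]
        congr 1
        ring
      have e2 : (fun (z : ι → ℝ) (x : X) =>
          Real.exp (S.m 1 * ((S.H z x + -t * h z x) - S.H z x))) =
          fun z x => Real.exp (-(S.m 1 * t * c)) * Real.exp (-(S.m 1 * t * (h z x - c))) := by
        funext z x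
        rw [← Real.exp_add]
        congr 1
        ring
      rw [e1, T_const_mul] at h1
      rw [e2, T_const_mul] at h2
      have hy : Nh fun z x => S.m 1 * t * (h z x - c) :=
        Nh.const_mul _ (Nh.sub hh (fun _ => EG.const c))
      have hlc : ∀ x, Lip fun z => h z x - c := fun x => by
        simpa [sub_eq_add_neg] using (hlip x).add (Lip.const (-c))
      have hp : Nh fun z x => Real.exp (S.m 1 * t * (h z x - c)) := fun x =>
        (hlc x).exp_eg (S.m 1 * t)
      have hmn : Nh fun z x => Real.exp (-(S.m 1 * t * (h z x - c))) := fun x => by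
        have := (hlc x).exp_eg (-(S.m 1 * t))
        simpa [neg_mul] using this
      have h0 : S.T 0 (fun z x => S.m 1 * t * (h z x - c)) z = 0 := by
        rw [T_const_mul, hS.T_sub hz hh (fun _ => EG.const c), hS.T_const hz, hc, sub_self,
          mul_zero]
      have h3 := cc_exp hS hy hp hmn z h0
      have h4 : S.T 0 (fun z x => (S.m 1 * t * (h z x - c)) ^ 2) z = S.m 1 ^ 2 * t ^ 2 * W z := by
        rw [← hvar z c hc, ← T_const_mul]
        congr 1
        funext z x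
        ring
      rw [h4] at h3
      obtain ⟨P, hP⟩ : ∃ P, P = S.T 0 (fun z x => Real.exp (S.m 1 * t * (h z x - c))) z := ⟨_, rfl⟩
      obtain ⟨M, hM⟩ : ∃ M, M = S.T 0 (fun z x => Real.exp (-(S.m 1 * t * (h z x - c)))) z :=
        ⟨_, rfl⟩
      rw [← hP] at h1 h3
      rw [← hM] at h2 h3
      have hPpos : 0 < P := by
        rw [hP]
        refine J_pos ((hS.eg_dn hz).mul (hS.eg_av hp)) (fun z => mul_pos (dn_pos S 0 z) ?_) z
        exact Finset.sum_pos (fun x _ => mul_pos (gb_pos S z x) (Real.exp_pos _))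
          Finset.univ_nonempty
      have hMpos : 0 < M := by
        rw [hM]
        refine J_pos ((hS.eg_dn hz).mul (hS.eg_av hmn)) (fun z => mul_pos (dn_pos S 0 z) ?_) z
        exact Finset.sum_pos (fun x _ => mul_pos (gb_pos S z x) (Real.exp_pos _))
          Finset.univ_nonempty
      have h5 : Real.log (1 + S.m 1 ^ 2 * t ^ 2 * W z) ≤ Real.log P + Real.log M := by
        rw [← Real.log_mul hPpos.ne' hMpos.ne']
        exact Real.log_le_log (by have := hW0 z; (clear * - hm ht this; positivity)) h3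
      rw [Real.log_mul (Real.exp_pos _).ne' hPpos.ne', Real.log_exp] at h1
      rw [Real.log_mul (Real.exp_pos _).ne' hMpos.ne', Real.log_exp] at h2
      have h6 : Real.log P + Real.log M ≤
          S.m 1 * ((S.pt h t).lg 0 z + (S.pt h (-t)).lg 0 z - 2 * S.lg 0 z) := by
        have h7 : 1 / S.m 1 * (Real.log P + Real.log M) ≤
            (S.pt h t).lg 0 z + (S.pt h (-t)).lg 0 z - 2 * S.lg 0 z := by
          have e : 1 / S.m 1 * (Real.log P + Real.log M) =
              1 / S.m 1 * (S.m 1 * t * c + Real.log P) +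
              1 / S.m 1 * (-(S.m 1 * t * c) + Real.log M) := by ring
          rw [e]
          have h1' : 1 / S.m 1 * (S.m 1 * t * c + Real.log P) ≤ (S.pt h t).lg 0 z - S.lg 0 z := h1
          have h2' : 1 / S.m 1 * (-(S.m 1 * t * c) + Real.log M) ≤
            (S.pt h (-t)).lg 0 z - S.lg 0 z := h2
          linarith only [h2', h1']
        rw [one_div, inv_mul_le_iff₀ hm] at h7
        exact h7
      refine le_trans ?_ (h5.trans h6)
      obtain ⟨u, hu⟩ : ∃ u, u = S.m 1 ^ 2 * t ^ 2 * W z := ⟨_, rfl⟩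
      have hu0 : 0 ≤ u := by rw [hu]; have := hW0 z; positivity
      rw [← hu]
      have h8 := Real.le_log_one_add_of_nonneg hu0
      refine le_trans ?_ h8
      have e3 : S.m 1 ^ 4 * t ^ 4 / 2 * W z ^ 2 = u ^ 2 / 2 := by rw [hu]; ring
      rw [e3, le_div_iff₀ (by linarith only [hu0])]
      linarith only [hu0, pow_nonneg hu0 3]
    have hl := fun s => ((hreg s).lip_lg (Nat.zero_le _)).eg
    have hl0 := (hS.lip_lg hz).eg
    have hint : ∫ z, (S.m 1 ^ 2 * t ^ 2 * W z - S.m 1 ^ 4 * t ^ 4 / 2 * W z ^ 2) ∂(gI ι) ≤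
        ∫ z, S.m 1 * ((S.pt h t).lg 0 z + (S.pt h (-t)).lg 0 z - 2 * S.lg 0 z) ∂(gI ι) :=
      integral_mono ((hWe.const_mul _).sub ((hWe.pow 2).const_mul _)).integrable
        ((((hl t).add (hl (-t))).sub (hl0.const_mul 2)).const_mul _).integrable hpt
    rw [integral_sub (hWe.const_mul _).integrable ((hWe.pow 2).const_mul _).integrable,
      integral_const_mul, integral_const_mul, integral_const_mul,
      integral_sub ((hl t).add (hl (-t))).integrable (hl0.const_mul 2).integrable,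
      integral_add (hl t).integrable (hl (-t)).integrable, integral_const_mul] at hint
    have hq := hQ t ht htt
    have hint2 : S.m 1 ^ 2 * t ^ 2 * (∫ z, W z ∂(gI ι)) -
        S.m 1 ^ 4 * t ^ 4 / 2 * (∫ z, W z ^ 2 ∂(gI ι)) ≤ S.m 1 * (Q * t ^ 2) :=
      hint.trans (mul_le_mul_of_nonneg_left hq hm.le)
    have hpos : 0 < S.m 1 * t ^ 2 := by positivity
    refine le_of_mul_le_mul_left ?_ hpos
    calc _ = S.m 1 ^ 2 * t ^ 2 * (∫ z, W z ∂(gI ι)) -
        S.m 1 ^ 4 * t ^ 4 / 2 * (∫ z, W z ^ 2 ∂(gI ι)) := by ring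
      _ ≤ S.m 1 * (Q * t ^ 2) := hint2
      _ = _ := by ring
  rw [le_div_iff₀ hm, mul_comm]
  have hlim : Tendsto (fun t : ℝ => S.m 1 * (∫ z, W z ∂(gI ι)) -
      S.m 1 ^ 3 * (∫ z, W z ^ 2 ∂(gI ι)) / 2 * t ^ 2) (𝓝[>] 0)
      (𝓝 (S.m 1 * (∫ z, W z ∂(gI ι)) - S.m 1 ^ 3 * (∫ z, W z ^ 2 ∂(gI ι)) / 2 * 0 ^ 2)) := by
    refine Tendsto.mono_left ?_ nhdsWithin_le_nhds
    exact Continuous.tendsto (by fun_prop) 0
  rw [zero_pow two_ne_zero, mul_zero, sub_zero] at hlim
  refine le_of_tendsto hlim ?_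
  filter_upwards [Ioc_mem_nhdsGT ht₀] with t ht
  exact main t ht.1 ht.2

lemma cc_abs_le {a : (ι → ℝ) → ℝ} (ha : EG a) {V : ℝ} (hV : ∫ z, a z ^ 2 ∂(gI ι) ≤ V) :
    ∫ z, |a z| ∂(gI ι) ≤ √V := by
  obtain ⟨c, hc⟩ : ∃ c, c = ∫ z, |a z| ∂(gI ι) := ⟨_, rfl⟩
  have h0 : 0 ≤ ∫ z, (|a z| - c) ^ 2 ∂(gI ι) := integral_nonneg fun z => sq_nonneg _
  have h1 : ∫ z, (|a z| - c) ^ 2 ∂(gI ι) = (∫ z, a z ^ 2 ∂(gI ι)) - c ^ 2 := by
    have e : (fun z => (|a z| - c) ^ 2) = fun z => (a z ^ 2 - 2 * c * |a z|) + c ^ 2 := by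
      funext z
      rw [← sq_abs (a z)]
      ring
    rw [e, integral_add ((ha.pow 2).sub (ha.abs.const_mul _)).integrable (integrable_const _),
      integral_sub (ha.pow 2).integrable (ha.abs.const_mul _).integrable, integral_const_mul,
      ← hc, integral_const, probReal_univ, one_smul]
    ring
  rw [← hc]
  refine Real.le_sqrt_of_sq_le ?_
  linarith

/-- The disorder part. Proof: with `A_± = lg 0` of `S.pt h (± t)`, `(A_0 - A_-)/t ≤ T₀ h ≤
(A_+ - A_0)/t` by `Reg.jensen_lg`. -/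
theorem Reg.conc_disorder (hS : S.Reg) {h : (ι → ℝ) → X → ℝ} (hh : Nh h)
    (hreg : ∀ t, (S.pt h t).Reg) {Q V t : ℝ} (ht : 0 < t)
    (hQ : (S.pt h t).fe + (S.pt h (-t)).fe - 2 * S.fe ≤ Q * t ^ 2)
    (hV : ∀ t' ∈ ({0, t, -t} : Set ℝ),
      ∫ z, ((S.pt h t').lg 0 z - (S.pt h t').fe) ^ 2 ∂(gI ι) ≤ V) :
    S.Ex (fun z _ => |S.T 0 h z - ((S.pt h t).fe - S.fe) / t|) ≤ Q * t + 4 * √V / t := by
  have hz : (0 : ℕ) ≤ S.K := Nat.zero_le _
  have hl := fun s => ((hreg s).lip_lg (Nat.zero_le _)).eg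
  have hl0 := (hS.lip_lg hz).eg
  have hS0 : S.pt h 0 = S := by
    unfold pt Sy.wH
    simp
  have hV0 := hV 0 (by simp)
  have hVp := hV t (by simp)
  have hVm := hV (-t) (by simp)
  rw [hS0] at hV0
  -- Jensen
  have j1 : ∀ z, t * S.T 0 h z ≤ (S.pt h t).lg 0 z - S.lg 0 z := by
    intro z
    have h1 := Reg.jensen_lg hS (hreg t) hz z
    have e1 : (fun (z : ι → ℝ) (x : X) => (S.H z x + t * h z x) - S.H z x) =
        fun z x => t * h z x := by
      funext z x
      ring
    rw [e1, T_const_mul] at h1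
    exact h1
  have j2 : ∀ z, -t * S.T 0 h z ≤ (S.pt h (-t)).lg 0 z - S.lg 0 z := by
    intro z
    have h1 := Reg.jensen_lg hS (hreg (-t)) hz z
    have e1 : (fun (z : ι → ℝ) (x : X) => (S.H z x + -t * h z x) - S.H z x) =
        fun z x => -t * h z x := by
      funext z x
      ring
    rw [e1, T_const_mul] at h1
    exact h1
  have hconv : 0 ≤ (S.pt h t).fe + (S.pt h (-t)).fe - 2 * S.fe := by
    have h1 : ∫ z, (0 : ℝ) ∂(gI ι) ≤
        ∫ z, ((S.pt h t).lg 0 z + (S.pt h (-t)).lg 0 z - 2 * S.lg 0 z) ∂(gI ι) := by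
      refine integral_mono (integrable_const _)
        (((hl t).add (hl (-t))).sub (hl0.const_mul 2)).integrable fun z => ?_
      have := j1 z
      have := j2 z
      dsimp only
      linarith
    rw [integral_sub ((hl t).add (hl (-t))).integrable (hl0.const_mul 2).integrable,
      integral_add (hl t).integrable (hl (-t)).integrable, integral_const_mul,
      integral_zero] at h1
    exact h1
  have hQt : 0 ≤ Q * t ^ 2 := hconv.trans hQ
  obtain ⟨a0, ha0⟩ : ∃ a : (ι → ℝ) → ℝ, a = fun z => S.lg 0 z - S.fe := ⟨_, rfl⟩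
  obtain ⟨ap, hap⟩ : ∃ a : (ι → ℝ) → ℝ, a = fun z => (S.pt h t).lg 0 z - (S.pt h t).fe :=
    ⟨_, rfl⟩
  obtain ⟨am, ham⟩ : ∃ a : (ι → ℝ) → ℝ, a = fun z => (S.pt h (-t)).lg 0 z - (S.pt h (-t)).fe :=
    ⟨_, rfl⟩
  have e0 : EG a0 := by rw [ha0]; exact hl0.sub (EG.const _)
  have ep : EG ap := by rw [hap]; exact (hl t).sub (EG.const _)
  have em : EG am := by rw [ham]; exact (hl (-t)).sub (EG.const _)
  have i0 := cc_abs_le (V := V) e0 (by rw [ha0]; exact hV0)
  have ip := cc_abs_le (V := V) ep (by rw [hap]; exact hVp)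
  have im := cc_abs_le (V := V) em (by rw [ham]; exact hVm)
  have hTe := hS.eg_T hz hh
  have hd1 : Dep S.lev 0 fun z => |S.T 0 h z - ((S.pt h t).fe - S.fe) / t| := by
    intro z w
    have := dep_T S 0 h z w
    simp only [this]
  have he1 : EG fun z => |S.T 0 h z - ((S.pt h t).fe - S.fe) / t| := (hTe.sub (EG.const _)).abs
  rw [hS.Ex_dep hd1 he1]
  have hpt : ∀ z, |S.T 0 h z - ((S.pt h t).fe - S.fe) / t| ≤
      Q * t + 1 / t * (|a0 z| + |ap z| + |am z|) := by
    intro z
    have h1 := j1 z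
    have h2 := j2 z
    have k0 := abs_le.1 (le_refl |a0 z|)
    have kp := abs_le.1 (le_refl |ap z|)
    have km := abs_le.1 (le_refl |am z|)
    have d0 : a0 z = S.lg 0 z - S.fe := by rw [ha0]
    have dp : ap z = (S.pt h t).lg 0 z - (S.pt h t).fe := by rw [hap]
    have dm : am z = (S.pt h (-t)).lg 0 z - (S.pt h (-t)).fe := by rw [ham]
    have n0 := abs_nonneg (a0 z)
    have np := abs_nonneg (ap z)
    have nm := abs_nonneg (am z)
    have e1 : S.T 0 h z - ((S.pt h t).fe - S.fe) / t =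
        1 / t * (t * S.T 0 h z - ((S.pt h t).fe - S.fe)) := by
      field_simp
    have e2 : Q * t + 1 / t * (|a0 z| + |ap z| + |am z|) =
        1 / t * (Q * t ^ 2 + (|a0 z| + |ap z| + |am z|)) := by
      field_simp
    rw [e1, e2, abs_mul, abs_of_pos (one_div_pos.2 ht)]
    refine mul_le_mul_of_nonneg_left ?_ (one_div_pos.2 ht).le
    rw [abs_le]
    constructor
    · linarith only [hQ, h2, k0, kp, km, d0, dm]
    · linarith only [hQ, hconv, h1, k0, kp, km, d0, dp]
  have hint : ∫ z, |S.T 0 h z - ((S.pt h t).fe - S.fe) / t| ∂(gI ι) ≤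
      ∫ z, (Q * t + 1 / t * (|a0 z| + |ap z| + |am z|)) ∂(gI ι) :=
    integral_mono he1.integrable
      ((EG.const _).add (((e0.abs.add ep.abs).add em.abs).const_mul _)).integrable hpt
  refine hint.trans ?_
  rw [integral_add (integrable_const _) (((e0.abs.add ep.abs).add em.abs).const_mul _).integrable,
    integral_const, probReal_univ, one_smul, integral_const_mul,
    integral_add (e0.abs.add ep.abs).integrable em.abs.integrable,
    integral_add e0.abs.integrable ep.abs.integrable]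
  have hs : 0 ≤ √V := Real.sqrt_nonneg V
  have : 1 / t * (∫ z, |a0 z| ∂(gI ι) + ∫ z, |ap z| ∂(gI ι) + ∫ z, |am z| ∂(gI ι)) ≤
      1 / t * (4 * √V) := by
    refine mul_le_mul_of_nonneg_left ?_ (one_div_pos.2 ht).le
    linarith only [hs, im, ip, i0]
  have e3 : 4 * √V / t = 1 / t * (4 * √V) := by ring
  rw [e3]
  linarith only [this]

/-- **Concentration.** -/
theorem Reg.conc (hS : S.Reg) {h : (ι → ℝ) → X → ℝ} (hh : Nh h)
    (hreg : ∀ t, (S.pt h t).Reg) {Q V t₀ : ℝ} (ht₀ : 0 < t₀)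
    (hQ : ∀ t, 0 < t → t ≤ t₀ → (S.pt h t).fe + (S.pt h (-t)).fe - 2 * S.fe ≤ Q * t ^ 2)
    (hV : ∀ t, |t| ≤ t₀ → ∫ z, ((S.pt h t).lg 0 z - (S.pt h t).fe) ^ 2 ∂(gI ι) ≤ V)
    {t : ℝ} (ht : 0 < t) (htt : t ≤ t₀) :
    ∃ c : ℝ, S.Ex (fun z x => |h z x - c|) ≤ √(Q / S.m 1) + Q * t + 4 * √V / t := by
  have hz : (0 : ℕ) ≤ S.K := Nat.zero_le _
  have h1 := hS.conc_thermal hh hreg ht₀ hQ
  have h2 := hS.conc_disorder hh hreg (V := V) ht (hQ t ht htt) (by
    intro t' ht'
    refine hV t' ?_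
    simp only [Set.mem_insert_iff, Set.mem_singleton_iff] at ht'
    rcases ht' with rfl | rfl | rfl
    · rw [abs_zero]; exact ht₀.le
    · rw [abs_of_pos ht]; exact htt
    · rw [abs_neg, abs_of_pos ht]; exact htt)
  obtain ⟨c, hc⟩ : ∃ c, c = ((S.pt h t).fe - S.fe) / t := ⟨_, rfl⟩
  rw [← hc] at h2
  refine ⟨c, ?_⟩
  have hTe := hS.eg_T hz hh
  have n1 : Nh fun z x => |h z x - S.T 0 h z| := Nh.abs (Nh.sub hh (Nh.fst hTe))
  have n2 : Nh (X := X) fun z _ => |S.T 0 h z - c| := Nh.fst (hTe.sub (EG.const c)).abs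
  have h3 : S.Ex (fun z x => |h z x - c|) ≤
      S.Ex (fun z x => |h z x - S.T 0 h z| + |S.T 0 h z - c|) :=
    hS.Ex_mono (Nh.abs (Nh.sub hh (fun _ => EG.const c))) (Nh.add n1 n2) fun z x => by
      have := abs_add_le (h z x - S.T 0 h z) (S.T 0 h z - c)
      rwa [sub_add_sub_cancel] at this
  rw [hS.Ex_add n1 n2] at h3
  have h4 : S.Ex (fun z x => |h z x - S.T 0 h z|) ≤ √(Q / S.m 1) := by
    refine Real.le_sqrt_of_sq_le ?_
    have h5 := hS.Ex_cs n1 (g := fun _ _ => 1) (fun _ => EG.const 1)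
    simp only [mul_one, one_pow, sq_abs] at h5
    rw [hS.Ex_const, mul_one] at h5
    exact h5.trans h1
  linarith only [h4, h3, h2]

end Sy

end Vale.Agent.P157.Lv
end

section

/-!
# P146, module GOE/VAR: Chebyshev polynomials of the second kind of a square matrix
-/

open Finset Matrix

namespace Vale.Agent.P146.Sk

set_option linter.all false

variable {N : ℕ}

/-- `U_0 = 1`, `U_1 = W`, `U_{p+2} = W U_{p+1} - U_p`. -/
def Um (W : Matrix (Fin N) (Fin N) ℝ) : ℕ → Matrix (Fin N) (Fin N) ℝ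
  | 0 => 1
  | 1 => W
  | p + 2 => W * Um W (p + 1) - Um W p

@[simp] lemma Um_zero (W : Matrix (Fin N) (Fin N) ℝ) : Um W 0 = 1 := rfl
@[simp] lemma Um_one (W : Matrix (Fin N) (Fin N) ℝ) : Um W 1 = W := rfl
lemma Um_add_two (W : Matrix (Fin N) (Fin N) ℝ) (p : ℕ) :
    Um W (p + 2) = W * Um W (p + 1) - Um W p := rfl

lemma mul_Um_succ (W : Matrix (Fin N) (Fin N) ℝ) (p : ℕ) :
    W * Um W (p + 1) = Um W (p + 2) + Um W p := by
  rw [Um_add_two]; abel

lemma Um_comm_W (W : Matrix (Fin N) (Fin N) ℝ) (p : ℕ) : W * Um W p = Um W p * W := by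
  induction p using Nat.strong_induction_on with
  | _ p ih =>
    match p with
    | 0 => simp
    | 1 => simp
    | p + 2 =>
      rw [Um_add_two, mul_sub, sub_mul, ih p (by omega), mul_assoc W (Um W (p + 1)) W,
        ← ih (p + 1) (by omega)]

lemma Um_transpose {W : Matrix (Fin N) (Fin N) ℝ} (hW : Wᵀ = W) (p : ℕ) :
    (Um W p)ᵀ = Um W p := by
  induction p using Nat.strong_induction_on with
  | _ p ih =>
    match p with
    | 0 => simp
    | 1 => simpa using hW
    | p + 2 =>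
      rw [Um_add_two, transpose_sub, transpose_mul, ih p (by omega), ih (p + 1) (by omega), hW,
        ← Um_comm_W]

/-- the product formula -/
theorem Um_mul (W : Matrix (Fin N) (Fin N) ℝ) (a b : ℕ) (hab : a ≤ b) :
    Um W a * Um W b = ∑ j ∈ range (a + 1), Um W (b - a + 2 * j) := by
  induction a using Nat.strong_induction_on generalizing b with
  | _ a ih =>
    match a with
    | 0 => simp
    | 1 =>
      obtain ⟨c, rfl⟩ : ∃ c, b = c + 1 := ⟨b - 1, by omega⟩
      rw [Um_one, mul_Um_succ, sum_range_succ, sum_range_one, add_comm]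
      congr 1
    | a + 2 =>
      have h1 := ih (a + 1) (by omega) b (by omega)
      have h0 := ih a (by omega) b (by omega)
      rw [Um_add_two, sub_mul, mul_assoc, h1, h0, mul_sum]
      have h2 : ∀ j ∈ range (a + 1 + 1), W * Um W (b - (a + 1) + 2 * j) =
          Um W (b - a + 2 * j) + Um W (b - (a + 2) + 2 * j) := by
        intro j _
        obtain ⟨c, hc⟩ : ∃ c, b = a + 2 + c := ⟨b - (a + 2), by omega⟩
        have e1 : b - (a + 1) + 2 * j = (c + 2 * j) + 1 := by omega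
        have e2 : b - a + 2 * j = (c + 2 * j) + 2 := by omega
        have e3 : b - (a + 2) + 2 * j = c + 2 * j := by omega
        rw [e1, e2, e3, mul_Um_succ]
      rw [sum_congr rfl h2, sum_add_distrib, sum_range_succ (n := a + 1),
        sum_range_succ (fun j => Um W (b - (a + 2) + 2 * j)) (a + 2)]
      have e4 : b - a + 2 * (a + 1) = b - (a + 2) + 2 * (a + 2) := by omega
      rw [e4]
      abel

lemma Um_commute (W : Matrix (Fin N) (Fin N) ℝ) (a b : ℕ) : Um W a * Um W b = Um W b * Um W a := by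
  induction a using Nat.strong_induction_on with
  | _ a ih =>
    match a with
    | 0 => simp
    | 1 => simpa using Um_comm_W W b
    | a + 2 =>
      rw [Um_add_two, sub_mul, mul_sub, ih a (by omega), mul_assoc, ih (a + 1) (by omega),
        ← mul_assoc, Um_comm_W, mul_assoc]

/-- the derivative of `U_p` in the direction `F` -/
def DU (W F : Matrix (Fin N) (Fin N) ℝ) : ℕ → Matrix (Fin N) (Fin N) ℝ
  | 0 => 0
  | 1 => F
  | p + 2 => F * Um W (p + 1) + W * DU W F (p + 1) - DU W F p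

theorem DU_eq (W F : Matrix (Fin N) (Fin N) ℝ) (p : ℕ) :
    DU W F p = ∑ s ∈ range p, Um W s * F * Um W (p - 1 - s) := by
  induction p using Nat.strong_induction_on with
  | _ p ih =>
    match p with
    | 0 => simp [DU]
    | 1 => simp [DU]
    | p + 2 =>
      have h1 := ih (p + 1) (by omega)
      have h0 := ih p (by omega)
      rw [DU, h1, h0, mul_sum]
      rw [sum_range_succ' (fun s => W * (Um W s * F * Um W (p + 1 - 1 - s))) p]
      rw [sum_range_succ' (fun s => Um W s * F * Um W (p + 2 - 1 - s)) (p + 1),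
        sum_range_succ' (fun s => Um W (s + 1) * F * Um W (p + 2 - 1 - (s + 1))) p]
      have h2 : ∀ s ∈ range p, W * (Um W (s + 1) * F * Um W (p + 1 - 1 - (s + 1))) =
          Um W (s + 1 + 1) * F * Um W (p + 2 - 1 - (s + 1 + 1)) +
            Um W s * F * Um W (p - 1 - s) := by
        intro s hs
        rw [mem_range] at hs
        have e1 : p + 1 - 1 - (s + 1) = p - 1 - s := by omega
        have e2 : p + 2 - 1 - (s + 1 + 1) = p - 1 - s := by omega
        rw [e1, e2, ← mul_assoc, ← mul_assoc, mul_Um_succ, add_mul, add_mul]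
      rw [sum_congr rfl h2, sum_add_distrib]
      simp only [Um_zero, one_mul, Um_one, zero_add, add_tsub_cancel_right, tsub_zero]
      have e3 : p + 2 - 1 = p + 1 := by omega
      rw [e3]
      simp only [Nat.add_sub_cancel]
      rw [← mul_assoc]
      abel

end Vale.Agent.P146.Sk
end

section

/-!
# P146, module GOE: the matrix `W = (G + Gᵀ) / √(2N)`, derivatives and traces
-/

open MeasureTheory ProbabilityTheory Finset Matrix Filter Topology

namespace Vale.Agent.P146.Sk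

open Vale.Agent.P157.Lv

set_option linter.all false

/-- indices of the disorder -/
abbrev Ix (N : ℕ) : Type := Fin N × Fin N

/-- `W = (G + Gᵀ) / √(2N)` -/
noncomputable def Wm (N : ℕ) (z : Ix N → ℝ) : Matrix (Fin N) (Fin N) ℝ :=
  Matrix.of fun i j => (z (i, j) + z (j, i)) / √(2 * (N : ℝ))

/-- the derivative of `W` in the coordinate `e` -/
noncomputable def Em (N : ℕ) (e : Ix N) : Matrix (Fin N) (Fin N) ℝ :=
  Matrix.of fun i j => ((if (i, j) = e then 1 else 0) + (if (j, i) = e then 1 else 0)) /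
    √(2 * (N : ℝ))

variable {N : ℕ}

lemma Wm_transpose (z : Ix N → ℝ) : (Wm N z)ᵀ = Wm N z := by
  ext i j; simp [Wm, add_comm]

lemma mul_Em_mul (A B : Matrix (Fin N) (Fin N) ℝ) (e : Ix N) (i j : Fin N) :
    (A * Em N e * B) i j = (A i e.1 * B e.2 j + A i e.2 * B e.1 j) / √(2 * (N : ℝ)) := by
  have h1 : ∀ l, (A * Em N e) i l = (A i e.1 * (if l = e.2 then 1 else 0) +
      A i e.2 * (if l = e.1 then 1 else 0)) / √(2 * (N : ℝ)) := by
    intro l
    rw [Matrix.mul_apply]
    have h2 : ∀ k, A i k * Em N e k l = (A i k * (if k = e.1 then (if l = e.2 then 1 else 0) else 0)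
        + A i k * (if k = e.2 then (if l = e.1 then 1 else 0) else 0)) / √(2 * (N : ℝ)) := by
      intro k
      have h3 : ((k, l) = e) ↔ (k = e.1 ∧ l = e.2) := by
        rw [Prod.ext_iff]
      have h4 : ((l, k) = e) ↔ (k = e.2 ∧ l = e.1) := by
        rw [Prod.ext_iff]; exact and_comm
      simp only [Em, Matrix.of_apply, h3, h4, ite_and]
      ring
    simp only [h2]
    rw [← sum_div, sum_add_distrib]
    simp only [mul_ite, mul_zero, sum_ite_eq', mem_univ, if_true]
  rw [Matrix.mul_apply]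
  simp only [h1]
  have h5 : ∀ l, (A i e.1 * (if l = e.2 then 1 else 0) +
      A i e.2 * (if l = e.1 then 1 else 0)) / √(2 * (N : ℝ)) * B l j =
      ((if l = e.2 then A i e.1 * B l j else 0) + (if l = e.1 then A i e.2 * B l j else 0)) /
        √(2 * (N : ℝ)) := by
    intro l
    split_ifs <;> ring
  simp only [h5]
  rw [← sum_div, sum_add_distrib]
  simp only [sum_ite_eq', mem_univ, if_true]

/-- entrywise partial derivative -/
def PDM {ι : Type} [DecidableEq ι] (e : ι) (A A' : (ι → ℝ) → Matrix (Fin N) (Fin N) ℝ) : Prop :=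
  ∀ i j, PD e (fun z => A z i j) (fun z => A' z i j)

/-- entrywise exponential growth -/
def EGM {ι : Type} [Fintype ι] (A : (ι → ℝ) → Matrix (Fin N) (Fin N) ℝ) : Prop :=
  ∀ i j, EG fun z => A z i j

section calcM

variable {ι : Type} [Fintype ι] [DecidableEq ι] {e : ι}
  {A A' B B' : (ι → ℝ) → Matrix (Fin N) (Fin N) ℝ}

lemma PDM.mul (hA : PDM e A A') (hB : PDM e B B') :
    PDM e (fun z => A z * B z) (fun z => A' z * B z + A z * B' z) := by
  intro i j
  have h := PD.sum (e := e) Finset.univ (H := fun k z => A z i k * B z k j)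
    (H' := fun k z => A' z i k * B z k j + A z i k * B' z k j)
    fun k _ => (hA i k).mul (hB k j)
  simp only [Matrix.mul_apply, Matrix.add_apply]
  simpa only [sum_add_distrib] using h

lemma PDM.sub (hA : PDM e A A') (hB : PDM e B B') :
    PDM e (fun z => A z - B z) (fun z => A' z - B' z) := fun i j => (hA i j).sub (hB i j)

lemma PDM.add (hA : PDM e A A') (hB : PDM e B B') :
    PDM e (fun z => A z + B z) (fun z => A' z + B' z) := fun i j => (hA i j).add (hB i j)

lemma PDM.const (C : Matrix (Fin N) (Fin N) ℝ) :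
    PDM e (fun _ : ι → ℝ => C) (fun _ => 0) := fun i j => PD.const _

lemma PDM.congr (hA : PDM e A A') (h : ∀ z, A' z = B' z) : PDM e A B' := fun i j =>
  (hA i j).congr fun y => by rw [h]

lemma PDM.trace (hA : PDM e A A') : PD e (fun z => (A z).trace) (fun z => (A' z).trace) :=
  PD.sum Finset.univ fun i _ => hA i i

omit [DecidableEq ι] in
lemma EGM.mul (hA : EGM A) (hB : EGM B) : EGM (fun z => A z * B z) := by
  intro i j
  simp only [Matrix.mul_apply]
  exact EG.sum Finset.univ fun k _ => (hA i k).mul (hB k j)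

omit [DecidableEq ι] in
lemma EGM.add (hA : EGM A) (hB : EGM B) : EGM (fun z => A z + B z) := fun i j =>
  (hA i j).add (hB i j)

omit [DecidableEq ι] in
lemma EGM.sub (hA : EGM A) (hB : EGM B) : EGM (fun z => A z - B z) := fun i j =>
  (hA i j).sub (hB i j)

omit [DecidableEq ι] in
lemma EGM.const (C : Matrix (Fin N) (Fin N) ℝ) : EGM (fun _ : ι → ℝ => C) := fun i j =>
  EG.const _

omit [DecidableEq ι] in
lemma EGM.trace (hA : EGM A) : EG (fun z => (A z).trace) :=
  EG.sum Finset.univ fun i _ => hA i i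

end calcM

lemma egm_Wm : EGM (fun z => Wm N z) := by
  intro i j
  have h := ((EG.coord (ι := Ix N) (i, j)).add (EG.coord (ι := Ix N) (j, i))).const_mul
    (√(2 * (N : ℝ)))⁻¹
  have h2 : (fun z : Ix N → ℝ => Wm N z i j) =
      fun z => (√(2 * (N : ℝ)))⁻¹ * (z (i, j) + z (j, i)) := by
    funext z
    simp only [Wm, Matrix.of_apply]
    ring
  rw [h2]
  exact h

lemma pdm_Wm (e : Ix N) : PDM e (fun z => Wm N z) (fun _ => Em N e) := by
  intro i j
  have h := ((PD.coord (e := e) (i, j)).add (PD.coord (e := e) (j, i))).const_mul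
    (√(2 * (N : ℝ)))⁻¹
  have h2 : (fun z : Ix N → ℝ => Wm N z i j) =
      fun z => (√(2 * (N : ℝ)))⁻¹ * (z (i, j) + z (j, i)) := by
    funext z
    simp only [Wm, Matrix.of_apply]
    ring
  rw [h2]
  refine h.congr fun y => ?_
  simp only [Em, Matrix.of_apply]
  ring

lemma egm_Um (p : ℕ) : EGM (fun z => Um (Wm N z) p) := by
  induction p using Nat.strong_induction_on with
  | _ p ih =>
    match p with
    | 0 => exact EGM.const 1
    | 1 => exact egm_Wm
    | p + 2 => exact (egm_Wm.mul (ih (p + 1) (by omega))).sub (ih p (by omega))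

lemma pdm_Um (e : Ix N) (p : ℕ) :
    PDM e (fun z => Um (Wm N z) p) (fun z => DU (Wm N z) (Em N e) p) := by
  induction p using Nat.strong_induction_on with
  | _ p ih =>
    match p with
    | 0 => exact PDM.const 1
    | 1 => exact pdm_Wm e
    | p + 2 => exact ((pdm_Wm e).mul (ih (p + 1) (by omega))).sub (ih p (by omega))

lemma egm_DU (F : Matrix (Fin N) (Fin N) ℝ) (p : ℕ) : EGM (fun z => DU (Wm N z) F p) := by
  induction p using Nat.strong_induction_on with
  | _ p ih =>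
    match p with
    | 0 => exact EGM.const 0
    | 1 => exact EGM.const F
    | p + 2 => exact (((EGM.const F).mul (egm_Um (p + 1))).add
        (egm_Wm.mul (ih (p + 1) (by omega)))).sub (ih p (by omega))

end Vale.Agent.P146.Sk
end

section

/-!
Synchronization: if the fields `∑ z_{l,i} φ_i(x)` of all levels are concentrated, then the overlap
of two replicas is concentrated given the level at which they split (up to the increments of the
overlap path).
-/

open MeasureTheory ProbabilityTheory Filter Topology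

namespace Vale.Agent.P157.Lv

set_option linter.unusedSectionVars false

variable {ι X : Type} [Fintype ι] [DecidableEq ι] [Fintype X] [DecidableEq X] [Nonempty X]
  {S : Sy ι X} {D : ι → (ι → ℝ) → X → ℝ} {N : ℕ}

/-- The overlap of two configurations. -/
noncomputable def Rov (φ : X → Fin N → ℝ) (x x' : X) : ℝ := 1 / N * ∑ i, φ x i * φ x' i

/-- The field of the level `l`, divided by `N`. -/
noncomputable def hz (φ : X → Fin N → ℝ) (zc : ℕ → Fin N → ι) (l : ℕ) (z : ι → ℝ) (x : X) : ℝ :=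
  1 / N * ∑ i, z (zc l i) * φ x i

namespace Sy

/-- The magnetization given the levels at most `l`. -/
noncomputable def mg (S : Sy ι X) (φ : X → Fin N → ℝ) (l : ℕ) (i : Fin N) : (ι → ℝ) → ℝ :=
  S.T l (fun _ x => φ x i)

/-- The overlap of two replicas which split at the level `l`. -/
noncomputable def Rl (S : Sy ι X) (φ : X → Fin N → ℝ) (l : ℕ) : ℝ :=
  1 / N * S.Ex (fun z _ => ∑ i, S.mg φ l i z ^ 2)

/-- The conditional law of the configuration given the levels at most `l`. -/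
noncomputable def pr (S : Sy ι X) (l : ℕ) (z : ι → ℝ) (x : X) : ℝ :=
  S.T l (fun _ y => if y = x then 1 else 0) z

/-- The average over two replicas which split at the level `l`. -/
noncomputable def pairEx (S : Sy ι X) (l : ℕ) (ψ : X → X → ℝ) : ℝ :=
  S.Ex (fun z _ => ∑ x, ∑ x', S.pr l z x * S.pr l z x' * ψ x x')

end Sy

/-- The system contains the fields `s_l ∑_i z_{l,i} φ_i(x)`. -/
structure Fld (S : Sy ι X) (D : ι → (ι → ℝ) → X → ℝ) (φ : X → Fin N → ℝ) (zc : ℕ → Fin N → ι)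
    (s : ℕ → ℝ) : Prop where
  reg : S.RegD D
  N0 : 0 < N
  norm : ∀ x, ∑ i, φ x i ^ 2 = N
  lev : ∀ l ≤ S.K, ∀ i, S.lev (zc l i) = l
  D : ∀ l ≤ S.K, ∀ i z x, D (zc l i) z x = s l * φ x i
  pos : ∀ l ≤ S.K, 0 ≤ s l

namespace Sy

variable {φ : X → Fin N → ℝ} {zc : ℕ → Fin N → ι} {s : ℕ → ℝ}

omit [Fintype ι] [DecidableEq ι] [Fintype X] [DecidableEq X] [Nonempty X] in
lemma lvp_sq {κ : Type} [Fintype κ] (w f : κ → ℝ) (hw : ∀ i, 0 ≤ w i) (h1 : ∑ i, w i = 1) :
    (∑ i, w i * f i) ^ 2 ≤ ∑ i, w i * f i ^ 2 := by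
  set m := ∑ i, w i * f i with hm
  have h : 0 ≤ ∑ i, w i * (f i - m) ^ 2 :=
    Finset.sum_nonneg fun i _ => mul_nonneg (hw i) (sq_nonneg _)
  have e : ∑ i, w i * (f i - m) ^ 2 = ∑ i, w i * f i ^ 2 - 2 * m * m + m ^ 2 := by
    have e1 : ∀ i, w i * (f i - m) ^ 2 = w i * f i ^ 2 - 2 * m * (w i * f i) + m ^ 2 * w i := by
      intro i; ring
    simp_rw [e1]
    rw [Finset.sum_add_distrib, Finset.sum_sub_distrib, ← Finset.mul_sum, ← Finset.mul_sum, h1,
      ← hm, mul_one]
  rw [e] at h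
  linarith [sq m]

lemma Reg.pr_nonneg (hS : S.Reg) {l : ℕ} (hl : l ≤ S.K) (z : ι → ℝ) (x : X) : 0 ≤ S.pr l z x := by
  have h := hS.T_mono hl (f := fun _ _ => (0 : ℝ)) (g := fun _ y => if y = x then (1 : ℝ) else 0)
    (Nh.snd fun _ => 0) (Nh.snd fun y => if y = x then (1 : ℝ) else 0)
    (fun z y => by split_ifs <;> norm_num) z
  rw [hS.T_const hl] at h
  exact h

lemma Reg.T_pr (hS : S.Reg) {l : ℕ} (hl : l ≤ S.K) (h : X → ℝ) (z : ι → ℝ) :
    S.T l (fun _ x => h x) z = ∑ x, S.pr l z x * h x := by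
  have e : (fun (_ : ι → ℝ) (x : X) => h x) =
      fun (z : ι → ℝ) (y : X) => ∑ x, h x * (fun (_ : ι → ℝ) (y : X) =>
        if y = x then (1 : ℝ) else 0) z y := by
    funext z y
    simp
  rw [e, hS.T_sum hl Finset.univ (fun x _ => Nh.const_mul _
    (Nh.snd fun y => if y = x then (1 : ℝ) else 0))]
  refine Finset.sum_congr rfl fun x _ => ?_
  rw [T_const_mul, mul_comm]
  rfl

lemma Reg.sum_pr (hS : S.Reg) {l : ℕ} (hl : l ≤ S.K) (z : ι → ℝ) : ∑ x, S.pr l z x = 1 := by
  have h := hS.T_pr hl (fun _ => 1) z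
  rw [hS.T_const hl] at h
  rw [h]
  simp

lemma Reg.eg_pr (hS : S.Reg) {l : ℕ} (hl : l ≤ S.K) (x : X) : EG fun z => S.pr l z x :=
  hS.eg_T hl (Nh.snd fun y => if y = x then (1 : ℝ) else 0)

lemma Reg.nh_pair (hS : S.Reg) {l : ℕ} (hl : l ≤ S.K) (ψ : X → X → ℝ) :
    EG (fun z => ∑ x, ∑ x', S.pr l z x * S.pr l z x' * ψ x x') :=
  EG.sum _ fun x _ => EG.sum _ fun x' _ =>
    ((hS.eg_pr hl x).mul (hS.eg_pr hl x')).mul (EG.const _)

lemma Reg.pairEx_mono (hS : S.Reg) {l : ℕ} (hl : l ≤ S.K) {ψ ψ' : X → X → ℝ}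
    (h : ∀ x x', ψ x x' ≤ ψ' x x') : S.pairEx l ψ ≤ S.pairEx l ψ' := by
  refine hS.Ex_mono (Nh.fst (hS.nh_pair hl ψ)) (Nh.fst (hS.nh_pair hl ψ')) fun z _ => ?_
  refine Finset.sum_le_sum fun x _ => Finset.sum_le_sum fun x' _ => ?_
  exact mul_le_mul_of_nonneg_left (h x x')
    (mul_nonneg (hS.pr_nonneg hl z x) (hS.pr_nonneg hl z x'))

lemma Reg.pairEx_const (hS : S.Reg) {l : ℕ} (hl : l ≤ S.K) (c : ℝ) :
    S.pairEx l (fun _ _ => c) = c := by
  have e : (fun (z : ι → ℝ) (_ : X) => ∑ x, ∑ x', S.pr l z x * S.pr l z x' * c) =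
      fun _ _ => c := by
    funext z _
    simp_rw [mul_assoc, ← Finset.mul_sum, ← Finset.sum_mul]
    rw [hS.sum_pr hl, one_mul, one_mul]
  rw [pairEx, e, hS.Ex_const]

lemma Reg.pairEx_nonneg (hS : S.Reg) {l : ℕ} (hl : l ≤ S.K) {ψ : X → X → ℝ}
    (h : ∀ x x', 0 ≤ ψ x x') : 0 ≤ S.pairEx l ψ := by
  rw [← hS.pairEx_const hl 0]
  exact hS.pairEx_mono hl h

lemma Reg.pairEx_add (hS : S.Reg) {l : ℕ} (hl : l ≤ S.K) (ψ ψ' : X → X → ℝ) :
    S.pairEx l (fun x x' => ψ x x' + ψ' x x') = S.pairEx l ψ + S.pairEx l ψ' := by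
  rw [pairEx, pairEx, pairEx, ← hS.Ex_add (Nh.fst (hS.nh_pair hl ψ)) (Nh.fst (hS.nh_pair hl ψ'))]
  congr 1
  funext z _
  rw [← Finset.sum_add_distrib]
  refine Finset.sum_congr rfl fun x _ => ?_
  rw [← Finset.sum_add_distrib]
  refine Finset.sum_congr rfl fun x' _ => ?_
  rw [mul_add]

lemma Reg.pairEx_const_mul (_hS : S.Reg) (l : ℕ) (c : ℝ) (ψ : X → X → ℝ) :
    S.pairEx l (fun x x' => c * ψ x x') = c * S.pairEx l ψ := by
  rw [pairEx, pairEx, ← Ex_const_mul]
  congr 1
  funext z _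
  rw [Finset.mul_sum]
  refine Finset.sum_congr rfl fun x _ => ?_
  rw [Finset.mul_sum]
  refine Finset.sum_congr rfl fun x' _ => ?_
  ring

lemma Reg.pair_cs (hS : S.Reg) {l : ℕ} (hl : l ≤ S.K) (ψ : X → X → ℝ) (z : ι → ℝ) :
    (∑ x, ∑ x', S.pr l z x * S.pr l z x' * ψ x x') ^ 2 ≤
      ∑ x, ∑ x', S.pr l z x * S.pr l z x' * ψ x x' ^ 2 := by
  have hw : ∀ p ∈ (Finset.univ : Finset (X × X)), 0 ≤ S.pr l z p.1 * S.pr l z p.2 := fun p _ =>
    mul_nonneg (hS.pr_nonneg hl z p.1) (hS.pr_nonneg hl z p.2)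
  have h1 : ∑ p : X × X, S.pr l z p.1 * S.pr l z p.2 = 1 := by
    rw [Fintype.sum_prod_type]
    simp_rw [← Finset.mul_sum]
    rw [hS.sum_pr hl]
    simp_rw [mul_one]
    exact hS.sum_pr hl z
  have h := lvp_sq (fun p : X × X => S.pr l z p.1 * S.pr l z p.2) (fun p => ψ p.1 p.2)
    (fun p => hw p (Finset.mem_univ _)) h1
  rw [Fintype.sum_prod_type, Fintype.sum_prod_type] at h
  exact h

lemma Reg.pairEx_abs_le (hS : S.Reg) {l : ℕ} (hl : l ≤ S.K) (ψ : X → X → ℝ) :
    S.pairEx l (fun x x' => |ψ x x'|) ≤ √(S.pairEx l (fun x x' => ψ x x' ^ 2)) := by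
  refine Real.le_sqrt_of_sq_le ?_
  have h1 := hS.Ex_cs (Nh.fst (X := X) (hS.nh_pair hl fun x x' => |ψ x x'|))
    (Nh.fst (X := X) (EG.const (1 : ℝ)))
  simp only [mul_one, one_pow, hS.Ex_const] at h1
  refine h1.trans (hS.Ex_mono (Nh.fst ((hS.nh_pair hl _).pow 2)) (Nh.fst (hS.nh_pair hl _))
    fun z _ => ?_)
  refine (hS.pair_cs hl (fun x x' => |ψ x x'|) z).trans (le_of_eq ?_)
  simp only [sq_abs]

end Sy

namespace Fld

open Sy

variable {φ : X → Fin N → ℝ} {zc : ℕ → Fin N → ι} {s : ℕ → ℝ} (F : Fld S D φ zc s)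

include F

lemma N_pos : (0 : ℝ) < N := by exact_mod_cast F.N0

lemma hreg : S.Reg := F.reg.toReg

lemma abs_Rov_le (x x' : X) : |Rov φ x x'| ≤ 1 := by
  have hN := F.N_pos
  have h := Finset.sum_mul_sq_le_sq_mul_sq Finset.univ (φ x) (φ x')
  rw [F.norm, F.norm] at h
  have h1 : Rov φ x x' ^ 2 ≤ 1 := by
    rw [Rov, mul_pow, one_div, inv_pow, inv_mul_le_iff₀ (by positivity)]
    linarith [sq (N : ℝ)]
  exact abs_le_one_iff_mul_self_le_one.mpr (by linarith [sq (Rov φ x x')])

omit F in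
lemma mg_eq (hS : S.Reg) {l : ℕ} (hl : l ≤ S.K) (i : Fin N) (z : ι → ℝ) :
    S.mg φ l i z = ∑ x, S.pr l z x * φ x i := hS.T_pr hl (fun x => φ x i) z

omit F in
lemma eg_mg (hS : S.Reg) {l : ℕ} (hl : l ≤ S.K) (i : Fin N) : EG (S.mg φ l i) :=
  hS.eg_T hl (Nh.snd fun x => φ x i)

omit F in
lemma dep_mg (S : Sy ι X) (φ : X → Fin N → ℝ) (l : ℕ) (i : Fin N) : Dep S.lev l (S.mg φ l i) :=
  S.dep_T l (fun _ x => φ x i)

omit F in
lemma sum_mg_sq (hS : S.Reg) {l : ℕ} (hl : l ≤ S.K) (z : ι → ℝ) :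
    1 / N * ∑ i, S.mg φ l i z ^ 2 = ∑ x, ∑ x', S.pr l z x * S.pr l z x' * Rov φ x x' := by
  have e : ∀ i, S.mg φ l i z ^ 2 =
      ∑ x, ∑ x', S.pr l z x * S.pr l z x' * (φ x i * φ x' i) := by
    intro i
    rw [mg_eq hS hl, sq, Finset.sum_mul_sum]
    refine Finset.sum_congr rfl fun x _ => Finset.sum_congr rfl fun x' _ => ?_
    ring
  simp_rw [e]
  rw [Finset.sum_comm, Finset.mul_sum]
  refine Finset.sum_congr rfl fun x _ => ?_
  rw [Finset.sum_comm, Finset.mul_sum]
  refine Finset.sum_congr rfl fun x' _ => ?_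
  rw [← Finset.mul_sum, Rov]
  ring

lemma Rl_eq_pairEx {l : ℕ} (hl : l ≤ S.K) : S.Rl φ l = S.pairEx l (Rov φ) := by
  rw [Sy.Rl, Sy.pairEx, ← Sy.Ex_const_mul]
  congr 1
  funext z _
  exact sum_mg_sq F.hreg hl z

lemma Rl_nonneg {l : ℕ} (hl : l ≤ S.K) : 0 ≤ S.Rl φ l := by
  rw [Sy.Rl, ← Sy.Ex_const_mul, ← F.hreg.Ex_const 0]
  refine F.hreg.Ex_mono (Nh.fst (EG.const 0)) (Nh.fst (EG.const_mul _ (EG.sum _ fun i _ =>
    (eg_mg F.hreg hl i).pow 2))) fun z _ => ?_
  have := F.N_pos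
  positivity

lemma Rl_le_one {l : ℕ} (hl : l ≤ S.K) : S.Rl φ l ≤ 1 := by
  rw [F.Rl_eq_pairEx hl, ← F.hreg.pairEx_const hl 1]
  exact F.hreg.pairEx_mono hl fun x x' => (le_abs_self _).trans (F.abs_Rov_le x x')

omit F in
/-- the field `u_l = m_l · x / N` -/
noncomputable def uu (S : Sy ι X) (φ : X → Fin N → ℝ) (l : ℕ) : (ι → ℝ) → X → ℝ :=
  fun z x => 1 / N * ∑ a, S.mg φ l a z * φ x a

omit F in
lemma nh_uu (hS : S.Reg) {l : ℕ} (hl : l ≤ S.K) : Nh (uu S φ l) :=
  Nh.const_mul _ (Nh.sum _ fun a _ => Nh.mul (Nh.fst (eg_mg hS hl a)) (Nh.snd fun x => φ x a))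

omit F in
/-- `E (m_l,a φ_a) = E m_{l,a}²` for `l ≤ k`, in the form `E (m_l m_k) = E m_l²` -/
lemma Ex_mg_mul (hS : S.Reg) {l k : ℕ} (hlk : l ≤ k) (hk : k ≤ S.K) (a : Fin N) :
    S.Ex (fun z _ => S.mg φ l a z * S.mg φ k a z) = S.Ex (fun z _ => S.mg φ l a z ^ 2) := by
  have hl := hlk.trans hk
  have h1 := hS.Ex_mul_T hk ((S.dep_T l (fun _ x => φ x a)).mono hlk) (eg_mg hS hl a)
    (Nh.snd fun x => φ x a)
  have h2 := hS.Ex_mul_T hl (S.dep_T l (fun _ x => φ x a)) (eg_mg hS hl a)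
    (Nh.snd fun x => φ x a)
  have h3 : (fun (z : ι → ℝ) (_ : X) => S.mg φ l a z ^ 2) =
      fun z _ => S.mg φ l a z * S.mg φ l a z := by
    funext z _; rw [sq]
  rw [h3]
  exact h1.trans h2.symm

lemma Ex_uu {l : ℕ} (hl : l ≤ S.K) : S.Ex (uu S φ l) = S.Rl φ l := by
  have hS := F.hreg
  have e : uu S φ l = fun z x => 1 / N * ∑ a, S.mg φ l a z * φ x a := rfl
  rw [e, Sy.Ex_const_mul, Sy.Rl, hS.Ex_sum _ fun a _ =>
    Nh.mul (Nh.fst (eg_mg hS hl a)) (Nh.snd fun x => φ x a),
    hS.Ex_sum _ fun a _ => Nh.fst ((eg_mg hS hl a).pow 2)]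
  congr 1
  refine Finset.sum_congr rfl fun a _ => ?_
  have h2 := hS.Ex_mul_T hl (S.dep_T l (fun _ x => φ x a)) (eg_mg hS hl a)
    (Nh.snd fun x => φ x a)
  rw [← Ex_mg_mul hS le_rfl hl]
  exact h2.symm

/-- The overlaps increase: `E|m_{l+1} - m_l|² = N (R_{l+1} - R_l)`. -/
lemma Rl_sub {l : ℕ} (hl : l < S.K) :
    1 / N * S.Ex (fun z _ => ∑ i, (S.mg φ (l + 1) i z - S.mg φ l i z) ^ 2) =
      S.Rl φ (l + 1) - S.Rl φ l := by
  have hS := F.hreg
  have e1 := eg_mg (φ := φ) hS (l := l + 1) hl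
  have e0 := eg_mg (φ := φ) hS (l := l) hl.le
  rw [Sy.Rl, Sy.Rl, ← mul_sub]
  congr 1
  rw [hS.Ex_sum _ fun i _ => Nh.fst (((e1 i).sub (e0 i)).pow 2),
    hS.Ex_sum _ fun i _ => Nh.fst ((e1 i).pow 2), hS.Ex_sum _ fun i _ => Nh.fst ((e0 i).pow 2),
    ← Finset.sum_sub_distrib]
  refine Finset.sum_congr rfl fun i _ => ?_
  have h1 : (fun (z : ι → ℝ) (_ : X) => (S.mg φ (l + 1) i z - S.mg φ l i z) ^ 2) =
      fun z x => ((fun (z : ι → ℝ) (_ : X) => S.mg φ (l + 1) i z ^ 2) z x -
        (fun (z : ι → ℝ) (_ : X) => 2 * (S.mg φ l i z * S.mg φ (l + 1) i z)) z x) +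
        (fun (z : ι → ℝ) (_ : X) => S.mg φ l i z ^ 2) z x := by
    funext z _
    ring
  rw [h1, hS.Ex_add (Nh.sub (Nh.fst ((e1 i).pow 2))
    (Nh.fst (EG.const_mul 2 ((e0 i).mul (e1 i))))) (Nh.fst ((e0 i).pow 2)),
    hS.Ex_sub (Nh.fst ((e1 i).pow 2)) (Nh.fst (EG.const_mul 2 ((e0 i).mul (e1 i)))),
    Sy.Ex_const_mul, Ex_mg_mul hS (Nat.le_succ l) hl]
  ring

/-- integration by parts for the coordinates of the fields -/
lemma ibp' {j : ℕ} (hj : j ≤ S.K) (i : Fin N) {h h' : (ι → ℝ) → X → ℝ}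
    (hd : ∀ x, PD (zc j i) (fun z => h z x) (fun z => h' z x)) (hh : Nh h) (hh' : Nh h') :
    S.Ex (fun z x => z (zc j i) * h z x) = S.Ex (fun z x => h' z x + h z x * (s j * φ x i -
      ∑ k ∈ Finset.Ico j (S.K + 1), S.p k * (s j * S.mg φ k i z))) := by
  rw [F.reg.ibp (zc j i) hd hh hh', F.lev j hj i]
  congr 1
  funext z x
  rw [F.D j hj i]
  have e : D (zc j i) = fun z x => s j * φ x i := by
    funext z x
    exact F.D j hj i z x
  rw [e]
  simp only [Sy.T_const_mul]
  rfl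

/-- the average of the field of the level `j` against an observable -/
lemma Ex_hz_mul {j : ℕ} (hj : j ≤ S.K) {u : (ι → ℝ) → X → ℝ} {u' : Fin N → (ι → ℝ) → X → ℝ}
    (hd : ∀ i x, PD (zc j i) (fun z => u z x) (fun z => u' i z x)) (hu : Nh u)
    (hu' : ∀ i, Nh (u' i)) :
    S.Ex (fun z x => hz φ zc j z x * u z x) =
      S.Ex (fun z x => 1 / N * ∑ i, φ x i * u' i z x) +
        s j * (S.Ex u - ∑ k ∈ Finset.Ico j (S.K + 1), S.p k *
          S.Ex (fun z x => u z x * uu S φ k z x)) := by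
  have hS := F.hreg
  have hN := F.N_pos
  have hk : ∀ k ∈ Finset.Ico j (S.K + 1), k ≤ S.K := fun k hk => by
    rw [Finset.mem_Ico] at hk; omega
  -- termwise integration by parts
  have h1 : ∀ i, S.Ex (fun z x => z (zc j i) * (φ x i * u z x)) =
      S.Ex (fun z x => φ x i * u' i z x + φ x i * u z x * (s j * φ x i -
        ∑ k ∈ Finset.Ico j (S.K + 1), S.p k * (s j * S.mg φ k i z))) := fun i =>
    F.ibp' hj i (h := fun z x => φ x i * u z x) (h' := fun z x => φ x i * u' i z x)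
      (fun x => (hd i x).const_mul (φ x i)) (Nh.mul (Nh.snd fun x => φ x i) hu)
      (Nh.mul (Nh.snd fun x => φ x i) (hu' i))
  have nz : ∀ i, Nh (fun (z : ι → ℝ) (x : X) => z (zc j i) * (φ x i * u z x)) := fun i =>
    Nh.mul (Nh.fst (EG.coord _)) (Nh.mul (Nh.snd fun x => φ x i) hu)
  have nk : ∀ k ∈ Finset.Ico j (S.K + 1), ∀ i, Nh (fun (z : ι → ℝ) (_ : X) =>
      S.p k * (s j * S.mg φ k i z)) := fun k hk' i =>
    Nh.fst (EG.const_mul _ (EG.const_mul _ (eg_mg hS (hk k hk') i)))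
  have nr : ∀ i, Nh (fun (z : ι → ℝ) (x : X) => φ x i * u' i z x + φ x i * u z x * (s j * φ x i -
        ∑ k ∈ Finset.Ico j (S.K + 1), S.p k * (s j * S.mg φ k i z))) := fun i =>
    Nh.add (Nh.mul (Nh.snd fun x => φ x i) (hu' i)) (Nh.mul (Nh.mul (Nh.snd fun x => φ x i) hu)
      (Nh.sub (Nh.const_mul _ (Nh.snd fun x => φ x i)) (Nh.sum _ fun k hk' => nk k hk' i)))
  have e1 : S.Ex (fun z x => hz φ zc j z x * u z x) =
      1 / N * ∑ i, S.Ex (fun z x => z (zc j i) * (φ x i * u z x)) := by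
    rw [← hS.Ex_sum _ fun i _ => nz i, ← Sy.Ex_const_mul]
    congr 1
    funext z x
    rw [hz, mul_assoc, Finset.sum_mul]
    congr 1
    refine Finset.sum_congr rfl fun i _ => ?_
    ring
  rw [e1]
  simp_rw [h1]
  rw [← hS.Ex_sum _ fun i _ => nr i, ← Sy.Ex_const_mul]
  have e2 : (fun (z : ι → ℝ) (x : X) => 1 / (N : ℝ) * ∑ i, (φ x i * u' i z x +
      φ x i * u z x * (s j * φ x i -
        ∑ k ∈ Finset.Ico j (S.K + 1), S.p k * (s j * S.mg φ k i z)))) =
      fun z x => (fun (z : ι → ℝ) (x : X) => 1 / (N : ℝ) * ∑ i, φ x i * u' i z x) z x +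
        (fun (z : ι → ℝ) (x : X) => s j * (u z x - ∑ k ∈ Finset.Ico j (S.K + 1),
          S.p k * (u z x * uu S φ k z x))) z x := by
    funext z x
    rw [Finset.sum_add_distrib, mul_add]
    congr 1
    have e3 : ∑ i, φ x i * u z x * (s j * φ x i -
        ∑ k ∈ Finset.Ico j (S.K + 1), S.p k * (s j * S.mg φ k i z)) =
        s j * (u z x * ∑ i, φ x i ^ 2) - s j * ∑ k ∈ Finset.Ico j (S.K + 1), S.p k *
          (u z x * ∑ i, S.mg φ k i z * φ x i) := by
      simp_rw [mul_sub]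
      rw [Finset.sum_sub_distrib]
      congr 1
      · rw [Finset.mul_sum, Finset.mul_sum]
        refine Finset.sum_congr rfl fun i _ => ?_
        ring
      · simp_rw [Finset.mul_sum]
        rw [Finset.sum_comm]
        refine Finset.sum_congr rfl fun k _ => Finset.sum_congr rfl fun i _ => ?_
        ring
    rw [e3, F.norm]
    have e4 : ∀ k, S.p k * (u z x * uu S φ k z x) =
        1 / N * (S.p k * (u z x * ∑ i, S.mg φ k i z * φ x i)) := by
      intro k
      rw [uu]
      ring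
    simp_rw [e4]
    rw [← Finset.mul_sum]
    field_simp
  rw [e2]
  have nu : ∀ k ∈ Finset.Ico j (S.K + 1), Nh (fun (z : ι → ℝ) (x : X) =>
      S.p k * (u z x * uu S φ k z x)) := fun k hk' =>
    Nh.const_mul _ (Nh.mul hu (nh_uu hS (hk k hk')))
  rw [hS.Ex_add (Nh.const_mul _ (Nh.sum _ fun i _ => Nh.mul (Nh.snd fun x => φ x i) (hu' i)))
    (Nh.const_mul _ (Nh.sub hu (Nh.sum _ nu)))]
  congr 1
  rw [Sy.Ex_const_mul, hS.Ex_sub hu (Nh.sum _ nu), hS.Ex_sum _ nu]
  congr 2
  refine Finset.sum_congr rfl fun k _ => ?_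
  rw [Sy.Ex_const_mul]

/-- The mean of the field of the level `l`. -/
theorem Ex_hz {l : ℕ} (hl : l ≤ S.K) :
    S.Ex (hz φ zc l) = s l * (1 - ∑ i ∈ Finset.Ico l (S.K + 1), S.p i * S.Rl φ i) := by
  have hS := F.hreg
  have h := F.Ex_hz_mul hl (u := fun _ _ => 1) (u' := fun _ _ _ => 0)
    (fun i x => PD.const 1) (Nh.fst (EG.const 1)) (fun i => Nh.fst (EG.const 0))
  simp only [mul_one, one_mul, mul_zero, Finset.sum_const_zero, hS.Ex_const, zero_add] at h
  rw [show S.Ex (hz φ zc l) = S.Ex (fun z x => hz φ zc l z x) from rfl, h]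
  congr 2
  refine Finset.sum_congr rfl fun k hk => ?_
  rw [Finset.mem_Ico] at hk
  rw [← F.Ex_uu (by omega : k ≤ S.K)]

/-- (A): `u_l = m_l · x / N` and `u_i` are uncorrelated for `i > l`. -/
theorem ident_A {l j : ℕ} (hlj : l < j) (hj : j ≤ S.K) :
    S.Ex (fun z x => hz φ zc j z x * (1 / N * ∑ i, S.mg φ l i z * φ x i)) =
      s j * (S.Rl φ l - ∑ i ∈ Finset.Ico j (S.K + 1), S.p i *
        S.Ex (fun z x => (1 / N * ∑ a, S.mg φ l a z * φ x a) *
          (1 / N * ∑ a, S.mg φ i a z * φ x a))) := by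
  have hS := F.hreg
  have hl : l ≤ S.K := hlj.le.trans hj
  have hd : ∀ i x, PD (zc j i) (fun z => uu S φ l z x) (fun _ => 0) := by
    intro i x
    refine Dep.pd (lev := S.lev) (l := l) ?_ (by rw [F.lev j hj]; exact hlj)
    intro z w
    simp only [uu]
    congr 1
    refine Finset.sum_congr rfl fun a _ => ?_
    congr 1
    exact S.dep_T l (fun _ x => φ x a) z w
  have h := F.Ex_hz_mul hj (u := uu S φ l) (u' := fun _ _ _ => 0) hd (nh_uu hS hl)
    (fun i => Nh.fst (EG.const 0))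
  simp only [mul_zero, Finset.sum_const_zero, hS.Ex_const, zero_add] at h
  rw [F.Ex_uu hl] at h
  exact h

/-- the derivative of the magnetization -/
lemma pd_mg {l : ℕ} (hl : l ≤ S.K) (a b : Fin N) :
    PD (zc l b) (S.mg φ l a) (fun z => s l * (S.T l (fun _ x => φ x a * φ x b) z -
      ∑ k ∈ Finset.Ico (l + 1) (S.K + 1), S.p k * S.T l (fun z _ => S.mg φ k a z * S.mg φ k b z) z -
      S.m (l + 1) * (S.mg φ l a z * S.mg φ l b z))) := by
  have hS := F.hreg
  have h := F.reg.pd_T hl (e := zc l b) (F.lev l hl b).le (h := fun _ x => φ x a)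
    (h' := fun _ _ => 0) (fun x => PD.const _) (Nh.snd fun x => φ x a) (Nh.fst (EG.const 0))
  refine h.congr fun z => ?_
  have hD : D (zc l b) = fun z x => s l * φ x b := by
    funext z x
    exact F.D l hl b z x
  have hk : ∀ k ∈ Finset.Ico (l + 1) (S.K + 1), k ≤ S.K := fun k hk => by
    rw [Finset.mem_Ico] at hk; omega
  have hlk : ∀ k ∈ Finset.Ico (l + 1) (S.K + 1), l ≤ k := fun k hk => by
    rw [Finset.mem_Ico] at hk; omega
  have na : Nh (ι := ι) (fun _ x => φ x a) := Nh.snd fun x => φ x a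
  have nab : Nh (ι := ι) (fun _ x => φ x a * φ x b) := Nh.snd fun x => φ x a * φ x b
  have nk : ∀ k ∈ Finset.Ico (l + 1) (S.K + 1), Nh (fun (z : ι → ℝ) (x : X) =>
      S.p k * (φ x a * S.mg φ k b z)) := fun k hk' =>
    Nh.const_mul _ (Nh.mul na (Nh.fst (eg_mg hS (hk k hk') b)))
  have nl : Nh (fun (z : ι → ℝ) (x : X) => S.m (l + 1) * (S.mg φ l b z * φ x a)) :=
    Nh.const_mul _ (Nh.mul (Nh.fst (eg_mg hS hl b)) na)
  have e : (fun (z : ι → ℝ) (x : X) => (0 : ℝ) + φ x a * (D (zc l b) z x -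
      ∑ i ∈ Finset.Ico (l + 1) (S.K + 1), S.p i * S.T i (D (zc l b)) z -
        S.m (l + 1) * S.T l (D (zc l b)) z)) =
      fun z x => s l * ((φ x a * φ x b - ∑ k ∈ Finset.Ico (l + 1) (S.K + 1),
        S.p k * (φ x a * S.mg φ k b z)) - S.m (l + 1) * (S.mg φ l b z * φ x a)) := by
    funext z x
    rw [hD]
    simp only [Sy.T_const_mul]
    have e1 : ∀ k, S.T k (fun _ x => φ x b) z = S.mg φ k b z := fun k => rfl
    simp only [e1]
    have e2 : ∑ i ∈ Finset.Ico (l + 1) (S.K + 1), S.p i * (s l * S.mg φ i b z) =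
        s l * ∑ i ∈ Finset.Ico (l + 1) (S.K + 1), S.p i * S.mg φ i b z := by
      rw [Finset.mul_sum]
      refine Finset.sum_congr rfl fun i _ => ?_
      ring
    have e3 : ∑ k ∈ Finset.Ico (l + 1) (S.K + 1), S.p k * (φ x a * S.mg φ k b z) =
        φ x a * ∑ i ∈ Finset.Ico (l + 1) (S.K + 1), S.p i * S.mg φ i b z := by
      rw [Finset.mul_sum]
      refine Finset.sum_congr rfl fun i _ => ?_
      ring
    rw [e2, e3]
    ring
  rw [e, Sy.T_const_mul, hS.T_sub hl (Nh.sub nab (Nh.sum _ nk)) nl,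
    hS.T_sub hl nab (Nh.sum _ nk), hS.T_sum hl _ nk, Sy.T_const_mul,
    T_mul_left S (dep_mg S φ l b)]
  congr 2
  · congr 1
    refine Finset.sum_congr rfl fun k hk' => ?_
    rw [Sy.T_const_mul]
    congr 1
    rw [← hS.T_T (hlk k hk') (hk k hk') (Nh.mul na (Nh.fst (eg_mg hS (hk k hk') b)))]
    congr 1
    funext z' _
    have e4 : (fun (z : ι → ℝ) (x : X) => φ x a * S.mg φ k b z) =
        fun z x => S.mg φ k b z * (fun (_ : ι → ℝ) (x : X) => φ x a) z x := by
      funext z x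
      exact mul_comm _ _
    rw [e4, T_mul_left S (dep_mg S φ k b), mul_comm]
    rfl
  · rw [mul_comm (S.mg φ l a z)]
    rfl

/-- the covariance matrix of two replicas -/
lemma pairEx_Rov_sq {l : ℕ} (hl : l ≤ S.K) :
    S.pairEx l (fun x x' => Rov φ x x' ^ 2) = 1 / N ^ 2 * S.Ex (fun z _ => ∑ a, ∑ b,
      S.T l (fun _ x => φ x a * φ x b) z * S.T l (fun _ x => φ x a * φ x b) z) := by
  have hS := F.hreg
  rw [Sy.pairEx, ← Sy.Ex_const_mul]
  congr 1
  funext z _
  have e : ∀ a b, S.T l (fun _ x => φ x a * φ x b) z * S.T l (fun _ x => φ x a * φ x b) z =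
      ∑ x, ∑ x', S.pr l z x * S.pr l z x' * ((φ x a * φ x b) * (φ x' a * φ x' b)) := by
    intro a b
    rw [hS.T_pr hl (fun x => φ x a * φ x b), Finset.sum_mul_sum]
    refine Finset.sum_congr rfl fun x _ => Finset.sum_congr rfl fun x' _ => ?_
    ring
  have e2 : ∀ x x', Rov φ x x' ^ 2 =
      1 / (N : ℝ) ^ 2 * ∑ a, ∑ b, (φ x a * φ x b) * (φ x' a * φ x' b) := by
    intro x x'
    rw [Rov, mul_pow, sq (∑ i, φ x i * φ x' i), Finset.sum_mul_sum, div_pow, one_pow]
    congr 1
    refine Finset.sum_congr rfl fun a _ => Finset.sum_congr rfl fun b _ => ?_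
    ring
  simp_rw [e, e2]
  have e3 : ∑ a : Fin N, ∑ b : Fin N, ∑ x, ∑ x', S.pr l z x * S.pr l z x' *
      ((φ x a * φ x b) * (φ x' a * φ x' b)) =
      ∑ x, ∑ x', S.pr l z x * S.pr l z x' * ∑ a, ∑ b, (φ x a * φ x b) * (φ x' a * φ x' b) := by
    calc ∑ a : Fin N, ∑ b : Fin N, ∑ x, ∑ x', S.pr l z x * S.pr l z x' *
          ((φ x a * φ x b) * (φ x' a * φ x' b))
        = ∑ a : Fin N, ∑ x, ∑ b : Fin N, ∑ x', S.pr l z x * S.pr l z x' *
          ((φ x a * φ x b) * (φ x' a * φ x' b)) :=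
          Finset.sum_congr rfl fun a _ => Finset.sum_comm
      _ = ∑ x, ∑ a : Fin N, ∑ b : Fin N, ∑ x', S.pr l z x * S.pr l z x' *
          ((φ x a * φ x b) * (φ x' a * φ x' b)) := Finset.sum_comm
      _ = ∑ x, ∑ x', ∑ a : Fin N, ∑ b : Fin N, S.pr l z x * S.pr l z x' *
          ((φ x a * φ x b) * (φ x' a * φ x' b)) := by
          refine Finset.sum_congr rfl fun x _ => ?_
          calc ∑ a : Fin N, ∑ b : Fin N, ∑ x', S.pr l z x * S.pr l z x' *
                ((φ x a * φ x b) * (φ x' a * φ x' b))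
              = ∑ a : Fin N, ∑ x', ∑ b : Fin N, S.pr l z x * S.pr l z x' *
                ((φ x a * φ x b) * (φ x' a * φ x' b)) :=
                Finset.sum_congr rfl fun a _ => Finset.sum_comm
            _ = _ := Finset.sum_comm
      _ = _ := by
          refine Finset.sum_congr rfl fun x _ => Finset.sum_congr rfl fun x' _ => ?_
          simp_rw [Finset.mul_sum]
  rw [e3, Finset.mul_sum]
  refine Finset.sum_congr rfl fun x _ => ?_
  rw [Finset.mul_sum]
  refine Finset.sum_congr rfl fun x' _ => ?_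
  ring

/-- (B). -/
theorem ident_B {l : ℕ} (hl : l ≤ S.K) :
    S.Ex (fun z x => hz φ zc l z x * (1 / N * ∑ i, S.mg φ l i z * φ x i)) =
      s l * (S.pairEx l (fun x x' => Rov φ x x' ^ 2) -
        ∑ i ∈ Finset.Ico (l + 1) (S.K + 1), S.p i * (1 / N ^ 2 * S.Ex (fun z _ => ∑ a, ∑ b,
          S.T l (fun _ x => φ x a * φ x b) z * S.T l (fun z _ => S.mg φ i a z * S.mg φ i b z) z)) -
        S.m (l + 1) * S.Ex (fun z x => (1 / N * ∑ a, S.mg φ l a z * φ x a) ^ 2) +
        S.Rl φ l - ∑ i ∈ Finset.Ico l (S.K + 1), S.p i *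
        S.Ex (fun z x => (1 / N * ∑ a, S.mg φ l a z * φ x a) *
          (1 / N * ∑ a, S.mg φ i a z * φ x a))) := by
  have hS := F.hreg
  have hk : ∀ k ∈ Finset.Ico (l + 1) (S.K + 1), k ≤ S.K := fun k hk => by
    rw [Finset.mem_Ico] at hk; omega
  -- the derivative of the magnetization
  set d : Fin N → Fin N → (ι → ℝ) → ℝ := fun a b z =>
    s l * (S.T l (fun _ x => φ x a * φ x b) z -
      ∑ k ∈ Finset.Ico (l + 1) (S.K + 1), S.p k * S.T l (fun z _ => S.mg φ k a z * S.mg φ k b z) z -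
      S.m (l + 1) * (S.mg φ l a z * S.mg φ l b z)) with hd
  have nab : ∀ a b, Nh (ι := ι) (fun (_ : ι → ℝ) (x : X) => φ x a * φ x b) := fun a b =>
    Nh.snd fun x => φ x a * φ x b
  have eB : ∀ k ∈ Finset.Ico (l + 1) (S.K + 1), ∀ a b,
      EG (S.T l (fun z _ => S.mg φ k a z * S.mg φ k b z)) := fun k hk' a b =>
    hS.eg_T hl (Nh.fst ((eg_mg hS (hk k hk') a).mul (eg_mg hS (hk k hk') b)))
  have eA : ∀ a b, EG (S.T l (fun _ x => φ x a * φ x b)) := fun a b => hS.eg_T hl (nab a b)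
  have ed : ∀ a b, EG (d a b) := fun a b =>
    EG.const_mul _ (((eA a b).sub (EG.sum _ fun k hk' => EG.const_mul _ (eB k hk' a b))).sub
      (EG.const_mul _ ((eg_mg hS hl a).mul (eg_mg hS hl b))))
  have dB : ∀ k a b, Dep S.lev l (S.T l (fun z _ => S.mg φ k a z * S.mg φ k b z)) :=
    fun k a b => S.dep_T l _
  have dA : ∀ a b, Dep S.lev l (S.T l (fun _ x => φ x a * φ x b)) := fun a b => S.dep_T l _
  have dd : ∀ a b, Dep S.lev l (d a b) := by
    intro a b z w
    simp only [hd]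
    rw [dA a b z w, dep_mg S φ l a z w, dep_mg S φ l b z w]
    simp only [fun k => dB k a b z w]
  -- integration by parts
  have h := F.Ex_hz_mul hl (u := uu S φ l) (u' := fun b z x => 1 / N * ∑ a, d a b z * φ x a)
    (fun b x => (PD.sum Finset.univ fun a _ =>
      ((F.pd_mg hl a b).mul (PD.const (φ x a))).congr fun y => by
        rw [mul_zero, add_zero]).const_mul _) (nh_uu hS hl)
    (fun b => Nh.const_mul _ (Nh.sum _ fun a _ => Nh.mul (Nh.fst (ed a b))
      (Nh.snd fun x => φ x a)))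
  have h2 : S.Ex (fun z x => 1 / N * ∑ b, φ x b * (1 / N * ∑ a, d a b z * φ x a)) =
      s l * (S.pairEx l (fun x x' => Rov φ x x' ^ 2) -
        ∑ i ∈ Finset.Ico (l + 1) (S.K + 1), S.p i * (1 / N ^ 2 * S.Ex (fun z _ => ∑ a, ∑ b,
          S.T l (fun _ x => φ x a * φ x b) z * S.T l (fun z _ => S.mg φ i a z * S.mg φ i b z) z)) -
        S.m (l + 1) * S.Ex (fun z x => (1 / N * ∑ a, S.mg φ l a z * φ x a) ^ 2)) := by
    -- replace `φ_a φ_b` by its conditional average
    have g1 : S.Ex (fun z x => 1 / N * ∑ b, φ x b * (1 / N * ∑ a, d a b z * φ x a)) =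
        1 / N ^ 2 * ∑ a, ∑ b, S.Ex (fun z _ => d a b z * S.T l (fun _ x => φ x a * φ x b) z) := by
      have e1 : (fun (z : ι → ℝ) (x : X) => 1 / (N : ℝ) * ∑ b, φ x b *
          (1 / N * ∑ a, d a b z * φ x a)) =
          fun z x => 1 / N ^ 2 * ∑ a, ∑ b, d a b z * (φ x a * φ x b) := by
        funext z x
        simp_rw [Finset.mul_sum]
        rw [Finset.sum_comm]
        refine Finset.sum_congr rfl fun a _ => Finset.sum_congr rfl fun b _ => ?_
        ring
      rw [e1, Sy.Ex_const_mul, hS.Ex_sum _ fun a _ => Nh.sum _ fun b _ =>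
        Nh.mul (Nh.fst (ed a b)) (nab a b)]
      congr 1
      refine Finset.sum_congr rfl fun a _ => ?_
      rw [hS.Ex_sum _ fun b _ => Nh.mul (Nh.fst (ed a b)) (nab a b)]
      refine Finset.sum_congr rfl fun b _ => ?_
      exact (hS.Ex_mul_T hl (dd a b) (ed a b) (nab a b)).symm
    have g2 : S.Ex (fun z x => (1 / N * ∑ a, S.mg φ l a z * φ x a) ^ 2) =
        1 / N ^ 2 * ∑ a, ∑ b, S.Ex (fun z _ => (S.mg φ l a z * S.mg φ l b z) *
          S.T l (fun _ x => φ x a * φ x b) z) := by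
      have e1 : (fun (z : ι → ℝ) (x : X) => (1 / (N : ℝ) * ∑ a, S.mg φ l a z * φ x a) ^ 2) =
          fun z x => 1 / N ^ 2 * ∑ a, ∑ b, (S.mg φ l a z * S.mg φ l b z) * (φ x a * φ x b) := by
        funext z x
        rw [mul_pow, sq (∑ a, S.mg φ l a z * φ x a), Finset.sum_mul_sum, div_pow, one_pow]
        congr 1
        refine Finset.sum_congr rfl fun a _ => Finset.sum_congr rfl fun b _ => ?_
        ring
      have em : ∀ a b, EG (fun z => S.mg φ l a z * S.mg φ l b z) := fun a b =>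
        (eg_mg hS hl a).mul (eg_mg hS hl b)
      rw [e1, Sy.Ex_const_mul, hS.Ex_sum _ fun a _ => Nh.sum _ fun b _ =>
        Nh.mul (Nh.fst (em a b)) (nab a b)]
      congr 1
      refine Finset.sum_congr rfl fun a _ => ?_
      rw [hS.Ex_sum _ fun b _ => Nh.mul (Nh.fst (em a b)) (nab a b)]
      refine Finset.sum_congr rfl fun b _ => ?_
      refine (hS.Ex_mul_T hl (φ := fun z => S.mg φ l a z * S.mg φ l b z) ?_ (em a b)
        (nab a b)).symm
      intro z w
      exact congrArg₂ (· * ·) (dep_mg S φ l a z w) (dep_mg S φ l b z w)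
    have g3 : ∀ k ∈ Finset.Ico (l + 1) (S.K + 1), S.Ex (fun z _ => ∑ a, ∑ b,
          S.T l (fun _ x => φ x a * φ x b) z * S.T l (fun z _ => S.mg φ k a z * S.mg φ k b z) z) =
        ∑ a, ∑ b, S.Ex (fun z _ =>
          S.T l (fun _ x => φ x a * φ x b) z * S.T l (fun z _ => S.mg φ k a z * S.mg φ k b z) z) := by
      intro k hk'
      rw [hS.Ex_sum _ fun a _ => Nh.sum _ fun b _ => Nh.fst ((eA a b).mul (eB k hk' a b))]
      refine Finset.sum_congr rfl fun a _ => ?_
      rw [hS.Ex_sum _ fun b _ => Nh.fst ((eA a b).mul (eB k hk' a b))]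
    have g4 : S.Ex (fun z _ => ∑ a, ∑ b,
          S.T l (fun _ x => φ x a * φ x b) z * S.T l (fun _ x => φ x a * φ x b) z) =
        ∑ a, ∑ b, S.Ex (fun z _ =>
          S.T l (fun _ x => φ x a * φ x b) z * S.T l (fun _ x => φ x a * φ x b) z) := by
      rw [hS.Ex_sum _ fun a _ => Nh.sum _ fun b _ => Nh.fst ((eA a b).mul (eA a b))]
      refine Finset.sum_congr rfl fun a _ => ?_
      rw [hS.Ex_sum _ fun b _ => Nh.fst ((eA a b).mul (eA a b))]
    have g5 : ∀ a b, S.Ex (fun z _ => d a b z * S.T l (fun _ x => φ x a * φ x b) z) =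
        s l * (S.Ex (fun z _ => S.T l (fun _ x => φ x a * φ x b) z *
            S.T l (fun _ x => φ x a * φ x b) z) -
          ∑ k ∈ Finset.Ico (l + 1) (S.K + 1), S.p k * S.Ex (fun z _ =>
            S.T l (fun _ x => φ x a * φ x b) z *
              S.T l (fun z _ => S.mg φ k a z * S.mg φ k b z) z) -
          S.m (l + 1) * S.Ex (fun z _ => (S.mg φ l a z * S.mg φ l b z) *
            S.T l (fun _ x => φ x a * φ x b) z)) := by
      intro a b
      have n1 : Nh (X := X) (fun z _ => S.T l (fun _ x => φ x a * φ x b) z *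
            S.T l (fun _ x => φ x a * φ x b) z) := Nh.fst ((eA a b).mul (eA a b))
      have n2 : ∀ k ∈ Finset.Ico (l + 1) (S.K + 1), Nh (X := X) (fun z _ => S.p k *
          (S.T l (fun _ x => φ x a * φ x b) z *
              S.T l (fun z _ => S.mg φ k a z * S.mg φ k b z) z)) := fun k hk' =>
        Nh.fst (EG.const_mul _ ((eA a b).mul (eB k hk' a b)))
      have n3 : Nh (X := X) (fun z _ => S.m (l + 1) * ((S.mg φ l a z * S.mg φ l b z) *
            S.T l (fun _ x => φ x a * φ x b) z)) :=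
        Nh.fst (EG.const_mul _ (((eg_mg hS hl a).mul (eg_mg hS hl b)).mul (eA a b)))
      have e1 : (fun (z : ι → ℝ) (_ : X) => d a b z * S.T l (fun _ x => φ x a * φ x b) z) =
          fun z _ => s l * ((S.T l (fun _ x => φ x a * φ x b) z *
            S.T l (fun _ x => φ x a * φ x b) z - ∑ k ∈ Finset.Ico (l + 1) (S.K + 1), S.p k *
          (S.T l (fun _ x => φ x a * φ x b) z *
              S.T l (fun z _ => S.mg φ k a z * S.mg φ k b z) z)) -
              S.m (l + 1) * ((S.mg φ l a z * S.mg φ l b z) *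
            S.T l (fun _ x => φ x a * φ x b) z)) := by
        funext z _
        simp only [hd]
        have e2 : ∑ k ∈ Finset.Ico (l + 1) (S.K + 1), S.p k *
          (S.T l (fun _ x => φ x a * φ x b) z *
              S.T l (fun z _ => S.mg φ k a z * S.mg φ k b z) z) =
            S.T l (fun _ x => φ x a * φ x b) z * ∑ k ∈ Finset.Ico (l + 1) (S.K + 1), S.p k *
              S.T l (fun z _ => S.mg φ k a z * S.mg φ k b z) z := by
          rw [Finset.mul_sum]
          refine Finset.sum_congr rfl fun k _ => ?_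
          ring
        rw [e2]
        ring
      rw [e1, Sy.Ex_const_mul, hS.Ex_sub (Nh.sub n1 (Nh.sum _ n2)) n3,
        hS.Ex_sub n1 (Nh.sum _ n2), hS.Ex_sum _ n2, Sy.Ex_const_mul]
      congr 3
      refine Finset.sum_congr rfl fun k _ => ?_
      rw [Sy.Ex_const_mul]
    rw [g1, g2, F.pairEx_Rov_sq hl, g4]
    simp_rw [g5]
    have g6 : ∑ i ∈ Finset.Ico (l + 1) (S.K + 1), S.p i * (1 / (N : ℝ) ^ 2 *
        S.Ex (fun z _ => ∑ a, ∑ b, S.T l (fun _ x => φ x a * φ x b) z *
          S.T l (fun z _ => S.mg φ i a z * S.mg φ i b z) z)) =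
        1 / (N : ℝ) ^ 2 * ∑ a, ∑ b, ∑ k ∈ Finset.Ico (l + 1) (S.K + 1), S.p k * S.Ex (fun z _ =>
            S.T l (fun _ x => φ x a * φ x b) z *
              S.T l (fun z _ => S.mg φ k a z * S.mg φ k b z) z) := by
      rw [Finset.sum_congr rfl fun k hk' => by rw [g3 k hk']]
      simp_rw [Finset.mul_sum]
      rw [Finset.sum_comm]
      refine Finset.sum_congr rfl fun a _ => ?_
      rw [Finset.sum_comm]
      refine Finset.sum_congr rfl fun b _ => Finset.sum_congr rfl fun k _ => ?_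
      ring
    rw [g6]
    simp_rw [mul_sub, Finset.sum_sub_distrib, ← Finset.mul_sum]
    ring
  rw [h2, F.Ex_uu hl] at h
  refine Eq.trans h ?_
  rw [← mul_add]
  congr 1
  have e5 : ∀ k, S.Ex (fun z x => uu S φ l z x * uu S φ k z x) =
      S.Ex (fun z x => (1 / N * ∑ a, S.mg φ l a z * φ x a) *
          (1 / N * ∑ a, S.mg φ k a z * φ x a)) := fun k => rfl
  simp only [e5]
  ring

/-- In (B), the averages over three replicas are at most the average over two replicas. -/
theorem three_le_two {l i : ℕ} (hl : l ≤ i) (hi : i ≤ S.K) :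
    1 / N ^ 2 * S.Ex (fun z _ => ∑ a, ∑ b,
      S.T l (fun _ x => φ x a * φ x b) z * S.T l (fun z _ => S.mg φ i a z * S.mg φ i b z) z) ≤
        S.pairEx l (fun x x' => Rov φ x x' ^ 2) := by
  have hS := F.hreg
  have hlK : l ≤ S.K := hl.trans hi
  rw [F.pairEx_Rov_sq hlK]
  refine mul_le_mul_of_nonneg_left ?_ (by positivity)
  have na : ∀ a, Nh (ι := ι) (fun (_ : ι → ℝ) (x : X) => φ x a) := fun a => Nh.snd fun x => φ x a
  have nab : ∀ a b, Nh (ι := ι) (fun (_ : ι → ℝ) (x : X) => φ x a * φ x b) := fun a b =>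
    Nh.snd fun x => φ x a * φ x b
  have em : ∀ a, EG (S.mg φ i a) := fun a => eg_mg hS hi a
  have emm : ∀ a b, EG (fun z => S.mg φ i a z * S.mg φ i b z) := fun a b => (em a).mul (em b)
  have eA : ∀ a b, EG (S.T l (fun _ x => φ x a * φ x b)) := fun a b => hS.eg_T hlK (nab a b)
  have eB : ∀ a b, EG (S.T l (fun z _ => S.mg φ i a z * S.mg φ i b z)) := fun a b =>
    hS.eg_T hlK (Nh.fst (emm a b))
  refine hS.Ex_mono (Nh.sum _ fun a _ => Nh.sum _ fun b _ => Nh.fst ((eA a b).mul (eB a b)))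
    (Nh.sum _ fun a _ => Nh.sum _ fun b _ => Nh.fst ((eA a b).mul (eA a b))) fun z _ => ?_
  rw [← sub_nonneg, ← Finset.sum_sub_distrib]
  simp_rw [← Finset.sum_sub_distrib, ← mul_sub]
  -- the conditional covariance
  have nd : ∀ a, Nh (fun (z : ι → ℝ) (x : X) => φ x a - S.mg φ i a z) := fun a =>
    Nh.sub (na a) (Nh.fst (em a))
  have e1 : ∀ a b, S.T l (fun _ x => φ x a * φ x b) z -
      S.T l (fun z _ => S.mg φ i a z * S.mg φ i b z) z =
      S.T l (fun z x => (φ x a - S.mg φ i a z) * (φ x b - S.mg φ i b z)) z := by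
    intro a b
    have t1 : ∀ a b, S.T l (fun z x => S.mg φ i a z * φ x b) z =
        S.T l (fun z _ => S.mg φ i a z * S.mg φ i b z) z := by
      intro a b
      rw [← hS.T_T hl hi (Nh.mul (Nh.fst (em a)) (na b))]
      congr 1
      funext z' _
      rw [T_mul_left S (dep_mg S φ i a)]
      rfl
    have e2 : (fun (z : ι → ℝ) (x : X) => (φ x a - S.mg φ i a z) * (φ x b - S.mg φ i b z)) =
        fun z x => ((φ x a * φ x b - S.mg φ i a z * φ x b) - S.mg φ i b z * φ x a) +
          S.mg φ i a z * S.mg φ i b z := by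
      funext z x
      ring
    have n1 := Nh.mul (Nh.fst (em a)) (na b)
    have n2 := Nh.mul (Nh.fst (em b)) (na a)
    rw [e2, hS.T_add hlK (Nh.sub (Nh.sub (nab a b) n1) n2) (Nh.fst (emm a b)),
      hS.T_sub hlK (Nh.sub (nab a b) n1) n2, hS.T_sub hlK (nab a b) n1, t1, t1]
    have e3 : (fun (z : ι → ℝ) (_ : X) => S.mg φ i b z * S.mg φ i a z) =
        fun z _ => S.mg φ i a z * S.mg φ i b z := by
      funext z _
      exact mul_comm _ _
    rw [e3]
    ring
  simp_rw [e1]
  have e4 : ∑ a, ∑ b, S.T l (fun _ x => φ x a * φ x b) z *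
      S.T l (fun z x => (φ x a - S.mg φ i a z) * (φ x b - S.mg φ i b z)) z =
      ∑ x, S.pr l z x * S.T l (fun z y => (∑ a, φ x a * (φ y a - S.mg φ i a z)) ^ 2) z := by
    have e5 : ∀ x, S.T l (fun z y => (∑ a, φ x a * (φ y a - S.mg φ i a z)) ^ 2) z =
        ∑ a, ∑ b, (φ x a * φ x b) *
          S.T l (fun z x => (φ x a - S.mg φ i a z) * (φ x b - S.mg φ i b z)) z := by
      intro x
      have e6 : (fun (z : ι → ℝ) (y : X) => (∑ a, φ x a * (φ y a - S.mg φ i a z)) ^ 2) =
          fun z y => ∑ a, ∑ b, (φ x a * φ x b) *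
            ((fun (z : ι → ℝ) (x : X) => (φ x a - S.mg φ i a z) * (φ x b - S.mg φ i b z)) z y) := by
        funext z y
        rw [sq, Finset.sum_mul_sum]
        refine Finset.sum_congr rfl fun a _ => Finset.sum_congr rfl fun b _ => ?_
        ring
      rw [e6, hS.T_sum hlK _ fun a _ => Nh.sum _ fun b _ =>
        Nh.const_mul _ (Nh.mul (nd a) (nd b))]
      refine Finset.sum_congr rfl fun a _ => ?_
      rw [hS.T_sum hlK _ fun b _ => Nh.const_mul _ (Nh.mul (nd a) (nd b))]
      refine Finset.sum_congr rfl fun b _ => ?_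
      rw [Sy.T_const_mul]
    simp_rw [e5, Finset.mul_sum]
    rw [Finset.sum_comm]
    rw [Finset.sum_comm (s := (Finset.univ : Finset X))]
    rw [Finset.sum_comm]
    refine Finset.sum_congr rfl fun a _ => ?_
    rw [Finset.sum_comm (s := (Finset.univ : Finset X))]
    refine Finset.sum_congr rfl fun b _ => ?_
    rw [hS.T_pr hlK (fun x => φ x a * φ x b), Finset.sum_mul]
    refine Finset.sum_congr rfl fun x _ => ?_
    ring
  rw [e4]
  refine Finset.sum_nonneg fun x _ => mul_nonneg (hS.pr_nonneg hlK z x) ?_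
  have h0 := hS.T_mono hlK (f := fun _ _ => (0 : ℝ))
    (g := fun z y => (∑ a, φ x a * (φ y a - S.mg φ i a z)) ^ 2) (Nh.snd fun _ => 0)
    (Nh.pow (Nh.sum _ fun a _ => Nh.const_mul _ (nd a)) 2) (fun z y => sq_nonneg _) z
  rwa [hS.T_const hlK] at h0

lemma uu_eq {l : ℕ} (hl : l ≤ S.K) (z : ι → ℝ) (x : X) :
    uu S φ l z x = ∑ x', S.pr l z x' * Rov φ x' x := by
  have hS := F.hreg
  simp_rw [uu, mg_eq hS hl, Rov, Finset.sum_mul]
  rw [Finset.sum_comm, Finset.mul_sum]
  refine Finset.sum_congr rfl fun x' _ => ?_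
  rw [Finset.mul_sum, Finset.mul_sum, Finset.mul_sum]
  refine Finset.sum_congr rfl fun a _ => ?_
  ring

lemma abs_uu_le {l : ℕ} (hl : l ≤ S.K) (z : ι → ℝ) (x : X) : |uu S φ l z x| ≤ 1 := by
  have hS := F.hreg
  rw [F.uu_eq hl]
  refine (Finset.abs_sum_le_sum_abs _ _).trans ?_
  rw [← hS.sum_pr hl z]
  refine Finset.sum_le_sum fun x' _ => ?_
  rw [abs_mul, abs_of_nonneg (hS.pr_nonneg hl z x')]
  exact mul_le_of_le_one_right (hS.pr_nonneg hl z x') (F.abs_Rov_le x' x)

lemma nh_hz (j : ℕ) : Nh (hz φ zc j) := by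
  exact Nh.const_mul _ (Nh.sum _ fun i _ => Nh.mul (Nh.fst (EG.coord (zc j i)))
    (Nh.snd fun x => φ x i))

/-- a concentrated field is almost uncorrelated with bounded observables -/
lemma dev {j l : ℕ} (hl : l ≤ S.K) {ε c : ℝ}
    (hc : S.Ex (fun z x => |hz φ zc j z x - c|) ≤ ε) :
    |S.Ex (fun z x => hz φ zc j z x * uu S φ l z x) - S.Ex (hz φ zc j) * S.Rl φ l| ≤ 2 * ε := by
  have hS := F.hreg
  have nh := F.nh_hz j
  have nu := nh_uu (φ := φ) hS hl
  have nc : ∀ c : ℝ, Nh (ι := ι) (X := X) (fun _ _ => c) := fun c => Nh.fst (EG.const c)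
  have n1 : Nh (fun z x => hz φ zc j z x - c) := Nh.sub nh (nc c)
  have n2 : Nh (fun z x => uu S φ l z x - S.Rl φ l) := Nh.sub nu (nc _)
  have e : S.Ex (fun z x => hz φ zc j z x * uu S φ l z x) - S.Ex (hz φ zc j) * S.Rl φ l =
      S.Ex (fun z x => (hz φ zc j z x - c) * (uu S φ l z x - S.Rl φ l)) := by
    have e1 : (fun z x => (hz φ zc j z x - c) * (uu S φ l z x - S.Rl φ l)) =
        fun z x => (hz φ zc j z x * uu S φ l z x - S.Rl φ l * hz φ zc j z x) -
          c * (uu S φ l z x - S.Rl φ l) := by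
      funext z x
      ring
    rw [e1, hS.Ex_sub (Nh.sub (Nh.mul nh nu) (Nh.const_mul _ nh)) (Nh.const_mul _ n2),
      hS.Ex_sub (Nh.mul nh nu) (Nh.const_mul _ nh), Sy.Ex_const_mul, Sy.Ex_const_mul,
      hS.Ex_sub nu (nc _), hS.Ex_const, F.Ex_uu hl, sub_self, mul_zero, sub_zero, mul_comm]
  rw [e]
  refine (hS.abs_Ex_le (Nh.mul n1 n2)).trans ?_
  have h2 : S.Ex (fun z x => |(hz φ zc j z x - c) * (uu S φ l z x - S.Rl φ l)|) ≤
      S.Ex (fun z x => 2 * |hz φ zc j z x - c|) := by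
    refine hS.Ex_mono (Nh.abs (Nh.mul n1 n2)) (Nh.const_mul _ (Nh.abs n1)) fun z x => ?_
    rw [abs_mul, mul_comm]
    refine mul_le_mul_of_nonneg_right ?_ (abs_nonneg _)
    have h3 := abs_le.mp (F.abs_uu_le hl z x)
    have h4 := F.Rl_nonneg hl
    have h5 := F.Rl_le_one hl
    rw [abs_le]
    constructor <;> linarith [h3.1, h3.2]
  refine h2.trans ?_
  rw [Sy.Ex_const_mul]
  linarith only [hc]

/-- **Synchronization.** -/
theorem sync {ε σ π : ℝ} (hε : 0 ≤ ε) (hσ : 0 < σ) (hs : ∀ l ≤ S.K, σ ≤ s l) (hπ : 0 < π)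
    (hp : ∀ l ≤ S.K, π ≤ S.p l) (hc : ∀ l ≤ S.K, ∃ c, S.Ex (fun z x => |hz φ zc l z x - c|) ≤ ε)
    {l : ℕ} (hl : l < S.K) :
    S.pairEx l (fun x x' => (Rov φ x x' - S.Rl φ l) ^ 2) ≤
      2 * (S.Rl φ (l + 1) - S.Rl φ l) + 20 * ε / (σ * π) := by
  have hS := F.hreg
  have hN := F.N_pos
  have hlK := hl.le
  set R : ℕ → ℝ := fun k => S.Rl φ k with hR
  set W : ℕ → ℝ := fun k => S.Ex (fun z x => uu S φ l z x * uu S φ k z x) with hW
  set G : ℕ → ℝ := fun k => W k - R l * R k with hG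
  set A : ℕ → ℝ := fun j => ∑ k ∈ Finset.Ico j (S.K + 1), S.p k * G k with hA
  have hδ : 0 ≤ 2 * ε / σ := by (clear * - hε hσ; positivity)
  -- consequences of (A)
  have cA : ∀ j, l < j → j ≤ S.K + 1 → |A j| ≤ 2 * ε / σ := by
    intro j hlj hj
    rcases Nat.lt_or_ge j (S.K + 1) with hj' | hj'
    · have hjK : j ≤ S.K := by omega
      obtain ⟨c, hc'⟩ := hc j hjK
      have h1 := F.dev (j := j) hlK hc'
      have h2 := F.ident_A hlj hjK
      have h3 := F.Ex_hz hjK
      have e1 : S.Ex (fun z x => hz φ zc j z x * uu S φ l z x) - S.Ex (hz φ zc j) * S.Rl φ l =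
          - (s j * A j) := by
        have e2 : S.Ex (fun z x => hz φ zc j z x * uu S φ l z x) =
            s j * (R l - ∑ i ∈ Finset.Ico j (S.K + 1), S.p i * W i) := h2
        rw [e2, h3]
        have e3 : A j = ∑ i ∈ Finset.Ico j (S.K + 1), S.p i * W i -
            R l * ∑ i ∈ Finset.Ico j (S.K + 1), S.p i * R i := by
          simp only [hA, hG]
          rw [Finset.mul_sum, ← Finset.sum_sub_distrib]
          refine Finset.sum_congr rfl fun i _ => ?_
          ring
        rw [e3]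
        simp only [hR]
        ring
      rw [e1, abs_neg, abs_mul, abs_of_nonneg (F.pos j hjK)] at h1
      rw [le_div_iff₀ hσ]
      have h4 := mul_le_mul_of_nonneg_left (hs j hjK) (abs_nonneg (A j))
      rw [mul_comm (|A j|) (s j)] at h4
      exact h4.trans h1
    · have : A j = 0 := by
        simp only [hA]
        rw [Finset.Ico_eq_empty (by omega), Finset.sum_empty]
      rw [this, abs_zero]
      exact hδ
  -- the covariance with the next level
  have hG1 : G (l + 1) ≤ 4 * ε / (σ * π) := by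
    have e1 : A (l + 1) = S.p (l + 1) * G (l + 1) + A (l + 1 + 1) := by
      simp only [hA]
      rw [Finset.sum_eq_sum_Ico_succ_bot (by omega : l + 1 < S.K + 1)]
    have h1 := abs_le.mp (cA (l + 1) (by omega) (by omega))
    have h2 := abs_le.mp (cA (l + 1 + 1) (by omega) (by omega))
    have h3 := hp (l + 1) (by omega)
    have h4 : S.p (l + 1) * G (l + 1) ≤ 4 * ε / σ := by
      have : 4 * ε / σ = 2 * ε / σ + 2 * ε / σ := by ring
      rw [this]
      linarith only [e1, h1.2, h2.1]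
    by_cases hg : G (l + 1) ≤ 0
    · exact hg.trans (by positivity)
    · push Not at hg
      rw [← div_div, le_div_iff₀ hπ]
      have h5 := mul_le_mul_of_nonneg_left h3 hg.le
      rw [mul_comm (G (l + 1)) (S.p (l + 1))] at h5
      exact h5.trans h4
  -- the variance of `u_l`
  have nu := nh_uu (φ := φ) hS hlK
  have nu' := nh_uu (φ := φ) hS (show l + 1 ≤ S.K from hl)
  have nc : ∀ c : ℝ, Nh (ι := ι) (X := X) (fun _ _ => c) := fun c => Nh.fst (EG.const c)
  set V : ℝ := W l - R l * R l with hV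
  have hV1 : S.Ex (fun z x => (uu S φ l z x - R l) ^ 2) = V := by
    have e1 : (fun z x => (uu S φ l z x - R l) ^ 2) =
        fun z x => (uu S φ l z x * uu S φ l z x - 2 * R l * uu S φ l z x) + R l ^ 2 := by
      funext z x
      ring
    rw [e1, hS.Ex_add (Nh.sub (Nh.mul nu nu) (Nh.const_mul _ nu)) (nc _),
      hS.Ex_sub (Nh.mul nu nu) (Nh.const_mul _ nu), Sy.Ex_const_mul, hS.Ex_const, F.Ex_uu hlK]
    simp only [hV, hR, hW]
    ring
  have hV0 : 0 ≤ V := by
    rw [← hV1, ← hS.Ex_const 0]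
    exact hS.Ex_mono (nc 0) (Nh.pow (Nh.sub nu (nc _)) 2) fun z x => sq_nonneg _
  have hdif : S.Ex (fun z x => (uu S φ l z x - uu S φ (l + 1) z x) ^ 2) ≤ R (l + 1) - R l := by
    rw [← F.Rl_sub hl, ← Sy.Ex_const_mul]
    refine hS.Ex_mono (Nh.pow (Nh.sub nu nu') 2) (Nh.fst (EG.const_mul _ (EG.sum _ fun i _ =>
      ((eg_mg hS (show l + 1 ≤ S.K from hl) i).sub (eg_mg hS hlK i)).pow 2))) fun z x => ?_
    have e1 : uu S φ l z x - uu S φ (l + 1) z x =
        -(1 / N * ∑ a, (S.mg φ (l + 1) a z - S.mg φ l a z) * φ x a) := by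
      simp_rw [uu, sub_mul]
      rw [Finset.sum_sub_distrib]
      ring
    rw [e1, neg_sq, mul_pow]
    have h1 := Finset.sum_mul_sq_le_sq_mul_sq Finset.univ
      (fun a => S.mg φ (l + 1) a z - S.mg φ l a z) (φ x)
    rw [F.norm] at h1
    calc (1 / (N : ℝ)) ^ 2 * (∑ a, (S.mg φ (l + 1) a z - S.mg φ l a z) * φ x a) ^ 2
        ≤ (1 / (N : ℝ)) ^ 2 * ((∑ a, (S.mg φ (l + 1) a z - S.mg φ l a z) ^ 2) * N) :=
          mul_le_mul_of_nonneg_left h1 (by positivity)
      _ = 1 / N * ∑ i, (S.mg φ (l + 1) i z - S.mg φ l i z) ^ 2 := by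
          field_simp
  have hV2 : V ≤ (R (l + 1) - R l) + 2 * G (l + 1) := by
    have e1 : V - G (l + 1) =
        S.Ex (fun z x => (uu S φ l z x - R l) * (uu S φ l z x - uu S φ (l + 1) z x)) := by
      have e2 : (fun z x => (uu S φ l z x - R l) * (uu S φ l z x - uu S φ (l + 1) z x)) =
          fun z x => (uu S φ l z x * uu S φ l z x - uu S φ l z x * uu S φ (l + 1) z x) -
            (R l * uu S φ l z x - R l * uu S φ (l + 1) z x) := by
        funext z x
        ring
      rw [e2, hS.Ex_sub (Nh.sub (Nh.mul nu nu) (Nh.mul nu nu'))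
        (Nh.sub (Nh.const_mul _ nu) (Nh.const_mul _ nu')), hS.Ex_sub (Nh.mul nu nu) (Nh.mul nu nu'),
        hS.Ex_sub (Nh.const_mul _ nu) (Nh.const_mul _ nu'), Sy.Ex_const_mul, Sy.Ex_const_mul,
        F.Ex_uu hlK, F.Ex_uu (show l + 1 ≤ S.K from hl)]
      simp only [hV, hG, hR, hW]
      ring
    have h1 : S.Ex (fun z x => (uu S φ l z x - R l) * (uu S φ l z x - uu S φ (l + 1) z x)) ≤
        S.Ex (fun z x => 1 / 2 * (uu S φ l z x - R l) ^ 2 +
          1 / 2 * (uu S φ l z x - uu S φ (l + 1) z x) ^ 2) := by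
      refine hS.Ex_mono (Nh.mul (Nh.sub nu (nc _)) (Nh.sub nu nu'))
        (Nh.add (Nh.const_mul _ (Nh.pow (Nh.sub nu (nc _)) 2))
          (Nh.const_mul _ (Nh.pow (Nh.sub nu nu') 2))) fun z x => ?_
      have := two_mul_le_add_sq (uu S φ l z x - R l) (uu S φ l z x - uu S φ (l + 1) z x)
      linarith only [this]
    rw [hS.Ex_add (Nh.const_mul _ (Nh.pow (Nh.sub nu (nc _)) 2))
      (Nh.const_mul _ (Nh.pow (Nh.sub nu nu') 2)), Sy.Ex_const_mul, Sy.Ex_const_mul, hV1] at h1
    linarith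
  -- (B)
  set Q : ℝ := S.pairEx l (fun x x' => Rov φ x x' ^ 2) with hQ
  set a : ℕ → ℝ := fun i => 1 / (N : ℝ) ^ 2 * S.Ex (fun z _ => ∑ a, ∑ b,
          S.T l (fun _ x => φ x a * φ x b) z * S.T l (fun z _ => S.mg φ i a z * S.mg φ i b z) z)
    with ha
  have hQ0 : 0 ≤ Q := hS.pairEx_nonneg hlK fun x x' => sq_nonneg _
  have hp0 : ∀ i ≤ S.K, 0 ≤ S.p i := fun i hi => by
    rw [Sy.p]
    linarith [hS.mono i hi]
  have hsum : ∑ i ∈ Finset.Ico (l + 1) (S.K + 1), S.p i = 1 - S.m (l + 1) := by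
    have h1 : ∀ n, l + 1 ≤ n → ∑ i ∈ Finset.Ico (l + 1) n, S.p i = S.m n - S.m (l + 1) := by
      intro n hn
      induction n, hn using Nat.le_induction with
      | base => simp
      | succ n hn ih =>
        rw [Finset.sum_Ico_succ_top hn, ih, Sy.p]
        ring
    rw [h1 _ (by omega), hS.mK]
  have ha1 : ∑ i ∈ Finset.Ico (l + 1) (S.K + 1), S.p i * a i ≤ Q * (1 - S.m (l + 1)) := by
    rw [← hsum, Finset.mul_sum]
    refine Finset.sum_le_sum fun i hi => ?_
    rw [Finset.mem_Ico] at hi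
    rw [mul_comm Q]
    exact mul_le_mul_of_nonneg_left (F.three_le_two (by omega) (by omega)) (hp0 i (by omega))
  have hB : Q - ∑ i ∈ Finset.Ico (l + 1) (S.K + 1), S.p i * a i - S.m (l + 1) * W l - A l ≤
      2 * ε / σ := by
    obtain ⟨c, hc'⟩ := hc l hlK
    have h1 := F.dev (j := l) hlK hc'
    have h2 := F.ident_B hlK
    have h3 := F.Ex_hz hlK
    have e1 : S.Ex (fun z x => hz φ zc l z x * uu S φ l z x) - S.Ex (hz φ zc l) * S.Rl φ l =
        s l * (Q - ∑ i ∈ Finset.Ico (l + 1) (S.K + 1), S.p i * a i - S.m (l + 1) * W l - A l) := by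
      have e0 : W l = S.Ex (fun z x => (1 / N * ∑ a, S.mg φ l a z * φ x a) ^ 2) := by
        simp only [hW]
        congr 1
        funext z x
        rw [sq]
        rfl
      have e2 : S.Ex (fun z x => hz φ zc l z x * uu S φ l z x) =
          s l * (Q - ∑ i ∈ Finset.Ico (l + 1) (S.K + 1), S.p i * a i - S.m (l + 1) * W l + R l -
            ∑ i ∈ Finset.Ico l (S.K + 1), S.p i * W i) := by
        rw [e0]
        exact h2
      rw [e2, h3]
      have e3 : A l = ∑ i ∈ Finset.Ico l (S.K + 1), S.p i * W i -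
          R l * ∑ i ∈ Finset.Ico l (S.K + 1), S.p i * R i := by
        simp only [hA, hG]
        rw [Finset.mul_sum, ← Finset.sum_sub_distrib]
        refine Finset.sum_congr rfl fun i _ => ?_
        ring
      rw [e3]
      simp only [hR]
      ring
    rw [e1] at h1
    have h5 := (abs_le.mp h1).2
    rw [le_div_iff₀ hσ]
    clear_value A W a Q
    by_cases hx : Q - ∑ i ∈ Finset.Ico (l + 1) (S.K + 1), S.p i * a i - S.m (l + 1) * W l - A l ≤ 0
    · exact (mul_nonpos_of_nonpos_of_nonneg hx hσ.le).trans (by linarith only [hε])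
    · push Not at hx
      have h4 := mul_le_mul_of_nonneg_left (hs l hlK) hx.le
      rw [mul_comm _ (s l)] at h4
      exact h4.trans h5
  have hAl : A l = S.p l * V + A (l + 1) := by
    simp only [hA, hV]
    rw [Finset.sum_eq_sum_Ico_succ_bot (by omega : l < S.K + 1)]
  have hA1 := (abs_le.mp (cA (l + 1) (by omega) (by omega))).2
  have hm0 : 0 ≤ S.m l := by
    rcases Nat.eq_zero_or_pos l with h0 | h0
    · rw [h0, hS.m0]
    · exact (hS.m_pos h0 (by omega)).le
  have hpl : S.p l ≤ S.m (l + 1) := by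
    rw [Sy.p]
    linarith only [hm0]
  have hmπ : π ≤ S.m (l + 1) := (hp l hlK).trans hpl
  have hmain : S.m (l + 1) * (Q - R l * R l - 2 * V) ≤ 4 * ε / σ := by
    have e1 : 4 * ε / σ = 2 * ε / σ + 2 * ε / σ := by ring
    have e2 : W l = V + R l * R l := by simp only [hV]; ring
    rw [hAl, e2] at hB
    rw [e1]
    have h6 : S.p l * V ≤ S.m (l + 1) * V := mul_le_mul_of_nonneg_right hpl hV0
    have e3 : S.m (l + 1) * (V + R l * R l) = S.m (l + 1) * V + S.m (l + 1) * (R l * R l) :=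
      mul_add _ _ _
    have e4 : Q * (1 - S.m (l + 1)) = Q - S.m (l + 1) * Q := by ring
    have e5 : S.m (l + 1) * (Q - R l * R l - 2 * V) = S.m (l + 1) * Q -
        S.m (l + 1) * (R l * R l) - 2 * (S.m (l + 1) * V) := by ring
    rw [e3] at hB
    rw [e4] at ha1
    rw [e5]
    linarith only [ha1, hB, hA1, h6]
  have hfin : Q - R l * R l - 2 * V ≤ 4 * ε / (σ * π) := by
    by_cases hx : Q - R l * R l - 2 * V ≤ 0
    · exact hx.trans (by (clear * - hε hσ hπ; positivity))
    · push Not at hx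
      rw [← div_div, le_div_iff₀ hπ]
      have h5 := mul_le_mul_of_nonneg_left hmπ hx.le
      rw [mul_comm _ (S.m (l + 1))] at h5
      exact h5.trans hmain
  have hexp : S.pairEx l (fun x x' => (Rov φ x x' - S.Rl φ l) ^ 2) = Q - R l * R l := by
    have e1 : (fun x x' => (Rov φ x x' - S.Rl φ l) ^ 2) =
        fun x x' => Rov φ x x' ^ 2 + ((-(2 * R l)) * Rov φ x x' + R l * R l) := by
      funext x x'
      simp only [hR]
      ring
    rw [e1, hS.pairEx_add hlK (fun x x' => Rov φ x x' ^ 2)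
      (fun x x' => (-(2 * R l)) * Rov φ x x' + R l * R l),
      hS.pairEx_add hlK (fun x x' => (-(2 * R l)) * Rov φ x x') (fun _ _ => R l * R l),
      hS.pairEx_const_mul, hS.pairEx_const hlK]
    have e2 : S.pairEx l (fun x x' => Rov φ x x') = R l := (F.Rl_eq_pairEx hlK).symm
    rw [e2]
    simp only [hQ]
    ring
  rw [hexp]
  have e1 : 20 * ε / (σ * π) = 4 * ε / (σ * π) + 4 * (4 * ε / (σ * π)) := by ring
  rw [e1]
  simp only [hR] at hV2 hfin ⊢
  linarith only [hfin, hV2, hG1]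

end Fld
end Vale.Agent.P157.Lv
end

section

/-!
Basic facts about the cascades and the tilted chain in dimension `N`: functions of exponential
growth, integrability, linearity, monotonicity, Lipschitz estimates.
-/

open MeasureTheory ProbabilityTheory Filter Topology

namespace Vale.Agent.P157.Par

variable {N : ℕ}

/-- Measurable functions of at most exponential growth. -/
structure EG (h : (Fin N → ℝ) → ℝ) : Prop where
  meas : Measurable h
  bdd : ∃ C a : ℝ, 0 ≤ C ∧ 0 ≤ a ∧ ∀ y, |h y| ≤ C * Real.exp (a * ‖y‖)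

/-- Lipschitz functions. -/
def Lip (G : (Fin N → ℝ) → ℝ) : Prop := ∃ L : ℝ, 0 ≤ L ∧ ∀ y y', |G y - G y'| ≤ L * ‖y - y'‖

lemma Lip.continuous {G : (Fin N → ℝ) → ℝ} (h : Lip G) : Continuous G := by
  obtain ⟨L, hL, h⟩ := h
  refine (LipschitzWith.of_dist_le_mul (K := ⟨L, hL⟩) fun y y' => ?_).continuous
  rw [Real.dist_eq, dist_eq_norm]; exact h y y'

lemma Lip.measurable {G : (Fin N → ℝ) → ℝ} (h : Lip G) : Measurable G := h.continuous.measurable

namespace EG

lemma of_bdd {h : (Fin N → ℝ) → ℝ} (hm : Measurable h) {C : ℝ} (hC : ∀ y, |h y| ≤ C) : EG h :=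
  ⟨hm, |C|, 0, abs_nonneg _, le_rfl, fun y => by simpa using (hC y).trans (le_abs_self C)⟩

lemma const (c : ℝ) : EG (fun _ : Fin N → ℝ => c) := of_bdd measurable_const fun _ => le_rfl

lemma add {f g : (Fin N → ℝ) → ℝ} (hf : EG f) (hg : EG g) : EG (fun y => f y + g y) := by
  obtain ⟨C, a, hC, ha, h1⟩ := hf.bdd
  obtain ⟨D, b, hD, hb, h2⟩ := hg.bdd
  refine ⟨hf.meas.add hg.meas, C + D, max a b, by positivity, by positivity, fun y => ?_⟩
  have e1 : Real.exp (a * ‖y‖) ≤ Real.exp (max a b * ‖y‖) :=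
    Real.exp_le_exp.2 (mul_le_mul_of_nonneg_right (le_max_left _ _) (norm_nonneg _))
  have e2 : Real.exp (b * ‖y‖) ≤ Real.exp (max a b * ‖y‖) :=
    Real.exp_le_exp.2 (mul_le_mul_of_nonneg_right (le_max_right _ _) (norm_nonneg _))
  calc |f y + g y| ≤ |f y| + |g y| := abs_add_le _ _
    _ ≤ C * Real.exp (a * ‖y‖) + D * Real.exp (b * ‖y‖) := add_le_add (h1 y) (h2 y)
    _ ≤ C * Real.exp (max a b * ‖y‖) + D * Real.exp (max a b * ‖y‖) := by gcongr
    _ = _ := by ring

lemma mul {f g : (Fin N → ℝ) → ℝ} (hf : EG f) (hg : EG g) : EG (fun y => f y * g y) := by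
  obtain ⟨C, a, hC, ha, h1⟩ := hf.bdd
  obtain ⟨D, b, hD, hb, h2⟩ := hg.bdd
  refine ⟨hf.meas.mul hg.meas, C * D, a + b, by positivity, by positivity, fun y => ?_⟩
  calc |f y * g y| = |f y| * |g y| := abs_mul _ _
    _ ≤ (C * Real.exp (a * ‖y‖)) * (D * Real.exp (b * ‖y‖)) := by
        gcongr
        · exact h1 y
        · exact h2 y
    _ = C * D * Real.exp ((a + b) * ‖y‖) := by rw [add_mul, Real.exp_add]; ring

lemma const_mul {f : (Fin N → ℝ) → ℝ} (c : ℝ) (hf : EG f) : EG (fun y => c * f y) :=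
  (const c).mul hf

lemma neg {f : (Fin N → ℝ) → ℝ} (hf : EG f) : EG (fun y => -f y) := by
  simpa using hf.const_mul (-1)

lemma sub {f g : (Fin N → ℝ) → ℝ} (hf : EG f) (hg : EG g) : EG (fun y => f y - g y) := by
  simpa [sub_eq_add_neg] using hf.add hg.neg

lemma sum {ι : Type*} (s : Finset ι) {f : ι → (Fin N → ℝ) → ℝ} (hf : ∀ i ∈ s, EG (f i)) :
    EG (fun y => ∑ i ∈ s, f i y) := by
  classical
  induction s using Finset.induction_on with
  | empty => simpa using const 0
  | insert a s ha ih =>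
    simp only [Finset.sum_insert ha]
    exact (hf a (Finset.mem_insert_self a s)).add
      (ih fun i hi => hf i (Finset.mem_insert_of_mem hi))

lemma pow {f : (Fin N → ℝ) → ℝ} (hf : EG f) (n : ℕ) : EG (fun y => f y ^ n) := by
  induction n with
  | zero => simpa using const 1
  | succ n ih => simpa [pow_succ] using ih.mul hf

lemma coord (i : Fin N) : EG (fun y : Fin N → ℝ => y i) := by
  refine ⟨measurable_pi_apply i, 1, 1, zero_le_one, zero_le_one, fun y => ?_⟩
  rw [one_mul, one_mul, ← Real.norm_eq_abs]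
  exact (norm_le_pi_norm y i).trans ((Real.add_one_le_exp ‖y‖).trans' (by linarith))

lemma mono {f g : (Fin N → ℝ) → ℝ} (hg : EG g) (hf : Measurable f) (h : ∀ y, |f y| ≤ |g y|) :
    EG f := by
  obtain ⟨C, a, hC, ha, h1⟩ := hg.bdd
  exact ⟨hf, C, a, hC, ha, fun y => (h y).trans (h1 y)⟩

end EG

lemma Lip.eg {G : (Fin N → ℝ) → ℝ} (h : Lip G) : EG G := by
  obtain ⟨L, hL, h'⟩ := id h
  refine ⟨h.measurable, |G 0| + L, 1, by positivity, zero_le_one, fun y => ?_⟩
  have h1 : |G y| ≤ |G 0| + L * ‖y‖ := by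
    have := h' y 0
    rw [sub_zero] at this
    calc |G y| = |(G y - G 0) + G 0| := by ring_nf
      _ ≤ |G y - G 0| + |G 0| := abs_add_le _ _
      _ ≤ _ := by linarith
  have h2 : ‖y‖ ≤ Real.exp ‖y‖ := (Real.add_one_le_exp ‖y‖).trans' (by linarith)
  have h3 : 1 ≤ Real.exp ‖y‖ := Real.one_le_exp (norm_nonneg _)
  rw [one_mul]
  calc |G y| ≤ |G 0| + L * ‖y‖ := h1
    _ ≤ |G 0| * Real.exp ‖y‖ + L * Real.exp ‖y‖ := by
        refine add_le_add (le_mul_of_one_le_right (abs_nonneg _) h3) (by gcongr)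
    _ = _ := by ring

lemma Lip.exp_eg {G : (Fin N → ℝ) → ℝ} (h : Lip G) (m : ℝ) :
    EG (fun y => Real.exp (m * G y)) := by
  obtain ⟨L, hL, h'⟩ := id h
  refine ⟨Real.measurable_exp.comp (h.measurable.const_mul m), Real.exp (|m| * |G 0|), |m| * L,
    (Real.exp_pos _).le, by positivity, fun y => ?_⟩
  rw [abs_of_pos (Real.exp_pos _), ← Real.exp_add, Real.exp_le_exp]
  have h1 : |G y| ≤ |G 0| + L * ‖y‖ := by
    have := h' y 0
    rw [sub_zero] at this
    calc |G y| = |(G y - G 0) + G 0| := by ring_nf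
      _ ≤ |G y - G 0| + |G 0| := abs_add_le _ _
      _ ≤ _ := by linarith
  calc m * G y ≤ |m * G y| := le_abs_self _
    _ = |m| * |G y| := abs_mul _ _
    _ ≤ |m| * (|G 0| + L * ‖y‖) := by gcongr
    _ = _ := by ring

lemma integrable_exp_norm (a : ℝ) :
    Integrable (fun z : Fin N → ℝ => Real.exp (a * ‖z‖)) (gN N) := by
  have h1 : Integrable (fun x : ℝ => Real.exp (|a| * |x|)) (gaussianReal 0 1) :=
    ProbabilityTheory.integrable_exp_mul_abs (X := fun x => x) (t := |a|)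
      (by simpa using integrable_exp_mul_gaussianReal (μ := 0) (v := 1) (|a|))
      (by simpa using integrable_exp_mul_gaussianReal (μ := 0) (v := 1) (-|a|))
  have h2 : Integrable (fun z : Fin N → ℝ => ∏ i, Real.exp (|a| * |z i|)) (gN N) :=
    Integrable.fintype_prod (f := fun _ x => Real.exp (|a| * |x|)) fun _ => h1
  refine h2.mono' ?_ (Filter.Eventually.of_forall fun z => ?_)
  · exact (by fun_prop : Continuous fun z : Fin N → ℝ => Real.exp (a * ‖z‖)).aestronglyMeasurable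
  · rw [Real.norm_eq_abs, abs_of_pos (Real.exp_pos _), ← Real.exp_sum, Real.exp_le_exp,
      ← Finset.mul_sum]
    have hn : ‖z‖ ≤ ∑ i, |z i| := by
      refine (pi_norm_le_iff_of_nonneg (Finset.sum_nonneg fun i _ => abs_nonneg _)).2 fun i => ?_
      rw [Real.norm_eq_abs]
      exact Finset.single_le_sum (f := fun i => |z i|) (fun i _ => abs_nonneg _)
        (Finset.mem_univ i)
    calc a * ‖z‖ ≤ |a| * ‖z‖ := mul_le_mul_of_nonneg_right (le_abs_self a) (norm_nonneg _)
      _ ≤ |a| * ∑ i, |z i| := by gcongr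

/-- Functions of exponential growth are integrable after any shift and scaling. -/
lemma EG.integrable {h : (Fin N → ℝ) → ℝ} (hh : EG h) (y : Fin N → ℝ) (s : ℝ) :
    Integrable (fun z => h (y + s • z)) (gN N) := by
  obtain ⟨C, a, hC, ha, hb⟩ := hh.bdd
  refine ((integrable_exp_norm (N := N) (a * |s|)).const_mul (C * Real.exp (a * ‖y‖))).mono'
    (hh.meas.comp (by fun_prop)).aestronglyMeasurable (Filter.Eventually.of_forall fun z => ?_)
  rw [Real.norm_eq_abs]
  refine (hb _).trans ?_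
  rw [mul_assoc, ← Real.exp_add]
  gcongr
  calc a * ‖y + s • z‖ ≤ a * (‖y‖ + ‖s • z‖) := by gcongr; exact norm_add_le _ _
    _ = _ := by rw [norm_smul, Real.norm_eq_abs]; ring

lemma EG.integrable_smul {h : (Fin N → ℝ) → ℝ} (hh : EG h) (s : ℝ) :
    Integrable (fun z => h (s • z)) (gN N) := by
  simpa using hh.integrable 0 s

/-- Averages of functions of exponential growth over a Gaussian shift are measurable. -/
lemma EG.meas_int {h : (Fin N → ℝ) → ℝ} (hh : EG h) (s : ℝ) :
    Measurable (fun y => ∫ z, h (y + s • z) ∂(gN N)) := by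
  have : StronglyMeasurable (Function.uncurry fun (y z : Fin N → ℝ) => h (y + s • z)) :=
    (hh.meas.comp (by fun_prop)).stronglyMeasurable
  exact this.integral_prod_right.measurable

lemma int_exp_pos {G : (Fin N → ℝ) → ℝ} (hG : Lip G) (m v : ℝ) (y : Fin N → ℝ) :
    0 < ∫ z, Real.exp (m * G (y + √v • z)) ∂(gN N) :=
  integral_exp_pos ((hG.exp_eg m).integrable y (√v))

lemma EG.integrable_tilt {G h : (Fin N → ℝ) → ℝ} (hG : Lip G) (hh : EG h) (m v : ℝ)
    (y : Fin N → ℝ) :
    Integrable (fun z => h (y + √v • z) * Real.exp (m * G (y + √v • z))) (gN N) :=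
  (hh.mul (hG.exp_eg m)).integrable y (√v)

lemma EG.measurable_tilt {G h : (Fin N → ℝ) → ℝ} (hG : Lip G) (hh : EG h) (m v : ℝ) :
    Measurable (tiltN m v G h) :=
  ((hh.mul (hG.exp_eg m)).meas_int (√v)).div ((hG.exp_eg m).meas_int (√v))

lemma tiltN_mono {G h h' : (Fin N → ℝ) → ℝ} (hG : Lip G) (hh : EG h) (hh' : EG h')
    (hle : ∀ y, h y ≤ h' y) (m v : ℝ) (y : Fin N → ℝ) : tiltN m v G h y ≤ tiltN m v G h' y := by
  unfold tiltN
  refine div_le_div_of_nonneg_right ?_ (int_exp_pos hG m v y).le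
  exact integral_mono (hh.integrable_tilt hG m v y) (hh'.integrable_tilt hG m v y)
    fun z => mul_le_mul_of_nonneg_right (hle _) (Real.exp_pos _).le

lemma tiltN_const {G : (Fin N → ℝ) → ℝ} (hG : Lip G) (m v c : ℝ) (y : Fin N → ℝ) :
    tiltN m v G (fun _ => c) y = c := by
  unfold tiltN
  rw [integral_const_mul, mul_div_assoc, div_self (int_exp_pos hG m v y).ne', mul_one]

lemma tiltN_add {G h h' : (Fin N → ℝ) → ℝ} (hG : Lip G) (hh : EG h) (hh' : EG h')
    (m v : ℝ) (y : Fin N → ℝ) :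
    tiltN m v G (fun y => h y + h' y) y = tiltN m v G h y + tiltN m v G h' y := by
  unfold tiltN
  rw [← add_div, ← integral_add (hh.integrable_tilt hG m v y) (hh'.integrable_tilt hG m v y)]
  simp only [add_mul]

lemma tiltN_const_mul (G h : (Fin N → ℝ) → ℝ) (m v c : ℝ) (y : Fin N → ℝ) :
    tiltN m v G (fun y => c * h y) y = c * tiltN m v G h y := by
  unfold tiltN
  simp only [mul_assoc]
  rw [integral_const_mul, mul_div_assoc]

lemma tiltN_neg (G h : (Fin N → ℝ) → ℝ) (m v : ℝ) (y : Fin N → ℝ) :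
    tiltN m v G (fun y => -h y) y = -tiltN m v G h y := by
  simpa using tiltN_const_mul G h m v (-1) y

lemma tiltN_sub {G h h' : (Fin N → ℝ) → ℝ} (hG : Lip G) (hh : EG h) (hh' : EG h')
    (m v : ℝ) (y : Fin N → ℝ) :
    tiltN m v G (fun y => h y - h' y) y = tiltN m v G h y - tiltN m v G h' y := by
  simp only [sub_eq_add_neg]
  rw [tiltN_add hG hh hh'.neg, tiltN_neg]

lemma tiltN_sum {ι : Type*} (s : Finset ι) {G : (Fin N → ℝ) → ℝ} {h : ι → (Fin N → ℝ) → ℝ}
    (hG : Lip G) (hh : ∀ i ∈ s, EG (h i)) (m v : ℝ) (y : Fin N → ℝ) :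
    tiltN m v G (fun y => ∑ i ∈ s, h i y) y = ∑ i ∈ s, tiltN m v G (h i) y := by
  classical
  induction s using Finset.induction_on with
  | empty => simpa using tiltN_const hG m v 0 y
  | insert a s ha ih =>
    simp only [Finset.sum_insert ha]
    rw [tiltN_add hG (hh a (Finset.mem_insert_self a s))
      (EG.sum s fun i hi => hh i (Finset.mem_insert_of_mem hi)),
      ih fun i hi => hh i (Finset.mem_insert_of_mem hi)]

lemma tiltN_congr {G h h' : (Fin N → ℝ) → ℝ} (hle : ∀ y, h y = h' y) (m v : ℝ)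
    (y : Fin N → ℝ) : tiltN m v G h y = tiltN m v G h' y := by
  rw [funext hle]

lemma abs_tiltN_le {G h : (Fin N → ℝ) → ℝ} (hG : Lip G) (hh : EG h) (m v : ℝ) (y : Fin N → ℝ) :
    |tiltN m v G h y| ≤ tiltN m v G (fun y => |h y|) y := by
  have habs : EG (fun y => |h y|) := hh.mono hh.meas.abs fun y => by simp
  rw [abs_le]
  constructor
  · rw [← tiltN_neg]
    exact tiltN_mono hG habs.neg hh (fun y => neg_abs_le _) m v y
  · exact tiltN_mono hG hh habs (fun y => le_abs_self _) m v y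

lemma abs_tiltN_le_of_bdd {G h : (Fin N → ℝ) → ℝ} (hG : Lip G) (hh : Measurable h) {C : ℝ}
    (hC : ∀ y, |h y| ≤ C) (m v : ℝ) (y : Fin N → ℝ) : |tiltN m v G h y| ≤ C := by
  have h1 := EG.of_bdd hh hC
  have habs : EG (fun y => |h y|) := h1.mono h1.meas.abs fun y => by simp
  calc _ ≤ tiltN m v G (fun y => |h y|) y := abs_tiltN_le hG h1 m v y
    _ ≤ tiltN m v G (fun _ => C) y := tiltN_mono hG habs (EG.const C) hC m v y
    _ = C := tiltN_const hG m v C y

/-- The tilted chain preserves the class of functions of exponential growth. -/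
lemma EG.tilt {G h : (Fin N → ℝ) → ℝ} (hG : Lip G) (hh : EG h) (m v : ℝ) :
    EG (tiltN m v G h) := by
  obtain ⟨C, a, hC, ha, hb⟩ := hh.bdd
  obtain ⟨L, hL, hl⟩ := id hG
  set A : ℝ := ∫ z : Fin N → ℝ, Real.exp ((a * √v + |m| * L * √v) * ‖z‖) ∂(gN N) with hA
  set B : ℝ := ∫ z : Fin N → ℝ, Real.exp (-(|m| * L * √v) * ‖z‖) ∂(gN N) with hB
  have hA0 : 0 < A := integral_exp_pos (integrable_exp_norm _)
  have hB0 : 0 < B := integral_exp_pos (integrable_exp_norm _)
  refine ⟨hh.measurable_tilt hG m v, C * (A / B), a, by positivity, ha, fun y => ?_⟩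
  have habs : EG (fun y => |h y|) := hh.mono hh.meas.abs fun y => by simp
  refine (abs_tiltN_le hG hh m v y).trans ?_
  have key : ∀ z : Fin N → ℝ, |m * G (y + √v • z) - m * G y| ≤ |m| * L * √v * ‖z‖ := by
    intro z
    rw [← mul_sub, abs_mul]
    have := hl (y + √v • z) y
    rw [add_sub_cancel_left, norm_smul, Real.norm_eq_abs, abs_of_nonneg (Real.sqrt_nonneg v)] at this
    calc |m| * |G (y + √v • z) - G y| ≤ |m| * (L * (√v * ‖z‖)) := by gcongr
      _ = _ := by ring
  unfold tiltN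
  rw [div_le_iff₀ (int_exp_pos hG m v y)]
  have h1 : ∫ z, |h (y + √v • z)| * Real.exp (m * G (y + √v • z)) ∂(gN N) ≤
      C * Real.exp (a * ‖y‖) * Real.exp (m * G y) * A := by
    rw [hA, ← integral_const_mul]
    refine integral_mono (habs.integrable_tilt hG m v y)
      ((integrable_exp_norm _).const_mul _) fun z => ?_
    dsimp only
    have e1 : |h (y + √v • z)| ≤ C * Real.exp (a * ‖y‖) * Real.exp (a * √v * ‖z‖) := by
      refine (hb _).trans ?_
      rw [mul_assoc, ← Real.exp_add]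
      gcongr
      calc a * ‖y + √v • z‖ ≤ a * (‖y‖ + ‖√v • z‖) := by gcongr; exact norm_add_le _ _
        _ = _ := by rw [norm_smul, Real.norm_eq_abs, abs_of_nonneg (Real.sqrt_nonneg v)]; ring
    have e2 : Real.exp (m * G (y + √v • z)) ≤
        Real.exp (m * G y) * Real.exp (|m| * L * √v * ‖z‖) := by
      rw [← Real.exp_add, Real.exp_le_exp]
      linarith [(abs_le.1 (key z)).2]
    calc |h (y + √v • z)| * Real.exp (m * G (y + √v • z)) ≤
        (C * Real.exp (a * ‖y‖) * Real.exp (a * √v * ‖z‖)) *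
          (Real.exp (m * G y) * Real.exp (|m| * L * √v * ‖z‖)) := by gcongr
      _ = _ := by rw [add_mul, Real.exp_add]; ring
  have h2 : Real.exp (m * G y) * B ≤ ∫ z, Real.exp (m * G (y + √v • z)) ∂(gN N) := by
    rw [hB, ← integral_const_mul]
    refine integral_mono ((integrable_exp_norm _).const_mul _)
      ((hG.exp_eg m).integrable y (√v)) fun z => ?_
    dsimp only
    rw [← Real.exp_add, Real.exp_le_exp]
    linarith [(abs_le.1 (key z)).1]
  calc ∫ z, |h (y + √v • z)| * Real.exp (m * G (y + √v • z)) ∂(gN N) ≤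
      C * Real.exp (a * ‖y‖) * Real.exp (m * G y) * A := h1
    _ = C * (A / B) * Real.exp (a * ‖y‖) * (Real.exp (m * G y) * B) := by
        field_simp
    _ ≤ _ := by gcongr

/-- Cascade steps preserve Lipschitz functions. -/
lemma Lip.gstep {G : (Fin N → ℝ) → ℝ} (hG : Lip G) {m : ℝ} (hm : 0 < m) (v : ℝ) :
    Lip (gstepN m v G) := by
  obtain ⟨L, hL, hl⟩ := id hG
  have key : ∀ y y', gstepN m v G y ≤ gstepN m v G y' + L * ‖y - y'‖ := by
    intro y y'
    unfold gstepN
    have h1 : ∫ z, Real.exp (m * G (y + √v • z)) ∂(gN N) ≤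
        Real.exp (m * (L * ‖y - y'‖)) * ∫ z, Real.exp (m * G (y' + √v • z)) ∂(gN N) := by
      rw [← integral_const_mul]
      refine integral_mono ((hG.exp_eg m).integrable y (√v))
        (((hG.exp_eg m).integrable y' (√v)).const_mul _) fun z => ?_
      dsimp only
      rw [← Real.exp_add, Real.exp_le_exp, ← mul_add]
      refine mul_le_mul_of_nonneg_left ?_ hm.le
      have := (abs_le.1 (hl (y + √v • z) (y' + √v • z))).2
      rw [add_sub_add_right_eq_sub] at this
      linarith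
    have h2 := Real.log_le_log (int_exp_pos hG m v y) h1
    rw [Real.log_mul (Real.exp_pos _).ne' (int_exp_pos hG m v y').ne', Real.log_exp] at h2
    calc 1 / m * Real.log (∫ z, Real.exp (m * G (y + √v • z)) ∂(gN N)) ≤
        1 / m * (m * (L * ‖y - y'‖) + Real.log (∫ z, Real.exp (m * G (y' + √v • z)) ∂(gN N))) := by
          gcongr
      _ = _ := by field_simp; ring
  refine ⟨L, hL, fun y y' => abs_le.2 ⟨?_, ?_⟩⟩
  · have := key y' y
    rw [norm_sub_rev] at this
    linarith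
  · have := key y y'
    linarith

/-- The difference of two cascade steps in terms of the tilted chain. -/
lemma gstepN_sub {G G' : (Fin N → ℝ) → ℝ} (hG : Lip G) (hG' : Lip G') {m : ℝ}
    (v : ℝ) (y : Fin N → ℝ) :
    gstepN m v G' y - gstepN m v G y =
      1 / m * Real.log (tiltN m v G (fun y => Real.exp (m * (G' y - G y))) y) := by
  unfold gstepN tiltN
  have h1 : ∀ z, Real.exp (m * (G' (y + √v • z) - G (y + √v • z))) *
      Real.exp (m * G (y + √v • z)) = Real.exp (m * G' (y + √v • z)) := by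
    intro z
    rw [← Real.exp_add]; ring_nf
  simp only [h1]
  rw [Real.log_div (int_exp_pos hG' m v y).ne' (int_exp_pos hG m v y).ne']
  ring

/-- Jensen's inequality for one cascade step. -/
lemma le_gstepN_sub {G G' h : (Fin N → ℝ) → ℝ} (hG : Lip G) (hG' : Lip G') (hh : EG h) {m : ℝ}
    (hm : 0 < m) (v : ℝ) (hle : ∀ y, h y ≤ G' y - G y) (y : Fin N → ℝ) :
    tiltN m v G h y ≤ gstepN m v G' y - gstepN m v G y := by
  rw [gstepN_sub hG hG']
  set a := tiltN m v G h y with ha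
  have hE : EG (fun y => Real.exp (m * (G' y - G y))) := by
    have := (hG'.exp_eg m).mul (hG.exp_eg (-m))
    refine this.mono ?_ fun y => ?_
    · exact Real.measurable_exp.comp ((hG'.measurable.sub hG.measurable).const_mul m)
    · rw [← Real.exp_add]
      refine le_of_eq ?_
      congr 2
      ring
  have h1 : tiltN m v G (fun y => Real.exp (m * a) * (1 + m * (h y - a))) y ≤
      tiltN m v G (fun y => Real.exp (m * (G' y - G y))) y := by
    refine tiltN_mono hG ?_ hE (fun y => ?_) m v y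
    · exact ((EG.const 1).add ((hh.sub (EG.const a)).const_mul m)).const_mul _
    · have e1 : m * (h y - a) + 1 ≤ Real.exp (m * (h y - a)) := Real.add_one_le_exp _
      have e2 : Real.exp (m * a) * Real.exp (m * (h y - a)) = Real.exp (m * h y) := by
        rw [← Real.exp_add]; ring_nf
      calc Real.exp (m * a) * (1 + m * (h y - a)) ≤ Real.exp (m * a) *
          Real.exp (m * (h y - a)) := by
            refine mul_le_mul_of_nonneg_left ?_ (Real.exp_pos _).le
            linarith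
        _ = Real.exp (m * h y) := e2
        _ ≤ _ := Real.exp_le_exp.2 (mul_le_mul_of_nonneg_left (hle y) hm.le)
  have h2 : tiltN m v G (fun y => Real.exp (m * a) * (1 + m * (h y - a))) y =
      Real.exp (m * a) := by
    rw [tiltN_const_mul, tiltN_add hG (EG.const 1) ((hh.sub (EG.const a)).const_mul m),
      tiltN_const hG, tiltN_const_mul, tiltN_sub hG hh (EG.const a), tiltN_const hG, ← ha]
    ring
  rw [h2] at h1
  have h3 := Real.log_le_log (Real.exp_pos _) h1
  rw [Real.log_exp] at h3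
  calc a = 1 / m * (m * a) := by field_simp
    _ ≤ _ := by gcongr

lemma gstepN_le_add {G G' : (Fin N → ℝ) → ℝ} (hG : Lip G) (hG' : Lip G') {m : ℝ} (hm : 0 < m)
    (v : ℝ) {C : ℝ} (h : ∀ y, G y ≤ G' y + C) (y : Fin N → ℝ) :
    gstepN m v G y ≤ gstepN m v G' y + C := by
  have h1 := le_gstepN_sub (h := fun _ => -C) hG hG' (EG.const _) hm v
    (fun y => by linarith [h y]) y
  rw [tiltN_const hG] at h1
  linarith

section chain

variable {m r : ℕ → ℝ}

/-- The full cascade is Lipschitz in the sup norm. -/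
lemma topN_le_add {l : ℕ} (hm : ∀ j < l, 0 < m (j + 1)) {G G' : (Fin N → ℝ) → ℝ} (hG : Lip G)
    (hG' : Lip G') {C : ℝ} (h : ∀ y, G y ≤ G' y + C) : topN m r l G ≤ topN m r l G' + C := by
  induction l generalizing G G' with
  | zero =>
    unfold topN
    have := integral_mono (hG.eg.integrable_smul (√(r 0)))
      (((hG'.eg.integrable_smul (√(r 0))).add (integrable_const C))) fun z => h (√(r 0) • z)
    refine this.trans (le_of_eq ?_)
    rw [integral_add' (hG'.eg.integrable_smul (√(r 0))) (integrable_const C)]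
    simp
  | succ l ih =>
    unfold topN
    exact ih (fun j hj => hm j (by omega)) (hG.gstep (hm l (by omega)) _)
      (hG'.gstep (hm l (by omega)) _)
      (gstepN_le_add hG hG' (hm l (by omega)) _ h)

lemma abs_topN_sub_le {l : ℕ} (hm : ∀ j < l, 0 < m (j + 1)) {G G' : (Fin N → ℝ) → ℝ}
    (hG : Lip G) (hG' : Lip G') {C : ℝ} (h : ∀ y, |G y - G' y| ≤ C) :
    |topN m r l G - topN m r l G'| ≤ C := by
  rw [abs_le]
  constructor
  · have := topN_le_add (r := r) hm hG' hG (C := C) fun y => by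
      linarith [(abs_le.1 (h y)).1]
    linarith
  · have := topN_le_add (r := r) hm hG hG' (C := C) fun y => by
      linarith [(abs_le.1 (h y)).2]
    linarith

lemma chainAv_mono {l : ℕ} (hm : ∀ j < l, 0 < m (j + 1)) {G h h' : (Fin N → ℝ) → ℝ} (hG : Lip G)
    (hh : EG h) (hh' : EG h') (hle : ∀ y, h y ≤ h' y) : chainAv m r l G h ≤ chainAv m r l G h' := by
  induction l generalizing G h h' with
  | zero => exact integral_mono (hh.integrable_smul _) (hh'.integrable_smul _) fun z => hle _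
  | succ l ih =>
    unfold chainAv
    exact ih (fun j hj => hm j (by omega)) (hG.gstep (hm l (by omega)) _) (hh.tilt hG _ _)
      (hh'.tilt hG _ _) (tiltN_mono hG hh hh' hle _ _)

lemma chainAv_add {l : ℕ} (hm : ∀ j < l, 0 < m (j + 1)) {G h h' : (Fin N → ℝ) → ℝ} (hG : Lip G)
    (hh : EG h) (hh' : EG h') :
    chainAv m r l G (fun y => h y + h' y) = chainAv m r l G h + chainAv m r l G h' := by
  induction l generalizing G h h' with
  | zero => exact integral_add (hh.integrable_smul _) (hh'.integrable_smul _)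
  | succ l ih =>
    unfold chainAv
    rw [funext (tiltN_add hG hh hh' _ _)]
    exact ih (fun j hj => hm j (by omega)) (hG.gstep (hm l (by omega)) _) (hh.tilt hG _ _)
      (hh'.tilt hG _ _)

lemma chainAv_const_mul (l : ℕ) (G h : (Fin N → ℝ) → ℝ) (c : ℝ) :
    chainAv m r l G (fun y => c * h y) = c * chainAv m r l G h := by
  induction l generalizing G h with
  | zero => exact integral_const_mul _ _
  | succ l ih =>
    unfold chainAv
    rw [funext (tiltN_const_mul G h _ _ c)]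
    exact ih _ _

lemma chainAv_neg (l : ℕ) (G h : (Fin N → ℝ) → ℝ) :
    chainAv m r l G (fun y => -h y) = -chainAv m r l G h := by
  simpa using chainAv_const_mul (m := m) (r := r) l G h (-1)

lemma chainAv_sub {l : ℕ} (hm : ∀ j < l, 0 < m (j + 1)) {G h h' : (Fin N → ℝ) → ℝ} (hG : Lip G)
    (hh : EG h) (hh' : EG h') :
    chainAv m r l G (fun y => h y - h' y) = chainAv m r l G h - chainAv m r l G h' := by
  simp only [sub_eq_add_neg]
  rw [chainAv_add hm hG hh hh'.neg, chainAv_neg]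

lemma chainAv_const {l : ℕ} (hm : ∀ j < l, 0 < m (j + 1)) {G : (Fin N → ℝ) → ℝ} (hG : Lip G)
    (c : ℝ) : chainAv m r l G (fun _ => c) = c := by
  induction l generalizing G with
  | zero => simp [chainAv]
  | succ l ih =>
    unfold chainAv
    rw [funext (tiltN_const hG _ _ c)]
    exact ih (fun j hj => hm j (by omega)) (hG.gstep (hm l (by omega)) _)

lemma chainAv_sum {ι : Type*} (s : Finset ι) {l : ℕ} (hm : ∀ j < l, 0 < m (j + 1))
    {G : (Fin N → ℝ) → ℝ} {h : ι → (Fin N → ℝ) → ℝ} (hG : Lip G) (hh : ∀ i ∈ s, EG (h i)) :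
    chainAv m r l G (fun y => ∑ i ∈ s, h i y) = ∑ i ∈ s, chainAv m r l G (h i) := by
  classical
  induction s using Finset.induction_on with
  | empty => simpa using chainAv_const hm hG 0
  | insert a s ha ih =>
    simp only [Finset.sum_insert ha]
    rw [chainAv_add hm hG (hh a (Finset.mem_insert_self a s))
      (EG.sum s fun i hi => hh i (Finset.mem_insert_of_mem hi)),
      ih fun i hi => hh i (Finset.mem_insert_of_mem hi)]

/-- Jensen's inequality for the full cascade. -/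
lemma chainAv_le_topN_sub {l : ℕ} (hm : ∀ j < l, 0 < m (j + 1)) {G G' h : (Fin N → ℝ) → ℝ}
    (hG : Lip G) (hG' : Lip G') (hh : EG h) (hle : ∀ y, h y ≤ G' y - G y) :
    chainAv m r l G h ≤ topN m r l G' - topN m r l G := by
  induction l generalizing G G' h with
  | zero =>
    unfold chainAv topN
    rw [← integral_sub (hG'.eg.integrable_smul _) (hG.eg.integrable_smul _)]
    exact integral_mono (hh.integrable_smul _)
      ((hG'.eg.integrable_smul _).sub (hG.eg.integrable_smul _)) fun z => hle _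
  | succ l ih =>
    unfold chainAv topN
    exact ih (fun j hj => hm j (by omega)) (hG.gstep (hm l (by omega)) _)
      (hG'.gstep (hm l (by omega)) _) (hh.tilt hG _ _)
      (le_gstepN_sub hG hG' hh (hm l (by omega)) _ hle)

end chain

section lw

variable {X : Type} [Fintype X] [Nonempty X]

lemma sum_exp_pos (e : X → ℝ) : 0 < ∑ x, Real.exp (e x) :=
  Finset.sum_pos (fun _ _ => Real.exp_pos _) Finset.univ_nonempty

/-- The log-partition function is a Lipschitz function of the energies. -/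
lemma log_sum_exp_le {e e' : X → ℝ} {C : ℝ} (h : ∀ x, e x ≤ e' x + C) :
    Real.log (∑ x, Real.exp (e x)) ≤ Real.log (∑ x, Real.exp (e' x)) + C := by
  rw [← Real.log_exp C, ← Real.log_mul (sum_exp_pos e').ne' (Real.exp_pos C).ne']
  refine Real.log_le_log (sum_exp_pos e) ?_
  rw [Finset.sum_mul]
  refine Finset.sum_le_sum fun x _ => ?_
  rw [← Real.exp_add]
  exact Real.exp_le_exp.2 (h x)

lemma lw_le_add (φ : X → Fin N → ℝ) (c : ℝ) {u u' : X → ℝ} {C : ℝ} (h : ∀ x, u x ≤ u' x + C)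
    (y : Fin N → ℝ) : lw φ c u y ≤ lw φ c u' y + C :=
  log_sum_exp_le fun x => by linarith [h x]

lemma abs_lw_sub_le (φ : X → Fin N → ℝ) (c : ℝ) {u u' : X → ℝ} {C : ℝ}
    (h : ∀ x, |u x - u' x| ≤ C) (y : Fin N → ℝ) : |lw φ c u y - lw φ c u' y| ≤ C := by
  rw [abs_le]
  constructor
  · have := lw_le_add φ c (u := u') (u' := u) (C := C)
      (fun x => by linarith [(abs_le.1 (h x)).1]) y
    linarith
  · have := lw_le_add φ c (u := u) (u' := u') (C := C)
      (fun x => by linarith [(abs_le.1 (h x)).2]) y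
    linarith

lemma lip_lw (φ : X → Fin N → ℝ) (c : ℝ) (u : X → ℝ) : Lip (lw φ c u) := by
  set L : ℝ := |c| * ∑ x, ∑ i, |φ x i| with hL
  have key : ∀ y y' : Fin N → ℝ, lw φ c u y ≤ lw φ c u y' + L * ‖y - y'‖ := by
    intro y y'
    refine log_sum_exp_le fun x => ?_
    have h1 : c * ∑ i, y i * φ x i - c * ∑ i, y' i * φ x i ≤ L * ‖y - y'‖ := by
      calc c * ∑ i, y i * φ x i - c * ∑ i, y' i * φ x i = c * ∑ i, (y - y') i * φ x i := by
            rw [← mul_sub, ← Finset.sum_sub_distrib]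
            simp only [Pi.sub_apply, sub_mul]
        _ ≤ |c * ∑ i, (y - y') i * φ x i| := le_abs_self _
        _ = |c| * |∑ i, (y - y') i * φ x i| := abs_mul _ _
        _ ≤ |c| * ∑ i, |(y - y') i * φ x i| := by
            gcongr; exact Finset.abs_sum_le_sum_abs _ _
        _ ≤ |c| * ∑ i, ‖y - y'‖ * |φ x i| := by
            gcongr with i _
            rw [abs_mul]
            gcongr
            rw [← Real.norm_eq_abs]; exact norm_le_pi_norm (y - y') i
        _ = |c| * (∑ i, |φ x i|) * ‖y - y'‖ := by rw [← Finset.mul_sum]; ring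
        _ ≤ L * ‖y - y'‖ := by
            rw [hL]
            gcongr
            exact Finset.single_le_sum (f := fun x => ∑ i, |φ x i|)
              (fun x _ => Finset.sum_nonneg fun i _ => abs_nonneg _) (Finset.mem_univ x)
    linarith
  refine ⟨L, by positivity, fun y y' => abs_le.2 ⟨?_, ?_⟩⟩
  · have := key y' y
    rw [norm_sub_rev] at this
    linarith
  · linarith [key y y']

/-- The Gibbs average is an average. -/
lemma gw_mono (φ : X → Fin N → ℝ) (c : ℝ) (u : X → ℝ) {h h' : X → ℝ} (hle : ∀ x, h x ≤ h' x)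
    (y : Fin N → ℝ) : gw φ c u h y ≤ gw φ c u h' y := by
  unfold gw
  refine div_le_div_of_nonneg_right ?_ (sum_exp_pos _).le
  exact Finset.sum_le_sum fun x _ => mul_le_mul_of_nonneg_left (hle x) (Real.exp_pos _).le

lemma gw_const (φ : X → Fin N → ℝ) (c : ℝ) (u : X → ℝ) (a : ℝ) (y : Fin N → ℝ) :
    gw φ c u (fun _ => a) y = a := by
  unfold gw
  rw [← Finset.sum_mul, mul_comm, mul_div_assoc, div_self (sum_exp_pos _).ne', mul_one]

lemma abs_gw_le (φ : X → Fin N → ℝ) (c : ℝ) (u : X → ℝ) {h : X → ℝ} {C : ℝ}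
    (hC : ∀ x, |h x| ≤ C) (y : Fin N → ℝ) : |gw φ c u h y| ≤ C := by
  rw [abs_le]
  constructor
  · rw [← gw_const φ c u (-C) y]
    exact gw_mono φ c u (fun x => (abs_le.1 (hC x)).1) y
  · rw [← gw_const φ c u C y]
    exact gw_mono φ c u (fun x => (abs_le.1 (hC x)).2) y

omit [Nonempty X] in
lemma measurable_gw (φ : X → Fin N → ℝ) (c : ℝ) (u : X → ℝ) (h : X → ℝ) :
    Measurable (gw φ c u h) := by
  unfold gw
  fun_prop

lemma eg_gw (φ : X → Fin N → ℝ) (c : ℝ) (u : X → ℝ) (h : X → ℝ) : EG (gw φ c u h) := by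
  refine EG.of_bdd (measurable_gw φ c u h) (C := ∑ x, |h x|) fun y => ?_
  exact abs_gw_le φ c u (fun x => Finset.single_le_sum (f := fun x => |h x|)
    (fun x _ => abs_nonneg _) (Finset.mem_univ x)) y

lemma eg_bw (φ : X → Fin N → ℝ) (c : ℝ) (u : X → ℝ) (i : Fin N) :
    EG (fun y => bw φ c u y i) := eg_gw φ c u _

end lw

section meas

variable {X : Type} [Fintype X] [Nonempty X] {m r : ℕ → ℝ}

/-- The full cascade depends continuously on the energies. -/
lemma continuous_topN_lw {l : ℕ} (hm : ∀ j < l, 0 < m (j + 1)) (φ : X → Fin N → ℝ) (c : ℝ) :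
    Continuous (fun u : X → ℝ => topN m r l (lw φ c u)) := by
  refine (LipschitzWith.of_dist_le_mul (K := 1) fun u u' => ?_).continuous
  rw [Real.dist_eq, NNReal.coe_one, one_mul, dist_eq_norm]
  refine abs_topN_sub_le hm (lip_lw φ c u) (lip_lw φ c u') fun y => ?_
  refine abs_lw_sub_le φ c (fun x => ?_) y
  have := norm_le_pi_norm (u - u') x
  rwa [Real.norm_eq_abs, Pi.sub_apply] at this

lemma abs_topN_lw_sub_le {l : ℕ} (hm : ∀ j < l, 0 < m (j + 1)) (φ : X → Fin N → ℝ) (c : ℝ)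
    {u u' : X → ℝ} {C : ℝ} (h : ∀ x, |u x - u' x| ≤ C) :
    |topN m r l (lw φ c u) - topN m r l (lw φ c u')| ≤ C :=
  abs_topN_sub_le hm (lip_lw φ c u) (lip_lw φ c u') (abs_lw_sub_le φ c h)

end meas

end Vale.Agent.P157.Par
end
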