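import Mathlib
import Vale.Agent.P157.ParDefs

set_option linter.all false

section

/-!
Hierarchical algebra and the Parisi functional of the SK model: definitions.
-/

namespace Vale.Agent.P146.Sk

open Vale.Agent.P157.Par (spinPart)

/-- The product of hierarchical matrices (diagonal entry, entries of the levels `0, …, K`) with
exponents `m`. -/
noncomputable def hm (K : ℕ) (m : ℕ → ℝ) (R T : ℝ × (ℕ → ℝ)) : ℝ × (ℕ → ℝ) :=
  (R.1 * T.1 - ∑ i ∈ Finset.range (K + 1), (m (i + 1) - m i) * (R.2 i * T.2 i),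
   fun l => R.2 l * (T.1 - ∑ i ∈ Finset.Ico (l + 1) (K + 1), (m (i + 1) - m i) * T.2 i -
        m (l + 1) * T.2 l) +
      (R.1 - ∑ i ∈ Finset.Ico l (K + 1), (m (i + 1) - m i) * R.2 i) * T.2 l -
      ∑ i ∈ Finset.range l, (m (i + 1) - m i) * (R.2 i * T.2 i))

/-- The powers of a hierarchical matrix. -/
noncomputable def hpow (K : ℕ) (m : ℕ → ℝ) (R : ℝ × (ℕ → ℝ)) : ℕ → ℝ × (ℕ → ℝ)
  | 0 => (1, fun _ => 0)
  | p + 1 => hm K m R (hpow K m R p)

/-- The diagonal entry of the `k`-th power of the hierarchical matrix with diagonal `1` and the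
path `q`. -/
noncomputable def trp (K : ℕ) (m q : ℕ → ℝ) (k : ℕ) : ℝ := (hpow K m (1, q) k).1

/-- The weighted norm. -/
noncomputable def hN (K : ℕ) (m : ℕ → ℝ) (T : ℝ × (ℕ → ℝ)) : ℝ :=
  |T.1| + ∑ i ∈ Finset.range (K + 1), (m (i + 1) - m i) * |T.2 i|

/-- The level zero eigenvalue `χ = 1 - ∑ p_l q_l`. -/
noncomputable def chi (K : ℕ) (m q : ℕ → ℝ) : ℝ :=
  1 - ∑ i ∈ Finset.range (K + 1), (m (i + 1) - m i) * q i

/-- The Parisi functional of the SK model. -/
noncomputable def PSK (β : ℝ) (K : ℕ) (m q : ℕ → ℝ) : ℝ :=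
  β ^ 2 / 4 * (1 + ∑ i ∈ Finset.range (K + 1), (m (i + 1) - m i) * q i ^ 2) +
    spinPart K m (fun l => β ^ 2 * q l)

/-- The supremum over the dual paths `r` is at most `P` (for the path `q`, at `β`). -/
def GoodPath (β : ℝ) (K : ℕ) (m q : ℕ → ℝ) (P : ℝ) : Prop :=
  ∀ r : ℕ → ℝ, Vale.Agent.P157.Par.Path K r → spinPart K m r +
      1 / 2 * ∑ l ∈ Finset.range (K + 1), (m (l + 1) - m l) * r l * q l ≤
    P - β ^ 2 / 4 * trp K m q 2

end Vale.Agent.P146.Sk
end

section

/-!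
The tilted chain on the line and its overlaps, for the spin part of the Parisi functional.
-/

open MeasureTheory ProbabilityTheory

namespace Vale.Agent.P157.Par

/-- One step of the tilted chain on the line. -/
noncomputable def tlt (m v : ℝ) (F h : ℝ → ℝ) : ℝ → ℝ := fun x =>
  (∫ z, h (x + √v * z) * Real.exp (m * F (x + √v * z)) ∂(gaussianReal 0 1)) /
    ∫ z, Real.exp (m * F (x + √v * z)) ∂(gaussianReal 0 1)

/-- The average of `h` at the level `l` of the tilted chain, with the log-weight `F` there. -/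
noncomputable def chn (m r : ℕ → ℝ) : ℕ → (ℝ → ℝ) → (ℝ → ℝ) → ℝ
  | 0, _, h => ∫ z, h (√(r 0) * z) ∂(gaussianReal 0 1)
  | l + 1, F, h => chn m r l (gstep (m (l + 1)) (r (l + 1) - r l) F)
      (tlt (m (l + 1)) (r (l + 1) - r l) F h)

/-- The overlaps of the tilted chain: with the log-weight `F` and the observable `M` at the level
`l`, the second moment of the conditional average of `M` at the level `j ≤ l`. -/
noncomputable def Rc (m r : ℕ → ℝ) : ℕ → (ℝ → ℝ) → (ℝ → ℝ) → ℕ → ℝ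
  | 0, F, M, _ => chn m r 0 F (fun x => M x ^ 2)
  | l + 1, F, M, j => if j ≤ l then
      Rc m r l (gstep (m (l + 1)) (r (l + 1) - r l) F) (tlt (m (l + 1)) (r (l + 1) - r l) F M) j
      else chn m r (l + 1) F (fun x => M x ^ 2)

theorem chn_zero_def (m r : ℕ → ℝ) (F h : ℝ → ℝ) :
    chn m r 0 F h = ∫ z, h (√(r 0) * z) ∂(gaussianReal 0 1) := by
  have h1 := @chn.eq_1
  have h2 := @chn.eq_def
  simp only [chn]

theorem chn_succ_def (m r : ℕ → ℝ) (l : ℕ) (F h : ℝ → ℝ) :
    chn m r (l + 1) F h = chn m r l (gstep (m (l + 1)) (r (l + 1) - r l) F)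
      (tlt (m (l + 1)) (r (l + 1) - r l) F h) := by
  have h1 := @chn.eq_1
  have h2 := @chn.eq_def
  simp only [chn]

theorem Rc_zero_def (m r : ℕ → ℝ) (F M : ℝ → ℝ) (j : ℕ) :
    Rc m r 0 F M j = chn m r 0 F (fun x => M x ^ 2) := by
  have h1 := @Rc.eq_1
  have h2 := @Rc.eq_def
  simp only [Rc]

theorem Rc_succ_le (m r : ℕ → ℝ) (l : ℕ) (F M : ℝ → ℝ) {j : ℕ} (hj : j ≤ l) :
    Rc m r (l + 1) F M j = Rc m r l (gstep (m (l + 1)) (r (l + 1) - r l) F)
      (tlt (m (l + 1)) (r (l + 1) - r l) F M) j := by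
  have h1 := @Rc.eq_1
  have h2 := @Rc.eq_def
  simp only [Rc, if_pos hj]

theorem Rc_succ_self (m r : ℕ → ℝ) (l : ℕ) (F M : ℝ → ℝ) :
    Rc m r (l + 1) F M (l + 1) = chn m r (l + 1) F (fun x => M x ^ 2) := by
  have h1 := @Rc.eq_1
  have h2 := @Rc.eq_def
  simp only [Rc, if_neg (Nat.not_succ_le_self l)]

theorem Rc_self (m r : ℕ → ℝ) (l : ℕ) (F M : ℝ → ℝ) :
    Rc m r l F M l = chn m r l F (fun x => M x ^ 2) := by
  cases l with
  | zero => exact Rc_zero_def m r F M 0
  | succ l => exact Rc_succ_self m r l F M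

/-- The overlap at the level `j` of the spin chain. -/
noncomputable def spR (k : ℕ) (m r : ℕ → ℝ) (j : ℕ) : ℝ :=
  Rc m r k (fun x => Real.log (Real.cosh x)) Real.tanh j

/-- Regular log-weights with their first two derivatives. -/
structure Sm (L B : ℝ) (F M D : ℝ → ℝ) : Prop where
  d1 : ∀ x, HasDerivAt F (M x) x
  d2 : ∀ x, HasDerivAt M (D x) x
  cD : Continuous D
  bM : ∀ x, |M x| ≤ L
  bD : ∀ x, |D x| ≤ B

/-- Regular even convex log-weights. -/
structure Ec (F M D : ℝ → ℝ) : Prop where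
  d1 : ∀ x, HasDerivAt F (M x) x
  d2 : ∀ x, HasDerivAt M (D x) x
  cD : Continuous D
  even : ∀ x, F (-x) = F x
  D0 : ∀ x, 0 ≤ D x
  D1 : ∀ x, D x + M x ^ 2 ≤ 1

/-- A smooth family of log-weights, on a segment: `u1, u2` are the derivatives in `x` and `us` is
the derivative in the parameter. -/
structure Fam (a b : ℝ) (u u1 u2 us : ℝ → ℝ → ℝ) : Prop where
  d1 : ∀ s ∈ Set.Icc a b, ∀ x, HasDerivAt (u s) (u1 s x) x
  d2 : ∀ s ∈ Set.Icc a b, ∀ x, HasDerivAt (u1 s) (u2 s x) x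
  ds : ∀ s ∈ Set.Ioo a b, ∀ x, HasDerivAt (fun s => u s x) (us s x) s
  c0 : ContinuousOn (fun p : ℝ × ℝ => u p.1 p.2) (Set.Icc a b ×ˢ Set.univ)
  c1 : ContinuousOn (fun p : ℝ × ℝ => u1 p.1 p.2) (Set.Icc a b ×ˢ Set.univ)
  c2 : ContinuousOn (fun p : ℝ × ℝ => u2 p.1 p.2) (Set.Icc a b ×ˢ Set.univ)
  cs : ContinuousOn (fun p : ℝ × ℝ => us p.1 p.2) (Set.Ioo a b ×ˢ Set.univ)
  b1 : ∃ B, ∀ s ∈ Set.Icc a b, ∀ x, |u1 s x| ≤ B
  b2 : ∃ B, ∀ s ∈ Set.Icc a b, ∀ x, |u2 s x| ≤ B
  bs : ∃ B, ∀ s ∈ Set.Ioo a b, ∀ x, |us s x| ≤ B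

/-- Even functions which are nondecreasing on the half line. -/
def Evm (g : ℝ → ℝ) : Prop := (∀ x, g (-x) = g x) ∧ MonotoneOn g (Set.Ici 0)

/-- Strictly increasing paths with a positive first value. -/
def SPath (k : ℕ) (r : ℕ → ℝ) : Prop := 0 < r 0 ∧ ∀ l < k, r l < r (l + 1)

end Vale.Agent.P157.Par
end

section

/-!
# P146 / Gap: definitions for the no-gap theorem (marginality of the SK Parisi measure)
-/

open MeasureTheory ProbabilityTheory Filter Topology Set

namespace Vale.Agent.P146.Gap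

open Vale.Agent.P157.Par

/-- Positive smooth functions whose derivatives are all dominated by the function itself. -/
structure PosF (ψ : ℝ → ℝ) : Prop where
  smooth : ContDiff ℝ (⊤ : ℕ∞) ψ
  pos : ∀ x, 0 < ψ x
  ctrl : ∀ j : ℕ, ∃ C : ℝ, ∀ x, |iteratedDeriv j ψ x| ≤ C * ψ x

/-- Gaussian average of the `j`-th derivative of `ψ` (variance `s`). -/
noncomputable def U (ψ : ℝ → ℝ) (j : ℕ) (s x : ℝ) : ℝ :=
  ∫ z, iteratedDeriv j ψ (x + √s * z) ∂(gaussianReal 0 1)

/-- Smooth functions, all derivatives of order `≥ 1` are bounded. -/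
structure SmB (F : ℝ → ℝ) : Prop where
  smooth : ContDiff ℝ (⊤ : ℕ∞) F
  bd : ∀ j : ℕ, ∃ C : ℝ, ∀ x, |iteratedDeriv (j + 1) F x| ≤ C

/-- Admissible functions of the Parisi recursion. -/
structure Adm (C : ℝ) (F : ℝ → ℝ) : Prop where
  smb : SmB F
  even : ∀ x, F (-x) = F x
  pos : ∀ x, 0 < iteratedDeriv 2 F x
  le1 : ∀ x, iteratedDeriv 2 F x + iteratedDeriv 1 F x ^ 2 ≤ 1
  r3 : ∀ x, |iteratedDeriv 3 F x| ≤ C * iteratedDeriv 2 F x
  r4 : ∃ C' : ℝ, ∀ x, |iteratedDeriv 4 F x| ≤ C' * iteratedDeriv 2 F x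

/-- `j`-th space derivative of `F` after one Parisi step of exponent `g` and variance `s`. -/
noncomputable def fj (g : ℝ) (F : ℝ → ℝ) (j : ℕ) (s x : ℝ) : ℝ :=
  iteratedDeriv j (gstep g s F) x

/-- `β = -(log F'')'' - 2 g F''`. -/
noncomputable def bet (g : ℝ) (F : ℝ → ℝ) (x : ℝ) : ℝ :=
  (iteratedDeriv 3 F x / iteratedDeriv 2 F x) ^ 2 - iteratedDeriv 4 F x / iteratedDeriv 2 F x
    - 2 * g * iteratedDeriv 2 F x

/-- `β'`. -/
noncomputable def betp (g : ℝ) (F : ℝ → ℝ) (x : ℝ) : ℝ :=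
  -(iteratedDeriv 5 F x / iteratedDeriv 2 F x)
    + 3 * (iteratedDeriv 3 F x * iteratedDeriv 4 F x) / iteratedDeriv 2 F x ^ 2
    - 2 * (iteratedDeriv 3 F x / iteratedDeriv 2 F x) ^ 3 - 2 * g * iteratedDeriv 3 F x

/-- `Y = -(log F'')' - g F'`. -/
noncomputable def Yf (g : ℝ) (F : ℝ → ℝ) (x : ℝ) : ℝ :=
  -(iteratedDeriv 3 F x / iteratedDeriv 2 F x) - g * iteratedDeriv 1 F x

/-- `h = F'' exp (g F)`. -/
noncomputable def hf (g : ℝ) (F : ℝ → ℝ) (x : ℝ) : ℝ :=
  iteratedDeriv 2 F x * Real.exp (g * F x)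

/-- `ϑ = β F'' exp (g F)`. -/
noncomputable def th (g : ℝ) (F : ℝ → ℝ) (x : ℝ) : ℝ := bet g F x * hf g F x

/-- The invariant class of the Parisi flow with exponent `g`. -/
structure Good (g C : ℝ) (F : ℝ → ℝ) : Prop where
  adm : Adm C F
  bet_nonneg : ∀ x, 0 ≤ bet g F x
  betp_le : ∀ x, 0 ≤ x → betp g F x ≤ Yf g F x * bet g F x

/-- `log cosh`. -/
noncomputable def lc (x : ℝ) : ℝ := Real.log (Real.cosh x)

/-- The overlap `R(τ) = E (∂ G_τ)²` along the first block `[0, s₁]` of exponent `g`, above which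
the function is `F`; the tilt exponent `g'` is free (`g' = g` for the overlap itself). -/
noncomputable def Rf (g' g s₁ : ℝ) (F : ℝ → ℝ) (τ : ℝ) : ℝ :=
  tlt g' τ (gstep g (s₁ - τ) F) (fun y => iteratedDeriv 1 (gstep g (s₁ - τ) F) y ^ 2) 0

/-- `M = R'`. -/
noncomputable def Mf (g s₁ : ℝ) (F : ℝ → ℝ) (τ : ℝ) : ℝ :=
  tlt g τ (gstep g (s₁ - τ) F) (fun y => iteratedDeriv 2 (gstep g (s₁ - τ) F) y ^ 2) 0

/-- `M'`. -/
noncomputable def M1f (g s₁ : ℝ) (F : ℝ → ℝ) (τ : ℝ) : ℝ :=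
  tlt g τ (gstep g (s₁ - τ) F) (fun y => iteratedDeriv 3 (gstep g (s₁ - τ) F) y ^ 2
    - 2 * g * iteratedDeriv 2 (gstep g (s₁ - τ) F) y ^ 3) 0

/-- `M''`. -/
noncomputable def M2f (g s₁ : ℝ) (F : ℝ → ℝ) (τ : ℝ) : ℝ :=
  tlt g τ (gstep g (s₁ - τ) F) (fun y => iteratedDeriv 4 (gstep g (s₁ - τ) F) y ^ 2
    - 12 * g * iteratedDeriv 2 (gstep g (s₁ - τ) F) y
      * iteratedDeriv 3 (gstep g (s₁ - τ) F) y ^ 2
    + 6 * g ^ 2 * iteratedDeriv 2 (gstep g (s₁ - τ) F) y ^ 4) 0

/-- The Parisi functional of SK without field (`log 2` not included): `k` levels, exponents `m`,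
path `r` in variance units, inverse temperature `b`. -/
noncomputable def SKr (b : ℝ) (k : ℕ) (m r : ℕ → ℝ) : ℝ :=
  spinPart k m r + b ^ 2 / 4
    + (∑ l ∈ Finset.range (k + 1), (m (l + 1) - m l) * r l ^ 2) / (4 * b ^ 2)

/-- The same functional, as a function of the overlaps `q`. -/
noncomputable def SKpar (b : ℝ) (k : ℕ) (m q : ℕ → ℝ) : ℝ :=
  b ^ 2 / 4 * (1 + ∑ l ∈ Finset.range (k + 1), (m (l + 1) - m l) * q l ^ 2)
    + spinPart k m (fun l => b ^ 2 * q l)

end Vale.Agent.P146.Gap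
end

section

/-!
Uniform stability of the Parisi cascade under truncation.
-/

open MeasureTheory ProbabilityTheory Filter Topology Finset

namespace Vale.Agent.P157.Par

/-! ### Gaussian integrals -/

lemma clo_int_exp (t : ℝ) : ∫ z, Real.exp (t * z) ∂(gaussianReal 0 1) = Real.exp (t ^ 2 / 2) := by
  have h := congrFun (mgf_fun_id_gaussianReal (μ := 0) (v := 1)) t
  simpa [mgf] using h

lemma clo_integrable_exp_abs (a : ℝ) :
    Integrable (fun x : ℝ => Real.exp (a * |x|)) (gaussianReal 0 1) := by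
  refine Integrable.mono' ((integrable_exp_mul_gaussianReal a).add
    (integrable_exp_mul_gaussianReal (-a))) (by exact Continuous.aestronglyMeasurable (by fun_prop))
    (Filter.Eventually.of_forall fun x => ?_)
  rw [Real.norm_eq_abs, Real.abs_exp]
  simp only [Pi.add_apply]
  rcases abs_cases x with h | h
  · rw [h.1]
    linarith [Real.exp_pos (-a * x)]
  · rw [h.1]
    have : a * -x = -a * x := by ring
    rw [this]
    linarith [Real.exp_pos (a * x)]

lemma clo_integrable {h : ℝ → ℝ} (hm : Measurable h) {C a : ℝ}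
    (hb : ∀ z, |h z| ≤ C * Real.exp (a * |z|)) : Integrable h (gaussianReal 0 1) :=
  Integrable.mono' ((clo_integrable_exp_abs a).const_mul C) hm.aestronglyMeasurable
    (Filter.Eventually.of_forall fun z => by rw [Real.norm_eq_abs]; exact hb z)

lemma clo_sq_exp_le (a : ℝ) (z : ℝ) : z ^ 2 * Real.exp (a * |z|) ≤ 2 * Real.exp ((a + 1) * |z|) := by
  have h1 : z ^ 2 ≤ 2 * Real.exp |z| := by
    have h2 := Real.quadratic_le_exp_of_nonneg (abs_nonneg z)
    rw [sq_abs] at h2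
    linarith only [abs_nonneg z, h2]
  calc z ^ 2 * Real.exp (a * |z|) ≤ 2 * Real.exp |z| * Real.exp (a * |z|) := by gcongr
    _ = 2 * Real.exp ((a + 1) * |z|) := by
        rw [mul_assoc, ← Real.exp_add]
        congr 2
        ring

lemma clo_integrable_sq_exp (a : ℝ) :
    Integrable (fun z : ℝ => z ^ 2 * Real.exp (a * |z|)) (gaussianReal 0 1) :=
  clo_integrable (by fun_prop) (C := 2) (a := a + 1) fun z => by
    rw [abs_of_nonneg (by positivity)]
    exact clo_sq_exp_le a z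

lemma clo_integral_neg (h : ℝ → ℝ) :
    ∫ z, h (-z) ∂(gaussianReal 0 1) = ∫ z, h z ∂(gaussianReal 0 1) := by
  have h1 : (gaussianReal 0 1).map (fun x : ℝ => -x) = gaussianReal 0 1 := by
    rw [gaussianReal_map_neg, neg_zero]
  conv_rhs => rw [← h1]
  exact (integral_map_equiv (MeasurableEquiv.neg ℝ) h).symm

/-! ### Elementary inequalities -/

lemma clo_sinh_le (t : ℝ) : Real.sinh t ≤ t * Real.exp t := by
  rw [Real.sinh_eq]
  have h1 : -(2 * t) + 1 ≤ Real.exp (-(2 * t)) := Real.add_one_le_exp _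
  have h2 : Real.exp (-t) = Real.exp t * Real.exp (-(2 * t)) := by
    rw [← Real.exp_add]; congr 1; ring
  rw [h2]
  linarith only [mul_nonneg (sub_nonneg.2 h1) (le_of_lt (sub_pos.2 (Real.exp_pos t)))]

lemma clo_abs_sinh_le (h : ℝ) : |Real.sinh h| ≤ |h| * Real.exp |h| := by
  rw [Real.abs_sinh]
  exact clo_sinh_le |h|

lemma clo_cosh_sub_one_le (h : ℝ) : Real.cosh h - 1 ≤ h ^ 2 * Real.exp |h| := by
  have h1 : Real.cosh h = 1 + 2 * Real.sinh (|h| / 2) ^ 2 := by
    rw [← Real.cosh_abs]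
    have h2 := Real.cosh_two_mul (|h| / 2)
    have h3 := Real.cosh_sq (|h| / 2)
    rw [show 2 * (|h| / 2) = |h| by ring] at h2
    rw [h2, h3]
    ring
  have h4 := clo_sinh_le (|h| / 2)
  have h5 : 0 ≤ Real.sinh (|h| / 2) := Real.sinh_nonneg_iff.2 (by positivity)
  have h6 : Real.sinh (|h| / 2) ^ 2 ≤ (|h| / 2 * Real.exp (|h| / 2)) ^ 2 :=
    pow_le_pow_left₀ h5 h4 2
  have h7 : (|h| / 2 * Real.exp (|h| / 2)) ^ 2 = h ^ 2 / 4 * Real.exp |h| := by
    rw [mul_pow, div_pow, sq_abs, ← Real.exp_nat_mul]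
    congr 2
    · norm_num
    · push_cast; ring
  rw [h1]
  rw [h7] at h6
  have h8 : 0 ≤ h ^ 2 * Real.exp |h| := by positivity
  nlinarith only [h6]

lemma clo_exp_sub_exp_le (a b : ℝ) : Real.exp a - Real.exp b ≤ |a - b| * Real.exp (max a b) := by
  rcases le_total a b with hab | hab
  · have h1 : Real.exp a ≤ Real.exp b := Real.exp_le_exp.2 hab
    have h2 : 0 ≤ |a - b| * Real.exp (max a b) := by positivity
    linarith
  · rw [max_eq_left hab, abs_of_nonneg (by linarith)]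
    have h1 : (b - a) + 1 ≤ Real.exp (b - a) := Real.add_one_le_exp _
    have h2 : Real.exp b = Real.exp a * Real.exp (b - a) := by
      rw [← Real.exp_add]; congr 1; ring
    rw [h2]
    linarith [mul_nonneg (sub_nonneg.2 h1) (le_of_lt (sub_pos.2 (Real.exp_pos a)))]

lemma clo_abs_exp_sub_exp_le (a b : ℝ) :
    |Real.exp a - Real.exp b| ≤ |a - b| * Real.exp (max a b) := by
  rw [abs_le]
  constructor
  · have := clo_exp_sub_exp_le b a
    rw [abs_sub_comm, max_comm] at this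
    linarith
  · exact clo_exp_sub_exp_le a b

/-! ### One step -/

section step

variable {F : ℝ → ℝ} {m v : ℝ}

lemma clo_lip (hF : LipschitzWith 1 F) (x h : ℝ) : |F (x + h) - F x| ≤ |h| := by
  have h1 := hF.dist_le_mul (x + h) x
  rw [Real.dist_eq, Real.dist_eq, NNReal.coe_one, one_mul, add_sub_cancel_left] at h1
  exact h1

lemma clo_abs_sqrt_mul (v z : ℝ) : |√v * z| = √v * |z| := by
  rw [abs_mul, abs_of_nonneg (Real.sqrt_nonneg v)]

lemma clo_weight_le (hF : LipschitzWith 1 F) (hm : 0 < m) (hm1 : m ≤ 1) (x z : ℝ) :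
    Real.exp (m * F (x + √v * z)) ≤ Real.exp (m * F x) * Real.exp (√v * |z|) := by
  rw [← Real.exp_add, Real.exp_le_exp]
  have h1 := (abs_le.1 (clo_lip hF x (√v * z))).2
  rw [clo_abs_sqrt_mul] at h1
  have h2 : 0 ≤ √v * |z| := by positivity
  nlinarith only [hm, h1, hm1, h2]

lemma clo_le_weight (hF : LipschitzWith 1 F) (hm : 0 < m) (hm1 : m ≤ 1) (x z : ℝ) :
    Real.exp (m * F x) * Real.exp (-(√v * |z|)) ≤ Real.exp (m * F (x + √v * z)) := by
  rw [← Real.exp_add, Real.exp_le_exp]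
  have h1 := (abs_le.1 (clo_lip hF x (√v * z))).1
  rw [clo_abs_sqrt_mul] at h1
  have h2 : 0 ≤ √v * |z| := by positivity
  nlinarith only [hm, h1, hm1, h2]

lemma clo_meas_weight (hF : LipschitzWith 1 F) (x : ℝ) :
    Measurable fun z : ℝ => Real.exp (m * F (x + √v * z)) := by
  have := hF.continuous.measurable
  fun_prop

lemma clo_int_mul_weight (hF : LipschitzWith 1 F) (hm : 0 < m) (hm1 : m ≤ 1) (x : ℝ) {h : ℝ → ℝ}
    (hh : Measurable h) {C a : ℝ} (hC : ∀ z, |h z| ≤ C * Real.exp (a * |z|)) :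
    Integrable (fun z => h z * Real.exp (m * F (x + √v * z))) (gaussianReal 0 1) := by
  refine clo_integrable (hh.mul (clo_meas_weight hF x)) (C := C * Real.exp (m * F x))
    (a := a + √v) fun z => ?_
  rw [abs_mul, abs_of_pos (Real.exp_pos _)]
  have hC0 : 0 ≤ C * Real.exp (a * |z|) := (abs_nonneg _).trans (hC z)
  calc |h z| * Real.exp (m * F (x + √v * z)) ≤ (C * Real.exp (a * |z|)) *
        (Real.exp (m * F x) * Real.exp (√v * |z|)) :=
        mul_le_mul (hC z) (clo_weight_le hF hm hm1 x z) (Real.exp_pos _).le hC0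
    _ = C * Real.exp (m * F x) * Real.exp ((a + √v) * |z|) := by
        rw [add_mul, Real.exp_add]; ring

lemma clo_int_weight (hF : LipschitzWith 1 F) (hm : 0 < m) (hm1 : m ≤ 1) (x : ℝ) :
    Integrable (fun z => Real.exp (m * F (x + √v * z))) (gaussianReal 0 1) := by
  have := clo_int_mul_weight (v := v) hF hm hm1 x (h := fun _ => 1) measurable_const (C := 1)
    (a := 0) (fun z => by simp)
  simpa using this

lemma clo_weight_pos (hF : LipschitzWith 1 F) (hm : 0 < m) (hm1 : m ≤ 1) (x : ℝ) :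
    0 < ∫ z, Real.exp (m * F (x + √v * z)) ∂(gaussianReal 0 1) :=
  integral_exp_pos (clo_int_weight hF hm hm1 x)

/-- A cascade step preserves 1-Lipschitz functions. -/
lemma clo_gstep_lip (hF : LipschitzWith 1 F) (hm : 0 < m) (hm1 : m ≤ 1) (v : ℝ) :
    LipschitzWith 1 (gstep m v F) := by
  have key : ∀ x y, gstep m v F x ≤ gstep m v F y + |x - y| := by
    intro x y
    unfold gstep
    have h1 : ∫ z, Real.exp (m * F (x + √v * z)) ∂(gaussianReal 0 1) ≤
        Real.exp (m * |x - y|) * ∫ z, Real.exp (m * F (y + √v * z)) ∂(gaussianReal 0 1) := by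
      rw [← integral_const_mul]
      refine integral_mono (clo_int_weight hF hm hm1 x)
        ((clo_int_weight hF hm hm1 y).const_mul _) fun z => ?_
      dsimp only
      rw [← Real.exp_add, Real.exp_le_exp, ← mul_add]
      refine mul_le_mul_of_nonneg_left ?_ hm.le
      have h2 := clo_lip hF (y + √v * z) (x - y)
      rw [show y + √v * z + (x - y) = x + √v * z by ring] at h2
      linarith [(abs_le.1 h2).2]
    have h2 := Real.log_le_log (clo_weight_pos hF hm hm1 x) h1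
    rw [Real.log_mul (Real.exp_pos _).ne' (clo_weight_pos hF hm hm1 y).ne', Real.log_exp] at h2
    calc 1 / m * Real.log (∫ z, Real.exp (m * F (x + √v * z)) ∂(gaussianReal 0 1)) ≤
        1 / m * (m * |x - y| + Real.log (∫ z, Real.exp (m * F (y + √v * z))
          ∂(gaussianReal 0 1))) := by gcongr
      _ = _ := by field_simp; ring
  refine LipschitzWith.of_dist_le_mul fun x y => ?_
  rw [Real.dist_eq, Real.dist_eq, NNReal.coe_one, one_mul, abs_le]
  constructor
  · have := key y x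
    rw [abs_sub_comm] at this
    linarith
  · linarith [key x y]

/-- Jensen: the increment of a step is at most the tilted average. -/
lemma clo_gstep_sub_le {G : ℝ → ℝ} (hF : LipschitzWith 1 F) (hG : LipschitzWith 1 G) (hm : 0 < m)
    (hm1 : m ≤ 1) (x : ℝ) : gstep m v F x - gstep m v G x ≤
      (∫ z, (F (x + √v * z) - G (x + √v * z)) * Real.exp (m * F (x + √v * z))
        ∂(gaussianReal 0 1)) / ∫ z, Real.exp (m * F (x + √v * z)) ∂(gaussianReal 0 1) := by
  set P := ∫ z, Real.exp (m * F (x + √v * z)) ∂(gaussianReal 0 1) with hP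
  set Q := ∫ z, Real.exp (m * G (x + √v * z)) ∂(gaussianReal 0 1) with hQ
  set S := ∫ z, (F (x + √v * z) - G (x + √v * z)) * Real.exp (m * F (x + √v * z))
        ∂(gaussianReal 0 1) with hS
  have hPpos : 0 < P := clo_weight_pos hF hm hm1 x
  have hQpos : 0 < Q := clo_weight_pos hG hm hm1 x
  have hFm := hF.continuous.measurable
  have hGm := hG.continuous.measurable
  have hDb : ∀ z, |F (x + √v * z) - G (x + √v * z)| ≤
      (|F x - G x| + 2 * √v) * Real.exp (1 * |z|) := by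
    intro z
    have h1 := clo_lip hF x (√v * z)
    have h2 := clo_lip hG x (√v * z)
    rw [clo_abs_sqrt_mul] at h1 h2
    have h3 : |F (x + √v * z) - G (x + √v * z)| ≤ |F x - G x| + 2 * √v * |z| := by
      have h4 : F (x + √v * z) - G (x + √v * z) = (F x - G x) + ((F (x + √v * z) - F x) -
          (G (x + √v * z) - G x)) := by ring
      rw [h4]
      refine (abs_add_le _ _).trans ?_
      have := abs_sub (F (x + √v * z) - F x) (G (x + √v * z) - G x)
      linarith
    have h5 : |z| + 1 ≤ Real.exp |z| := Real.add_one_le_exp _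
    have h6 : 0 ≤ |F x - G x| := abs_nonneg _
    have h7 : 0 ≤ √v := Real.sqrt_nonneg v
    have h8 := abs_nonneg z
    rw [one_mul, add_mul]
    refine h3.trans (add_le_add ?_ ?_)
    · exact le_mul_of_one_le_right h6 (by linarith)
    · exact mul_le_mul_of_nonneg_left (by linarith) (by positivity)
  have hSint : Integrable (fun z => (F (x + √v * z) - G (x + √v * z)) *
      Real.exp (m * F (x + √v * z))) (gaussianReal 0 1) :=
    clo_int_mul_weight hF hm hm1 x (by fun_prop) hDb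
  set a := m * (S / P) with ha
  have hkey : Real.exp (-a) * P ≤ Q := by
    have h1 : ∀ z, Real.exp (-a) * ((1 + a) * Real.exp (m * F (x + √v * z)) -
        m * ((F (x + √v * z) - G (x + √v * z)) * Real.exp (m * F (x + √v * z)))) ≤
        Real.exp (m * G (x + √v * z)) := by
      intro z
      set f := F (x + √v * z)
      set g := G (x + √v * z)
      have h2 : (a - m * (f - g)) + 1 ≤ Real.exp (a - m * (f - g)) := Real.add_one_le_exp _
      calc Real.exp (-a) * ((1 + a) * Real.exp (m * f) - m * ((f - g) * Real.exp (m * f))) =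
          Real.exp (-a) * Real.exp (m * f) * ((a - m * (f - g)) + 1) := by ring
        _ ≤ Real.exp (-a) * Real.exp (m * f) * Real.exp (a - m * (f - g)) := by gcongr
        _ = Real.exp (m * g) := by
            rw [← Real.exp_add, ← Real.exp_add]
            congr 1
            ring
    have h3 := integral_mono ((((clo_int_weight hF hm hm1 x).const_mul (1 + a)).sub
      (hSint.const_mul m)).const_mul (Real.exp (-a))) (clo_int_weight (v := v) hG hm hm1 x) h1
    refine le_trans (le_of_eq ?_) h3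
    rw [integral_const_mul, integral_sub' ((clo_int_weight hF hm hm1 x).const_mul (1 + a))
      (hSint.const_mul m), integral_const_mul, integral_const_mul, ← hP, ← hS]
    have h4 : m * S = a * P := by rw [ha]; field_simp
    rw [h4]
    ring
  have h5 := Real.log_le_log (by positivity) hkey
  rw [Real.log_mul (Real.exp_pos _).ne' hPpos.ne', Real.log_exp] at h5
  unfold gstep
  rw [← hP, ← hQ, ← mul_sub]
  calc 1 / m * (Real.log P - Real.log Q) ≤ 1 / m * a := by
        refine mul_le_mul_of_nonneg_left (by linarith) (by positivity)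
    _ = S / P := by rw [ha]; field_simp

/-- The constants of the one-step estimate. -/
noncomputable def cloK (R : ℝ) : ℝ := ∫ z, z ^ 2 * Real.exp (2 * √R * |z|) ∂(gaussianReal 0 1)

noncomputable def cloc (R : ℝ) : ℝ := ∫ z, Real.exp (-√R * |z|) ∂(gaussianReal 0 1)

lemma cloK_nonneg (R : ℝ) : 0 ≤ cloK R := integral_nonneg fun z => by positivity

lemma cloc_pos (R : ℝ) : 0 < cloc R := integral_exp_pos (clo_integrable_exp_abs _)

lemma clo_int_h2_le {v R : ℝ} (hv : 0 ≤ v) (hvR : v ≤ R) :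
    ∫ z, (√v * z) ^ 2 * Real.exp (2 * (√v * |z|)) ∂(gaussianReal 0 1) ≤ v * cloK R := by
  unfold cloK
  rw [← integral_const_mul]
  refine integral_mono ?_ ((clo_integrable_sq_exp _).const_mul v) fun z => ?_
  · have := (clo_integrable_sq_exp (2 * √v)).const_mul v
    refine this.congr (Filter.Eventually.of_forall fun z => ?_)
    dsimp only
    rw [mul_pow, Real.sq_sqrt hv]
    ring_nf
  · dsimp only
    rw [mul_pow, Real.sq_sqrt hv, mul_assoc]
    have h1 : √v ≤ √R := Real.sqrt_le_sqrt hvR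
    have h2 : 2 * (√v * |z|) ≤ 2 * √R * |z| := by
      have := mul_le_mul_of_nonneg_right h1 (abs_nonneg z)
      linarith
    gcongr

/-- The tilted average of `cosh`. -/
lemma clo_tilt_cosh {v R : ℝ} (hv : 0 ≤ v) (hvR : v ≤ R) (hF : LipschitzWith 1 F) (hm : 0 < m)
    (hm1 : m ≤ 1) (x : ℝ) :
    (∫ z, Real.cosh (x + √v * z) * Real.exp (m * F (x + √v * z)) ∂(gaussianReal 0 1)) /
      (∫ z, Real.exp (m * F (x + √v * z)) ∂(gaussianReal 0 1)) ≤
      Real.cosh x * (1 + 2 * cloK R / cloc R * v) := by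
  set P := ∫ z, Real.exp (m * F (x + √v * z)) ∂(gaussianReal 0 1) with hP
  have hPpos : 0 < P := clo_weight_pos hF hm hm1 x
  set e0 := Real.exp (m * F x) with he0
  have he0pos : 0 < e0 := Real.exp_pos _
  set h : ℝ → ℝ := fun z => √v * z with hh
  set w : ℝ → ℝ := fun z => Real.exp (m * F (x + √v * z)) with hw
  have hwm : Measurable w := clo_meas_weight hF x
  have habs : ∀ z, |h z| = √v * |z| := fun z => clo_abs_sqrt_mul v z
  have hwle : ∀ z, w z ≤ e0 * Real.exp (√v * |z|) := fun z => clo_weight_le hF hm hm1 x z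
  -- growth
  have g1 : ∀ z, |Real.cosh (h z) - 1| ≤ 2 * Real.exp ((√v + √v + 1) * |z|) * (v + 1) := by
    intro z
    have h1 := clo_cosh_sub_one_le (h z)
    have h2 : 1 ≤ Real.cosh (h z) := Real.one_le_cosh _
    rw [abs_of_nonneg (by linarith)]
    refine h1.trans ?_
    rw [habs, hh]
    have h3 := clo_sq_exp_le (√v) z
    have h4 : Real.exp ((√v + 1) * |z|) ≤ Real.exp ((√v + √v + 1) * |z|) := by
      apply Real.exp_le_exp.2
      have := Real.sqrt_nonneg v
      have := abs_nonneg z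
      linarith only [mul_nonneg (Real.sqrt_nonneg v) (abs_nonneg z)]
    calc (√v * z) ^ 2 * Real.exp (√v * |z|) = v * (z ^ 2 * Real.exp (√v * |z|)) := by
          rw [mul_pow, Real.sq_sqrt hv]; ring
      _ ≤ v * (2 * Real.exp ((√v + 1) * |z|)) := by gcongr
      _ ≤ v * (2 * Real.exp ((√v + √v + 1) * |z|)) := by gcongr
      _ ≤ 2 * Real.exp ((√v + √v + 1) * |z|) * (v + 1) := by
          have := Real.exp_pos ((√v + √v + 1) * |z|)
          linarith only [this]
  have g2 : ∀ z, |Real.sinh (h z)| ≤ 1 * Real.exp (√v * |z|) := by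
    intro z
    rw [one_mul, Real.abs_sinh, Real.sinh_eq, habs]
    have h1 : Real.exp (-(√v * |z|)) ≤ Real.exp (√v * |z|) := by
      apply Real.exp_le_exp.2
      have : 0 ≤ √v * |z| := by (clear * -; positivity)
      linarith
    have h2 := Real.exp_pos (-(√v * |z|))
    linarith
  have i1 : Integrable (fun z => (Real.cosh (h z) - 1) * w z) (gaussianReal 0 1) := by
    refine clo_int_mul_weight hF hm hm1 x (by fun_prop) (C := 2 * (v + 1))
      (a := √v + √v + 1) fun z => ?_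
    refine (g1 z).trans (le_of_eq ?_)
    ring
  have i2 : Integrable (fun z => Real.sinh (h z) * w z) (gaussianReal 0 1) :=
    clo_int_mul_weight hF hm hm1 x (by fun_prop) g2
  have i0 : Integrable w (gaussianReal 0 1) := clo_int_weight hF hm hm1 x
  -- the main identity
  have e1 : ∫ z, Real.cosh (x + √v * z) * Real.exp (m * F (x + √v * z)) ∂(gaussianReal 0 1) =
      Real.cosh x * (P + ∫ z, (Real.cosh (h z) - 1) * w z ∂(gaussianReal 0 1)) +
        Real.sinh x * ∫ z, Real.sinh (h z) * w z ∂(gaussianReal 0 1) := by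
    have i01 : Integrable (fun z => Real.cosh x * (w z + (Real.cosh (h z) - 1) * w z))
        (gaussianReal 0 1) := (i0.add i1).const_mul _
    rw [hP, ← integral_add i0 i1, ← integral_const_mul, ← integral_const_mul,
      ← integral_add i01 (i2.const_mul _)]
    refine integral_congr_ae (Filter.Eventually.of_forall fun z => ?_)
    dsimp only
    rw [Real.cosh_add]
    ring
  -- the two estimates
  set K := ∫ z, (√v * z) ^ 2 * Real.exp (2 * (√v * |z|)) ∂(gaussianReal 0 1) with hK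
  have hKi : Integrable (fun z => (√v * z) ^ 2 * Real.exp (2 * (√v * |z|)))
      (gaussianReal 0 1) := by
    have := (clo_integrable_sq_exp (2 * √v)).const_mul v
    refine this.congr (Filter.Eventually.of_forall fun z => ?_)
    dsimp only
    rw [mul_pow, Real.sq_sqrt hv]
    ring_nf
  have hKle : K ≤ v * cloK R := clo_int_h2_le hv hvR
  have b1 : ∫ z, (Real.cosh (h z) - 1) * w z ∂(gaussianReal 0 1) ≤ e0 * K := by
    rw [hK, ← integral_const_mul]
    refine integral_mono i1 (hKi.const_mul e0) fun z => ?_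
    have h1 := clo_cosh_sub_one_le (h z)
    have h2 : 1 ≤ Real.cosh (h z) := Real.one_le_cosh _
    rw [habs] at h1
    calc (Real.cosh (h z) - 1) * w z ≤ (h z ^ 2 * Real.exp (√v * |z|)) *
          (e0 * Real.exp (√v * |z|)) :=
          mul_le_mul h1 (hwle z) (Real.exp_pos _).le (by (clear * -; positivity))
      _ = e0 * ((√v * z) ^ 2 * Real.exp (2 * (√v * |z|))) := by
          rw [two_mul, Real.exp_add]; ring
  have b2 : |∫ z, Real.sinh (h z) * w z ∂(gaussianReal 0 1)| ≤ e0 * K := by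
    have s1 : ∫ z, Real.sinh (h z) * w z ∂(gaussianReal 0 1) =
        -∫ z, Real.sinh (h z) * w (-z) ∂(gaussianReal 0 1) := by
      rw [← clo_integral_neg (fun z => Real.sinh (h z) * w z), ← integral_neg]
      refine integral_congr_ae (Filter.Eventually.of_forall fun z => ?_)
      simp only [hh]
      rw [mul_neg, Real.sinh_neg]
      ring
    have i3 : Integrable (fun z => Real.sinh (h z) * w (-z)) (gaussianReal 0 1) := by
      refine clo_integrable (by fun_prop) (C := e0) (a := √v + √v) fun z => ?_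
      rw [abs_mul, abs_of_pos (show 0 < w (-z) from Real.exp_pos _)]
      have h1 := hwle (-z)
      rw [abs_neg] at h1
      calc |Real.sinh (h z)| * w (-z) ≤ (1 * Real.exp (√v * |z|)) * (e0 * Real.exp (√v * |z|)) :=
            mul_le_mul (g2 z) h1 (Real.exp_pos _).le (by positivity)
        _ = e0 * Real.exp ((√v + √v) * |z|) := by rw [add_mul, Real.exp_add]; ring
    have s2 : ∫ z, Real.sinh (h z) * w z ∂(gaussianReal 0 1) =
        1 / 2 * ∫ z, Real.sinh (h z) * (w z - w (-z)) ∂(gaussianReal 0 1) := by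
      have h1 : ∫ z, Real.sinh (h z) * (w z - w (-z)) ∂(gaussianReal 0 1) =
          ∫ z, Real.sinh (h z) * w z ∂(gaussianReal 0 1) -
            ∫ z, Real.sinh (h z) * w (-z) ∂(gaussianReal 0 1) := by
        rw [← integral_sub i2 i3]
        refine integral_congr_ae (Filter.Eventually.of_forall fun z => ?_)
        ring
      rw [h1]
      linarith
    rw [s2, abs_mul, abs_of_pos (by norm_num : (0 : ℝ) < 1 / 2)]
    have s3 : |∫ z, Real.sinh (h z) * (w z - w (-z)) ∂(gaussianReal 0 1)| ≤ 2 * (e0 * K) := by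
      rw [hK, ← integral_const_mul, ← integral_const_mul, ← Real.norm_eq_abs]
      refine norm_integral_le_of_norm_le ((hKi.const_mul e0).const_mul 2)
        (Filter.Eventually.of_forall fun z => ?_)
      rw [Real.norm_eq_abs, abs_mul]
      have h1 := clo_abs_sinh_le (h z)
      rw [habs] at h1
      have h2 : |w z - w (-z)| ≤ 2 * (√v * |z|) * (e0 * Real.exp (√v * |z|)) := by
        have h3 := clo_abs_exp_sub_exp_le (m * F (x + √v * z)) (m * F (x + √v * -z))
        have h4 := clo_lip hF x (√v * z)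
        have h5 := clo_lip hF x (√v * -z)
        rw [clo_abs_sqrt_mul] at h4 h5
        rw [abs_neg] at h5
        have h6 : |m * F (x + √v * z) - m * F (x + √v * -z)| ≤ 2 * (√v * |z|) := by
          rw [← mul_sub, abs_mul, abs_of_pos hm]
          have h7 : |F (x + √v * z) - F (x + √v * -z)| ≤ 2 * (√v * |z|) := by
            have := abs_sub (F (x + √v * z) - F x) (F (x + √v * -z) - F x)
            rw [sub_sub_sub_cancel_right] at this
            linarith only [this, h5, h4]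
          calc m * |F (x + √v * z) - F (x + √v * -z)| ≤
              1 * |F (x + √v * z) - F (x + √v * -z)| := by gcongr
            _ ≤ _ := by rw [one_mul]; exact h7
        have h8 : Real.exp (max (m * F (x + √v * z)) (m * F (x + √v * -z))) ≤
            e0 * Real.exp (√v * |z|) := by
          have h9 := hwle z
          have h10 := hwle (-z)
          rw [abs_neg] at h10
          rcases max_cases (m * F (x + √v * z)) (m * F (x + √v * -z)) with hc | hc
          · rw [hc.1]; exact h9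
          · rw [hc.1]; exact h10
        exact h3.trans (mul_le_mul h6 h8 (Real.exp_pos _).le (by (clear * -; positivity)))
      calc |Real.sinh (h z)| * |w z - w (-z)| ≤ (√v * |z| * Real.exp (√v * |z|)) *
            (2 * (√v * |z|) * (e0 * Real.exp (√v * |z|))) :=
            mul_le_mul h1 h2 (abs_nonneg _) (by (clear * -; positivity))
        _ = 2 * (e0 * ((√v * |z|) ^ 2 * (Real.exp (√v * |z|) * Real.exp (√v * |z|)))) := by ring
        _ = 2 * (e0 * ((√v * z) ^ 2 * Real.exp (2 * (√v * |z|)))) := by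
            rw [← Real.exp_add, ← two_mul, mul_pow, sq_abs, ← mul_pow]
    linarith only [s3]
  have b3 : e0 * cloc R ≤ P := by
    unfold cloc
    rw [← integral_const_mul]
    refine integral_mono ((clo_integrable_exp_abs _).const_mul _) i0 fun z => ?_
    refine le_trans ?_ (clo_le_weight hF hm hm1 x z)
    dsimp only
    have h1 : √v ≤ √R := Real.sqrt_le_sqrt hvR
    have h2 : -√R * |z| ≤ -(√v * |z|) := by
      have := mul_le_mul_of_nonneg_right h1 (abs_nonneg z)
      linarith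
    gcongr
  have hcpos := cloc_pos R
  have hK0 : 0 ≤ K := integral_nonneg fun z => by (clear * -; positivity)
  rw [e1, div_le_iff₀ hPpos]
  have hcosh : 1 ≤ Real.cosh x := Real.one_le_cosh x
  have hsinh : |Real.sinh x| ≤ Real.cosh x := by
    rw [Real.abs_sinh, Real.sinh_eq, ← Real.cosh_abs, Real.cosh_eq]
    have := Real.exp_pos (-|x|)
    linarith only [this]
  have b4 : Real.sinh x * ∫ z, Real.sinh (h z) * w z ∂(gaussianReal 0 1) ≤
      Real.cosh x * (e0 * K) := by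
    refine (le_abs_self _).trans ?_
    rw [abs_mul]
    exact mul_le_mul hsinh b2 (abs_nonneg _) (by linarith)
  have b5 : e0 * K ≤ P * (cloK R / cloc R * v) := by
    have h1 : e0 ≤ P / cloc R := by
      rw [le_div_iff₀ hcpos]; exact b3
    calc e0 * K ≤ P / cloc R * (v * cloK R) := by
          exact mul_le_mul h1 hKle hK0 (by positivity)
      _ = P * (cloK R / cloc R * v) := by ring
  have b6 : Real.cosh x * (P + ∫ z, (Real.cosh (h z) - 1) * w z ∂(gaussianReal 0 1)) ≤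
      Real.cosh x * (P + e0 * K) := by gcongr
  have b7 : Real.cosh x * (e0 * K) ≤ Real.cosh x * (P * (cloK R / cloc R * v)) := by gcongr
  calc _ ≤ Real.cosh x * (P + e0 * K) + Real.cosh x * (e0 * K) := add_le_add b6 b4
    _ = Real.cosh x * P + 2 * (Real.cosh x * (e0 * K)) := by ring
    _ ≤ Real.cosh x * P + 2 * (Real.cosh x * (P * (cloK R / cloc R * v))) := by linarith only [b7]
    _ = Real.cosh x * (1 + 2 * cloK R / cloc R * v) * P := by ring

/-- One step of the cascade is stable. -/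
lemma clo_step {G : ℝ → ℝ} {v R κ : ℝ} (hv : 0 ≤ v) (hvR : v ≤ R) (hF : LipschitzWith 1 F)
    (hG : LipschitzWith 1 G) (hm : 0 < m) (hm1 : m ≤ 1) (hκ : 0 ≤ κ)
    (hFG : ∀ x, |F x - G x| ≤ κ * Real.cosh x) (x : ℝ) :
    |gstep m v F x - gstep m v G x| ≤ κ * (1 + 2 * cloK R / cloc R * v) * Real.cosh x := by
  have key : ∀ {F G : ℝ → ℝ}, LipschitzWith 1 F → LipschitzWith 1 G →
      (∀ x, |F x - G x| ≤ κ * Real.cosh x) →
      gstep m v F x - gstep m v G x ≤ κ * (1 + 2 * cloK R / cloc R * v) * Real.cosh x := by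
    intro F G hF hG hFG
    refine (clo_gstep_sub_le hF hG hm hm1 x).trans ?_
    have h1 := clo_tilt_cosh hv hvR hF hm hm1 x
    have hP := clo_weight_pos (v := v) hF hm hm1 x
    have hFm := hF.continuous.measurable
    have hGm := hG.continuous.measurable
    have hcb : ∀ z, |Real.cosh (x + √v * z)| ≤ Real.exp |x| * Real.exp (√v * |z|) := by
      intro z
      rw [abs_of_pos (Real.cosh_pos _), ← Real.exp_add, ← Real.cosh_abs, Real.cosh_eq]
      have h2 : |x + √v * z| ≤ |x| + √v * |z| := by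
        refine (abs_add_le _ _).trans ?_
        rw [clo_abs_sqrt_mul]
      have h3 : Real.exp |x + √v * z| ≤ Real.exp (|x| + √v * |z|) := Real.exp_le_exp.2 h2
      have h4 : Real.exp (-|x + √v * z|) ≤ Real.exp |x + √v * z| := by
        apply Real.exp_le_exp.2
        have := abs_nonneg (x + √v * z)
        linarith only [this]
      linarith only [h3, h4]
    have i1 : Integrable (fun z => Real.cosh (x + √v * z) * Real.exp (m * F (x + √v * z)))
        (gaussianReal 0 1) := clo_int_mul_weight hF hm hm1 x (by fun_prop) hcb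
    have i2 : Integrable (fun z => (F (x + √v * z) - G (x + √v * z)) *
        Real.exp (m * F (x + √v * z))) (gaussianReal 0 1) := by
      refine clo_int_mul_weight hF hm hm1 x (by fun_prop) (C := κ * Real.exp |x|) (a := √v)
        fun z => (hFG _).trans ?_
      rw [mul_assoc]
      exact mul_le_mul_of_nonneg_left ((le_abs_self _).trans (hcb z)) hκ
    have h2 : ∫ z, (F (x + √v * z) - G (x + √v * z)) * Real.exp (m * F (x + √v * z))
        ∂(gaussianReal 0 1) ≤
        κ * ∫ z, Real.cosh (x + √v * z) * Real.exp (m * F (x + √v * z)) ∂(gaussianReal 0 1) := by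
      rw [← integral_const_mul]
      refine integral_mono i2 (i1.const_mul κ) fun z => ?_
      dsimp only
      rw [← mul_assoc]
      exact mul_le_mul_of_nonneg_right ((le_abs_self _).trans (hFG _)) (Real.exp_pos _).le
    calc _ ≤ (κ * ∫ z, Real.cosh (x + √v * z) * Real.exp (m * F (x + √v * z))
          ∂(gaussianReal 0 1)) / ∫ z, Real.exp (m * F (x + √v * z)) ∂(gaussianReal 0 1) :=
          div_le_div_of_nonneg_right h2 hP.le
      _ = κ * ((∫ z, Real.cosh (x + √v * z) * Real.exp (m * F (x + √v * z))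
          ∂(gaussianReal 0 1)) / ∫ z, Real.exp (m * F (x + √v * z)) ∂(gaussianReal 0 1)) := by
          rw [mul_div_assoc]
      _ ≤ κ * (Real.cosh x * (1 + 2 * cloK R / cloc R * v)) := by gcongr
      _ = _ := by ring
  rw [abs_le]
  constructor
  · have := key hG hF fun x => by rw [abs_sub_comm]; exact hFG x
    linarith only [this]
  · exact key hF hG hFG

end step

/-! ### Uniform truncation -/

/-- The cascade is Lipschitz, with a constant depending only on the total variance. -/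
theorem cascade_close : ∃ C : ℝ → ℝ, ∀ (R : ℝ) (k : ℕ) (m q : ℕ → ℝ) (F G : ℝ → ℝ) (κ : ℝ),
    (∀ l, 1 ≤ l → l ≤ k → 0 < m l ∧ m l ≤ 1) → (∀ l < k, q l ≤ q (l + 1)) → q k - q 0 ≤ R →
    LipschitzWith 1 F → LipschitzWith 1 G → 0 ≤ κ → (∀ x, |F x - G x| ≤ κ * Real.cosh x) →
    ∀ x, |cascade m q k F x - cascade m q k G x| ≤ κ * C R * Real.cosh x := by
  refine ⟨fun R => Real.exp (2 * cloK R / cloc R * R), fun R k m q F G κ hm hq hR hF hG hκ hFG => ?_⟩
  set A := 2 * cloK R / cloc R with hA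
  have hA0 : 0 ≤ A := div_nonneg (mul_nonneg (by norm_num) (cloK_nonneg R)) (cloc_pos R).le
  have hmono : ∀ a b, a ≤ b → b ≤ k → q a ≤ q b := by
    intro a b hab hb
    induction b, hab using Nat.le_induction with
    | base => exact le_rfl
    | succ b hab ih => exact (ih (by omega)).trans (hq b (by omega))
  -- the precise induction
  have key : ∀ (j : ℕ) (F G : ℝ → ℝ) (κ : ℝ), j ≤ k → LipschitzWith 1 F → LipschitzWith 1 G →
      0 ≤ κ → (∀ x, |F x - G x| ≤ κ * Real.cosh x) →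
      ∀ x, |cascade m q j F x - cascade m q j G x| ≤
        κ * Real.exp (A * (q j - q 0)) * Real.cosh x := by
    intro j
    induction j with
    | zero =>
      intro F G κ _ _ _ _ hFG x
      simpa [cascade] using hFG x
    | succ j ih =>
      intro F G κ hj hF hG hκ hFG x
      obtain ⟨hm0, hm1⟩ := hm (j + 1) (by omega) hj
      have hv : 0 ≤ q (j + 1) - q j := sub_nonneg.2 (hq j (by omega))
      have hvR : q (j + 1) - q j ≤ R := by
        have h1 := hmono 0 j (Nat.zero_le _) (by omega)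
        have h2 := hmono (j + 1) k hj le_rfl
        linarith only [h2, h1, hR]
      have h1 := clo_step hv hvR hF hG hm0 hm1 hκ hFG
      rw [← hA] at h1
      have h2 := ih _ _ (κ * (1 + A * (q (j + 1) - q j))) (by omega) (clo_gstep_lip hF hm0 hm1 _)
        (clo_gstep_lip hG hm0 hm1 _) (by (clear * - hκ hA0 hv; positivity)) h1 x
      change |cascade m q j (gstep (m (j + 1)) (q (j + 1) - q j) F) x -
        cascade m q j (gstep (m (j + 1)) (q (j + 1) - q j) G) x| ≤ _
      refine h2.trans ?_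
      have h3 : A * (q (j + 1) - q j) + 1 ≤ Real.exp (A * (q (j + 1) - q j)) :=
        Real.add_one_le_exp _
      have h4 : Real.exp (A * (q (j + 1) - q 0)) =
          Real.exp (A * (q (j + 1) - q j)) * Real.exp (A * (q j - q 0)) := by
        rw [← Real.exp_add]; congr 1; ring
      rw [h4]
      have hc := Real.cosh_pos x
      calc κ * (1 + A * (q (j + 1) - q j)) * Real.exp (A * (q j - q 0)) * Real.cosh x ≤
          κ * Real.exp (A * (q (j + 1) - q j)) * Real.exp (A * (q j - q 0)) * Real.cosh x := by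
            gcongr
            linarith only [h3]
        _ = _ := by ring
  intro x
  refine (key k F G κ le_rfl hF hG hκ hFG x).trans ?_
  have hc := Real.cosh_pos x
  have hfin : Real.exp (A * (q k - q 0)) ≤ Real.exp (A * R) :=
    Real.exp_le_exp.2 (mul_le_mul_of_nonneg_left hR hA0)
  exact mul_le_mul_of_nonneg_right (mul_le_mul_of_nonneg_left hfin hκ) hc.le

lemma clo_gstep_add_const {m v : ℝ} (hm : 0 < m) (hv : 0 ≤ v) (c x : ℝ) :
    gstep m v (fun x => x + c) x = x + (c + 1 / 2 * (m * v)) := by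
  unfold gstep
  have h1 : ∀ z : ℝ, Real.exp (m * (x + √v * z + c)) =
      Real.exp (m * (x + c)) * Real.exp (m * √v * z) := by
    intro z
    rw [← Real.exp_add]
    congr 1
    ring
  simp only [h1]
  rw [integral_const_mul, clo_int_exp, ← Real.exp_add, Real.log_exp, mul_pow, Real.sq_sqrt hv]
  field_simp
  ring

theorem cascade_id {m q : ℕ → ℝ} {k : ℕ} (hm : ∀ l, 1 ≤ l → l ≤ k → 0 < m l)
    (hq : ∀ l < k, q l ≤ q (l + 1)) (x : ℝ) :
    cascade m q k (fun x => x) x =
      x + 1 / 2 * ∑ l ∈ Finset.range k, m (l + 1) * (q (l + 1) - q l) := by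
  have key : ∀ (j : ℕ) (c : ℝ), j ≤ k → cascade m q j (fun x => x + c) x =
      x + c + 1 / 2 * ∑ l ∈ Finset.range j, m (l + 1) * (q (l + 1) - q l) := by
    intro j
    induction j with
    | zero => intro c _; simp [cascade]
    | succ j ih =>
      intro c hj
      have h1 : gstep (m (j + 1)) (q (j + 1) - q j) (fun x => x + c) =
          fun x => x + (c + 1 / 2 * (m (j + 1) * (q (j + 1) - q j))) :=
        funext (clo_gstep_add_const (hm (j + 1) (by omega) hj)
          (sub_nonneg.2 (hq j (by omega))) c)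
      change cascade m q j (gstep (m (j + 1)) (q (j + 1) - q j) (fun x => x + c)) x = _
      rw [h1, ih _ (by omega), Finset.sum_range_succ]
      ring
  have := key k 0 le_rfl
  simpa using this

theorem gstep_one_logcosh {τ : ℝ} (hτ : 0 ≤ τ) (x : ℝ) :
    gstep 1 τ (fun x => Real.log (Real.cosh x)) x = Real.log (Real.cosh x) + τ / 2 := by
  unfold gstep
  have h1 : ∀ z : ℝ, Real.exp (1 * Real.log (Real.cosh (x + √τ * z))) =
      Real.exp x / 2 * Real.exp (√τ * z) + Real.exp (-x) / 2 * Real.exp (-√τ * z) := by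
    intro z
    rw [one_mul, Real.exp_log (Real.cosh_pos _), Real.cosh_eq, neg_add, Real.exp_add,
      Real.exp_add]
    rw [show -(√τ * z) = -√τ * z by ring]
    ring
  simp only [h1]
  rw [integral_add ((integrable_exp_mul_gaussianReal _).const_mul _)
    ((integrable_exp_mul_gaussianReal _).const_mul _), integral_const_mul, integral_const_mul,
    clo_int_exp, clo_int_exp, neg_sq, Real.sq_sqrt hτ, ← add_mul]
  have h2 : Real.exp x / 2 + Real.exp (-x) / 2 = Real.cosh x := by rw [Real.cosh_eq]; ring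
  rw [h2, Real.log_mul (Real.cosh_pos x).ne' (Real.exp_pos _).ne', Real.log_exp]
  ring

theorem gstep_one_id {τ : ℝ} (hτ : 0 ≤ τ) (x : ℝ) : gstep 1 τ (fun x => x) x = x + τ / 2 := by
  have h := clo_gstep_add_const (m := 1) one_pos hτ 0 x
  simp only [add_zero, zero_add, one_mul] at h
  rw [h]
  ring

end Vale.Agent.P157.Par
end

section

/-!
# P146 / Gap: the invariant class `Good`, consequences on the half line
-/

open MeasureTheory ProbabilityTheory Filter Topology Set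

namespace Vale.Agent.P146.Gap

open Vale.Agent.P157.Par

namespace GoodX

variable {C g g' : ℝ} {F : ℝ → ℝ}

theorem good_hd (h : ContDiff ℝ (⊤ : ℕ∞) F) (j : ℕ) (x : ℝ) :
    HasDerivAt (iteratedDeriv j F) (iteratedDeriv (j + 1) F x) x := by
  have h1 : Differentiable ℝ (iteratedDeriv j F) :=
    h.differentiable_iteratedDeriv j (by exact_mod_cast WithTop.coe_lt_top _)
  rw [iteratedDeriv_succ]
  exact (h1 x).hasDerivAt

/-- odd derivatives of even functions vanish at `0` -/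
theorem good_odd (h : ∀ x, F (-x) = F x) {j : ℕ} (hj : Odd j) : iteratedDeriv j F 0 = 0 := by
  have h1 := iteratedDeriv_comp_neg j F 0
  have h2 : (fun x => F (-x)) = F := funext h
  rw [h2, hj.neg_one_pow, neg_zero] at h1
  simp only [neg_smul, one_smul] at h1
  linarith

/-- a function vanishing at `0` with a nonnegative derivative on the half line -/
theorem good_mono {φ φ' : ℝ → ℝ} (h : ∀ x, HasDerivAt φ (φ' x) x) (h0 : φ 0 = 0)
    (hp : ∀ x, 0 ≤ x → 0 ≤ φ' x) {x : ℝ} (hx : 0 ≤ x) : 0 ≤ φ x := by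
  have h1 : MonotoneOn φ (Ici 0) := by
    refine monotoneOn_of_deriv_nonneg (convex_Ici 0)
      (fun y _ => (h y).continuousAt.continuousWithinAt)
      (fun y _ => (h y).differentiableAt.differentiableWithinAt) (fun y hy => ?_)
    rw [(h y).deriv]
    rw [interior_Ici] at hy
    exact hp y hy.le
  rw [← h0]
  exact h1 (mem_Ici.2 le_rfl) (mem_Ici.2 hx) hx

/-! ### log cosh -/

theorem good_tanh (x : ℝ) : HasDerivAt Real.tanh (1 - Real.tanh x ^ 2) x := by
  have h1 := (Real.hasDerivAt_sinh x).div (Real.hasDerivAt_cosh x) (Real.cosh_pos x).ne'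
  have h2 : (Real.sinh / Real.cosh : ℝ → ℝ) = Real.tanh := by
    funext y
    rw [Pi.div_apply, Real.tanh_eq_sinh_div_cosh]
  rw [h2] at h1
  refine h1.congr_deriv ?_
  rw [Real.tanh_eq_sinh_div_cosh]
  have := (Real.cosh_pos x).ne'
  field_simp

theorem good_lc1 : iteratedDeriv 1 lc = Real.tanh := by
  rw [iteratedDeriv_one]
  funext x
  have h : HasDerivAt lc (Real.sinh x / Real.cosh x) x :=
    (Real.hasDerivAt_cosh x).log (Real.cosh_pos x).ne'
  rw [h.deriv, Real.tanh_eq_sinh_div_cosh]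

theorem good_lc2 : iteratedDeriv 2 lc = fun x => 1 - Real.tanh x ^ 2 := by
  rw [iteratedDeriv_succ, good_lc1]
  funext x
  exact (good_tanh x).deriv

theorem good_lc3 : iteratedDeriv 3 lc =
    fun x => -(2 * Real.tanh x) * (1 - Real.tanh x ^ 2) := by
  rw [iteratedDeriv_succ, good_lc2]
  funext x
  have h := ((good_tanh x).pow 2).const_sub 1
  refine (h.congr_deriv ?_).deriv
  push_cast
  ring

theorem good_lc4 : iteratedDeriv 4 lc =
    fun x => (6 * Real.tanh x ^ 2 - 2) * (1 - Real.tanh x ^ 2) := by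
  rw [iteratedDeriv_succ, good_lc3]
  funext x
  have h := (((good_tanh x).const_mul 2).neg).mul (((good_tanh x).pow 2).const_sub 1)
  refine (h.congr_deriv ?_).deriv
  simp only [Pi.neg_apply, Pi.pow_apply]
  push_cast
  ring

theorem good_lc5 : iteratedDeriv 5 lc =
    fun x => (16 * Real.tanh x - 24 * Real.tanh x ^ 3) * (1 - Real.tanh x ^ 2) := by
  rw [iteratedDeriv_succ, good_lc4]
  funext x
  have h := ((((good_tanh x).pow 2).const_mul 6).sub_const 2).mul
    (((good_tanh x).pow 2).const_sub 1)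
  refine (h.congr_deriv ?_).deriv
  simp only [Pi.pow_apply]
  push_cast
  ring

theorem good_lc_pos (x : ℝ) : 0 < 1 - Real.tanh x ^ 2 := by
  have := Real.tanh_sq_lt_one x
  linarith

theorem good_bet_lc (x : ℝ) : bet 1 lc x = 0 := by
  have h := (good_lc_pos x).ne'
  unfold bet
  rw [good_lc2, good_lc3, good_lc4]
  simp only
  field_simp
  ring

theorem good_betp_lc (x : ℝ) : betp 1 lc x = 0 := by
  have h := (good_lc_pos x).ne'
  unfold betp
  rw [good_lc2, good_lc3, good_lc4, good_lc5]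
  simp only
  field_simp
  ring

end GoodX

section GOOD

open GoodX

variable {C g g' : ℝ} {F : ℝ → ℝ}

/-- `Y' = A + β`. -/
theorem Good.Yf_hasDerivAt (h : Adm C F) (g x : ℝ) :
    HasDerivAt (Yf g F) (g * iteratedDeriv 2 F x + bet g F x) x := by
  have h2 := (h.pos x).ne'
  have h3 := ((good_hd h.smb.smooth 3 x).div (good_hd h.smb.smooth 2 x) h2).neg.sub
    ((good_hd h.smb.smooth 1 x).const_mul g)
  refine h3.congr_deriv ?_
  unfold bet
  field_simp
  ring

theorem Good.D_hasDerivAt (h : Adm C F) (g x : ℝ) :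
    HasDerivAt (fun x => -(iteratedDeriv 3 F x / iteratedDeriv 2 F x) / 2
      - g * iteratedDeriv 1 F x) (bet g F x / 2) x := by
  have h2 := (h.pos x).ne'
  have h3 := (((good_hd h.smb.smooth 3 x).div (good_hd h.smb.smooth 2 x) h2).neg.div_const 2).sub
    ((good_hd h.smb.smooth 1 x).const_mul g)
  refine h3.congr_deriv ?_
  unfold bet
  field_simp
  ring

/-- `D = -(log F'')'/2 - g F' ≥ 0` on the half line. -/
theorem Good.D_nonneg (h : Good g C F) {x : ℝ} (hx : 0 ≤ x) :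
    0 ≤ -(iteratedDeriv 3 F x / iteratedDeriv 2 F x) / 2 - g * iteratedDeriv 1 F x := by
  refine good_mono (fun x => Good.D_hasDerivAt h.adm g x) ?_
    (fun y _ => div_nonneg (h.bet_nonneg y) (by norm_num)) hx
  rw [good_odd h.adm.even (j := 3) (by decide), good_odd h.adm.even (j := 1) (by decide)]
  simp

theorem Good.d1_nonneg (h : Good g C F) {x : ℝ} (hx : 0 ≤ x) : 0 ≤ iteratedDeriv 1 F x :=
  good_mono (fun x => good_hd h.adm.smb.smooth 1 x) (good_odd h.adm.even (j := 1) (by decide))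
    (fun y _ => (h.adm.pos y).le) hx

theorem Good.Yf_nonneg (h : Good g C F) (hg : 0 < g) {x : ℝ} (hx : 0 ≤ x) : 0 ≤ Yf g F x := by
  refine good_mono (fun x => Good.Yf_hasDerivAt h.adm g x) ?_
    (fun y _ => add_nonneg (mul_nonneg hg.le (h.adm.pos y).le) (h.bet_nonneg y)) hx
  unfold Yf
  rw [good_odd h.adm.even (j := 3) (by decide), good_odd h.adm.even (j := 1) (by decide)]
  simp

theorem Good.d3_nonpos (h : Good g C F) (hg : 0 < g) {x : ℝ} (hx : 0 ≤ x) :
    iteratedDeriv 3 F x ≤ 0 := by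
  have h1 := h.Yf_nonneg hg hx
  have h2 := h.d1_nonneg hx
  have h3 := h.adm.pos x
  unfold Yf at h1
  have h4 : iteratedDeriv 3 F x / iteratedDeriv 2 F x ≤ 0 := by
    have := mul_nonneg hg.le h2
    linarith
  by_contra hc
  rw [not_le] at hc
  have := div_pos hc h3
  linarith

theorem Good.x_mul_d2_le (h : Good g C F) (hg : 0 < g) {x : ℝ} (hx : 0 ≤ x) :
    x * iteratedDeriv 2 F x ≤ iteratedDeriv 1 F x := by
  have hd : ∀ y, HasDerivAt (fun y => iteratedDeriv 1 F y - y * iteratedDeriv 2 F y)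
      (-(y * iteratedDeriv 3 F y)) y := by
    intro y
    have h1 := (good_hd h.adm.smb.smooth 1 y).sub
      ((hasDerivAt_id y).mul (good_hd h.adm.smb.smooth 2 y))
    refine h1.congr_deriv ?_
    simp only [id]
    ring
  have := good_mono hd (by
      rw [good_odd h.adm.even (j := 1) (by decide)]; simp)
    (fun y hy => by
      have := h.d3_nonpos hg hy
      linarith only [mul_nonneg (sub_nonneg.2 hy) (sub_nonneg.2 this)]) hx
  linarith

theorem Good.lower (h : Good g C F) (hg' : 0 < g') (hgg : g' ≤ g) : Good g' C F := by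
  have e1 : ∀ x, bet g' F x = bet g F x + 2 * (g - g') * iteratedDeriv 2 F x := fun x => by
    unfold bet; ring
  have e2 : ∀ x, betp g' F x = betp g F x + 2 * (g - g') * iteratedDeriv 3 F x := fun x => by
    unfold betp; ring
  have e3 : ∀ x, Yf g' F x = Yf g F x + (g - g') * iteratedDeriv 1 F x := fun x => by
    unfold Yf; ring
  have hd : 0 ≤ g - g' := sub_nonneg.2 hgg
  have hg : 0 < g := hg'.trans_le hgg
  refine ⟨h.adm, fun x => ?_, fun x hx => ?_⟩
  · rw [e1]
    have h1 := h.bet_nonneg x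
    have h2 := (h.adm.pos x).le
    (clear * - h1 hgg h2; positivity)
  · rw [e1, e2, e3]
    have h1 := h.betp_le x hx
    have h2 := h.bet_nonneg x
    have h3 := (h.adm.pos x).le
    have h4 := h.d1_nonneg hx
    have h5 := h.Yf_nonneg hg hx
    have h6 := h.d3_nonpos hg hx
    have a1 : (g - g') * iteratedDeriv 3 F x ≤ 0 := mul_nonpos_of_nonneg_of_nonpos hd h6
    have a2 : 0 ≤ Yf g F x * ((g - g') * iteratedDeriv 2 F x) := by (clear * - h5 hgg h3; positivity)
    have a3 : 0 ≤ ((g - g') * iteratedDeriv 1 F x) * bet g F x := by (clear * - hgg h4 h2; positivity)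
    have a4 : 0 ≤ ((g - g') * iteratedDeriv 1 F x) * ((g - g') * iteratedDeriv 2 F x) := by
      (clear * - hgg h4 h3; positivity)
    have e : (Yf g F x + (g - g') * iteratedDeriv 1 F x) *
        (bet g F x + 2 * (g - g') * iteratedDeriv 2 F x) =
        Yf g F x * bet g F x + 2 * (Yf g F x * ((g - g') * iteratedDeriv 2 F x)) +
        ((g - g') * iteratedDeriv 1 F x) * bet g F x +
        2 * (((g - g') * iteratedDeriv 1 F x) * ((g - g') * iteratedDeriv 2 F x)) := by ring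
    rw [e]
    linarith only [a4, a3, a2, a1, h1]

end GOOD

end Vale.Agent.P146.Gap
end

section

/-!
# P146, no-gap theorem: parabolic maximum principle on the line and on the half line
-/

open MeasureTheory ProbabilityTheory Filter Topology Set

namespace Vale.Agent.P146.Gap

/-- one-sided first order condition. -/
theorem maxp_left {f : ℝ → ℝ} {f' s₁ s₀ : ℝ} (h0 : s₀ < s₁) (hf : HasDerivAt f f' s₁)
    (hmin : ∀ s ∈ Ioo s₀ s₁, f s₁ ≤ f s) : f' ≤ 0 := by
  have h1 := (hasDerivAt_iff_tendsto_slope.1 hf).mono_left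
    (nhdsWithin_mono s₁ (fun x (hx : x ∈ Iio s₁) => (ne_of_lt hx : x ≠ s₁)))
  refine le_of_tendsto h1 ?_
  filter_upwards [Ioo_mem_nhdsLT h0] with s hs
  rw [slope_def_field]
  exact div_nonpos_of_nonneg_of_nonpos (sub_nonneg.2 (hmin s hs)) (by linarith [hs.2])

/-- second order condition at a minimum. -/
theorem maxp_second {f f' : ℝ → ℝ} {f'' x₁ lo hi : ℝ} (h0 : lo < x₁) (h1 : x₁ < hi)
    (hf : ∀ x ∈ Ioo lo hi, HasDerivAt f (f' x) x) (hf' : HasDerivAt f' f'' x₁)
    (hmin : ∀ x ∈ Ioo lo hi, f x₁ ≤ f x) : f' x₁ = 0 ∧ 0 ≤ f'' := by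
  have hz : f' x₁ = 0 := by
    have hl : IsLocalMin f x₁ := by
      filter_upwards [Ioo_mem_nhds h0 h1] with x hx
      exact hmin x hx
    exact hl.hasDerivAt_eq_zero (hf x₁ ⟨h0, h1⟩)
  refine ⟨hz, ?_⟩
  by_contra hneg
  push Not at hneg
  have h2 := (hasDerivAt_iff_tendsto_slope.1 hf').mono_left
    (nhdsWithin_mono x₁ (fun x (hx : x ∈ Ioi x₁) => (ne_of_gt hx : x ≠ x₁)))
  have h3 : ∀ᶠ x in 𝓝[>] x₁, slope f' x₁ x < 0 := h2.eventually (gt_mem_nhds hneg)
  obtain ⟨u, hu, hu'⟩ := mem_nhdsGT_iff_exists_Ioo_subset.1 (h3.and (Ioo_mem_nhdsGT h1))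
  have hu0 : x₁ < u := hu
  have hsub : ∀ x ∈ Ioo x₁ u, f' x < 0 ∧ x < hi := by
    intro x hx
    obtain ⟨h4, h5⟩ := hu' hx
    refine ⟨?_, h5.2⟩
    rw [slope_def_field, hz, sub_zero] at h4
    have h6 : 0 < x - x₁ := by linarith [hx.1]
    by_contra h7
    push Not at h7
    exact absurd (div_nonneg h7 h6.le) (not_le.2 h4)
  set m := (x₁ + u) / 2 with hm
  have hm1 : x₁ < m := by rw [hm]; linarith
  have hm2 : m < u := by rw [hm]; linarith only [hm1, hm]
  have hcont : ContinuousOn f (Icc x₁ m) := by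
    intro x hx
    have : x ∈ Ioo lo hi := by
      refine ⟨lt_of_lt_of_le h0 hx.1, ?_⟩
      rcases eq_or_lt_of_le hx.1 with h | h
      · rw [← h]; exact h1
      · exact (hsub x ⟨h, lt_of_le_of_lt hx.2 hm2⟩).2
    exact (hf x this).continuousAt.continuousWithinAt
  have hanti : StrictAntiOn f (Icc x₁ m) := by
    refine strictAntiOn_of_deriv_neg (convex_Icc _ _) hcont ?_
    intro x hx
    rw [interior_Icc] at hx
    have hx' : x ∈ Ioo x₁ u := ⟨hx.1, hx.2.trans hm2⟩
    rw [(hf x ⟨h0.trans hx.1, (hsub x hx').2⟩).deriv]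
    exact (hsub x hx').1
  have h8 : f m < f x₁ := hanti (left_mem_Icc.2 hm1.le) (right_mem_Icc.2 hm1.le) hm1
  have h9 := hmin m ⟨h0.trans hm1, (hsub m ⟨hm1, hm2⟩).2⟩
  linarith

/-- the maximum principle on a rectangle. -/
theorem maxp_rect {T lo hi : ℝ} {v vs vx vxx b c : ℝ → ℝ → ℝ}
    (hv : ContinuousOn (fun p : ℝ × ℝ => v p.1 p.2) (Icc 0 T ×ˢ Icc lo hi))
    (hs : ∀ s ∈ Ioc 0 T, ∀ x ∈ Ioo lo hi, HasDerivAt (fun s => v s x) (vs s x) s)
    (hx : ∀ s ∈ Ioc 0 T, ∀ x ∈ Ioo lo hi, HasDerivAt (v s) (vx s x) x)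
    (hxx : ∀ s ∈ Ioc 0 T, ∀ x ∈ Ioo lo hi, HasDerivAt (vx s) (vxx s x) x)
    (hc : ∀ s ∈ Ioc 0 T, ∀ x ∈ Ioo lo hi, c s x ≤ 0)
    (hpde : ∀ s ∈ Ioc 0 T, ∀ x ∈ Ioo lo hi,
      1 / 2 * vxx s x + b s x * vx s x + c s x * v s x < vs s x)
    (h0 : ∀ x ∈ Icc lo hi, 0 ≤ v 0 x) (hlo : ∀ s ∈ Icc 0 T, 0 ≤ v s lo)
    (hhi : ∀ s ∈ Icc 0 T, 0 ≤ v s hi) : ∀ s ∈ Icc 0 T, ∀ x ∈ Icc lo hi, 0 ≤ v s x := by
  intro s hsT x hxI
  have hne : (Icc 0 T ×ˢ Icc lo hi : Set (ℝ × ℝ)).Nonempty := ⟨(s, x), hsT, hxI⟩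
  obtain ⟨⟨s₁, x₁⟩, ⟨h1, h2⟩, hmin⟩ :=
    (isCompact_Icc.prod isCompact_Icc).exists_isMinOn hne hv
  have hmin' : ∀ s ∈ Icc 0 T, ∀ x ∈ Icc lo hi, v s₁ x₁ ≤ v s x := fun s hs x hx =>
    hmin (show (s, x) ∈ Icc 0 T ×ˢ Icc lo hi from ⟨hs, hx⟩)
  simp only at h1 h2
  by_contra hneg
  push Not at hneg
  have h3 : v s₁ x₁ < 0 := lt_of_le_of_lt (hmin' s hsT x hxI) hneg
  have hs1 : 0 < s₁ := by
    rcases eq_or_lt_of_le h1.1 with h | h
    · rw [← h] at h3
      exact absurd (h0 x₁ h2) (not_le.2 h3)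
    · exact h
  have hx1 : lo < x₁ := by
    rcases eq_or_lt_of_le h2.1 with h | h
    · rw [← h] at h3
      exact absurd (hlo s₁ h1) (not_le.2 h3)
    · exact h
  have hx2 : x₁ < hi := by
    rcases eq_or_lt_of_le h2.2 with h | h
    · rw [h] at h3
      exact absurd (hhi s₁ h1) (not_le.2 h3)
    · exact h
  have hsI : s₁ ∈ Ioc 0 T := ⟨hs1, h1.2⟩
  have hxI' : x₁ ∈ Ioo lo hi := ⟨hx1, hx2⟩
  have e1 : vs s₁ x₁ ≤ 0 := maxp_left hs1 (hs s₁ hsI x₁ hxI') fun t ht =>
    hmin' t ⟨ht.1.le, ht.2.le.trans h1.2⟩ x₁ h2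
  obtain ⟨e2, e3⟩ := maxp_second hx1 hx2 (fun y hy => hx s₁ hsI y hy) (hxx s₁ hsI x₁ hxI')
    fun y hy => hmin' s₁ h1 y ⟨hy.1.le, hy.2.le⟩
  have e4 := hpde s₁ hsI x₁ hxI'
  have e5 := hc s₁ hsI x₁ hxI'
  rw [e2, mul_zero, add_zero] at e4
  have e6 : 0 ≤ c s₁ x₁ * v s₁ x₁ := mul_nonneg_of_nonpos_of_nonpos e5 h3.le
  linarith only [e6, e4, e3, e1]

/-- the maximum principle on a rectangle for the original equation, with a barrier. -/
theorem maxp_mid {T B lo hi ε : ℝ} {w ws wx wxx b c : ℝ → ℝ → ℝ} (hB0 : 0 ≤ B) (hε : 0 < ε)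
    (hw : ContinuousOn (fun p : ℝ × ℝ => w p.1 p.2) (Icc 0 T ×ˢ Icc lo hi))
    (hs : ∀ s ∈ Ioc 0 T, ∀ x ∈ Ioo lo hi, HasDerivAt (fun s => w s x) (ws s x) s)
    (hx : ∀ s ∈ Ioc 0 T, ∀ x ∈ Ioo lo hi, HasDerivAt (w s) (wx s x) x)
    (hxx : ∀ s ∈ Ioc 0 T, ∀ x ∈ Ioo lo hi, HasDerivAt (wx s) (wxx s x) x)
    (hb : ∀ s ∈ Ioc 0 T, ∀ x ∈ Ioo lo hi, |b s x| ≤ B)
    (hc : ∀ s ∈ Ioc 0 T, ∀ x ∈ Ioo lo hi, c s x ≤ B)
    (hpde : ∀ s ∈ Ioc 0 T, ∀ x ∈ Ioo lo hi,
      1 / 2 * wxx s x + b s x * wx s x + c s x * w s x ≤ ws s x)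
    (h0 : ∀ x ∈ Icc lo hi, 0 ≤ w 0 x)
    (hlo : ∀ s ∈ Icc 0 T, 0 ≤ Real.exp (-(B + 1) * s) * w s lo +
      ε * Real.exp ((2 * B + 10) * s) * (1 + lo ^ 2))
    (hhi : ∀ s ∈ Icc 0 T, 0 ≤ Real.exp (-(B + 1) * s) * w s hi +
      ε * Real.exp ((2 * B + 10) * s) * (1 + hi ^ 2)) :
    ∀ s ∈ Icc 0 T, ∀ x ∈ Icc lo hi, 0 ≤ Real.exp (-(B + 1) * s) * w s x +
      ε * Real.exp ((2 * B + 10) * s) * (1 + x ^ 2) := by
  refine maxp_rect
    (v := fun s x => Real.exp (-(B + 1) * s) * w s x +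
      ε * Real.exp ((2 * B + 10) * s) * (1 + x ^ 2))
    (vs := fun s x => Real.exp (-(B + 1) * s) * (-(B + 1)) * w s x +
      Real.exp (-(B + 1) * s) * ws s x +
      ε * (Real.exp ((2 * B + 10) * s) * (2 * B + 10)) * (1 + x ^ 2))
    (vx := fun s x => Real.exp (-(B + 1) * s) * wx s x +
      ε * Real.exp ((2 * B + 10) * s) * (2 * x))
    (vxx := fun s x => Real.exp (-(B + 1) * s) * wxx s x +
      ε * Real.exp ((2 * B + 10) * s) * 2)
    (b := b) (c := fun s x => c s x - (B + 1)) ?_ ?_ ?_ ?_ ?_ ?_ ?_ hlo hhi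
  · refine ContinuousOn.add (ContinuousOn.mul ?_ hw) ?_
    · exact (Real.continuous_exp.comp (continuous_const.mul continuous_fst)).continuousOn
    · exact ((continuous_const.mul
        (Real.continuous_exp.comp (continuous_const.mul continuous_fst))).mul
        (continuous_const.add (continuous_snd.pow 2))).continuousOn
  · intro s hsT x hxI
    have e1 : HasDerivAt (fun s => Real.exp (-(B + 1) * s))
        (Real.exp (-(B + 1) * s) * (-(B + 1))) s := by
      have := ((hasDerivAt_id s).const_mul (-(B + 1))).exp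
      simpa using this
    have e2 : HasDerivAt (fun s => Real.exp ((2 * B + 10) * s))
        (Real.exp ((2 * B + 10) * s) * (2 * B + 10)) s := by
      have := ((hasDerivAt_id s).const_mul (2 * B + 10)).exp
      simpa using this
    exact (e1.mul (hs s hsT x hxI)).add ((e2.const_mul ε).mul_const (1 + x ^ 2))
  · intro s hsT x hxI
    have e1 : HasDerivAt (fun x : ℝ => 1 + x ^ 2) (2 * x) x := by
      have := (hasDerivAt_pow 2 x).const_add 1
      simpa using this
    exact ((hx s hsT x hxI).const_mul _).add (e1.const_mul _)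
  · intro s hsT x hxI
    have e1 : HasDerivAt (fun x : ℝ => 2 * x) 2 x := by
      have := (hasDerivAt_id x).const_mul 2
      simpa using this
    exact ((hxx s hsT x hxI).const_mul _).add (e1.const_mul _)
  · intro s hsT x hxI
    have := hc s hsT x hxI
    linarith
  · intro s hsT x hxI
    have h1 := hb s hsT x hxI
    have h2 := hc s hsT x hxI
    have h3 := hpde s hsT x hxI
    have E1 : 0 < Real.exp (-(B + 1) * s) := Real.exp_pos _
    have E2 : 0 < ε * Real.exp ((2 * B + 10) * s) := mul_pos hε (Real.exp_pos _)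
    have h4 : 0 < (2 * B + 10) * (1 + x ^ 2) - 1 - b s x * (2 * x) -
        (c s x - (B + 1)) * (1 + x ^ 2) := by
      have h5 : b s x * (2 * x) ≤ B * (1 + x ^ 2) := by
        have h6 : b s x * (2 * x) ≤ |b s x| * |2 * x| := by
          rw [← abs_mul]
          exact le_abs_self _
        have h7 : |2 * x| ≤ 1 + x ^ 2 := by
          rw [abs_le]
          constructor <;> nlinarith [sq_nonneg (x - 1), sq_nonneg (x + 1)]
        exact h6.trans (mul_le_mul h1 h7 (abs_nonneg _) hB0)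
      have h8 : (c s x - (B + 1)) * (1 + x ^ 2) ≤ 0 := by
        apply mul_nonpos_of_nonpos_of_nonneg <;> nlinarith [sq_nonneg x]
      linarith only [mul_nonneg hB0 (sq_nonneg x), sq_nonneg x, h8, h5, hB0]
    have h9 := mul_pos E2 h4
    have h10 := mul_le_mul_of_nonneg_left h3 E1.le
    linarith only [h10, h9]
  · intro x hxI
    have h1 := h0 x hxI
    have h2 : 0 ≤ ε * Real.exp ((2 * B + 10) * 0) * (1 + x ^ 2) := by positivity
    have h3 : 0 ≤ Real.exp (-(B + 1) * 0) * w 0 x := mul_nonneg (Real.exp_pos _).le h1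
    linarith

/-- passing to the limit in the barrier. -/
theorem maxp_limit {y M N : ℝ} (hM : 0 < M) (h : ∀ ε : ℝ, 0 < ε → 0 ≤ M * y + ε * N) :
    0 ≤ y := by
  have h1 : 0 ≤ M * y := by
    by_contra hneg
    push Not at hneg
    by_cases hN : N ≤ 0
    · have := h 1 one_pos
      linarith
    · push Not at hN
      have h2 := h (-(M * y) / (2 * N)) (by
        apply div_pos <;> linarith)
      have h3 : -(M * y) / (2 * N) * N = -(M * y) / 2 := by
        field_simp
      rw [h3] at h2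
      linarith only [h2, hneg]
  exact nonneg_of_mul_nonneg_right h1 hM

/-- passing to the limit at the final time. -/
theorem maxp_final {S : ℝ} {f : ℝ → ℝ} (hS : 0 < S) (hf : ContinuousOn f (Icc 0 S))
    (h : ∀ s, 0 ≤ s → s < S → 0 ≤ f s) : 0 ≤ f S := by
  have h1 : Tendsto f (𝓝[<] S) (𝓝 (f S)) := by
    have h2 := hf S (right_mem_Icc.2 hS.le)
    refine h2.mono_left ?_
    rw [nhdsWithin_le_iff]
    filter_upwards [Ioo_mem_nhdsLT hS] with x hx
    exact ⟨hx.1.le, hx.2.le⟩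
  refine ge_of_tendsto h1 ?_
  filter_upwards [Ioo_mem_nhdsLT hS] with x hx
  exact h x hx.1.le hx.2

/-- the barrier at a far point. -/
theorem maxp_far {B s y ε R : ℝ} (hB0 : 0 ≤ B) (hs : 0 ≤ s) (hε : 0 < ε) (hy : |y| ≤ B)
    (hR : B / ε ≤ R ^ 2) : 0 ≤ Real.exp (-(B + 1) * s) * y +
      ε * Real.exp ((2 * B + 10) * s) * (1 + R ^ 2) := by
  have h1 : Real.exp (-(B + 1) * s) ≤ 1 := by
    rw [Real.exp_le_one_iff]
    linarith only [mul_nonneg (sub_nonneg.2 hB0) (sub_nonneg.2 hs), hs]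
  have h2 : 1 ≤ Real.exp ((2 * B + 10) * s) := by
    rw [Real.one_le_exp_iff]
    positivity
  have h3 : -B ≤ Real.exp (-(B + 1) * s) * y := by
    have h4 : |Real.exp (-(B + 1) * s) * y| ≤ 1 * B := by
      rw [abs_mul, abs_of_pos (Real.exp_pos _)]
      exact mul_le_mul h1 hy (abs_nonneg _) zero_le_one
    have := (abs_le.1 h4).1
    linarith
  have h5 : B ≤ ε * (1 + R ^ 2) := by
    rw [div_le_iff₀ hε] at hR
    linarith only [hR, hε]
  have h6 : ε * (1 + R ^ 2) ≤ ε * Real.exp ((2 * B + 10) * s) * (1 + R ^ 2) := by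
    have : 0 ≤ ε * (1 + R ^ 2) := by positivity
    linarith only [mul_nonneg (sub_nonneg.2 h2) (sub_nonneg.2 this)]
  linarith

theorem maxp_line {S B : ℝ} {w ws wx wxx b c : ℝ → ℝ → ℝ} (hS : 0 < S)
    (hw : ContinuousOn (fun p : ℝ × ℝ => w p.1 p.2) (Icc 0 S ×ˢ univ))
    (hB : ∀ s ∈ Icc 0 S, ∀ x, |w s x| ≤ B)
    (hs : ∀ s ∈ Ioo 0 S, ∀ x, HasDerivAt (fun s => w s x) (ws s x) s)
    (hx : ∀ s ∈ Ioo 0 S, ∀ x, HasDerivAt (w s) (wx s x) x)
    (hxx : ∀ s ∈ Ioo 0 S, ∀ x, HasDerivAt (wx s) (wxx s x) x)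
    (hb : ∀ s ∈ Ioo 0 S, ∀ x, |b s x| ≤ B) (hc : ∀ s ∈ Ioo 0 S, ∀ x, c s x ≤ B)
    (hpde : ∀ s ∈ Ioo 0 S, ∀ x, 1 / 2 * wxx s x + b s x * wx s x + c s x * w s x ≤ ws s x)
    (h0 : ∀ x, 0 ≤ w 0 x) : ∀ s ∈ Icc 0 S, ∀ x, 0 ≤ w s x := by
  have hB0 : 0 ≤ B := (abs_nonneg _).trans (hB 0 (left_mem_Icc.2 hS.le) 0)
  have key : ∀ T, 0 ≤ T → T < S → ∀ x, 0 ≤ w T x := by
    intro T hT0 hTS x
    refine maxp_limit (Real.exp_pos (-(B + 1) * T))
      (N := Real.exp ((2 * B + 10) * T) * (1 + x ^ 2)) fun ε hε => ?_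
    rw [← mul_assoc]
    have hsub : ∀ s, s ∈ Ioc 0 T → s ∈ Ioo 0 S := fun s hs => ⟨hs.1, lt_of_le_of_lt hs.2 hTS⟩
    set R := |x| + B / ε + 1 with hR
    have hBe : 0 ≤ B / ε := div_nonneg hB0 hε.le
    have hR1 : B / ε ≤ R ^ 2 := by (by_contra nlg; linarith only [nlg, mul_nonneg (sub_nonneg.2 (abs_nonneg x)) (sub_nonneg.2 (abs_nonneg x)), mul_nonneg (sub_nonneg.2 hBe) (sub_nonneg.2 (abs_nonneg x)), mul_pos (sub_pos.2 (not_le.1 nlg)) (sub_pos.2 (not_le.1 nlg)), mul_nonneg (sq_nonneg (1 * (|x| + B / ε) + 1 * 1 : ℝ)) (sub_nonneg.2 hBe), mul_nonneg (sq_nonneg (1 * (|x| + B / ε) + 1 * 1 : ℝ)) (le_of_lt (sub_pos.2 (not_le.1 nlg))), mul_nonneg (mul_self_nonneg (1 : ℝ)) (sub_nonneg.2 (abs_nonneg x)), mul_nonneg (mul_self_nonneg (1 : ℝ)) (sub_nonneg.2 hBe), mul_nonneg (mul_self_nonneg (1 : ℝ)) (le_of_lt (sub_pos.2 (not_le.1 nlg)))])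
    have hR2 : B / ε ≤ (-R) ^ 2 := by rw [neg_sq]; exact hR1
    refine maxp_mid (lo := -R) (hi := R) hB0 hε (hw.mono ?_)
      (fun s h y _ => hs s (hsub s h) y) (fun s h y _ => hx s (hsub s h) y)
      (fun s h y _ => hxx s (hsub s h) y) (fun s h y _ => hb s (hsub s h) y)
      (fun s h y _ => hc s (hsub s h) y) (fun s h y _ => hpde s (hsub s h) y)
      (fun y _ => h0 y) (fun s h => ?_) (fun s h => ?_) T (right_mem_Icc.2 hT0) x ?_
    · exact prod_mono (Icc_subset_Icc le_rfl hTS.le) (subset_univ _)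
    · exact maxp_far hB0 h.1 hε (hB s ⟨h.1, h.2.trans hTS.le⟩ _) hR2
    · exact maxp_far hB0 h.1 hε (hB s ⟨h.1, h.2.trans hTS.le⟩ _) hR1
    · constructor
      · have := neg_abs_le x
        linarith only [this, hBe]
      · have := le_abs_self x
        linarith only [this, hBe]
  intro s hsS x
  rcases eq_or_lt_of_le hsS.2 with h | h
  · rw [h]
    refine maxp_final (f := fun s => w s x) hS ?_ fun t ht ht' => key t ht ht' x
    exact hw.comp (f := fun s => (s, x)) (by fun_prop) fun t ht => ⟨ht, mem_univ _⟩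
  · exact key s hsS.1 h x

theorem maxp_half {S B a : ℝ} {w ws wx wxx b c : ℝ → ℝ → ℝ} (hS : 0 < S)
    (hw : ContinuousOn (fun p : ℝ × ℝ => w p.1 p.2) (Icc 0 S ×ˢ Ici a))
    (hB : ∀ s ∈ Icc 0 S, ∀ x, a ≤ x → |w s x| ≤ B)
    (hs : ∀ s ∈ Ioo 0 S, ∀ x, a < x → HasDerivAt (fun s => w s x) (ws s x) s)
    (hx : ∀ s ∈ Ioo 0 S, ∀ x, a < x → HasDerivAt (w s) (wx s x) x)
    (hxx : ∀ s ∈ Ioo 0 S, ∀ x, a < x → HasDerivAt (wx s) (wxx s x) x)
    (hb : ∀ s ∈ Ioo 0 S, ∀ x, a < x → |b s x| ≤ B)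
    (hc : ∀ s ∈ Ioo 0 S, ∀ x, a < x → c s x ≤ B)
    (hpde : ∀ s ∈ Ioo 0 S, ∀ x, a < x →
      1 / 2 * wxx s x + b s x * wx s x + c s x * w s x ≤ ws s x)
    (h0 : ∀ x, a ≤ x → 0 ≤ w 0 x) (ha : ∀ s ∈ Icc 0 S, 0 ≤ w s a) :
    ∀ s ∈ Icc 0 S, ∀ x, a ≤ x → 0 ≤ w s x := by
  have hB0 : 0 ≤ B := (abs_nonneg _).trans (hB 0 (left_mem_Icc.2 hS.le) a le_rfl)
  have key : ∀ T, 0 ≤ T → T < S → ∀ x, a ≤ x → 0 ≤ w T x := by
    intro T hT0 hTS x hax
    refine maxp_limit (Real.exp_pos (-(B + 1) * T))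
      (N := Real.exp ((2 * B + 10) * T) * (1 + x ^ 2)) fun ε hε => ?_
    rw [← mul_assoc]
    have hsub : ∀ s, s ∈ Ioc 0 T → s ∈ Ioo 0 S := fun s hs => ⟨hs.1, lt_of_le_of_lt hs.2 hTS⟩
    set R := |x| + B / ε + 1 with hR
    have hBe : 0 ≤ B / ε := div_nonneg hB0 hε.le
    have hR1 : B / ε ≤ R ^ 2 := by nlinarith [abs_nonneg x]
    have hxR : x ≤ R := by
      have := le_abs_self x
      linarith only [this, hBe]
    refine maxp_mid (lo := a) (hi := R) hB0 hε (hw.mono ?_)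
      (fun s h y hy => hs s (hsub s h) y hy.1) (fun s h y hy => hx s (hsub s h) y hy.1)
      (fun s h y hy => hxx s (hsub s h) y hy.1) (fun s h y hy => hb s (hsub s h) y hy.1)
      (fun s h y hy => hc s (hsub s h) y hy.1) (fun s h y hy => hpde s (hsub s h) y hy.1)
      (fun y hy => h0 y hy.1) (fun s h => ?_) (fun s h => ?_) T (right_mem_Icc.2 hT0) x
      ⟨hax, hxR⟩
    · exact prod_mono (Icc_subset_Icc le_rfl hTS.le) Icc_subset_Ici_self
    · have h1 := ha s ⟨h.1, h.2.trans hTS.le⟩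
      (clear * - h1 hε; positivity)
    · exact maxp_far hB0 h.1 hε (hB s ⟨h.1, h.2.trans hTS.le⟩ _ (hax.trans hxR)) hR1
  intro s hsS x hax
  rcases eq_or_lt_of_le hsS.2 with h | h
  · rw [h]
    refine maxp_final (f := fun s => w s x) hS ?_ fun t ht ht' => key t ht ht' x hax
    exact hw.comp (f := fun s => (s, x)) (by fun_prop) fun t ht => ⟨ht, hax⟩
  · exact key s hsS.1 h x hax

end Vale.Agent.P146.Gap
end

section

/-!
The pointwise certificate for `T ≥ 0` (no gap in the Parisi measure).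
-/

namespace Vale.Agent.P146.Gap

/-- The multiplier of the certificate. -/
noncomputable def rho (e P D W A K b : ℝ) : ℝ :=
  21 / 4 * P ^ 3 + 68 / 5 * P ^ 2 * D + 153 / 10 * P * D ^ 2 - 47 / 20 * P ^ 2 * W
    - 67 / 20 * P * D * W - 9 / 10 * P * K + 9 / 10 * A * W - 173 / 20 * A * D
    - 97 / 10 * A * P - 9 / 20 * b * P - 1 / 8 * (b ^ 2 * D / (D ^ 2 + b / 4 + e))

/-- The derivative of the multiplier along `P' = A`, `D' = b/2`, `W' = K`, `K' = 0`,
`A' = -2 (P + D) A`, `b' = B`. -/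
noncomputable def rhop (e P D W A K b B : ℝ) : ℝ :=
  21 / 4 * (3 * P ^ 2 * A) + 68 / 5 * (2 * P * A * D + P ^ 2 * (b / 2))
    + 153 / 10 * (A * D ^ 2 + P * D * b) - 47 / 20 * (2 * P * A * W + P ^ 2 * K)
    - 67 / 20 * (A * D * W + P * (b / 2) * W + P * D * K) - 9 / 10 * (A * K)
    + 9 / 10 * (-2 * (P + D) * A * W + A * K)
    - 173 / 20 * (-2 * (P + D) * A * D + A * (b / 2))
    - 97 / 10 * (-2 * (P + D) * A * P + A * A) - 9 / 20 * (B * P + b * A)
    - 1 / 8 * ((2 * b * B * D + b ^ 2 * (b / 2)) / (D ^ 2 + b / 4 + e)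
      - b ^ 2 * D * (D * b + B / 4) / (D ^ 2 + b / 4 + e) ^ 2)

theorem cert_one {e d b : ℝ} (he : 0 < e) (hd : 0 ≤ d) (hb : 0 ≤ b) :
    3 / 4 * b ^ 2 - 6 * b * d + 129 / 10 * d ^ 2 - 3 * e * b ≤
      (b - 4 * d) ^ 2 + b ^ 2 / (8 * (d + b / 4 + e) ^ 2) * (d * b - b ^ 2 / 8 - b * e / 2) := by
  have hΔ : 0 < d + b / 4 + e := by positivity
  set Δ := d + b / 4 + e with hΔd
  have key : 0 ≤ 64 * Δ ^ 2 * (b ^ 2 / 4 - 2 * b * d + 31 / 10 * d ^ 2 + 3 * e * b)
      + 8 * b ^ 2 * (d * b - b ^ 2 / 8 - b * e / 2) := by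
    have h0 : 64 * Δ ^ 2 * (b ^ 2 / 4 - 2 * b * d + 31 / 10 * d ^ 2 + 3 * e * b)
      + 8 * b ^ 2 * (d * b - b ^ 2 / 8 - b * e / 2) =
        d * (8 * (b - 333 / 100 * d) ^ 2 * (b + 221 / 100 * d)
          + (-(288 / 10) - 8 * ((333/100) ^ 2 - 2 * (333/100) * (221/100))) * (b * d ^ 2)
          + (1984 / 10 - 8 * (333/100) ^ 2 * (221/100)) * d ^ 3)
        + e * (16 * b ^ 3 + 64 * b ^ 2 * d + (352 / 10) * (b * d ^ 2) + (3968 / 10) * d ^ 3)
        + e ^ 2 * (112 * b ^ 2 + 256 * (b * d) + (1984 / 10) * d ^ 2)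
        + e ^ 3 * (192 * b) := by
      rw [hΔd]; ring
    rw [h0]
    have h1 : 0 ≤ (-(288 / 10) - 8 * ((333/100) ^ 2 - 2 * (333/100) * (221/100)) : ℝ) := by
      norm_num
    have h2 : 0 ≤ (1984 / 10 - 8 * (333/100) ^ 2 * (221/100) : ℝ) := by norm_num
    (clear * - hd hb he; positivity)
  have h2 : (b - 4 * d) ^ 2 + b ^ 2 / (8 * Δ ^ 2) * (d * b - b ^ 2 / 8 - b * e / 2)
      - (3 / 4 * b ^ 2 - 6 * b * d + 129 / 10 * d ^ 2 - 3 * e * b) =
      (64 * Δ ^ 2 * (b ^ 2 / 4 - 2 * b * d + 31 / 10 * d ^ 2 + 3 * e * b)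
      + 8 * b ^ 2 * (d * b - b ^ 2 / 8 - b * e / 2)) / (64 * Δ ^ 2) := by
    field_simp
    ring
  have h3 := div_nonneg key (by positivity : (0:ℝ) ≤ 64 * Δ ^ 2)
  linarith only [h3, h2]

theorem cert_poly {P D W A b : ℝ} (hP : 0 ≤ P) (hD : 0 ≤ D) (hW : 0 ≤ W) (hA : 0 ≤ A) :
    0 ≤ 3 / 4 * b ^ 2 - 6 * b * D ^ 2 + 129 / 10 * D ^ 4
      - 2 * (b - 4 * D ^ 2) * (4 * P ^ 2 + 8 * P * D - 2 * A)
      + (4 * P ^ 2 + 8 * P * D - 2 * A) ^ 2 - 48 * A * (P + D) ^ 2 + 6 * A ^ 2
      + (21 / 4 * (3 * P ^ 2 * A) + 68 / 5 * (2 * P * A * D + P ^ 2 * (b / 2))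
        + 153 / 10 * (A * D ^ 2 + P * D * b) - 47 / 20 * (2 * P * A * W)
        - 67 / 20 * (A * D * W + P * (b / 2) * W)
        + 9 / 10 * (-2 * (P + D) * A * W)
        - 173 / 20 * (-2 * (P + D) * A * D + A * (b / 2))
        - 97 / 10 * (-2 * (P + D) * A * P + A * A) - 9 / 20 * (b * (P + 2 * D) * P + b * A))
      - (3 * P + 4 * D + W) * (21 / 4 * P ^ 3 + 68 / 5 * P ^ 2 * D + 153 / 10 * P * D ^ 2
        - 47 / 20 * P ^ 2 * W - 67 / 20 * P * D * W + 9 / 10 * A * W - 173 / 20 * A * D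
        - 97 / 10 * A * P - 9 / 20 * b * P)
      + (7 / 20 * P + 1 / 4 * D + 9 / 10 * W) * (A * W) := by
  have h0 : 3 / 4 * b ^ 2 - 6 * b * D ^ 2 + 129 / 10 * D ^ 4
      - 2 * (b - 4 * D ^ 2) * (4 * P ^ 2 + 8 * P * D - 2 * A)
      + (4 * P ^ 2 + 8 * P * D - 2 * A) ^ 2 - 48 * A * (P + D) ^ 2 + 6 * A ^ 2
      + (21 / 4 * (3 * P ^ 2 * A) + 68 / 5 * (2 * P * A * D + P ^ 2 * (b / 2))
        + 153 / 10 * (A * D ^ 2 + P * D * b) - 47 / 20 * (2 * P * A * W)
        - 67 / 20 * (A * D * W + P * (b / 2) * W)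
        + 9 / 10 * (-2 * (P + D) * A * W)
        - 173 / 20 * (-2 * (P + D) * A * D + A * (b / 2))
        - 97 / 10 * (-2 * (P + D) * A * P + A * A) - 9 / 20 * (b * (P + 2 * D) * P + b * A))
      - (3 * P + 4 * D + W) * (21 / 4 * P ^ 3 + 68 / 5 * P ^ 2 * D + 153 / 10 * P * D ^ 2
        - 47 / 20 * P ^ 2 * W - 67 / 20 * P * D * W + 9 / 10 * A * W - 173 / 20 * A * D
        - 97 / 10 * A * P - 9 / 20 * b * P)
      + (7 / 20 * P + 1 / 4 * D + 9 / 10 * W) * (A * W) =
      3 / 4 * (b + 2 / 3 * (-(31 / 40) * A + 1 / 5 * (D * P) - 6 * D ^ 2 - 49 / 40 * (P * W)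
        - 3 / 10 * P ^ 2)) ^ 2
      + P * D * (18 / 5 * (D - (827 / 150 * P + 34 / 5 * W) / (36 / 5)) ^ 2
        + (56 / 25 - (827 / 150) ^ 2 / (72 / 5)) * P ^ 2
        + (451 / 75 - 2 * (827 / 150) * (34 / 5) / (72 / 5)) * (P * W)
        + (67 / 20 - (34 / 5) ^ 2 / (72 / 5)) * W ^ 2)
      + (113 / 150 * (A * D * P) + 3 / 20 * (A * D * W) + 1 / 10 * (A * D ^ 2)
        + 521 / 2400 * (A * P * W) + 19 / 200 * (A * P ^ 2) + 479 / 4800 * A ^ 2
        + 9 / 10 * D ^ 4 + 8879 / 4800 * (P ^ 2 * W ^ 2) + 311 / 200 * (P ^ 3 * W)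
        + 11 / 50 * P ^ 4) := by
    ring
  rw [h0]
  have h1 : 0 ≤ (56 / 25 - (827 / 150) ^ 2 / (72 / 5) : ℝ) := by norm_num
  have h2 : 0 ≤ (451 / 75 - 2 * (827 / 150) * (34 / 5) / (72 / 5) : ℝ) := by norm_num
  have h3 : 0 ≤ (67 / 20 - (34 / 5) ^ 2 / (72 / 5) : ℝ) := by norm_num
  (clear * - hP hD hW hA; positivity)

/-- The pointwise certificate. -/
theorem cert {e P D W A K b B : ℝ} (he : 0 < e) (hP : 0 ≤ P) (hD : 0 ≤ D) (hW : 0 ≤ W)
    (hA : 0 ≤ A) (hb : 0 ≤ b) (hAW : A * W ≤ K * P) (hB : B ≤ b * (P + 2 * D)) :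
    -(3 * e * b) ≤ (4 * (P + D) ^ 2 - 2 * A - b) ^ 2 - 48 * A * (P + D) ^ 2 + 6 * A ^ 2
      + rhop e P D W A K b B - (3 * P + 4 * D + W) * rho e P D W A K b := by
  have hD2 : 0 ≤ D ^ 2 := by positivity
  have hΔ : 0 < D ^ 2 + b / 4 + e := by positivity
  have h1 := cert_one he hD2 hb
  have h2 := cert_poly (b := b) hP hD hW hA
  have h3 : (7 / 20 * P + 1 / 4 * D + 9 / 10 * W) * (A * W) ≤
      (7 / 20 * P + 1 / 4 * D + 9 / 10 * W) * (K * P) :=
    mul_le_mul_of_nonneg_left hAW (by positivity)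
  -- the monotonicity in `B`
  have h4 : 9 / 20 * P * B ≤ 9 / 20 * P * (b * (P + 2 * D)) :=
    mul_le_mul_of_nonneg_left hB (by positivity)
  set Δ := D ^ 2 + b / 4 + e with hΔd
  have hc : 0 ≤ b * D * (2 * Δ - b / 4) / (8 * Δ ^ 2) := by
    have : 0 ≤ 2 * Δ - b / 4 := by rw [hΔd]; linarith only [hΔd, hΔ, hD2, he]
    (clear * - hb hD this he; positivity)
  have h5 := mul_le_mul_of_nonneg_left hB hc
  -- the contribution of the last term
  have h6 : -(1 / 8 * ((2 * b * B * D + b ^ 2 * (b / 2)) / Δ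
      - b ^ 2 * D * (D * b + B / 4) / Δ ^ 2)) + (3 * P + 4 * D + W) * (1 / 8 * (b ^ 2 * D / Δ)) =
      -(b * D * (2 * Δ - b / 4) / (8 * Δ ^ 2) * B)
      - 1 / 8 * (b ^ 2 * (b / 2) / Δ - b ^ 2 * D * (D * b) / Δ ^ 2)
      + (3 * P + 4 * D + W) * (1 / 8 * (b ^ 2 * D / Δ)) := by
    field_simp
    ring
  have h7 : -(b * D * (2 * Δ - b / 4) / (8 * Δ ^ 2) * (b * (P + 2 * D)))
      - 1 / 8 * (b ^ 2 * (b / 2) / Δ - b ^ 2 * D * (D * b) / Δ ^ 2)
      + (3 * P + 4 * D + W) * (1 / 8 * (b ^ 2 * D / Δ)) =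
      b ^ 2 / (8 * Δ ^ 2) * ((P + W) * D * Δ + P * D * b / 4)
      + b ^ 2 / (8 * Δ ^ 2) * (D ^ 2 * b - b ^ 2 / 8 - b * e / 2) := by
    have he' : e = Δ - D ^ 2 - b / 4 := by rw [hΔd]; ring
    rw [he']
    field_simp
    ring
  have h8 : 0 ≤ b ^ 2 / (8 * Δ ^ 2) * ((P + W) * D * Δ + P * D * b / 4) := by (clear * - hb he hP hW hD; positivity)
  unfold rhop rho
  rw [← hΔd]
  clear_value Δ
  generalize b * D * (2 * Δ - b / 4) / (8 * Δ ^ 2) = c at hc h5 h6 h7
  generalize b ^ 2 / (8 * Δ ^ 2) = c' at h1 h7 h8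
  generalize b ^ 2 * D / Δ = X1 at h6 h7 ⊢
  generalize (2 * b * B * D + b ^ 2 * (b / 2)) / Δ = X2 at h6 ⊢
  generalize b ^ 2 * D * (D * b + B / 4) / Δ ^ 2 = X3 at h6 ⊢
  generalize b ^ 2 * (b / 2) / Δ = X4 at h6 h7
  generalize b ^ 2 * D * (D * b) / Δ ^ 2 = X5 at h6 h7
  have h9 : (4 * (P + D) ^ 2 - 2 * A - b) ^ 2 - 48 * A * (P + D) ^ 2 + 6 * A ^ 2 =
      (b - 4 * D ^ 2) ^ 2 - 2 * (b - 4 * D ^ 2) * (4 * P ^ 2 + 8 * P * D - 2 * A)
      + (4 * P ^ 2 + 8 * P * D - 2 * A) ^ 2 - 48 * A * (P + D) ^ 2 + 6 * A ^ 2 := by ring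
  linarith only [h8, h7, h6, h5, h4, h3, h2, h1]

end Vale.Agent.P146.Gap
end

section

/-! An Efron-Stein type bound for the variance of functions on product spaces. -/

open MeasureTheory ProbabilityTheory Filter Topology

namespace Vale.Agent.P157.Par

section Var

variable {α β : Type*} [MeasurableSpace α] [MeasurableSpace β]

/-- The variance. -/
noncomputable def VV (μ : Measure α) (f : α → ℝ) : ℝ :=
  ∫ x, f x ^ 2 ∂μ - (∫ x, f x ∂μ) ^ 2

lemma VV_eq (μ : Measure α) [IsProbabilityMeasure μ] {f : α → ℝ} (hf : MemLp f 2 μ) :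
    VV μ f = ∫ x, (f x - ∫ y, f y ∂μ) ^ 2 ∂μ := by
  have h1 : Integrable f μ := hf.integrable (by norm_num)
  have h2 : Integrable (fun x => f x ^ 2) μ := hf.integrable_sq
  set m := ∫ y, f y ∂μ with hm
  have e : ∀ x, (f x - m) ^ 2 = f x ^ 2 - 2 * m * f x + m ^ 2 := fun x => by ring
  have h3 : Integrable (fun x => 2 * m * f x) μ := h1.const_mul _
  have h4 : Integrable (fun x => f x ^ 2 - 2 * m * f x) μ := h2.sub h3
  simp only [e]
  rw [integral_add h4 (integrable_const _),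
    integral_sub h2 h3, integral_const_mul, ← hm, integral_const]
  unfold VV
  rw [← hm]
  simp only [probReal_univ, smul_eq_mul, one_mul]
  ring

lemma VV_nonneg (μ : Measure α) [IsProbabilityMeasure μ] {f : α → ℝ} (hf : MemLp f 2 μ) :
    0 ≤ VV μ f := by
  rw [VV_eq μ hf]
  exact integral_nonneg fun x => sq_nonneg _

lemma sq_integral_le_VV (μ : Measure α) [IsProbabilityMeasure μ] {f : α → ℝ} (hf : MemLp f 2 μ) :
    (∫ x, f x ∂μ) ^ 2 ≤ ∫ x, f x ^ 2 ∂μ := by
  have := VV_nonneg μ hf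
  unfold VV at this
  linarith

lemma l1_le_sqrt_VV (μ : Measure α) [IsProbabilityMeasure μ] {f : α → ℝ} (hf : MemLp f 2 μ) :
    ∫ x, |f x - ∫ y, f y ∂μ| ∂μ ≤ Real.sqrt (VV μ f) := by
  have h1 : MemLp (fun x => |f x - ∫ y, f y ∂μ|) 2 μ := (hf.sub (memLp_const _)).abs
  have h2 := sq_integral_le_VV μ h1
  simp only [sq_abs] at h2
  rw [← VV_eq μ hf] at h2
  exact Real.le_sqrt_of_sq_le h2

lemma VV_pair (μ : Measure α) [IsProbabilityMeasure μ] {g : α → ℝ} (hg : MemLp g 2 μ) :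
    ∫ z : α × α, (g z.1 - g z.2) ^ 2 ∂(μ.prod μ) = 2 * VV μ g := by
  have h1 : MemLp (fun z : α × α => g z.1) 2 (μ.prod μ) := hg.comp_fst μ
  have h2 : MemLp (fun z : α × α => g z.2) 2 (μ.prod μ) := hg.comp_snd μ
  have h3 : Integrable (fun z : α × α => g z.1 * g z.2) (μ.prod μ) := h1.integrable_mul h2
  have e : ∀ z : α × α, (g z.1 - g z.2) ^ 2 = g z.1 ^ 2 - 2 * (g z.1 * g z.2) + g z.2 ^ 2 :=
    fun z => by ring
  have h4 : Integrable (fun z : α × α => 2 * (g z.1 * g z.2)) (μ.prod μ) := h3.const_mul _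
  have h5 : Integrable (fun z : α × α => g z.1 ^ 2 - 2 * (g z.1 * g z.2)) (μ.prod μ) :=
    h1.integrable_sq.sub h4
  simp only [e]
  rw [integral_add h5 h2.integrable_sq,
    integral_sub h1.integrable_sq h4, integral_const_mul, integral_prod_mul g g]
  have e1 : ∫ z : α × α, g z.1 ^ 2 ∂(μ.prod μ) = ∫ x, g x ^ 2 ∂μ := by
    rw [integral_fun_fst (fun x => g x ^ 2)]; simp
  have e2 : ∫ z : α × α, g z.2 ^ 2 ∂(μ.prod μ) = ∫ x, g x ^ 2 ∂μ := by
    rw [integral_fun_snd (fun x => g x ^ 2)]; simp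
  rw [e1, e2]
  unfold VV
  ring

lemma VV_le_of_diff (μ : Measure α) [IsProbabilityMeasure μ] {g : α → ℝ} (hg : MemLp g 2 μ)
    {c : α × α → ℝ} (hc : Integrable (fun z => c z ^ 2) (μ.prod μ)) {C : ℝ}
    (hC : ∫ z, c z ^ 2 ∂(μ.prod μ) ≤ 2 * C)
    (h : ∀ᵐ z ∂(μ.prod μ), |g z.1 - g z.2| ≤ c z) : VV μ g ≤ C := by
  have h1 : ∫ z : α × α, (g z.1 - g z.2) ^ 2 ∂(μ.prod μ) ≤ ∫ z, c z ^ 2 ∂(μ.prod μ) := by
    refine integral_mono_of_nonneg (Filter.Eventually.of_forall fun z => sq_nonneg _) hc ?_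
    filter_upwards [h] with z hz
    rw [← sq_abs]
    exact pow_le_pow_left₀ (abs_nonneg _) hz 2
  rw [VV_pair μ hg] at h1
  linarith

/-- Total variance. -/
lemma VV_prod_le (μ : Measure α) [IsProbabilityMeasure μ] (π : Measure β)
    [IsProbabilityMeasure π] {f : α × β → ℝ} (hf : MemLp f 2 (μ.prod π))
    {A C : ℝ} (hA : ∀ x, MemLp (fun y => f (x, y)) 2 π → VV π (fun y => f (x, y)) ≤ A)
    (hC : MemLp (fun x => ∫ y, f (x, y) ∂π) 2 μ → VV μ (fun x => ∫ y, f (x, y) ∂π) ≤ C) :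
    VV (μ.prod π) f ≤ A + C := by
  have h1 : Integrable f (μ.prod π) := hf.integrable (by norm_num)
  have h2 : Integrable (fun z => f z ^ 2) (μ.prod π) := hf.integrable_sq
  have hs : ∀ᵐ x ∂μ, MemLp (fun y => f (x, y)) 2 π := by
    have hm := hf.1
    filter_upwards [h2.prod_right_ae, hm.prodMk_left] with x hx hmx
    exact (memLp_two_iff_integrable_sq hmx).2 hx
  set g : α → ℝ := fun x => ∫ y, f (x, y) ∂π with hg
  set q : α → ℝ := fun x => ∫ y, f (x, y) ^ 2 ∂π with hq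
  have hqi : Integrable q μ := h2.integral_prod_left
  have hgi : Integrable g μ := h1.integral_prod_left
  have hgq : ∀ᵐ x ∂μ, g x ^ 2 ≤ q x := by
    filter_upwards [hs] with x hx
    exact sq_integral_le_VV π hx
  have hg2 : MemLp g 2 μ := by
    refine (memLp_two_iff_integrable_sq hgi.aestronglyMeasurable).2 ?_
    refine hqi.mono' (hgi.aestronglyMeasurable.pow 2) ?_
    filter_upwards [hgq] with x hx
    rw [Real.norm_eq_abs, abs_of_nonneg (sq_nonneg _)]
    exact hx
  have hb : ∫ x, (q x - g x ^ 2) ∂μ ≤ A := by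
    have h3 : ∫ x, (q x - g x ^ 2) ∂μ ≤ ∫ _x, A ∂μ := by
      refine integral_mono_ae (hqi.sub hg2.integrable_sq) (integrable_const _) ?_
      filter_upwards [hs] with x hx
      exact hA x hx
    simpa using h3
  rw [integral_sub hqi hg2.integrable_sq] at hb
  have hc := hC hg2
  unfold VV at hc ⊢
  rw [integral_prod _ h1, integral_prod _ h2]
  linarith

lemma VV_comp {μ : Measure α} {ν : Measure β} {T : α → β} (hT : MeasurePreserving T μ ν)
    {f : β → ℝ} (hf : MemLp f 2 ν) : VV μ (fun x => f (T x)) = VV ν f := by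
  have hm := hf.1
  rw [← hT.map_eq] at hm
  unfold VV
  congr 1
  · rw [← hT.map_eq]
    exact (integral_map (f := fun x => f x ^ 2) hT.measurable.aemeasurable (hm.pow 2)).symm
  · rw [← hT.map_eq, integral_map hT.measurable.aemeasurable hm]

end Var

section ES

variable {E : Type*} [MeasurableSpace E] (μ : Measure E) [IsProbabilityMeasure μ]

lemma mp_cons (n : ℕ) : MeasurePreserving
    (fun z : E × (Fin n → E) => (Fin.cons z.1 z.2 : Fin (n + 1) → E))
    (μ.prod (Measure.pi fun _ : Fin n => μ)) (Measure.pi fun _ : Fin (n + 1) => μ) := by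
  have h := (measurePreserving_piFinSuccAbove (fun _ : Fin (n + 1) => μ) 0).symm
  have e : (fun z : E × (Fin n → E) => (Fin.cons z.1 z.2 : Fin (n + 1) → E)) =
      ((MeasurableEquiv.piFinSuccAbove (fun _ : Fin (n + 1) => E) 0).symm :
        E × (Fin n → E) → (Fin (n + 1) → E)) := by
    funext z
    simp only [MeasurableEquiv.piFinSuccAbove_symm_apply, Fin.insertNthEquiv]
    simp
  rw [e]
  exact h

/-- Efron-Stein for `Fin n`. -/
theorem ES_fin {ρ : E × E → ℝ} (hρ : Integrable (fun z => ρ z ^ 2) (μ.prod μ))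
    (hρ2 : ∫ z, ρ z ^ 2 ∂(μ.prod μ) ≤ 2) (n : ℕ) {f : (Fin n → E) → ℝ}
    (hf : MemLp f 2 (Measure.pi fun _ : Fin n => μ)) (a : Fin n → ℝ)
    (hd : ∀ x i y, |f x - f (Function.update x i y)| ≤ a i * ρ (x i, y)) :
    VV (Measure.pi fun _ : Fin n => μ) f ≤ ∑ i, a i ^ 2 := by
  induction n with
  | zero =>
    have h : ∀ x : Fin 0 → E, f x = f (fun i => i.elim0) := fun x => by
      congr 1; exact Subsingleton.elim _ _
    unfold VV
    simp only [h]
    simp
  | succ n ih =>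
    have hT := mp_cons μ n
    rw [← VV_comp hT hf]
    have hf' : MemLp (fun z : E × (Fin n → E) => f (Fin.cons z.1 z.2)) 2
        (μ.prod (Measure.pi fun _ : Fin n => μ)) := hf.comp_measurePreserving hT
    rw [Fin.sum_univ_succ]
    refine (VV_prod_le μ (Measure.pi fun _ : Fin n => μ) hf' (A := ∑ i : Fin n, a i.succ ^ 2)
      (C := a 0 ^ 2) ?_ ?_).trans (le_of_eq (add_comm _ _))
    · intro x hx
      refine ih hx (fun i => a i.succ) fun y i e => ?_
      have h := hd (Fin.cons x y) i.succ e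
      rw [← Fin.cons_update, Fin.cons_succ] at h
      exact h
    · intro hg
      refine VV_le_of_diff μ hg (c := fun z => a 0 * ρ z) ?_ ?_ ?_
      · have h1 := hρ.const_mul (a 0 ^ 2)
        refine h1.congr (Filter.Eventually.of_forall fun z => ?_)
        simp only
        ring
      · have h1 : ∀ z : E × E, (a 0 * ρ z) ^ 2 = a 0 ^ 2 * ρ z ^ 2 := fun z => by ring
        simp only [h1]
        rw [integral_const_mul]
        linarith only [mul_nonneg (sub_nonneg.2 hρ2) (sq_nonneg (a 0))]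
      · have hi : ∀ᵐ x ∂μ, Integrable (fun y => f (Fin.cons x y))
            (Measure.pi fun _ : Fin n => μ) :=
          (hf'.integrable (by norm_num)).prod_right_ae
        have h1 : ∀ᵐ z : E × E ∂(μ.prod μ), Integrable (fun y => f (Fin.cons z.1 y))
            (Measure.pi fun _ : Fin n => μ) := Measure.quasiMeasurePreserving_fst.ae hi
        have h2 : ∀ᵐ z : E × E ∂(μ.prod μ), Integrable (fun y => f (Fin.cons z.2 y))
            (Measure.pi fun _ : Fin n => μ) := Measure.quasiMeasurePreserving_snd.ae hi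
        filter_upwards [h1, h2] with z hz1 hz2
        rw [← integral_sub hz1 hz2]
        have h3 : ∀ y, |f (Fin.cons z.1 y) - f (Fin.cons z.2 y)| ≤ a 0 * ρ z := by
          intro y
          have h := hd (Fin.cons z.1 y) 0 z.2
          rw [Fin.update_cons_zero, Fin.cons_zero] at h
          exact h
        refine (abs_integral_le_integral_abs).trans ?_
        have h4 := integral_mono (hz1.sub hz2).abs
          (integrable_const (μ := Measure.pi fun _ : Fin n => μ) (a 0 * ρ z)) h3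
        simpa using h4

/-- Efron-Stein for a finite index set. -/
theorem ES_pi {ι : Type*} [Fintype ι] [DecidableEq ι] {ρ : E × E → ℝ}
    (hρ : Integrable (fun z => ρ z ^ 2) (μ.prod μ))
    (hρ2 : ∫ z, ρ z ^ 2 ∂(μ.prod μ) ≤ 2) {f : (ι → E) → ℝ}
    (hf : MemLp f 2 (Measure.pi fun _ : ι => μ)) (a : ι → ℝ)
    (hd : ∀ x i y, |f x - f (Function.update x i y)| ≤ a i * ρ (x i, y)) :
    VV (Measure.pi fun _ : ι => μ) f ≤ ∑ i, a i ^ 2 := by
  set e : Fin (Fintype.card ι) ≃ ι := (Fintype.equivFin ι).symm with he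
  have hT := measurePreserving_piCongrLeft (fun _ : ι => μ) e
  have hTa : ∀ (x : Fin (Fintype.card ι) → E) (i : ι),
      (MeasurableEquiv.piCongrLeft (fun _ : ι => E) e) x i = x (e.symm i) := by
    intro x i
    rw [MeasurableEquiv.coe_piCongrLeft]
    have h := Equiv.piCongrLeft_apply_apply (P := fun _ : ι => E) e x (e.symm i)
    simpa using h
  rw [← VV_comp hT hf]
  have hf' := hf.comp_measurePreserving hT
  have h := ES_fin μ hρ hρ2 (Fintype.card ι) hf' (fun j => a (e j)) (fun x j y => ?_)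
  · refine h.trans (le_of_eq ?_)
    exact e.sum_comp (fun i => a i ^ 2)
  · have h1 : (MeasurableEquiv.piCongrLeft (fun _ : ι => E) e) (Function.update x j y) =
        Function.update ((MeasurableEquiv.piCongrLeft (fun _ : ι => E) e) x) (e j) y := by
      funext i
      rw [hTa]
      by_cases hi : i = e j
      · subst hi
        simp
      · rw [Function.update_of_ne hi, hTa, Function.update_of_ne]
        intro h
        exact hi (by rw [← h]; simp)
    have h2 := hd ((MeasurableEquiv.piCongrLeft (fun _ : ι => E) e) x) (e j) y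
    rw [← h1, hTa] at h2
    simpa using h2

end ES

end Vale.Agent.P157.Par
end

section

/-!
# P146, lower bound for the SK model: replacing patterns one at a time
-/

open MeasureTheory ProbabilityTheory

namespace Vale.Agent.P146.Sk.Low

variable {X : Type*} [Fintype X]

/-- The log-sum-exp function. -/
noncomputable def lse (w u : X → ℝ) : ℝ := Real.log (∑ x, w x * Real.exp (u x))

lemma lse_sum_pos [Nonempty X] {w : X → ℝ} (hw : ∀ x, 0 < w x) (u : X → ℝ) :
    0 < ∑ x, w x * Real.exp (u x) :=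
  Finset.sum_pos (fun x _ => mul_pos (hw x) (Real.exp_pos _)) Finset.univ_nonempty

lemma abs_lse_le [Nonempty X] {w : X → ℝ} (hw : ∀ x, 0 < w x) (u : X → ℝ) :
    |lse w u| ≤ |Real.log (∑ x, w x)| + ∑ x, |u x| := by
  have hs : 0 < ∑ x, w x := Finset.sum_pos (fun x _ => hw x) Finset.univ_nonempty
  set C := ∑ x, |u x| with hC
  have hu : ∀ x, |u x| ≤ C := fun x =>
    Finset.single_le_sum (f := fun x => |u x|) (fun y _ => abs_nonneg (u y)) (Finset.mem_univ x)
  have h1 : ∑ x, w x * Real.exp (u x) ≤ (∑ x, w x) * Real.exp C := by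
    rw [Finset.sum_mul]
    refine Finset.sum_le_sum fun x _ => ?_
    exact mul_le_mul_of_nonneg_left (Real.exp_le_exp.2 ((le_abs_self _).trans (hu x))) (hw x).le
  have h2 : (∑ x, w x) * Real.exp (-C) ≤ ∑ x, w x * Real.exp (u x) := by
    rw [Finset.sum_mul]
    refine Finset.sum_le_sum fun x _ => ?_
    refine mul_le_mul_of_nonneg_left (Real.exp_le_exp.2 ?_) (hw x).le
    have := (abs_le.1 (hu x)).1
    linarith
  have h3 := Real.log_le_log (lse_sum_pos hw u) h1
  have h4 := Real.log_le_log (mul_pos hs (Real.exp_pos _)) h2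
  rw [Real.log_mul hs.ne' (Real.exp_pos _).ne', Real.log_exp] at h3 h4
  unfold lse
  have h5 := neg_abs_le (Real.log (∑ x, w x))
  have h6 := le_abs_self (Real.log (∑ x, w x))
  rw [abs_le]
  constructor <;> linarith

lemma lse_measurable {Ω : Type*} [MeasurableSpace Ω] {u : Ω → X → ℝ} (w : X → ℝ)
    (hu : ∀ x, Measurable fun ω => u ω x) : Measurable fun ω => lse w (u ω) := by
  unfold lse
  exact Real.measurable_log.comp (Finset.measurable_sum _ fun x _ =>
    (Real.measurable_exp.comp (hu x)).const_mul _)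

lemma lse_integrable [Nonempty X] {Ω : Type*} [MeasurableSpace Ω] {μ : Measure Ω}
    [IsProbabilityMeasure μ] {u : Ω → X → ℝ} {w : X → ℝ} (hw : ∀ x, 0 < w x)
    (hm : ∀ x, Measurable fun ω => u ω x) (hu : ∀ x, Integrable (fun ω => u ω x) μ) :
    Integrable (fun ω => lse w (u ω)) μ := by
  refine Integrable.mono' (g := fun ω => |Real.log (∑ x, w x)| + ∑ x, |u ω x|)
    ((integrable_const _).add (integrable_finsetSum _ fun x _ => (hu x).abs))
    (lse_measurable w hm).aestronglyMeasurable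
    (Filter.Eventually.of_forall fun ω => ?_)
  rw [Real.norm_eq_abs]
  exact abs_lse_le hw _

/-- The weights absorb a part of the energy. -/
lemma lse_add (w u u' : X → ℝ) :
    lse w (fun x => u x + u' x) = lse (fun x => w x * Real.exp (u x)) u' := by
  unfold lse
  congr 1
  refine Finset.sum_congr rfl fun x _ => ?_
  rw [Real.exp_add]
  ring

variable {Ω Ω' : Type*} [MeasurableSpace Ω] [MeasurableSpace Ω']

/-- **Replacing the patterns one at a time.** -/
theorem tele [Nonempty X] (ρ : Measure Ω) [IsProbabilityMeasure ρ] (μ : Measure Ω')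
    [IsProbabilityMeasure μ] {U : Ω → X → ℝ} {V : ℕ → Ω' → X → ℝ}
    (mU : ∀ x, Measurable fun ω => U ω x) (iU : ∀ x, Integrable (fun ω => U ω x) ρ)
    (mV : ∀ A x, Measurable fun ω => V A ω x) (iV : ∀ A x, Integrable (fun ω => V A ω x) μ)
    (hV0 : ∀ ω x, V 0 ω x = 0) {κ : ℝ}
    (h : ∀ (A : ℕ) (w : X → ℝ), (∀ x, 0 < w x) →
      ∫ ω', ∫ ω, lse w (fun x => V A ω' x + U ω x) ∂ρ ∂μ ≤ ∫ ω', lse w (V (A + 1) ω') ∂μ + κ)
    (A : ℕ) (w : X → ℝ) (hw : ∀ x, 0 < w x) :
    ∫ ω : Fin A → Ω, lse w (fun x => ∑ a, U (ω a) x) ∂(Measure.pi fun _ => ρ) ≤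
      ∫ ω', lse w (V A ω') ∂μ + A * κ := by
  induction A generalizing w with
  | zero =>
    have e1 : ∀ ω : Fin 0 → Ω, lse w (fun x => ∑ a, U (ω a) x) = lse w (fun _ => 0) := by
      intro ω; simp
    have e2 : ∀ ω' : Ω', V 0 ω' = fun _ => 0 := fun ω' => funext fun x => hV0 ω' x
    simp only [e1, e2]
    simp
  | succ A ih =>
    have mp := measurePreserving_piFinSuccAbove (fun _ : Fin (A + 1) => ρ) 0
    have e0 : ∀ ω : Fin (A + 1) → Ω, (fun x => ∑ a, U (ω a) x) =
        fun x => U ((MeasurableEquiv.piFinSuccAbove (fun _ => Ω) 0 ω).1) x +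
          ∑ a, U ((MeasurableEquiv.piFinSuccAbove (fun _ => Ω) 0 ω).2 a) x := by
      intro ω
      funext x
      rw [Fin.sum_univ_succ]
      rfl
    have e1 : ∫ ω : Fin (A + 1) → Ω, lse w (fun x => ∑ a, U (ω a) x) ∂(Measure.pi fun _ => ρ) =
        ∫ p : Ω × (Fin A → Ω), lse w (fun x => U p.1 x + ∑ a, U (p.2 a) x)
          ∂(ρ.prod (Measure.pi fun _ => ρ)) := by
      simp only [e0]
      exact mp.integral_comp (MeasurableEquiv.measurableEmbedding _)
        (fun p : Ω × (Fin A → Ω) => lse w (fun x => U p.1 x + ∑ a, U (p.2 a) x))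
    have iUa : ∀ x, Integrable (fun ω : Fin A → Ω => ∑ a, U (ω a) x) (Measure.pi fun _ => ρ) :=
      fun x => integrable_finsetSum _ fun a _ => integrable_comp_eval (μ := fun _ => ρ) (i := a) (iU x)
    have mUa : ∀ x, Measurable (fun ω : Fin A → Ω => ∑ a, U (ω a) x) := fun x =>
      Finset.measurable_sum _ fun a _ => (mU x).comp (measurable_pi_apply a)
    have iP : Integrable (fun p : Ω × (Fin A → Ω) => lse w (fun x => U p.1 x + ∑ a, U (p.2 a) x))
        (ρ.prod (Measure.pi fun _ => ρ)) := by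
      refine lse_integrable hw (fun x => ?_) (fun x => ?_)
      · exact ((mU x).comp measurable_fst).add ((mUa x).comp measurable_snd)
      · exact ((iU x).comp_fst _).add ((iUa x).comp_snd _)
    have iQ : Integrable (fun p : Ω × Ω' => lse w (fun x => U p.1 x + V A p.2 x)) (ρ.prod μ) := by
      refine lse_integrable hw (fun x => ?_) (fun x => ?_)
      · exact ((mU x).comp measurable_fst).add ((mV A x).comp measurable_snd)
      · exact ((iU x).comp_fst _).add ((iV A x).comp_snd _)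
    rw [e1, integral_prod _ iP]
    have h1 : ∀ ω : Ω, ∫ ω' : Fin A → Ω, lse w (fun x => U ω x + ∑ a, U (ω' a) x)
        ∂(Measure.pi fun _ => ρ) ≤ ∫ ω', lse w (fun x => U ω x + V A ω' x) ∂μ + A * κ := by
      intro ω
      have := ih (fun x => w x * Real.exp (U ω x)) (fun x => mul_pos (hw x) (Real.exp_pos _))
      simp only [lse_add]
      exact this
    have i5 : Integrable (fun ω => ∫ ω', lse w (fun x => U ω x + V A ω' x) ∂μ) ρ :=
      iQ.integral_prod_left
    have i6 : Integrable (fun ω => ∫ ω', lse w (fun x => U ω x + V A ω' x) ∂μ + A * κ) ρ :=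
      i5.add (integrable_const (A * κ))
    have h2 := integral_mono iP.integral_prod_left i6 h1
    refine h2.trans ?_
    rw [integral_add i5 (integrable_const _), integral_integral_swap iQ]
    simp only [integral_const, probReal_univ, smul_eq_mul, one_mul]
    have h3 := h A w hw
    have e3 : ∀ (ω' : Ω') (ω : Ω), (fun x => U ω x + V A ω' x) = fun x => V A ω' x + U ω x :=
      fun ω' ω => funext fun x => add_comm _ _
    simp only [e3]
    push_cast
    linarith

end Vale.Agent.P146.Sk.Low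
end
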