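import Mathlib
import Vale.Agent.P146.Bdl.B2
import Vale.Agent.P367.GT.Stein
import Vale.Agent.P146.Bdl.B5

set_option linter.all false

section

/-!
Calculus for the tilted chain: Gaussian integration by parts and differentiation under the
integral for functions of exponential growth on `ℝ^N`.
-/

open MeasureTheory ProbabilityTheory

namespace Vale.Agent.P157.Par

open Vale.Agent.P367.GT (map_update measurable_upd)

variable {N : ℕ}

theorem integrable_gaussianReal_iff (g : ℝ → ℝ) :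
    Integrable g (gaussianReal 0 1) ↔ Integrable (fun x => gaussianPDFReal 0 1 x * g x) := by
  rw [gaussianReal_of_var_ne_zero _ one_ne_zero,
    integrable_withDensity_iff_integrable_smul' (measurable_gaussianPDF 0 1)
      (Filter.Eventually.of_forall fun x => gaussianPDF_lt_top)]
  simp only [smul_eq_mul, gaussianPDF, ENNReal.toReal_ofReal (gaussianPDFReal_nonneg 0 1 _)]

/-- One-dimensional Gaussian integration by parts. -/
theorem stein_one_int (g g' : ℝ → ℝ) (hd : ∀ x, HasDerivAt g (g' x) x)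
    (h0 : Integrable g (gaussianReal 0 1)) (h1 : Integrable (fun x => x * g x) (gaussianReal 0 1))
    (h2 : Integrable g' (gaussianReal 0 1)) :
    ∫ x, x * g x ∂(gaussianReal 0 1) = ∫ x, g' x ∂(gaussianReal 0 1) := by
  set φ : ℝ → ℝ := gaussianPDFReal 0 1 with hφ
  have hφd : ∀ x, HasDerivAt φ (-(x * φ x)) x := by
    intro x
    have h1 : HasDerivAt (fun y : ℝ => -(y - 0) ^ 2 / (2 * ((1 : NNReal) : ℝ))) (-x) x := by
      have h2 : HasDerivAt (fun y : ℝ => -(y ^ 2) / 2) (-(2 * x) / 2) x := by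
        have h0 := ((hasDerivAt_pow 2 x).neg).div_const (2 : ℝ)
        simpa using h0
      have h2' : (fun y : ℝ => -(y - 0) ^ 2 / (2 * ((1 : NNReal) : ℝ))) = fun y => -(y ^ 2) / 2 := by
        funext y
        simp
      rw [h2']
      have h2'' : -x = -(2 * x) / 2 := by ring
      rw [h2'']
      exact h2
    have h3 := (h1.exp).const_mul ((Real.sqrt (2 * Real.pi * ((1 : NNReal) : ℝ)))⁻¹)
    have h4 : φ = fun y => (Real.sqrt (2 * Real.pi * ((1 : NNReal) : ℝ)))⁻¹
        * Real.exp (-(y - 0) ^ 2 / (2 * ((1 : NNReal) : ℝ))) := by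
      funext y
      rw [hφ, gaussianPDFReal_def]
    have h5 : -(x * φ x) = (Real.sqrt (2 * Real.pi * ((1 : NNReal) : ℝ)))⁻¹
        * (Real.exp (-(x - 0) ^ 2 / (2 * ((1 : NNReal) : ℝ))) * -x) := by
      rw [h4]
      ring
    rw [h5, h4]
    exact h3
  have e1 : ∫ x, x * g x ∂(gaussianReal 0 1) = ∫ x, φ x * (x * g x) := by
    rw [integral_gaussianReal_eq_integral_smul one_ne_zero]
    rfl
  have e2 : ∫ x, g' x ∂(gaussianReal 0 1) = ∫ x, φ x * g' x := by
    rw [integral_gaussianReal_eq_integral_smul one_ne_zero]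
    rfl
  rw [integrable_gaussianReal_iff] at h0 h1 h2
  have i1 : Integrable (g * fun x => -(x * φ x)) := by
    refine h1.neg.congr (Filter.Eventually.of_forall fun x => ?_)
    simp only [Pi.neg_apply, Pi.mul_apply]
    ring
  have i2 : Integrable (g' * φ) := by
    refine h2.congr (Filter.Eventually.of_forall fun x => ?_)
    simp only [Pi.mul_apply]
    ring
  have i3 : Integrable (g * φ) := by
    refine h0.congr (Filter.Eventually.of_forall fun x => ?_)
    simp only [Pi.mul_apply]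
    ring
  have key := integral_mul_deriv_eq_deriv_mul_of_integrable (u := g) (v := φ) (u' := g')
    (v' := fun x => -(x * φ x)) (fun x _ => hd x) (fun x _ => hφd x) i1 i2 i3
  rw [e1, e2]
  have h5 : ∫ x, φ x * (x * g x) = - ∫ x, g x * -(x * φ x) := by
    rw [← integral_neg]
    congr 1
    funext x
    ring
  rw [h5, key, neg_neg]
  congr 1
  funext x
  ring

/-- Gaussian integration by parts in the coordinate `e`. -/
theorem stein_pi_int (e : Fin N) (G G' : (Fin N → ℝ) → ℝ)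
    (hd : ∀ J x, HasDerivAt (fun y => G (Function.update J e y)) (G' (Function.update J e x)) x)
    (h0 : Integrable G (gN N)) (h1 : Integrable (fun J => J e * G J) (gN N))
    (h2 : Integrable G' (gN N)) :
    ∫ J, J e * G J ∂(gN N) = ∫ J, G' J ∂(gN N) := by
  have hupd : ((gN N).prod (gaussianReal 0 1)).map
      (fun q : (Fin N → ℝ) × ℝ => Function.update q.1 e q.2) = gN N := map_update e
  have hprod : ∀ F : (Fin N → ℝ) → ℝ, Integrable F (gN N) →
      Integrable (fun q : (Fin N → ℝ) × ℝ => F (Function.update q.1 e q.2))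
        ((gN N).prod (gaussianReal 0 1)) := by
    intro F hF
    have hF' : Integrable F (((gN N).prod (gaussianReal 0 1)).map
        (fun q : (Fin N → ℝ) × ℝ => Function.update q.1 e q.2)) := by
      rw [hupd]; exact hF
    exact (integrable_map_measure hF'.aestronglyMeasurable
      (measurable_upd e).aemeasurable).mp hF'
  have hres : ∀ F : (Fin N → ℝ) → ℝ, Integrable F (gN N) →
      ∫ J, F J ∂(gN N) = ∫ J, ∫ x, F (Function.update J e x) ∂(gaussianReal 0 1) ∂(gN N) := by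
    intro F hF
    have hF' : Integrable F (((gN N).prod (gaussianReal 0 1)).map
        (fun q : (Fin N → ℝ) × ℝ => Function.update q.1 e q.2)) := by
      rw [hupd]; exact hF
    conv_lhs => rw [← hupd]
    rw [integral_map (measurable_upd e).aemeasurable hF'.aestronglyMeasurable]
    rw [integral_prod]
    exact hprod F hF
  rw [hres _ h1, hres _ h2]
  apply integral_congr_ae
  have a0 := (hprod _ h0).prod_right_ae
  have a1 := (hprod _ h1).prod_right_ae
  have a2 := (hprod _ h2).prod_right_ae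
  filter_upwards [a0, a1, a2] with J b0 b1 b2
  simp only [Function.update_self] at b1 ⊢
  exact stein_one_int (fun x => G (Function.update J e x)) (fun x => G' (Function.update J e x))
    (hd J) b0 b1 b2

/-! ### Partial derivatives -/

/-- `H'` is the partial derivative of `H` in the coordinate `i`. -/
def PD (i : Fin N) (H H' : (Fin N → ℝ) → ℝ) : Prop :=
  ∀ y x, HasDerivAt (fun t => H (Function.update y i t)) (H' (Function.update y i x)) x

theorem update_add_smul (y z : Fin N → ℝ) (i : Fin N) (t s : ℝ) :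
    Function.update y i t + s • z = Function.update (y + s • z) i (t + s * z i) := by
  funext j
  by_cases hj : j = i
  · subst hj; simp
  · simp [Function.update_of_ne hj]

theorem PD.shift {i : Fin N} {H H' : (Fin N → ℝ) → ℝ} (hd : PD i H H') (y z : Fin N → ℝ)
    (s x : ℝ) : HasDerivAt (fun t => H (Function.update y i t + s • z))
      (H' (Function.update y i x + s • z)) x := by
  simp only [update_add_smul]
  exact (hd (y + s • z) (x + s * z i)).comp_add_const x (s * z i)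

theorem norm_update_le (y : Fin N → ℝ) (i : Fin N) (t : ℝ) :
    ‖Function.update y i t‖ ≤ ‖y‖ + |t| := by
  rw [pi_norm_le_iff_of_nonneg (by positivity)]
  intro j
  by_cases hj : j = i
  · subst hj
    rw [Function.update_self, Real.norm_eq_abs]
    linarith [norm_nonneg y]
  · rw [Function.update_of_ne hj]
    linarith [norm_le_pi_norm y j, abs_nonneg t]

/-- Differentiation under the integral. -/
theorem PD.integral {i : Fin N} {H H' : (Fin N → ℝ) → ℝ} (hd : PD i H H') (hg : EG H)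
    (hg' : EG H') (s : ℝ) :
    PD i (fun y => ∫ z, H (y + s • z) ∂(gN N)) (fun y => ∫ z, H' (y + s • z) ∂(gN N)) := by
  intro y x
  have hm := hg.meas
  have hm' := hg'.meas
  obtain ⟨C, a, hC, ha, h1⟩ := hg'.bdd
  refine (hasDerivAt_integral_of_dominated_loc_of_deriv_le
    (F := fun t z => H (Function.update y i t + s • z))
    (F' := fun t z => H' (Function.update y i t + s • z))
    (bound := fun z => C * Real.exp (a * (‖y‖ + |x| + 1)) * Real.exp (a * |s| * ‖z‖))
    (Metric.ball_mem_nhds x one_pos) ?_ ?_ ?_ ?_ ?_ ?_).2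
  · exact Filter.Eventually.of_forall fun t => (hg.integrable _ s).aestronglyMeasurable
  · exact hg.integrable _ s
  · exact (hg'.integrable _ s).aestronglyMeasurable
  · refine Filter.Eventually.of_forall fun z t ht => ?_
    rw [Metric.mem_ball, Real.dist_eq] at ht
    have h2 : ‖Function.update y i t + s • z‖ ≤ (‖y‖ + |x| + 1) + |s| * ‖z‖ := by
      refine (norm_add_le _ _).trans ?_
      rw [norm_smul, Real.norm_eq_abs]
      have h3 := norm_update_le y i t
      have h4 : |t| ≤ |x| + 1 := by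
        have := abs_add_le (t - x) x
        rw [sub_add_cancel] at this
        linarith
      linarith
    rw [Real.norm_eq_abs]
    calc |H' (Function.update y i t + s • z)|
        ≤ C * Real.exp (a * ‖Function.update y i t + s • z‖) := h1 _
      _ ≤ C * Real.exp (a * ((‖y‖ + |x| + 1) + |s| * ‖z‖)) := by gcongr
      _ = C * Real.exp (a * (‖y‖ + |x| + 1)) * Real.exp (a * |s| * ‖z‖) := by
          rw [mul_assoc, ← Real.exp_add]
          congr 2
          ring
  · exact (integrable_exp_norm (a * |s|)).const_mul _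
  · refine Filter.Eventually.of_forall fun z t _ => hd.shift y z s t

theorem integrable_coord_mul {h : (Fin N → ℝ) → ℝ} (hh : EG h) (i : Fin N) (y : Fin N → ℝ)
    (s : ℝ) : Integrable (fun z => z i * h (y + s • z)) (gN N) := by
  obtain ⟨C, a, hC, ha, hb⟩ := hh.bdd
  refine ((integrable_exp_norm (N := N) (a * |s| + 1)).const_mul
    (C * Real.exp (a * ‖y‖))).mono'
    ((measurable_pi_apply i).mul (hh.meas.comp (by fun_prop))).aestronglyMeasurable
    (Filter.Eventually.of_forall fun z => ?_)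
  rw [Real.norm_eq_abs, abs_mul]
  have h0 : |z i| ≤ Real.exp ‖z‖ := by
    rw [← Real.norm_eq_abs]
    exact (norm_le_pi_norm z i).trans ((Real.add_one_le_exp ‖z‖).trans' (by linarith))
  have h1 : |h (y + s • z)| ≤ C * Real.exp (a * ‖y‖) * Real.exp (a * |s| * ‖z‖) := by
    refine (hb _).trans ?_
    rw [mul_assoc, ← Real.exp_add]
    gcongr
    calc a * ‖y + s • z‖ ≤ a * (‖y‖ + ‖s • z‖) := by gcongr; exact norm_add_le _ _
      _ = _ := by rw [norm_smul, Real.norm_eq_abs]; ring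
  calc |z i| * |h (y + s • z)|
      ≤ Real.exp ‖z‖ * (C * Real.exp (a * ‖y‖) * Real.exp (a * |s| * ‖z‖)) := by gcongr
    _ = _ := by rw [add_mul, Real.exp_add, one_mul]; ring

/-- Integration by parts with a shift. -/
theorem PD.stein {i : Fin N} {H H' : (Fin N → ℝ) → ℝ} (hd : PD i H H') (hg : EG H)
    (hg' : EG H') (s : ℝ) (y : Fin N → ℝ) :
    ∫ z, z i * H (y + s • z) ∂(gN N) = s * ∫ z, H' (y + s • z) ∂(gN N) := by
  rw [← integral_const_mul]
  refine stein_pi_int i (fun z => H (y + s • z)) (fun z => s * H' (y + s • z)) ?_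
    (hg.integrable y s) (integrable_coord_mul hg i y s) ((hg'.integrable y s).const_mul s)
  intro z x
  have h1 : ∀ t, y + s • Function.update z i t =
      Function.update (y + s • z) i (s * t + y i) := by
    intro t
    funext j
    by_cases hj : j = i
    · subst hj; simp [add_comm]
    · simp [Function.update_of_ne hj]
  simp only [h1]
  have h2 : HasDerivAt (fun t : ℝ => s * t + y i) s x := by
    simpa using ((hasDerivAt_id x).const_mul s).add_const (y i)
  have h3 := (hd (y + s • z) (s * x + y i)).comp x h2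
  rw [mul_comm] at h3
  exact h3

theorem PD.congr {i : Fin N} {H H' K' : (Fin N → ℝ) → ℝ} (hd : PD i H H')
    (h : ∀ y, H' y = K' y) : PD i H K' := by
  intro y x
  rw [← h]
  exact hd y x

theorem PD.add {i : Fin N} {H H' K K' : (Fin N → ℝ) → ℝ} (hd : PD i H H') (hk : PD i K K') :
    PD i (fun y => H y + K y) (fun y => H' y + K' y) := fun y x => (hd y x).add (hk y x)

theorem PD.mul {i : Fin N} {H H' K K' : (Fin N → ℝ) → ℝ} (hd : PD i H H') (hk : PD i K K') :
    PD i (fun y => H y * K y) (fun y => H' y * K y + H y * K' y) :=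
  fun y x => (hd y x).mul (hk y x)

theorem PD.const_mul {i : Fin N} {H H' : (Fin N → ℝ) → ℝ} (hd : PD i H H') (c : ℝ) :
    PD i (fun y => c * H y) (fun y => c * H' y) := fun y x => (hd y x).const_mul c

theorem PD.exp {i : Fin N} {H H' : (Fin N → ℝ) → ℝ} (hd : PD i H H') :
    PD i (fun y => Real.exp (H y)) (fun y => Real.exp (H y) * H' y) :=
  fun y x => (hd y x).exp

theorem PD.log {i : Fin N} {H H' : (Fin N → ℝ) → ℝ} (hd : PD i H H') (h0 : ∀ y, H y ≠ 0) :
    PD i (fun y => Real.log (H y)) (fun y => H' y / H y) :=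
  fun y x => (hd y x).log (h0 _)

theorem PD.div {i : Fin N} {H H' K K' : (Fin N → ℝ) → ℝ} (hd : PD i H H') (hk : PD i K K')
    (h0 : ∀ y, K y ≠ 0) :
    PD i (fun y => H y / K y) (fun y => (H' y * K y - H y * K' y) / (K y) ^ 2) :=
  fun y x => (hd y x).div (hk y x) (h0 _)

theorem PD.sum {i : Fin N} {ι : Type*} (s : Finset ι) {H H' : ι → (Fin N → ℝ) → ℝ}
    (hd : ∀ a ∈ s, PD i (H a) (H' a)) :
    PD i (fun y => ∑ a ∈ s, H a y) (fun y => ∑ a ∈ s, H' a y) :=
  fun y x => HasDerivAt.fun_sum fun a ha => hd a ha y x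

/-! ### The data of a level of the tilted chain -/

/-- `G` is Lipschitz with gradient `c B`, and `∂_i B_i = d_i`, everything bounded. -/
structure Lvl (c : ℝ) (G : (Fin N → ℝ) → ℝ) (B d : (Fin N → ℝ) → Fin N → ℝ) : Prop where
  lip : Lip G
  pd : ∀ i, PD i G (fun y => c * B y i)
  pd2 : ∀ i, PD i (fun y => B y i) (fun y => d y i)
  mB : ∀ i, Measurable (fun y => B y i)
  md : ∀ i, Measurable (fun y => d y i)
  bB : ∃ K : ℝ, ∀ y i, |B y i| ≤ K
  bd : ∃ K : ℝ, ∀ y i, |d y i| ≤ K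

namespace Lvl

variable {c : ℝ} {G : (Fin N → ℝ) → ℝ} {B d : (Fin N → ℝ) → Fin N → ℝ}

theorem egB (H : Lvl c G B d) (i : Fin N) : EG (fun y => B y i) := by
  obtain ⟨K, hK⟩ := H.bB
  exact EG.of_bdd (H.mB i) fun y => hK y i

theorem egd (H : Lvl c G B d) (i : Fin N) : EG (fun y => d y i) := by
  obtain ⟨K, hK⟩ := H.bd
  exact EG.of_bdd (H.md i) fun y => hK y i

theorem pd_exp (H : Lvl c G B d) (m : ℝ) (i : Fin N) :
    PD i (fun y => Real.exp (m * G y)) (fun y => m * c * B y i * Real.exp (m * G y)) :=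
  ((H.pd i).const_mul m).exp.congr fun y => by ring

theorem eg_pd_exp (H : Lvl c G B d) (m : ℝ) (i : Fin N) :
    EG (fun y => m * c * B y i * Real.exp (m * G y)) :=
  ((H.egB i).const_mul (m * c)).mul (H.lip.exp_eg m)

theorem pd_int (H : Lvl c G B d) (m v : ℝ) (i : Fin N) :
    PD i (fun y => ∫ z, Real.exp (m * G (y + √v • z)) ∂(gN N))
      (fun y => ∫ z, m * c * B (y + √v • z) i * Real.exp (m * G (y + √v • z)) ∂(gN N)) :=
  (H.pd_exp m i).integral (H.lip.exp_eg m) (H.eg_pd_exp m i) (√v)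

theorem pd_gstep (H : Lvl c G B d) {m : ℝ} (hm : m ≠ 0) (v : ℝ) (i : Fin N) :
    PD i (gstepN m v G) (fun y => c * tiltN m v G (fun y => B y i) y) := by
  have h1 := ((H.pd_int m v i).log fun y => (int_exp_pos H.lip m v y).ne').const_mul (1 / m)
  refine h1.congr fun y => ?_
  unfold tiltN
  have h2 : ∫ z, m * c * B (y + √v • z) i * Real.exp (m * G (y + √v • z)) ∂(gN N) =
      m * c * ∫ z, B (y + √v • z) i * Real.exp (m * G (y + √v • z)) ∂(gN N) := by
    rw [← integral_const_mul]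
    refine integral_congr_ae (Filter.Eventually.of_forall fun z => ?_)
    ring
  rw [h2]
  field_simp

/-- derivative of the tilted average of `B_i`. -/
theorem pd_tilt (H : Lvl c G B d) (m v : ℝ) (i : Fin N) :
    PD i (tiltN m v G (fun y => B y i)) (fun y => tiltN m v G (fun y => d y i + m * c * B y i ^ 2) y
      - m * c * (tiltN m v G (fun y => B y i) y) ^ 2) := by
  have hP := H.pd_int m v i
  have hQ0 : PD i (fun y => B y i * Real.exp (m * G y))
      (fun y => (d y i + m * c * B y i ^ 2) * Real.exp (m * G y)) :=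
    ((H.pd2 i).mul (H.pd_exp m i)).congr fun y => by ring
  have egd2 : EG (fun y => d y i + m * c * B y i ^ 2) :=
    (H.egd i).add (((H.egB i).pow 2).const_mul _)
  have hQ := hQ0.integral ((H.egB i).mul (H.lip.exp_eg m)) (egd2.mul (H.lip.exp_eg m)) (√v)
  have h3 := hQ.div hP fun y => (int_exp_pos H.lip m v y).ne'
  refine h3.congr fun y => ?_
  unfold tiltN
  have h2 : ∫ z, m * c * B (y + √v • z) i * Real.exp (m * G (y + √v • z)) ∂(gN N) =
      m * c * ∫ z, B (y + √v • z) i * Real.exp (m * G (y + √v • z)) ∂(gN N) := by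
    rw [← integral_const_mul]
    refine integral_congr_ae (Filter.Eventually.of_forall fun z => ?_)
    ring
  rw [h2]
  have hpos := int_exp_pos H.lip m v y
  field_simp

theorem step (H : Lvl c G B d) {m : ℝ} (hm : 0 < m) (v : ℝ) :
    Lvl c (gstepN m v G) (fun y i => tiltN m v G (fun y => B y i) y)
      (fun y i => tiltN m v G (fun y => d y i + m * c * B y i ^ 2) y
        - m * c * (tiltN m v G (fun y => B y i) y) ^ 2) := by
  have egd2 : ∀ i, EG (fun y => d y i + m * c * B y i ^ 2) := fun i =>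
    (H.egd i).add (((H.egB i).pow 2).const_mul _)
  obtain ⟨K, hK⟩ := H.bB
  obtain ⟨K', hK'⟩ := H.bd
  refine ⟨H.lip.gstep hm v, H.pd_gstep hm.ne' v, H.pd_tilt m v, fun i =>
    (H.egB i).measurable_tilt H.lip m v, fun i => ?_, ⟨K, fun y i =>
      abs_tiltN_le_of_bdd H.lip (H.mB i) (fun y => hK y i) m v y⟩,
      ⟨(K' + |m * c| * K ^ 2) + |m * c| * K ^ 2, fun y i => ?_⟩⟩
  · exact ((egd2 i).measurable_tilt H.lip m v).sub
      ((((H.egB i).measurable_tilt H.lip m v).pow_const 2).const_mul _)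
  · have h1 : |tiltN m v G (fun y => d y i + m * c * B y i ^ 2) y| ≤ K' + |m * c| * K ^ 2 := by
      refine abs_tiltN_le_of_bdd H.lip (egd2 i).meas (fun y => ?_) m v y
      refine (abs_add_le _ _).trans (add_le_add (hK' y i) ?_)
      rw [abs_mul, abs_pow]
      gcongr
      exact hK y i
    have h2 : |tiltN m v G (fun y => B y i) y| ≤ K :=
      abs_tiltN_le_of_bdd H.lip (H.mB i) (fun y => hK y i) m v y
    refine (abs_sub _ _).trans (add_le_add h1 ?_)
    rw [abs_mul, abs_pow]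
    gcongr

/-- Gaussian integration by parts at one level. -/
theorem tilt_field (H : Lvl c G B d) (m : ℝ) {v : ℝ} (hv : 0 ≤ v) (y : Fin N → ℝ) :
    tiltN m v G (fun y => ∑ i, y i * B y i) y =
      ∑ i, y i * tiltN m v G (fun y => B y i) y +
        v * ∑ i, tiltN m v G (fun y => d y i + m * c * B y i ^ 2) y := by
  have hyB : ∀ i, EG (fun y : Fin N → ℝ => y i * B y i) := fun i => (EG.coord i).mul (H.egB i)
  rw [tiltN_sum Finset.univ H.lip (fun i _ => hyB i), Finset.mul_sum, ← Finset.sum_add_distrib]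
  refine Finset.sum_congr rfl fun i _ => ?_
  have egd2 : EG (fun y => d y i + m * c * B y i ^ 2) :=
    (H.egd i).add (((H.egB i).pow 2).const_mul _)
  have hQ0 : PD i (fun y => B y i * Real.exp (m * G y))
      (fun y => (d y i + m * c * B y i ^ 2) * Real.exp (m * G y)) :=
    ((H.pd2 i).mul (H.pd_exp m i)).congr fun y => by ring
  have hst := hQ0.stein ((H.egB i).mul (H.lip.exp_eg m)) (egd2.mul (H.lip.exp_eg m)) (√v) y
  have hpos := int_exp_pos H.lip m v y
  unfold tiltN
  rw [← mul_div_assoc, ← mul_div_assoc, ← add_div]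
  congr 1
  have e1 : ∀ z : Fin N → ℝ, (y + √v • z) i * B (y + √v • z) i * Real.exp (m * G (y + √v • z)) =
      y i * (B (y + √v • z) i * Real.exp (m * G (y + √v • z))) +
        √v * (z i * (B (y + √v • z) i * Real.exp (m * G (y + √v • z)))) := by
    intro z
    simp only [Pi.add_apply, Pi.smul_apply, smul_eq_mul]
    ring
  simp only [e1]
  rw [integral_add (((H.egB i).integrable_tilt H.lip m v y).const_mul _)
    ((integrable_coord_mul ((H.egB i).mul (H.lip.exp_eg m)) i y (√v)).const_mul _),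
    integral_const_mul, integral_const_mul, hst, ← mul_assoc, Real.mul_self_sqrt hv]

end Lvl

end Vale.Agent.P157.Par
end

section

/-!
Monotone likelihood ratio comparisons for even convex log-weights (task SP3).
-/

open MeasureTheory ProbabilityTheory Filter Topology Set

namespace Vale.Agent.P157.Par

variable {F M D F' M' D' : ℝ → ℝ}

/-! ### Basic facts -/

theorem sp3_abs_M (h : Ec F M D) (x : ℝ) : |M x| ≤ 1 := by
  have h1 := h.D0 x
  have h2 := h.D1 x
  rw [← sq_le_one_iff_abs_le_one]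
  linarith

theorem sp3_odd (h : Ec F M D) (x : ℝ) : M (-x) = - M x := by
  have h1 : HasDerivAt (fun y => F (-y)) (M (-x) * (-1)) x :=
    HasDerivAt.comp x (h.d1 (-x)) (hasDerivAt_neg x)
  have h2 : (fun y => F (-y)) = F := funext h.even
  rw [h2] at h1
  have := h1.unique (h.d1 x)
  linarith

theorem sp3_mono (h : Ec F M D) : Monotone M :=
  monotone_of_deriv_nonneg (fun x => (h.d2 x).differentiableAt)
    (fun x => by rw [(h.d2 x).deriv]; exact h.D0 x)

theorem sp3_nonneg (h : Ec F M D) {x : ℝ} (hx : 0 ≤ x) : 0 ≤ M x := by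
  have h0 : M 0 = 0 := by
    have := sp3_odd h 0
    rw [neg_zero] at this
    linarith only [this]
  rw [← h0]
  exact sp3_mono h hx

theorem sp3_contF (h : Ec F M D) : Continuous F :=
  continuous_iff_continuousAt.2 fun x => (h.d1 x).continuousAt

theorem sp3_contM (h : Ec F M D) : Continuous M :=
  continuous_iff_continuousAt.2 fun x => (h.d2 x).continuousAt

theorem sp3_lip (h : Ec F M D) (x : ℝ) : |F x| ≤ |F 0| + |x| := by
  have h1 := Convex.norm_image_sub_le_of_norm_hasDerivWithin_le (f := F) (f' := M) (s := univ)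
    (C := 1) (x := 0) (y := x) (fun y _ => (h.d1 y).hasDerivWithinAt)
    (fun y _ => sp3_abs_M h y) convex_univ (mem_univ _) (mem_univ _)
  rw [sub_zero, one_mul, Real.norm_eq_abs, Real.norm_eq_abs] at h1
  have h2 := abs_sub_abs_le_abs_sub (F x) (F 0)
  linarith

/-! ### Integrability -/

theorem sp3_exp_abs (c : ℝ) : Integrable (fun y : ℝ => Real.exp (c * |y|)) (gaussianReal 0 1) := by
  have h1 := (integrable_exp_mul_gaussianReal (μ := 0) (v := 1) c).add
    (integrable_exp_mul_gaussianReal (μ := 0) (v := 1) (-c))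
  refine h1.mono' (by exact Continuous.aestronglyMeasurable (by fun_prop)) (ae_of_all _ fun y => ?_)
  rw [Real.norm_eq_abs, abs_of_pos (Real.exp_pos _), Pi.add_apply]
  rcases abs_cases y with ⟨h, -⟩ | ⟨h, -⟩ <;> rw [h]
  · linarith [Real.exp_pos (-c * y)]
  · rw [show c * -y = -c * y by ring]
    linarith [Real.exp_pos (c * y)]

theorem sp3_int (h : Ec F M D) {G : ℝ → ℝ} (hG : Continuous G) {K : ℝ} (hK : ∀ y, |G y| ≤ K)
    (m s c : ℝ) : Integrable (fun y => G y * (Real.exp (m * F (s * y)) * Real.exp (c * y)))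
      (gaussianReal 0 1) := by
  have hF := sp3_contF h
  have h1 := (sp3_exp_abs (|m| * |s| + |c|)).const_mul (K * Real.exp (|m| * |F 0|))
  refine h1.mono' (by exact Continuous.aestronglyMeasurable (by fun_prop)) (ae_of_all _ fun y => ?_)
  have hK0 : 0 ≤ K := (abs_nonneg _).trans (hK 0)
  rw [norm_mul, norm_mul, Real.norm_eq_abs, Real.norm_eq_abs, Real.norm_eq_abs,
    abs_of_pos (Real.exp_pos _), abs_of_pos (Real.exp_pos _), mul_assoc, ← Real.exp_add,
    ← Real.exp_add]
  refine mul_le_mul (hK y) (Real.exp_le_exp.2 ?_) (Real.exp_pos _).le hK0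
  have e1 : m * F (s * y) ≤ |m| * (|F 0| + |s| * |y|) := by
    refine (le_abs_self _).trans ?_
    rw [abs_mul]
    refine mul_le_mul_of_nonneg_left ?_ (abs_nonneg m)
    rw [← abs_mul]
    exact sp3_lip h _
  have e2 : c * y ≤ |c| * |y| := by
    rw [← abs_mul]
    exact le_abs_self _
  linarith only [e2, e1]

/-- the symmetrised weight -/
noncomputable def sp3_W (m s c : ℝ) (F : ℝ → ℝ) (y : ℝ) : ℝ :=
  Real.exp (m * F (s * y)) * Real.cosh (c * y)

theorem sp3_W_pos (m s c : ℝ) (F : ℝ → ℝ) (y : ℝ) : 0 < sp3_W m s c F y :=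
  mul_pos (Real.exp_pos _) (Real.cosh_pos _)

theorem sp3_W_int (h : Ec F M D) {G : ℝ → ℝ} (hG : Continuous G) {K : ℝ}
    (hK : ∀ y, |G y| ≤ K) (m s c : ℝ) :
    Integrable (fun y => G y * sp3_W m s c F y) (gaussianReal 0 1) := by
  have h1 := ((sp3_int h hG hK m s c).add (sp3_int h hG hK m s (-c))).const_mul (1 / 2)
  refine h1.congr (ae_of_all _ fun y => ?_)
  simp only [Pi.add_apply, sp3_W]
  rw [Real.cosh_eq, show -(c * y) = -c * y by ring]
  ring

theorem sp3_W_int1 (h : Ec F M D) (m s c : ℝ) :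
    Integrable (fun y => sp3_W m s c F y) (gaussianReal 0 1) := by
  have h1 := sp3_W_int h (G := fun _ => 1) continuous_const (K := 1) (fun _ => by simp) m s c
  simpa using h1

theorem sp3_W_ipos (h : Ec F M D) (m s c : ℝ) :
    0 < ∫ y, sp3_W m s c F y ∂(gaussianReal 0 1) := by
  rw [integral_pos_iff_support_of_nonneg (fun y => (sp3_W_pos m s c F y).le) (sp3_W_int1 h m s c)]
  have : Function.support (fun y => sp3_W m s c F y) = univ := by
    ext y
    simp [(sp3_W_pos m s c F y).ne']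
  rw [this]
  simp

/-! ### Shift and symmetrisation -/

theorem sp3_shift (f : ℝ → ℝ) (c : ℝ) : ∫ z, f (z + c) ∂(gaussianReal 0 1) =
    Real.exp (-c ^ 2 / 2) * ∫ z, f z * Real.exp (c * z) ∂(gaussianReal 0 1) := by
  rw [integral_gaussianReal_eq_integral_smul one_ne_zero,
    integral_gaussianReal_eq_integral_smul one_ne_zero, ← integral_const_mul]
  rw [← integral_sub_right_eq_self (fun z => gaussianPDFReal 0 1 z • f (z + c)) c]
  refine integral_congr_ae (ae_of_all _ fun z => ?_)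
  simp only [smul_eq_mul, gaussianPDFReal, sub_add_cancel, sub_zero]
  have : Real.exp (-(z - c) ^ 2 / (2 * ((1 : NNReal) : ℝ))) =
      Real.exp (-c ^ 2 / 2) * Real.exp (-z ^ 2 / (2 * ((1 : NNReal) : ℝ))) * Real.exp (c * z) := by
    rw [← Real.exp_add, ← Real.exp_add]
    congr 1
    simp only [NNReal.coe_one]
    ring
  rw [this]
  ring

theorem sp3_neg (φ : ℝ → ℝ) : ∫ z, φ (-z) ∂(gaussianReal 0 1) = ∫ z, φ z ∂(gaussianReal 0 1) := by
  have h1 : (gaussianReal 0 1).map (fun x : ℝ => -x) = gaussianReal 0 1 := by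
    have := gaussianReal_map_neg (μ := 0) (v := 1)
    rw [neg_zero] at this
    exact this
  conv_rhs => rw [← h1]
  exact ((MeasurableEquiv.neg ℝ).measurableEmbedding.integral_map φ).symm

theorem sp3_num (h : Ec F M D) {G : ℝ → ℝ} {s : ℝ} (hs : 0 < s) (m x : ℝ) :
    ∫ z, G (x + s * z) * Real.exp (m * F (x + s * z)) ∂(gaussianReal 0 1) =
      Real.exp (-(x / s) ^ 2 / 2) *
        ∫ z, G (s * z) * (Real.exp (m * F (s * z)) * Real.exp (x / s * z)) ∂(gaussianReal 0 1) := by
  have h1 := sp3_shift (fun z => G (s * z) * Real.exp (m * F (s * z))) (x / s)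
  have h2 : ∀ z, s * (z + x / s) = x + s * z := by
    intro z
    field_simp
    ring
  simp only [h2] at h1
  rw [h1]
  congr 1
  refine integral_congr_ae (ae_of_all _ fun z => ?_)
  simp only
  ring

theorem sp3_num_even (h : Ec F M D) {G : ℝ → ℝ} (hG : Continuous G) {K : ℝ}
    (hK : ∀ y, |G y| ≤ K) (hev : ∀ y, G (-y) = G y) {s : ℝ} (hs : 0 < s) (m x : ℝ) :
    ∫ z, G (x + s * z) * Real.exp (m * F (x + s * z)) ∂(gaussianReal 0 1) =
      Real.exp (-(x / s) ^ 2 / 2) * ∫ z, G (s * z) * sp3_W m s (x / s) F z ∂(gaussianReal 0 1) := by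
  rw [sp3_num h hs m x]
  congr 1
  have hG' : Continuous fun y => G (s * y) := by fun_prop
  have i1 := sp3_int h hG' (fun y => hK (s * y)) m s (x / s)
  have i2 := sp3_int h hG' (fun y => hK (s * y)) m s (-(x / s))
  have e1 : ∫ z, G (s * z) * (Real.exp (m * F (s * z)) * Real.exp (-(x / s) * z))
      ∂(gaussianReal 0 1) =
      ∫ z, G (s * z) * (Real.exp (m * F (s * z)) * Real.exp (x / s * z)) ∂(gaussianReal 0 1) := by
    rw [← sp3_neg (fun z => G (s * z) * (Real.exp (m * F (s * z)) * Real.exp (x / s * z)))]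
    refine integral_congr_ae (ae_of_all _ fun z => ?_)
    simp only
    rw [show s * -z = -(s * z) by ring, hev, h.even, show x / s * -z = -(x / s) * z by ring]
  have e2 : ∀ z, G (s * z) * sp3_W m s (x / s) F z =
      1 / 2 * (G (s * z) * (Real.exp (m * F (s * z)) * Real.exp (x / s * z))) +
      1 / 2 * (G (s * z) * (Real.exp (m * F (s * z)) * Real.exp (-(x / s) * z))) := by
    intro z
    rw [sp3_W, Real.cosh_eq, show -(x / s * z) = -(x / s) * z by ring]
    ring
  simp_rw [e2]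
  rw [integral_add (i1.const_mul _) (i2.const_mul _), integral_const_mul, integral_const_mul, e1]
  ring

theorem sp3_num_odd (h : Ec F M D) {G : ℝ → ℝ} (hG : Continuous G) {K : ℝ}
    (hK : ∀ y, |G y| ≤ K) (hev : ∀ y, G (-y) = -G y) {s : ℝ} (hs : 0 < s) (m x : ℝ) :
    ∫ z, G (x + s * z) * Real.exp (m * F (x + s * z)) ∂(gaussianReal 0 1) =
      Real.exp (-(x / s) ^ 2 / 2) * ∫ z, (G (s * z) * Real.tanh (x / s * z)) *
        sp3_W m s (x / s) F z ∂(gaussianReal 0 1) := by
  rw [sp3_num h hs m x]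
  congr 1
  have hG' : Continuous fun y => G (s * y) := by fun_prop
  have i1 := sp3_int h hG' (fun y => hK (s * y)) m s (x / s)
  have i2 := sp3_int h hG' (fun y => hK (s * y)) m s (-(x / s))
  have e1 : ∫ z, G (s * z) * (Real.exp (m * F (s * z)) * Real.exp (-(x / s) * z))
      ∂(gaussianReal 0 1) =
      - ∫ z, G (s * z) * (Real.exp (m * F (s * z)) * Real.exp (x / s * z)) ∂(gaussianReal 0 1) := by
    rw [← sp3_neg (fun z => G (s * z) * (Real.exp (m * F (s * z)) * Real.exp (x / s * z))),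
      ← integral_neg]
    refine integral_congr_ae (ae_of_all _ fun z => ?_)
    simp only
    rw [show s * -z = -(s * z) by ring, hev, h.even, show x / s * -z = -(x / s) * z by ring]
    ring
  have e2 : ∀ z, (G (s * z) * Real.tanh (x / s * z)) * sp3_W m s (x / s) F z =
      1 / 2 * (G (s * z) * (Real.exp (m * F (s * z)) * Real.exp (x / s * z))) -
      1 / 2 * (G (s * z) * (Real.exp (m * F (s * z)) * Real.exp (-(x / s) * z))) := by
    intro z
    have hc := (Real.cosh_pos (x / s * z)).ne'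
    rw [sp3_W, Real.tanh_eq_sinh_div_cosh]
    have : G (s * z) * (Real.sinh (x / s * z) / Real.cosh (x / s * z)) *
        (Real.exp (m * F (s * z)) * Real.cosh (x / s * z)) =
        G (s * z) * Real.exp (m * F (s * z)) * Real.sinh (x / s * z) := by
      field_simp
    rw [this, Real.sinh_eq, show -(x / s * z) = -(x / s) * z by ring]
    ring
  simp_rw [e2]
  rw [integral_sub (i1.const_mul _) (i2.const_mul _), integral_const_mul, integral_const_mul, e1]
  ring

theorem sp3_den (h : Ec F M D) {s : ℝ} (hs : 0 < s) (m x : ℝ) :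
    ∫ z, Real.exp (m * F (x + s * z)) ∂(gaussianReal 0 1) =
      Real.exp (-(x / s) ^ 2 / 2) * ∫ z, sp3_W m s (x / s) F z ∂(gaussianReal 0 1) := by
  have h1 := sp3_num_even h (G := fun _ => 1) continuous_const (K := 1) (fun _ => by simp)
    (fun _ => rfl) hs m x
  simpa using h1

theorem sp3_tlt_even (h : Ec F M D) {G : ℝ → ℝ} (hG : Continuous G) {K : ℝ}
    (hK : ∀ y, |G y| ≤ K) (hev : ∀ y, G (-y) = G y) {v : ℝ} (hv : 0 < v) (m x : ℝ) :
    tlt m v F G x = (∫ z, G (√v * z) * sp3_W m (√v) (x / √v) F z ∂(gaussianReal 0 1)) /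
      ∫ z, sp3_W m (√v) (x / √v) F z ∂(gaussianReal 0 1) := by
  have hs : 0 < √v := Real.sqrt_pos.2 hv
  rw [tlt, sp3_num_even h hG hK hev hs, sp3_den h hs, mul_div_mul_left _ _ (Real.exp_pos _).ne']

theorem sp3_tlt_odd (h : Ec F M D) {G : ℝ → ℝ} (hG : Continuous G) {K : ℝ}
    (hK : ∀ y, |G y| ≤ K) (hev : ∀ y, G (-y) = -G y) {v : ℝ} (hv : 0 < v) (m x : ℝ) :
    tlt m v F G x = (∫ z, (G (√v * z) * Real.tanh (x / √v * z)) *
      sp3_W m (√v) (x / √v) F z ∂(gaussianReal 0 1)) /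
      ∫ z, sp3_W m (√v) (x / √v) F z ∂(gaussianReal 0 1) := by
  have hs : 0 < √v := Real.sqrt_pos.2 hv
  rw [tlt, sp3_num_odd h hG hK hev hs, sp3_den h hs, mul_div_mul_left _ _ (Real.exp_pos _).ne']

theorem sp3_tlt_triv {v : ℝ} (hv : v ≤ 0) (m x : ℝ) (F G : ℝ → ℝ) : tlt m v F G x = G x := by
  rw [tlt, Real.sqrt_eq_zero_of_nonpos hv]
  simp only [zero_mul, add_zero, integral_const, probReal_univ, one_smul]
  rw [mul_div_assoc, div_self (Real.exp_pos _).ne', mul_one]

/-! ### Chebyshev association -/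

theorem sp3_cheb {μ : Measure ℝ} [SFinite μ] {W f g : ℝ → ℝ} (hW : ∀ x, 0 ≤ W x)
    (hfg : ∀ x y, 0 ≤ (f x - f y) * (g x - g y)) (i1 : Integrable W μ)
    (i2 : Integrable (fun x => f x * W x) μ) (i3 : Integrable (fun x => g x * W x) μ)
    (i4 : Integrable (fun x => f x * (g x * W x)) μ) :
    (∫ x, f x * W x ∂μ) * (∫ x, g x * W x ∂μ) ≤ (∫ x, W x ∂μ) * ∫ x, f x * (g x * W x) ∂μ := by
  have h0 : 0 ≤ ∫ p : ℝ × ℝ, (f p.1 - f p.2) * (g p.1 - g p.2) * (W p.1 * W p.2) ∂(μ.prod μ) :=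
    integral_nonneg fun p => mul_nonneg (hfg _ _) (mul_nonneg (hW _) (hW _))
  have j1 : Integrable (fun p : ℝ × ℝ => (f p.1 * (g p.1 * W p.1)) * W p.2) (μ.prod μ) :=
    i4.mul_prod i1
  have j2 : Integrable (fun p : ℝ × ℝ => W p.1 * (f p.2 * (g p.2 * W p.2))) (μ.prod μ) :=
    i1.mul_prod i4
  have j3 : Integrable (fun p : ℝ × ℝ => (f p.1 * W p.1) * (g p.2 * W p.2)) (μ.prod μ) :=
    i2.mul_prod i3
  have j4 : Integrable (fun p : ℝ × ℝ => (g p.1 * W p.1) * (f p.2 * W p.2)) (μ.prod μ) :=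
    i3.mul_prod i2
  have e : ∀ p : ℝ × ℝ, (f p.1 - f p.2) * (g p.1 - g p.2) * (W p.1 * W p.2) =
      ((f p.1 * (g p.1 * W p.1)) * W p.2 + W p.1 * (f p.2 * (g p.2 * W p.2))) -
      ((f p.1 * W p.1) * (g p.2 * W p.2) + (g p.1 * W p.1) * (f p.2 * W p.2)) := by
    intro p
    ring
  rw [integral_congr_ae (ae_of_all _ e)] at h0
  have j12 : Integrable (fun p : ℝ × ℝ => (f p.1 * (g p.1 * W p.1)) * W p.2 +
      W p.1 * (f p.2 * (g p.2 * W p.2))) (μ.prod μ) := j1.add j2
  have j34 : Integrable (fun p : ℝ × ℝ => (f p.1 * W p.1) * (g p.2 * W p.2) +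
      (g p.1 * W p.1) * (f p.2 * W p.2)) (μ.prod μ) := j3.add j4
  rw [integral_sub j12 j34, integral_add j1 j2, integral_add j3 j4] at h0
  have k1 : ∫ p : ℝ × ℝ, (f p.1 * (g p.1 * W p.1)) * W p.2 ∂(μ.prod μ) =
      (∫ x, f x * (g x * W x) ∂μ) * ∫ x, W x ∂μ :=
    integral_prod_mul (fun x => f x * (g x * W x)) W
  have k2 : ∫ p : ℝ × ℝ, W p.1 * (f p.2 * (g p.2 * W p.2)) ∂(μ.prod μ) =
      (∫ x, W x ∂μ) * ∫ x, f x * (g x * W x) ∂μ :=
    integral_prod_mul W (fun x => f x * (g x * W x))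
  have k3 : ∫ p : ℝ × ℝ, (f p.1 * W p.1) * (g p.2 * W p.2) ∂(μ.prod μ) =
      (∫ x, f x * W x ∂μ) * ∫ x, g x * W x ∂μ :=
    integral_prod_mul (fun x => f x * W x) (fun x => g x * W x)
  have k4 : ∫ p : ℝ × ℝ, (g p.1 * W p.1) * (f p.2 * W p.2) ∂(μ.prod μ) =
      (∫ x, g x * W x ∂μ) * ∫ x, f x * W x ∂μ :=
    integral_prod_mul (fun x => g x * W x) (fun x => f x * W x)
  rw [k1, k2, k3, k4] at h0
  linarith only [h0]

theorem sp3_evm_le {g : ℝ → ℝ} (hg : Evm g) {x y : ℝ} (h : |x| ≤ |y|) : g x ≤ g y := by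
  have h1 : ∀ z, g |z| = g z := by
    intro z
    rcases abs_cases z with ⟨h, -⟩ | ⟨h, -⟩ <;> rw [h]
    exact hg.1 z
  rw [← h1 x, ← h1 y]
  exact hg.2 (abs_nonneg x) (abs_nonneg y) h

theorem sp3_evm_prod {f g : ℝ → ℝ} (hf : Evm f) (hg : Evm g) (x y : ℝ) :
    0 ≤ (f x - f y) * (g x - g y) := by
  rcases le_total |x| |y| with h | h
  · exact mul_nonneg_of_nonpos_of_nonpos (sub_nonpos.2 (sp3_evm_le hf h))
      (sub_nonpos.2 (sp3_evm_le hg h))
  · exact mul_nonneg (sub_nonneg.2 (sp3_evm_le hf h)) (sub_nonneg.2 (sp3_evm_le hg h))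

/-- comparison of two weights with a monotone ratio -/
theorem sp3_ratio {W W' k : ℝ → ℝ} (hW : ∀ x, 0 < W x) (hk : Evm k)
    (hr : Evm fun x => W' x / W x) (i1 : Integrable W (gaussianReal 0 1))
    (i2 : Integrable W' (gaussianReal 0 1))
    (i3 : Integrable (fun x => k x * W x) (gaussianReal 0 1))
    (i4 : Integrable (fun x => k x * W' x) (gaussianReal 0 1))
    (p1 : 0 < ∫ x, W x ∂(gaussianReal 0 1)) (p2 : 0 < ∫ x, W' x ∂(gaussianReal 0 1)) :
    (∫ x, k x * W x ∂(gaussianReal 0 1)) / ∫ x, W x ∂(gaussianReal 0 1) ≤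
      (∫ x, k x * W' x ∂(gaussianReal 0 1)) / ∫ x, W' x ∂(gaussianReal 0 1) := by
  have e1 : ∀ x, W' x / W x * W x = W' x := fun x => div_mul_cancel₀ _ (hW x).ne'
  have h := sp3_cheb (μ := gaussianReal 0 1) (W := W) (f := k) (g := fun x => W' x / W x)
    (fun x => (hW x).le) (sp3_evm_prod hk hr) i1 i3 (by simpa only [e1] using i2)
    (by simpa only [e1] using i4)
  simp only [e1] at h
  rw [div_le_div_iff₀ p1 p2]
  linarith

/-! ### The two ratios -/

theorem sp3_cosh {a b y y' : ℝ} (ha : 0 ≤ a) (hab : a ≤ b) (hy : 0 ≤ y) (hyy : y ≤ y') :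
    Real.cosh (b * y) * Real.cosh (a * y') ≤ Real.cosh (b * y') * Real.cosh (a * y) := by
  have e : ∀ u w : ℝ, Real.cosh u * Real.cosh w =
      (Real.cosh (u + w) + Real.cosh (u - w)) / 2 := by
    intro u w
    rw [Real.cosh_add, Real.cosh_sub]
    ring
  have hb : 0 ≤ b := ha.trans hab
  have hy' : 0 ≤ y' := hy.trans hyy
  have h1 : 0 ≤ b * y := mul_nonneg hb hy
  have h2 : 0 ≤ a * y' := mul_nonneg ha hy'
  have h3 : 0 ≤ a * y := mul_nonneg ha hy
  have h4 : 0 ≤ b * y' := mul_nonneg hb hy'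
  have h5 : 0 ≤ (b - a) * (y' - y) := mul_nonneg (by linarith) (by linarith)
  have h6 : 0 ≤ (b + a) * (y' - y) := mul_nonneg (by linarith) (by linarith)
  have h7 : 0 ≤ (b - a) * (y' + y) := mul_nonneg (by linarith) (by linarith)
  have c1 : Real.cosh (b * y + a * y') ≤ Real.cosh (b * y' + a * y) := by
    rw [Real.cosh_le_cosh, abs_of_nonneg (by linarith), abs_of_nonneg (by linarith)]
    linarith only [h5]
  have c2 : Real.cosh (b * y - a * y') ≤ Real.cosh (b * y' - a * y) := by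
    rw [Real.cosh_le_cosh]
    refine le_trans ?_ (le_abs_self _)
    rw [abs_le]
    constructor <;> nlinarith only [h7, h6]
  rw [e, e]
  linarith

theorem sp3_evm_cosh {a b : ℝ} (ha : 0 ≤ a) (hab : a ≤ b) :
    Evm fun y => Real.cosh (b * y) / Real.cosh (a * y) := by
  constructor
  · intro y
    simp only [mul_neg, Real.cosh_neg]
  · intro y hy y' _ hyy
    simp only
    rw [div_le_div_iff₀ (Real.cosh_pos _) (Real.cosh_pos _)]
    exact sp3_cosh ha hab hy hyy

theorem sp3_W_ratio1 (m s a b : ℝ) (F : ℝ → ℝ) (y : ℝ) :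
    sp3_W m s b F y / sp3_W m s a F y = Real.cosh (b * y) / Real.cosh (a * y) := by
  rw [sp3_W, sp3_W, mul_div_mul_left _ _ (Real.exp_pos _).ne']

theorem sp3_W_ratio2 (m s a : ℝ) (F F' : ℝ → ℝ) (y : ℝ) :
    sp3_W m s a F y / sp3_W m s a F' y = Real.exp (m * (F (s * y) - F' (s * y))) := by
  rw [sp3_W, sp3_W, mul_div_mul_right _ _ (Real.cosh_pos _).ne', ← Real.exp_sub]
  congr 1
  ring

theorem sp3_evm_exp (h : Ec F M D) (h' : Ec F' M' D') (hle : ∀ x, 0 ≤ x → M' x ≤ M x) {m s : ℝ}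
    (hm : 0 < m) (hs : 0 ≤ s) : Evm fun y => Real.exp (m * (F (s * y) - F' (s * y))) := by
  have hmono : MonotoneOn (fun x => F x - F' x) (Ici 0) := by
    refine monotoneOn_of_deriv_nonneg (convex_Ici 0)
      ((sp3_contF h).sub (sp3_contF h')).continuousOn
      (fun x _ => ((h.d1 x).sub (h'.d1 x)).differentiableAt.differentiableWithinAt) ?_
    intro x hx
    rw [interior_Ici] at hx
    have : deriv (fun x => F x - F' x) x = M x - M' x := ((h.d1 x).sub (h'.d1 x)).deriv
    rw [this]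
    exact sub_nonneg.2 (hle x (le_of_lt hx))
  constructor
  · intro y
    simp only [mul_neg, h.even, h'.even]
  · intro y hy y' hy' hyy
    simp only
    refine Real.exp_le_exp.2 (mul_le_mul_of_nonneg_left ?_ hm.le)
    exact hmono (mul_nonneg hs hy) (mul_nonneg hs hy') (mul_le_mul_of_nonneg_left hyy hs)

theorem sp3_evm_scale {g : ℝ → ℝ} (hg : Evm g) {s : ℝ} (hs : 0 ≤ s) : Evm fun y => g (s * y) := by
  constructor
  · intro y
    simp only [mul_neg, hg.1]
  · intro y hy y' hy' hyy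
    exact hg.2 (mul_nonneg hs hy) (mul_nonneg hs hy') (mul_le_mul_of_nonneg_left hyy hs)

/-! ### The statements -/

theorem Ec.tlt_evm (h : Ec F M D) {g : ℝ → ℝ} (hg : Continuous g) {K : ℝ}
    (hK : ∀ x, |g x| ≤ K) (hev : Evm g) {m : ℝ} (hm : 0 < m) (v : ℝ) :
    Evm (tlt m v F g) := by
  have _ := hm
  rcases le_or_gt v 0 with hv | hv
  · have : tlt m v F g = g := funext fun x => sp3_tlt_triv hv m x F g
    rw [this]
    exact hev
  · have hs : 0 < √v := Real.sqrt_pos.2 hv
    have hG : Continuous fun y => g (√v * y) := by fun_prop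
    constructor
    · intro x
      rw [sp3_tlt_even h hg hK hev.1 hv, sp3_tlt_even h hg hK hev.1 hv]
      have e : sp3_W m (√v) (-x / √v) F = sp3_W m (√v) (x / √v) F := by
        funext y
        rw [sp3_W, sp3_W, neg_div, neg_mul, Real.cosh_neg]
      rw [e]
    · intro x hx x' _ hxx
      rw [sp3_tlt_even h hg hK hev.1 hv, sp3_tlt_even h hg hK hev.1 hv]
      refine sp3_ratio (k := fun y => g (√v * y)) (fun y => sp3_W_pos _ _ _ _ _)
        (sp3_evm_scale hev hs.le) ?_ (sp3_W_int1 h _ _ _) (sp3_W_int1 h _ _ _)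
        (sp3_W_int h hG (fun y => hK _) _ _ _) (sp3_W_int h hG (fun y => hK _) _ _ _)
        (sp3_W_ipos h _ _ _) (sp3_W_ipos h _ _ _)
      simp_rw [sp3_W_ratio1]
      exact sp3_evm_cosh (div_nonneg hx hs.le) (div_le_div_of_nonneg_right hxx hs.le)

theorem tlt_cmp (h : Ec F M D) (h' : Ec F' M' D') (hle : ∀ x, 0 ≤ x → M' x ≤ M x)
    {g g' : ℝ → ℝ} (hg : Continuous g) {K : ℝ} (hK : ∀ x, |g x| ≤ K) (hg' : Continuous g')
    {K' : ℝ} (hK' : ∀ x, |g' x| ≤ K') (hge : ∀ x, g (-x) = g x) (hev : Evm g')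
    (hgg : ∀ x, g' x ≤ g x) {m : ℝ} (hm : 0 < m) (v x : ℝ) :
    tlt m v F' g' x ≤ tlt m v F g x := by
  rcases le_or_gt v 0 with hv | hv
  · rw [sp3_tlt_triv hv, sp3_tlt_triv hv]
    exact hgg x
  · have hs : 0 < √v := Real.sqrt_pos.2 hv
    have hG : Continuous fun y => g (√v * y) := by fun_prop
    have hG' : Continuous fun y => g' (√v * y) := by fun_prop
    rw [sp3_tlt_even h' hg' hK' hev.1 hv, sp3_tlt_even h hg hK hge hv]
    refine (sp3_ratio (k := fun y => g' (√v * y)) (W' := sp3_W m (√v) (x / √v) F)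
      (fun y => sp3_W_pos _ _ _ _ _)
      (sp3_evm_scale hev hs.le) ?_ (sp3_W_int1 h' _ _ _) (sp3_W_int1 h _ _ _)
      (sp3_W_int h' hG' (fun y => hK' _) _ _ _) (sp3_W_int h hG' (fun y => hK' _) _ _ _)
      (sp3_W_ipos h' _ _ _) (sp3_W_ipos h _ _ _)).trans ?_
    · simp_rw [sp3_W_ratio2]
      exact sp3_evm_exp h h' hle hm hs.le
    · refine div_le_div_of_nonneg_right ?_ (sp3_W_ipos h _ _ _).le
      refine integral_mono (sp3_W_int h hG' (fun y => hK' _) _ _ _)
        (sp3_W_int h hG (fun y => hK _) _ _ _) fun y => ?_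
      exact mul_le_mul_of_nonneg_right (hgg _) (sp3_W_pos _ _ _ _ _).le

theorem sp3_tanh_nonneg {a y : ℝ} (ha : 0 ≤ a) (hy : 0 ≤ y) : 0 ≤ Real.tanh (a * y) := by
  rw [Real.tanh_eq_sinh_div_cosh]
  exact div_nonneg (Real.sinh_nonneg_iff.2 (mul_nonneg ha hy)) (Real.cosh_pos _).le

theorem sp3_tanh_cont : Continuous Real.tanh := by
  have : Real.tanh = fun x => Real.sinh x / Real.cosh x := funext Real.tanh_eq_sinh_div_cosh
  rw [this]
  exact Real.continuous_sinh.div Real.continuous_cosh fun x => (Real.cosh_pos x).ne'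

theorem sp3_tanh_mono {x y : ℝ} (h : x ≤ y) : Real.tanh x ≤ Real.tanh y := by
  rw [Real.tanh_eq_sinh_div_cosh, Real.tanh_eq_sinh_div_cosh,
    div_le_div_iff₀ (Real.cosh_pos _) (Real.cosh_pos _)]
  have h1 : Real.sinh (y - x) = Real.sinh y * Real.cosh x - Real.cosh y * Real.sinh x :=
    Real.sinh_sub y x
  have h2 : 0 ≤ Real.sinh (y - x) := Real.sinh_nonneg_iff.2 (by linarith)
  linarith only [h1, h2]

theorem sp3_abs_tanh (x : ℝ) : |Real.tanh x| ≤ 1 := by
  rw [Real.tanh_eq_sinh_div_cosh, abs_div, abs_of_pos (Real.cosh_pos x),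
    div_le_one (Real.cosh_pos x)]
  have h1 := Real.cosh_sq x
  refine abs_le_of_sq_le_sq ?_ (Real.cosh_pos x).le
  linarith

theorem tlt_cmp_odd (h : Ec F M D) (h' : Ec F' M' D') (hle : ∀ x, 0 ≤ x → M' x ≤ M x)
    {m : ℝ} (hm : 0 < m) (v : ℝ) {x : ℝ} (hx : 0 ≤ x) :
    tlt m v F' M' x ≤ tlt m v F M x := by
  rcases le_or_gt v 0 with hv | hv
  · rw [sp3_tlt_triv hv, sp3_tlt_triv hv]
    exact hle x hx
  · have hs : 0 < √v := Real.sqrt_pos.2 hv
    have ha : 0 ≤ x / √v := div_nonneg hx hs.le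
    have cM := sp3_contM h
    have cM' := sp3_contM h'
    have ct := sp3_tanh_cont
    have hG : Continuous fun y => M (√v * y) * Real.tanh (x / √v * y) := by fun_prop
    have hG' : Continuous fun y => M' (√v * y) * Real.tanh (x / √v * y) := by fun_prop
    have bG : ∀ y, |M (√v * y) * Real.tanh (x / √v * y)| ≤ 1 := by
      intro y
      rw [abs_mul]
      exact mul_le_one₀ (sp3_abs_M h _) (abs_nonneg _) (sp3_abs_tanh _)
    have bG' : ∀ y, |M' (√v * y) * Real.tanh (x / √v * y)| ≤ 1 := by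
      intro y
      rw [abs_mul]
      exact mul_le_one₀ (sp3_abs_M h' _) (abs_nonneg _) (sp3_abs_tanh _)
    have hev' : Evm fun y => M' (√v * y) * Real.tanh (x / √v * y) := by
      constructor
      · intro y
        simp only [mul_neg, sp3_odd h', Real.tanh_neg, neg_mul, neg_neg]
      · intro y hy y' hy' hyy
        refine mul_le_mul (sp3_mono h' (mul_le_mul_of_nonneg_left hyy hs.le))
          (sp3_tanh_mono (mul_le_mul_of_nonneg_left hyy ha)) (sp3_tanh_nonneg ha hy)
          (sp3_nonneg h' (mul_nonneg hs.le hy'))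
    rw [sp3_tlt_odd h' cM' (sp3_abs_M h') (sp3_odd h') hv,
      sp3_tlt_odd h cM (sp3_abs_M h) (sp3_odd h) hv]
    refine (sp3_ratio (k := fun y => M' (√v * y) * Real.tanh (x / √v * y))
      (W' := sp3_W m (√v) (x / √v) F) (fun y => sp3_W_pos _ _ _ _ _)
      hev' ?_ (sp3_W_int1 h' _ _ _) (sp3_W_int1 h _ _ _)
      (sp3_W_int h' hG' bG' _ _ _) (sp3_W_int h hG' bG' _ _ _)
      (sp3_W_ipos h' _ _ _) (sp3_W_ipos h _ _ _)).trans ?_
    · simp_rw [sp3_W_ratio2]
      exact sp3_evm_exp h h' hle hm hs.le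
    · refine div_le_div_of_nonneg_right ?_ (sp3_W_ipos h _ _ _).le
      refine integral_mono (sp3_W_int h hG' bG' _ _ _) (sp3_W_int h hG bG _ _ _) fun y => ?_
      refine mul_le_mul_of_nonneg_right ?_ (sp3_W_pos _ _ _ _ _).le
      rcases le_total 0 y with hy | hy
      · exact mul_le_mul_of_nonneg_right (hle _ (mul_nonneg hs.le hy)) (sp3_tanh_nonneg ha hy)
      · have h1 : ∀ G : ℝ → ℝ, (∀ z, G (-z) = -G z) → G (√v * y) * Real.tanh (x / √v * y) =
            G (√v * -y) * Real.tanh (x / √v * -y) := by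
          intro G hG
          rw [mul_neg, mul_neg, hG, Real.tanh_neg]
          ring
        rw [h1 M' (sp3_odd h'), h1 M (sp3_odd h)]
        have hy' : 0 ≤ -y := by linarith
        exact mul_le_mul_of_nonneg_right (hle _ (mul_nonneg hs.le hy')) (sp3_tanh_nonneg ha hy')

theorem evm_gauss_mono {g : ℝ → ℝ} (hg : Continuous g) {K : ℝ} (hK : ∀ x, |g x| ≤ K)
    (hev : Evm g) {v v' : ℝ} (hv : v ≤ v') :
    ∫ z, g (√v * z) ∂(gaussianReal 0 1) ≤ ∫ z, g (√v' * z) ∂(gaussianReal 0 1) := by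
  have hint : ∀ s : ℝ, Integrable (fun z => g (s * z)) (gaussianReal 0 1) := by
    intro s
    refine Integrable.of_bound (by fun_prop) K (ae_of_all _ fun z => ?_)
    rw [Real.norm_eq_abs]
    exact hK _
  refine integral_mono (hint _) (hint _) fun z => ?_
  refine sp3_evm_le hev ?_
  rw [abs_mul, abs_mul]
  refine mul_le_mul_of_nonneg_right ?_ (abs_nonneg z)
  rw [abs_of_nonneg (Real.sqrt_nonneg _), abs_of_nonneg (Real.sqrt_nonneg _)]
  exact Real.sqrt_le_sqrt hv

end Vale.Agent.P157.Par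
end

section

/-!
# P146 / Gap, HEAT: Gaussian averages of derivatives
-/

set_option linter.all false

open MeasureTheory ProbabilityTheory Filter Topology Set

namespace Vale.Agent.P146.Gap

open Vale.Agent.P157.Par

/-! ### basic facts -/

theorem heat_smooth_iter {ψ : ℝ → ℝ} (h : ContDiff ℝ (⊤ : ℕ∞) ψ) (j : ℕ) :
    ContDiff ℝ (⊤ : ℕ∞) (iteratedDeriv j ψ) := by
  rw [contDiff_infty]
  intro m
  exact (h.of_le (m := ((m + j : ℕ) : WithTop ℕ∞)) (by exact_mod_cast le_top)).iterate_deriv' m j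
    |> fun h' => by rwa [← iteratedDeriv_eq_iterate] at h'

theorem heat_hasDeriv {ψ : ℝ → ℝ} (h : ContDiff ℝ (⊤ : ℕ∞) ψ) (j : ℕ) (x : ℝ) :
    HasDerivAt (iteratedDeriv j ψ) (iteratedDeriv (j + 1) ψ x) x := by
  rw [iteratedDeriv_succ]
  exact ((heat_smooth_iter h j).differentiable (by simp) x).hasDerivAt

theorem heat_cont {ψ : ℝ → ℝ} (h : ContDiff ℝ (⊤ : ℕ∞) ψ) (j : ℕ) :
    Continuous (iteratedDeriv j ψ) := (heat_smooth_iter h j).continuous

/-- a nonnegative control constant -/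
theorem heat_ctrl {ψ : ℝ → ℝ} (h : PosF ψ) (j : ℕ) :
    ∃ C : ℝ, 0 ≤ C ∧ ∀ x, |iteratedDeriv j ψ x| ≤ C * ψ x := by
  obtain ⟨C, hC⟩ := h.ctrl j
  refine ⟨|C|, abs_nonneg C, fun x => (hC x).trans ?_⟩
  exact mul_le_mul_of_nonneg_right (le_abs_self C) (h.pos x).le

theorem heat_growth {ψ : ℝ → ℝ} (h : PosF ψ) :
    ∃ c : ℝ, 0 ≤ c ∧ ∀ x y, ψ y ≤ ψ x * Real.exp (c * |y - x|) := by
  obtain ⟨c, hc0, hc⟩ := heat_ctrl h 1
  refine ⟨c, hc0, fun x y => ?_⟩
  have hd : ∀ x, HasDerivAt (fun x => Real.log (ψ x)) (iteratedDeriv 1 ψ x / ψ x) x := by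
    intro x
    have h1 := heat_hasDeriv h.smooth 0 x
    rw [iteratedDeriv_zero] at h1
    exact h1.log (h.pos x).ne'
  have h2 : ‖Real.log (ψ y) - Real.log (ψ x)‖ ≤ c * ‖y - x‖ := by
    refine Convex.norm_image_sub_le_of_norm_hasDerivWithin_le (s := univ)
      (f' := fun x => iteratedDeriv 1 ψ x / ψ x) (fun x _ => (hd x).hasDerivWithinAt)
      (fun x _ => ?_) convex_univ (mem_univ x) (mem_univ y)
    rw [Real.norm_eq_abs, abs_div, abs_of_pos (h.pos x), div_le_iff₀ (h.pos x)]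
    exact hc x
  rw [Real.norm_eq_abs, Real.norm_eq_abs] at h2
  have h3 : Real.log (ψ y) ≤ Real.log (ψ x) + c * |y - x| := by
    linarith [(abs_le.1 h2).2]
  calc ψ y = Real.exp (Real.log (ψ y)) := (Real.exp_log (h.pos y)).symm
    _ ≤ Real.exp (Real.log (ψ x) + c * |y - x|) := Real.exp_le_exp.2 h3
    _ = ψ x * Real.exp (c * |y - x|) := by rw [Real.exp_add, Real.exp_log (h.pos x)]

theorem heat_int_exp (c : ℝ) : Integrable (fun z : ℝ => Real.exp (c * |z|)) (gaussianReal 0 1) :=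
  integrable_exp_mul_abs (X := fun x : ℝ => x) (t := c)
    (by simpa using integrable_exp_mul_gaussianReal (μ := 0) (v := 1) c)
    (by simpa using integrable_exp_mul_gaussianReal (μ := 0) (v := 1) (-c))

theorem heat_abs_le_exp (z : ℝ) : |z| ≤ Real.exp |z| := by
  have := Real.add_one_le_exp |z|
  linarith

/-- the master bound -/
theorem heat_bound {ψ : ℝ → ℝ} (h : PosF ψ) (j : ℕ) :
    ∃ K c : ℝ, 0 ≤ K ∧ 0 ≤ c ∧ ∀ (S x₀ s x z : ℝ), 0 ≤ S → √s ≤ S → |x - x₀| ≤ 1 →
      |iteratedDeriv j ψ (x + √s * z)| ≤ K * ψ x₀ * Real.exp (c * S * |z|) := by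
  obtain ⟨c, hc0, hc⟩ := heat_growth h
  obtain ⟨C, hC0, hC⟩ := heat_ctrl h j
  refine ⟨C * Real.exp c, c, by positivity, hc0, fun S x₀ s x z hS hs hx => ?_⟩
  have h1 : |x + √s * z - x₀| ≤ 1 + S * |z| := by
    calc |x + √s * z - x₀| = |(x - x₀) + √s * z| := by ring_nf
      _ ≤ |x - x₀| + |√s * z| := abs_add_le _ _
      _ ≤ 1 + S * |z| := by
          rw [abs_mul, abs_of_nonneg (Real.sqrt_nonneg s)]
          exact add_le_add hx (mul_le_mul_of_nonneg_right hs (abs_nonneg z))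
  calc |iteratedDeriv j ψ (x + √s * z)| ≤ C * ψ (x + √s * z) := hC _
    _ ≤ C * (ψ x₀ * Real.exp (c * |x + √s * z - x₀|)) :=
        mul_le_mul_of_nonneg_left (hc x₀ _) hC0
    _ ≤ C * (ψ x₀ * Real.exp (c * (1 + S * |z|))) := by
        refine mul_le_mul_of_nonneg_left (mul_le_mul_of_nonneg_left ?_ (h.pos x₀).le) hC0
        exact Real.exp_le_exp.2 (mul_le_mul_of_nonneg_left h1 hc0)
    _ = C * Real.exp c * ψ x₀ * Real.exp (c * S * |z|) := by
        rw [mul_add, Real.exp_add, mul_one, mul_assoc c S]; ring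

theorem heat_meas {ψ : ℝ → ℝ} (h : PosF ψ) (j : ℕ) (s x : ℝ) :
    AEStronglyMeasurable (fun z => iteratedDeriv j ψ (x + √s * z)) (gaussianReal 0 1) :=
  ((heat_cont h.smooth j).comp (by fun_prop)).aestronglyMeasurable

theorem heat_int {ψ : ℝ → ℝ} (h : PosF ψ) (j : ℕ) (s x : ℝ) :
    Integrable (fun z => iteratedDeriv j ψ (x + √s * z)) (gaussianReal 0 1) := by
  obtain ⟨K, c, hK, hc, hb⟩ := heat_bound h j
  refine ((heat_int_exp (c * √s)).const_mul (K * ψ x)).mono' (heat_meas h j s x)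
    (Eventually.of_forall fun z => ?_)
  rw [Real.norm_eq_abs]
  exact hb _ x s x z (Real.sqrt_nonneg s) le_rfl (by simp)

theorem heat_int_z {ψ : ℝ → ℝ} (h : PosF ψ) (j : ℕ) (s x : ℝ) :
    Integrable (fun z => z * iteratedDeriv j ψ (x + √s * z)) (gaussianReal 0 1) := by
  obtain ⟨K, c, hK, hc, hb⟩ := heat_bound h j
  refine ((heat_int_exp (c * √s + 1)).const_mul (K * ψ x)).mono'
    ((continuous_id.aestronglyMeasurable).mul (heat_meas h j s x))
    (Eventually.of_forall fun z => ?_)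
  rw [Real.norm_eq_abs, abs_mul]
  calc |z| * |iteratedDeriv j ψ (x + √s * z)|
      ≤ Real.exp |z| * (K * ψ x * Real.exp (c * √s * |z|)) :=
        mul_le_mul (heat_abs_le_exp z) (hb _ x s x z (Real.sqrt_nonneg s) le_rfl (by simp))
          (abs_nonneg _) (Real.exp_pos _).le
    _ = K * ψ x * Real.exp ((c * √s + 1) * |z|) := by
        rw [add_mul, Real.exp_add, one_mul]; ring

/-! ### the statements -/

theorem U_zero (ψ : ℝ → ℝ) (j : ℕ) (x : ℝ) : U ψ j 0 x = iteratedDeriv j ψ x := by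
  simp [U]

variable {ψ : ℝ → ℝ}

theorem U_pos (h : PosF ψ) (s x : ℝ) : 0 < U ψ 0 s x := by
  unfold U
  rw [integral_pos_iff_support_of_nonneg (fun z => ?_) (heat_int h 0 s x)]
  · have : Function.support (fun z => iteratedDeriv 0 ψ (x + √s * z)) = univ := by
      ext z
      simp only [Function.mem_support, iteratedDeriv_zero, mem_univ, iff_true]
      exact (h.pos _).ne'
    rw [this, measure_univ]
    exact one_pos
  · simp only [iteratedDeriv_zero, Pi.zero_apply]
    exact (h.pos _).le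

theorem U_ctrl (h : PosF ψ) (j : ℕ) : ∃ C : ℝ, ∀ s x, |U ψ j s x| ≤ C * U ψ 0 s x := by
  obtain ⟨C, hC0, hC⟩ := heat_ctrl h j
  refine ⟨C, fun s x => ?_⟩
  unfold U
  calc |∫ z, iteratedDeriv j ψ (x + √s * z) ∂(gaussianReal 0 1)|
      ≤ ∫ z, |iteratedDeriv j ψ (x + √s * z)| ∂(gaussianReal 0 1) := abs_integral_le_integral_abs
    _ ≤ ∫ z, C * iteratedDeriv 0 ψ (x + √s * z) ∂(gaussianReal 0 1) := by
        refine integral_mono (heat_int h j s x).abs ((heat_int h 0 s x).const_mul C) fun z => ?_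
        simp only [iteratedDeriv_zero]
        exact hC _
    _ = _ := integral_const_mul _ _

theorem U_x (h : PosF ψ) (j : ℕ) (s x : ℝ) :
    HasDerivAt (fun x => U ψ j s x) (U ψ (j + 1) s x) x := by
  obtain ⟨K, c, hK, hc, hb⟩ := heat_bound h (j + 1)
  refine (hasDerivAt_integral_of_dominated_loc_of_deriv_le (μ := gaussianReal 0 1)
    (F := fun x z => iteratedDeriv j ψ (x + √s * z))
    (F' := fun x z => iteratedDeriv (j + 1) ψ (x + √s * z))
    (bound := fun z => K * ψ x * Real.exp (c * √s * |z|)) (x₀ := x)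
    (Metric.ball_mem_nhds x one_pos) (Eventually.of_forall fun y => heat_meas h j s y)
    (heat_int h j s x) (heat_meas h (j + 1) s x) (Eventually.of_forall fun z y hy => ?_)
    ((heat_int_exp (c * √s)).const_mul (K * ψ x)) (Eventually.of_forall fun z y hy => ?_)).2
  · rw [Real.norm_eq_abs]
    refine hb _ x s y z (Real.sqrt_nonneg s) le_rfl ?_
    rw [Metric.mem_ball, Real.dist_eq] at hy
    exact hy.le
  · have h1 := heat_hasDeriv h.smooth j (y + √s * z)
    exact (h1.comp_add_const y (√s * z))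

theorem U_s (h : PosF ψ) (j : ℕ) {s : ℝ} (hs : 0 < s) (x : ℝ) :
    HasDerivAt (fun s => U ψ j s x) (1 / 2 * U ψ (j + 2) s x) s := by
  obtain ⟨K, c, hK, hc, hb⟩ := heat_bound h (j + 1)
  have hs2 : 0 < s / 2 := by positivity
  have key := (hasDerivAt_integral_of_dominated_loc_of_deriv_le (μ := gaussianReal 0 1)
    (F := fun s z => iteratedDeriv j ψ (x + √s * z))
    (F' := fun s z => iteratedDeriv (j + 1) ψ (x + √s * z) * (1 / (2 * √s) * z))
    (bound := fun z => (1 / (2 * √(s / 2))) * (K * ψ x * Real.exp ((c * √(2 * s) + 1) * |z|)))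
    (x₀ := s) (Metric.ball_mem_nhds s hs2) (Eventually.of_forall fun y => heat_meas h j y x)
    (heat_int h j s x)
    ((heat_meas h (j + 1) s x).mul (by fun_prop : Continuous fun z : ℝ =>
      1 / (2 * √s) * z).aestronglyMeasurable) (Eventually.of_forall fun z t ht => ?_)
    (((heat_int_exp (c * √(2 * s) + 1)).const_mul (K * ψ x)).const_mul _)
    (Eventually.of_forall fun z t ht => ?_)).2
  · have hst := heat_int_z h (j + 1) s x
    have h5 : (1 / 2 * U ψ (j + 2) s x) = ∫ z, iteratedDeriv (j + 1) ψ (x + √s * z) *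
        (1 / (2 * √s) * z) ∂(gaussianReal 0 1) := by
      have h6 := stein_one_int (fun z => iteratedDeriv (j + 1) ψ (x + √s * z))
        (fun z => √s * iteratedDeriv (j + 2) ψ (x + √s * z)) (fun z => by
          have h7 := heat_hasDeriv h.smooth (j + 1) (x + √s * z)
          have h8 : HasDerivAt (fun z : ℝ => x + √s * z) (√s) z := by
            simpa using ((hasDerivAt_id z).const_mul (√s)).const_add x
          have h9 := h7.comp z h8
          rw [mul_comm (√s)]
          exact h9) (heat_int h (j + 1) s x) hst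
        ((heat_int h (j + 2) s x).const_mul _)
      have h10 : ∫ z, iteratedDeriv (j + 1) ψ (x + √s * z) *
          (1 / (2 * √s) * z) ∂(gaussianReal 0 1) =
          (1 / (2 * √s)) * ∫ z, z * iteratedDeriv (j + 1) ψ (x + √s * z) ∂(gaussianReal 0 1) := by
        rw [← integral_const_mul]
        refine integral_congr_ae (Eventually.of_forall fun z => ?_)
        show _ = _
        ring
      rw [h10, h6, integral_const_mul]
      have hsq : √s ≠ 0 := (Real.sqrt_pos.2 hs).ne'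
      unfold U
      field_simp
    rw [h5]
    exact key
  · rw [Metric.mem_ball, Real.dist_eq, abs_lt] at ht
    have ht0 : s / 2 < t := by linarith only [ht.1]
    have ht1 : t ≤ 2 * s := by linarith only [ht.2, ht0]
    have e1 : √t ≤ √(2 * s) := Real.sqrt_le_sqrt ht1
    have e2 : √(s / 2) ≤ √t := Real.sqrt_le_sqrt ht0.le
    have e3 : 0 < √(s / 2) := Real.sqrt_pos.2 hs2
    have e4 : 0 < √t := lt_of_lt_of_le e3 e2
    rw [Real.norm_eq_abs, abs_mul, abs_mul, abs_of_pos (by positivity : 0 < 1 / (2 * √t))]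
    have e5 : 1 / (2 * √t) ≤ 1 / (2 * √(s / 2)) := by
      apply one_div_le_one_div_of_le (by positivity)
      linarith only [e2]
    have e6 := hb _ x t x z (Real.sqrt_nonneg (2 * s)) e1 (by simp)
    calc |iteratedDeriv (j + 1) ψ (x + √t * z)| * (1 / (2 * √t) * |z|)
        ≤ (K * ψ x * Real.exp (c * √(2 * s) * |z|)) * (1 / (2 * √(s / 2)) * Real.exp |z|) := by
          refine mul_le_mul e6 (mul_le_mul e5 (heat_abs_le_exp z) (abs_nonneg _) (by positivity))
            (by positivity) ?_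
          exact le_trans (abs_nonneg _) e6
      _ = _ := by
          rw [add_mul, Real.exp_add, one_mul]; ring
  · rw [Metric.mem_ball, Real.dist_eq, abs_lt] at ht
    have ht0 : 0 < t := by linarith only [ht.1, hs2]
    have h7 := heat_hasDeriv h.smooth j (x + √t * z)
    have h8 : HasDerivAt (fun t : ℝ => x + √t * z) (1 / (2 * √t) * z) t :=
      ((Real.hasDerivAt_sqrt ht0.ne').mul_const z).const_add x
    exact h7.comp t h8

theorem U_cont (h : PosF ψ) (j : ℕ) : Continuous (fun p : ℝ × ℝ => U ψ j p.1 p.2) := by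
  obtain ⟨K, c, hK, hc, hb⟩ := heat_bound h j
  rw [continuous_iff_continuousAt]
  rintro ⟨s, x⟩
  unfold U
  refine continuousAt_of_dominated (bound := fun z => K * ψ x * Real.exp (c * √(s + 1) * |z|))
    (Eventually.of_forall fun p => heat_meas h j p.1 p.2) ?_
    ((heat_int_exp (c * √(s + 1))).const_mul (K * ψ x)) (Eventually.of_forall fun z => ?_)
  · have h1 : ∀ᶠ p : ℝ × ℝ in 𝓝 (s, x), p.1 < s + 1 :=
      continuous_fst.continuousAt.eventually_lt_const (by simp)
    have h2 : ∀ᶠ p : ℝ × ℝ in 𝓝 (s, x), p.2 ∈ Metric.ball x 1 :=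
      continuous_snd.continuousAt.eventually_mem (Metric.ball_mem_nhds x one_pos)
    filter_upwards [h1, h2] with p hp1 hp2
    refine Eventually.of_forall fun z => ?_
    rw [Real.norm_eq_abs]
    refine hb _ x p.1 p.2 z (Real.sqrt_nonneg _) (Real.sqrt_le_sqrt hp1.le) ?_
    rw [Metric.mem_ball, Real.dist_eq] at hp2
    exact hp2.le
  · exact ((heat_cont h.smooth j).comp (by fun_prop : Continuous fun p : ℝ × ℝ =>
      p.2 + √p.1 * z)).continuousAt

/-! ### exponentials -/

/-- smooth functions with all derivatives (of order `≥ 0`) bounded -/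
def heat_BB (f : ℝ → ℝ) : Prop :=
  ContDiff ℝ (⊤ : ℕ∞) f ∧ ∀ j : ℕ, ∃ C : ℝ, ∀ x, |iteratedDeriv j f x| ≤ C

theorem heat_BB_const (c : ℝ) : heat_BB (fun _ => c) := by
  refine ⟨contDiff_const, fun j => ?_⟩
  cases j with
  | zero => exact ⟨|c|, fun x => by simp⟩
  | succ j =>
    refine ⟨0, fun x => ?_⟩
    rw [iteratedDeriv_succ']
    have : deriv (fun _ : ℝ => c) = fun _ => 0 := by ext x; simp
    rw [this]
    have h0 : iteratedDeriv j (fun _ : ℝ => (0 : ℝ)) x = 0 := by
      rw [iteratedDeriv_const]; simp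
    rw [h0]; simp

theorem heat_BB_add {f g : ℝ → ℝ} (hf : heat_BB f) (hg : heat_BB g) :
    heat_BB (fun x => f x + g x) := by
  refine ⟨hf.1.add hg.1, fun j => ?_⟩
  obtain ⟨C, hC⟩ := hf.2 j
  obtain ⟨C', hC'⟩ := hg.2 j
  refine ⟨C + C', fun x => ?_⟩
  have h1 : iteratedDeriv j (fun x => f x + g x) x = iteratedDeriv j f x + iteratedDeriv j g x :=
    iteratedDeriv_add (n := j) (hf.1.contDiffAt.of_le (by exact_mod_cast le_top))
      (hg.1.contDiffAt.of_le (by exact_mod_cast le_top))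
  rw [h1]
  exact (abs_add_le _ _).trans (add_le_add (hC x) (hC' x))

theorem heat_BB_mul {f g : ℝ → ℝ} (hf : heat_BB f) (hg : heat_BB g) :
    heat_BB (fun x => f x * g x) := by
  refine ⟨hf.1.mul hg.1, fun j => ?_⟩
  choose A hA using hf.2
  choose B hB using hg.2
  refine ⟨∑ i ∈ Finset.range (j + 1), (j.choose i : ℝ) * A i * B (j - i), fun x => ?_⟩
  have h1 := norm_iteratedFDeriv_mul_le (n := j) hf.1 hg.1 x (by exact_mod_cast le_top)
  rw [norm_iteratedFDeriv_eq_norm_iteratedDeriv] at h1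
  refine le_trans h1 (Finset.sum_le_sum fun i _ => ?_)
  rw [norm_iteratedFDeriv_eq_norm_iteratedDeriv, norm_iteratedFDeriv_eq_norm_iteratedDeriv,
    Real.norm_eq_abs, Real.norm_eq_abs]
  have hA0 : 0 ≤ A i := le_trans (abs_nonneg _) (hA i x)
  exact mul_le_mul (mul_le_mul_of_nonneg_left (hA i x) (by positivity)) (hB _ x) (abs_nonneg _)
    (by positivity)

theorem heat_BB_deriv {f : ℝ → ℝ} (hf : heat_BB f) : heat_BB (deriv f) := by
  constructor
  · have := heat_smooth_iter hf.1 1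
    rwa [iteratedDeriv_one] at this
  · intro j
    rw [← iteratedDeriv_succ']
    exact hf.2 (j + 1)

theorem posF_exp {F : ℝ → ℝ} (h : SmB F) (g : ℝ) : PosF (fun x => Real.exp (g * F x)) := by
  have hF' : heat_BB (deriv F) := by
    constructor
    · have := heat_smooth_iter h.smooth 1
      rwa [iteratedDeriv_one] at this
    · intro j
      rw [← iteratedDeriv_succ']
      exact h.bd j
  have hsm : ContDiff ℝ (⊤ : ℕ∞) (fun x => Real.exp (g * F x)) :=
    (contDiff_const.mul h.smooth).exp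
  have key : ∀ j : ℕ, ∃ Q : ℝ → ℝ, heat_BB Q ∧
      ∀ x, iteratedDeriv j (fun x => Real.exp (g * F x)) x = Q x * Real.exp (g * F x) := by
    intro j
    induction j with
    | zero => exact ⟨fun _ => 1, heat_BB_const 1, fun x => by simp⟩
    | succ j ih =>
      obtain ⟨Q, hQ, hQe⟩ := ih
      refine ⟨fun x => deriv Q x + Q x * (g * deriv F x),
        heat_BB_add (heat_BB_deriv hQ) (heat_BB_mul hQ (heat_BB_mul (heat_BB_const g) hF')),
        fun x => ?_⟩
      rw [iteratedDeriv_succ]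
      have h1 : iteratedDeriv j (fun x => Real.exp (g * F x)) =
          fun x => Q x * Real.exp (g * F x) := funext hQe
      rw [h1]
      have h2 : HasDerivAt Q (deriv Q x) x :=
        (hQ.1.differentiable (by simp) x).hasDerivAt
      have h3 : HasDerivAt F (deriv F x) x := (h.smooth.differentiable (by simp) x).hasDerivAt
      have h4 := h2.mul ((h3.const_mul g).exp)
      have h5 : deriv (fun x => Q x * Real.exp (g * F x)) x = _ := h4.deriv
      rw [h5]
      ring
  refine ⟨hsm, fun x => Real.exp_pos _, fun j => ?_⟩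
  obtain ⟨Q, hQ, hQe⟩ := key j
  obtain ⟨C, hC⟩ := hQ.2 0
  refine ⟨C, fun x => ?_⟩
  rw [hQe x, abs_mul, abs_of_pos (Real.exp_pos _)]
  have := hC x
  rw [iteratedDeriv_zero] at this
  exact mul_le_mul_of_nonneg_right this (Real.exp_pos _).le

end Vale.Agent.P146.Gap
end

section

/-!
# P146 / Gap: space and time derivatives of one Parisi step (task JETS)
-/

set_option linter.all false

open MeasureTheory ProbabilityTheory Filter Topology Set

namespace Vale.Agent.P146.Gap

open Vale.Agent.P157.Par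

/-! ### Derivatives of cumulant polynomials -/

section Poly

variable {a1 a2 a3 a4 a5 : ℝ → ℝ} {b1 b2 b3 b4 b5 t : ℝ}

theorem jets_k2 (h1 : HasDerivAt a1 b1 t) (h2 : HasDerivAt a2 b2 t) :
    HasDerivAt (fun t => a2 t - a1 t ^ 2) (b2 - 2 * a1 t * b1) t := by
  refine (h2.sub (h1.pow 2)).congr_deriv ?_
  norm_num

theorem jets_k3 (h1 : HasDerivAt a1 b1 t) (h2 : HasDerivAt a2 b2 t) (h3 : HasDerivAt a3 b3 t) :
    HasDerivAt (fun t => a3 t - 3 * (a1 t * a2 t) + 2 * a1 t ^ 3)
      (b3 - 3 * (b1 * a2 t + a1 t * b2) + 6 * a1 t ^ 2 * b1) t := by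
  refine ((h3.sub ((h1.mul h2).const_mul 3)).add ((h1.pow 3).const_mul 2)).congr_deriv ?_
  norm_num
  ring

theorem jets_k4 (h1 : HasDerivAt a1 b1 t) (h2 : HasDerivAt a2 b2 t) (h3 : HasDerivAt a3 b3 t)
    (h4 : HasDerivAt a4 b4 t) :
    HasDerivAt (fun t => a4 t - 4 * (a1 t * a3 t) - 3 * a2 t ^ 2 + 12 * (a1 t ^ 2 * a2 t) -
      6 * a1 t ^ 4)
      (b4 - 4 * (b1 * a3 t + a1 t * b3) - 6 * a2 t * b2 +
        12 * (2 * a1 t * b1 * a2 t + a1 t ^ 2 * b2) - 24 * a1 t ^ 3 * b1) t := by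
  refine ((((h4.sub ((h1.mul h3).const_mul 4)).sub ((h2.pow 2).const_mul 3)).add
    (((h1.pow 2).mul h2).const_mul 12)).sub ((h1.pow 4).const_mul 6)).congr_deriv ?_
  norm_num
  ring

theorem jets_k5 (h1 : HasDerivAt a1 b1 t) (h2 : HasDerivAt a2 b2 t) (h3 : HasDerivAt a3 b3 t)
    (h4 : HasDerivAt a4 b4 t) (h5 : HasDerivAt a5 b5 t) :
    HasDerivAt (fun t => a5 t - 5 * (a1 t * a4 t) - 10 * (a2 t * a3 t) +
      20 * (a1 t ^ 2 * a3 t) + 30 * (a1 t * a2 t ^ 2) - 60 * (a1 t ^ 3 * a2 t) + 24 * a1 t ^ 5)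
      (b5 - 5 * (b1 * a4 t + a1 t * b4) - 10 * (b2 * a3 t + a2 t * b3) +
        20 * (2 * a1 t * b1 * a3 t + a1 t ^ 2 * b3) + 30 * (b1 * a2 t ^ 2 + a1 t * (2 * a2 t * b2)) -
        60 * (3 * a1 t ^ 2 * b1 * a2 t + a1 t ^ 3 * b2) + 120 * a1 t ^ 4 * b1) t := by
  refine ((((((h5.sub ((h1.mul h4).const_mul 5)).sub ((h2.mul h3).const_mul 10)).add
    (((h1.pow 2).mul h3).const_mul 20)).add ((h1.mul (h2.pow 2)).const_mul 30)).sub
    (((h1.pow 3).mul h2).const_mul 60)).add ((h1.pow 5).const_mul 24)).congr_deriv ?_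
  norm_num
  ring

end Poly

/-! ### Ratios -/

/-- The ratios `U_j / U_0`. -/
noncomputable def jetsR (ψ : ℝ → ℝ) (j : ℕ) (s x : ℝ) : ℝ := U ψ j s x / U ψ 0 s x

section Ratio

variable {ψ : ℝ → ℝ}

theorem jetsR_bd (h : PosF ψ) (j : ℕ) : ∃ C : ℝ, ∀ s x, |jetsR ψ j s x| ≤ C := by
  obtain ⟨C, hC⟩ := U_ctrl h j
  refine ⟨C, fun s x => ?_⟩
  have h0 := U_pos h s x
  unfold jetsR
  rw [abs_div, abs_of_pos h0, div_le_iff₀ h0]
  exact hC s x

theorem jetsR_cont (h : PosF ψ) (j : ℕ) : Continuous (fun p : ℝ × ℝ => jetsR ψ j p.1 p.2) :=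
  (U_cont h j).div (U_cont h 0) fun p => (U_pos h p.1 p.2).ne'

theorem jetsR_x (h : PosF ψ) (j : ℕ) (s x : ℝ) :
    HasDerivAt (fun x => jetsR ψ j s x)
      (jetsR ψ (j + 1) s x - jetsR ψ 1 s x * jetsR ψ j s x) x := by
  have h0 := (U_pos h s x).ne'
  refine ((U_x h j s x).div (U_x h 0 s x) h0).congr_deriv ?_
  unfold jetsR
  simp only [zero_add]
  field_simp

theorem jetsR_s (h : PosF ψ) (j : ℕ) {s : ℝ} (hs : 0 < s) (x : ℝ) :
    HasDerivAt (fun s => jetsR ψ j s x)
      (1 / 2 * (jetsR ψ (j + 2) s x - jetsR ψ 2 s x * jetsR ψ j s x)) s := by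
  have h0 := (U_pos h s x).ne'
  refine ((U_s h j hs x).div (U_s h 0 hs x) h0).congr_deriv ?_
  unfold jetsR
  simp only [zero_add]
  field_simp

/-- Polynomials in the ratios. -/
inductive JetsPoly (ψ : ℝ → ℝ) : (ℝ → ℝ → ℝ) → Prop
  | const (c : ℝ) : JetsPoly ψ (fun _ _ => c)
  | rat (j : ℕ) : JetsPoly ψ (jetsR ψ j)
  | add {p q : ℝ → ℝ → ℝ} : JetsPoly ψ p → JetsPoly ψ q → JetsPoly ψ (fun s x => p s x + q s x)
  | mul {p q : ℝ → ℝ → ℝ} : JetsPoly ψ p → JetsPoly ψ q → JetsPoly ψ (fun s x => p s x * q s x)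

theorem JetsPoly.bd (h : PosF ψ) {p : ℝ → ℝ → ℝ} (hp : JetsPoly ψ p) :
    ∃ C : ℝ, ∀ s x, |p s x| ≤ C := by
  induction hp with
  | const c => exact ⟨|c|, fun _ _ => le_rfl⟩
  | rat j => exact jetsR_bd h j
  | add hp hq ihp ihq =>
    obtain ⟨A, hA⟩ := ihp
    obtain ⟨B, hB⟩ := ihq
    exact ⟨A + B, fun s x => (abs_add_le _ _).trans (add_le_add (hA s x) (hB s x))⟩
  | mul hp hq ihp ihq =>
    obtain ⟨A, hA⟩ := ihp
    obtain ⟨B, hB⟩ := ihq
    refine ⟨A * B, fun s x => ?_⟩
    rw [abs_mul]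
    exact mul_le_mul (hA s x) (hB s x) (abs_nonneg _) ((abs_nonneg _).trans (hA s x))

theorem JetsPoly.cont (h : PosF ψ) {p : ℝ → ℝ → ℝ} (hp : JetsPoly ψ p) :
    Continuous (fun z : ℝ × ℝ => p z.1 z.2) := by
  induction hp with
  | const c => exact continuous_const
  | rat j => exact jetsR_cont h j
  | add hp hq ihp ihq => exact ihp.add ihq
  | mul hp hq ihp ihq => exact ihp.mul ihq

theorem JetsPoly.deriv (h : PosF ψ) {p : ℝ → ℝ → ℝ} (hp : JetsPoly ψ p) :
    ∃ q, JetsPoly ψ q ∧ ∀ s x, HasDerivAt (p s) (q s x) x := by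
  induction hp with
  | const c => exact ⟨fun _ _ => 0, JetsPoly.const 0, fun s x => hasDerivAt_const x c⟩
  | rat j =>
    refine ⟨fun s x => jetsR ψ (j + 1) s x + (-1) * (jetsR ψ 1 s x * jetsR ψ j s x),
      (JetsPoly.rat (j + 1)).add ((JetsPoly.const (-1)).mul ((JetsPoly.rat 1).mul
        (JetsPoly.rat j))), fun s x => (jetsR_x h j s x).congr_deriv (by ring)⟩
  | add hp hq ihp ihq =>
    obtain ⟨p', hp', hpd⟩ := ihp
    obtain ⟨q', hq', hqd⟩ := ihq
    exact ⟨fun s x => p' s x + q' s x, hp'.add hq', fun s x => (hpd s x).add (hqd s x)⟩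
  | mul hp hq ihp ihq =>
    rename_i p q
    obtain ⟨p', hp', hpd⟩ := ihp
    obtain ⟨q', hq', hqd⟩ := ihq
    exact ⟨fun s x => p' s x * q s x + p s x * q' s x, (hp'.mul hq).add (hp.mul hq'),
      fun s x => (hpd s x).mul (hqd s x)⟩

end Ratio

/-! ### The Parisi step -/

variable {g : ℝ} {F : ℝ → ℝ}

theorem gstep_zero (hg : g ≠ 0) (F : ℝ → ℝ) : gstep g 0 F = F := by
  funext x
  unfold gstep
  simp only [Real.sqrt_zero, zero_mul, add_zero, integral_const, probReal_univ, one_smul,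
    Real.log_exp]
  field_simp

/-- The exponential of the log-weight. -/
noncomputable def jetsPsi (g : ℝ) (F : ℝ → ℝ) : ℝ → ℝ := fun x => Real.exp (g * F x)

theorem jets_gstep (g s : ℝ) (F : ℝ → ℝ) :
    gstep g s F = fun x => 1 / g * Real.log (U (jetsPsi g F) 0 s x) := by
  funext x
  unfold gstep U jetsPsi
  simp only [iteratedDeriv_zero]

theorem jets_f0_x (h : SmB F) (g s x : ℝ) :
    HasDerivAt (gstep g s F) (1 / g * jetsR (jetsPsi g F) 1 s x) x := by
  have hp : PosF (jetsPsi g F) := posF_exp h g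
  rw [jets_gstep]
  exact ((U_x hp 0 s x).log (U_pos hp s x).ne').const_mul (1 / g)

theorem jets_poly (h : SmB F) (g : ℝ) (j : ℕ) : ∃ q, JetsPoly (jetsPsi g F) q ∧
    ∀ s, iteratedDeriv (j + 1) (gstep g s F) = q s := by
  have hp : PosF (jetsPsi g F) := posF_exp h g
  induction j with
  | zero =>
    refine ⟨fun s x => 1 / g * jetsR (jetsPsi g F) 1 s x,
      (JetsPoly.const (1 / g)).mul (JetsPoly.rat 1), fun s => ?_⟩
    rw [zero_add, iteratedDeriv_one]
    funext x
    exact (jets_f0_x h g s x).deriv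
  | succ j ih =>
    obtain ⟨q, hq, hqe⟩ := ih
    obtain ⟨q', hq', hd⟩ := hq.deriv hp
    refine ⟨q', hq', fun s => ?_⟩
    rw [iteratedDeriv_succ, hqe s]
    funext x
    exact (hd s x).deriv

theorem jets_diff (h : SmB F) (g : ℝ) (j : ℕ) (s : ℝ) :
    Differentiable ℝ (iteratedDeriv j (gstep g s F)) := by
  have hp : PosF (jetsPsi g F) := posF_exp h g
  cases j with
  | zero =>
    rw [iteratedDeriv_zero]
    exact fun x => (jets_f0_x h g s x).differentiableAt
  | succ j =>
    obtain ⟨q, hq, hqe⟩ := jets_poly h g j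
    obtain ⟨q', hq', hd⟩ := hq.deriv hp
    rw [hqe s]
    exact fun x => (hd s x).differentiableAt

theorem fj_x (h : SmB F) (hg : 0 < g) (j : ℕ) (s x : ℝ) :
    HasDerivAt (fun x => fj g F j s x) (fj g F (j + 1) s x) x := by
  have h1 := (jets_diff h g j s x).hasDerivAt
  unfold fj
  rw [iteratedDeriv_succ]
  exact h1

theorem fj_bd (h : SmB F) (hg : 0 < g) (j : ℕ) : ∃ C : ℝ, ∀ s x, |fj g F (j + 1) s x| ≤ C := by
  obtain ⟨q, hq, hqe⟩ := jets_poly h g j
  obtain ⟨C, hC⟩ := hq.bd (posF_exp h g)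
  refine ⟨C, fun s x => ?_⟩
  unfold fj
  rw [hqe s]
  exact hC s x

theorem smB_gstep (h : SmB F) (hg : 0 < g) (s : ℝ) : SmB (gstep g s F) where
  smooth := contDiff_of_differentiable_iteratedDeriv fun m _ => jets_diff h g m s
  bd j := by
    obtain ⟨C, hC⟩ := fj_bd h hg j
    exact ⟨C, fun x => hC s x⟩

theorem fj_zero (hg : g ≠ 0) (F : ℝ → ℝ) (j : ℕ) (x : ℝ) :
    fj g F j 0 x = iteratedDeriv j F x := by
  unfold fj
  rw [gstep_zero hg]

theorem fj_cont (h : SmB F) (hg : 0 < g) (j : ℕ) :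
    Continuous (fun p : ℝ × ℝ => fj g F j p.1 p.2) := by
  have hp : PosF (jetsPsi g F) := posF_exp h g
  cases j with
  | zero =>
    unfold fj
    simp only [iteratedDeriv_zero, jets_gstep]
    exact ((U_cont hp 0).log fun p => (U_pos hp p.1 p.2).ne').const_mul (1 / g)
  | succ j =>
    obtain ⟨q, hq, hqe⟩ := jets_poly h g j
    unfold fj
    simp only [hqe]
    exact hq.cont hp

/-! ### Explicit formulas -/

theorem jets_next (h : SmB F) (hg : 0 < g) (j : ℕ) (s : ℝ) {K K' : ℝ → ℝ}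
    (hK : ∀ x, fj g F j s x = 1 / g * K x) (hd : ∀ x, HasDerivAt K (K' x) x) (x : ℝ) :
    fj g F (j + 1) s x = 1 / g * K' x := by
  have h1 := fj_x h hg j s x
  have h2 : HasDerivAt (fun x => fj g F j s x) (1 / g * K' x) x := by
    have h3 : (fun x => fj g F j s x) = fun x => 1 / g * K x := funext hK
    rw [h3]
    exact (hd x).const_mul (1 / g)
  exact h1.unique h2

theorem jets_f1 (h : SmB F) (hg : 0 < g) (s x : ℝ) :
    fj g F 1 s x = 1 / g * jetsR (jetsPsi g F) 1 s x := by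
  unfold fj
  rw [iteratedDeriv_one]
  exact (jets_f0_x h g s x).deriv

theorem jets_f2 (h : SmB F) (hg : 0 < g) (s x : ℝ) :
    fj g F 2 s x = 1 / g * (jetsR (jetsPsi g F) 2 s x - jetsR (jetsPsi g F) 1 s x ^ 2) := by
  have hp : PosF (jetsPsi g F) := posF_exp h g
  rw [jets_next h hg 1 s (jets_f1 h hg s) (fun x => jetsR_x hp 1 s x) x]
  ring

theorem jets_f3 (h : SmB F) (hg : 0 < g) (s x : ℝ) :
    fj g F 3 s x = 1 / g * (jetsR (jetsPsi g F) 3 s x -
      3 * (jetsR (jetsPsi g F) 1 s x * jetsR (jetsPsi g F) 2 s x) +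
      2 * jetsR (jetsPsi g F) 1 s x ^ 3) := by
  have hp : PosF (jetsPsi g F) := posF_exp h g
  rw [jets_next h hg 2 s (jets_f2 h hg s)
    (fun x => jets_k2 (jetsR_x hp 1 s x) (jetsR_x hp 2 s x)) x]
  simp only [Nat.reduceAdd]
  ring

theorem jets_f4 (h : SmB F) (hg : 0 < g) (s x : ℝ) :
    fj g F 4 s x = 1 / g * (jetsR (jetsPsi g F) 4 s x -
      4 * (jetsR (jetsPsi g F) 1 s x * jetsR (jetsPsi g F) 3 s x) -
      3 * jetsR (jetsPsi g F) 2 s x ^ 2 +
      12 * (jetsR (jetsPsi g F) 1 s x ^ 2 * jetsR (jetsPsi g F) 2 s x) -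
      6 * jetsR (jetsPsi g F) 1 s x ^ 4) := by
  have hp : PosF (jetsPsi g F) := posF_exp h g
  rw [jets_next h hg 3 s (jets_f3 h hg s)
    (fun x => jets_k3 (jetsR_x hp 1 s x) (jetsR_x hp 2 s x) (jetsR_x hp 3 s x)) x]
  simp only [Nat.reduceAdd]
  ring

theorem jets_f5 (h : SmB F) (hg : 0 < g) (s x : ℝ) :
    fj g F 5 s x = 1 / g * (jetsR (jetsPsi g F) 5 s x -
      5 * (jetsR (jetsPsi g F) 1 s x * jetsR (jetsPsi g F) 4 s x) -
      10 * (jetsR (jetsPsi g F) 2 s x * jetsR (jetsPsi g F) 3 s x) +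
      20 * (jetsR (jetsPsi g F) 1 s x ^ 2 * jetsR (jetsPsi g F) 3 s x) +
      30 * (jetsR (jetsPsi g F) 1 s x * jetsR (jetsPsi g F) 2 s x ^ 2) -
      60 * (jetsR (jetsPsi g F) 1 s x ^ 3 * jetsR (jetsPsi g F) 2 s x) +
      24 * jetsR (jetsPsi g F) 1 s x ^ 5) := by
  have hp : PosF (jetsPsi g F) := posF_exp h g
  rw [jets_next h hg 4 s (jets_f4 h hg s)
    (fun x => jets_k4 (jetsR_x hp 1 s x) (jetsR_x hp 2 s x) (jetsR_x hp 3 s x)
      (jetsR_x hp 4 s x)) x]
  simp only [Nat.reduceAdd]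
  ring

theorem jets_f6 (h : SmB F) (hg : 0 < g) (s x : ℝ) :
    fj g F 6 s x = 1 / g * (jetsR (jetsPsi g F) 6 s x -
      6 * (jetsR (jetsPsi g F) 1 s x * jetsR (jetsPsi g F) 5 s x) -
      15 * (jetsR (jetsPsi g F) 2 s x * jetsR (jetsPsi g F) 4 s x) +
      30 * (jetsR (jetsPsi g F) 1 s x ^ 2 * jetsR (jetsPsi g F) 4 s x) -
      10 * jetsR (jetsPsi g F) 3 s x ^ 2 +
      120 * (jetsR (jetsPsi g F) 1 s x * jetsR (jetsPsi g F) 2 s x * jetsR (jetsPsi g F) 3 s x) -
      120 * (jetsR (jetsPsi g F) 1 s x ^ 3 * jetsR (jetsPsi g F) 3 s x) +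
      30 * jetsR (jetsPsi g F) 2 s x ^ 3 -
      270 * (jetsR (jetsPsi g F) 1 s x ^ 2 * jetsR (jetsPsi g F) 2 s x ^ 2) +
      360 * (jetsR (jetsPsi g F) 1 s x ^ 4 * jetsR (jetsPsi g F) 2 s x) -
      120 * jetsR (jetsPsi g F) 1 s x ^ 6) := by
  have hp : PosF (jetsPsi g F) := posF_exp h g
  rw [jets_next h hg 5 s (jets_f5 h hg s)
    (fun x => jets_k5 (jetsR_x hp 1 s x) (jetsR_x hp 2 s x) (jetsR_x hp 3 s x)
      (jetsR_x hp 4 s x) (jetsR_x hp 5 s x)) x]
  simp only [Nat.reduceAdd]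
  ring

/-! ### Time derivatives -/

theorem jets_time (j : ℕ) {x s K' d : ℝ} {K : ℝ → ℝ}
    (hK : ∀ s, fj g F j s x = 1 / g * K s) (hd : HasDerivAt K K' s) (he : 1 / g * K' = d) :
    HasDerivAt (fun s => fj g F j s x) d s := by
  have h3 : (fun s => fj g F j s x) = fun s => 1 / g * K s := funext hK
  rw [h3, ← he]
  exact hd.const_mul (1 / g)

theorem fj_s0 (h : SmB F) (hg : 0 < g) {s : ℝ} (hs : 0 < s) (x : ℝ) :
    HasDerivAt (fun s => fj g F 0 s x) (1 / 2 * (fj g F 2 s x + g * fj g F 1 s x ^ 2)) s := by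
  have hp : PosF (jetsPsi g F) := posF_exp h g
  refine jets_time 0 (K := fun s => Real.log (U (jetsPsi g F) 0 s x))
    (K' := 1 / 2 * jetsR (jetsPsi g F) 2 s x) (fun s => ?_) ?_ ?_
  · unfold fj
    rw [iteratedDeriv_zero, jets_gstep]
  · refine ((U_s hp 0 hs x).log (U_pos hp s x).ne').congr_deriv ?_
    unfold jetsR
    simp only [zero_add]
    ring
  · rw [jets_f1 h hg, jets_f2 h hg]
    field_simp
    ring

theorem fj_s1 (h : SmB F) (hg : 0 < g) {s : ℝ} (hs : 0 < s) (x : ℝ) :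
    HasDerivAt (fun s => fj g F 1 s x)
      (1 / 2 * fj g F 3 s x + g * (fj g F 1 s x * fj g F 2 s x)) s := by
  have hp : PosF (jetsPsi g F) := posF_exp h g
  refine jets_time 1 (fun s => jets_f1 h hg s x) (jetsR_s hp 1 hs x) ?_
  rw [jets_f1 h hg, jets_f2 h hg, jets_f3 h hg]
  field_simp
  norm_num
  ring

theorem fj_s2 (h : SmB F) (hg : 0 < g) {s : ℝ} (hs : 0 < s) (x : ℝ) :
    HasDerivAt (fun s => fj g F 2 s x)
      (1 / 2 * fj g F 4 s x + g * (fj g F 2 s x ^ 2 + fj g F 1 s x * fj g F 3 s x)) s := by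
  have hp : PosF (jetsPsi g F) := posF_exp h g
  refine jets_time 2 (fun s => jets_f2 h hg s x)
    (jets_k2 (jetsR_s hp 1 hs x) (jetsR_s hp 2 hs x)) ?_
  rw [jets_f1 h hg, jets_f2 h hg, jets_f3 h hg, jets_f4 h hg]
  field_simp
  norm_num
  ring

theorem fj_s3 (h : SmB F) (hg : 0 < g) {s : ℝ} (hs : 0 < s) (x : ℝ) :
    HasDerivAt (fun s => fj g F 3 s x)
      (1 / 2 * fj g F 5 s x + g * (3 * fj g F 2 s x * fj g F 3 s x
        + fj g F 1 s x * fj g F 4 s x)) s := by
  have hp : PosF (jetsPsi g F) := posF_exp h g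
  refine jets_time 3 (fun s => jets_f3 h hg s x)
    (jets_k3 (jetsR_s hp 1 hs x) (jetsR_s hp 2 hs x) (jetsR_s hp 3 hs x)) ?_
  rw [jets_f1 h hg, jets_f2 h hg, jets_f3 h hg, jets_f4 h hg, jets_f5 h hg]
  field_simp
  norm_num
  ring

theorem fj_s4 (h : SmB F) (hg : 0 < g) {s : ℝ} (hs : 0 < s) (x : ℝ) :
    HasDerivAt (fun s => fj g F 4 s x)
      (1 / 2 * fj g F 6 s x + g * (3 * fj g F 3 s x ^ 2 + 4 * fj g F 2 s x * fj g F 4 s x
        + fj g F 1 s x * fj g F 5 s x)) s := by
  have hp : PosF (jetsPsi g F) := posF_exp h g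
  refine jets_time 4 (fun s => jets_f4 h hg s x)
    (jets_k4 (jetsR_s hp 1 hs x) (jetsR_s hp 2 hs x) (jetsR_s hp 3 hs x) (jetsR_s hp 4 hs x)) ?_
  rw [jets_f1 h hg, jets_f2 h hg, jets_f3 h hg, jets_f4 h hg, jets_f5 h hg, jets_f6 h hg]
  field_simp
  norm_num
  ring

end Vale.Agent.P146.Gap
end

section

/-!
Adding one pattern (module U3), part 1: elementary pairs (a Fourier transform of a kernel into a
finite set of vectors, together with its one-dimensional counterpart) and the semiring they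
generate.
-/

open MeasureTheory ProbabilityTheory Filter Topology

namespace Vale.Agent.P157.Par

variable {N : ℕ}

/-- Pairs of a complex function of the state and the pattern, and a function on the line. -/
abbrev PP (N : ℕ) : Type := ((Fin N → ℝ) → (Fin N → ℝ) → ℂ) × (ℝ → ℂ)

/-- The overlap at the level `l`. -/
noncomputable def R1 (m r : ℕ → ℝ) (l : ℕ) (G : (Fin N → ℝ) → ℝ)
    (B : (Fin N → ℝ) → Fin N → ℝ) : ℝ := chainAv m r l G (fun y => ∑ i, B y i ^ 2) / N

/-- Elementary pairs. -/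
def El (m r : ℕ → ℝ) (l : ℕ) (G : (Fin N → ℝ) → ℝ) (B : (Fin N → ℝ) → Fin N → ℝ) (P : PP N) :
    Prop :=
  ∃ (ι : Type) (_ : Fintype ι) (p : ι → (Fin N → ℝ) → ℝ) (e : ι → Fin N → ℝ) (c s Q : ℝ),
    0 ≤ c ∧ (∀ z, Measurable (p z)) ∧ (∀ z y, 0 ≤ p z y) ∧ (∀ y, ∑ z, p z y = 1) ∧
    (∀ y i, ∑ z, p z y * e z i = s * B y i / √(N : ℝ)) ∧
    chainAv m r l G (fun y => ∑ z, p z y * ∑ i, e z i ^ 2) = s ^ 2 * R1 m r l G B + Q ∧
    (∀ y g, P.1 y g = c * ∑ z, (p z y : ℂ) *
      Complex.exp (((∑ i, g i * e z i : ℝ) : ℂ) * Complex.I)) ∧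
    ∀ x, P.2 x = c * Complex.exp (((s * x : ℝ) : ℂ) * Complex.I - (Q / 2 : ℝ))

lemma El.const {m r : ℕ → ℝ} {l : ℕ} (hm : ∀ j < l, 0 < m (j + 1)) {G : (Fin N → ℝ) → ℝ}
    (hG : Lip G) (B : (Fin N → ℝ) → Fin N → ℝ) {c : ℝ} (hc : 0 ≤ c) :
    El m r l G B ((fun _ _ => (c : ℂ)), fun _ => (c : ℂ)) := by
  refine ⟨Unit, inferInstance, fun _ _ => 1, fun _ _ => 0, c, 0, 0, hc, fun _ => measurable_const,
    fun _ _ => zero_le_one, fun _ => by simp, fun _ _ => by simp, ?_, fun _ _ => by simp,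
    fun _ => by simp⟩
  simpa using chainAv_const hm hG 0

lemma prob_le_one {ι : Type} [Fintype ι] {p : ι → ℝ} (h0 : ∀ z, 0 ≤ p z) (h1 : ∑ z, p z = 1)
    (z : ι) : p z ≤ 1 := by
  rw [← h1]
  exact Finset.single_le_sum (fun z _ => h0 z) (Finset.mem_univ z)

lemma eg_prob {ι : Type} [Fintype ι] {p : ι → (Fin N → ℝ) → ℝ} (hp : ∀ z, Measurable (p z))
    (h0 : ∀ z y, 0 ≤ p z y) (h1 : ∀ y, ∑ z, p z y = 1) (z : ι) : EG (p z) :=
  EG.of_bdd (hp z) (C := 1) fun y => by
    rw [abs_of_nonneg (h0 z y)]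
    exact prob_le_one (fun z => h0 z y) (h1 y) z

lemma El.mul {m r : ℕ → ℝ} {l : ℕ} (hm : ∀ j < l, 0 < m (j + 1)) {G : (Fin N → ℝ) → ℝ}
    (hG : Lip G) {B : (Fin N → ℝ) → Fin N → ℝ} (hB : ∀ i, EG fun y => B y i) {P P' : PP N}
    (hP : El m r l G B P) (hP' : El m r l G B P') : El m r l G B (P * P') := by
  obtain ⟨ι, hι, p, e, c, s, Q, hc, hpm, hp0, hp1, hpe, hch, hA, ha⟩ := hP
  obtain ⟨ι', hι', p', e', c', s', Q', hc', hpm', hp0', hp1', hpe', hch', hA', ha'⟩ := hP'
  have hsum : ∀ y, ∀ (F : ι → ℝ) (F' : ι' → ℝ), ∑ z : ι × ι', p z.1 y * p' z.2 y *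
      (F z.1 * F' z.2) = (∑ z, p z y * F z) * ∑ z, p' z y * F' z := by
    intro y F F'
    rw [Fintype.sum_prod_type, Finset.sum_mul_sum]
    refine Finset.sum_congr rfl fun z _ => Finset.sum_congr rfl fun z' _ => by ring
  refine ⟨ι × ι', inferInstance, fun z y => p z.1 y * p' z.2 y, fun z i => e z.1 i + e' z.2 i,
    c * c', s + s', Q + Q', mul_nonneg hc hc', fun z => (hpm _).mul (hpm' _),
    fun z y => mul_nonneg (hp0 _ _) (hp0' _ _), fun y => ?_, fun y i => ?_, ?_, fun y g => ?_,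
    fun x => ?_⟩
  · have := hsum y (fun _ => 1) (fun _ => 1)
    simpa [hp1, hp1'] using this
  · have h1 := hsum y (fun z => e z i) (fun _ => 1)
    have h2 := hsum y (fun _ => 1) (fun z => e' z i)
    simp only [mul_one, one_mul, hp1, hp1', hpe, hpe'] at h1 h2
    simp only [mul_add, Finset.sum_add_distrib, h1, h2]
    ring
  · have hpt : ∀ y, ∑ z : ι × ι', p z.1 y * p' z.2 y * ∑ i, (e z.1 i + e' z.2 i) ^ 2 =
        (∑ z, p z y * ∑ i, e z i ^ 2) + (∑ z, p' z y * ∑ i, e' z i ^ 2) +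
          (2 * s * s' / N) * ∑ i, B y i ^ 2 := by
      intro y
      have h1 := hsum y (fun z => ∑ i, e z i ^ 2) (fun _ => 1)
      have h2 := hsum y (fun _ => 1) (fun z => ∑ i, e' z i ^ 2)
      have h3 : ∀ i, ∑ z : ι × ι', p z.1 y * p' z.2 y * (e z.1 i * e' z.2 i) =
          s * s' / N * B y i ^ 2 := by
        intro i
        rw [hsum y (fun z => e z i) (fun z => e' z i), hpe, hpe']
        rcases Nat.eq_zero_or_pos N with hN | hN
        · subst hN; exact i.elim0
        · have : (√(N : ℝ)) ^ 2 = N := Real.sq_sqrt (Nat.cast_nonneg N)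
          have hN' : (0 : ℝ) < N := by exact_mod_cast hN
          have h0 : √(N : ℝ) ≠ 0 := (Real.sqrt_pos.2 hN').ne'
          field_simp
          rw [this]
          ring
      simp only [mul_one, one_mul, hp1, hp1'] at h1 h2
      have h4 : ∀ z : ι × ι', p z.1 y * p' z.2 y * ∑ i, (e z.1 i + e' z.2 i) ^ 2 =
          p z.1 y * p' z.2 y * (∑ i, e z.1 i ^ 2) + p z.1 y * p' z.2 y * (∑ i, e' z.2 i ^ 2) +
            ∑ i, 2 * (p z.1 y * p' z.2 y * (e z.1 i * e' z.2 i)) := by
        intro z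
        simp only [Finset.mul_sum]
        rw [← Finset.sum_add_distrib, ← Finset.sum_add_distrib]
        exact Finset.sum_congr rfl fun i _ => by ring
      simp only [h4, Finset.sum_add_distrib, h1, h2]
      rw [Finset.sum_comm]
      simp only [← Finset.mul_sum, h3]
      ring
    rw [funext hpt, chainAv_add hm hG, chainAv_add hm hG, chainAv_const_mul, hch, hch']
    · have : chainAv m r l G (fun y => ∑ i, B y i ^ 2) = R1 m r l G B * N := by
        unfold R1
        rcases Nat.eq_zero_or_pos N with hN | hN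
        · subst hN
          simpa using chainAv_const hm hG 0
        · have hN' : (N : ℝ) ≠ 0 := by exact_mod_cast hN.ne'
          field_simp
      rw [this]
      rcases Nat.eq_zero_or_pos N with hN | hN
      · subst hN
        simp [R1]
      · have hN' : (N : ℝ) ≠ 0 := by exact_mod_cast hN.ne'
        field_simp
        ring
    · exact EG.sum _ fun z _ => (eg_prob hpm hp0 hp1 z).mul (EG.const _)
    · exact EG.sum _ fun z _ => (eg_prob hpm' hp0' hp1' z).mul (EG.const _)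
    · exact (EG.sum _ fun z _ => (eg_prob hpm hp0 hp1 z).mul (EG.const _)).add
        (EG.sum _ fun z _ => (eg_prob hpm' hp0' hp1' z).mul (EG.const _))
    · exact (EG.sum _ fun i _ => (hB i).pow 2).const_mul _
  · rw [Prod.fst_mul, Pi.mul_apply, Pi.mul_apply, hA, hA', Fintype.sum_prod_type]
    have : ∀ (z : ι) (z' : ι'), ((p z y * p' z' y : ℝ) : ℂ) *
        Complex.exp (((∑ i, g i * (e z i + e' z' i) : ℝ) : ℂ) * Complex.I) =
        ((p z y : ℂ) * Complex.exp (((∑ i, g i * e z i : ℝ) : ℂ) * Complex.I)) *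
        ((p' z' y : ℂ) * Complex.exp (((∑ i, g i * e' z' i : ℝ) : ℂ) * Complex.I)) := by
      intro z z'
      have h1 : (∑ i, g i * (e z i + e' z' i) : ℝ) = (∑ i, g i * e z i) + ∑ i, g i * e' z' i := by
        rw [← Finset.sum_add_distrib]
        exact Finset.sum_congr rfl fun i _ => by ring
      rw [h1, Complex.ofReal_add, add_mul, Complex.exp_add, Complex.ofReal_mul]
      ring
    dsimp only
    simp only [this]
    rw [Complex.ofReal_mul, mul_mul_mul_comm, Finset.sum_mul_sum]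
  · rw [Prod.snd_mul, Pi.mul_apply, ha, ha', mul_mul_mul_comm, ← Complex.exp_add,
      ← Complex.ofReal_mul]
    congr 2
    push_cast
    ring

/-- The submonoid of elementary pairs. -/
def ElM (m r : ℕ → ℝ) (l : ℕ) (hm : ∀ j < l, 0 < m (j + 1)) (G : (Fin N → ℝ) → ℝ) (hG : Lip G)
    (B : (Fin N → ℝ) → Fin N → ℝ) (hB : ∀ i, EG fun y => B y i) : Submonoid (PP N) where
  carrier := {P | El m r l G B P}
  one_mem' := by
    have := El.const (r := r) hm hG B (c := 1) zero_le_one
    simp only [Complex.ofReal_one] at this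
    exact this
  mul_mem' := fun h h' => h.mul hm hG hB h'

/-- Nonnegative combinations of elementary pairs. -/
def Rep (m r : ℕ → ℝ) (l : ℕ) (G : (Fin N → ℝ) → ℝ) (B : (Fin N → ℝ) → Fin N → ℝ)
    (P : PP N) : Prop := P ∈ AddSubmonoid.closure {P | El m r l G B P}

section closure

variable {m r : ℕ → ℝ} {l : ℕ} {G : (Fin N → ℝ) → ℝ} {B : (Fin N → ℝ) → Fin N → ℝ}

lemma Rep.of_el {P : PP N} (h : El m r l G B P) : Rep m r l G B P :=
  AddSubmonoid.subset_closure h

lemma Rep.zero : Rep m r l G B (0 : PP N) := AddSubmonoid.zero_mem _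

lemma Rep.add {P P' : PP N} (h : Rep m r l G B P) (h' : Rep m r l G B P') :
    Rep m r l G B (P + P') := AddSubmonoid.add_mem _ h h'

lemma Rep.sum {ι : Type*} (s : Finset ι) {P : ι → PP N} (h : ∀ i ∈ s, Rep m r l G B (P i)) :
    Rep m r l G B (∑ i ∈ s, P i) := AddSubmonoid.sum_mem _ h

lemma Rep.mul (hm : ∀ j < l, 0 < m (j + 1)) (hG : Lip G) (hB : ∀ i, EG fun y => B y i)
    {P P' : PP N} (h : Rep m r l G B P) (h' : Rep m r l G B P') : Rep m r l G B (P * P') :=
  (ElM m r l hm G hG B hB).subsemiringClosure.mul_mem h h'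

lemma Rep.const (hm : ∀ j < l, 0 < m (j + 1)) (hG : Lip G) (B : (Fin N → ℝ) → Fin N → ℝ)
    {c : ℝ} (hc : 0 ≤ c) : Rep m r l G B (((fun _ _ => (c : ℂ)), fun _ => (c : ℂ)) : PP N) :=
  Rep.of_el (El.const hm hG B hc)

lemma Rep.pow (hm : ∀ j < l, 0 < m (j + 1)) (hG : Lip G) (hB : ∀ i, EG fun y => B y i)
    {P : PP N} (h : Rep m r l G B P) (n : ℕ) : Rep m r l G B (P ^ n) :=
  (ElM m r l hm G hG B hB).subsemiringClosure.pow_mem h n

lemma Rep.induction {motive : PP N → Prop} (h1 : ∀ P, El m r l G B P → motive P)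
    (h0 : motive 0) (hadd : ∀ P P', motive P → motive P' → motive (P + P')) {P : PP N}
    (h : Rep m r l G B P) : motive P :=
  AddSubmonoid.closure_induction (motive := fun P _ => motive P) (fun P hP => h1 P hP) h0
    (fun P P' _ _ => hadd P P') h

/-- Boundedness and measurability of the elements. -/
lemma Rep.bdd {P : PP N} (h : Rep m r l G B P) :
    (∃ C, ∀ y g, ‖P.1 y g‖ ≤ C) ∧ (∃ C, ∀ x, ‖P.2 x‖ ≤ C) ∧
      Measurable (fun p : (Fin N → ℝ) × (Fin N → ℝ) => P.1 p.1 p.2) ∧ Measurable P.2 := by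
  refine Rep.induction (motive := fun P => (∃ C, ∀ y g, ‖P.1 y g‖ ≤ C) ∧
    (∃ C, ∀ x, ‖P.2 x‖ ≤ C) ∧ Measurable (fun p : (Fin N → ℝ) × (Fin N → ℝ) => P.1 p.1 p.2) ∧
      Measurable P.2) ?_ ?_ ?_ h
  · rintro P ⟨ι, hι, p, e, c, s, Q, hc, hpm, hp0, hp1, -, -, hA, ha⟩
    refine ⟨⟨c, fun y g => ?_⟩, ⟨c * Real.exp (-(Q / 2)), fun x => ?_⟩, ?_, ?_⟩
    · rw [hA, norm_mul, Complex.norm_real, Real.norm_eq_abs, abs_of_nonneg hc]
      refine mul_le_of_le_one_right hc ?_
      calc ‖∑ z, (p z y : ℂ) * Complex.exp (((∑ i, g i * e z i : ℝ) : ℂ) * Complex.I)‖ ≤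
          ∑ z, ‖(p z y : ℂ) * Complex.exp (((∑ i, g i * e z i : ℝ) : ℂ) * Complex.I)‖ :=
            norm_sum_le _ _
        _ = ∑ z, p z y := by
            refine Finset.sum_congr rfl fun z _ => ?_
            rw [norm_mul, Complex.norm_real, Real.norm_eq_abs, abs_of_nonneg (hp0 z y),
              Complex.norm_exp_ofReal_mul_I, mul_one]
        _ = 1 := hp1 y
    · rw [ha, norm_mul, Complex.norm_real, Real.norm_eq_abs, abs_of_nonneg hc, sub_eq_add_neg,
        Complex.exp_add, norm_mul, Complex.norm_exp_ofReal_mul_I, one_mul,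
        ← Complex.ofReal_neg, Complex.norm_exp_ofReal]
    · simp only [hA]
      have : ∀ z, Measurable (p z) := hpm
      fun_prop
    · rw [funext ha]
      fun_prop
  · refine ⟨⟨0, fun y g => by simp⟩, ⟨0, fun x => by simp⟩, ?_, ?_⟩
    · simp only [Prod.fst_zero, Pi.zero_apply]; exact measurable_const
    · simp only [Prod.snd_zero]; exact measurable_const
  · rintro P P' ⟨⟨C1, h1⟩, ⟨C2, h2⟩, h3, h4⟩ ⟨⟨C1', h1'⟩, ⟨C2', h2'⟩, h3', h4'⟩
    refine ⟨⟨C1 + C1', fun y g => (norm_add_le _ _).trans (add_le_add (h1 y g) (h1' y g))⟩,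
      ⟨C2 + C2', fun x => (norm_add_le _ _).trans (add_le_add (h2 x) (h2' x))⟩, ?_, ?_⟩
    · exact h3.add h3'
    · exact h4.add h4'

end closure

end Vale.Agent.P157.Par
end

section

/-!
Adding one pattern (module U3), part 2: the tilted chain acts on combinations of elementary pairs,
and the final comparison at the level zero.
-/

open MeasureTheory ProbabilityTheory Filter Topology

namespace Vale.Agent.P157.Par

variable {N : ℕ}

/-- The tilted average of a complex function. -/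
noncomputable def tiltC (m v : ℝ) (G : (Fin N → ℝ) → ℝ) (A : (Fin N → ℝ) → ℂ) (y : Fin N → ℝ) :
    ℂ :=
  (∫ z, A (y + √v • z) * (Real.exp (m * G (y + √v • z)) : ℂ) ∂(gN N)) /
    ((∫ z, Real.exp (m * G (y + √v • z)) ∂(gN N) : ℝ) : ℂ)

/-- One step on pairs: `w` is the increment of the overlap. -/
noncomputable def stepP (m v w : ℝ) (G : (Fin N → ℝ) → ℝ) (P : PP N) : PP N :=
  (fun y g => tiltC m v G (fun y => P.1 y g) y, fun x => ∫ z, P.2 (x + √w * z) ∂(gaussianReal 0 1))

lemma tiltC_ofReal (m v : ℝ) (G h : (Fin N → ℝ) → ℝ) (y : Fin N → ℝ) :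
    tiltC m v G (fun y => (h y : ℂ)) y = (tiltN m v G h y : ℂ) := by
  unfold tiltC tiltN
  have h1 : ((∫ z, h (y + √v • z) * Real.exp (m * G (y + √v • z)) ∂(gN N) : ℝ) : ℂ) =
      ∫ z, (h (y + √v • z) : ℂ) * (Real.exp (m * G (y + √v • z)) : ℂ) ∂(gN N) := by
    rw [← integral_complex_ofReal]
    simp only [Complex.ofReal_mul]
  rw [Complex.ofReal_div, h1]

lemma integrable_tiltC {G : (Fin N → ℝ) → ℝ} (hG : Lip G) (m v : ℝ) {A : (Fin N → ℝ) → ℂ}
    (hA : Measurable A) {C : ℝ} (hC : ∀ y, ‖A y‖ ≤ C) (y : Fin N → ℝ) :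
    Integrable (fun z => A (y + √v • z) * (Real.exp (m * G (y + √v • z)) : ℂ)) (gN N) := by
  have h1 := ((hG.exp_eg m).integrable y (√v)).const_mul C
  refine h1.mono' ?_ (Filter.Eventually.of_forall fun z => ?_)
  · have h2 : Measurable fun z : Fin N → ℝ => y + √v • z := by fun_prop
    have h3 : Measurable fun z : Fin N → ℝ => G (y + √v • z) := hG.measurable.comp h2
    have h4 : Measurable fun z : Fin N → ℝ => A (y + √v • z) := hA.comp h2
    exact (h4.mul (Complex.measurable_ofReal.comp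
      (Real.measurable_exp.comp (h3.const_mul m)))).aestronglyMeasurable
  · rw [norm_mul, Complex.norm_real, Real.norm_eq_abs, abs_of_pos (Real.exp_pos _)]
    exact mul_le_mul_of_nonneg_right (hC _) (Real.exp_pos _).le

lemma tiltC_add {G : (Fin N → ℝ) → ℝ} (hG : Lip G) (m v : ℝ) {A A' : (Fin N → ℝ) → ℂ}
    (hA : Measurable A) {C : ℝ} (hC : ∀ y, ‖A y‖ ≤ C) (hA' : Measurable A') {C' : ℝ}
    (hC' : ∀ y, ‖A' y‖ ≤ C') (y : Fin N → ℝ) :
    tiltC m v G (fun y => A y + A' y) y = tiltC m v G A y + tiltC m v G A' y := by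
  unfold tiltC
  rw [← add_div, ← integral_add (integrable_tiltC hG m v hA hC y)
    (integrable_tiltC hG m v hA' hC' y)]
  simp only [add_mul]

lemma norm_tiltC_le {G : (Fin N → ℝ) → ℝ} (hG : Lip G) (m v : ℝ) {A : (Fin N → ℝ) → ℂ}
    {C : ℝ} (hC : ∀ y, ‖A y‖ ≤ C) (y : Fin N → ℝ) : ‖tiltC m v G A y‖ ≤ C := by
  unfold tiltC
  rw [norm_div, Complex.norm_real, Real.norm_eq_abs, abs_of_pos (int_exp_pos hG m v y),
    div_le_iff₀ (int_exp_pos hG m v y), ← integral_const_mul]
  refine norm_integral_le_of_norm_le (((hG.exp_eg m).integrable y (√v)).const_mul C)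
    (Filter.Eventually.of_forall fun z => ?_)
  rw [norm_mul, Complex.norm_real, Real.norm_eq_abs, abs_of_pos (Real.exp_pos _)]
  exact mul_le_mul_of_nonneg_right (hC _) (Real.exp_pos _).le

lemma int_cexp (t : ℝ) : ∫ x, Complex.exp (((t * x : ℝ) : ℂ) * Complex.I) ∂(gaussianReal 0 1) =
    ((Real.exp (-(t ^ 2 / 2)) : ℝ) : ℂ) := by
  have h1 := charFun_gaussianReal (μ := 0) (v := 1) t
  rw [charFun_apply_real] at h1
  simp only [Complex.ofReal_mul]
  rw [h1]
  push_cast
  congr 1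
  ring

lemma integrable_cexp (t s : ℝ) (μ : Measure ℝ) [IsFiniteMeasure μ] :
    Integrable (fun x : ℝ => Complex.exp (((t * x + s : ℝ) : ℂ) * Complex.I)) μ := by
  refine Integrable.mono' (integrable_const (1 : ℝ))
    (by fun_prop : Measurable _).aestronglyMeasurable (Filter.Eventually.of_forall fun x => ?_)
  rw [Complex.norm_exp_ofReal_mul_I]

section step

variable {m r : ℕ → ℝ} {l : ℕ} {G : (Fin N → ℝ) → ℝ} {B : (Fin N → ℝ) → Fin N → ℝ}

/-- The step on the line of an elementary function. -/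
lemma gauss_step {w : ℝ} (hw : 0 ≤ w) (s Q x : ℝ) :
    ∫ z, Complex.exp (((s * (x + √w * z) : ℝ) : ℂ) * Complex.I - (Q / 2 : ℝ))
      ∂(gaussianReal 0 1) =
    Complex.exp (((s * x : ℝ) : ℂ) * Complex.I - ((Q + s ^ 2 * w) / 2 : ℝ)) := by
  have h1 : ∀ z : ℝ, Complex.exp (((s * (x + √w * z) : ℝ) : ℂ) * Complex.I - (Q / 2 : ℝ)) =
      Complex.exp (((s * x : ℝ) : ℂ) * Complex.I - (Q / 2 : ℝ)) *
        Complex.exp ((((s * √w) * z : ℝ) : ℂ) * Complex.I) := by
    intro z
    rw [← Complex.exp_add]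
    congr 1
    push_cast
    ring
  simp only [h1]
  rw [integral_const_mul, int_cexp, Complex.ofReal_exp, ← Complex.exp_add]
  congr 1
  have : (s * √w) ^ 2 = s ^ 2 * w := by rw [mul_pow, Real.sq_sqrt hw]
  rw [this]
  push_cast
  ring

lemma El.step (hG : Lip G) {P : PP N} {G' : (Fin N → ℝ) → ℝ}
    {B' : (Fin N → ℝ) → Fin N → ℝ} (hG' : G' = gstepN (m (l + 1)) (r (l + 1) - r l) G)
    (hB' : B' = fun y i => tiltN (m (l + 1)) (r (l + 1) - r l) G (fun y => B y i) y)
    (hR : R1 m r l G' B' ≤ R1 m r (l + 1) G B)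
    (hP : El m r (l + 1) G B P) :
    El m r l G' B' (stepP (m (l + 1)) (r (l + 1) - r l) (R1 m r (l + 1) G B - R1 m r l G' B')
      G P) := by
  obtain ⟨ι, hι, p, e, c, s, Q, hc, hpm, hp0, hp1, hpe, hch, hA, ha⟩ := hP
  have hpE := eg_prob hpm hp0 hp1
  refine ⟨ι, hι, fun z => tiltN (m (l + 1)) (r (l + 1) - r l) G (p z), e, c, s,
    Q + s ^ 2 * (R1 m r (l + 1) G B - R1 m r l G' B'), hc, fun z => (hpE z).measurable_tilt hG _ _,
    fun z y => ?_, fun y => ?_, fun y i => ?_, ?_, fun y g => ?_, fun x => ?_⟩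
  · rw [← tiltN_const hG (m (l + 1)) (r (l + 1) - r l) 0 y]
    exact tiltN_mono hG (EG.const 0) (hpE z) (hp0 z) _ _ y
  · rw [← tiltN_sum _ hG (fun z _ => hpE z), tiltN_congr hp1, tiltN_const hG]
  · have h1 : ∀ y, ∑ z, e z i * p z y = s / √(N : ℝ) * B y i := by
      intro y
      rw [show s / √(N : ℝ) * B y i = s * B y i / √(N : ℝ) by ring, ← hpe y i]
      exact Finset.sum_congr rfl fun z _ => mul_comm _ _
    have h2 : ∑ z, tiltN (m (l + 1)) (r (l + 1) - r l) G (p z) y * e z i =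
        tiltN (m (l + 1)) (r (l + 1) - r l) G (fun y => ∑ z, e z i * p z y) y := by
      rw [tiltN_sum _ hG (fun z _ => (hpE z).const_mul _)]
      exact Finset.sum_congr rfl fun z _ => by rw [tiltN_const_mul, mul_comm]
    rw [h2, tiltN_congr h1, tiltN_const_mul, hB']
    ring
  · have h2 : ∀ y, ∑ z, tiltN (m (l + 1)) (r (l + 1) - r l) G (p z) y * ∑ i, e z i ^ 2 =
        tiltN (m (l + 1)) (r (l + 1) - r l) G (fun y => ∑ z, p z y * ∑ i, e z i ^ 2) y := by
      intro y
      rw [tiltN_sum _ hG (fun z _ => (hpE z).mul (EG.const _))]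
      refine Finset.sum_congr rfl fun z _ => ?_
      rw [mul_comm, ← tiltN_const_mul]
      exact tiltN_congr (fun y => mul_comm _ _) _ _ _
    rw [funext h2, hG']
    have h3 : chainAv m r l (gstepN (m (l + 1)) (r (l + 1) - r l) G)
        (tiltN (m (l + 1)) (r (l + 1) - r l) G fun y => ∑ z, p z y * ∑ i, e z i ^ 2) =
        chainAv m r (l + 1) G (fun y => ∑ z, p z y * ∑ i, e z i ^ 2) := rfl
    rw [h3, hch]
    ring
  · show tiltC _ _ G (fun y => P.1 y g) y = _
    have h1 : (fun y => P.1 y g) = fun y => ∑ z, ((c : ℂ) *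
        Complex.exp (((∑ i, g i * e z i : ℝ) : ℂ) * Complex.I)) * (p z y : ℂ) := by
      funext y
      rw [hA, Finset.mul_sum]
      exact Finset.sum_congr rfl fun z _ => by ring
    rw [h1]
    unfold tiltC
    simp only [Finset.sum_mul]
    rw [integral_finsetSum _ fun z _ => ?_]
    · rw [Finset.sum_div, Finset.mul_sum]
      refine Finset.sum_congr rfl fun z _ => ?_
      simp only [mul_assoc]
      rw [integral_const_mul, integral_const_mul, mul_div_assoc, mul_div_assoc]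
      have h2 := tiltC_ofReal (m (l + 1)) (r (l + 1) - r l) G (p z) y
      unfold tiltC at h2
      rw [h2]
      ring
    · simp only [mul_assoc]
      refine ((integrable_tiltC hG _ _ (Complex.measurable_ofReal.comp (hpm z)) (C := 1)
        (fun y => ?_) y).const_mul _).const_mul _
      simp only [Function.comp_apply]
      rw [Complex.norm_real, Real.norm_eq_abs, abs_of_nonneg (hp0 z y)]
      exact prob_le_one (fun z => hp0 z y) (hp1 y) z
  · show ∫ z, P.2 (x + _ * z) ∂_ = _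
    simp only [ha]
    rw [integral_const_mul, gauss_step (sub_nonneg.2 hR)]

lemma measurable_curry_left {A : (Fin N → ℝ) → (Fin N → ℝ) → ℂ}
    (h : Measurable (fun p : (Fin N → ℝ) × (Fin N → ℝ) => A p.1 p.2)) (g : Fin N → ℝ) :
    Measurable fun y => A y g :=
  h.comp (measurable_id.prodMk measurable_const)

lemma Rep.step (hG : Lip G) {P : PP N} {G' : (Fin N → ℝ) → ℝ}
    {B' : (Fin N → ℝ) → Fin N → ℝ} (hG' : G' = gstepN (m (l + 1)) (r (l + 1) - r l) G)
    (hB' : B' = fun y i => tiltN (m (l + 1)) (r (l + 1) - r l) G (fun y => B y i) y)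
    (hR : R1 m r l G' B' ≤ R1 m r (l + 1) G B)
    (hP : Rep m r (l + 1) G B P) :
    Rep m r l G' B' (stepP (m (l + 1)) (r (l + 1) - r l) (R1 m r (l + 1) G B - R1 m r l G' B')
      G P) := by
  have key : Rep m r (l + 1) G B P ∧ Rep m r l G' B' (stepP (m (l + 1)) (r (l + 1) - r l)
      (R1 m r (l + 1) G B - R1 m r l G' B') G P) := by
    refine Rep.induction (motive := fun P => Rep m r (l + 1) G B P ∧
      Rep m r l G' B' (stepP (m (l + 1)) (r (l + 1) - r l)
        (R1 m r (l + 1) G B - R1 m r l G' B') G P)) ?_ ?_ ?_ hP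
    · intro P hP
      exact ⟨Rep.of_el hP, Rep.of_el (El.step hG hG' hB' hR hP)⟩
    · refine ⟨Rep.zero, ?_⟩
      have : stepP (m (l + 1)) (r (l + 1) - r l)
        (R1 m r (l + 1) G B - R1 m r l G' B') G (0 : PP N) = 0 := by
        unfold stepP tiltC
        ext <;> simp
      rw [this]
      exact Rep.zero
    · rintro P P' ⟨h1, h2⟩ ⟨h1', h2'⟩
      refine ⟨h1.add h1', ?_⟩
      obtain ⟨⟨C, hC⟩, ⟨D, hD⟩, hA, ha⟩ := h1.bdd
      obtain ⟨⟨C', hC'⟩, ⟨D', hD'⟩, hA', ha'⟩ := h1'.bdd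
      have : stepP (m (l + 1)) (r (l + 1) - r l)
        (R1 m r (l + 1) G B - R1 m r l G' B') G (P + P') =
        stepP (m (l + 1)) (r (l + 1) - r l) (R1 m r (l + 1) G B - R1 m r l G' B') G P +
        stepP (m (l + 1)) (r (l + 1) - r l) (R1 m r (l + 1) G B - R1 m r l G' B') G P' := by
        unfold stepP
        ext1
        · funext y g
          exact tiltC_add hG _ _ (measurable_curry_left hA g) (fun y => hC y g)
            (measurable_curry_left hA' g) (fun y => hC' y g) y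
        · funext x
          refine integral_add ?_ ?_
          · refine Integrable.mono' (integrable_const D) (ha.comp (by fun_prop)).aestronglyMeasurable
              (Filter.Eventually.of_forall fun z => hD _)
          · refine Integrable.mono' (integrable_const D') (ha'.comp (by fun_prop)).aestronglyMeasurable
              (Filter.Eventually.of_forall fun z => hD' _)
      rw [this]
      exact h2.add h2'
  exact key.2

end step

/-- The characteristic function of the standard Gaussian vector. -/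
lemma int_cexp_gN (e : Fin N → ℝ) :
    ∫ g, Complex.exp (((∑ i, g i * e i : ℝ) : ℂ) * Complex.I) ∂(gN N) =
      ((Real.exp (-(∑ i, e i ^ 2) / 2) : ℝ) : ℂ) := by
  have h1 : ∀ g : Fin N → ℝ, Complex.exp (((∑ i, g i * e i : ℝ) : ℂ) * Complex.I) =
      ∏ i, Complex.exp (((e i * g i : ℝ) : ℂ) * Complex.I) := by
    intro g
    rw [← Complex.exp_sum, ← Finset.sum_mul, ← Complex.ofReal_sum]
    have : ∑ i, g i * e i = ∑ i, e i * g i := Finset.sum_congr rfl fun i _ => mul_comm _ _
    rw [this]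
  simp only [h1]
  rw [integral_fintype_prod_eq_prod (f := fun i x => Complex.exp (((e i * x : ℝ) : ℂ) * Complex.I))]
  simp only [int_cexp]
  rw [← Complex.ofReal_prod, ← Real.exp_sum]
  congr 2
  rw [Finset.sum_neg_distrib, ← Finset.sum_div, neg_div]

lemma integrable_cexp_gN (e : Fin N → ℝ) :
    Integrable (fun g : Fin N → ℝ => Complex.exp (((∑ i, g i * e i : ℝ) : ℂ) * Complex.I))
      (gN N) := by
  refine Integrable.mono' (integrable_const (1 : ℝ))
    (by fun_prop : Measurable _).aestronglyMeasurable (Filter.Eventually.of_forall fun x => ?_)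
  rw [Complex.norm_exp_ofReal_mul_I]

section final

variable {m r : ℕ → ℝ} {G : (Fin N → ℝ) → ℝ} {B : (Fin N → ℝ) → Fin N → ℝ}

lemma R1_zero_nonneg : 0 ≤ R1 m r 0 G B := by
  unfold R1 chainAv
  refine div_nonneg (integral_nonneg fun z => Finset.sum_nonneg fun i _ => sq_nonneg _)
    (Nat.cast_nonneg N)

/-- The comparison at the level zero, for elementary pairs. -/
lemma El.final {P : PP N} (hP : El m r 0 G B P) :
    (∫ x, P.2 (√(R1 m r 0 G B) * x) ∂(gaussianReal 0 1)).re ≤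
      (∫ g, ∫ z, P.1 (√(r 0) • z) g ∂(gN N) ∂(gN N)).re := by
  obtain ⟨ι, hι, p, e, c, s, Q, hc, hpm, hp0, hp1, hpe, hch, hA, ha⟩ := hP
  have hpE := eg_prob hpm hp0 hp1
  -- the right side
  have h1 : ∀ g, ∫ z, P.1 (√(r 0) • z) g ∂(gN N) = (c : ℂ) * ∑ z,
      ((∫ ζ, p z (√(r 0) • ζ) ∂(gN N) : ℝ) : ℂ) *
        Complex.exp (((∑ i, g i * e z i : ℝ) : ℂ) * Complex.I) := by
    intro g
    simp only [hA]
    rw [integral_const_mul, integral_finsetSum _ fun z _ => ?_]
    · congr 1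
      refine Finset.sum_congr rfl fun z _ => ?_
      rw [integral_mul_const, ← integral_complex_ofReal]
    · exact (((hpE z).integrable_smul (√(r 0))).ofReal).mul_const _
  have h2 : ∫ g, ∫ z, P.1 (√(r 0) • z) g ∂(gN N) ∂(gN N) =
      ((c * ∑ z, (∫ ζ, p z (√(r 0) • ζ) ∂(gN N)) * Real.exp (-(∑ i, e z i ^ 2) / 2) : ℝ) : ℂ) := by
    simp only [h1]
    rw [integral_const_mul, integral_finsetSum _ fun z _ => ?_]
    · rw [Complex.ofReal_mul, Complex.ofReal_sum]
      congr 1
      refine Finset.sum_congr rfl fun z _ => ?_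
      rw [integral_const_mul, int_cexp_gN, Complex.ofReal_mul]
    · exact (integrable_cexp_gN _).const_mul _
  -- the left side
  have h3 : ∫ x, P.2 (√(R1 m r 0 G B) * x) ∂(gaussianReal 0 1) =
      ((c * Real.exp (-(Q + s ^ 2 * R1 m r 0 G B) / 2) : ℝ) : ℂ) := by
    rw [integral_congr_ae (Filter.Eventually.of_forall fun x => ha _), integral_const_mul]
    have := gauss_step (R1_zero_nonneg (m := m) (r := r) (G := G) (B := B)) s Q 0
    simp only [zero_add] at this
    rw [this, Complex.ofReal_mul c, Complex.ofReal_exp]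
    congr 2
    push_cast
    ring_nf
  rw [h2, h3, Complex.ofReal_re, Complex.ofReal_re]
  refine mul_le_mul_of_nonneg_left ?_ hc
  -- Jensen
  set p' : ι → ℝ := fun z => ∫ ζ, p z (√(r 0) • ζ) ∂(gN N) with hp'
  have hq0 : ∀ z, 0 ≤ p' z := fun z => integral_nonneg fun ζ => hp0 z _
  have hq1 : ∑ z, p' z = 1 := by
    rw [hp', ← integral_finsetSum _ fun z _ => (hpE z).integrable_smul (√(r 0))]
    simp only [hp1]
    simp
  have hq2 : ∑ z, p' z * ∑ i, e z i ^ 2 = s ^ 2 * R1 m r 0 G B + Q := by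
    rw [← hch]
    unfold chainAv
    rw [integral_finsetSum _ fun z _ => ((hpE z).integrable_smul (√(r 0))).mul_const _]
    exact Finset.sum_congr rfl fun z _ => by rw [integral_mul_const]
  have hJ := convexOn_exp.map_sum_le (t := Finset.univ) (w := p')
    (p := fun z => -(∑ i, e z i ^ 2) / 2) (fun z _ => hq0 z) hq1 (fun z _ => Set.mem_univ _)
  simp only [smul_eq_mul] at hJ
  refine le_trans (le_of_eq ?_) hJ
  congr 1
  have : ∑ z, p' z * (-(∑ i, e z i ^ 2) / 2) = -(∑ z, p' z * ∑ i, e z i ^ 2) / 2 := by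
    rw [← Finset.sum_neg_distrib, Finset.sum_div]
    exact Finset.sum_congr rfl fun z _ => by ring
  rw [this, hq2]
  ring

lemma Rep.integrable_top {l : ℕ} {P : PP N} (h : Rep m r l G B P) (s : ℝ) (g : Fin N → ℝ) :
    Integrable (fun z => P.1 (s • z) g) (gN N) := by
  obtain ⟨⟨C, hC⟩, -, hA, -⟩ := h.bdd
  exact Integrable.mono' (integrable_const C)
    ((measurable_curry_left hA g).comp (by fun_prop)).aestronglyMeasurable
    (Filter.Eventually.of_forall fun z => hC _ _)

lemma Rep.integrable_top2 {l : ℕ} {P : PP N} (h : Rep m r l G B P) (s : ℝ) :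
    Integrable (fun g => ∫ z, P.1 (s • z) g ∂(gN N)) (gN N) := by
  obtain ⟨⟨C, hC⟩, -, hA, -⟩ := h.bdd
  refine Integrable.mono' (integrable_const C) ?_ (Filter.Eventually.of_forall fun g => ?_)
  · have : StronglyMeasurable (Function.uncurry fun (g z : Fin N → ℝ) => P.1 (s • z) g) :=
      (hA.comp (by fun_prop : Measurable fun p : (Fin N → ℝ) × (Fin N → ℝ) =>
        (s • p.2, p.1))).stronglyMeasurable
    exact this.integral_prod_right.aestronglyMeasurable
  · refine (norm_integral_le_of_norm_le_const (C := C) (Filter.Eventually.of_forall fun z =>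
      hC _ _)).trans ?_
    simp

lemma Rep.final {P : PP N} (hP : Rep m r 0 G B P) :
    (∫ x, P.2 (√(R1 m r 0 G B) * x) ∂(gaussianReal 0 1)).re ≤
      (∫ g, ∫ z, P.1 (√(r 0) • z) g ∂(gN N) ∂(gN N)).re := by
  have key : Rep m r 0 G B P ∧ (∫ x, P.2 (√(R1 m r 0 G B) * x) ∂(gaussianReal 0 1)).re ≤
      (∫ g, ∫ z, P.1 (√(r 0) • z) g ∂(gN N) ∂(gN N)).re := by
    refine Rep.induction (motive := fun P => Rep m r 0 G B P ∧
      (∫ x, P.2 (√(R1 m r 0 G B) * x) ∂(gaussianReal 0 1)).re ≤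
      (∫ g, ∫ z, P.1 (√(r 0) • z) g ∂(gN N) ∂(gN N)).re) ?_ ?_ ?_ hP
    · exact fun P hP => ⟨Rep.of_el hP, hP.final⟩
    · exact ⟨Rep.zero, by simp⟩
    · rintro P P' ⟨h1, h2⟩ ⟨h1', h2'⟩
      refine ⟨h1.add h1', ?_⟩
      have e1 : ∀ g, ∫ z, (P + P').1 (√(r 0) • z) g ∂(gN N) =
          ∫ z, P.1 (√(r 0) • z) g ∂(gN N) + ∫ z, P'.1 (√(r 0) • z) g ∂(gN N) := fun g =>
        integral_add (h1.integrable_top _ g) (h1'.integrable_top _ g)
      have e2 : ∫ x, (P + P').2 (√(R1 m r 0 G B) * x) ∂(gaussianReal 0 1) =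
          ∫ x, P.2 (√(R1 m r 0 G B) * x) ∂(gaussianReal 0 1) +
          ∫ x, P'.2 (√(R1 m r 0 G B) * x) ∂(gaussianReal 0 1) := by
        obtain ⟨-, ⟨D, hD⟩, -, ha⟩ := h1.bdd
        obtain ⟨-, ⟨D', hD'⟩, -, ha'⟩ := h1'.bdd
        refine integral_add ?_ ?_
        · exact Integrable.mono' (integrable_const D) (ha.comp (by fun_prop)).aestronglyMeasurable
            (Filter.Eventually.of_forall fun z => hD _)
        · exact Integrable.mono' (integrable_const D') (ha'.comp (by fun_prop)).aestronglyMeasurable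
            (Filter.Eventually.of_forall fun z => hD' _)
      rw [e2, funext e1, integral_add (h1.integrable_top2 _) (h1'.integrable_top2 _),
        Complex.add_re, Complex.add_re]
      exact add_le_add h2 h2'
  exact key.2

end final

end Vale.Agent.P157.Par
end

section

/-!
The field step of the Guerra upper bound: changing the strength of the external field of a finite
system (Jensen and Gaussian integration by parts along the tilted chain).
-/

open MeasureTheory ProbabilityTheory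

namespace Vale.Agent.P157.Par

variable {N : ℕ}

lemma Rs_self (m r : ℕ → ℝ) (l : ℕ) (G : (Fin N → ℝ) → ℝ) (B : (Fin N → ℝ) → Fin N → ℝ) :
    Rs m r l G B l = chainAv m r l G (fun y => ∑ i, B y i ^ 2) / N := by
  cases l with
  | zero => rfl
  | succ l =>
    unfold Rs
    rw [if_neg (by omega)]

lemma Rs_succ_of_le (m r : ℕ → ℝ) {l j : ℕ} (hj : j ≤ l) (G : (Fin N → ℝ) → ℝ)
    (B : (Fin N → ℝ) → Fin N → ℝ) :
    Rs m r (l + 1) G B j = Rs m r l (gstepN (m (l + 1)) (r (l + 1) - r l) G)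
        (fun y i => tiltN (m (l + 1)) (r (l + 1) - r l) G (fun y => B y i) y) j := by
  conv_lhs => unfold Rs
  rw [if_pos hj]

namespace Lvl

variable {c : ℝ} {G : (Fin N → ℝ) → ℝ} {B d : (Fin N → ℝ) → Fin N → ℝ}

/-- Integration by parts along the whole chain. -/
theorem chain_field {m r : ℕ → ℝ} (hm0 : m 0 = 0) (hr0 : 0 ≤ r 0) (hN : 0 < N) (l : ℕ)
    (hm : ∀ j < l, 0 < m (j + 1)) (hr : ∀ j < l, r j ≤ r (j + 1)) (H : Lvl c G B d) :
    chainAv m r l G (fun y => ∑ i, y i * B y i) =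
      r l * (chainAv m r l G (fun y => ∑ i, d y i) + c * N * m l * Rs m r l G B l) -
        c * N * ∑ i ∈ Finset.range l, (m (i + 1) - m i) * r i * Rs m r l G B i := by
  have hN' : (N : ℝ) ≠ 0 := by positivity
  induction l generalizing G B d with
  | zero =>
    rw [hm0, Finset.range_zero, Finset.sum_empty]
    simp only [mul_zero, zero_mul, add_zero, sub_zero]
    unfold chainAv
    have h1 : ∀ z : Fin N → ℝ, ∑ i, (√(r 0) • z) i * B (√(r 0) • z) i =
        ∑ i, √(r 0) * (z i * B (0 + √(r 0) • z) i) := by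
      intro z
      refine Finset.sum_congr rfl fun i _ => ?_
      rw [zero_add, Pi.smul_apply, smul_eq_mul]
      ring
    simp only [h1]
    rw [integral_finsetSum _ fun i _ =>
      (integrable_coord_mul (H.egB i) i 0 (√(r 0))).const_mul _]
    rw [integral_finsetSum _ fun i _ => (H.egd i).integrable_smul (√(r 0)), Finset.mul_sum]
    refine Finset.sum_congr rfl fun i _ => ?_
    rw [integral_const_mul, (H.pd2 i).stein (H.egB i) (H.egd i) (√(r 0)) 0, ← mul_assoc,
      Real.mul_self_sqrt hr0]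
    simp only [zero_add]
  | succ l ih =>
    have hml := hm l (by omega)
    have hv : 0 ≤ r (l + 1) - r l := sub_nonneg.2 (hr l (by omega))
    have hm' : ∀ j < l, 0 < m (j + 1) := fun j hj => hm j (by omega)
    have hr' : ∀ j < l, r j ≤ r (j + 1) := fun j hj => hr j (by omega)
    have H' := H.step hml (r (l + 1) - r l)
    have IH := ih hm' hr' H'
    set M := m (l + 1) with hM
    set v := r (l + 1) - r l with hvdef
    set G' := gstepN M v G with hG'
    have hG'lip : Lip G' := H'.lip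
    have egd2 : ∀ i, EG (fun y => d y i + M * c * B y i ^ 2) := fun i =>
      (H.egd i).add (((H.egB i).pow 2).const_mul _)
    have egt : ∀ i, EG (tiltN M v G (fun y => d y i + M * c * B y i ^ 2)) := fun i =>
      (egd2 i).tilt H.lip M v
    have egtB : ∀ i, EG (tiltN M v G (fun y => B y i)) := fun i => (H.egB i).tilt H.lip M v
    -- the left side
    have e1 : chainAv m r (l + 1) G (fun y => ∑ i, y i * B y i) =
        chainAv m r l G' (fun y => ∑ i, y i * tiltN M v G (fun y => B y i) y) +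
          v * chainAv m r l G' (fun y => ∑ i, tiltN M v G (fun y => d y i + M * c * B y i ^ 2) y)
        := by
      change chainAv m r l G' (tiltN M v G (fun y => ∑ i, y i * B y i)) = _
      rw [funext (H.tilt_field M hv), ← chainAv_const_mul, chainAv_add hm' hG'lip]
      · exact EG.sum _ fun i _ => (EG.coord i).mul (egtB i)
      · exact (EG.sum _ fun i _ => egt i).const_mul v
    -- the values
    have e2 : chainAv m r l G' (fun y => ∑ i, tiltN M v G (fun y => d y i + M * c * B y i ^ 2) y) =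
        chainAv m r (l + 1) G (fun y => ∑ i, d y i) +
          M * c * chainAv m r (l + 1) G (fun y => ∑ i, B y i ^ 2) := by
      change _ = chainAv m r l G' (tiltN M v G (fun y => ∑ i, d y i)) +
        M * c * chainAv m r l G' (tiltN M v G (fun y => ∑ i, B y i ^ 2))
      rw [← chainAv_const_mul, ← chainAv_add hm' hG'lip
        ((EG.sum _ fun i _ => H.egd i).tilt H.lip M v)
        (((EG.sum _ fun i _ => (H.egB i).pow 2).tilt H.lip M v).const_mul _)]
      congr 1
      funext y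
      rw [← tiltN_const_mul, ← tiltN_add H.lip (EG.sum _ fun i _ => H.egd i)
        ((EG.sum _ fun i _ => (H.egB i).pow 2).const_mul _),
        ← tiltN_sum Finset.univ H.lip (fun i _ => egd2 i)]
      refine tiltN_congr (fun y => ?_) M v y
      rw [Finset.mul_sum, ← Finset.sum_add_distrib]
    have e3 : chainAv m r l G' (fun y => ∑ i, (tiltN M v G (fun y => d y i + M * c * B y i ^ 2) y
        - M * c * (tiltN M v G (fun y => B y i) y) ^ 2)) =
        chainAv m r l G' (fun y => ∑ i, tiltN M v G (fun y => d y i + M * c * B y i ^ 2) y) -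
          M * c * chainAv m r l G' (fun y => ∑ i, (tiltN M v G (fun y => B y i) y) ^ 2) := by
      rw [← chainAv_const_mul, ← chainAv_sub hm' hG'lip (EG.sum _ fun i _ => egt i)
        ((EG.sum _ fun i _ => (egtB i).pow 2).const_mul _)]
      congr 1
      funext y
      rw [Finset.mul_sum, ← Finset.sum_sub_distrib]
    have e4 : Rs m r (l + 1) G B (l + 1) =
        chainAv m r (l + 1) G (fun y => ∑ i, B y i ^ 2) / N := Rs_self m r (l + 1) G B
    have e5 : Rs m r l G' (fun y i => tiltN M v G (fun y => B y i) y) l =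
        chainAv m r l G' (fun y => ∑ i, (tiltN M v G (fun y => B y i) y) ^ 2) / N :=
      Rs_self m r l G' _
    have e6 : ∑ i ∈ Finset.range (l + 1), (m (i + 1) - m i) * r i * Rs m r (l + 1) G B i =
        ∑ i ∈ Finset.range l, (m (i + 1) - m i) * r i *
          Rs m r l G' (fun y i => tiltN M v G (fun y => B y i) y) i +
        (m (l + 1) - m l) * r l * Rs m r l G' (fun y i => tiltN M v G (fun y => B y i) y) l := by
      rw [Finset.sum_range_succ, Rs_succ_of_le m r le_rfl]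
      congr 1
      refine Finset.sum_congr rfl fun i hi => ?_
      rw [Rs_succ_of_le m r (Finset.mem_range.1 hi).le]
    rw [e1, IH, e6, e4, e3, e2, e5]
    set S1 := chainAv m r (l + 1) G (fun y => ∑ i, d y i)
    set S2 := chainAv m r (l + 1) G (fun y => ∑ i, B y i ^ 2)
    set S3 := chainAv m r l G' (fun y => ∑ i, (tiltN M v G (fun y => B y i) y) ^ 2)
    have e7 : r (l + 1) = r l + v := by rw [hvdef]; ring
    rw [e7, ← hM]
    field_simp
    ring

end Lvl

section top

variable {X : Type} [Fintype X]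

omit [Fintype X] in
lemma pd_energy (φ : X → Fin N → ℝ) (c : ℝ) (u : X → ℝ) (x : X) (i : Fin N) :
    PD i (fun y => Real.exp (u x + c * ∑ j, y j * φ x j))
      (fun y => Real.exp (u x + c * ∑ j, y j * φ x j) * (c * φ x i)) := by
  refine PD.exp ?_
  intro y t
  have h1 : ∀ s : ℝ, u x + c * ∑ j, Function.update y i s j * φ x j =
      (u x + c * ∑ j ∈ Finset.univ.erase i, y j * φ x j) + s * (c * φ x i) := by
    intro s
    rw [← Finset.add_sum_erase _ _ (Finset.mem_univ i), Function.update_self]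
    have h2 : ∑ j ∈ Finset.univ.erase i, Function.update y i s j * φ x j =
        ∑ j ∈ Finset.univ.erase i, y j * φ x j := by
      refine Finset.sum_congr rfl fun j hj => ?_
      rw [Function.update_of_ne (Finset.ne_of_mem_erase hj)]
    rw [h2]
    ring
  simp only [h1]
  simpa using ((hasDerivAt_id t).mul_const (c * φ x i)).const_add
    (u x + c * ∑ j ∈ Finset.univ.erase i, y j * φ x j)

variable [Nonempty X]

theorem lvl_lw (φ : X → Fin N → ℝ) (c : ℝ) (u : X → ℝ) :
    Lvl c (lw φ c u) (bw φ c u)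
      (fun y i => c * (gw φ c u (fun x => φ x i ^ 2) y - bw φ c u y i ^ 2)) := by
  have hZ : ∀ i, PD i (fun y : Fin N → ℝ => ∑ x, Real.exp (u x + c * ∑ j, y j * φ x j))
      (fun y => ∑ x, Real.exp (u x + c * ∑ j, y j * φ x j) * (c * φ x i)) := fun i =>
    PD.sum Finset.univ fun x _ => pd_energy φ c u x i
  have hpos : ∀ y : Fin N → ℝ, 0 < ∑ x, Real.exp (u x + c * ∑ j, y j * φ x j) := fun y =>
    sum_exp_pos _
  have hgb : ∀ (h : X → ℝ) (y : Fin N → ℝ), |gw φ c u h y| ≤ ∑ x, |h x| := fun h y =>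
    abs_gw_le φ c u (fun x => Finset.single_le_sum (f := fun x => |h x|)
      (fun x _ => abs_nonneg _) (Finset.mem_univ x)) y
  refine ⟨lip_lw φ c u, fun i => ?_, fun i => ?_, fun i => measurable_gw φ c u _, fun i => ?_,
    ⟨∑ i, ∑ x, |φ x i|, fun y i => ?_⟩, ?_⟩
  · refine ((hZ i).log fun y => (hpos y).ne').congr fun y => ?_
    unfold bw gw
    rw [← mul_div_assoc, Finset.mul_sum]
    congr 1
    refine Finset.sum_congr rfl fun x _ => by ring
  · have hnum : PD i (fun y : Fin N → ℝ => ∑ x, Real.exp (u x + c * ∑ j, y j * φ x j) * φ x i)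
        (fun y => ∑ x, φ x i * (Real.exp (u x + c * ∑ j, y j * φ x j) * (c * φ x i))) := by
      have h1 : PD i (fun y : Fin N → ℝ => ∑ x, φ x i * Real.exp (u x + c * ∑ j, y j * φ x j))
        (fun y => ∑ x, φ x i * (Real.exp (u x + c * ∑ j, y j * φ x j) * (c * φ x i))) :=
        PD.sum Finset.univ fun x _ => (pd_energy φ c u x i).const_mul (φ x i)
      have h2 : (fun y : Fin N → ℝ => ∑ x, Real.exp (u x + c * ∑ j, y j * φ x j) * φ x i) =
          fun y => ∑ x, φ x i * Real.exp (u x + c * ∑ j, y j * φ x j) := by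
        funext y
        refine Finset.sum_congr rfl fun x _ => mul_comm _ _
      rw [h2]
      exact h1
    have h3 := hnum.div (hZ i) fun y => (hpos y).ne'
    refine h3.congr fun y => ?_
    unfold bw gw
    have h4 : ∑ x, φ x i * (Real.exp (u x + c * ∑ j, y j * φ x j) * (c * φ x i)) =
        c * ∑ x, Real.exp (u x + c * ∑ j, y j * φ x j) * φ x i ^ 2 := by
      rw [Finset.mul_sum]
      refine Finset.sum_congr rfl fun x _ => by ring
    have h5 : ∑ x, Real.exp (u x + c * ∑ j, y j * φ x j) * (c * φ x i) =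
        c * ∑ x, Real.exp (u x + c * ∑ j, y j * φ x j) * φ x i := by
      rw [Finset.mul_sum]
      refine Finset.sum_congr rfl fun x _ => by ring
    rw [h4, h5]
    have := (hpos y).ne'
    field_simp
  · exact ((measurable_gw φ c u _).sub ((measurable_gw φ c u _).pow_const 2)).const_mul c
  · refine (hgb _ y).trans ?_
    exact Finset.single_le_sum (f := fun i => ∑ x, |φ x i|)
      (fun i _ => Finset.sum_nonneg fun x _ => abs_nonneg _) (Finset.mem_univ i)
  · refine ⟨|c| * ((∑ i, ∑ x, |φ x i ^ 2|) + (∑ i, ∑ x, |φ x i|) ^ 2), fun y i => ?_⟩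
    rw [abs_mul]
    refine mul_le_mul_of_nonneg_left ((abs_sub _ _).trans (add_le_add ?_ ?_)) (abs_nonneg c)
    · refine (hgb _ y).trans ?_
      exact Finset.single_le_sum (f := fun i => ∑ x, |φ x i ^ 2|)
        (fun i _ => Finset.sum_nonneg fun x _ => abs_nonneg _) (Finset.mem_univ i)
    · rw [abs_pow]
      refine pow_le_pow_left₀ (abs_nonneg _) ?_ 2
      refine (hgb _ y).trans ?_
      exact Finset.single_le_sum (f := fun i => ∑ x, |φ x i|)
        (fun i _ => Finset.sum_nonneg fun x _ => abs_nonneg _) (Finset.mem_univ i)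

/-- Jensen for the Gibbs average. -/
theorem lw_sub_ge (φ : X → Fin N → ℝ) (c c' : ℝ) (u : X → ℝ) (y : Fin N → ℝ) :
    (c' - c) * ∑ i, y i * bw φ c u y i ≤ lw φ c' u y - lw φ c u y := by
  set Z : ℝ := ∑ x, Real.exp (u x + c * ∑ j, y j * φ x j) with hZ
  have hZpos : 0 < Z := sum_exp_pos _
  have hZ' : 0 < ∑ x, Real.exp (u x + c' * ∑ j, y j * φ x j) := sum_exp_pos _
  set t : X → ℝ := fun x => ∑ j, y j * φ x j with ht
  have hsum : ∑ i, y i * bw φ c u y i =
      (∑ x, Real.exp (u x + c * t x) * t x) / Z := by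
    unfold bw gw
    rw [← hZ]
    simp only [mul_div_assoc']
    rw [← Finset.sum_div]
    congr 1
    simp only [ht, Finset.mul_sum]
    rw [Finset.sum_comm]
    refine Finset.sum_congr rfl fun x _ => Finset.sum_congr rfl fun i _ => by ring
  set a : ℝ := (c' - c) * ((∑ x, Real.exp (u x + c * t x) * t x) / Z) with ha
  rw [hsum, ← ha]
  have h1 : Real.exp a * Z ≤ ∑ x, Real.exp (u x + c' * t x) := by
    have h2 : ∀ x, Real.exp (u x + c * t x) * (Real.exp a * (1 + ((c' - c) * t x - a))) ≤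
        Real.exp (u x + c' * t x) := by
      intro x
      have h3 : (c' - c) * t x - a + 1 ≤ Real.exp ((c' - c) * t x - a) := Real.add_one_le_exp _
      calc Real.exp (u x + c * t x) * (Real.exp a * (1 + ((c' - c) * t x - a)))
          ≤ Real.exp (u x + c * t x) * (Real.exp a * Real.exp ((c' - c) * t x - a)) := by
            gcongr
            linarith
        _ = Real.exp (u x + c' * t x) := by
            rw [← Real.exp_add, ← Real.exp_add]
            congr 1
            ring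
    refine le_trans (le_of_eq ?_) (Finset.sum_le_sum fun x _ => h2 x)
    have h4 : ∑ x, Real.exp (u x + c * t x) * (Real.exp a * (1 + ((c' - c) * t x - a))) =
        Real.exp a * ((1 - a) * ∑ x, Real.exp (u x + c * t x) +
          (c' - c) * ∑ x, Real.exp (u x + c * t x) * t x) := by
      rw [Finset.mul_sum, Finset.mul_sum, ← Finset.sum_add_distrib, Finset.mul_sum]
      refine Finset.sum_congr rfl fun x _ => by ring
    rw [h4]
    have h5 : (c' - c) * ∑ x, Real.exp (u x + c * t x) * t x = a * Z := by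
      rw [ha]
      field_simp
    rw [h5]
    have h6 : ∑ x, Real.exp (u x + c * t x) = Z := rfl
    rw [h6]
    ring
  unfold lw
  rw [le_sub_iff_add_le, ← hZ]
  calc a + Real.log Z = Real.log (Real.exp a * Z) := by
        rw [Real.log_mul (Real.exp_pos a).ne' hZpos.ne', Real.log_exp]
    _ ≤ _ := Real.log_le_log (by (clear * -; positivity)) h1

/-- **The field step.** -/
theorem field_step {k : ℕ} {m r : ℕ → ℝ} (hm : Exponents k m) (hr : Path k r)
    (φ : X → Fin N → ℝ) (hφ : ∀ x, ∑ i, φ x i ^ 2 = N) (hN : 0 < N) (u : X → ℝ) (c c' : ℝ) :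
    topN m r k (lw φ c u) + (c' - c) * (c * N * (r k - ∑ l ∈ Finset.range (k + 1),
      (m (l + 1) - m l) * r l * Rs m r k (lw φ c u) (bw φ c u) l)) ≤ topN m r k (lw φ c' u) := by
  obtain ⟨hm0, hmk, hmlt⟩ := hm
  obtain ⟨hr0, hrle⟩ := hr
  have hmpos : ∀ j ≤ k, 0 < m (j + 1) := by
    intro j hj
    induction j with
    | zero => rw [← hm0]; exact hmlt 0 hj
    | succ j ih => exact (ih (by omega)).trans (hmlt (j + 1) hj)
  have hmpos' : ∀ j < k, 0 < m (j + 1) := fun j hj => hmpos j hj.le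
  have H := lvl_lw φ c u
  have hN' : (N : ℝ) ≠ 0 := by positivity
  have egf : EG (fun y : Fin N → ℝ => ∑ i, y i * bw φ c u y i) :=
    EG.sum _ fun i _ => (EG.coord i).mul (eg_bw φ c u i)
  have hJ := chainAv_le_topN_sub (r := r) hmpos' (lip_lw φ c u) (lip_lw φ c' u)
    (egf.const_mul (c' - c)) (lw_sub_ge φ c c' u)
  rw [chainAv_const_mul] at hJ
  have hF := H.chain_field hm0 hr0 hN k hmpos' hrle
  have hD : chainAv m r k (lw φ c u)
      (fun y => ∑ i, c * (gw φ c u (fun x => φ x i ^ 2) y - bw φ c u y i ^ 2)) =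
      c * (N - chainAv m r k (lw φ c u) (fun y => ∑ i, bw φ c u y i ^ 2)) := by
    have h1 : (fun y : Fin N → ℝ => ∑ i, c * (gw φ c u (fun x => φ x i ^ 2) y -
        bw φ c u y i ^ 2)) = fun y => c * ((N : ℝ) - ∑ i, bw φ c u y i ^ 2) := by
      funext y
      rw [← Finset.mul_sum, Finset.sum_sub_distrib]
      congr 2
      unfold gw
      rw [← Finset.sum_div, Finset.sum_comm]
      simp only [← Finset.mul_sum, hφ]
      rw [← Finset.sum_mul, mul_comm, mul_div_assoc, div_self (sum_exp_pos _).ne', mul_one]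
    rw [h1, chainAv_const_mul, chainAv_sub hmpos' (lip_lw φ c u) (EG.const _)
      (EG.sum _ fun i _ => (eg_bw φ c u i).pow 2), chainAv_const hmpos' (lip_lw φ c u)]
  rw [hD, Rs_self] at hF
  rw [hF] at hJ
  rw [Finset.sum_range_succ, hmk, Rs_self]
  set S := chainAv m r k (lw φ c u) (fun y => ∑ i, bw φ c u y i ^ 2)
  set T := ∑ l ∈ Finset.range k, (m (l + 1) - m l) * r l * Rs m r k (lw φ c u) (bw φ c u) l
  have e : c * N * (r k - (T + (1 - m k) * r k * (S / N))) =
      r k * (c * (N - S) + c * N * m k * (S / N)) - c * N * T := by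
    field_simp
    ring
  rw [e]
  linarith only [hJ]

end top

end Vale.Agent.P157.Par
end

section

/-!
(R), module AVG: averages of second differences over a grid (finite sums, no probability).
-/

open Finset

namespace Vale.Agent.P146.Ub

/-- The grid points `σ + k_j t`, `j ≤ K`. -/
noncomputable def gp {K M : ℕ} (σ t : ℝ) (k : Fin (K + 1) → Fin M) : ℕ → ℝ := fun j =>
  if h : j < K + 1 then σ + ((k ⟨j, h⟩ : ℕ) : ℝ) * t else 0

theorem gp_mem {K M : ℕ} {σ t : ℝ} (ht : 0 ≤ t) (k : Fin (K + 1) → Fin M) {j : ℕ} (hj : j ≤ K) :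
    σ ≤ gp σ t k j ∧ gp σ t k j ≤ σ + M * t := by
  have h : j < K + 1 := Nat.lt_succ_of_le hj
  unfold gp
  rw [dif_pos h]
  have h1 : (((k ⟨j, h⟩ : Fin M) : ℕ) : ℝ) ≤ M := by exact_mod_cast (k ⟨j, h⟩).2.le
  have h2 : (0 : ℝ) ≤ (((k ⟨j, h⟩ : Fin M) : ℕ) : ℝ) := Nat.cast_nonneg _
  have h3 := mul_nonneg h2 ht
  have h4 := mul_le_mul_of_nonneg_right h1 ht
  constructor
  · linarith only [h3]
  · linarith only [h4]

theorem gp_update {K M : ℕ} (σ t : ℝ) (k : Fin (K + 1) → Fin M) {j : ℕ} (hj : j < K + 1)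
    (i : Fin M) :
    gp σ t (Function.update k ⟨j, hj⟩ i) = Function.update (gp σ t k) j (σ + ((i : ℕ) : ℝ) * t) := by
  funext a
  by_cases h : a = j
  · subst h
    rw [Function.update_self]
    unfold gp
    rw [dif_pos hj, Function.update_self]
  · rw [Function.update_of_ne h]
    unfold gp
    by_cases ha : a < K + 1
    · rw [dif_pos ha, dif_pos ha, Function.update_of_ne]
      intro h'
      exact h (congrArg Fin.val h')
    · rw [dif_neg ha, dif_neg ha]

/-- Resampling one coordinate. -/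
theorem avg_resample {I Y : Type} [Fintype I] [DecidableEq I] [Fintype Y] (j : I)
    (h : (I → Y) → ℝ) :
    ∑ k : I → Y, ∑ i : Y, h (Function.update k j i) = (Fintype.card Y : ℝ) * ∑ k : I → Y, h k := by
  have e : ∑ k : I → Y, ∑ i : Y, h (Function.update k j i) = ∑ k : I → Y, ∑ _i : Y, h k := by
    rw [← Finset.sum_product', ← Finset.sum_product']
    refine Finset.sum_nbij' (fun q => (Function.update q.1 j q.2, q.1 j))
      (fun q => (Function.update q.1 j q.2, q.1 j)) ?_ ?_ ?_ ?_ ?_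
    · rintro ⟨k, i⟩ -; simp
    · rintro ⟨k, i⟩ -; simp
    · rintro ⟨k, i⟩ -; simp
    · rintro ⟨k, i⟩ -; simp
    · rintro ⟨k, i⟩ -; rfl
  rw [e]
  simp only [Finset.sum_const, Finset.card_univ, nsmul_eq_mul]
  rw [Finset.mul_sum]

/-- Telescoping of second differences. -/
theorem avg_tele (f : ℕ → ℝ) (M : ℕ) :
    ∑ i ∈ range M, (f (i + 2) + f i - 2 * f (i + 1)) = (f (M + 1) - f M) - (f 1 - f 0) := by
  induction M with
  | zero => simp
  | succ M ih => rw [sum_range_succ, ih]; ring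

/-- The sum of the second differences over the grid telescopes. `A` has the tangents
`C j s ∈ [0, B s_j]` (no convexity other than this is used). -/
theorem avg_dl {K M : ℕ} {σ t B : ℝ} (hM : 0 < M) (ht : 0 < t) (hσ : t ≤ σ) (hB : 0 ≤ B)
    {A : (ℕ → ℝ) → ℝ} {C : ℕ → (ℕ → ℝ) → ℝ}
    (hT : ∀ (s : ℕ → ℝ) (j : ℕ), j ≤ K → ∀ x, A s + x * C j s ≤ A (Function.update s j (s j + x)))
    (hC : ∀ s : ℕ → ℝ, (∀ l ≤ K, 0 ≤ s l) → ∀ j ≤ K, 0 ≤ C j s ∧ C j s ≤ B * s j)
    {j : ℕ} (hj : j ≤ K) :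
    ∑ k : Fin (K + 1) → Fin M, (A (Function.update (gp σ t k) j (gp σ t k j + t)) +
        A (Function.update (gp σ t k) j (gp σ t k j - t)) - 2 * A (gp σ t k)) ≤
      (M : ℝ) ^ K * (t * (B * (σ + M * t))) := by
  have hjK : j < K + 1 := Nat.lt_succ_of_le hj
  have hM' : (0 : ℝ) < M := by exact_mod_cast hM
  -- the sum along a line
  have line : ∀ k : Fin (K + 1) → Fin M,
      ∑ i : Fin M, (fun k : Fin (K + 1) → Fin M =>
        A (Function.update (gp σ t k) j (gp σ t k j + t)) +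
        A (Function.update (gp σ t k) j (gp σ t k j - t)) - 2 * A (gp σ t k))
          (Function.update k ⟨j, hjK⟩ i) ≤ t * (B * (σ + M * t)) := by
    intro k
    have e1 : ∀ i : Fin M, (fun k : Fin (K + 1) → Fin M =>
        A (Function.update (gp σ t k) j (gp σ t k j + t)) +
        A (Function.update (gp σ t k) j (gp σ t k j - t)) - 2 * A (gp σ t k))
          (Function.update k ⟨j, hjK⟩ i) =
        (fun i : ℕ => (fun i : ℕ => A (Function.update (gp σ t k) j (σ + (i : ℝ) * t - t))) (i + 2)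
          + (fun i : ℕ => A (Function.update (gp σ t k) j (σ + (i : ℝ) * t - t))) i
          - 2 * (fun i : ℕ => A (Function.update (gp σ t k) j (σ + (i : ℝ) * t - t))) (i + 1))
            (i : ℕ) := by
      intro i
      simp only [gp_update, Function.update_idem, Function.update_self]
      have e1 : σ + (((i : ℕ) + 2 : ℕ) : ℝ) * t - t = σ + ((i : ℕ) : ℝ) * t + t := by
        push_cast; ring
      have e2 : σ + (((i : ℕ) + 1 : ℕ) : ℝ) * t - t = σ + ((i : ℕ) : ℝ) * t := by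
        push_cast; ring
      rw [e1, e2]
    rw [Finset.sum_congr rfl fun i _ => e1 i]
    rw [Fin.sum_univ_eq_sum_range (fun i : ℕ =>
      (fun i : ℕ => A (Function.update (gp σ t k) j (σ + (i : ℝ) * t - t))) (i + 2)
          + (fun i : ℕ => A (Function.update (gp σ t k) j (σ + (i : ℝ) * t - t))) i
          - 2 * (fun i : ℕ => A (Function.update (gp σ t k) j (σ + (i : ℝ) * t - t))) (i + 1)) M,
      avg_tele (fun i : ℕ => A (Function.update (gp σ t k) j (σ + (i : ℝ) * t - t)))]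
    have e3 : σ + ((M + 1 : ℕ) : ℝ) * t - t = σ + M * t := by push_cast; ring
    have e4 : σ + ((1 : ℕ) : ℝ) * t - t = σ := by push_cast; ring
    have e5 : σ + ((0 : ℕ) : ℝ) * t - t = σ - t := by push_cast; ring
    simp only [e3, e4, e5]
    have hpos : ∀ x, 0 ≤ x → ∀ l ≤ K, 0 ≤ Function.update (gp σ t k) j x l := by
      intro x hx l hl
      by_cases h : l = j
      · subst h; rw [Function.update_self]; exact hx
      · rw [Function.update_of_ne h]
        have := (gp_mem (σ := σ) ht.le k hl).1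
        linarith only [this, hσ, ht]
    -- the upper end
    have h1 := hT (Function.update (gp σ t k) j (σ + M * t)) j hj (-t)
    rw [Function.update_idem, Function.update_self] at h1
    have e6 : σ + M * t + -t = σ + M * t - t := by ring
    rw [e6] at h1
    have h0 : 0 ≤ σ + M * t := by
      have := mul_nonneg hM'.le ht.le
      linarith
    have h2 := (hC (Function.update (gp σ t k) j (σ + M * t)) (hpos _ h0) j hj).2
    rw [Function.update_self] at h2
    have h3 := mul_le_mul_of_nonneg_left h2 ht.le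
    -- the lower end
    have h4 := hT (Function.update (gp σ t k) j (σ - t)) j hj t
    rw [Function.update_idem, Function.update_self] at h4
    have e7 : σ - t + t = σ := by ring
    rw [e7] at h4
    have h5 := (hC (Function.update (gp σ t k) j (σ - t)) (hpos _ (by linarith)) j hj).1
    have h6 := mul_nonneg ht.le h5
    have e8 : σ + (M : ℝ) * t - t = σ + M * t - t := rfl
    linarith
  have h1 := avg_resample (Y := Fin M) (⟨j, hjK⟩ : Fin (K + 1))
    (fun k : Fin (K + 1) → Fin M => A (Function.update (gp σ t k) j (gp σ t k j + t)) +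
        A (Function.update (gp σ t k) j (gp σ t k j - t)) - 2 * A (gp σ t k))
  have h2 := Finset.sum_le_sum fun k (_ : k ∈ (Finset.univ : Finset (Fin (K + 1) → Fin M))) =>
    line k
  rw [h1, Finset.sum_const, Finset.card_univ, nsmul_eq_mul, Fintype.card_pi_const,
    Fintype.card_fin, Nat.cast_pow] at h2
  rw [pow_succ, mul_comm ((M : ℝ) ^ K) (M : ℝ), mul_assoc] at h2
  exact le_of_mul_le_mul_left h2 hM'

/-- Averages and square roots. -/
theorem avg_sqrt {ι : Type} [Fintype ι] [Nonempty ι] (f : ι → ℝ) :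
    1 / (Fintype.card ι : ℝ) * ∑ i, √(f i) ≤ √(1 / (Fintype.card ι : ℝ) * ∑ i, |f i|) := by
  have hc : (0 : ℝ) < Fintype.card ι := by exact_mod_cast Fintype.card_pos
  refine Real.le_sqrt_of_sq_le ?_
  have h1 : (∑ i, √(f i)) ^ 2 ≤ (Fintype.card ι : ℝ) * ∑ i, √(f i) ^ 2 :=
    sq_sum_le_card_mul_sum_sq
  have h2 : ∑ i, √(f i) ^ 2 ≤ ∑ i, |f i| := by
    refine Finset.sum_le_sum fun i _ => ?_
    rcases le_total 0 (f i) with h | h
    · rw [Real.sq_sqrt h]; exact le_abs_self _
    · rw [Real.sqrt_eq_zero_of_nonpos h]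
      simp
  have h3 := h1.trans (mul_le_mul_of_nonneg_left h2 hc.le)
  rw [mul_pow]
  have h4 := mul_le_mul_of_nonneg_left h3 (sq_nonneg (1 / (Fintype.card ι : ℝ)))
  refine h4.trans (le_of_eq ?_)
  field_simp

/-- Sums of powers. -/
theorem sum_rpow_quarter (n : ℕ) :
    ∑ N ∈ Finset.range n, ((N + 1 : ℕ) : ℝ) ^ (-(1 / 4) : ℝ) ≤ 2 * (n : ℝ) ^ (3 / 4 : ℝ) := by
  induction n with
  | zero => simp
  | succ n ih =>
    rw [sum_range_succ]
    have hy : (0 : ℝ) < ((n + 1 : ℕ) : ℝ) := by positivity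
    have hn : (n : ℝ) = ((n + 1 : ℕ) : ℝ) - 1 := by push_cast; ring
    have h1 : (n : ℝ) ^ (3 / 4 : ℝ) ≤
        ((n + 1 : ℕ) : ℝ) ^ (3 / 4 : ℝ) - 3 / 4 * ((n + 1 : ℕ) : ℝ) ^ (-(1 / 4) : ℝ) := by
      have e : (n : ℝ) = ((n + 1 : ℕ) : ℝ) * (1 + -(1 / ((n + 1 : ℕ) : ℝ))) := by
        rw [mul_add, mul_neg, mul_one_div_cancel hy.ne']
        push_cast; ring
      have h0 : -1 ≤ -(1 / ((n + 1 : ℕ) : ℝ)) := by
        have : 1 / ((n + 1 : ℕ) : ℝ) ≤ 1 := by
          rw [div_le_one hy]; push_cast; linarith only [Nat.cast_nonneg (α := ℝ) n]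
        linarith only [this]
      have h2 := _root_.rpow_one_add_le_one_add_mul_self h0 (p := 3 / 4) (by norm_num) (by norm_num)
      conv_lhs => rw [e]
      rw [Real.mul_rpow hy.le (by linarith only [h0])]
      have h3 := mul_le_mul_of_nonneg_left h2 (Real.rpow_nonneg hy.le (3 / 4 : ℝ))
      refine h3.trans (le_of_eq ?_)
      have e2 : ((n + 1 : ℕ) : ℝ) ^ (-(1 / 4) : ℝ) =
          ((n + 1 : ℕ) : ℝ) ^ (3 / 4 : ℝ) * (1 / ((n + 1 : ℕ) : ℝ)) := by
        rw [show (-(1 / 4) : ℝ) = 3 / 4 - 1 by norm_num, Real.rpow_sub hy, Real.rpow_one]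
        ring
      rw [e2]
      ring
    have h4 : 0 ≤ ((n + 1 : ℕ) : ℝ) ^ (-(1 / 4) : ℝ) := Real.rpow_nonneg hy.le _
    linarith

theorem sum_inv_sqrt (n : ℕ) :
    ∑ N ∈ Finset.range n, 1 / √((N + 1 : ℕ) : ℝ) ≤ 2 * √n := by
  induction n with
  | zero => simp
  | succ n ih =>
    rw [sum_range_succ]
    have hy : (0 : ℝ) < ((n + 1 : ℕ) : ℝ) := by positivity
    obtain ⟨a, ha⟩ : ∃ a, a = √(n : ℝ) := ⟨_, rfl⟩
    obtain ⟨b, hb⟩ : ∃ b, b = √((n + 1 : ℕ) : ℝ) := ⟨_, rfl⟩
    have hb0 : 0 < b := by rw [hb]; exact Real.sqrt_pos.2 hy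
    have ha2 : a ^ 2 = n := by rw [ha]; exact Real.sq_sqrt (Nat.cast_nonneg _)
    have hb2 : b ^ 2 = (n : ℝ) + 1 := by
      rw [hb, Real.sq_sqrt hy.le]; push_cast; ring
    rw [← ha] at ih
    rw [← hb]
    have h1 : 1 / b ≤ 2 * b - 2 * a := by
      rw [div_le_iff₀ hb0]
      linarith only [sq_nonneg (a - b), hb2, ha2]
    linarith

end Vale.Agent.P146.Ub
end
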