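import Vale.Agent.P146.Bdl.B6
import Vale.Agent.P146.Bdl.B10
import Vale.Agent.P146.Bdl.B5

set_option linter.all false

section

/-! SP2: derivative in the parameter of a family of log-weights. -/

open MeasureTheory ProbabilityTheory Filter Topology Set

namespace Vale.Agent.P157.Par

/-! ### exponential bounds -/

theorem sp2_integrable_exp_abs (c : ℝ) :
    Integrable (fun z => Real.exp (c * |z|)) (gaussianReal 0 1) :=
  integrable_exp_mul_abs (X := fun z : ℝ => z) (integrable_exp_mul_gaussianReal c)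
    (integrable_exp_mul_gaussianReal (-c))

theorem sp2_abs_le_exp (z : ℝ) : |z| ≤ Real.exp |z| := by
  have := Real.add_one_le_exp |z|
  linarith

theorem sp2_integrable_abs_mul_exp (c : ℝ) :
    Integrable (fun z => |z| * Real.exp (c * |z|)) (gaussianReal 0 1) := by
  refine (sp2_integrable_exp_abs (1 + c)).mono' (by exact Continuous.aestronglyMeasurable (by fun_prop)) (Eventually.of_forall fun z => ?_)
  rw [Real.norm_eq_abs, abs_of_nonneg (mul_nonneg (abs_nonneg _) (Real.exp_pos _).le), add_mul,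
    one_mul, Real.exp_add]
  exact mul_le_mul_of_nonneg_right (sp2_abs_le_exp z) (Real.exp_pos _).le

/-- exponential bound, uniform for parameters in `S`. -/
def sp2_EB (S : Set ℝ) (G : ℝ → ℝ → ℝ) : Prop :=
  ∃ C c : ℝ, 0 ≤ C ∧ 0 ≤ c ∧ ∀ s ∈ S, ∀ x, |G s x| ≤ C * Real.exp (c * |x|)

theorem sp2_EB_of_bdd {S : Set ℝ} {G : ℝ → ℝ → ℝ} {B : ℝ} (h : ∀ s ∈ S, ∀ x, |G s x| ≤ B) :
    sp2_EB S G :=
  ⟨|B|, 0, abs_nonneg _, le_rfl, fun s hs x => by simpa using (h s hs x).trans (le_abs_self B)⟩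

theorem sp2_EB.mono {S S' : Set ℝ} {G : ℝ → ℝ → ℝ} (h : sp2_EB S G) (hs : S' ⊆ S) :
    sp2_EB S' G := by
  obtain ⟨C, c, hC, hc, h⟩ := h
  exact ⟨C, c, hC, hc, fun s hs' x => h s (hs hs') x⟩

theorem sp2_EB.mul {S : Set ℝ} {G H : ℝ → ℝ → ℝ} (hG : sp2_EB S G) (hH : sp2_EB S H) :
    sp2_EB S (fun s x => G s x * H s x) := by
  obtain ⟨C, c, hC, hc, h⟩ := hG
  obtain ⟨D, d, hD, hd, h'⟩ := hH
  refine ⟨C * D, c + d, by positivity, by positivity, fun s hs x => ?_⟩
  calc |G s x * H s x| = |G s x| * |H s x| := abs_mul _ _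
    _ ≤ (C * Real.exp (c * |x|)) * (D * Real.exp (d * |x|)) :=
        mul_le_mul (h s hs x) (h' s hs x) (abs_nonneg _) (by positivity)
    _ = C * D * Real.exp ((c + d) * |x|) := by rw [add_mul, Real.exp_add]; ring

theorem sp2_EB.add {S : Set ℝ} {G H : ℝ → ℝ → ℝ} (hG : sp2_EB S G) (hH : sp2_EB S H) :
    sp2_EB S (fun s x => G s x + H s x) := by
  obtain ⟨C, c, hC, hc, h⟩ := hG
  obtain ⟨D, d, hD, hd, h'⟩ := hH
  refine ⟨C + D, c + d, by positivity, by positivity, fun s hs x => ?_⟩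
  have e1 : Real.exp (c * |x|) ≤ Real.exp ((c + d) * |x|) :=
    Real.exp_le_exp.2 (mul_le_mul_of_nonneg_right (by linarith) (abs_nonneg _))
  have e2 : Real.exp (d * |x|) ≤ Real.exp ((c + d) * |x|) :=
    Real.exp_le_exp.2 (mul_le_mul_of_nonneg_right (by linarith) (abs_nonneg _))
  calc |G s x + H s x| ≤ |G s x| + |H s x| := abs_add_le _ _
    _ ≤ C * Real.exp (c * |x|) + D * Real.exp (d * |x|) := add_le_add (h s hs x) (h' s hs x)
    _ ≤ C * Real.exp ((c + d) * |x|) + D * Real.exp ((c + d) * |x|) :=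
        add_le_add (mul_le_mul_of_nonneg_left e1 hC) (mul_le_mul_of_nonneg_left e2 hD)
    _ = _ := by ring

theorem sp2_sqrt_le {a b s : ℝ} (hs : s ∈ Icc a b) (v₀ d : ℝ) :
    √(v₀ + s * d) ≤ √(|v₀| + (|a| + |b|) * |d|) := by
  apply Real.sqrt_le_sqrt
  have h1 : |s| ≤ |a| + |b| := by
    rcases le_total 0 s with h | h
    · rw [abs_of_nonneg h]
      linarith [hs.2, le_abs_self b, abs_nonneg a]
    · rw [abs_of_nonpos h]
      linarith [hs.1, neg_abs_le a, abs_nonneg b]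
  have h2 : s * d ≤ |s| * |d| := by rw [← abs_mul]; exact le_abs_self _
  have h3 : |s| * |d| ≤ (|a| + |b|) * |d| := mul_le_mul_of_nonneg_right h1 (abs_nonneg _)
  linarith [le_abs_self v₀]

/-- the pointwise bound along a Gaussian line. -/
theorem sp2_bound {a b C c : ℝ} {S : Set ℝ} (hS : S ⊆ Icc a b) {G : ℝ → ℝ → ℝ} (hC : 0 ≤ C)
    (hc : 0 ≤ c) (h : ∀ s ∈ S, ∀ x, |G s x| ≤ C * Real.exp (c * |x|)) (v₀ d : ℝ) {s x R : ℝ}
    (hs : s ∈ S) (hx : |x| ≤ R) (z : ℝ) :
    |G s (x + √(v₀ + s * d) * z)| ≤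
      C * Real.exp (c * R) * Real.exp (c * √(|v₀| + (|a| + |b|) * |d|) * |z|) := by
  refine (h s hs _).trans ?_
  rw [mul_assoc, ← Real.exp_add]
  refine mul_le_mul_of_nonneg_left (Real.exp_le_exp.2 ?_) hC
  have h1 : |x + √(v₀ + s * d) * z| ≤ R + √(|v₀| + (|a| + |b|) * |d|) * |z| := by
    refine (abs_add_le _ _).trans (add_le_add hx ?_)
    rw [abs_mul, abs_of_nonneg (Real.sqrt_nonneg _)]
    exact mul_le_mul_of_nonneg_right (sp2_sqrt_le (hS hs) v₀ d) (abs_nonneg _)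
  calc c * |x + √(v₀ + s * d) * z| ≤ c * (R + √(|v₀| + (|a| + |b|) * |d|) * |z|) :=
        mul_le_mul_of_nonneg_left h1 hc
    _ = _ := by ring

theorem sp2_slice {S : Set ℝ} {G : ℝ → ℝ → ℝ}
    (hG : ContinuousOn (fun p : ℝ × ℝ => G p.1 p.2) (S ×ˢ univ)) {s : ℝ} (hs : s ∈ S) :
    Continuous (G s) := by
  have h1 : ContinuousOn (fun y : ℝ => (s, y)) univ := by fun_prop
  have h2 := hG.comp h1 (fun y _ => ⟨hs, mem_univ _⟩)
  exact continuousOn_univ.1 h2

/-- Continuity of Gaussian averages. -/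
theorem sp2_cont {a b : ℝ} {S : Set ℝ} (hS : S ⊆ Icc a b) {G : ℝ → ℝ → ℝ}
    (hG : ContinuousOn (fun p : ℝ × ℝ => G p.1 p.2) (S ×ˢ univ)) (hE : sp2_EB S G) (v₀ d : ℝ) :
    ContinuousOn (fun p : ℝ × ℝ => ∫ z, G p.1 (p.2 + √(v₀ + p.1 * d) * z) ∂(gaussianReal 0 1))
      (S ×ˢ univ) := by
  obtain ⟨C, c, hC, hc, h⟩ := hE
  intro p₀ hp₀
  refine continuousWithinAt_of_dominated (bound := fun z => C * Real.exp (c * (|p₀.2| + 1)) *
    Real.exp (c * √(|v₀| + (|a| + |b|) * |d|) * |z|)) ?_ ?_ ?_ ?_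
  · refine eventually_nhdsWithin_of_forall fun p hp => ?_
    have := sp2_slice hG hp.1
    exact (this.comp (by fun_prop : Continuous fun z : ℝ => p.2 + √(v₀ + p.1 * d) * z)).aestronglyMeasurable
  · have h1 : ∀ᶠ p : ℝ × ℝ in 𝓝[S ×ˢ univ] p₀, |p.2| ≤ |p₀.2| + 1 := by
      have h2 : ∀ᶠ p : ℝ × ℝ in 𝓝 p₀, |p.2| < |p₀.2| + 1 :=
        (continuous_snd.abs.tendsto p₀).eventually_lt_const (by linarith)
      exact (h2.filter_mono nhdsWithin_le_nhds).mono fun p hp => hp.le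
    filter_upwards [h1, self_mem_nhdsWithin] with p hp1 hp2
    refine Eventually.of_forall fun z => ?_
    rw [Real.norm_eq_abs]
    exact sp2_bound hS hC hc h v₀ d hp2.1 hp1 z
  · exact (sp2_integrable_exp_abs _).const_mul _
  · refine Eventually.of_forall fun z => ?_
    have h1 : ContinuousOn (fun p : ℝ × ℝ => (p.1, p.2 + √(v₀ + p.1 * d) * z)) (S ×ˢ univ) := by
      fun_prop
    exact (hG.comp h1 (fun p hp => ⟨hp.1, mem_univ _⟩)) p₀ hp₀

theorem sp2_integrable {a b : ℝ} {S : Set ℝ} (hS : S ⊆ Icc a b) {G : ℝ → ℝ → ℝ}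
    (hG : ContinuousOn (fun p : ℝ × ℝ => G p.1 p.2) (S ×ˢ univ)) (hE : sp2_EB S G) (v₀ d : ℝ)
    {s : ℝ} (hs : s ∈ S) (x : ℝ) :
    Integrable (fun z => G s (x + √(v₀ + s * d) * z)) (gaussianReal 0 1) := by
  obtain ⟨C, c, hC, hc, h⟩ := hE
  refine ((sp2_integrable_exp_abs (c * √(|v₀| + (|a| + |b|) * |d|))).const_mul
    (C * Real.exp (c * |x|))).mono' ?_ (Eventually.of_forall fun z => ?_)
  · have := sp2_slice hG hs
    exact (this.comp (by fun_prop : Continuous fun z : ℝ => x + √(v₀ + s * d) * z)).aestronglyMeasurable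
  · rw [Real.norm_eq_abs]
    exact sp2_bound hS hC hc h v₀ d hs le_rfl z

theorem sp2_integrable_mul {a b : ℝ} {S : Set ℝ} (hS : S ⊆ Icc a b) {G : ℝ → ℝ → ℝ}
    (hG : ContinuousOn (fun p : ℝ × ℝ => G p.1 p.2) (S ×ˢ univ)) (hE : sp2_EB S G) (v₀ d : ℝ)
    {s : ℝ} (hs : s ∈ S) (x : ℝ) :
    Integrable (fun z => z * G s (x + √(v₀ + s * d) * z)) (gaussianReal 0 1) := by
  obtain ⟨C, c, hC, hc, h⟩ := hE
  refine ((sp2_integrable_abs_mul_exp (c * √(|v₀| + (|a| + |b|) * |d|))).const_mul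
    (C * Real.exp (c * |x|))).mono' ?_ (Eventually.of_forall fun z => ?_)
  · have := sp2_slice hG hs
    exact (continuous_id.mul (this.comp
      (by fun_prop : Continuous fun z : ℝ => x + √(v₀ + s * d) * z))).aestronglyMeasurable
  · rw [Real.norm_eq_abs, abs_mul]
    calc |z| * |G s (x + √(v₀ + s * d) * z)| ≤ |z| * (C * Real.exp (c * |x|) *
          Real.exp (c * √(|v₀| + (|a| + |b|) * |d|) * |z|)) :=
          mul_le_mul_of_nonneg_left (sp2_bound hS hC hc h v₀ d hs le_rfl z) (abs_nonneg _)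
      _ = _ := by ring

/-! ### the derivative in the parameter -/

theorem sp2_cont_span : Continuous fun r : ℝ => ContinuousLinearMap.toSpanSingleton ℝ r := by
  have h : (fun r : ℝ => ContinuousLinearMap.toSpanSingleton ℝ r) =
      fun r : ℝ => r • ContinuousLinearMap.id ℝ ℝ := by
    funext r
    ext
    simp
  rw [h]
  fun_prop

/-- Chain rule along a curve. -/
theorem sp2_chain {a b : ℝ} {G G1 Gs : ℝ → ℝ → ℝ}
    (d1 : ∀ s ∈ Icc a b, ∀ x, HasDerivAt (G s) (G1 s x) x)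
    (ds : ∀ s ∈ Ioo a b, ∀ x, HasDerivAt (fun s => G s x) (Gs s x) s)
    (c1 : ContinuousOn (fun p : ℝ × ℝ => G1 p.1 p.2) (Icc a b ×ˢ univ))
    (cs : ContinuousOn (fun p : ℝ × ℝ => Gs p.1 p.2) (Ioo a b ×ˢ univ))
    {v₀ d : ℝ} {s : ℝ} (hs : s ∈ Ioo a b) (hv : 0 < v₀ + s * d) (x z : ℝ) :
    HasDerivAt (fun s => G s (x + √(v₀ + s * d) * z))
      (Gs s (x + √(v₀ + s * d) * z) +
        d / (2 * √(v₀ + s * d)) * (z * G1 s (x + √(v₀ + s * d) * z))) s := by
  set y := x + √(v₀ + s * d) * z with hy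
  have hopen : IsOpen (Ioo a b ×ˢ (univ : Set ℝ)) := isOpen_Ioo.prod isOpen_univ
  have hmem : ((s, y) : ℝ × ℝ) ∈ Ioo a b ×ˢ (univ : Set ℝ) := ⟨hs, mem_univ _⟩
  have hnh : Ioo a b ×ˢ (univ : Set ℝ) ∈ 𝓝 ((s, y) : ℝ × ℝ) := hopen.mem_nhds hmem
  set f₁ : ℝ → ℝ → ℝ →L[ℝ] ℝ := fun s' y' => ContinuousLinearMap.toSpanSingleton ℝ (Gs s' y')
    with hf₁
  set f₂ : ℝ → ℝ → ℝ →L[ℝ] ℝ := fun s' y' => ContinuousLinearMap.toSpanSingleton ℝ (G1 s' y')
    with hf₂
  have key : HasStrictFDerivAt ↿G ((↿f₁ (s, y)).coprod (↿f₂ (s, y))) (s, y) := by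
    refine hasStrictFDerivAt_uncurry_coprod (f₁ := f₁) (f₂ := f₂) ?_ ?_ ?_ ?_
    · filter_upwards [hnh] with v hv'
      exact (ds v.1 hv'.1 v.2).hasFDerivAt
    · filter_upwards [hnh] with v hv'
      exact (d1 v.1 (Ioo_subset_Icc_self hv'.1) v.2).hasFDerivAt
    · have h1 : ContinuousAt (fun p : ℝ × ℝ => Gs p.1 p.2) (s, y) := cs.continuousAt hnh
      have h2 := sp2_cont_span
      exact h2.continuousAt.comp h1
    · have h1 : ContinuousAt (fun p : ℝ × ℝ => G1 p.1 p.2) (s, y) :=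
        (c1.mono (prod_mono Ioo_subset_Icc_self subset_rfl)).continuousAt hnh
      have h2 := sp2_cont_span
      exact h2.continuousAt.comp h1
  have hsq : HasDerivAt (fun s' : ℝ => √(v₀ + s' * d)) (d / (2 * √(v₀ + s * d))) s := by
    have h1 : HasDerivAt (fun s' : ℝ => v₀ + s' * d) d s := by
      simpa using ((hasDerivAt_id s).mul_const d).const_add v₀
    exact h1.sqrt hv.ne'
  have hcur : HasDerivAt (fun s' : ℝ => ((s', x + √(v₀ + s' * d) * z) : ℝ × ℝ))
      (1, d / (2 * √(v₀ + s * d)) * z) s :=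
    (hasDerivAt_id s).prodMk ((hsq.mul_const z).const_add x)
  have h3 := key.hasFDerivAt.comp_hasDerivAt s hcur
  have h4 : ((↿f₁ (s, y)).coprod (↿f₂ (s, y))) (1, d / (2 * √(v₀ + s * d)) * z) =
      Gs s y + d / (2 * √(v₀ + s * d)) * (z * G1 s y) := by
    show (1 : ℝ) • Gs s y + (d / (2 * √(v₀ + s * d)) * z) • G1 s y = _
    rw [smul_eq_mul, smul_eq_mul]
    ring
  rw [h4] at h3
  exact h3

/-- The derivative in the parameter of a Gaussian average. -/
theorem sp2_deriv {a b : ℝ} {G G1 G2 Gs : ℝ → ℝ → ℝ}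
    (d1 : ∀ s ∈ Icc a b, ∀ x, HasDerivAt (G s) (G1 s x) x)
    (d2 : ∀ s ∈ Icc a b, ∀ x, HasDerivAt (G1 s) (G2 s x) x)
    (ds : ∀ s ∈ Ioo a b, ∀ x, HasDerivAt (fun s => G s x) (Gs s x) s)
    (c0 : ContinuousOn (fun p : ℝ × ℝ => G p.1 p.2) (Icc a b ×ˢ univ))
    (c1 : ContinuousOn (fun p : ℝ × ℝ => G1 p.1 p.2) (Icc a b ×ˢ univ))
    (c2 : ContinuousOn (fun p : ℝ × ℝ => G2 p.1 p.2) (Icc a b ×ˢ univ))
    (cs : ContinuousOn (fun p : ℝ × ℝ => Gs p.1 p.2) (Ioo a b ×ˢ univ))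
    (e0 : sp2_EB (Icc a b) G) (e1 : sp2_EB (Icc a b) G1) (e2 : sp2_EB (Icc a b) G2)
    (es : sp2_EB (Ioo a b) Gs)
    {v₀ d : ℝ} (hv : ∀ s ∈ Ioo a b, 0 < v₀ + s * d) {s : ℝ} (hs : s ∈ Ioo a b) (x : ℝ) :
    HasDerivAt (fun s => ∫ z, G s (x + √(v₀ + s * d) * z) ∂(gaussianReal 0 1))
      (∫ z, (Gs s (x + √(v₀ + s * d) * z) + d / 2 * G2 s (x + √(v₀ + s * d) * z))
        ∂(gaussianReal 0 1)) s := by
  have hIoo : Ioo a b ⊆ Icc a b := Ioo_subset_Icc_self
  have hvs := hv s hs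
  have hw : 0 < √(v₀ + s * d) := Real.sqrt_pos.2 hvs
  obtain ⟨C1, k1, hC1, hk1, hb1⟩ := e1
  obtain ⟨Cs, ks, hCs, hks, hbs⟩ := es
  set Sg : ℝ := √(|v₀| + (|a| + |b|) * |d|) with hSg
  -- neighbourhood with a lower bound for the variance
  have hnh : ∀ᶠ s' in 𝓝 s, s' ∈ Ioo a b ∧ √(v₀ + s * d) / 2 < √(v₀ + s' * d) := by
    refine (show ∀ᶠ s' in 𝓝 s, s' ∈ Ioo a b from isOpen_Ioo.mem_nhds hs).and ?_
    have h1 : ContinuousAt (fun s' : ℝ => √(v₀ + s' * d)) s := by fun_prop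
    exact h1.eventually_const_lt (by linarith only [hw])
  obtain ⟨ε, hε, hball⟩ := Metric.eventually_nhds_iff_ball.1 hnh
  have hder := hasDerivAt_integral_of_dominated_loc_of_deriv_le
    (μ := gaussianReal 0 1)
    (F := fun s z => G s (x + √(v₀ + s * d) * z))
    (F' := fun s z => Gs s (x + √(v₀ + s * d) * z) +
      d / (2 * √(v₀ + s * d)) * (z * G1 s (x + √(v₀ + s * d) * z)))
    (x₀ := s) (s := Metric.ball s ε)
    (bound := fun z => Cs * Real.exp (ks * |x|) * Real.exp (ks * Sg * |z|) +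
      |d| / √(v₀ + s * d) * (C1 * Real.exp (k1 * |x|) * (|z| * Real.exp (k1 * Sg * |z|))))
    (Metric.ball_mem_nhds s hε) ?_ ?_ ?_ ?_ ?_ ?_
  · have h1 := hder.2
    have hI1 : Integrable (fun z => Gs s (x + √(v₀ + s * d) * z)) (gaussianReal 0 1) :=
      sp2_integrable hIoo cs ⟨Cs, ks, hCs, hks, hbs⟩ v₀ d hs x
    have hI2 : Integrable (fun z => z * G1 s (x + √(v₀ + s * d) * z)) (gaussianReal 0 1) :=
      sp2_integrable_mul subset_rfl c1 ⟨C1, k1, hC1, hk1, hb1⟩ v₀ d (hIoo hs) x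
    have hI3 : Integrable (fun z => G2 s (x + √(v₀ + s * d) * z)) (gaussianReal 0 1) :=
      sp2_integrable subset_rfl c2 e2 v₀ d (hIoo hs) x
    have hst : ∫ z, z * G1 s (x + √(v₀ + s * d) * z) ∂(gaussianReal 0 1) =
        ∫ z, √(v₀ + s * d) * G2 s (x + √(v₀ + s * d) * z) ∂(gaussianReal 0 1) := by
      refine stein_one_int (fun z => G1 s (x + √(v₀ + s * d) * z))
        (fun z => √(v₀ + s * d) * G2 s (x + √(v₀ + s * d) * z)) ?_ ?_ hI2 (hI3.const_mul _)
      · intro z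
        have h2 : HasDerivAt (fun z : ℝ => x + √(v₀ + s * d) * z) (√(v₀ + s * d)) z := by
          simpa using ((hasDerivAt_id z).const_mul (√(v₀ + s * d))).const_add x
        have h3 := (d2 s (hIoo hs) (x + √(v₀ + s * d) * z)).comp z h2
        rw [mul_comm (G2 s _) (√(v₀ + s * d))] at h3
        exact h3
      · exact sp2_integrable subset_rfl c1 ⟨C1, k1, hC1, hk1, hb1⟩ v₀ d (hIoo hs) x
    have h4 : ∫ z, (Gs s (x + √(v₀ + s * d) * z) +
        d / (2 * √(v₀ + s * d)) * (z * G1 s (x + √(v₀ + s * d) * z))) ∂(gaussianReal 0 1) =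
        ∫ z, (Gs s (x + √(v₀ + s * d) * z) + d / 2 * G2 s (x + √(v₀ + s * d) * z))
          ∂(gaussianReal 0 1) := by
      rw [integral_add hI1 (hI2.const_mul _), integral_add hI1 (hI3.const_mul _),
        integral_const_mul, integral_const_mul, hst, integral_const_mul]
      field_simp
    rw [← h4]
    exact h1
  · filter_upwards [Metric.ball_mem_nhds s hε] with s' hs'
    exact (sp2_integrable subset_rfl c0 e0 v₀ d (hIoo (hball s' hs').1) x).aestronglyMeasurable
  · exact sp2_integrable subset_rfl c0 e0 v₀ d (hIoo hs) x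
  · exact ((sp2_integrable hIoo cs ⟨Cs, ks, hCs, hks, hbs⟩ v₀ d hs x).add
      ((sp2_integrable_mul subset_rfl c1 ⟨C1, k1, hC1, hk1, hb1⟩ v₀ d (hIoo hs)
        x).const_mul _)).aestronglyMeasurable
  · refine Eventually.of_forall fun z s' hs' => ?_
    obtain ⟨h1, h2⟩ := hball s' hs'
    rw [Real.norm_eq_abs]
    refine (abs_add_le _ _).trans (add_le_add ?_ ?_)
    · exact sp2_bound hIoo hCs hks hbs v₀ d h1 le_rfl z
    · rw [abs_mul, abs_mul, abs_div, abs_of_pos (by linarith only [h2, hw] : 0 < 2 * √(v₀ + s' * d))]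
      have h3 : |d| / (2 * √(v₀ + s' * d)) ≤ |d| / √(v₀ + s * d) :=
        div_le_div_of_nonneg_left (abs_nonneg _) hw (by linarith)
      have h4 : |z| * |G1 s' (x + √(v₀ + s' * d) * z)| ≤
          C1 * Real.exp (k1 * |x|) * (|z| * Real.exp (k1 * Sg * |z|)) := by
        calc |z| * |G1 s' (x + √(v₀ + s' * d) * z)| ≤ |z| * (C1 * Real.exp (k1 * |x|) *
              Real.exp (k1 * Sg * |z|)) :=
              mul_le_mul_of_nonneg_left (sp2_bound subset_rfl hC1 hk1 hb1 v₀ d (hIoo h1) le_rfl z)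
                (abs_nonneg _)
          _ = _ := by ring
      exact mul_le_mul h3 h4 (by (clear * -; positivity)) (by (clear * - hvs; positivity))
  · exact ((sp2_integrable_exp_abs _).const_mul _).add
      (((sp2_integrable_abs_mul_exp _).const_mul _).const_mul _)
  · refine Eventually.of_forall fun z s' hs' => ?_
    exact sp2_chain d1 ds c1 cs (hball s' hs').1 (hv s' (hball s' hs').1) x z

/-! ### families -/

section SP2

variable {a b : ℝ} {u u1 u2 us : ℝ → ℝ → ℝ}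

/-- a common bound for the first two derivatives. -/
theorem Fam.sp2_sm (h : Fam a b u u1 u2 us) :
    ∃ L B : ℝ, 0 ≤ L ∧ 0 ≤ B ∧ ∀ s ∈ Icc a b, Sm L B (u s) (u1 s) (u2 s) := by
  obtain ⟨L, hL⟩ := h.b1
  obtain ⟨B, hB⟩ := h.b2
  refine ⟨|L|, |B|, abs_nonneg _, abs_nonneg _, fun s hs => ⟨h.d1 s hs, h.d2 s hs,
    sp2_slice h.c2 hs, fun x => (hL s hs x).trans (le_abs_self _),
    fun x => (hB s hs x).trans (le_abs_self _)⟩⟩

theorem Fam.sp2_lin (h : Fam a b u u1 u2 us) :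
    ∃ K L : ℝ, 0 ≤ K ∧ 0 ≤ L ∧ ∀ s ∈ Icc a b, ∀ x, |u s x| ≤ K + L * |x| := by
  obtain ⟨L, B, hL, hB, hsm⟩ := h.sp2_sm
  have hc : ContinuousOn (fun s => u s 0) (Icc a b) :=
    h.c0.comp (f := fun s : ℝ => ((s, (0 : ℝ)) : ℝ × ℝ)) (by fun_prop)
      (fun s hs => ⟨hs, mem_univ _⟩)
  obtain ⟨K, hK⟩ := isCompact_Icc.exists_bound_of_continuousOn hc
  refine ⟨|K|, L, abs_nonneg _, hL, fun s hs x => ?_⟩
  have h1 : |u s x - u s 0| ≤ L * |x - 0| := by
    have := Convex.norm_image_sub_le_of_norm_hasDerivWithin_le (f := u s) (f' := u1 s)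
      (s := univ) (C := L) (x := 0) (y := x) (fun y _ => ((hsm s hs).d1 y).hasDerivWithinAt)
      (fun y _ => (hsm s hs).bM y) convex_univ (mem_univ _) (mem_univ _)
    exact this
  have h2 : |u s 0| ≤ |K| := (hK s hs).trans (le_abs_self _)
  rw [sub_zero] at h1
  have h3 : u s x = (u s x - u s 0) + u s 0 := by ring
  rw [h3]
  refine (abs_add_le _ _).trans ?_
  linarith

theorem Fam.sp2_ebd (h : Fam a b u u1 u2 us) : sp2_EB (Icc a b) u := by
  obtain ⟨K, L, hK, hL, hb⟩ := h.sp2_lin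
  refine ⟨K + L, 1, by positivity, zero_le_one, fun s hs x => (hb s hs x).trans ?_⟩
  have h1 : (1 : ℝ) ≤ Real.exp (1 * |x|) := by
    rw [one_mul]; exact Real.one_le_exp (abs_nonneg _)
  have h2 : |x| ≤ Real.exp (1 * |x|) := by
    rw [one_mul]; exact sp2_abs_le_exp x
  linarith only [mul_le_mul_of_nonneg_left h2 hL, mul_le_mul_of_nonneg_left h1 hK]

theorem Fam.sp2_ebd_exp (h : Fam a b u u1 u2 us) (m : ℝ) :
    sp2_EB (Icc a b) (fun s x => Real.exp (m * u s x)) := by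
  obtain ⟨K, L, hK, hL, hb⟩ := h.sp2_lin
  refine ⟨Real.exp (|m| * K), |m| * L, (Real.exp_pos _).le, by positivity, fun s hs x => ?_⟩
  rw [abs_of_pos (Real.exp_pos _), ← Real.exp_add]
  refine Real.exp_le_exp.2 ?_
  calc m * u s x ≤ |m * u s x| := le_abs_self _
    _ = |m| * |u s x| := abs_mul _ _
    _ ≤ |m| * (K + L * |x|) := mul_le_mul_of_nonneg_left (hb s hs x) (abs_nonneg _)
    _ = |m| * K + |m| * L * |x| := by ring

theorem Fam.sp2_cexp (h : Fam a b u u1 u2 us) (m : ℝ) :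
    ContinuousOn (fun p : ℝ × ℝ => Real.exp (m * u p.1 p.2)) (Icc a b ×ˢ univ) :=
  (h.c0.const_mul m).rexp

/-- continuity of tilted averages, for parameters in a subset of the segment. -/
theorem Fam.sp2_tlt_cont (h : Fam a b u u1 u2 us) {S : Set ℝ} (hS : S ⊆ Icc a b)
    {g : ℝ → ℝ → ℝ}
    (hg : ContinuousOn (fun p : ℝ × ℝ => g p.1 p.2) (S ×ˢ univ)) {B : ℝ}
    (hB : ∀ s ∈ S, ∀ x, |g s x| ≤ B) (m v₀ d : ℝ) :
    ContinuousOn (fun p : ℝ × ℝ => tlt m (v₀ + p.1 * d) (u p.1) (g p.1) p.2) (S ×ˢ univ) := by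
  have hsub : S ×ˢ (univ : Set ℝ) ⊆ Icc a b ×ˢ univ := prod_mono hS subset_rfl
  obtain ⟨L, B', -, -, hsm⟩ := h.sp2_sm
  unfold tlt
  refine ContinuousOn.div ?_ ?_ ?_
  · exact sp2_cont hS (G := fun s x => g s x * Real.exp (m * u s x))
      (hg.mul ((h.sp2_cexp m).mono hsub)) ((sp2_EB_of_bdd hB).mul ((h.sp2_ebd_exp m).mono hS)) v₀ d
  · exact sp2_cont hS (G := fun s x => Real.exp (m * u s x)) ((h.sp2_cexp m).mono hsub)
      ((h.sp2_ebd_exp m).mono hS) v₀ d
  · intro p hp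
    exact ((hsm p.1 (hS hp.1)).int_exp_pos m (v₀ + p.1 * d) p.2).ne'

theorem Fam.tlt_cont (h : Fam a b u u1 u2 us) {g : ℝ → ℝ → ℝ}
    (hg : ContinuousOn (fun p : ℝ × ℝ => g p.1 p.2) (Set.Icc a b ×ˢ Set.univ)) {B : ℝ}
    (hB : ∀ s ∈ Set.Icc a b, ∀ x, |g s x| ≤ B) (m v₀ d : ℝ) :
    ContinuousOn (fun p : ℝ × ℝ => tlt m (v₀ + p.1 * d) (u p.1) (g p.1) p.2)
      (Set.Icc a b ×ˢ Set.univ) :=
  h.sp2_tlt_cont subset_rfl hg hB m v₀ d

theorem Fam.step (h : Fam a b u u1 u2 us) {m : ℝ} (hm : 0 < m) {v₀ d : ℝ}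
    (hv : ∀ s ∈ Set.Ioo a b, 0 < v₀ + s * d) :
    Fam a b (fun s => gstep m (v₀ + s * d) (u s))
      (fun s => tlt m (v₀ + s * d) (u s) (u1 s))
      (fun s x => tlt m (v₀ + s * d) (u s) (fun y => u2 s y + m * u1 s y ^ 2) x -
        m * tlt m (v₀ + s * d) (u s) (u1 s) x ^ 2)
      (fun s => tlt m (v₀ + s * d) (u s)
        (fun y => us s y + d / 2 * (u2 s y + m * u1 s y ^ 2))) := by
  obtain ⟨L, B, hL, hB, hsm⟩ := h.sp2_sm
  obtain ⟨Bs, hBs⟩ := h.bs
  have hIoo : Ioo a b ⊆ Icc a b := Ioo_subset_Icc_self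
  have hsubp : Ioo a b ×ˢ (univ : Set ℝ) ⊆ Icc a b ×ˢ univ := prod_mono hIoo subset_rfl
  have hc2 : ContinuousOn (fun p : ℝ × ℝ => u2 p.1 p.2 + m * u1 p.1 p.2 ^ 2)
      (Icc a b ×ˢ univ) := h.c2.add ((h.c1.pow 2).const_mul m)
  have hb2 : ∀ s ∈ Icc a b, ∀ x, |u2 s x + m * u1 s x ^ 2| ≤ B + m * L ^ 2 := by
    intro s hs x
    refine (abs_add_le _ _).trans (add_le_add ((hsm s hs).bD x) ?_)
    rw [abs_mul, abs_of_pos hm, abs_pow]
    exact mul_le_mul_of_nonneg_left (pow_le_pow_left₀ (abs_nonneg _) ((hsm s hs).bM x) 2) hm.le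
  have hcs : ContinuousOn (fun p : ℝ × ℝ => us p.1 p.2 + d / 2 * (u2 p.1 p.2 +
      m * u1 p.1 p.2 ^ 2)) (Ioo a b ×ˢ univ) := h.cs.add ((hc2.mono hsubp).const_mul _)
  have hbs : ∀ s ∈ Ioo a b, ∀ x, |us s x + d / 2 * (u2 s x + m * u1 s x ^ 2)| ≤
      Bs + |d / 2| * (B + m * L ^ 2) := by
    intro s hs x
    refine (abs_add_le _ _).trans (add_le_add (hBs s hs x) ?_)
    rw [abs_mul]
    exact mul_le_mul_of_nonneg_left (hb2 s (hIoo hs) x) (abs_nonneg _)
  have hgc : ContinuousOn (fun p : ℝ × ℝ =>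
      ∫ z, Real.exp (m * u p.1 (p.2 + √(v₀ + p.1 * d) * z)) ∂(gaussianReal 0 1))
      (Icc a b ×ˢ univ) :=
    sp2_cont subset_rfl (G := fun s x => Real.exp (m * u s x)) (h.sp2_cexp m) (h.sp2_ebd_exp m)
      v₀ d
  refine ⟨fun s hs => ((hsm s hs).step hm _).d1, fun s hs => ((hsm s hs).step hm _).d2, ?_, ?_,
    ?_, ?_, ?_, ⟨L, fun s hs => ((hsm s hs).step hm _).bM⟩,
    ⟨B + m * L ^ 2, fun s hs => ((hsm s hs).step hm _).bD⟩,
    ⟨Bs + |d / 2| * (B + m * L ^ 2), fun s hs x => ?_⟩⟩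
  · -- the derivative in the parameter
    intro s hs x
    have hb1 : ∀ s ∈ Icc a b, ∀ x, |u1 s x| ≤ L := fun s hs => (hsm s hs).bM
    have hder := sp2_deriv (a := a) (b := b) (G := fun s x => Real.exp (m * u s x))
      (G1 := fun s x => (m * u1 s x) * Real.exp (m * u s x))
      (G2 := fun s x => (m * (u2 s x + m * u1 s x ^ 2)) * Real.exp (m * u s x))
      (Gs := fun s x => (m * us s x) * Real.exp (m * u s x)) (v₀ := v₀) (d := d)
      (fun s hs x => by
        have h1 := ((h.d1 s hs x).const_mul m).exp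
        rw [mul_comm] at h1
        exact h1)
      (fun s hs x => by
        have h1 := ((h.d2 s hs x).const_mul m).mul ((h.d1 s hs x).const_mul m).exp
        have e : m * u2 s x * Real.exp (m * u s x) + m * u1 s x *
            (Real.exp (m * u s x) * (m * u1 s x)) =
            (m * (u2 s x + m * u1 s x ^ 2)) * Real.exp (m * u s x) := by ring
        rw [e] at h1
        exact h1)
      (fun s hs x => by
        have h1 := ((h.ds s hs x).const_mul m).exp
        rw [mul_comm] at h1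
        exact h1)
      (h.sp2_cexp m) ((h.c1.const_mul m).mul (h.sp2_cexp m))
      ((hc2.const_mul m).mul (h.sp2_cexp m))
      ((h.cs.const_mul m).mul ((h.sp2_cexp m).mono hsubp))
      (h.sp2_ebd_exp m)
      ((sp2_EB_of_bdd (B := m * L) fun s hs x => by
        rw [abs_mul, abs_of_pos hm]
        exact mul_le_mul_of_nonneg_left (hb1 s hs x) hm.le).mul (h.sp2_ebd_exp m))
      ((sp2_EB_of_bdd (B := m * (B + m * L ^ 2)) fun s hs x => by
        rw [abs_mul, abs_of_pos hm]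
        exact mul_le_mul_of_nonneg_left (hb2 s hs x) hm.le).mul (h.sp2_ebd_exp m))
      ((sp2_EB_of_bdd (B := m * Bs) fun s hs x => by
        rw [abs_mul, abs_of_pos hm]
        exact mul_le_mul_of_nonneg_left (hBs s hs x) hm.le).mul ((h.sp2_ebd_exp m).mono hIoo))
      hv hs x
    have hpos := (hsm s (hIoo hs)).int_exp_pos m (v₀ + s * d) x
    have h2 := (hder.log hpos.ne').const_mul (1 / m)
    have h3 : ∫ z, (m * us s (x + √(v₀ + s * d) * z) * Real.exp (m * u s (x + √(v₀ + s * d) * z)) +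
        d / 2 * (m * (u2 s (x + √(v₀ + s * d) * z) + m * u1 s (x + √(v₀ + s * d) * z) ^ 2) *
          Real.exp (m * u s (x + √(v₀ + s * d) * z)))) ∂(gaussianReal 0 1) =
        m * ∫ z, (us s (x + √(v₀ + s * d) * z) + d / 2 * (u2 s (x + √(v₀ + s * d) * z) +
          m * u1 s (x + √(v₀ + s * d) * z) ^ 2)) * Real.exp (m * u s (x + √(v₀ + s * d) * z))
          ∂(gaussianReal 0 1) := by
      rw [← integral_const_mul]
      refine integral_congr_ae (Eventually.of_forall fun z => ?_)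
      ring
    rw [h3] at h2
    have h4 : 1 / m * (m * (∫ z, (us s (x + √(v₀ + s * d) * z) + d / 2 *
        (u2 s (x + √(v₀ + s * d) * z) + m * u1 s (x + √(v₀ + s * d) * z) ^ 2)) *
        Real.exp (m * u s (x + √(v₀ + s * d) * z)) ∂(gaussianReal 0 1)) /
        ∫ z, Real.exp (m * u s (x + √(v₀ + s * d) * z)) ∂(gaussianReal 0 1)) =
        tlt m (v₀ + s * d) (u s) (fun y => us s y + d / 2 * (u2 s y + m * u1 s y ^ 2)) x := by
      unfold tlt
      rw [mul_div_assoc, ← mul_assoc, one_div, inv_mul_cancel₀ hm.ne', one_mul]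
    rw [h4] at h2
    exact h2
  · -- continuity of the log-weight
    have : ContinuousOn (fun p : ℝ × ℝ => 1 / m * Real.log
        (∫ z, Real.exp (m * u p.1 (p.2 + √(v₀ + p.1 * d) * z)) ∂(gaussianReal 0 1)))
        (Icc a b ×ˢ univ) :=
      (hgc.log fun p hp => ((hsm p.1 hp.1).int_exp_pos m (v₀ + p.1 * d) p.2).ne').const_mul _
    exact this
  · exact h.tlt_cont h.c1 (fun s hs => (hsm s hs).bM) m v₀ d
  · exact (h.tlt_cont hc2 hb2 m v₀ d).sub
      (((h.tlt_cont h.c1 (fun s hs => (hsm s hs).bM) m v₀ d).pow 2).const_mul m)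
  · exact h.sp2_tlt_cont hIoo hcs hbs m v₀ d
  · exact (hsm s (hIoo hs)).abs_tlt_le
      (g := fun y => us s y + d / 2 * (u2 s y + m * u1 s y ^ 2))
      (sp2_slice (G := fun s y => us s y + d / 2 * (u2 s y + m * u1 s y ^ 2)) hcs hs)
      (hbs s hs) m (v₀ + s * d) x

theorem Fam.bottom_cont (h : Fam a b u u1 u2 us) {g : ℝ → ℝ → ℝ}
    (hg : ContinuousOn (fun p : ℝ × ℝ => g p.1 p.2) (Set.Icc a b ×ˢ Set.univ)) {B : ℝ}
    (hB : ∀ s ∈ Set.Icc a b, ∀ x, |g s x| ≤ B) (v₀ d : ℝ) :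
    ContinuousOn (fun s => ∫ z, g s (√(v₀ + s * d) * z) ∂(gaussianReal 0 1)) (Set.Icc a b) := by
  have h1 := sp2_cont subset_rfl hg (sp2_EB_of_bdd hB) v₀ d
  have h2 := h1.comp (f := fun s : ℝ => ((s, (0 : ℝ)) : ℝ × ℝ)) (s := Icc a b) (by fun_prop)
    (fun s hs => ⟨hs, mem_univ _⟩)
  simpa [Function.comp_def] using h2

theorem Fam.bottom (h : Fam a b u u1 u2 us) {v₀ d : ℝ}
    (hv : ∀ s ∈ Set.Ioo a b, 0 < v₀ + s * d) :
    ContinuousOn (fun s => ∫ z, u s (√(v₀ + s * d) * z) ∂(gaussianReal 0 1)) (Set.Icc a b) ∧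
      ∀ s ∈ Set.Ioo a b,
        HasDerivAt (fun s => ∫ z, u s (√(v₀ + s * d) * z) ∂(gaussianReal 0 1))
          (∫ z, (us s (√(v₀ + s * d) * z) + d / 2 * u2 s (√(v₀ + s * d) * z))
            ∂(gaussianReal 0 1)) s := by
  obtain ⟨L, B, hL, hB, hsm⟩ := h.sp2_sm
  obtain ⟨Bs, hBs⟩ := h.bs
  constructor
  · have h1 := sp2_cont subset_rfl h.c0 h.sp2_ebd v₀ d
    have h2 := h1.comp (f := fun s : ℝ => ((s, (0 : ℝ)) : ℝ × ℝ)) (s := Icc a b) (by fun_prop)
      (fun s hs => ⟨hs, mem_univ _⟩)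
    simpa [Function.comp_def] using h2
  · intro s hs
    have h1 := sp2_deriv h.d1 h.d2 h.ds h.c0 h.c1 h.c2 h.cs h.sp2_ebd
      (sp2_EB_of_bdd fun s hs => (hsm s hs).bM) (sp2_EB_of_bdd fun s hs => (hsm s hs).bD)
      (sp2_EB_of_bdd hBs) hv hs 0
    simpa only [zero_add] using h1

end SP2

end Vale.Agent.P157.Par
end

section

/-!
Monotonicity of the overlaps of the spin chain.
-/

open MeasureTheory ProbabilityTheory Filter Topology Set

namespace Vale.Agent.P157.Par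

/-! ### Elementary facts -/

theorem sp5_deriv_nonneg {w : ℝ → ℝ} {w' x : ℝ} (hw : HasDerivAt w w' x)
    (h : ∀ y, x ≤ y → w x ≤ w y) : 0 ≤ w' := by
  have h1 : Tendsto (slope w x) (𝓝[>] x) (𝓝 w') := by
    have h2 := hw.hasDerivWithinAt (s := Ioi x)
    rw [hasDerivWithinAt_iff_tendsto_slope'] at h2
    · exact h2
    · exact self_notMem_Ioi
  refine ge_of_tendsto h1 ?_
  filter_upwards [self_mem_nhdsWithin] with y hy
  have hy' : x < y := hy
  rw [slope_def_field]
  exact div_nonneg (sub_nonneg.2 (h y hy'.le)) (sub_nonneg.2 hy'.le)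

theorem sp5_sq_evm {F M D : ℝ → ℝ} (h : Ec F M D) : Evm (fun x => M x ^ 2) := by
  have h0 : M 0 = 0 := by
    have h1 := h.odd 0
    rw [neg_zero] at h1
    linarith
  refine ⟨fun x => ?_, fun x hx y hy hxy => ?_⟩
  · show M (-x) ^ 2 = M x ^ 2
    rw [h.odd]; ring
  · show M x ^ 2 ≤ M y ^ 2
    have h1 : 0 ≤ M x := by
      rw [← h0]; exact h.mono hx
    have h2 : M x ≤ M y := h.mono hxy
    exact pow_le_pow_left₀ h1 h2 2

theorem sp5_sq_cont {F M D : ℝ → ℝ} (h : Ec F M D) : Continuous (fun x => M x ^ 2) :=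
  h.sm.cont1.pow 2

theorem sp5_sq_bdd {F M D : ℝ → ℝ} (h : Ec F M D) (x : ℝ) : |M x ^ 2| ≤ 1 := by
  have h1 := h.abs_M x
  rw [abs_pow]
  exact pow_le_one₀ (abs_nonneg _) h1

theorem sp5_sq_le {F M D F' M' D' : ℝ → ℝ} (h : Ec F M D) (h' : Ec F' M' D')
    (hle : ∀ x, 0 ≤ x → M' x ≤ M x) (x : ℝ) : M' x ^ 2 ≤ M x ^ 2 := by
  have key : ∀ y, 0 ≤ y → M' y ^ 2 ≤ M y ^ 2 := by
    intro y hy
    have h0 : M' 0 = 0 := by
      have h1 := h'.odd 0
      rw [neg_zero] at h1
      linarith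
    have h1 : 0 ≤ M' y := by
      rw [← h0]; exact h'.mono hy
    exact pow_le_pow_left₀ h1 (hle y hy) 2
  rcases le_total 0 x with hx | hx
  · exact key x hx
  · have h1 := key (-x) (by linarith)
    rw [h.odd, h'.odd, neg_sq, neg_sq] at h1
    exact h1

/-! ### Two steps -/

theorem sp5_fam_const {F M D : ℝ → ℝ} (h : Ec F M D) (a b : ℝ) :
    Fam a b (fun _ => F) (fun _ => M) (fun _ => D) (fun _ _ => 0) where
  d1 := fun _ _ x => h.d1 x
  d2 := fun _ _ x => h.d2 x
  ds := fun _ _ x => hasDerivAt_const _ _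
  c0 := (h.sm.cont.comp continuous_snd).continuousOn
  c1 := (h.sm.cont1.comp continuous_snd).continuousOn
  c2 := (h.cD.comp continuous_snd).continuousOn
  cs := continuousOn_const
  b1 := ⟨1, fun _ _ x => h.abs_M x⟩
  b2 := ⟨1, fun _ _ x => h.sm.bD x⟩
  bs := ⟨0, fun _ _ x => by simp⟩

theorem two_step_cmp {F M D : ℝ → ℝ} (h : Ec F M D) {m m' : ℝ} (hm : 0 < m) (hmm : m ≤ m')
    (hm' : m' ≤ 1) {v v' s : ℝ} (hv : 0 ≤ v) (hs : 0 ≤ s) (hv' : s ≤ v') {x : ℝ} (hx : 0 ≤ x) :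
    tlt m (v + s) (gstep m' (v' - s) F) (tlt m' (v' - s) F M) x ≤
      tlt m v (gstep m' v' F) (tlt m' v' F M) x := by
  have hm'0 : 0 < m' := hm.trans_le hmm
  rcases hs.eq_or_lt with hs0 | hs0
  · rw [← hs0, add_zero, sub_zero]
  have f0 := sp5_fam_const h 0 s
  have f1 := f0.step (m := m') hm'0 (v₀ := v') (d := -1) (fun t ht => by
    have h1 := ht.2
    linarith)
  have f2 := f1.step (m := m) hm (v₀ := v) (d := 1) (fun t ht => by
    have h1 := ht.1
    linarith)
  -- the derivative in the parameter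
  have hus : ∀ t x, tlt m (v + t * 1) (gstep m' (v' + t * -1) F)
      (fun y => tlt m' (v' + t * -1) F (fun y => 0 + -1 / 2 * (D y + m' * M y ^ 2)) y + 1 / 2 *
        ((tlt m' (v' + t * -1) F (fun y => D y + m' * M y ^ 2) y -
        m' * tlt m' (v' + t * -1) F M y ^ 2) + m * tlt m' (v' + t * -1) F M y ^ 2)) x =
      -(1 / 2) * (m' - m) * tlt m (v + t * 1) (gstep m' (v' + t * -1) F)
        (fun y => tlt m' (v' + t * -1) F M y ^ 2) x := by
    intro t x
    rw [← tlt_const_mul]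
    congr 1
    funext y
    have h1 : tlt m' (v' + t * -1) F (fun y => 0 + -1 / 2 * (D y + m' * M y ^ 2)) y =
        -1 / 2 * tlt m' (v' + t * -1) F (fun y => D y + m' * M y ^ 2) y := by
      rw [← tlt_const_mul]
      congr 1
      funext y
      ring
    rw [h1]
    ring
  -- monotonicity of the increments
  have hinc : ∀ x y, 0 ≤ x → x ≤ y →
      gstep m (v + s * 1) (gstep m' (v' + s * -1) F) y -
        gstep m (v + s * 1) (gstep m' (v' + s * -1) F) x ≤
      gstep m (v + 0 * 1) (gstep m' (v' + 0 * -1) F) y -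
        gstep m (v + 0 * 1) (gstep m' (v' + 0 * -1) F) x := by
    intro x y hx hxy
    have hderiv : ∀ t ∈ Ioo 0 s, HasDerivAt
        (fun t => gstep m (v + t * 1) (gstep m' (v' + t * -1) F) y -
          gstep m (v + t * 1) (gstep m' (v' + t * -1) F) x)
        (-(1 / 2) * (m' - m) * tlt m (v + t * 1) (gstep m' (v' + t * -1) F)
          (fun y => tlt m' (v' + t * -1) F M y ^ 2) y -
          -(1 / 2) * (m' - m) * tlt m (v + t * 1) (gstep m' (v' + t * -1) F)
          (fun y => tlt m' (v' + t * -1) F M y ^ 2) x) t := by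
      intro t ht
      rw [← hus, ← hus]
      exact (f2.ds t ht y).sub (f2.ds t ht x)
    have hcont : ContinuousOn (fun t => gstep m (v + t * 1) (gstep m' (v' + t * -1) F) y -
          gstep m (v + t * 1) (gstep m' (v' + t * -1) F) x) (Icc 0 s) := by
      have hc : ∀ z : ℝ, ContinuousOn
          (fun t => gstep m (v + t * 1) (gstep m' (v' + t * -1) F) z) (Icc 0 s) := by
        intro z
        exact f2.c0.comp (f := fun t : ℝ => (t, z)) (by fun_prop)
          (fun t ht => ⟨ht, mem_univ _⟩)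
      exact (hc y).sub (hc x)
    have hanti : AntitoneOn (fun t => gstep m (v + t * 1) (gstep m' (v' + t * -1) F) y -
          gstep m (v + t * 1) (gstep m' (v' + t * -1) F) x) (Icc 0 s) := by
      refine antitoneOn_of_deriv_nonpos (convex_Icc 0 s) hcont ?_ ?_
      · rw [interior_Icc]
        exact fun t ht => (hderiv t ht).differentiableAt.differentiableWithinAt
      · rw [interior_Icc]
        intro t ht
        rw [(hderiv t ht).deriv]
        have hE := h.step hm'0 hm' (v' + t * -1)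
        have hev := hE.tlt_evm (sp5_sq_cont hE) (sp5_sq_bdd hE) (sp5_sq_evm hE) hm (v + t * 1)
        have h1 := hev.2 (mem_Ici.2 hx) (mem_Ici.2 (hx.trans hxy)) hxy
        have h2 : 0 ≤ m' - m := sub_nonneg.2 hmm
        (by_contra nlg; linarith [mul_nonneg (sub_nonneg.2 h1) (sub_nonneg.2 h2), mul_pos (sub_pos.2 (not_le.1 nlg)) (sub_pos.2 hm'0), mul_nonneg (le_of_lt (sub_pos.2 (not_le.1 nlg))) (sub_nonneg.2 hm')])
    exact hanti (left_mem_Icc.2 hs0.le) (right_mem_Icc.2 hs0.le) hs0.le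
  have hd0 := f2.d1 0 (left_mem_Icc.2 hs0.le) x
  have hds := f2.d1 s (right_mem_Icc.2 hs0.le) x
  have hfin := sp5_deriv_nonneg (hd0.sub hds) (fun y hy => by
    have h1 := hinc x y hx hy
    simp only [Pi.sub_apply]
    linarith)
  simp only [add_zero, mul_one, mul_neg, ← sub_eq_add_neg, sub_zero] at hfin
  linarith

/-! ### Comparison of two chains -/

theorem sp5_chn_cmp {m r r' : ℕ → ℝ} : ∀ (l : ℕ), (∀ i ≤ l, r' i = r i) →
    (∀ i, 1 ≤ i → i ≤ l → 0 < m i ∧ m i ≤ 1) → ∀ {F M D F' M' D' g g' : ℝ → ℝ} {K K' : ℝ},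
    Ec F M D → Ec F' M' D' → (∀ x, 0 ≤ x → M' x ≤ M x) → Continuous g → (∀ x, |g x| ≤ K) →
    Continuous g' → (∀ x, |g' x| ≤ K') → Evm g → Evm g' → (∀ x, g' x ≤ g x) →
    chn m r' l F' g' ≤ chn m r l F g := by
  intro l
  induction l with
  | zero =>
    intro hr hm F M D F' M' D' g g' K K' hE hE' hle hg hK hg' hK' hev hev' hgg
    rw [chn_zero_def, chn_zero_def, hr 0 le_rfl]
    refine integral_mono ?_ ?_ (fun z => hgg _)
    · exact Integrable.of_bound (hg'.comp (by fun_prop)).aestronglyMeasurable K'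
        (Eventually.of_forall fun z => hK' _)
    · exact Integrable.of_bound (hg.comp (by fun_prop)).aestronglyMeasurable K
        (Eventually.of_forall fun z => hK _)
  | succ l ih =>
    intro hr hm F M D F' M' D' g g' K K' hE hE' hle hg hK hg' hK' hev hev' hgg
    obtain ⟨hm0, hm1⟩ := hm (l + 1) (by omega) le_rfl
    rw [chn_succ_def, chn_succ_def, hr (l + 1) le_rfl, hr l (by omega)]
    exact ih (fun i hi => hr i (by omega)) (fun i h1 h2 => hm i h1 (by omega))
      (hE.step hm0 hm1 _) (hE'.step hm0 hm1 _)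
      (fun x hx => tlt_cmp_odd hE hE' hle hm0 _ hx)
      (hE.sm.tlt_cont hg hK _ _) (fun x => hE.sm.abs_tlt_le hg hK _ _ x)
      (hE'.sm.tlt_cont hg' hK' _ _) (fun x => hE'.sm.abs_tlt_le hg' hK' _ _ x)
      (hE.tlt_evm hg hK hev hm0 _) (hE'.tlt_evm hg' hK' hev' hm0 _)
      (fun x => tlt_cmp hE hE' hle hg hK hg' hK' hev.1 hev' hgg hm0 _ x)

theorem sp5_Rc_cmp {m r r' : ℕ → ℝ} {i : ℕ} : ∀ (l : ℕ), i ≤ l → (∀ i ≤ l, r' i = r i) →
    (∀ i, 1 ≤ i → i ≤ l → 0 < m i ∧ m i ≤ 1) → ∀ {F M D F' M' D' : ℝ → ℝ},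
    Ec F M D → Ec F' M' D' → (∀ x, 0 ≤ x → M' x ≤ M x) →
    Rc m r' l F' M' i ≤ Rc m r l F M i := by
  intro l
  induction l with
  | zero =>
    intro hi hr hm F M D F' M' D' hE hE' hle
    rw [Rc_zero_def, Rc_zero_def]
    exact sp5_chn_cmp 0 hr hm hE hE' hle (sp5_sq_cont hE) (sp5_sq_bdd hE) (sp5_sq_cont hE')
      (sp5_sq_bdd hE') (sp5_sq_evm hE) (sp5_sq_evm hE') (sp5_sq_le hE hE' hle)
  | succ l ih =>
    intro hi hr hm F M D F' M' D' hE hE' hle
    obtain ⟨hm0, hm1⟩ := hm (l + 1) (by omega) le_rfl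
    rcases Nat.lt_or_ge i (l + 1) with h | h
    · rw [Rc_succ_le m r l F M (by omega), Rc_succ_le m r' l F' M' (by omega),
        hr (l + 1) le_rfl, hr l (by omega)]
      exact ih (by omega) (fun i hi => hr i (by omega)) (fun i h1 h2 => hm i h1 (by omega))
        (hE.step hm0 hm1 _) (hE'.step hm0 hm1 _)
        (fun x hx => tlt_cmp_odd hE hE' hle hm0 _ hx)
    · obtain rfl : i = l + 1 := le_antisymm hi h
      rw [Rc_succ_self, Rc_succ_self]
      exact sp5_chn_cmp (l + 1) hr hm hE hE' hle (sp5_sq_cont hE) (sp5_sq_bdd hE)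
        (sp5_sq_cont hE') (sp5_sq_bdd hE') (sp5_sq_evm hE) (sp5_sq_evm hE')
        (sp5_sq_le hE hE' hle)

/-! ### The exponents -/

theorem sp5_exp_pos {k : ℕ} {m : ℕ → ℝ} (hm : Exponents k m) : ∀ i, 1 ≤ i → i ≤ k + 1 → 0 < m i := by
  intro i hi
  induction i, hi using Nat.le_induction with
  | base =>
    intro _
    have h1 := hm.2.2 0 (Nat.zero_le _)
    rw [hm.1] at h1
    exact h1
  | succ n hn ih =>
    intro h
    exact (ih (by omega)).trans (hm.2.2 n (by omega))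

theorem sp5_exp_le {k : ℕ} {m : ℕ → ℝ} (hm : Exponents k m) : ∀ i, i ≤ k + 1 → m i ≤ 1 := by
  intro i hi
  induction hi using Nat.decreasingInduction with
  | self => exact hm.2.1.le
  | of_succ n hn ih => exact (hm.2.2 n (by omega)).le.trans ih

/-! ### The overlaps decrease -/

theorem sp5_Rc_anti {m r : ℕ → ℝ} {i j : ℕ} (hij : i < j) {s : ℝ} (hs : 0 ≤ s) :
    ∀ (l : ℕ), j < l → (∀ i < l, r i < r (i + 1)) →
    (∀ i < l, Function.update r j (r j + s) i < Function.update r j (r j + s) (i + 1)) →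
    (∀ i, 1 ≤ i → i ≤ l → 0 < m i ∧ m i ≤ 1) → (m j ≤ m (j + 1)) →
    ∀ {F M D : ℝ → ℝ}, Ec F M D →
    Rc m (Function.update r j (r j + s)) l F M i ≤ Rc m r l F M i := by
  intro l
  induction l with
  | zero => intro h; omega
  | succ l ih =>
    intro hjl hr hr' hm hmj F M D hE
    obtain ⟨hm0, hm1⟩ := hm (l + 1) (by omega) le_rfl
    rcases Nat.lt_or_ge j l with h | h
    · rw [Rc_succ_le m r l F M (by omega), Rc_succ_le m _ l F M (by omega),
        Function.update_of_ne (by omega), Function.update_of_ne (by omega)]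
      exact ih h (fun i hi => hr i (by omega)) (fun i hi => hr' i (by omega))
        (fun i h1 h2 => hm i h1 (by omega)) hmj (hE.step hm0 hm1 _)
    · obtain rfl : j = l := by omega
      obtain ⟨j, rfl⟩ : ∃ j', j = j' + 1 := ⟨j - 1, by omega⟩
      rw [Rc_succ_le m r (j + 1) F M (by omega), Rc_succ_le m _ (j + 1) F M (by omega),
        Rc_succ_le m r j _ _ (by omega), Rc_succ_le m _ j _ _ (by omega),
        Function.update_self, Function.update_of_ne (by omega), Function.update_of_ne (by omega)]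
      obtain ⟨hn0, hn1⟩ := hm (j + 1) (by omega) (by omega)
      have hr1 := hr j (by omega)
      have hr2 := hr' (j + 1) (by omega)
      rw [Function.update_self, Function.update_of_ne (by omega)] at hr2
      have e1 : r (j + 1 + 1) - (r (j + 1) + s) = (r (j + 1 + 1) - r (j + 1)) - s := by ring
      have e2 : r (j + 1) + s - r j = (r (j + 1) - r j) + s := by ring
      rw [e1, e2]
      refine sp5_Rc_cmp j (by omega) (fun i hi => Function.update_of_ne (by omega) _ _)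
        (fun i h1 h2 => hm i h1 (by omega)) ((hE.step hm0 hm1 _).step hn0 hn1 _)
        ((hE.step hm0 hm1 _).step hn0 hn1 _) (fun x hx => ?_)
      exact two_step_cmp hE hn0 hmj hm1 (by linarith only [hr1]) hs (by linarith) hx

/-- Adding a constant to the log-weight does not change the tilted chain. -/
theorem sp5_tlt_add_const (m v c : ℝ) (F h : ℝ → ℝ) (x : ℝ) :
    tlt m v (fun y => F y + c) h x = tlt m v F h x := by
  have h1 : ∀ y : ℝ, Real.exp (m * (F y + c)) = Real.exp (m * c) * Real.exp (m * F y) := by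
    intro y
    rw [← Real.exp_add]
    ring_nf
  simp only [tlt]
  have h2 : (fun z => h (x + √v * z) * Real.exp (m * (F (x + √v * z) + c))) =
      fun z => Real.exp (m * c) * (h (x + √v * z) * Real.exp (m * F (x + √v * z))) := by
    funext z
    rw [h1]; ring
  have h3 : (fun z => Real.exp (m * (F (x + √v * z) + c))) =
      fun z => Real.exp (m * c) * Real.exp (m * F (x + √v * z)) := by
    funext z
    rw [h1]
  rw [h2, h3, integral_const_mul, integral_const_mul,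
    mul_div_mul_left _ _ (Real.exp_pos _).ne']

theorem sp5_tlt_one_logcosh {s : ℝ} (hs : 0 ≤ s) (x : ℝ) :
    tlt 1 s (fun x => Real.log (Real.cosh x)) Real.tanh x = Real.tanh x := by
  have h1 := (ec_logcosh.step one_pos le_rfl s).d1 x
  have h2 : gstep 1 s (fun x => Real.log (Real.cosh x)) =
      fun x => Real.log (Real.cosh x) + s / 2 := by
    funext x
    exact gstep_one_logcosh hs x
  rw [h2] at h1
  exact h1.unique ((ec_logcosh.d1 x).add_const _)

theorem sp5_one_step_cmp {m : ℝ} (hm : 0 < m) (hm1 : m ≤ 1) {v s : ℝ} (hv : 0 ≤ v) (hs : 0 ≤ s)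
    {x : ℝ} (hx : 0 ≤ x) :
    tlt m (v + s) (fun x => Real.log (Real.cosh x)) Real.tanh x ≤
      tlt m v (fun x => Real.log (Real.cosh x)) Real.tanh x := by
  have h1 := two_step_cmp ec_logcosh hm hm1 le_rfl hv hs (le_refl s) hx
  have e1 : ∀ t, 0 ≤ t → gstep 1 t (fun x => Real.log (Real.cosh x)) =
      fun x => Real.log (Real.cosh x) + t / 2 := by
    intro t ht
    funext x
    exact gstep_one_logcosh ht x
  have e2 : ∀ t, 0 ≤ t → tlt 1 t (fun x => Real.log (Real.cosh x)) Real.tanh = Real.tanh := by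
    intro t ht
    funext x
    exact sp5_tlt_one_logcosh ht x
  rw [sub_self, e1 0 le_rfl, e1 s hs, e2 0 le_rfl, e2 s hs, sp5_tlt_add_const,
    sp5_tlt_add_const] at h1
  exact h1

theorem spR_anti {k : ℕ} {m r : ℕ → ℝ} (hm : Exponents k m) (hr : SPath k r) {i j : ℕ}
    (hij : i < j) (hj : j ≤ k) {s : ℝ} (hs : 0 ≤ s)
    (hr' : SPath k (Function.update r j (r j + s))) :
    spR k m (Function.update r j (r j + s)) i ≤ spR k m r i := by
  have hmm : ∀ i, 1 ≤ i → i ≤ k → 0 < m i ∧ m i ≤ 1 := fun i h1 h2 =>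
    ⟨sp5_exp_pos hm i h1 (by omega), sp5_exp_le hm i (by omega)⟩
  unfold spR
  rcases hj.lt_or_eq with h | h
  · exact sp5_Rc_anti hij hs k h hr.2 hr'.2 hmm (hm.2.2 j hj).le ec_logcosh
  · subst h
    obtain ⟨j, rfl⟩ : ∃ j', j = j' + 1 := ⟨j - 1, by omega⟩
    obtain ⟨hm0, hm1⟩ := hmm (j + 1) (by omega) le_rfl
    have hr1 := hr.2 j (by omega)
    rw [Rc_succ_le m r j _ _ (by omega), Rc_succ_le m _ j _ _ (by omega),
      Function.update_self, Function.update_of_ne (by omega)]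
    have e2 : r (j + 1) + s - r j = (r (j + 1) - r j) + s := by ring
    rw [e2]
    exact sp5_Rc_cmp j (by omega) (fun i hi => Function.update_of_ne (by omega) _ _)
      (fun i h1 h2 => hmm i h1 (by omega)) (ec_logcosh.step hm0 hm1 _)
      (ec_logcosh.step hm0 hm1 _)
      (fun x hx => sp5_one_step_cmp hm0 hm1 (by linarith only [hr1]) hs hx)

/-! ### The overlaps increase along the diagonal -/

theorem sp5_chn_diag {m r : ℕ → ℝ} {c : ℝ} (hc : 0 ≤ c) : ∀ (l : ℕ),
    (∀ i, 1 ≤ i → i ≤ l → 0 < m i ∧ m i ≤ 1) → ∀ {F M D g : ℝ → ℝ} {K : ℝ},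
    Ec F M D → Continuous g → (∀ x, |g x| ≤ K) → Evm g →
    chn m r l F g ≤ chn m (fun l => r l + c) l F g := by
  intro l
  induction l with
  | zero =>
    intro hm F M D g K hE hg hK hev
    rw [chn_zero_def, chn_zero_def]
    exact evm_gauss_mono hg hK hev (by linarith)
  | succ l ih =>
    intro hm F M D g K hE hg hK hev
    obtain ⟨hm0, hm1⟩ := hm (l + 1) (by omega) le_rfl
    rw [chn_succ_def, chn_succ_def]
    have e : r (l + 1) + c - (r l + c) = r (l + 1) - r l := by ring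
    simp only [e]
    exact ih (fun i h1 h2 => hm i h1 (by omega)) (hE.step hm0 hm1 _)
      (hE.sm.tlt_cont hg hK _ _) (fun x => hE.sm.abs_tlt_le hg hK _ _ x)
      (hE.tlt_evm hg hK hev hm0 _)

theorem sp5_Rc_diag {m r : ℕ → ℝ} {c : ℝ} (hc : 0 ≤ c) {j : ℕ} : ∀ (l : ℕ), j ≤ l →
    (∀ i, 1 ≤ i → i ≤ l → 0 < m i ∧ m i ≤ 1) → ∀ {F M D : ℝ → ℝ}, Ec F M D →
    Rc m r l F M j ≤ Rc m (fun l => r l + c) l F M j := by
  intro l
  induction l with
  | zero =>
    intro hj hm F M D hE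
    rw [Rc_zero_def, Rc_zero_def]
    exact sp5_chn_diag hc 0 hm hE (sp5_sq_cont hE) (sp5_sq_bdd hE) (sp5_sq_evm hE)
  | succ l ih =>
    intro hj hm F M D hE
    obtain ⟨hm0, hm1⟩ := hm (l + 1) (by omega) le_rfl
    rcases Nat.lt_or_ge j (l + 1) with h | h
    · rw [Rc_succ_le m r l F M (by omega), Rc_succ_le m _ l F M (by omega)]
      have e : r (l + 1) + c - (r l + c) = r (l + 1) - r l := by ring
      simp only [e]
      exact ih (by omega) (fun i h1 h2 => hm i h1 (by omega)) (hE.step hm0 hm1 _)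
    · obtain rfl : j = l + 1 := le_antisymm hj h
      rw [Rc_succ_self, Rc_succ_self]
      exact sp5_chn_diag hc (l + 1) hm hE (sp5_sq_cont hE) (sp5_sq_bdd hE) (sp5_sq_evm hE)

theorem spR_diag {k : ℕ} {m r : ℕ → ℝ} (hm : Exponents k m) (hr : SPath k r) {c : ℝ}
    (hc : 0 ≤ c) {j : ℕ} (hj : j ≤ k) :
    spR k m r j ≤ spR k m (fun l => r l + c) j := by
  unfold spR
  exact sp5_Rc_diag hc k hj (fun i h1 h2 =>
    ⟨sp5_exp_pos hm i h1 (by omega), sp5_exp_le hm i (by omega)⟩) ec_logcosh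

end Vale.Agent.P157.Par
end

section

/-! EX: comparison of exponents, semigroup property, dependence on the variance. -/

open MeasureTheory ProbabilityTheory Filter Topology Set

namespace Vale.Agent.P146.Gap

open Vale.Agent.P157.Par

section EX

variable {C g g' v v' : ℝ} {F G : ℝ → ℝ}

theorem ex_ec (h : Adm C F) : Ec F (iteratedDeriv 1 F) (iteratedDeriv 2 F) where
  d1 := fun x => by
    have h1 : Differentiable ℝ F := h.smb.smooth.differentiable (by simp)
    rw [iteratedDeriv_one]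
    exact (h1 x).hasDerivAt
  d2 := fun x => by
    have h1 : Differentiable ℝ (iteratedDeriv 1 F) :=
      h.smb.smooth.differentiable_iteratedDeriv 1 (by exact_mod_cast (WithTop.coe_lt_top _))
    have h2 : iteratedDeriv 2 F = deriv (iteratedDeriv 1 F) := iteratedDeriv_succ
    rw [h2]
    exact (h1 x).hasDerivAt
  cD := (h.smb.smooth.differentiable_iteratedDeriv 2
    (WithTop.coe_lt_coe.2 (ENat.natCast_lt_top 2))).continuous
  even := h.even
  D0 := fun x => (h.pos x).le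
  D1 := h.le1

theorem ex_gstep_d1 (h : Adm C F) (hg : 0 < g) (v : ℝ) :
    iteratedDeriv 1 (gstep g v F) = tlt g v F (iteratedDeriv 1 F) := by
  have h1 := (ex_ec h).sm.step hg v
  funext x
  rw [iteratedDeriv_one]
  exact (h1.d1 x).deriv

theorem ex_gstep_zero (hg : g ≠ 0) (F : ℝ → ℝ) : gstep g 0 F = F := by
  funext x
  unfold gstep
  simp only [Real.sqrt_zero, zero_mul, add_zero, integral_const, probReal_univ, one_smul,
    Real.log_exp]
  field_simp

/-- The two families of the interpolation. -/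
theorem ex_fam1 {M D : ℝ → ℝ} (h : Ec F M D) (hg : 0 < g) (s : ℝ) :
    Fam 0 s (fun t => gstep g (s + t * -1) F) (fun t => tlt g (s + t * -1) F M)
      (fun t x => tlt g (s + t * -1) F (fun y => D y + g * M y ^ 2) x -
        g * tlt g (s + t * -1) F M x ^ 2)
      (fun t => tlt g (s + t * -1) F (fun y => 0 + -1 / 2 * (D y + g * M y ^ 2))) :=
  (sp5_fam_const h 0 s).step (m := g) hg (v₀ := s) (d := -1) (fun t ht => by
    have h1 := ht.2
    linarith)

theorem ex_us {M D : ℝ → ℝ} (m m' v v' : ℝ) (t x : ℝ) : tlt m (v + t * 1) (gstep m' (v' + t * -1) F)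
      (fun y => tlt m' (v' + t * -1) F (fun y => 0 + -1 / 2 * (D y + m' * M y ^ 2)) y + 1 / 2 *
        ((tlt m' (v' + t * -1) F (fun y => D y + m' * M y ^ 2) y -
        m' * tlt m' (v' + t * -1) F M y ^ 2) + m * tlt m' (v' + t * -1) F M y ^ 2)) x =
      1 / 2 * (m - m') * tlt m (v + t * 1) (gstep m' (v' + t * -1) F)
        (fun y => tlt m' (v' + t * -1) F M y ^ 2) x := by
  rw [← tlt_const_mul]
  congr 1
  funext y
  have h1 : tlt m' (v' + t * -1) F (fun y => 0 + -1 / 2 * (D y + m' * M y ^ 2)) y =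
      -1 / 2 * tlt m' (v' + t * -1) F (fun y => D y + m' * M y ^ 2) y := by
    rw [← tlt_const_mul]
    congr 1
    funext y
    ring
  rw [h1]
  ring

/-- The interpolation between two exponents. -/
theorem ex_interp {M D : ℝ → ℝ} (h : Ec F M D) (hg : 0 < g) (hg' : 0 < g') {s : ℝ}
    (hs : 0 ≤ s) (hv : 0 ≤ v) (x : ℝ) :
    ContinuousOn (fun t => tlt g' (v + t) (gstep g (s - t) F)
      (fun y => tlt g (s - t) F M y ^ 2) x) (Icc 0 s) ∧
    gstep g' (v + s) F x - gstep g' v (gstep g s F) x =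
      1 / 2 * (g' - g) * ∫ t in (0 : ℝ)..s, tlt g' (v + t) (gstep g (s - t) F)
        (fun y => tlt g (s - t) F M y ^ 2) x := by
  have f1 := ex_fam1 h hg s
  have f2 := f1.step (m := g') hg' (v₀ := v) (d := 1) (fun t ht => by
    have h1 := ht.1
    linarith)
  obtain ⟨L, B, hL, hB, hsm⟩ := f1.sp2_sm
  have hc1 : ContinuousOn (fun t => tlt g' (v + t) (gstep g (s - t) F)
      (fun y => tlt g (s - t) F M y ^ 2) x) (Icc 0 s) := by
    have h1 := f1.tlt_cont (g := fun t y => tlt g (s + t * -1) F M y ^ 2) (f1.c1.pow 2)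
      (B := L ^ 2) (fun t ht y => by
        rw [abs_pow]
        exact pow_le_pow_left₀ (abs_nonneg _) ((hsm t ht).bM y) 2) g' v 1
    have h2 := h1.comp (f := fun t : ℝ => ((t, x) : ℝ × ℝ)) (s := Icc 0 s) (by fun_prop)
      (fun t ht => ⟨ht, mem_univ _⟩)
    refine h2.congr fun t ht => ?_
    simp only [Function.comp_def, mul_one, mul_neg, ← sub_eq_add_neg]
  refine ⟨hc1, ?_⟩
  have hc2 : ContinuousOn (fun t => gstep g' (v + t) (gstep g (s - t) F) x) (Icc 0 s) := by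
    have h2 := f2.c0.comp (f := fun t : ℝ => ((t, x) : ℝ × ℝ)) (s := Icc 0 s) (by fun_prop)
      (fun t ht => ⟨ht, mem_univ _⟩)
    refine h2.congr fun t ht => ?_
    simp only [Function.comp_def, mul_one, mul_neg, ← sub_eq_add_neg]
  have hd : ∀ t ∈ Ioo 0 s, HasDerivAt (fun t => gstep g' (v + t) (gstep g (s - t) F) x)
      (1 / 2 * (g' - g) * tlt g' (v + t) (gstep g (s - t) F)
        (fun y => tlt g (s - t) F M y ^ 2) x) t := by
    intro t ht
    have h1 := f2.ds t ht x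
    rw [ex_us] at h1
    simpa only [mul_one, mul_neg, ← sub_eq_add_neg] using h1
  have h3 := intervalIntegral.integral_eq_sub_of_hasDerivAt_of_le hs hc2 hd
    ((hc1.const_smul (1 / 2 * (g' - g))).intervalIntegrable_of_Icc hs)
  rw [intervalIntegral.integral_const_mul] at h3
  rw [h3, sub_self, ex_gstep_zero hg.ne', add_zero, sub_zero]

theorem gstep_add (h : Adm C F) (hg : 0 < g) (hv : 0 ≤ v) (hv' : 0 ≤ v') :
    gstep g v (gstep g v' F) = gstep g (v + v') F := by
  funext x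
  have h1 := (ex_interp (ex_ec h) hg hg hv' hv x).2
  rw [sub_self, mul_zero, zero_mul] at h1
  linarith

theorem gstep_diff (h : Adm C F) (hg : 0 < g) (hg1 : g ≤ 1) (hg' : 0 < g') (hg'1 : g' ≤ 1)
    (hv : 0 ≤ v) (x : ℝ) :
    gstep g' v F x - gstep g v F x =
      1 / 2 * (g' - g) * ∫ τ in (0 : ℝ)..v, tlt g' τ (gstep g (v - τ) F)
        (fun y => iteratedDeriv 1 (gstep g (v - τ) F) y ^ 2) x := by
  have h1 := (ex_interp (ex_ec h) hg hg' hv le_rfl x).2
  rw [ex_gstep_zero hg'.ne', zero_add] at h1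
  simp only [zero_add] at h1
  simp only [ex_gstep_d1 h hg]
  exact h1

theorem ex_tlt_mem (h : Adm C F) (hg : 0 < g) (hg1 : g ≤ 1) (s τ x : ℝ) :
    0 ≤ tlt g' τ (gstep g s F) (fun y => iteratedDeriv 1 (gstep g s F) y ^ 2) x ∧
    tlt g' τ (gstep g s F) (fun y => iteratedDeriv 1 (gstep g s F) y ^ 2) x ≤ 1 := by
  have h1 := (ex_ec h).step hg hg1 s
  rw [ex_gstep_d1 h hg]
  have hM := h1.sm.cont1
  have hb : ∀ y, |tlt g s F (iteratedDeriv 1 F) y ^ 2| ≤ 1 := fun y => by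
    rw [abs_pow]
    exact pow_le_one₀ (abs_nonneg _) (h1.abs_M y)
  have h2 := h1.sm.tlt_mono (g := fun _ => 0) (g' := fun y => tlt g s F (iteratedDeriv 1 F) y ^ 2)
    continuous_const (K := 0) (fun _ => by simp) (by fun_prop) hb (fun y => sq_nonneg _) g' τ x
  have h3 := h1.sm.tlt_mono (g := fun y => tlt g s F (iteratedDeriv 1 F) y ^ 2) (g' := fun _ => 1)
    (by fun_prop) hb continuous_const (K' := 1) (fun _ => by simp)
    (fun y => (le_abs_self _).trans (hb y)) g' τ x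
  rw [h1.sm.tlt_const] at h2 h3
  exact ⟨h2, h3⟩

theorem gstep_exp_mono (h : Adm C F) (hg : 0 < g) (hgg : g ≤ g') (hg'1 : g' ≤ 1)
    (hv : 0 ≤ v) (x : ℝ) : gstep g v F x ≤ gstep g' v F x := by
  have h1 := gstep_diff h hg (hgg.trans hg'1) (hg.trans_le hgg) hg'1 hv x
  have h2 : 0 ≤ ∫ τ in (0 : ℝ)..v, tlt g' τ (gstep g (v - τ) F)
        (fun y => iteratedDeriv 1 (gstep g (v - τ) F) y ^ 2) x :=
    intervalIntegral.integral_nonneg hv fun τ _ =>
      (ex_tlt_mem h hg (hgg.trans hg'1) (v - τ) τ x).1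
  have h3 : 0 ≤ 1 / 2 * (g' - g) := by linarith only [hgg]
  have h4 := mul_nonneg h3 h2
  linarith

theorem gstep_exp_lip (h : Adm C F) (hg : 0 < g) (hgg : g ≤ g') (hg'1 : g' ≤ 1)
    (hv : 0 ≤ v) (x : ℝ) : gstep g' v F x ≤ gstep g v F x + 1 / 2 * (g' - g) * v := by
  have h1 := gstep_diff h hg (hgg.trans hg'1) (hg.trans_le hgg) hg'1 hv x
  have hc := (ex_interp (ex_ec h) hg (hg.trans_le hgg) hv le_rfl x).1
  simp only [zero_add] at hc
  have h2 : (∫ τ in (0 : ℝ)..v, tlt g' τ (gstep g (v - τ) F)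
        (fun y => iteratedDeriv 1 (gstep g (v - τ) F) y ^ 2) x) ≤ ∫ τ in (0 : ℝ)..v, (1 : ℝ) := by
    refine intervalIntegral.integral_mono_on hv ?_ (by simp) fun τ _ =>
      (ex_tlt_mem h hg (hgg.trans hg'1) (v - τ) τ x).2
    simp only [ex_gstep_d1 h hg]
    exact hc.intervalIntegrable_of_Icc hv
  rw [intervalIntegral.integral_const, smul_eq_mul, mul_one, sub_zero] at h2
  have h3 : 0 ≤ 1 / 2 * (g' - g) := by linarith only [hgg]
  have h4 := mul_le_mul_of_nonneg_left h2 h3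
  linarith only [h4, h1]

theorem ex_nonexp_aux {M D M' D' : ℝ → ℝ} {c : ℝ} (hF : Ec F M D) (hG : Ec G M' D')
    (hg : 0 < g) (v : ℝ) (hFG : ∀ x, F x ≤ G x + c) (x : ℝ) :
    gstep g v F x ≤ gstep g v G x + c := by
  have h1 : ∫ z, Real.exp (g * F (x + √v * z)) ∂(gaussianReal 0 1) ≤
      Real.exp (g * c) * ∫ z, Real.exp (g * G (x + √v * z)) ∂(gaussianReal 0 1) := by
    rw [← integral_const_mul]
    refine integral_mono (hF.sm.integrable_exp g v x)
      ((hG.sm.integrable_exp g v x).const_mul _) fun z => ?_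
    simp only []
    rw [← Real.exp_add]
    refine Real.exp_le_exp.2 ?_
    have := mul_le_mul_of_nonneg_left (hFG (x + √v * z)) hg.le
    linarith
  have hp := hF.sm.int_exp_pos g v x
  have hq := hG.sm.int_exp_pos g v x
  have h2 := Real.log_le_log hp h1
  rw [Real.log_mul (Real.exp_pos _).ne' hq.ne', Real.log_exp] at h2
  unfold gstep
  have h3 := mul_le_mul_of_nonneg_left h2 (one_div_pos.2 hg).le
  have h4 : 1 / g * (g * c + Real.log (∫ z, Real.exp (g * G (x + √v * z)) ∂(gaussianReal 0 1))) =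
      1 / g * Real.log (∫ z, Real.exp (g * G (x + √v * z)) ∂(gaussianReal 0 1)) + c := by
    field_simp
    ring
  rw [h4] at h3
  exact h3

theorem gstep_nonexp {c : ℝ} (hF : Adm C F) {C' : ℝ} (hG : Adm C' G) (hg : 0 < g) (v : ℝ)
    (hFG : ∀ x, |F x - G x| ≤ c) (x : ℝ) : |gstep g v F x - gstep g v G x| ≤ c := by
  have h1 := ex_nonexp_aux (ex_ec hF) (ex_ec hG) hg v (c := c) (fun y => by
    have := (abs_le.1 (hFG y)).2
    linarith) x
  have h2 := ex_nonexp_aux (ex_ec hG) (ex_ec hF) hg v (c := c) (fun y => by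
    have := (abs_le.1 (hFG y)).1
    linarith) x
  rw [abs_le]
  constructor <;> linarith

theorem ex_var_lip {M D : ℝ → ℝ} (h : Ec F M D) (hg : 0 < g) (hg1 : g ≤ 1) (hv : 0 ≤ v)
    (hv' : v ≤ v') (x : ℝ) : |gstep g v' F x - gstep g v F x| ≤ 1 / 2 * (v' - v) := by
  have f1 := (sp5_fam_const h 0 (v' - v)).step (m := g) hg (v₀ := v) (d := 1) (fun t ht => by
    have h1 := ht.1
    linarith)
  have hM := h.sm.cont1
  have hD := h.cD
  have hK : ∀ y, |(0 : ℝ) + 1 / 2 * (D y + g * M y ^ 2)| ≤ 1 / 2 := fun y => by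
    have h1 := h.D0 y
    have h2 := h.D1 y
    have h3 := sq_nonneg (M y)
    have h4 : 0 ≤ g * M y ^ 2 := by positivity
    have h5 : g * M y ^ 2 ≤ M y ^ 2 := by (by_contra nlg; linarith only [nlg, mul_nonneg (sub_nonneg.2 hg1) (sub_nonneg.2 h4), mul_pos (sub_pos.2 (not_le.1 nlg)) (sub_pos.2 hg)])
    rw [abs_of_nonneg (by linarith only [h4, h1])]
    linarith only [h5, h2]
  have hc : ContinuousOn (fun t => gstep g (v + t * 1) F x) (Icc 0 (v' - v)) :=
    f1.c0.comp (f := fun t : ℝ => ((t, x) : ℝ × ℝ)) (by fun_prop)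
      (fun t ht => ⟨ht, mem_univ _⟩)
  rcases eq_or_lt_of_le hv' with he | hlt
  · rw [he, sub_self, sub_self, abs_zero, mul_zero]
  · have hdiff : ∀ t ∈ Ioo 0 (v' - v), HasDerivAt (fun t => gstep g (v + t * 1) F x)
      (tlt g (v + t * 1) F (fun y => 0 + 1 / 2 * (D y + g * M y ^ 2)) x) t :=
      fun t ht => f1.ds t ht x
    obtain ⟨t, ht, hteq⟩ := exists_hasDerivAt_eq_slope _ _ (sub_pos.2 hlt) hc hdiff
    have h3 := h.sm.abs_tlt_le (g := fun y => 0 + 1 / 2 * (D y + g * M y ^ 2)) (by fun_prop) hK g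
      (v + t * 1) x
    rw [hteq, abs_div, sub_zero, abs_of_pos (sub_pos.2 hlt), div_le_iff₀ (sub_pos.2 hlt)] at h3
    have e1 : v + (v' - v) * 1 = v' := by ring
    have e2 : v + 0 * 1 = v := by ring
    rw [e1, e2] at h3
    exact h3

theorem gstep_var_lip (h : Adm C F) (hg : 0 < g) (hg1 : g ≤ 1) (hv : 0 ≤ v) (hv' : 0 ≤ v')
    (x : ℝ) : |gstep g v F x - gstep g v' F x| ≤ 1 / 2 * |v - v'| := by
  rcases le_total v v' with hle | hle
  · rw [abs_sub_comm, abs_sub_comm v v', abs_of_nonneg (sub_nonneg.2 hle)]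
    exact ex_var_lip (ex_ec h) hg hg1 hv hle x
  · rw [abs_of_nonneg (sub_nonneg.2 hle)]
    exact ex_var_lip (ex_ec h) hg hg1 hv' hle x

theorem gstep_le_mean (h : Adm C F) (hg : 0 < g) (hg1 : g ≤ 1) (hv : 0 ≤ v) (x : ℝ) :
    gstep g v F x ≤ ∫ z, F (x + √v * z) ∂(gaussianReal 0 1) + 1 / 2 * g * v := by
  have hE := ex_ec h
  set M := iteratedDeriv 1 F with hM
  set D := iteratedDeriv 2 F with hD
  have f1 := ex_fam1 hE hg v
  obtain ⟨L, B, hL, hB, hsm⟩ := f1.sp2_sm
  obtain ⟨Bs, hBs⟩ := f1.bs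
  have hder : ∀ t ∈ Ioo 0 v, HasDerivAt
      (fun t => ∫ z, gstep g (v + t * -1) F (x + √(0 + t * 1) * z) ∂(gaussianReal 0 1)) _ t :=
    fun t ht => sp2_deriv f1.d1 f1.d2 f1.ds f1.c0 f1.c1 f1.c2 f1.cs f1.sp2_ebd
      (sp2_EB_of_bdd fun s hs => (hsm s hs).bM) (sp2_EB_of_bdd fun s hs => (hsm s hs).bD)
      (sp2_EB_of_bdd hBs) (v₀ := 0) (d := 1) (fun s hs => by linarith [hs.1]) ht x
  have hcont : ContinuousOn (fun t => ∫ z, gstep g (v + t * -1) F (x + √(0 + t * 1) * z)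
      ∂(gaussianReal 0 1)) (Icc 0 v) := by
    have h1 := sp2_cont subset_rfl f1.c0 f1.sp2_ebd 0 1
    exact h1.comp (f := fun s : ℝ => ((s, x) : ℝ × ℝ)) (s := Icc 0 v) (by fun_prop)
      (fun s hs => ⟨hs, mem_univ _⟩)
  rcases hv.eq_or_lt with h0 | h0
  · rw [← h0, ex_gstep_zero hg.ne']
    simp
  · obtain ⟨t, ht, hteq⟩ := exists_hasDerivAt_eq_slope _ _ h0 hcont hder
    have e0 : (fun z => gstep g (v + 0 * -1) F (x + √(0 + 0 * 1) * z)) = fun _ => gstep g v F x := by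
      funext z
      simp
    have e1 : (fun z => gstep g (v + v * -1) F (x + √(0 + v * 1) * z)) =
        fun z => F (x + √v * z) := by
      funext z
      have : v + v * -1 = 0 := by ring
      rw [this, ex_gstep_zero hg.ne', zero_add, mul_one]
    rw [e0, e1] at hteq
    simp only [integral_const, probReal_univ, one_smul, sub_zero] at hteq
    have hE2 := hE.step hg hg1 (v + t * -1)
    have h5 : -(1 / 2 * g) ≤ ∫ z, (tlt g (v + t * -1) F (fun y => 0 + -1 / 2 * (D y + g * M y ^ 2))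
        (x + √(0 + t * 1) * z) + 1 / 2 * (tlt g (v + t * -1) F (fun y => D y + g * M y ^ 2)
        (x + √(0 + t * 1) * z) - g * tlt g (v + t * -1) F M (x + √(0 + t * 1) * z) ^ 2))
        ∂(gaussianReal 0 1) := by
      have h6 : ∀ y, tlt g (v + t * -1) F (fun y => 0 + -1 / 2 * (D y + g * M y ^ 2)) y +
          1 / 2 * (tlt g (v + t * -1) F (fun y => D y + g * M y ^ 2) y -
            g * tlt g (v + t * -1) F M y ^ 2) = -(1 / 2 * g) * tlt g (v + t * -1) F M y ^ 2 := by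
        intro y
        have h1 : tlt g (v + t * -1) F (fun y => 0 + -1 / 2 * (D y + g * M y ^ 2)) y =
            -1 / 2 * tlt g (v + t * -1) F (fun y => D y + g * M y ^ 2) y := by
          rw [← tlt_const_mul]
          congr 1
          funext y
          ring
        rw [h1]
        ring
      simp only [h6]
      have h7 : ∀ y, tlt g (v + t * -1) F M y ^ 2 ≤ 1 := fun y => by
        have h8 := hE2.abs_M y
        exact (sq_le_one_iff_abs_le_one _).2 h8
      have h9 : ∫ _z : ℝ, -(1 / 2 * g) ∂(gaussianReal 0 1) = -(1 / 2 * g) := by simp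
      have hcM := hE2.sm.cont1
      refine h9.symm.trans_le (integral_mono (integrable_const _) ?_ fun z => ?_)
      · refine Integrable.mono' (integrable_const (1 / 2 * g)) (by fun_prop : Continuous fun z =>
          -(1 / 2 * g) * tlt g (v + t * -1) F M (x + √(0 + t * 1) * z) ^ 2).aestronglyMeasurable
          (ae_of_all _ fun z => ?_)
        rw [Real.norm_eq_abs, abs_mul, abs_neg, abs_of_pos (by positivity : 0 < 1 / 2 * g),
          abs_of_nonneg (sq_nonneg _)]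
        nlinarith [h7 (x + √(0 + t * 1) * z)]
      · have := h7 (x + √(0 + t * 1) * z)
        simp only []
        nlinarith
    rw [hteq, le_div_iff₀ h0] at h5
    linarith

end EX

end Vale.Agent.P146.Gap
end

section

/-! ADM: the admissible class is preserved by one Parisi step; bounds for the third and the fourth
derivative. -/

open MeasureTheory ProbabilityTheory Filter Topology Set

namespace Vale.Agent.P146.Gap

open Vale.Agent.P157.Par

variable {C g : ℝ} {F : ℝ → ℝ}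

theorem adm_hasD (h : ContDiff ℝ (⊤ : ℕ∞) F) (j : ℕ) (x : ℝ) :
    HasDerivAt (iteratedDeriv j F) (iteratedDeriv (j + 1) F x) x := by
  rw [iteratedDeriv_succ]
  exact ((h.differentiable_iteratedDeriv j (by exact_mod_cast WithTop.coe_lt_top j)) x).hasDerivAt

theorem adm_cont (h : ContDiff ℝ (⊤ : ℕ∞) F) (j : ℕ) : Continuous (iteratedDeriv j F) :=
  continuous_iff_continuousAt.2 fun x => (adm_hasD h j x).continuousAt

theorem adm_it1 {G M : ℝ → ℝ} (h : ∀ x, HasDerivAt G (M x) x) : iteratedDeriv 1 G = M := by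
  rw [iteratedDeriv_one]
  funext x
  exact (h x).deriv

theorem adm_its {G M D : ℝ → ℝ} {j : ℕ} (h : iteratedDeriv j G = M)
    (h' : ∀ x, HasDerivAt M (D x) x) : iteratedDeriv (j + 1) G = D := by
  rw [iteratedDeriv_succ, h]
  funext x
  exact (h' x).deriv

theorem adm_ec (h : Adm C F) : Ec F (iteratedDeriv 1 F) (iteratedDeriv 2 F) where
  d1 := fun x => by
    have := adm_hasD h.smb.smooth 0 x
    rwa [iteratedDeriv_zero] at this
  d2 := fun x => adm_hasD h.smb.smooth 1 x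
  cD := adm_cont h.smb.smooth 2
  even := h.even
  D0 := fun x => (h.pos x).le
  D1 := h.le1

theorem adm_tlt_pos {L B : ℝ} {F M D : ℝ → ℝ} (h : Sm L B F M D) {q : ℝ → ℝ} (hq : Continuous q)
    {K : ℝ} (hK : ∀ x, |q x| ≤ K) (hpos : ∀ x, 0 < q x) (m v x : ℝ) : 0 < tlt m v F q x := by
  unfold tlt
  refine div_pos ?_ (h.int_exp_pos m v x)
  rw [integral_pos_iff_support_of_nonneg
    (fun z => (mul_pos (hpos _) (Real.exp_pos _)).le) (h.integrable hq hK m v x)]
  have h1 : Function.support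
      (fun z => q (x + √v * z) * Real.exp (m * F (x + √v * z))) = univ := by
    ext z
    simp [(hpos _).ne']
  rw [h1]
  simp

theorem adm_fj1 (h : Adm C F) (hg : 0 < g) (hg1 : g ≤ 1) (s x : ℝ) :
    fj g F 1 s x = tlt g s F (iteratedDeriv 1 F) x := by
  have h1 := (adm_ec h).step hg hg1 s
  unfold fj
  rw [adm_it1 h1.d1]

theorem adm_fj2 (h : Adm C F) (hg : 0 < g) (hg1 : g ≤ 1) (s x : ℝ) :
    fj g F 2 s x = tlt g s F (fun y => iteratedDeriv 2 F y + g * iteratedDeriv 1 F y ^ 2) x -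
      g * tlt g s F (iteratedDeriv 1 F) x ^ 2 := by
  have h1 := (adm_ec h).step hg hg1 s
  unfold fj
  rw [adm_its (adm_it1 h1.d1) h1.d2]

theorem adm_fj2_le (h : Adm C F) (hg : 0 < g) (hg1 : g ≤ 1) (s x : ℝ) :
    fj g F 2 s x + fj g F 1 s x ^ 2 ≤ 1 := by
  rw [adm_fj1 h hg hg1, adm_fj2 h hg hg1]
  exact ((adm_ec h).step hg hg1 s).D1 x

theorem adm_fj2_pos (h : Adm C F) (hg : 0 < g) (hg1 : g ≤ 1) (s x : ℝ) : 0 < fj g F 2 s x := by
  rw [adm_fj2 h hg hg1]
  have he := adm_ec h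
  have hsm := he.sm
  have hc1 := hsm.cont1
  have hK1 : ∀ x, |iteratedDeriv 1 F x| ≤ 1 := he.abs_M
  have hK2 : ∀ x, |iteratedDeriv 2 F x| ≤ 1 := hsm.bD
  have hc1' : Continuous fun y => iteratedDeriv 1 F y ^ 2 := hc1.pow 2
  have hK1' : ∀ x, |iteratedDeriv 1 F x ^ 2| ≤ 1 := fun x => by
    rw [abs_pow]
    exact pow_le_one₀ (abs_nonneg _) (hK1 x)
  have hK1'' : ∀ x, |g * iteratedDeriv 1 F x ^ 2| ≤ g * 1 := fun x => by
    rw [abs_mul, abs_of_pos hg]
    exact mul_le_mul_of_nonneg_left (hK1' x) hg.le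
  have hgc : Continuous fun y => g * iteratedDeriv 1 F y ^ 2 := continuous_const.mul hc1'
  rw [hsm.tlt_add he.cD hK2 hgc hK1'' g s x,
    tlt_const_mul g s g F (fun y => iteratedDeriv 1 F y ^ 2) x]
  have h1 := adm_tlt_pos hsm he.cD hK2 h.pos g s x
  have h2 := hsm.tlt_sq_le hc1 hK1 g s x
  nlinarith

/-- The comparison used for the third and the fourth derivative. -/
theorem adm_flow (h : SmB F) (hg : 0 < g) {S : ℝ} (hS : 0 < S) {j : ℕ} {κ σ Λ : ℝ}
    {E : ℝ → ℝ → ℝ} {lam lam' : ℝ → ℝ} (hκ : 0 ≤ κ)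
    (hlam : ∀ s, HasDerivAt lam (lam' s) s) (hΛ : ∀ s ∈ Icc 0 S, |lam s| ≤ Λ)
    (hE : ∀ s ∈ Ioo 0 S, ∀ x, HasDerivAt (fun s => fj g F (j + 1) s x)
      (1 / 2 * fj g F (j + 3) s x + g * (κ * fj g F 2 s x * fj g F (j + 1) s x
        + fj g F 1 s x * fj g F (j + 2) s x + E s x)) s)
    (hineq : ∀ s ∈ Ioo 0 S, ∀ x, σ * (g * E s x) ≤
      fj g F 2 s x * (lam' s - (κ - 1) * g * fj g F 2 s x * lam s))
    (h0 : ∀ x, σ * fj g F (j + 1) 0 x ≤ lam 0 * fj g F 2 0 x) :
    ∀ s ∈ Icc 0 S, ∀ x, σ * fj g F (j + 1) s x ≤ lam s * fj g F 2 s x := by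
  obtain ⟨C1, hC1⟩ := fj_bd h hg 0
  obtain ⟨C2, hC2⟩ := fj_bd h hg 1
  obtain ⟨C3, hC3⟩ := fj_bd h hg j
  simp only [zero_add, Nat.reduceAdd] at hC1 hC2
  have hC1' : 0 ≤ C1 := (abs_nonneg _).trans (hC1 0 0)
  have hC2' : 0 ≤ C2 := (abs_nonneg _).trans (hC2 0 0)
  have hC3' : 0 ≤ C3 := (abs_nonneg _).trans (hC3 0 0)
  have hΛ' : 0 ≤ Λ := (abs_nonneg _).trans (hΛ 0 ⟨le_rfl, hS.le⟩)
  have hlc : Continuous lam := continuous_iff_continuousAt.2 fun s => (hlam s).continuousAt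
  have hmain := maxp_line (S := S) (B := (Λ * C2 + |σ| * C3) + g * C1 + κ * g * C2)
    (w := fun s x => lam s * fj g F 2 s x - σ * fj g F (j + 1) s x)
    (ws := fun s x => (lam' s * fj g F 2 s x + lam s * (1 / 2 * fj g F 4 s x +
      g * (fj g F 2 s x ^ 2 + fj g F 1 s x * fj g F 3 s x))) -
      σ * (1 / 2 * fj g F (j + 3) s x + g * (κ * fj g F 2 s x * fj g F (j + 1) s x
        + fj g F 1 s x * fj g F (j + 2) s x + E s x)))
    (wx := fun s x => lam s * fj g F 3 s x - σ * fj g F (j + 2) s x)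
    (wxx := fun s x => lam s * fj g F 4 s x - σ * fj g F (j + 3) s x)
    (b := fun s x => g * fj g F 1 s x) (c := fun s x => κ * g * fj g F 2 s x) hS
    ?_ ?_ ?_ ?_ ?_ ?_ ?_ ?_ ?_
  · intro s hs x
    exact sub_nonneg.1 (hmain s hs x)
  · exact (((hlc.comp continuous_fst).mul (fj_cont h hg 2)).sub
      (continuous_const.mul (fj_cont h hg (j + 1)))).continuousOn
  · intro s hs x
    have h1 : |lam s * fj g F 2 s x| ≤ Λ * C2 := by
      rw [abs_mul]
      exact mul_le_mul (hΛ s hs) (hC2 s x) (abs_nonneg _) hΛ'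
    have h2 : |σ * fj g F (j + 1) s x| ≤ |σ| * C3 := by
      rw [abs_mul]
      exact mul_le_mul_of_nonneg_left (hC3 s x) (abs_nonneg _)
    have h3 := abs_sub (lam s * fj g F 2 s x) (σ * fj g F (j + 1) s x)
    have h4 : 0 ≤ g * C1 := by positivity
    have h5 : 0 ≤ κ * g * C2 := by (clear * - hκ hg hC2'; positivity)
    linarith
  · intro s hs x
    exact ((hlam s).mul (fj_s2 h hg hs.1 x)).sub ((hE s hs x).const_mul σ)
  · intro s _ x
    exact ((fj_x h hg 2 s x).const_mul (lam s)).sub ((fj_x h hg (j + 1) s x).const_mul σ)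
  · intro s _ x
    exact ((fj_x h hg 3 s x).const_mul (lam s)).sub ((fj_x h hg (j + 2) s x).const_mul σ)
  · intro s _ x
    have h1 : |g * fj g F 1 s x| ≤ g * C1 := by
      rw [abs_mul, abs_of_pos hg]
      exact mul_le_mul_of_nonneg_left (hC1 s x) hg.le
    have h4 : 0 ≤ Λ * C2 + |σ| * C3 := by (clear * - hΛ' hC2' hC3'; positivity)
    have h5 : 0 ≤ κ * g * C2 := by (clear * - hκ hg hC2'; positivity)
    linarith
  · intro s _ x
    have h1 : κ * g * fj g F 2 s x ≤ κ * g * C2 :=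
      mul_le_mul_of_nonneg_left ((le_abs_self _).trans (hC2 s x)) (by positivity)
    have h4 : 0 ≤ Λ * C2 + |σ| * C3 := by (clear * - hΛ' hC2' hC3'; positivity)
    have h5 : 0 ≤ g * C1 := by positivity
    linarith
  · intro s hs x
    have h1 := hineq s hs x
    refine sub_nonneg.1 ?_
    have h2 : (lam' s * fj g F 2 s x + lam s * (1 / 2 * fj g F 4 s x +
      g * (fj g F 2 s x ^ 2 + fj g F 1 s x * fj g F 3 s x))) -
      σ * (1 / 2 * fj g F (j + 3) s x + g * (κ * fj g F 2 s x * fj g F (j + 1) s x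
        + fj g F 1 s x * fj g F (j + 2) s x + E s x)) -
      (1 / 2 * (lam s * fj g F 4 s x - σ * fj g F (j + 3) s x) +
        g * fj g F 1 s x * (lam s * fj g F 3 s x - σ * fj g F (j + 2) s x) +
        κ * g * fj g F 2 s x * (lam s * fj g F 2 s x - σ * fj g F (j + 1) s x)) =
      fj g F 2 s x * (lam' s - (κ - 1) * g * fj g F 2 s x * lam s) - σ * (g * E s x) := by ring
    rw [h2]
    linarith only [h1]
  · intro x
    exact sub_nonneg.2 (h0 x)

/-! ### The function `log cosh` -/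

theorem adm_lc_it1 : iteratedDeriv 1 lc = Real.tanh := adm_it1 ec_logcosh.d1

theorem adm_lc_it2 : iteratedDeriv 2 lc = fun x => 1 - Real.tanh x ^ 2 :=
  adm_its adm_lc_it1 ec_logcosh.d2

theorem adm_lc_poly (j : ℕ) : ∃ P : Polynomial ℝ, iteratedDeriv (j + 1) lc =
    fun x => P.eval (Real.tanh x) := by
  induction j with
  | zero => exact ⟨Polynomial.X, by rw [zero_add, adm_lc_it1]; simp⟩
  | succ j ih =>
    obtain ⟨P, hP⟩ := ih
    refine ⟨P.derivative * (1 - Polynomial.X ^ 2), ?_⟩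
    refine adm_its hP fun x => ?_
    refine ((P.hasDerivAt (Real.tanh x)).comp x (ec_logcosh.d2 x)).congr_deriv ?_
    simp

theorem adm_tanh_sq (x : ℝ) : 0 < 1 - Real.tanh x ^ 2 := by
  have h1 := Real.cosh_sq x
  have h2 := Real.cosh_pos x
  rw [Real.tanh_eq_sinh_div_cosh, div_pow, sub_pos, div_lt_one (by positivity)]
  linarith

theorem adm_lc_it3 : iteratedDeriv 3 lc =
    fun x => -2 * Real.tanh x * (1 - Real.tanh x ^ 2) := by
  refine adm_its adm_lc_it2 fun x => ?_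
  refine (((ec_logcosh.d2 x).pow 2).const_sub 1).congr_deriv ?_
  simp only [Nat.cast_ofNat, Nat.add_one_sub_one, pow_one]
  ring

theorem adm_lc_it4 : iteratedDeriv 4 lc =
    fun x => (1 - Real.tanh x ^ 2) * (6 * Real.tanh x ^ 2 - 2) := by
  refine adm_its adm_lc_it3 fun x => ?_
  have h1 := ec_logcosh.d2 x
  refine ((h1.const_mul (-2)).mul ((h1.pow 2).const_sub 1)).congr_deriv ?_
  simp only [Nat.cast_ofNat, Nat.add_one_sub_one, pow_one, Pi.pow_apply]
  ring

theorem adm_lc_smb : SmB lc where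
  smooth := by
    unfold lc
    exact Real.contDiff_cosh.log fun x => (Real.cosh_pos x).ne'
  bd := fun j => by
    obtain ⟨P, hP⟩ := adm_lc_poly j
    obtain ⟨K, hK⟩ := (isCompact_Icc (a := (-1 : ℝ)) (b := 1)).exists_bound_of_continuousOn
      (f := fun t => P.eval t) P.continuous.continuousOn
    refine ⟨K, fun x => ?_⟩
    rw [hP, ← Real.norm_eq_abs]
    exact hK _ (abs_le.1 (ec_logcosh.abs_M x))

theorem adm_lc : Adm 2 lc where
  smb := adm_lc_smb
  even := fun x => by simp [lc, Real.cosh_neg]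
  pos := fun x => by
    rw [adm_lc_it2]
    exact adm_tanh_sq x
  le1 := fun x => by
    rw [adm_lc_it2, adm_lc_it1]
    simp
  r3 := fun x => by
    rw [adm_lc_it2, adm_lc_it3]
    have h1 := adm_tanh_sq x
    have h2 : |Real.tanh x| ≤ 1 := ec_logcosh.abs_M x
    simp only [abs_mul, abs_neg, abs_of_pos h1, Nat.abs_ofNat]
    nlinarith
  r4 := ⟨4, fun x => by
    rw [adm_lc_it2, adm_lc_it4]
    have h1 := adm_tanh_sq x
    have h2 : |6 * Real.tanh x ^ 2 - 2| ≤ 4 := by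
      rw [abs_le]
      constructor <;> nlinarith [sq_nonneg (Real.tanh x)]
    simp only [abs_mul, abs_of_pos h1]
    nlinarith⟩

theorem Adm.C_nonneg (h : Adm C F) : 0 ≤ C := by
  have h1 := (abs_nonneg _).trans (h.r3 0)
  exact nonneg_of_mul_nonneg_left h1 (h.pos 0)

theorem Adm.mono_C {C' : ℝ} (h : Adm C F) (hC : C ≤ C') : Adm C' F where
  smb := h.smb
  even := h.even
  pos := h.pos
  le1 := h.le1
  r3 := fun x => (h.r3 x).trans (mul_le_mul_of_nonneg_right hC (h.pos x).le)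
  r4 := h.r4

/-- The third derivative along the step. -/
theorem adm_r3_unif (h : Adm C F) (hg : 0 < g) (hg1 : g ≤ 1) {S : ℝ} (hS : 0 < S) :
    ∀ s ∈ Icc 0 S, ∀ x, |fj g F 3 s x| ≤ C * Real.exp (2 * g * s) * fj g F 2 s x := by
  have hC := h.C_nonneg
  have key : ∀ σ : ℝ, σ = 1 ∨ σ = -1 → ∀ s ∈ Icc 0 S, ∀ x,
      σ * fj g F 3 s x ≤ C * Real.exp (2 * g * s) * fj g F 2 s x := by
    intro σ hσ
    refine adm_flow (j := 2) (κ := 3) (σ := σ) (Λ := C * Real.exp (2 * g * S))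
      (E := fun _ _ => 0) (lam := fun s => C * Real.exp (2 * g * s))
      (lam' := fun s => 2 * g * (C * Real.exp (2 * g * s))) h.smb hg hS (by norm_num) ?_ ?_ ?_ ?_ ?_
    · intro s
      have h1 : HasDerivAt (fun s : ℝ => 2 * g * s) (2 * g) s := by
        simpa using (hasDerivAt_id s).const_mul (2 * g)
      refine (h1.exp.const_mul C).congr_deriv ?_
      ring
    · intro s hs
      rw [abs_of_nonneg (by positivity)]
      refine mul_le_mul_of_nonneg_left (Real.exp_le_exp.2 ?_) hC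
      exact mul_le_mul_of_nonneg_left hs.2 (by positivity)
    · intro s hs x
      refine (fj_s3 h.smb hg hs.1 x).congr_deriv ?_
      ring
    · intro s _ x
      have h1 := adm_fj2_pos h hg hg1 s x
      have h2 := adm_fj2_le h hg hg1 s x
      have h3 : fj g F 2 s x ≤ 1 := by linarith only [sq_nonneg (fj g F 1 s x), h2]
      have h4 : 0 ≤ C * Real.exp (2 * g * s) := by positivity
      have h5 : fj g F 2 s x * (2 * g * (C * Real.exp (2 * g * s)) -
          (3 - 1) * g * fj g F 2 s x * (C * Real.exp (2 * g * s))) =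
          2 * g * fj g F 2 s x * (C * Real.exp (2 * g * s)) * (1 - fj g F 2 s x) := by ring
      rw [h5]
      have h6 : 0 ≤ 1 - fj g F 2 s x := by linarith
      have h7 : 0 ≤ 2 * g * fj g F 2 s x * (C * Real.exp (2 * g * s)) * (1 - fj g F 2 s x) := by
        (clear * - hg h1 hC h3; positivity)
      simpa using h7
    · intro x
      rw [fj_zero hg.ne', fj_zero hg.ne']
      have h1 := abs_le.1 (h.r3 x)
      simp only [mul_zero, Real.exp_zero, mul_one]
      rcases hσ with rfl | rfl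
      · linarith [h1.2]
      · linarith [h1.1]
  intro s hs x
  rw [abs_le]
  have h1 := key 1 (Or.inl rfl) s hs x
  have h2 := key (-1) (Or.inr rfl) s hs x
  constructor <;> linarith

/-- The bounds uniform along the step. -/
theorem Adm.r4_unif (h : Adm C F) (hg : 0 < g) (hg1 : g ≤ 1) (S : ℝ) :
    ∃ C' : ℝ, ∀ s ∈ Icc 0 S, ∀ x, |fj g F 4 s x| ≤ C' * fj g F 2 s x := by
  obtain ⟨S', hS', hSS'⟩ : ∃ S' : ℝ, 0 < S' ∧ S ≤ S' := ⟨max S 1, by positivity, le_max_left _ _⟩
  obtain ⟨C₄, hC₄⟩ := h.r4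
  have hC := h.C_nonneg
  obtain ⟨R, hR⟩ : ∃ R : ℝ, R = C * Real.exp (2 * g * S') := ⟨_, rfl⟩
  have hR0 : 0 ≤ R := by rw [hR]; positivity
  obtain ⟨A, hA⟩ : ∃ A : ℝ, A = |C₄| + 3 * R ^ 2 := ⟨_, rfl⟩
  have hA0 : 0 ≤ A := by rw [hA]; (clear * -; positivity)
  have h3 : ∀ s ∈ Icc 0 S', ∀ x, |fj g F 3 s x| ≤ R * fj g F 2 s x := by
    intro s hs x
    refine (adm_r3_unif h hg hg1 hS' s hs x).trans
      (mul_le_mul_of_nonneg_right ?_ (adm_fj2_pos h hg hg1 s x).le)
    rw [hR]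
    refine mul_le_mul_of_nonneg_left (Real.exp_le_exp.2 ?_) hC
    exact mul_le_mul_of_nonneg_left hs.2 (by positivity)
  have key : ∀ σ : ℝ, σ = 1 ∨ σ = -1 → ∀ s ∈ Icc 0 S', ∀ x,
      σ * fj g F 4 s x ≤ A * Real.exp (4 * s) * fj g F 2 s x := by
    intro σ hσ
    refine adm_flow (j := 3) (κ := 4) (σ := σ) (Λ := A * Real.exp (4 * S'))
      (E := fun s x => 3 * fj g F 3 s x ^ 2) (lam := fun s => A * Real.exp (4 * s))
      (lam' := fun s => 4 * (A * Real.exp (4 * s))) h.smb hg hS' (by norm_num) ?_ ?_ ?_ ?_ ?_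
    · intro s
      have h1 : HasDerivAt (fun s : ℝ => 4 * s) 4 s := by
        simpa using (hasDerivAt_id s).const_mul 4
      refine (h1.exp.const_mul A).congr_deriv ?_
      ring
    · intro s hs
      rw [abs_of_nonneg (by positivity)]
      refine mul_le_mul_of_nonneg_left (Real.exp_le_exp.2 ?_) hA0
      linarith [hs.2]
    · intro s hs x
      refine (fj_s4 h.smb hg hs.1 x).congr_deriv ?_
      ring
    · intro s hs x
      have h1 := adm_fj2_pos h hg hg1 s x
      have h2 := adm_fj2_le h hg hg1 s x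
      have h4 : fj g F 2 s x ≤ 1 := by linarith only [sq_nonneg (fj g F 1 s x), h2]
      have h5 : fj g F 3 s x ^ 2 ≤ R ^ 2 * fj g F 2 s x := by
        have h6 := h3 s ⟨hs.1.le, hs.2.le⟩ x
        have h7 : fj g F 3 s x ^ 2 ≤ (R * fj g F 2 s x) ^ 2 :=
          sq_le_sq' (by linarith [(abs_le.1 h6).1]) (abs_le.1 h6).2
        have h8 : (R * fj g F 2 s x) ^ 2 = R ^ 2 * (fj g F 2 s x * fj g F 2 s x) := by ring
        rw [h8] at h7
        refine h7.trans (mul_le_mul_of_nonneg_left ?_ (sq_nonneg R))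
        exact mul_le_of_le_one_left h1.le h4
      have h6 : A ≤ A * Real.exp (4 * s) :=
        le_mul_of_one_le_right hA0 (Real.one_le_exp (by linarith [hs.1]))
      have h7 : 3 * R ^ 2 ≤ A * Real.exp (4 * s) := by
        refine le_trans ?_ h6
        rw [hA]
        linarith [abs_nonneg C₄]
      have h8 : σ * (g * (3 * fj g F 3 s x ^ 2)) ≤ 3 * R ^ 2 * fj g F 2 s x := by
        have h9 : 0 ≤ g * (3 * fj g F 3 s x ^ 2) := by (clear * - hg; positivity)
        have h10 : σ * (g * (3 * fj g F 3 s x ^ 2)) ≤ g * (3 * fj g F 3 s x ^ 2) := by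
          rcases hσ with rfl | rfl <;> linarith
        have h11 : g * (3 * fj g F 3 s x ^ 2) ≤ 1 * (3 * fj g F 3 s x ^ 2) :=
          mul_le_mul_of_nonneg_right hg1 (by (clear * -; positivity))
        linarith only [h11, h10, h5]
      have h9 : 3 * R ^ 2 * fj g F 2 s x ≤ A * Real.exp (4 * s) * fj g F 2 s x :=
        mul_le_mul_of_nonneg_right h7 h1.le
      have h10 : fj g F 2 s x * (4 * (A * Real.exp (4 * s)) -
          (4 - 1) * g * fj g F 2 s x * (A * Real.exp (4 * s))) =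
          A * Real.exp (4 * s) * fj g F 2 s x +
            3 * (A * Real.exp (4 * s) * fj g F 2 s x) * (1 - g * fj g F 2 s x) := by ring
      have h11 : 0 ≤ 1 - g * fj g F 2 s x := by
        have : g * fj g F 2 s x ≤ 1 * 1 := mul_le_mul hg1 h4 h1.le zero_le_one
        linarith
      have h12 : 0 ≤ 3 * (A * Real.exp (4 * s) * fj g F 2 s x) * (1 - g * fj g F 2 s x) := by
        (clear * - hA0 h1 h11; positivity)
      rw [h10]
      linarith only [h12, h9, h8]
    · intro x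
      rw [fj_zero hg.ne', fj_zero hg.ne']
      have h1 := abs_le.1 (hC₄ x)
      have h2 : C₄ * iteratedDeriv 2 F x ≤ A * iteratedDeriv 2 F x := by
        refine mul_le_mul_of_nonneg_right ?_ (h.pos x).le
        rw [hA]
        have h4 := le_abs_self C₄
        have h5 := sq_nonneg R
        linarith only [h5, h4]
      simp only [mul_zero, Real.exp_zero, mul_one]
      rcases hσ with rfl | rfl
      · linarith [h1.2]
      · linarith [h1.1]
  refine ⟨A * Real.exp (4 * S'), fun s hs x => ?_⟩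
  have hs' : s ∈ Icc 0 S' := ⟨hs.1, hs.2.trans hSS'⟩
  have h1 := key 1 (Or.inl rfl) s hs' x
  have h2 := key (-1) (Or.inr rfl) s hs' x
  have h4 : A * Real.exp (4 * s) * fj g F 2 s x ≤ A * Real.exp (4 * S') * fj g F 2 s x := by
    refine mul_le_mul_of_nonneg_right (mul_le_mul_of_nonneg_left (Real.exp_le_exp.2 ?_) hA0)
      (adm_fj2_pos h hg hg1 s x).le
    linarith [hs'.2]
  rw [abs_le]
  constructor <;> linarith

theorem Adm.step (h : Adm C F) (hg : 0 < g) (hg1 : g ≤ 1) {s : ℝ} (hs : 0 ≤ s) :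
    Adm (C * Real.exp (2 * g * s)) (gstep g s F) where
  smb := smB_gstep h.smb hg s
  even := ((adm_ec h).step hg hg1 s).even
  pos := fun x => adm_fj2_pos h hg hg1 s x
  le1 := fun x => adm_fj2_le h hg hg1 s x
  r3 := fun x => by
    rcases hs.eq_or_lt with rfl | hs'
    · rw [gstep_zero hg.ne']
      simpa using h.r3 x
    · exact adm_r3_unif h hg hg1 hs' s ⟨hs, le_rfl⟩ x
  r4 := by
    obtain ⟨C', hC'⟩ := h.r4_unif hg hg1 s
    exact ⟨C', fun x => hC' s ⟨hs, le_rfl⟩ x⟩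

end Vale.Agent.P146.Gap
end

section

/-! # P146 / Gap: `β ≥ 0` is preserved by the Parisi flow (section BETA of the skeleton) -/

open MeasureTheory ProbabilityTheory Filter Topology Set

namespace Vale.Agent.P146.Gap

open Vale.Agent.P157.Par

variable {C g : ℝ} {F : ℝ → ℝ}

/-- `β''`. -/
noncomputable def beta_pp (g : ℝ) (F : ℝ → ℝ) (x : ℝ) : ℝ :=
  -(iteratedDeriv 6 F x / iteratedDeriv 2 F x)
    + (iteratedDeriv 5 F x * iteratedDeriv 3 F x) / iteratedDeriv 2 F x ^ 2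
    + 3 * (iteratedDeriv 4 F x ^ 2 + iteratedDeriv 3 F x * iteratedDeriv 5 F x)
        / iteratedDeriv 2 F x ^ 2
    - 6 * (iteratedDeriv 3 F x ^ 2 * iteratedDeriv 4 F x) / iteratedDeriv 2 F x ^ 3
    - 6 * (iteratedDeriv 3 F x / iteratedDeriv 2 F x) ^ 2
        * (iteratedDeriv 4 F x / iteratedDeriv 2 F x
            - (iteratedDeriv 3 F x / iteratedDeriv 2 F x) ^ 2)
    - 2 * g * iteratedDeriv 4 F x

theorem beta_iter {G : ℝ → ℝ} (hG : SmB G) (j : ℕ) (x : ℝ) :
    HasDerivAt (iteratedDeriv j G) (iteratedDeriv (j + 1) G x) x := by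
  have h1 : Differentiable ℝ (iteratedDeriv j G) := by
    apply hG.smooth.differentiable_iteratedDeriv j
    exact_mod_cast WithTop.coe_lt_top j
  have h2 := (h1 x).hasDerivAt
  rwa [← iteratedDeriv_succ] at h2

theorem beta_hasDerivAt {G : ℝ → ℝ} (hG : SmB G) {x : ℝ} (hp : 0 < iteratedDeriv 2 G x) (g : ℝ) :
    HasDerivAt (bet g G) (betp g G x) x := by
  have h2 := beta_iter hG 2 x
  have h3 := beta_iter hG 3 x
  have h4 := beta_iter hG 4 x
  have hp' : iteratedDeriv 2 G x ≠ 0 := hp.ne'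
  have h := ((((h3.div h2 hp').pow 2).sub (h4.div h2 hp')).sub (h2.const_mul (2 * g)))
  refine h.congr_deriv ?_
  simp only [betp, Pi.div_apply, show (2 : ℕ) - 1 = 1 from rfl, Nat.cast_ofNat, pow_one]
  field_simp
  ring

theorem beta_p_hasDerivAt {G : ℝ → ℝ} (hG : SmB G) {x : ℝ} (hp : 0 < iteratedDeriv 2 G x)
    (g : ℝ) : HasDerivAt (betp g G) (beta_pp g G x) x := by
  have h2 := beta_iter hG 2 x
  have h3 := beta_iter hG 3 x
  have h4 := beta_iter hG 4 x
  have h5 := beta_iter hG 5 x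
  have hp' : iteratedDeriv 2 G x ≠ 0 := hp.ne'
  have hp2 : iteratedDeriv 2 G x ^ 2 ≠ 0 := pow_ne_zero 2 hp'
  have h := (((h5.div h2 hp').neg.add (((h3.mul h4).const_mul 3).div (h2.pow 2) hp2)).sub
    (((h3.div h2 hp').pow 3).const_mul 2)).sub (h3.const_mul (2 * g))
  refine h.congr_deriv ?_
  simp only [beta_pp, Pi.div_apply, Pi.mul_apply, Pi.pow_apply, show (2 : ℕ) - 1 = 1 from rfl,
    show (3 : ℕ) - 1 = 2 from rfl, Nat.cast_ofNat, pow_one]
  field_simp
  ring

/-- The evolution equation of `β`. -/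
theorem beta_s (h : SmB F) (hg : 0 < g) {s : ℝ} (hs : 0 < s) {x : ℝ}
    (hp : 0 < iteratedDeriv 2 (gstep g s F) x) :
    HasDerivAt (fun s => bet g (gstep g s F) x)
      (1 / 2 * beta_pp g (gstep g s F) x - Yf g (gstep g s F) x * betp g (gstep g s F) x
        - (g * iteratedDeriv 2 (gstep g s F) x + bet g (gstep g s F) x)
          * bet g (gstep g s F) x) s := by
  have h2 := fj_s2 h hg hs x
  have h3 := fj_s3 h hg hs x
  have h4 := fj_s4 h hg hs x
  have hp' : fj g F 2 s x ≠ 0 := hp.ne'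
  have h := ((((h3.div h2 hp').pow 2).sub (h4.div h2 hp')).sub (h2.const_mul (2 * g)))
  refine h.congr_deriv ?_
  simp only [betp, beta_pp, bet, Yf, Pi.div_apply, show (2 : ℕ) - 1 = 1 from rfl,
    Nat.cast_ofNat, pow_one]
  change _ = 1 / 2 * (-(fj g F 6 s x / fj g F 2 s x)
    + (fj g F 5 s x * fj g F 3 s x) / fj g F 2 s x ^ 2
    + 3 * (fj g F 4 s x ^ 2 + fj g F 3 s x * fj g F 5 s x) / fj g F 2 s x ^ 2
    - 6 * (fj g F 3 s x ^ 2 * fj g F 4 s x) / fj g F 2 s x ^ 3
    - 6 * (fj g F 3 s x / fj g F 2 s x) ^ 2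
        * (fj g F 4 s x / fj g F 2 s x - (fj g F 3 s x / fj g F 2 s x) ^ 2)
    - 2 * g * fj g F 4 s x)
    - (-(fj g F 3 s x / fj g F 2 s x) - g * fj g F 1 s x)
      * (-(fj g F 5 s x / fj g F 2 s x)
        + 3 * (fj g F 3 s x * fj g F 4 s x) / fj g F 2 s x ^ 2
        - 2 * (fj g F 3 s x / fj g F 2 s x) ^ 3 - 2 * g * fj g F 3 s x)
    - (g * fj g F 2 s x + ((fj g F 3 s x / fj g F 2 s x) ^ 2 - fj g F 4 s x / fj g F 2 s x
        - 2 * g * fj g F 2 s x)) * ((fj g F 3 s x / fj g F 2 s x) ^ 2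
        - fj g F 4 s x / fj g F 2 s x - 2 * g * fj g F 2 s x)
  generalize fj g F 1 s x = a1 at *
  generalize fj g F 2 s x = a2 at *
  generalize fj g F 3 s x = a3 at *
  generalize fj g F 4 s x = a4 at *
  generalize fj g F 5 s x = a5 at *
  generalize fj g F 6 s x = a6 at *
  field_simp
  ring

theorem beta_pos (h : Adm C F) (hg : 0 < g) (hg1 : g ≤ 1) {s : ℝ} (hs : 0 ≤ s) (x : ℝ) :
    0 < iteratedDeriv 2 (gstep g s F) x := (h.step hg hg1 hs).pos x

theorem beta_cont (h : Adm C F) (hg : 0 < g) (hg1 : g ≤ 1) (S : ℝ) :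
    ContinuousOn (fun p : ℝ × ℝ => bet g (gstep g p.1 F) p.2) (Icc 0 S ×ˢ univ) := by
  have h2 := (fj_cont h.smb hg 2).continuousOn (s := Icc 0 S ×ˢ (univ : Set ℝ))
  have h3 := (fj_cont h.smb hg 3).continuousOn (s := Icc 0 S ×ˢ (univ : Set ℝ))
  have h4 := (fj_cont h.smb hg 4).continuousOn (s := Icc 0 S ×ˢ (univ : Set ℝ))
  have hp : ∀ p ∈ Icc 0 S ×ˢ (univ : Set ℝ), fj g F 2 p.1 p.2 ≠ 0 := by
    rintro ⟨s, x⟩ ⟨hs, -⟩
    exact (beta_pos h hg hg1 hs.1 x).ne'
  exact (((h3.div h2 hp).pow 2).sub (h4.div h2 hp)).sub (continuousOn_const.mul h2)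

theorem beta_bound (h : Adm C F) (hg : 0 < g) (hg1 : g ≤ 1) (S : ℝ) :
    ∃ B : ℝ, 0 ≤ B ∧ (∀ s ∈ Icc 0 S, ∀ x, |bet g (gstep g s F) x| ≤ B) ∧
      ∀ s ∈ Icc 0 S, ∀ x, |Yf g (gstep g s F) x| ≤ B := by
  obtain ⟨C', hC'⟩ := h.r4_unif hg hg1 S
  have hC := h.C_nonneg
  set P : ℝ := C * Real.exp (2 * g * S) with hP
  have hP0 : 0 ≤ P := by positivity
  have key : ∀ s ∈ Icc 0 S, ∀ x, |iteratedDeriv 3 (gstep g s F) x / iteratedDeriv 2 (gstep g s F) x|
      ≤ P ∧ |iteratedDeriv 4 (gstep g s F) x / iteratedDeriv 2 (gstep g s F) x| ≤ |C'| ∧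
      |iteratedDeriv 2 (gstep g s F) x| ≤ 1 ∧ |iteratedDeriv 1 (gstep g s F) x| ≤ 1 := by
    intro s hs x
    have hA := h.step hg hg1 hs.1
    have hp := hA.pos x
    have hl := hA.le1 x
    refine ⟨?_, ?_, ?_, ?_⟩
    · rw [abs_div, abs_of_pos hp, div_le_iff₀ hp]
      refine (hA.r3 x).trans ?_
      apply mul_le_mul_of_nonneg_right _ hp.le
      rw [hP]
      apply mul_le_mul_of_nonneg_left _ hC
      apply Real.exp_le_exp.2
      have := hs.2
      (by_contra nlg; linarith only [nlg, mul_nonneg (le_of_lt (sub_pos.2 hg)) (sub_nonneg.2 this), mul_nonneg (le_of_lt (sub_pos.2 (not_le.1 nlg))) (sub_nonneg.2 hg1), mul_pos (sub_pos.2 (not_le.1 nlg)) (sub_pos.2 hg)])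
    · rw [abs_div, abs_of_pos hp, div_le_iff₀ hp]
      refine (hC' s hs x).trans ?_
      exact mul_le_mul_of_nonneg_right (le_abs_self C') hp.le
    · rw [abs_of_pos hp]
      linarith only [sq_nonneg (iteratedDeriv 1 (gstep g s F) x), hl]
    · rw [← sq_le_one_iff_abs_le_one]
      linarith
  refine ⟨P ^ 2 + P + |C'| + 3, by (clear * - hC; positivity), ?_, ?_⟩
  · intro s hs x
    obtain ⟨k1, k2, k3, k4⟩ := key s hs x
    rw [bet]
    have e1 : |(iteratedDeriv 3 (gstep g s F) x / iteratedDeriv 2 (gstep g s F) x) ^ 2| ≤ P ^ 2 := by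
      rw [abs_pow]
      exact pow_le_pow_left₀ (abs_nonneg _) k1 2
    have e2 : |2 * g * iteratedDeriv 2 (gstep g s F) x| ≤ 2 := by
      rw [abs_mul, abs_of_pos (by positivity : (0 : ℝ) < 2 * g)]
      nlinarith [abs_nonneg (iteratedDeriv 2 (gstep g s F) x)]
    calc _ ≤ |(iteratedDeriv 3 (gstep g s F) x / iteratedDeriv 2 (gstep g s F) x) ^ 2|
          + |iteratedDeriv 4 (gstep g s F) x / iteratedDeriv 2 (gstep g s F) x|
          + |2 * g * iteratedDeriv 2 (gstep g s F) x| := by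
            refine (abs_sub _ _).trans ?_
            gcongr
            exact abs_sub _ _
      _ ≤ P ^ 2 + P + |C'| + 3 := by linarith
  · intro s hs x
    obtain ⟨k1, k2, k3, k4⟩ := key s hs x
    rw [Yf]
    have e2 : |g * iteratedDeriv 1 (gstep g s F) x| ≤ 1 := by
      rw [abs_mul, abs_of_pos hg]
      nlinarith [abs_nonneg (iteratedDeriv 1 (gstep g s F) x)]
    calc _ ≤ |-(iteratedDeriv 3 (gstep g s F) x / iteratedDeriv 2 (gstep g s F) x)|
          + |g * iteratedDeriv 1 (gstep g s F) x| := abs_sub _ _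
      _ ≤ P ^ 2 + P + |C'| + 3 := by
          rw [abs_neg]
          have := abs_nonneg C'
          linarith only [sq_nonneg P, this, e2, k1]

theorem bet_step (h : Adm C F) (hb : ∀ x, 0 ≤ bet g F x) (hg : 0 < g) (hg1 : g ≤ 1) {s : ℝ}
    (hs : 0 ≤ s) : ∀ x, 0 ≤ bet g (gstep g s F) x := by
  rcases hs.eq_or_lt with rfl | hs0
  · intro x
    rw [gstep_zero hg.ne']
    exact hb x
  obtain ⟨B, hB0, hB1, hB2⟩ := beta_bound h hg hg1 s
  have hsm : ∀ t, SmB (gstep g t F) := fun t => smB_gstep h.smb hg t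
  have main := maxp_line (S := s) (B := B) (w := fun t x => bet g (gstep g t F) x)
    (ws := fun t x => 1 / 2 * beta_pp g (gstep g t F) x
        - Yf g (gstep g t F) x * betp g (gstep g t F) x
        - (g * iteratedDeriv 2 (gstep g t F) x + bet g (gstep g t F) x)
          * bet g (gstep g t F) x)
    (wx := fun t x => betp g (gstep g t F) x)
    (wxx := fun t x => beta_pp g (gstep g t F) x)
    (b := fun t x => - Yf g (gstep g t F) x)
    (c := fun t x => -(g * iteratedDeriv 2 (gstep g t F) x + bet g (gstep g t F) x))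
    hs0 (beta_cont h hg hg1 s) hB1 ?_ ?_ ?_ ?_ ?_ ?_ ?_
  · exact fun x => main s ⟨hs, le_rfl⟩ x
  · intro t ht x
    exact beta_s h.smb hg ht.1 (beta_pos h hg hg1 ht.1.le x)
  · intro t ht x
    exact beta_hasDerivAt (hsm t) (beta_pos h hg hg1 ht.1.le x) g
  · intro t ht x
    exact beta_p_hasDerivAt (hsm t) (beta_pos h hg hg1 ht.1.le x) g
  · intro t ht x
    simp only [abs_neg]
    exact hB2 t ⟨ht.1.le, ht.2.le⟩ x
  · intro t ht x
    have h1 := hB1 t ⟨ht.1.le, ht.2.le⟩ x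
    have h2 := beta_pos h hg hg1 ht.1.le x
    have h3 := neg_abs_le (bet g (gstep g t F) x)
    have h4 : 0 < g * iteratedDeriv 2 (gstep g t F) x := mul_pos hg h2
    linarith
  · intro t ht x
    apply le_of_eq
    ring
  · intro x
    rw [gstep_zero hg.ne']
    exact hb x

end Vale.Agent.P146.Gap
end

section

/-! # P146 / Gap: `β' ≤ Y β` on the half line is preserved by the Parisi flow
(section THETA of the skeleton) -/

open MeasureTheory ProbabilityTheory Filter Topology Set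

namespace Vale.Agent.P146.Gap

open Vale.Agent.P157.Par

variable {C g : ℝ} {F G : ℝ → ℝ}

theorem theta_iter_even (hG : ∀ x, G (-x) = G x) (n : ℕ) (x : ℝ) :
    iteratedDeriv n G (-x) = (-1) ^ n * iteratedDeriv n G x := by
  have h1 := iteratedDeriv_comp_neg n G x
  have h2 : (fun x => G (-x)) = G := funext hG
  rw [h2, smul_eq_mul] at h1
  rw [h1, ← mul_assoc, ← pow_add, ← two_mul, pow_mul]
  norm_num

theorem theta_bet_even (hG : ∀ x, G (-x) = G x) (g x : ℝ) : bet g G (-x) = bet g G x := by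
  simp only [bet, theta_iter_even hG]
  norm_num
  ring

theorem theta_hf_even (hG : ∀ x, G (-x) = G x) (g x : ℝ) : hf g G (-x) = hf g G x := by
  simp only [hf, theta_iter_even hG, hG]
  norm_num

theorem theta_th_even (hG : ∀ x, G (-x) = G x) (g x : ℝ) : th g G (-x) = th g G x := by
  rw [th, th, theta_bet_even hG, theta_hf_even hG]

theorem theta_abs (hG : ∀ x, G (-x) = G x) (x : ℝ) : G |x| = G x := by
  rcases abs_choice x with h | h <;> rw [h]
  exact hG x

theorem theta_Y_zero (hG : ∀ x, G (-x) = G x) (g : ℝ) : Yf g G 0 = 0 := by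
  have h1 := theta_iter_even hG 1 0
  have h3 := theta_iter_even hG 3 0
  norm_num at h1 h3
  have h1' : iteratedDeriv 1 G 0 = 0 := by
    have : iteratedDeriv 1 G 0 = - iteratedDeriv 1 G 0 := by simpa using h1
    linarith
  have h3' : iteratedDeriv 3 G 0 = 0 := by
    have : iteratedDeriv 3 G 0 = - iteratedDeriv 3 G 0 := by simpa using h3
    linarith
  rw [Yf, h1', h3']
  simp

theorem theta_hf_hasDerivAt (hG : SmB G) {x : ℝ} (hp : 0 < iteratedDeriv 2 G x) (g : ℝ) :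
    HasDerivAt (hf g G) (-(Yf g G x) * hf g G x) x := by
  have h0 := beta_iter hG 0 x
  rw [iteratedDeriv_zero] at h0
  have h2 := beta_iter hG 2 x
  have hp' : iteratedDeriv 2 G x ≠ 0 := hp.ne'
  have h := h2.mul ((h0.const_mul g).exp)
  refine h.congr_deriv ?_
  simp only [hf, Yf]
  field_simp
  ring

theorem theta_Yf_hasDerivAt (hG : SmB G) {x : ℝ} (hp : 0 < iteratedDeriv 2 G x) (g : ℝ) :
    HasDerivAt (Yf g G) (g * iteratedDeriv 2 G x + bet g G x) x := by
  have h1 := beta_iter hG 1 x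
  have h2 := beta_iter hG 2 x
  have h3 := beta_iter hG 3 x
  have hp' : iteratedDeriv 2 G x ≠ 0 := hp.ne'
  have h := ((h3.div h2 hp').neg).sub (h1.const_mul g)
  refine h.congr_deriv ?_
  simp only [bet]
  field_simp
  ring

/-- `ϑ'`. -/
noncomputable def theta_p (g : ℝ) (G : ℝ → ℝ) (x : ℝ) : ℝ :=
  (betp g G x - Yf g G x * bet g G x) * hf g G x

/-- `ϑ''`. -/
noncomputable def theta_pp (g : ℝ) (G : ℝ → ℝ) (x : ℝ) : ℝ :=
  (beta_pp g G x - (g * iteratedDeriv 2 G x + bet g G x) * bet g G x - 2 * Yf g G x * betp g G x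
    + Yf g G x ^ 2 * bet g G x) * hf g G x

theorem theta_hasDerivAt (hG : SmB G) {x : ℝ} (hp : 0 < iteratedDeriv 2 G x) (g : ℝ) :
    HasDerivAt (th g G) (theta_p g G x) x := by
  have h := (beta_hasDerivAt hG hp g).mul (theta_hf_hasDerivAt hG hp g)
  refine h.congr_deriv ?_
  simp only [theta_p]
  ring

theorem theta_p_hasDerivAt (hG : SmB G) {x : ℝ} (hp : 0 < iteratedDeriv 2 G x) (g : ℝ) :
    HasDerivAt (theta_p g G) (theta_pp g G x) x := by
  have h := ((beta_p_hasDerivAt hG hp g).sub ((theta_Yf_hasDerivAt hG hp g).mul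
    (beta_hasDerivAt hG hp g))).mul (theta_hf_hasDerivAt hG hp g)
  refine h.congr_deriv ?_
  simp only [theta_pp, Pi.sub_apply, Pi.mul_apply]
  ring

theorem theta_hf_s (h : SmB F) (hg : 0 < g) {s : ℝ} (hs : 0 < s) {x : ℝ}
    (hp : 0 < iteratedDeriv 2 (gstep g s F) x) :
    HasDerivAt (fun s => hf g (gstep g s F) x)
      ((1 / 2 * (Yf g (gstep g s F) x ^ 2 - (g * iteratedDeriv 2 (gstep g s F) x
        + bet g (gstep g s F) x)) + g * iteratedDeriv 2 (gstep g s F) x)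
          * hf g (gstep g s F) x) s := by
  have h0 := fj_s0 h hg hs x
  have h2 := fj_s2 h hg hs x
  have hp' : iteratedDeriv 2 (gstep g s F) x ≠ 0 := hp.ne'
  simp only [fj, iteratedDeriv_zero] at h0 h2
  have h := h2.mul ((h0.const_mul g).exp)
  refine h.congr_deriv ?_
  simp only [hf, Yf, bet]
  field_simp
  ring

theorem theta_s (h : SmB F) (hg : 0 < g) {s : ℝ} (hs : 0 < s) {x : ℝ}
    (hp : 0 < iteratedDeriv 2 (gstep g s F) x) :
    HasDerivAt (fun s => th g (gstep g s F) x)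
      (1 / 2 * theta_pp g (gstep g s F) x - bet g (gstep g s F) x * th g (gstep g s F) x) s := by
  have h := (beta_s h hg hs hp).mul (theta_hf_s h hg hs hp)
  refine h.congr_deriv ?_
  simp only [theta_pp, th]
  ring

theorem theta_hf_pos {x : ℝ} (hp : 0 < iteratedDeriv 2 G x) (g : ℝ) : 0 < hf g G x := by
  rw [hf]; positivity

theorem theta_hf_cont (h : Adm C F) (hg : 0 < g) :
    Continuous (fun p : ℝ × ℝ => hf g (gstep g p.1 F) p.2) := by
  have h2 := fj_cont h.smb hg 2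
  have h0 := fj_cont h.smb hg 0
  simp only [fj, iteratedDeriv_zero] at h0 h2
  exact h2.mul (Real.continuous_exp.comp (continuous_const.mul h0))

theorem theta_cont (h : Adm C F) (hg : 0 < g) (hg1 : g ≤ 1) (S : ℝ) :
    ContinuousOn (fun p : ℝ × ℝ => th g (gstep g p.1 F) p.2) (Icc 0 S ×ˢ univ) :=
  (beta_cont h hg hg1 S).mul (theta_hf_cont h hg).continuousOn

/-- `h` is nonincreasing on the half line. -/
theorem theta_hf_anti (hG : Adm C G) (hb : ∀ x, 0 ≤ bet g G x) (hg : 0 < g) :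
    AntitoneOn (hf g G) (Ici 0) := by
  have hY : ∀ x, 0 ≤ x → 0 ≤ Yf g G x := by
    have hmono : Monotone (Yf g G) := by
      apply monotone_of_deriv_nonneg
      · exact fun x => (theta_Yf_hasDerivAt hG.smb (hG.pos x) g).differentiableAt
      · intro x
        rw [(theta_Yf_hasDerivAt hG.smb (hG.pos x) g).deriv]
        have := mul_pos hg (hG.pos x)
        linarith [hb x]
    intro x hx
    rw [← theta_Y_zero hG.even g]
    exact hmono hx
  apply antitoneOn_of_deriv_nonpos (convex_Ici 0)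
  · exact fun x _ => (theta_hf_hasDerivAt hG.smb (hG.pos x) g).continuousAt.continuousWithinAt
  · exact fun x _ =>
      (theta_hf_hasDerivAt hG.smb (hG.pos x) g).differentiableAt.differentiableWithinAt
  · intro x hx
    rw [interior_Ici] at hx
    rw [(theta_hf_hasDerivAt hG.smb (hG.pos x) g).deriv]
    have h1 := hY x (le_of_lt hx)
    have h2 := theta_hf_pos (hG.pos x) g
    linarith only [mul_nonneg (sub_nonneg.2 h1) (le_of_lt (sub_pos.2 h2))]

theorem theta_anti_zero (h : Good g C F) : AntitoneOn (th g F) (Ici 0) := by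
  have hA := h.adm
  apply antitoneOn_of_deriv_nonpos (convex_Ici 0)
  · exact fun x _ => (theta_hasDerivAt hA.smb (hA.pos x) g).continuousAt.continuousWithinAt
  · exact fun x _ =>
      (theta_hasDerivAt hA.smb (hA.pos x) g).differentiableAt.differentiableWithinAt
  · intro x hx
    rw [interior_Ici] at hx
    rw [(theta_hasDerivAt hA.smb (hA.pos x) g).deriv, theta_p]
    have h1 := h.betp_le x (le_of_lt hx)
    have h2 := theta_hf_pos (hA.pos x) g
    linarith only [mul_nonneg (sub_nonneg.2 h1) (le_of_lt (sub_pos.2 h2))]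

/-- Reflection at `a`. -/
theorem theta_reflect (h : Good g C F) (hg : 0 < g) (hg1 : g ≤ 1) {s : ℝ} (hs : 0 < s) {a : ℝ}
    (ha : 0 < a) {x : ℝ} (hx : a ≤ x) :
    th g (gstep g s F) x ≤ th g (gstep g s F) (2 * a - x) := by
  have hA := h.adm
  obtain ⟨B, hB0, hB1, hB2⟩ := beta_bound hA hg hg1 s
  have hsm : ∀ t, SmB (gstep g t F) := fun t => smB_gstep hA.smb hg t
  have hst : ∀ t ∈ Icc 0 s, Adm (C * Real.exp (2 * g * t)) (gstep g t F) :=
    fun t ht => hA.step hg hg1 ht.1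
  have hbet : ∀ t ∈ Icc 0 s, ∀ x, 0 ≤ bet g (gstep g t F) x :=
    fun t ht => bet_step hA h.bet_nonneg hg hg1 ht.1
  have hhf : ∀ t ∈ Icc 0 s, ∀ x y : ℝ, |x| ≤ |y| →
      hf g (gstep g t F) y ≤ hf g (gstep g t F) x := by
    intro t ht x y hxy
    rw [← theta_abs (theta_hf_even (hst t ht).even g) x,
      ← theta_abs (theta_hf_even (hst t ht).even g) y]
    exact theta_hf_anti (hst t ht) (hbet t ht) hg (abs_nonneg x) (abs_nonneg y) hxy
  have hth0 : ∀ x y : ℝ, |x| ≤ |y| → th g F y ≤ th g F x := by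
    intro x y hxy
    rw [← theta_abs (theta_th_even hA.even g) x, ← theta_abs (theta_th_even hA.even g) y]
    exact theta_anti_zero h (abs_nonneg x) (abs_nonneg y) hxy
  obtain ⟨K, hK⟩ : ∃ K : ℝ, ∀ t ∈ Icc 0 s, hf g (gstep g t F) 0 ≤ K := by
    have hc : ContinuousOn (fun t : ℝ => hf g (gstep g t F) 0) (Icc 0 s) :=
      ((theta_hf_cont hA hg).comp (by fun_prop : Continuous fun t : ℝ => (t, (0 : ℝ)))).continuousOn
    obtain ⟨K, hK⟩ := isCompact_Icc.bddAbove_image hc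
    exact ⟨K, fun t ht => hK (mem_image_of_mem _ ht)⟩
  have hhpos : ∀ t ∈ Icc 0 s, ∀ x, 0 < hf g (gstep g t F) x :=
    fun t ht x => theta_hf_pos ((hst t ht).pos x) g
  have hK0 : 0 ≤ K := (hhpos 0 ⟨le_rfl, hs.le⟩ 0).le.trans (hK 0 ⟨le_rfl, hs.le⟩)
  have hthb : ∀ t ∈ Icc 0 s, ∀ x, |th g (gstep g t F) x| ≤ B * K := by
    intro t ht x
    rw [th, abs_mul, abs_of_pos (hhpos t ht x)]
    have h1 : hf g (gstep g t F) x ≤ K :=
      (hhf t ht 0 x (by simp)).trans (hK t ht)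
    exact mul_le_mul (hB1 t ht x) h1 (hhpos t ht x).le hB0
  have hthn : ∀ t ∈ Icc 0 s, ∀ x, 0 ≤ th g (gstep g t F) x :=
    fun t ht x => mul_nonneg (hbet t ht x) (hhpos t ht x).le
  have hrefl : ∀ x : ℝ, HasDerivAt (fun x : ℝ => 2 * a - x) (-1) x := by
    intro x
    simpa using (hasDerivAt_id x).const_sub (2 * a)
  have habs : ∀ x : ℝ, a ≤ x → |2 * a - x| ≤ |x| := by
    intro x hx
    rw [abs_of_pos (ha.trans_le hx), abs_le]
    constructor <;> linarith
  have main := maxp_half (S := s) (B := 2 * (B * K)) (a := a)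
    (w := fun t x => th g (gstep g t F) (2 * a - x) - th g (gstep g t F) x)
    (ws := fun t x => (1 / 2 * theta_pp g (gstep g t F) (2 * a - x)
        - bet g (gstep g t F) (2 * a - x) * th g (gstep g t F) (2 * a - x))
        - (1 / 2 * theta_pp g (gstep g t F) x - bet g (gstep g t F) x * th g (gstep g t F) x))
    (wx := fun t x => theta_p g (gstep g t F) (2 * a - x) * (-1) - theta_p g (gstep g t F) x)
    (wxx := fun t x => theta_pp g (gstep g t F) (2 * a - x) * (-1) * (-1)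
        - theta_pp g (gstep g t F) x)
    (b := fun _ _ => 0)
    (c := fun t x => -((th g (gstep g t F) (2 * a - x) + th g (gstep g t F) x)
        / hf g (gstep g t F) (2 * a - x)))
    hs ?_ ?_ ?_ ?_ ?_ ?_ ?_ ?_ ?_ ?_
  · have := main s ⟨hs.le, le_rfl⟩ x hx
    linarith
  · -- continuity
    have hc := theta_cont hA hg hg1 s
    refine ContinuousOn.sub ?_ ?_
    · refine hc.comp (f := fun p : ℝ × ℝ => (p.1, 2 * a - p.2)) ?_ ?_
      · exact (by fun_prop : Continuous fun p : ℝ × ℝ => (p.1, 2 * a - p.2)).continuousOn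
      · rintro ⟨t, y⟩ ⟨ht, -⟩
        exact ⟨ht, mem_univ _⟩
    · exact hc.mono (prod_mono Subset.rfl (subset_univ _))
  · intro t ht x _
    refine (abs_sub _ _).trans ?_
    have h1 := hthb t ht (2 * a - x)
    have h2 := hthb t ht x
    linarith
  · intro t ht x _
    have ht' : t ∈ Icc 0 s := ⟨ht.1.le, ht.2.le⟩
    exact (theta_s hA.smb hg ht.1 ((hst t ht').pos _)).sub
      (theta_s hA.smb hg ht.1 ((hst t ht').pos _))
  · intro t ht x _
    have ht' : t ∈ Icc 0 s := ⟨ht.1.le, ht.2.le⟩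
    exact ((theta_hasDerivAt (hsm t) ((hst t ht').pos (2 * a - x)) g).comp x (hrefl x)).sub
      (theta_hasDerivAt (hsm t) ((hst t ht').pos x) g)
  · intro t ht x _
    have ht' : t ∈ Icc 0 s := ⟨ht.1.le, ht.2.le⟩
    exact ((((theta_p_hasDerivAt (hsm t) ((hst t ht').pos (2 * a - x)) g).comp x
      (hrefl x)).mul_const (-1))).sub (theta_p_hasDerivAt (hsm t) ((hst t ht').pos x) g)
  · intro t ht x _
    simpa using mul_nonneg hB0 hK0
  · intro t ht x _
    have ht' : t ∈ Icc 0 s := ⟨ht.1.le, ht.2.le⟩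
    have h1 := hthn t ht' (2 * a - x)
    have h2 := hthn t ht' x
    have h3 := hhpos t ht' (2 * a - x)
    have h4 : 0 ≤ (th g (gstep g t F) (2 * a - x) + th g (gstep g t F) x)
        / hf g (gstep g t F) (2 * a - x) := by (clear * - h1 h2 h3; positivity)
    have h5 := mul_nonneg hB0 hK0
    linarith only [h5, h4]
  · intro t ht x hax
    have ht' : t ∈ Icc 0 s := ⟨ht.1.le, ht.2.le⟩
    have h3 := hhpos t ht' (2 * a - x)
    have h4 := hhpos t ht' x
    have h5 := hhf t ht' (2 * a - x) x (habs x hax.le)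
    have e1 : bet g (gstep g t F) (2 * a - x) * th g (gstep g t F) (2 * a - x)
        = th g (gstep g t F) (2 * a - x) ^ 2 / hf g (gstep g t F) (2 * a - x) := by
      rw [th]; field_simp
    have e2 : th g (gstep g t F) x ^ 2 / hf g (gstep g t F) (2 * a - x) ≤
        bet g (gstep g t F) x * th g (gstep g t F) x := by
      have : bet g (gstep g t F) x * th g (gstep g t F) x
        = th g (gstep g t F) x ^ 2 / hf g (gstep g t F) x := by
        rw [th]; field_simp
      rw [this]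
      exact div_le_div_of_nonneg_left (sq_nonneg _) h4 h5
    have e3 : -((th g (gstep g t F) (2 * a - x) + th g (gstep g t F) x)
        / hf g (gstep g t F) (2 * a - x))
          * (th g (gstep g t F) (2 * a - x) - th g (gstep g t F) x)
        = th g (gstep g t F) x ^ 2 / hf g (gstep g t F) (2 * a - x)
          - th g (gstep g t F) (2 * a - x) ^ 2 / hf g (gstep g t F) (2 * a - x) := by
      field_simp
      ring
    rw [e3, e1]
    linarith only [e2]
  · intro x hax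
    rw [gstep_zero hg.ne']
    linarith [hth0 (2 * a - x) x (habs x hax)]
  · intro t ht
    have : 2 * a - a = a := by ring
    rw [this]
    linarith

theorem betp_step (h : Good g C F) (hg : 0 < g) (hg1 : g ≤ 1) {s : ℝ} (hs : 0 ≤ s) :
    ∀ x, 0 ≤ x → betp g (gstep g s F) x ≤ Yf g (gstep g s F) x * bet g (gstep g s F) x := by
  rcases hs.eq_or_lt with rfl | hs0
  · intro x hx
    rw [gstep_zero hg.ne']
    exact h.betp_le x hx
  intro x hx
  have hst := h.adm.step hg hg1 hs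
  have hd := theta_hasDerivAt hst.smb (hst.pos x) g
  have hle : ∀ y, x < y → th g (gstep g s F) y ≤ th g (gstep g s F) x := by
    intro y hy
    have := theta_reflect h hg hg1 hs0 (a := (x + y) / 2) (by linarith only [hy, hx]) (x := y) (by linarith)
    have e : 2 * ((x + y) / 2) - y = x := by ring
    rwa [e] at this
  have hneg : theta_p g (gstep g s F) x ≤ 0 := by
    have h1 := (hasDerivAt_iff_tendsto_slope.1 hd).mono_left
      (nhdsWithin_mono x (fun y (hy : y ∈ Ioi x) => (ne_of_gt hy : y ≠ x)))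
    refine le_of_tendsto h1 ?_
    filter_upwards [self_mem_nhdsWithin] with y hy
    rw [slope_def_field]
    exact div_nonpos_of_nonpos_of_nonneg (by linarith [hle y hy]) (by
      have : x < y := hy
      linarith)
  rw [theta_p] at hneg
  have hp := theta_hf_pos (hst.pos x) g
  by_contra hcon
  rw [not_le] at hcon
  have : 0 < (betp g (gstep g s F) x - Yf g (gstep g s F) x * bet g (gstep g s F) x)
      * hf g (gstep g s F) x := mul_pos (by linarith) hp
  linarith

end Vale.Agent.P146.Gap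
end

section

/-!
# P146 / Gap: the invariant class `Good`, one step of the recursion and cascades
-/

open MeasureTheory ProbabilityTheory Filter Topology Set

namespace Vale.Agent.P146.Gap

open Vale.Agent.P157.Par

section GOOD

open GoodX

variable {C g g' : ℝ} {F : ℝ → ℝ}

theorem good_lc : Good 1 2 lc :=
  ⟨adm_lc, fun x => (good_bet_lc x).ge, fun x _ => by rw [good_bet_lc, good_betp_lc, mul_zero]⟩

theorem Good.mono_C {C' : ℝ} (h : Good g C F) (hC : C ≤ C') : Good g C' F :=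
  ⟨h.adm.mono_C hC, h.bet_nonneg, h.betp_le⟩

theorem Good.step (h : Good g C F) (hg' : 0 < g') (hgg : g' ≤ g) (hg1 : g ≤ 1) {s : ℝ}
    (hs : 0 ≤ s) : Good g' (C * Real.exp (2 * g' * s)) (gstep g' s F) := by
  have h1 := h.lower hg' hgg
  have hg'1 : g' ≤ 1 := hgg.trans hg1
  exact ⟨h1.adm.step hg' hg'1 hs, bet_step h1.adm h1.bet_nonneg hg' hg'1 hs,
    betp_step h1 hg' hg'1 hs⟩

/-- The functions of the recursion are good. -/
theorem good_cascade {c : ℕ} {m r : ℕ → ℝ} (h : Good g C F) (hg1 : g ≤ 1)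
    (hm0 : ∀ l, 1 ≤ l → l ≤ c → 0 < m l) (hmm : ∀ l, 1 ≤ l → l < c → m l ≤ m (l + 1))
    (hmg : ∀ l, 1 ≤ l → l ≤ c → m l ≤ g) (hr : ∀ l < c, r l ≤ r (l + 1)) :
    Good (if c = 0 then g else m 1) (C * Real.exp (2 * (r c - r 0))) (cascade m r c F) := by
  induction c generalizing F C g with
  | zero =>
    have e : cascade m r 0 F = F := by
      have h1 := @cascade.eq_1
      have h2 := @cascade.eq_def
      simp only [cascade]
    rw [e, if_pos rfl, sub_self, mul_zero, Real.exp_zero, mul_one]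
    exact h
  | succ c ih =>
    have hv : 0 ≤ r (c + 1) - r c := sub_nonneg.2 (hr c (Nat.lt_succ_self c))
    have hmc := hm0 (c + 1) (by omega) le_rfl
    have hmg' := hmg (c + 1) (by omega) le_rfl
    have hm1 : m (c + 1) ≤ 1 := hmg'.trans hg1
    have h1 := h.step hmc hmg' hg1 hv
    have hchain' : ∀ n l, 1 ≤ l → l + n ≤ c + 1 → m l ≤ m (l + n) := by
      intro n
      induction n with
      | zero => exact fun l _ _ => le_rfl
      | succ n ihn =>
        intro l hl hln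
        exact (ihn l hl (by omega)).trans (hmm (l + n) (by omega) (by omega))
    have hchain : ∀ l, 1 ≤ l → l ≤ c + 1 → m l ≤ m (c + 1) := by
      intro l hl hlc
      have := hchain' (c + 1 - l) l hl (by omega)
      rwa [Nat.add_sub_cancel' hlc] at this
    have h2 := ih h1 hm1 (fun l a b => hm0 l a (by omega)) (fun l a b => hmm l a (by omega))
      (fun l a b => hchain l a (by omega)) (fun l a => hr l (by omega))
    rw [cascade_succ_def, if_neg (Nat.succ_ne_zero c)]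
    have e : (if c = 0 then m (c + 1) else m 1) = m 1 := by
      split_ifs with hc
      · rw [hc]
      · rfl
    rw [e] at h2
    refine h2.mono_C ?_
    rw [mul_assoc, ← Real.exp_add]
    refine mul_le_mul_of_nonneg_left (Real.exp_le_exp.2 ?_) h.adm.C_nonneg
    (by_contra nlg; linarith only [nlg, mul_nonneg (sub_nonneg.2 hv) (sub_nonneg.2 hm1), mul_nonneg (le_of_lt (sub_pos.2 (not_le.1 nlg))) (sub_nonneg.2 hm1), mul_pos (sub_pos.2 (not_le.1 nlg)) (sub_pos.2 hmc)])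

end GOOD

end Vale.Agent.P146.Gap
end

section

/-! MINB: minimisers over the paths for given exponents. -/

open MeasureTheory ProbabilityTheory Filter Topology Set

namespace Vale.Agent.P146.Gap

open Vale.Agent.P157.Par

/-- Paths from `0` to at most `b²`. -/
def BPath (b : ℝ) (k : ℕ) (r : ℕ → ℝ) : Prop := r 0 = 0 ∧ Path k r ∧ r k ≤ b ^ 2

/-! ### Cascades -/

lemma minb_split (m r : ℕ → ℝ) (a c : ℕ) (F : ℝ → ℝ) :
    cascade m r (a + c) F =
      cascade m r a (cascade (fun l => m (a + l)) (fun l => r (a + l)) c F) := by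
  induction c generalizing F with
  | zero => rfl
  | succ c ih =>
    rw [← Nat.add_assoc, cascade_succ_def, cascade_succ_def, ih]
    rfl

lemma minb_congr {m m' r r' : ℕ → ℝ} {c : ℕ} (hm : ∀ l, 1 ≤ l → l ≤ c → m l = m' l)
    (hr : ∀ l ≤ c, r l = r' l) (F : ℝ → ℝ) : cascade m r c F = cascade m' r' c F := by
  induction c generalizing F with
  | zero => rfl
  | succ c ih =>
    rw [cascade_succ_def, cascade_succ_def, hm (c + 1) (by omega) le_rfl, hr (c + 1) le_rfl,
      hr c (by omega), ih (fun l h1 h2 => hm l h1 (by omega)) (fun l h => hr l (by omega))]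

lemma minb_flat {m r : ℕ → ℝ} {c : ℕ} (hm : ∀ l, 1 ≤ l → l ≤ c → m l ≠ 0)
    (hr : ∀ l ≤ c, r l = r 0) (F : ℝ → ℝ) : cascade m r c F = F := by
  induction c generalizing F with
  | zero => rfl
  | succ c ih =>
    rw [cascade_succ_def, hr (c + 1) le_rfl, hr c (by omega), sub_self,
      gstep_zero (hm (c + 1) (by omega) le_rfl),
      ih (fun l h1 h2 => hm l h1 (by omega)) (fun l h => hr l (by omega))]

/-- the block of the levels `0..p`, constant before `p` -/
lemma minb_block {m r : ℕ → ℝ} {p : ℕ} (hp : 1 ≤ p) (hm : ∀ l, 1 ≤ l → l ≤ p → m l ≠ 0)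
    (hr : ∀ l < p, r l = r 0) (F : ℝ → ℝ) : cascade m r p F = gstep (m p) (r p - r 0) F := by
  obtain ⟨c, rfl⟩ : ∃ c, p = c + 1 := ⟨p - 1, by omega⟩
  rw [cascade_succ_def, hr c (by omega),
    minb_flat (fun l h1 h2 => hm l h1 (by omega)) (fun l h => hr l (by omega))]

/-! ### Admissible functions -/

lemma minb_ec {C : ℝ} {F : ℝ → ℝ} (h : Adm C F) :
    Ec F (iteratedDeriv 1 F) (iteratedDeriv 2 F) := by
  have hs := h.smb.smooth
  have hdf : ∀ n : ℕ, Differentiable ℝ (iteratedDeriv n F) := fun n =>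
    hs.differentiable_iteratedDeriv n (by exact_mod_cast WithTop.coe_lt_top _)
  have hd : ∀ n : ℕ, ∀ x, HasDerivAt (iteratedDeriv n F) (iteratedDeriv (n + 1) F x) x := by
    intro n x
    rw [iteratedDeriv_succ]
    exact (hdf n x).hasDerivAt
  refine ⟨fun x => ?_, fun x => hd 1 x, ?_, h.even, fun x => (h.pos x).le, fun x => ?_⟩
  · have := hd 0 x
    rwa [iteratedDeriv_zero] at this
  · exact (hdf 2).continuous
  · exact h.le1 x

lemma minb_gstep_const {C g : ℝ} {F : ℝ → ℝ} (h : Adm C F) (hg : 0 < g) (v c : ℝ) :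
    gstep g v (fun x => F x + c) = fun x => gstep g v F x + c := by
  funext x
  unfold gstep
  have h1 : ∀ z : ℝ, Real.exp (g * (F (x + √v * z) + c)) =
      Real.exp (g * c) * Real.exp (g * F (x + √v * z)) := by
    intro z
    rw [← Real.exp_add]
    congr 1
    ring
  simp only [h1]
  have hpos := (minb_ec h).sm.int_exp_pos g v x
  rw [integral_const_mul, Real.log_mul (Real.exp_pos _).ne' hpos.ne', Real.log_exp]
  field_simp
  ring

lemma minb_cascade_const {m r : ℕ → ℝ} {c : ℕ} (hm0 : ∀ l, 1 ≤ l → l ≤ c → 0 < m l)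
    (hm1 : ∀ l, 1 ≤ l → l ≤ c → m l ≤ 1) (hr : ∀ l < c, r l ≤ r (l + 1)) {C : ℝ} {F : ℝ → ℝ}
    (h : Adm C F) (e : ℝ) :
    cascade m r c (fun x => F x + e) = fun x => cascade m r c F x + e := by
  induction c generalizing F C with
  | zero => rfl
  | succ c ih =>
    rw [cascade_succ_def, minb_gstep_const h (hm0 (c + 1) (by omega) le_rfl), cascade_succ_def]
    exact ih (fun l h1 h2 => hm0 l h1 (by omega)) (fun l h1 h2 => hm1 l h1 (by omega))
      (fun l hl => hr l (by omega))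
      (h.step (hm0 (c + 1) (by omega) le_rfl) (hm1 (c + 1) (by omega) le_rfl)
        (sub_nonneg.2 (hr c (by omega))))

lemma minb_cascade_lip {m r r' : ℕ → ℝ} {c : ℕ} (hm0 : ∀ l, 1 ≤ l → l ≤ c → 0 < m l)
    (hm1 : ∀ l, 1 ≤ l → l ≤ c → m l ≤ 1) (hr : ∀ l < c, r l ≤ r (l + 1))
    (hr' : ∀ l < c, r' l ≤ r' (l + 1)) {C C' e : ℝ} {F G : ℝ → ℝ}
    (hF : Adm C F) (hG : Adm C' G) (hFG : ∀ x, |F x - G x| ≤ e) (x : ℝ) :
    |cascade m r c F x - cascade m r' c G x| ≤
      e + 1 / 2 * ∑ l ∈ Finset.range c, |(r (l + 1) - r l) - (r' (l + 1) - r' l)| := by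
  induction c generalizing F G C C' e with
  | zero =>
    simp only [Finset.range_zero, Finset.sum_empty, mul_zero, add_zero]
    exact hFG x
  | succ c ih =>
    have g0 := hm0 (c + 1) (by omega) le_rfl
    have g1 := hm1 (c + 1) (by omega) le_rfl
    have d1 := sub_nonneg.2 (hr c (by omega))
    have d2 := sub_nonneg.2 (hr' c (by omega))
    rw [cascade_succ_def, cascade_succ_def, Finset.sum_range_succ]
    have := ih (fun l h1 h2 => hm0 l h1 (by omega)) (fun l h1 h2 => hm1 l h1 (by omega))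
      (fun l hl => hr l (by omega)) (fun l hl => hr' l (by omega))
      (hF.step g0 g1 d1) (hG.step g0 g1 d2)
      (e := e + 1 / 2 * |(r (c + 1) - r c) - (r' (c + 1) - r' c)|) (fun y => by
        have a1 := gstep_var_lip hF g0 g1 d1 d2 y
        have a2 := gstep_nonexp hF hG g0 (r' (c + 1) - r' c) hFG y
        calc _ = |(gstep (m (c + 1)) (r (c + 1) - r c) F y
                - gstep (m (c + 1)) (r' (c + 1) - r' c) F y)
              + (gstep (m (c + 1)) (r' (c + 1) - r' c) F y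
                - gstep (m (c + 1)) (r' (c + 1) - r' c) G y)| := by congr 1; ring
          _ ≤ _ := abs_add_le _ _
          _ ≤ _ := by linarith only [a2, a1])
    linarith

/-! ### Paths -/

lemma minb_exp {k : ℕ} {m : ℕ → ℝ} (hm : Exponents k m) :
    (∀ i j, i ≤ j → j ≤ k + 1 → m i ≤ m j) ∧ (∀ l, 1 ≤ l → l ≤ k + 1 → 0 < m l) ∧
      (∀ l, l ≤ k + 1 → m l ≤ 1) := by
  obtain ⟨h0, h1, h2⟩ := hm
  have hmono : ∀ i j, i ≤ j → j ≤ k + 1 → m i ≤ m j := by
    intro i j hij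
    induction j, hij using Nat.le_induction with
    | base => intro _; exact le_rfl
    | succ j hij ih => intro hj; exact (ih (by omega)).trans (h2 j (by omega)).le
  refine ⟨hmono, fun l h3 h4 => ?_, fun l hl => ?_⟩
  · have h5 := h2 0 (by omega)
    rw [h0] at h5
    exact h5.trans_le (hmono 1 l h3 h4)
  · rw [← h1]; exact hmono l (k + 1) hl le_rfl

lemma minb_mono {n : ℕ} {r : ℕ → ℝ} (hr : ∀ l < n, r l ≤ r (l + 1)) {i j : ℕ} (hij : i ≤ j)
    (hj : j ≤ n) : r i ≤ r j := by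
  induction j, hij using Nat.le_induction with
  | base => exact le_rfl
  | succ j hij ih => exact (ih (by omega)).trans (hr j (by omega))

lemma minb_spin {k : ℕ} {m r : ℕ → ℝ} (h0 : r 0 = 0) :
    spinPart k m r = cascade m r k lc 0 - r k / 2 := by
  unfold spinPart
  rw [h0]
  simp only [Real.sqrt_zero, zero_mul]
  rw [integral_const]
  simp
  rfl

/-- extended path -/
noncomputable def minbExt (b : ℝ) (k : ℕ) (r : ℕ → ℝ) : ℕ → ℝ := fun l => if l ≤ k then r l else b ^ 2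

/-- functional on the extended paths -/
noncomputable def minbJ (b : ℝ) (k : ℕ) (m R : ℕ → ℝ) : ℝ :=
  cascade m R (k + 1) lc 0
    + (∑ l ∈ Finset.range (k + 1), (m (l + 1) - m l) * R l ^ 2) / (4 * b ^ 2)

/-- extended paths -/
def MinbP (b : ℝ) (k : ℕ) (R : ℕ → ℝ) : Prop :=
  R 0 = 0 ∧ (∀ l < k + 1, R l ≤ R (l + 1)) ∧ R (k + 1) = b ^ 2

lemma MinbP.bpath {b : ℝ} {k : ℕ} {R : ℕ → ℝ} (h : MinbP b k R) : BPath b k R :=
  ⟨h.1, ⟨h.1.ge, fun l hl => h.2.1 l (by omega)⟩, h.2.2 ▸ h.2.1 k (by omega)⟩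

lemma minb_ext_P {b : ℝ} {k : ℕ} {r : ℕ → ℝ} (h : BPath b k r) : MinbP b k (minbExt b k r) := by
  obtain ⟨h0, ⟨-, h1⟩, h2⟩ := h
  refine ⟨by simp [minbExt, h0], fun l hl => ?_, by simp [minbExt]⟩
  unfold minbExt
  by_cases hlk : l < k
  · rw [if_pos hlk.le, if_pos (by omega)]; exact h1 l hlk
  · have : l = k := by omega
    subst this
    rw [if_pos le_rfl, if_neg (by omega)]; exact h2

lemma minb_SKr_congr {b : ℝ} {k : ℕ} {m r r' : ℕ → ℝ} (h : ∀ l ≤ k, r l = r' l) :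
    SKr b k m r = SKr b k m r' := by
  unfold SKr spinPart
  rw [h 0 (by omega), h k le_rfl, minb_congr (fun _ _ _ => rfl) h]
  congr 2
  refine Finset.sum_congr rfl fun l hl => ?_
  rw [h l (by simpa [Nat.lt_succ_iff] using hl)]

lemma minb_lc_step {v : ℝ} (hv : 0 ≤ v) : gstep 1 v lc = fun x => lc x + v / 2 :=
  funext fun x => gstep_one_logcosh hv x

lemma minb_top {k : ℕ} {m R : ℕ → ℝ} (hm : Exponents k m) (hR : ∀ l < k + 1, R l ≤ R (l + 1))
    {j : ℕ} (hj : j ≤ k) :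
    cascade (fun l => m (j + l)) (fun l => R (j + l)) (k + 1 - j) lc =
      fun x => cascade (fun l => m (j + l)) (fun l => R (j + l)) (k - j) lc x
        + (R (k + 1) - R k) / 2 := by
  obtain ⟨-, e0, e1⟩ := minb_exp hm
  have h1 : k + 1 - j = (k - j) + 1 := by omega
  rw [h1, cascade_succ_def]
  have h2 : j + (k - j + 1) = k + 1 := by omega
  have h3 : j + (k - j) = k := by omega
  simp only [h2, h3]
  rw [hm.2.1, minb_lc_step (sub_nonneg.2 (hR k (by omega)))]
  exact minb_cascade_const (fun l h1 h2 => e0 _ (by omega) (by omega))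
    (fun l h1 h2 => e1 _ (by omega)) (fun l hl => by
      have := hR (j + l) (by omega)
      simpa [Nat.add_assoc] using this) adm_lc _

lemma minb_SKr_eq {b : ℝ} {k : ℕ} {m R : ℕ → ℝ} (hm : Exponents k m)
    (h : MinbP b k R) : SKr b k m R = minbJ b k m R - b ^ 2 / 4 := by
  have h1 := minb_top (j := 0) hm h.2.1 (by omega)
  simp only [Nat.zero_add, Nat.sub_zero] at h1
  unfold SKr minbJ
  rw [minb_spin h.1]
  have h2 := congrFun h1 0
  have e1 : (fun l => m l) = m := rfl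
  have e2 : (fun l => R l) = R := rfl
  rw [e1, e2, h.2.2] at h2
  rw [h2]
  ring

lemma minb_min_ext {b : ℝ} {k : ℕ} {m r : ℕ → ℝ} (hm : Exponents k m) (hr : BPath b k r)
    (hmin : ∀ r', BPath b k r' → SKr b k m r ≤ SKr b k m r') {R' : ℕ → ℝ} (h : MinbP b k R') :
    minbJ b k m (minbExt b k r) ≤ minbJ b k m R' := by
  have h1 := hmin R' h.bpath
  have h2 : SKr b k m r = SKr b k m (minbExt b k r) :=
    minb_SKr_congr fun l hl => by simp [minbExt, hl]
  rw [h2, minb_SKr_eq hm (minb_ext_P hr), minb_SKr_eq hm h] at h1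
  linarith

/-! ### Modification of one block -/

/-- modified path -/
noncomputable def minbMod (j p : ℕ) (c : ℝ) (R : ℕ → ℝ) : ℕ → ℝ :=
  fun l => if j ≤ l ∧ l < p then c else R l

lemma minb_mod_P {b : ℝ} {k j p : ℕ} {c : ℝ} {R : ℕ → ℝ} (h : MinbP b k R) (hj : 1 ≤ j)
    (hjp : j < p) (hp : p ≤ k + 1) (h0 : ∀ l < j, R l = 0) (hc : 0 ≤ c) (hcp : c ≤ R p) :
    MinbP b k (minbMod j p c R) := by
  refine ⟨?_, fun l hl => ?_, ?_⟩
  · unfold minbMod; rw [if_neg (by omega)]; exact h.1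
  · unfold minbMod
    by_cases h1 : j ≤ l ∧ l < p
    · rw [if_pos h1]
      by_cases h2 : l + 1 < p
      · rw [if_pos (by omega)]
      · rw [if_neg (by omega)]
        have : l + 1 = p := by omega
        rw [this]; exact hcp
    · rw [if_neg h1]
      by_cases h2 : j ≤ l + 1 ∧ l + 1 < p
      · rw [if_pos h2, h0 l (by omega)]; exact hc
      · rw [if_neg h2]; exact h.2.1 l hl
  · unfold minbMod; rw [if_neg (by omega)]; exact h.2.2

lemma minb_two {k j p : ℕ} {m R : ℕ → ℝ} (hm : Exponents k m) (hj : 1 ≤ j)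
    (hjp : j < p) (hp : p ≤ k + 1) (h0 : ∀ l < j, R l = 0) (h1 : ∀ l, j ≤ l → l < p → R l = R j) :
    cascade m R (k + 1) lc = gstep (m j) (R j) (gstep (m p) (R p - R j)
      (cascade (fun l => m (p + l)) (fun l => R (p + l)) (k + 1 - p) lc)) := by
  obtain ⟨-, e0, e1⟩ := minb_exp hm
  have hk : k + 1 = p + (k + 1 - p) := by omega
  conv_lhs => rw [hk, minb_split]
  have hp' : p = j + (p - j) := by omega
  generalize cascade (fun l => m (p + l)) (fun l => R (p + l)) (k + 1 - p) lc = G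
  conv_lhs => rw [hp', minb_split]
  rw [minb_block (p := p - j) (by omega) (fun l h1 h2 => (e0 _ (by omega) (by omega)).ne')
    (fun l hl => by
      simp only [Nat.add_zero]
      exact h1 (j + l) (by omega) (by omega))]
  rw [minb_block hj (fun l h1 h2 => (e0 _ (by omega) (by omega)).ne')
    (fun l hl => by rw [h0 l hl, h0 0 (by omega)])]
  simp only [Nat.add_zero]
  rw [← hp', h0 0 (by omega), sub_zero]

lemma minb_sum {k j p : ℕ} {m R : ℕ → ℝ} {c : ℝ} (hjp : j < p) (hp : p ≤ k + 1)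
    (h1 : ∀ l, j ≤ l → l < p → R l = R j) :
    ∑ l ∈ Finset.range (k + 1), (m (l + 1) - m l) * minbMod j p c R l ^ 2 =
      ∑ l ∈ Finset.range (k + 1), (m (l + 1) - m l) * R l ^ 2 +
        (m p - m j) * (c ^ 2 - R j ^ 2) := by
  have h2 : ∀ l ∈ Finset.range (k + 1), (m (l + 1) - m l) * minbMod j p c R l ^ 2 =
      (m (l + 1) - m l) * R l ^ 2 +
        if j ≤ l ∧ l < p then (m (l + 1) - m l) * (c ^ 2 - R j ^ 2) else 0 := by
    intro l _
    unfold minbMod
    by_cases h : j ≤ l ∧ l < p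
    · rw [if_pos h, if_pos h, h1 l h.1 h.2]; ring
    · rw [if_neg h, if_neg h]; ring
  rw [Finset.sum_congr rfl h2, Finset.sum_add_distrib]
  congr 1
  rw [← Finset.sum_filter]
  have h3 : (Finset.range (k + 1)).filter (fun l => j ≤ l ∧ l < p) = Finset.Ico j p := by
    ext l
    simp only [Finset.mem_filter, Finset.mem_range, Finset.mem_Ico]
    constructor
    · exact fun h => h.2
    · exact fun h => ⟨by omega, h⟩
  rw [h3, ← Finset.sum_mul, Finset.sum_Ico_sub _ hjp.le]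

/-- comparison with a competitor -/
lemma minb_comp {b : ℝ} {k j p : ℕ} {m R : ℕ → ℝ} {c : ℝ} (hm : Exponents k m)
    (h : MinbP b k R) (hmin : ∀ R', MinbP b k R' → minbJ b k m R ≤ minbJ b k m R') (hj : 1 ≤ j)
    (hjp : j < p) (hp : p ≤ k + 1) (h0 : ∀ l < j, R l = 0) (h1 : ∀ l, j ≤ l → l < p → R l = R j)
    (hc : 0 ≤ c) (hcp : c ≤ R p) :
    gstep (m j) (R j) (gstep (m p) (R p - R j)
      (cascade (fun l => m (p + l)) (fun l => R (p + l)) (k + 1 - p) lc)) 0 ≤
    gstep (m j) c (gstep (m p) (R p - c)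
      (cascade (fun l => m (p + l)) (fun l => R (p + l)) (k + 1 - p) lc)) 0 +
      (m p - m j) * (c ^ 2 - R j ^ 2) / (4 * b ^ 2) := by
  have h2 := hmin _ (minb_mod_P h hj hjp hp h0 hc hcp)
  unfold minbJ at h2
  rw [minb_sum hjp hp h1, minb_two hm hj hjp hp h0 h1] at h2
  have e1 : ∀ l < j, minbMod j p c R l = 0 := by
    intro l hl; unfold minbMod; rw [if_neg (by omega)]; exact h0 l hl
  have e2 : minbMod j p c R j = c := by unfold minbMod; rw [if_pos (by omega)]
  have e3 : ∀ l, j ≤ l → l < p → minbMod j p c R l = minbMod j p c R j := by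
    intro l h3 h4; rw [e2]; unfold minbMod; rw [if_pos (by omega)]
  have e4 : ∀ l, minbMod j p c R (p + l) = R (p + l) := by
    intro l; unfold minbMod; rw [if_neg (by omega)]
  have e5 : minbMod j p c R p = R p := e4 0
  rw [minb_two hm hj hjp hp e1 e3] at h2
  simp only [e4] at h2
  rw [e2, e5] at h2
  rw [add_div] at h2
  linarith only [h2]

/-- First block of a path which is not zero: `j` is the first index with `r j > 0`; `F` is the
function above the first block. -/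
theorem first_block {b : ℝ} (hb : 0 < b) {k : ℕ} {m : ℕ → ℝ} (hm : Exponents k m) {r : ℕ → ℝ}
    (hr : BPath b k r) (hmin : ∀ r', BPath b k r' → SKr b k m r ≤ SKr b k m r')
    (hne : 0 < r k) :
    ∃ (j : ℕ) (F : ℝ → ℝ), 1 ≤ j ∧ j ≤ k ∧ 0 < r j ∧
      Good (m (j + 1)) (2 * Real.exp (2 * b ^ 2)) F ∧
      cascade m r k lc = gstep (m j) (r j) F ∧
      gstep (m j) (r j) F 0 - m j * r j ^ 2 / (4 * b ^ 2) ≤
        gstep (m (j + 1)) (r j) F 0 - m (j + 1) * r j ^ 2 / (4 * b ^ 2) ∧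
      (r j = b ^ 2 ∨ ∃ (g₂ v : ℝ) (F₂ : ℝ → ℝ), m j < g₂ ∧ g₂ ≤ 1 ∧ 0 < v ∧
        Adm (2 * Real.exp (2 * b ^ 2)) F₂ ∧
        (∃ c : ℝ, ∀ x, F x = gstep g₂ v F₂ x + c) ∧
        ∀ τ ∈ Ioo 0 v, gstep (m j) (r j) (gstep g₂ v F₂) 0
            - (m j - g₂) * r j ^ 2 / (4 * b ^ 2) ≤
          gstep (m j) (r j + τ) (gstep g₂ (v - τ) F₂) 0
            - (m j - g₂) * (r j + τ) ^ 2 / (4 * b ^ 2)) := by
  classical
  obtain ⟨emono, e0, e1⟩ := minb_exp hm
  set R := minbExt b k r with hRdef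
  have hP : MinbP b k R := minb_ext_P hr
  have hRmin : ∀ R', MinbP b k R' → minbJ b k m R ≤ minbJ b k m R' :=
    fun R' h => minb_min_ext hm hr hmin h
  have hRr : ∀ l ≤ k, R l = r l := fun l hl => by simp [hRdef, minbExt, hl]
  have hmonoR : ∀ i j, i ≤ j → j ≤ k + 1 → R i ≤ R j := fun i j h1 h2 => minb_mono hP.2.1 h1 h2
  -- first index
  have hex : ∃ l, 0 < R l := ⟨k, by rw [hRr k le_rfl]; exact hne⟩
  set j := Nat.find hex with hj
  have hRj : 0 < R j := Nat.find_spec hex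
  have hjk : j ≤ k := Nat.find_min' hex (by rw [hRr k le_rfl]; exact hne)
  have h0 : ∀ l < j, R l = 0 := by
    intro l hl
    have h1 := Nat.find_min hex hl
    have h2 := hmonoR 0 l (by omega) (by omega)
    rw [hP.1] at h2
    linarith [not_lt.1 h1]
  have hj1 : 1 ≤ j := by
    by_contra h
    have : j = 0 := by omega
    rw [this, hP.1] at hRj
    exact lt_irrefl _ hRj
  -- constants
  have hgoodR : ∀ i n : ℕ, i + n ≤ k + 1 →
      Good (if n = 0 then 1 else m (i + 1)) (2 * Real.exp (2 * b ^ 2))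
        (cascade (fun l => m (i + l)) (fun l => R (i + l)) n lc) := by
    intro i n hin
    have h1 := good_cascade (c := n) (m := fun l => m (i + l)) (r := fun l => R (i + l)) good_lc
      le_rfl (fun l h1 h2 => e0 _ (by omega) (by omega))
      (fun l h1 h2 => emono _ _ (by omega) (by omega))
      (fun l h1 h2 => e1 _ (by omega)) (fun l hl => hP.2.1 _ (by omega))
    refine h1.mono_C ?_
    have h2 := hmonoR (i + n) (k + 1) hin le_rfl
    have h3 := hmonoR 0 (i + 0) (by omega) (by omega)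
    rw [hP.2.2] at h2
    rw [hP.1] at h3
    gcongr
    linarith only [h3, h2]
  have hadmR : ∀ i n : ℕ, i + n ≤ k + 1 → Adm (2 * Real.exp (2 * b ^ 2))
      (cascade (fun l => m (i + l)) (fun l => R (i + l)) n lc) := fun i n h => (hgoodR i n h).adm
  set F := cascade (fun l => m (j + l)) (fun l => R (j + l)) (k - j) lc with hF
  set c₀ := (R (k + 1) - R k) / 2 with hc₀
  have hFh : cascade (fun l => m (j + l)) (fun l => R (j + l)) (k + 1 - j) lc =
      fun x => F x + c₀ := minb_top hm hP.2.1 hjk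
  have hmj : 0 < m j := e0 j hj1 (by omega)
  have hmj1 : 0 < m (j + 1) := e0 (j + 1) (by omega) (by omega)
  have hadmF : Adm (2 * Real.exp (2 * b ^ 2)) F := hadmR j (k - j) (by omega)
  have hrj : r j = R j := (hRr j hjk).symm
  -- one step above `j`
  have hstep : ∀ p, j < p → p ≤ k + 1 → (∀ l, j ≤ l → l < p → R l = R j) →
      cascade (fun l => m (j + l)) (fun l => R (j + l)) (k + 1 - j) lc =
        gstep (m p) (R p - R j)
          (cascade (fun l => m (p + l)) (fun l => R (p + l)) (k + 1 - p) lc) := by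
    intro p h1 h2 h3
    have hk : k + 1 - j = (p - j) + (k + 1 - p) := by omega
    rw [hk, minb_split]
    have hp' : ∀ l, j + (p - j + l) = p + l := fun l => by omega
    simp only [hp']
    rw [minb_block (p := p - j) (by omega) (fun l h4 h5 => (e0 _ (by omega) (by omega)).ne')
      (fun l hl => by
        simp only [Nat.add_zero]
        exact h3 (j + l) (by omega) (by omega))]
    have hp'' : j + (p - j) = p := by omega
    simp only [Nat.add_zero, hp'']
  refine ⟨j, F, hj1, hjk, by rw [hrj]; exact hRj, ?_, ?_, ?_, ?_⟩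
  · have h1 := hgoodR j (k - j) (by omega)
    by_cases h2 : k - j = 0
    · rw [if_pos h2] at h1
      have : j = k := by omega
      have h3 : m (j + 1) = 1 := by rw [this]; exact hm.2.1
      rw [h3]; exact h1
    · rw [if_neg h2] at h1; exact h1
  · rw [minb_congr (r' := R) (fun _ _ _ => rfl) (fun l hl => (hRr l hl).symm)]
    have hk : k = j + (k - j) := by omega
    conv_lhs => rw [hk, minb_split]
    rw [minb_block hj1 (fun l h1 h2 => (e0 _ (by omega) (by omega)).ne')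
      (fun l hl => by rw [h0 l hl, h0 0 (by omega)]), h0 0 (by omega), sub_zero, hrj]
  · -- lowering the first block
    have h1 : ∀ l, j ≤ l → l < j + 1 → R l = R j := fun l h1 h2 => by
      have : l = j := by omega
      rw [this]
    have h2 := minb_comp (p := j + 1) (c := 0) hm hP hRmin hj1 (by omega) (by omega) h0 h1 le_rfl
      (hRj.le.trans (hmonoR j (j + 1) (by omega) (by omega)))
    rw [gstep_zero hmj.ne', sub_zero, ← hstep (j + 1) (by omega) (by omega) h1] at h2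
    have h3 := gstep_add (g := m (j + 1)) (v := R j) (v' := R (j + 1) - R j)
      (hadmR (j + 1) (k + 1 - (j + 1)) (by omega)) hmj1 hRj.le
      (sub_nonneg.2 (hP.2.1 j (by omega)))
    have h4 : R j + (R (j + 1) - R j) = R (j + 1) := by ring
    rw [h4, ← hstep (j + 1) (by omega) (by omega) h1] at h3
    rw [← h3, hFh, minb_gstep_const hadmF hmj, minb_gstep_const hadmF hmj1] at h2
    simp only at h2
    rw [hrj]
    have h5 : (m (j + 1) - m j) * (0 ^ 2 - R j ^ 2) / (4 * b ^ 2) =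
        m j * R j ^ 2 / (4 * b ^ 2) - m (j + 1) * R j ^ 2 / (4 * b ^ 2) := by ring
    rw [h5] at h2
    linarith only [h2]
  · by_cases hjb : r j = b ^ 2
    · exact Or.inl hjb
    right
    have hlt : R j < R (k + 1) := by
      have h1 := hmonoR j (k + 1) (by omega) le_rfl
      rcases h1.lt_or_eq with h2 | h2
      · exact h2
      · exact absurd (by rw [hrj, h2, hP.2.2]) hjb
    have hex2 : ∃ l, R j < R l := ⟨k + 1, hlt⟩
    set p := Nat.find hex2 with hp
    have hRp : R j < R p := Nat.find_spec hex2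
    have hpk : p ≤ k + 1 := Nat.find_min' hex2 hlt
    have hjp : j < p := by
      by_contra h
      have := hmonoR p j (by omega) (by omega)
      linarith only [this, hRp]
    have h1 : ∀ l, j ≤ l → l < p → R l = R j := by
      intro l h1 h2
      have h3 := Nat.find_min hex2 h2
      have h4 := hmonoR j l h1 (by omega)
      linarith [not_lt.1 h3]
    have hmp : m j < m p := by
      have := hm.2.2 j hjk
      exact this.trans_le (emono (j + 1) p (by omega) hpk)
    refine ⟨m p, R p - R j,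
      cascade (fun l => m (p + l)) (fun l => R (p + l)) (k + 1 - p) lc, hmp, e1 p hpk,
      sub_pos.2 hRp, hadmR p (k + 1 - p) (by omega), ⟨-c₀, fun x => ?_⟩, ?_⟩
    · rw [← hstep p hjp hpk h1, hFh]
      ring
    · intro τ hτ
      have h2 := minb_comp (p := p) (c := R j + τ) hm hP hRmin hj1 hjp hpk h0 h1
        (by linarith only [hτ.1, hRj]) (by linarith only [hτ.2])
      have h3 : R p - (R j + τ) = R p - R j - τ := by ring
      rw [h3] at h2
      rw [hrj]
      have h5 : (m p - m j) * ((R j + τ) ^ 2 - R j ^ 2) / (4 * b ^ 2) =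
        (m j - m p) * R j ^ 2 / (4 * b ^ 2) - (m j - m p) * (R j + τ) ^ 2 / (4 * b ^ 2) := by ring
      rw [h5] at h2
      linarith only [h2]

/-! ### Existence of minimisers -/

/-- extension of a finite path -/
noncomputable def minbFin (k : ℕ) (x : Fin (k + 1) → ℝ) : ℕ → ℝ :=
  fun l => if h : l < k + 1 then x ⟨l, h⟩ else 0

lemma minb_fin_cont (k l : ℕ) : Continuous fun x : Fin (k + 1) → ℝ => minbFin k x l := by
  unfold minbFin
  by_cases h : l < k + 1
  · simp only [dif_pos h]; exact continuous_apply _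
  · simp only [dif_neg h]; exact continuous_const

lemma minb_fin_dist (k l : ℕ) (x y : Fin (k + 1) → ℝ) :
    |minbFin k x l - minbFin k y l| ≤ dist x y := by
  unfold minbFin
  by_cases h : l < k + 1
  · simp only [dif_pos h]
    rw [← Real.dist_eq]
    exact dist_le_pi_dist x y _
  · simp only [dif_neg h, sub_zero, abs_zero]
    exact dist_nonneg

theorem exists_min {b : ℝ} (hb : 0 < b) {k : ℕ} {m : ℕ → ℝ} (hm : Exponents k m) :
    ∃ r, BPath b k r ∧ ∀ r', BPath b k r' → SKr b k m r ≤ SKr b k m r' := by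
  obtain ⟨emono, e0, e1⟩ := minb_exp hm
  set X : Set (Fin (k + 1) → ℝ) := {x | BPath b k (minbFin k x)} with hX
  have hclosed : IsClosed X := by
    have h1 : X = {x | minbFin k x 0 = 0} ∩ ({x | 0 ≤ minbFin k x 0} ∩
        (⋂ l : ℕ, ⋂ _ : l < k, {x | minbFin k x l ≤ minbFin k x (l + 1)})) ∩
        {x | minbFin k x k ≤ b ^ 2} := by
      ext x
      simp only [hX, BPath, Vale.Agent.P157.Par.Path, Set.mem_ofPred_eq, mem_inter_iff, mem_iInter]
      tauto
    rw [h1]
    refine IsClosed.inter (IsClosed.inter ?_ (IsClosed.inter ?_ ?_)) ?_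
    · exact isClosed_eq (minb_fin_cont k 0) continuous_const
    · exact isClosed_le continuous_const (minb_fin_cont k 0)
    · exact isClosed_iInter fun l => isClosed_iInter fun _ =>
        isClosed_le (minb_fin_cont k l) (minb_fin_cont k (l + 1))
    · exact isClosed_le (minb_fin_cont k k) continuous_const
  have hsub : X ⊆ Icc (fun _ => 0) (fun _ => b ^ 2) := by
    intro x hx
    obtain ⟨h0, ⟨-, h1⟩, h2⟩ := hx
    have key : ∀ i : Fin (k + 1), minbFin k x i = x i := fun i => by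
      unfold minbFin; rw [dif_pos i.2]
    constructor
    · intro i
      have := minb_mono h1 (Nat.zero_le i) (by omega)
      rw [h0, key i] at this
      exact this
    · intro i
      have := minb_mono h1 (i := i) (j := k) (by omega) le_rfl
      rw [key i] at this
      exact this.trans h2
  have hcomp : IsCompact X := (isCompact_Icc).of_isClosed_subset hclosed hsub
  have hne : X.Nonempty := by
    refine ⟨fun _ => 0, ?_⟩
    have : minbFin k (fun _ => 0) = fun _ => 0 := by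
      funext l; unfold minbFin; split_ifs <;> rfl
    rw [hX, Set.mem_ofPred_eq, this]
    exact ⟨rfl, ⟨le_rfl, fun _ _ => le_rfl⟩, by positivity⟩
  have hlip : LipschitzOnWith (Real.toNNReal k)
      (fun x : Fin (k + 1) → ℝ => cascade m (minbFin k x) k lc 0) X := by
    apply LipschitzOnWith.of_dist_le_mul
    intro x hx y hy
    have h1 := minb_cascade_lip (c := k) (fun l h1 h2 => e0 l h1 (by omega))
      (fun l h1 h2 => e1 l (by omega)) hx.2.1.2 hy.2.1.2 adm_lc adm_lc (e := 0)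
      (fun z => by simp) 0
    rw [Real.dist_eq]
    refine h1.trans ?_
    rw [zero_add, Real.coe_toNNReal _ (Nat.cast_nonneg k)]
    have h2 : ∑ l ∈ Finset.range k, |(minbFin k x (l + 1) - minbFin k x l)
        - (minbFin k y (l + 1) - minbFin k y l)| ≤ ∑ l ∈ Finset.range k, 2 * dist x y := by
      refine Finset.sum_le_sum fun l _ => ?_
      have a1 := minb_fin_dist k (l + 1) x y
      have a2 := minb_fin_dist k l x y
      calc _ = |(minbFin k x (l + 1) - minbFin k y (l + 1))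
            - (minbFin k x l - minbFin k y l)| := by congr 1; ring
        _ ≤ _ := abs_sub _ _
        _ ≤ _ := by linarith only [a2, a1]
    rw [Finset.sum_const, Finset.card_range, nsmul_eq_mul] at h2
    linarith only [h2]
  have hcont : ContinuousOn (fun x : Fin (k + 1) → ℝ => SKr b k m (minbFin k x)) X := by
    have h1 : ContinuousOn (fun x : Fin (k + 1) → ℝ =>
        cascade m (minbFin k x) k lc 0 - minbFin k x k / 2 + b ^ 2 / 4
          + (∑ l ∈ Finset.range (k + 1), (m (l + 1) - m l) * minbFin k x l ^ 2) /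
            (4 * b ^ 2)) X := by
      refine ContinuousOn.add (ContinuousOn.add (ContinuousOn.sub hlip.continuousOn ?_) ?_) ?_
      · exact ((minb_fin_cont k k).div_const 2).continuousOn
      · exact continuousOn_const
      · refine (Continuous.div_const (continuous_finsetSum _ fun l _ => ?_) _).continuousOn
        exact continuous_const.mul ((minb_fin_cont k l).pow 2)
    refine h1.congr fun x hx => ?_
    simp only [SKr]
    rw [minb_spin hx.1]
  obtain ⟨x, hx, hxm⟩ := hcomp.exists_isMinOn hne hcont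
  refine ⟨minbFin k x, hx, fun r' hr' => ?_⟩
  have h1 : ∀ l ≤ k, r' l = minbFin k (fun i => r' i) l := fun l hl => by
    unfold minbFin; rw [dif_pos (by omega)]
  have h2 : BPath b k (minbFin k (fun i => r' i)) := by
    obtain ⟨a0, ⟨a1, a2⟩, a3⟩ := hr'
    refine ⟨by rw [← h1 0 (by omega)]; exact a0, ⟨by rw [← h1 0 (by omega)]; exact a1,
      fun l hl => ?_⟩, by rw [← h1 k le_rfl]; exact a3⟩
    rw [← h1 l (by omega), ← h1 (l + 1) (by omega)]; exact a2 l hl
  rw [minb_SKr_congr h1]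
  exact hxm h2

end Vale.Agent.P146.Gap
end

section

/-! # VARI: the two variations at a minimiser -/

open MeasureTheory ProbabilityTheory Filter Topology Set

namespace Vale.Agent.P146.Gap

open Vale.Agent.P157.Par

theorem vari_sm {C : ℝ} {F : ℝ → ℝ} (h : Adm C F) :
    Sm 1 1 F (iteratedDeriv 1 F) (iteratedDeriv 2 F) := by
  have hs := h.smb.smooth
  refine ⟨fun x => ?_, fun x => ?_, ?_, fun x => ?_, fun x => ?_⟩
  · rw [iteratedDeriv_one]
    exact ((hs.differentiable (by simp)) x).hasDerivAt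
  · have h1 : iteratedDeriv 2 F = deriv (iteratedDeriv 1 F) := iteratedDeriv_succ
    rw [h1]
    have h2 : Differentiable ℝ (iteratedDeriv 1 F) :=
      hs.differentiable_iteratedDeriv 1 (by exact_mod_cast ENat.natCast_lt_top 1)
    exact (h2 x).hasDerivAt
  · exact hs.continuous_iteratedDeriv 2 (by norm_cast)
  · have h1 := h.pos x
    have h2 := h.le1 x
    exact (sq_le_one_iff_abs_le_one _).1 (by linarith)
  · have h1 := h.pos x
    have h2 := h.le1 x
    rw [abs_of_pos h1]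
    have := sq_nonneg (iteratedDeriv 1 F x)
    linarith

/-- interpolation between the function and its second derivative -/
theorem vari_interp {f f1 f2 : ℝ → ℝ} (h1 : ∀ x, HasDerivAt f (f1 x) x)
    (h2 : ∀ x, HasDerivAt f1 (f2 x) x) (hb : ∀ x, |f2 x| ≤ 1) {e d : ℝ} (hd : 0 < d)
    (hf : ∀ x, |f x| ≤ e) (x : ℝ) : |f1 x| ≤ 2 * e / d + d := by
  obtain ⟨y, hy, hslope⟩ := exists_hasDerivAt_eq_slope f f1 (show x < x + d by linarith)
    (fun z _ => (h1 z).continuousAt.continuousWithinAt) (fun z _ => h1 z)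
  have h3 : |f1 y - f1 x| ≤ 1 * |y - x| := by
    have := convex_univ.norm_image_sub_le_of_norm_hasDerivWithin_le (f := f1) (f' := f2)
      (s := Set.univ) (fun x _ => (h2 x).hasDerivWithinAt) (fun x _ => hb x)
      (mem_univ x) (mem_univ y)
    simpa only [Real.norm_eq_abs] using this
  have h4 : |y - x| ≤ d := by
    rw [abs_of_pos (by linarith [hy.1])]
    linarith [hy.2]
  have h5 : |f1 y| ≤ 2 * e / d := by
    rw [hslope, add_sub_cancel_left, abs_div, abs_of_pos hd]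
    gcongr
    calc |f (x + d) - f x| ≤ |f (x + d)| + |f x| := abs_sub _ _
      _ ≤ 2 * e := by linarith [hf (x + d), hf x]
  calc |f1 x| = |f1 y - (f1 y - f1 x)| := by ring_nf
    _ ≤ |f1 y| + |f1 y - f1 x| := abs_sub _ _
    _ ≤ 2 * e / d + d := by linarith only [h5, h4, h3]

theorem vari_exp {y : ℝ} (hy : 0 ≤ y) : Real.exp (-y) ≤ 1 - y + y ^ 2 / 2 := by
  have h1 := Real.quadratic_le_exp_of_nonneg hy
  have h2 : 0 < 1 + y + y ^ 2 / 2 := by positivity
  have h3 : Real.exp (-y) ≤ 1 / (1 + y + y ^ 2 / 2) := by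
    rw [Real.exp_neg, ← one_div]
    exact one_div_le_one_div_of_le h2 h1
  refine h3.trans ?_
  rw [div_le_iff₀ h2]
  have h4 : (1 - y + y ^ 2 / 2) * (1 + y + y ^ 2 / 2) = 1 + (y ^ 2) ^ 2 / 4 := by ring
  rw [h4]
  have := sq_nonneg (y ^ 2)
  linarith only [this]

/-- the logarithm of the tilted average -/
theorem vari_log {C : ℝ} {H d : ℝ → ℝ} (h : Adm C H) (hd : Continuous d) {c g s : ℝ}
    (hg : 0 < g) (h0 : ∀ x, 0 ≤ d x) (hc : ∀ x, d x ≤ c) (x : ℝ) :
    gstep g s (fun y => H y - d y) x - gstep g s H x ≤ -tlt g s H d x + g / 2 * c ^ 2 := by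
  have hsm := vari_sm h
  have hHc := hsm.cont
  have hc0 : 0 ≤ c := (h0 0).trans (hc 0)
  have hBpos := hsm.int_exp_pos g s x
  set B := ∫ z, Real.exp (g * H (x + √s * z)) ∂(gaussianReal 0 1) with hB
  have hexp : ∀ y, Real.exp (g * (H y - d y)) = Real.exp (-(g * d y)) * Real.exp (g * H y) := by
    intro y
    rw [← Real.exp_add]
    congr 1
    ring
  have hbd : ∀ y, |Real.exp (-(g * d y))| ≤ 1 := by
    intro y
    rw [abs_of_pos (Real.exp_pos _), Real.exp_le_one_iff]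
    have := mul_nonneg hg.le (h0 y)
    linarith
  have hcont : Continuous fun y => Real.exp (-(g * d y)) := by fun_prop
  have hAB : (∫ z, Real.exp (g * (H (x + √s * z) - d (x + √s * z))) ∂(gaussianReal 0 1)) =
      tlt g s H (fun y => Real.exp (-(g * d y))) x * B := by
    unfold tlt
    rw [← hB, div_mul_cancel₀ _ hBpos.ne']
    exact integral_congr_ae (ae_of_all _ fun z => hexp _)
  set w := tlt g s H (fun y => Real.exp (-(g * d y))) x with hw
  have hdb : ∀ y, |d y| ≤ c := fun y => by rw [abs_of_nonneg (h0 y)]; exact hc y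
  have hw1 : w ≤ 1 - g * tlt g s H d x + g ^ 2 * c ^ 2 / 2 := by
    have e1 : ∀ y, Real.exp (-(g * d y)) ≤ (-g * d y) + (1 + g ^ 2 * c ^ 2 / 2) := by
      intro y
      have h1 : 0 ≤ g * d y := mul_nonneg hg.le (h0 y)
      have h2 := vari_exp h1
      have h3 : (g * d y) ^ 2 ≤ g ^ 2 * c ^ 2 := by
        rw [mul_pow]
        have := pow_le_pow_left₀ (h0 y) (hc y) 2
        gcongr
      linarith
    have hk1 : ∀ y, |-g * d y| ≤ g * c := fun y => by
      rw [abs_mul, abs_neg, abs_of_pos hg]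
      exact mul_le_mul_of_nonneg_left (hdb y) hg.le
    have e2 := hsm.tlt_mono (g := fun y => Real.exp (-(g * d y)))
      (g' := fun y => (-g * d y) + (1 + g ^ 2 * c ^ 2 / 2)) hcont hbd (by fun_prop)
      (K' := g * c + |1 + g ^ 2 * c ^ 2 / 2|)
      (fun y => (abs_add_le _ _).trans (add_le_add (hk1 y) le_rfl)) e1 g s x
    rw [hsm.tlt_add (g := fun y => -g * d y) (g' := fun _ => 1 + g ^ 2 * c ^ 2 / 2)
      (by fun_prop) hk1 continuous_const (fun _ => le_rfl), tlt_const_mul, hsm.tlt_const] at e2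
    linarith
  have hwpos : 0 < w := by
    have hApos : 0 < ∫ z, Real.exp (g * (H (x + √s * z) - d (x + √s * z)))
        ∂(gaussianReal 0 1) := by
      apply integral_exp_pos
      have h1 := hsm.integrable hcont hbd g s x
      refine h1.congr (ae_of_all _ fun z => ?_)
      exact (hexp _).symm
    rw [hAB] at hApos
    exact pos_of_mul_pos_left hApos hBpos.le
  have hlog : gstep g s (fun y => H y - d y) x - gstep g s H x = 1 / g * Real.log w := by
    unfold gstep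
    rw [hAB, ← hB, Real.log_mul hwpos.ne' hBpos.ne']
    ring
  rw [hlog]
  have hl := Real.log_le_sub_one_of_pos hwpos
  calc 1 / g * Real.log w ≤ 1 / g * (-(g * tlt g s H d x) + g ^ 2 * c ^ 2 / 2) := by
        gcongr
        linarith only [hl, hw1]
    _ = -tlt g s H d x + g / 2 * c ^ 2 := by field_simp

theorem vari_e0 (g : ℝ) (F : ℝ → ℝ) : (fun s x => gstep g s F x) = fun s x => fj g F 0 s x := by
  funext s x
  unfold fj
  rw [iteratedDeriv_zero]

theorem vari_ds {g a : ℝ} {F : ℝ → ℝ} (h : SmB F) (hg : 0 < g) {s : ℝ} (hs : s < a) (x : ℝ) :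
    HasDerivAt (fun s => fj g F 0 (a - s) x)
      (-(1 / 2 * (fj g F 2 (a - s) x + g * fj g F 1 (a - s) x ^ 2))) s := by
  have h1 := fj_s0 h hg (show 0 < a - s by linarith) x
  have h2 : HasDerivAt (fun s => a - s) (-1) s := by
    simpa using (hasDerivAt_id s).const_sub a
  have h3 := h1.comp s h2
  refine h3.congr_deriv ?_
  ring

theorem vari_d1 {g : ℝ} {F : ℝ → ℝ} (h : SmB F) (hg : 0 < g) (s x : ℝ) :
    HasDerivAt (fun x => fj g F 0 s x) (fj g F 1 s x) x := by
  have h1 := fj_x h hg 0 s x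
  rwa [zero_add] at h1

theorem vari_d2 {g : ℝ} {F : ℝ → ℝ} (h : SmB F) (hg : 0 < g) (s x : ℝ) :
    HasDerivAt (fun x => fj g F 1 s x) (fj g F 2 s x) x := by
  have h1 := fj_x h hg 1 s x
  rwa [one_add_one_eq_two] at h1

theorem vari_b1 {g : ℝ} {F : ℝ → ℝ} (h : SmB F) (hg : 0 < g) :
    ∃ C : ℝ, ∀ s x, |fj g F 1 s x| ≤ C := by
  have h1 := fj_bd h hg 0
  rwa [zero_add] at h1

theorem vari_b2 {g : ℝ} {F : ℝ → ℝ} (h : SmB F) (hg : 0 < g) :
    ∃ C : ℝ, ∀ s x, |fj g F 2 s x| ≤ C := by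
  have h1 := fj_bd h hg 1
  rwa [one_add_one_eq_two] at h1

theorem vari_c {g a : ℝ} {F : ℝ → ℝ} (h : SmB F) (hg : 0 < g) (j : ℕ) :
    Continuous fun p : ℝ × ℝ => fj g F j (a - p.1) p.2 :=
  (fj_cont h hg j).comp (g := fun p : ℝ × ℝ => fj g F j p.1 p.2)
    (f := fun p : ℝ × ℝ => (a - p.1, p.2)) (by fun_prop)

theorem vari_fam0 {a : ℝ} {u u1 u2 : ℝ → ℝ → ℝ} {g C1 C2 : ℝ} (hg : 0 < g)
    (d1 : ∀ s x, HasDerivAt (u s) (u1 s x) x) (d2 : ∀ s x, HasDerivAt (u1 s) (u2 s x) x)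
    (ds : ∀ s < a, ∀ x, HasDerivAt (fun s => u s x)
      (-(1 / 2 * (u2 s x + g * u1 s x ^ 2))) s)
    (c0 : Continuous fun p : ℝ × ℝ => u p.1 p.2) (c1 : Continuous fun p : ℝ × ℝ => u1 p.1 p.2)
    (c2 : Continuous fun p : ℝ × ℝ => u2 p.1 p.2) (b1 : ∀ s x, |u1 s x| ≤ C1)
    (b2 : ∀ s x, |u2 s x| ≤ C2) :
    Fam 0 a u u1 u2 (fun s x => -(1 / 2 * (u2 s x + g * u1 s x ^ 2))) := by
  refine { d1 := fun s _ x => d1 s x, d2 := fun s _ x => d2 s x,
           ds := fun s hs x => ds s hs.2 x, c0 := c0.continuousOn, c1 := c1.continuousOn,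
           c2 := c2.continuousOn, cs := ?_, b1 := ⟨C1, fun s _ x => b1 s x⟩,
           b2 := ⟨C2, fun s _ x => b2 s x⟩,
           bs := ⟨1 / 2 * (C2 + g * C1 ^ 2), fun s _ x => ?_⟩ }
  · exact (continuous_const.mul (c2.add (continuous_const.mul (c1.pow 2)))).neg.continuousOn
  · rw [abs_neg, abs_mul, abs_of_pos (by norm_num : (0 : ℝ) < 1 / 2)]
    refine mul_le_mul_of_nonneg_left ?_ (by norm_num)
    refine (abs_add_le _ _).trans (add_le_add (b2 s x) ?_)
    rw [abs_mul, abs_of_pos hg, abs_pow]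
    exact mul_le_mul_of_nonneg_left (pow_le_pow_left₀ (abs_nonneg _) (b1 s x) 2) hg.le

/-- the family `s ↦ gstep g (a - s) F` -/
theorem vari_fam {g a : ℝ} {F : ℝ → ℝ} (h : SmB F) (hg : 0 < g) :
    Fam 0 a (fun s x => fj g F 0 (a - s) x) (fun s x => fj g F 1 (a - s) x)
      (fun s x => fj g F 2 (a - s) x)
      (fun s x => -(1 / 2 * (fj g F 2 (a - s) x + g * fj g F 1 (a - s) x ^ 2))) := by
  obtain ⟨C1, hC1⟩ := vari_b1 h hg
  obtain ⟨C2, hC2⟩ := vari_b2 h hg
  exact vari_fam0 (u := fun s x => fj g F 0 (a - s) x) (u1 := fun s x => fj g F 1 (a - s) x)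
    (u2 := fun s x => fj g F 2 (a - s) x) hg (fun s x => vari_d1 h hg (a - s) x)
    (fun s x => vari_d2 h hg (a - s) x) (fun s hs x => vari_ds h hg hs x) (vari_c h hg 0)
    (vari_c h hg 1) (vari_c h hg 2) (fun s x => hC1 (a - s) x) (fun s x => hC2 (a - s) x)

/-- the integrand of `gstep_diff` is continuous -/
theorem vari_cont {C g g' a : ℝ} {F : ℝ → ℝ} (h : Adm C F) (hg : 0 < g) (x : ℝ) :
    ContinuousOn (fun t => tlt g' t (gstep g (a - t) F)
      (fun y => iteratedDeriv 1 (gstep g (a - t) F) y ^ 2) x) (Icc 0 a) := by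
  obtain ⟨C1, hC1⟩ := vari_b1 h.smb hg
  have c1 : Continuous fun p : ℝ × ℝ => fj g F 1 (a - p.1) p.2 ^ 2 :=
    (vari_c h.smb hg 1).pow 2
  have h1 := (vari_fam h.smb hg (a := a)).tlt_cont (g := fun s x => fj g F 1 (a - s) x ^ 2)
    c1.continuousOn (B := C1 ^ 2) (fun s _ x => by
      rw [abs_pow]; exact pow_le_pow_left₀ (abs_nonneg _) (hC1 (a - s) x) 2) g' 0 1
  have h2 : ContinuousOn (fun t : ℝ => ((t, x) : ℝ × ℝ)) (Icc 0 a) := by fun_prop
  have h3 := h1.comp h2 (fun t ht => ⟨ht, mem_univ _⟩)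
  refine h3.congr fun t _ => ?_
  simp only [Function.comp, zero_add, mul_one]
  have e1 : (fun x => fj g F 0 (a - t) x) = gstep g (a - t) F :=
    (congrFun (vari_e0 g F) (a - t)).symm
  rw [e1]
  rfl

theorem vari_up {b C g g' s₁ : ℝ} {F : ℝ → ℝ} (hb : 0 < b) (h : Adm C F) (hg : 0 < g)
    (hgg : g < g') (hg'1 : g' ≤ 1) (hs : 0 < s₁)
    (hmin : gstep g s₁ F 0 - g * s₁ ^ 2 / (4 * b ^ 2) ≤
      gstep g' s₁ F 0 - g' * s₁ ^ 2 / (4 * b ^ 2)) :
    s₁ ^ 2 / (2 * b ^ 2) ≤ ∫ τ in (0 : ℝ)..s₁, Rf g' g s₁ F τ := by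
  have h1 := gstep_diff h hg (hgg.le.trans hg'1) (hg.trans hgg) hg'1 hs.le 0
  have h2 : (∫ τ in (0 : ℝ)..s₁, tlt g' τ (gstep g (s₁ - τ) F)
      (fun y => iteratedDeriv 1 (gstep g (s₁ - τ) F) y ^ 2) 0)
      = ∫ τ in (0 : ℝ)..s₁, Rf g' g s₁ F τ := rfl
  rw [h2] at h1
  set I := ∫ τ in (0 : ℝ)..s₁, Rf g' g s₁ F τ with hI
  have h3 : 0 < g' - g := by linarith only [hgg]
  have h4 : (g' - g) * (s₁ ^ 2 / (2 * b ^ 2)) ≤ (g' - g) * I := by
    have h5 : (g' - g) * (s₁ ^ 2 / (2 * b ^ 2))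
        = 2 * (g' * s₁ ^ 2 / (4 * b ^ 2) - g * s₁ ^ 2 / (4 * b ^ 2)) := by
      field_simp
      ring
    rw [h5]
    linarith only [h1, hmin]
  exact le_of_mul_le_mul_left h4 h3

theorem vari_abs1 {C : ℝ} {F : ℝ → ℝ} (h : Adm C F) (x : ℝ) : |iteratedDeriv 1 F x| ≤ 1 :=
  (vari_sm h).bM x

theorem vari_d2_01 {C : ℝ} {F : ℝ → ℝ} (h : Adm C F) (x : ℝ) :
    0 < iteratedDeriv 2 F x ∧ iteratedDeriv 2 F x ≤ 1 := by
  refine ⟨h.pos x, ?_⟩
  have h2 := h.le1 x
  have := sq_nonneg (iteratedDeriv 1 F x)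
  linarith

/-- two admissible functions which are close have close derivatives -/
theorem vari_close {C C' τ : ℝ} {K H : ℝ → ℝ} (hK : Adm C K) (hH : Adm C' H) (hτ : 0 < τ)
    (hc : ∀ x, |K x - H x| ≤ τ / 2) (x : ℝ) :
    iteratedDeriv 1 H x ^ 2 - 4 * √τ ≤ iteratedDeriv 1 K x ^ 2 := by
  have sK := vari_sm hK
  have sH := vari_sm hH
  have hq : 0 < √τ := Real.sqrt_pos.2 hτ
  have hb : ∀ x, |iteratedDeriv 2 K x - iteratedDeriv 2 H x| ≤ 1 := by
    intro x
    have h1 := vari_d2_01 hK x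
    have h2 := vari_d2_01 hH x
    rw [abs_le]
    constructor <;> linarith [h1.1, h1.2, h2.1, h2.2]
  have h1 := vari_interp (f := fun x => K x - H x)
    (f1 := fun x => iteratedDeriv 1 K x - iteratedDeriv 1 H x)
    (f2 := fun x => iteratedDeriv 2 K x - iteratedDeriv 2 H x)
    (fun x => (sK.d1 x).sub (sH.d1 x)) (fun x => (sK.d2 x).sub (sH.d2 x)) hb hq hc x
  have h2 : 2 * (τ / 2) / √τ + √τ = 2 * √τ := by
    have h3 : 2 * (τ / 2) / √τ = √τ := by
      rw [div_eq_iff hq.ne', Real.mul_self_sqrt hτ.le]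
      ring
    rw [h3]
    ring
  rw [h2] at h1
  have hk := vari_abs1 hK x
  have hh := vari_abs1 hH x
  have h4 : |(iteratedDeriv 1 K x - iteratedDeriv 1 H x)
      * (iteratedDeriv 1 K x + iteratedDeriv 1 H x)| ≤ 2 * √τ * 2 := by
    rw [abs_mul]
    refine mul_le_mul h1 ?_ (abs_nonneg _) (by positivity)
    exact (abs_add_le _ _).trans (by linarith only [hh, hk])
  have h5 := (abs_le.1 h4).1
  have h6 : (iteratedDeriv 1 K x - iteratedDeriv 1 H x)
      * (iteratedDeriv 1 K x + iteratedDeriv 1 H x)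
      = iteratedDeriv 1 K x ^ 2 - iteratedDeriv 1 H x ^ 2 := by ring
  rw [h6] at h5
  linarith only [h5]

/-- lower bound of the integrand -/
theorem vari_integrand {C g g₂ τ t : ℝ} {G : ℝ → ℝ} (hG : Adm C G) (hg : 0 < g)
    (hgg : g < g₂) (hg1 : g₂ ≤ 1) (hτ : 0 < τ) (ht : t ∈ Icc 0 τ) (x : ℝ) :
    iteratedDeriv 1 (gstep g₂ τ G) x ^ 2 - 4 * √τ ≤ tlt g₂ t (gstep g (τ - t) G)
      (fun y => iteratedDeriv 1 (gstep g (τ - t) G) y ^ 2) x := by
  have hg₂ : 0 < g₂ := hg.trans hgg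
  have ht0 := ht.1
  have htτ : 0 ≤ τ - t := by linarith [ht.2]
  have hK0 := hG.step hg (hgg.le.trans hg1) htτ
  have hK1 := hG.step hg₂ hg1 htτ
  have hK := hK0.step hg₂ hg1 ht0
  have hH := hG.step hg₂ hg1 hτ.le
  have hHe : gstep g₂ t (gstep g₂ (τ - t) G) = gstep g₂ τ G := by
    rw [gstep_add hG hg₂ ht0 htτ]
    congr 1
    ring
  have hclose0 : ∀ y, |gstep g (τ - t) G y - gstep g₂ (τ - t) G y| ≤ τ / 2 := by
    intro y
    have h1 := gstep_exp_mono hG hg hgg.le hg1 htτ y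
    have h2 := gstep_exp_lip hG hg hgg.le hg1 htτ y
    have h3 : 1 / 2 * (g₂ - g) * (τ - t) ≤ 1 / 2 * 1 * τ := by
      refine mul_le_mul (by linarith only [hg1, hg]) (by linarith only [ht0]) htτ (by norm_num)
    rw [abs_le]
    constructor <;> linarith
  have hclose : ∀ y, |gstep g₂ t (gstep g (τ - t) G) y - gstep g₂ τ G y| ≤ τ / 2 := by
    intro y
    rw [← hHe]
    exact gstep_nonexp hK0 hK1 hg₂ t hclose0 y
  refine (vari_close hK hH hτ hclose x).trans ?_
  have s0 := vari_sm hK0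
  have e1 : iteratedDeriv 1 (gstep g₂ t (gstep g (τ - t) G)) x
      = tlt g₂ t (gstep g (τ - t) G) (iteratedDeriv 1 (gstep g (τ - t) G)) x :=
    ((vari_sm hK).d1 x).unique ((s0.step hg₂ t).d1 x)
  rw [e1]
  exact s0.tlt_sq_le s0.cont1 s0.bM g₂ t x

theorem vari_low {C g g₂ τ : ℝ} {G : ℝ → ℝ} (hG : Adm C G) (hg : 0 < g)
    (hgg : g < g₂) (hg1 : g₂ ≤ 1) (hτ : 0 < τ) (x : ℝ) :
    1 / 2 * (g₂ - g) * (τ * (iteratedDeriv 1 (gstep g₂ τ G) x ^ 2 - 4 * √τ)) ≤
      gstep g₂ τ G x - gstep g τ G x := by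
  rw [gstep_diff hG hg (hgg.le.trans hg1) (hg.trans hgg) hg1 hτ.le x]
  refine mul_le_mul_of_nonneg_left ?_ (by linarith only [hgg])
  have h1 : (∫ _t in (0 : ℝ)..τ, (iteratedDeriv 1 (gstep g₂ τ G) x ^ 2 - 4 * √τ))
      = τ * (iteratedDeriv 1 (gstep g₂ τ G) x ^ 2 - 4 * √τ) := by
    rw [intervalIntegral.integral_const, smul_eq_mul, sub_zero]
  rw [← h1]
  exact intervalIntegral.integral_mono_on hτ.le intervalIntegrable_const
    ((vari_cont hG hg x).intervalIntegrable_of_Icc hτ.le)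
    (fun t ht => vari_integrand hG hg hgg hg1 hτ ht x)

/-- the inequality for one value of `τ` -/
theorem vari_one {b C g g₂ s₁ τ : ℝ} {G : ℝ → ℝ} (hb : 0 < b) (hG : Adm C G) (hg : 0 < g)
    (hgg : g < g₂) (hg1 : g₂ ≤ 1) (hτ : 0 < τ)
    (hmin : gstep g s₁ (gstep g₂ τ G) 0 - (g - g₂) * s₁ ^ 2 / (4 * b ^ 2) ≤
      gstep g s₁ (gstep g τ G) 0 - (g - g₂) * (s₁ + τ) ^ 2 / (4 * b ^ 2)) :
    tlt g s₁ (gstep g₂ τ G) (fun y => iteratedDeriv 1 (gstep g₂ τ G) y ^ 2) 0 ≤
      (2 * s₁ + τ) / (2 * b ^ 2) + τ + 4 * √τ := by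
  have hg₂ : 0 < g₂ := hg.trans hgg
  have hg1' : g ≤ 1 := hgg.le.trans hg1
  have hH := hG.step hg₂ hg1 hτ.le
  have hHt := hG.step hg hg1' hτ.le
  have sH := vari_sm hH
  have sHt := vari_sm hHt
  set H := gstep g₂ τ G with hHd
  set Ht := gstep g τ G with hHtd
  have hq : 0 ≤ √τ := Real.sqrt_nonneg τ
  set T := tlt g s₁ H (fun y => iteratedDeriv 1 H y ^ 2) 0 with hT
  set k := 1 / 2 * (g₂ - g) with hk
  have hk0 : 0 < k := by rw [hk]; linarith only [hgg]
  have hk1 : k ≤ 1 / 2 := by rw [hk]; linarith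
  have hd0 : ∀ x, 0 ≤ H x - Ht x := fun x => by
    have := gstep_exp_mono hG hg hgg.le hg1 hτ.le x
    linarith only [this]
  have hd1 : ∀ x, H x - Ht x ≤ k * τ := fun x => by
    have h0 := gstep_exp_lip hG hg hgg.le hg1 hτ.le x
    rw [← hk, ← hHd, ← hHtd] at h0
    linarith only [h0]
  have hdc : Continuous fun x => H x - Ht x := sH.cont.sub sHt.cont
  have h1 := vari_log (s := s₁) hH hdc hg hd0 hd1 0
  have e1 : (fun y => H y - (H y - Ht y)) = Ht := by funext y; ring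
  rw [e1] at h1
  -- lower bound of the tilted average of `d`
  have hc1 : Continuous (iteratedDeriv 1 H) := sH.cont1
  have hb1 : ∀ y, |iteratedDeriv 1 H y ^ 2| ≤ 1 := fun y => by
    rw [abs_pow]
    exact pow_le_one₀ (abs_nonneg _) (vari_abs1 hH y)
  have hb2 : ∀ y, |k * τ * iteratedDeriv 1 H y ^ 2| ≤ k * τ := fun y => by
    rw [abs_mul, abs_of_pos (mul_pos hk0 hτ)]
    exact mul_le_of_le_one_right (mul_pos hk0 hτ).le (hb1 y)
  have hlow : ∀ y, k * τ * iteratedDeriv 1 H y ^ 2 + -(k * τ * (4 * √τ)) ≤ H y - Ht y := by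
    intro y
    have h2 := vari_low hG hg hgg hg1 hτ y
    rw [← hk, ← hHd, ← hHtd] at h2
    linarith only [h2]
  have h3 := sH.tlt_mono (g := fun y => k * τ * iteratedDeriv 1 H y ^ 2 + -(k * τ * (4 * √τ)))
    (g' := fun y => H y - Ht y) (by fun_prop) (K := k * τ + |-(k * τ * (4 * √τ))|)
    (fun y => (abs_add_le _ _).trans (add_le_add (hb2 y) le_rfl)) hdc (K' := k * τ)
    (fun y => by rw [abs_of_nonneg (hd0 y)]; exact hd1 y) hlow g s₁ 0
  rw [sH.tlt_add (g := fun y => k * τ * iteratedDeriv 1 H y ^ 2)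
    (g' := fun _ => -(k * τ * (4 * √τ))) (by fun_prop) hb2 continuous_const (fun _ => le_rfl),
    tlt_const_mul, sH.tlt_const, ← hT] at h3
  -- combination
  have h4 : k * τ * (T - 4 * √τ) ≤ k * τ * ((2 * s₁ + τ) / (2 * b ^ 2)) + g / 2 * (k * τ) ^ 2 := by
    have e2 : k * τ * ((2 * s₁ + τ) / (2 * b ^ 2))
        = (g₂ - g) * (s₁ + τ) ^ 2 / (4 * b ^ 2) - (g₂ - g) * s₁ ^ 2 / (4 * b ^ 2) := by
      rw [hk]
      field_simp
      ring
    have e3 : (g - g₂) * s₁ ^ 2 / (4 * b ^ 2) = -((g₂ - g) * s₁ ^ 2 / (4 * b ^ 2)) := by ring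
    have e4 : (g - g₂) * (s₁ + τ) ^ 2 / (4 * b ^ 2) = -((g₂ - g) * (s₁ + τ) ^ 2 / (4 * b ^ 2)) := by
      ring
    rw [e2]
    rw [e3, e4] at hmin
    linarith only [h3, h1, hmin]
  have h5 : g / 2 * (k * τ) ^ 2 ≤ k * τ * τ := by
    have e5 : g / 2 * (k * τ) ^ 2 = k * τ * (g / 2 * k * τ) := by ring
    rw [e5]
    refine mul_le_mul_of_nonneg_left ?_ (mul_pos hk0 hτ).le
    have e6 : g / 2 * k ≤ 1 := by
      calc g / 2 * k ≤ 1 * (1 / 2) := mul_le_mul (by linarith only [hk0, hk, hg1, hg]) hk1 hk0.le (by norm_num)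
        _ ≤ 1 := by norm_num
    exact mul_le_of_le_one_left hτ.le e6
  have h6 : k * τ * (T - 4 * √τ) ≤ k * τ * ((2 * s₁ + τ) / (2 * b ^ 2) + τ) := by
    rw [mul_add]
    linarith only [h5, h4]
  have h7 := le_of_mul_le_mul_left h6 (mul_pos hk0 hτ)
  linarith only [h7]

theorem vari_down {b C g g₂ s₁ v : ℝ} {F : ℝ → ℝ} (hb : 0 < b) (h : Adm C F) (hg : 0 < g)
    (hgg : g < g₂) (hg1 : g₂ ≤ 1) (hs : 0 < s₁) (hv : 0 < v)
    (hmin : ∀ τ ∈ Ioo 0 v, gstep g s₁ (gstep g₂ v F) 0 - (g - g₂) * s₁ ^ 2 / (4 * b ^ 2) ≤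
      gstep g (s₁ + τ) (gstep g₂ (v - τ) F) 0 - (g - g₂) * (s₁ + τ) ^ 2 / (4 * b ^ 2)) :
    Rf g g s₁ (gstep g₂ v F) s₁ ≤ s₁ / b ^ 2 := by
  have hg₂ : 0 < g₂ := hg.trans hgg
  have hR : Rf g g s₁ (gstep g₂ v F) s₁
      = tlt g s₁ (gstep g₂ v F) (fun y => iteratedDeriv 1 (gstep g₂ v F) y ^ 2) 0 := by
    unfold Rf
    rw [sub_self, gstep_zero hg.ne']
  rw [hR]
  have key : ∀ τ ∈ Ioo 0 v, tlt g s₁ (gstep g₂ v F)
      (fun y => iteratedDeriv 1 (gstep g₂ v F) y ^ 2) 0 ≤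
      (2 * s₁ + τ) / (2 * b ^ 2) + τ + 4 * √τ := by
    intro τ hτ
    have hvt : 0 ≤ v - τ := by linarith [hτ.2]
    have hG := h.step hg₂ hg1 hvt
    have e1 : gstep g₂ τ (gstep g₂ (v - τ) F) = gstep g₂ v F := by
      rw [gstep_add h hg₂ hτ.1.le hvt]
      congr 1
      ring
    have e2 : gstep g s₁ (gstep g τ (gstep g₂ (v - τ) F))
        = gstep g (s₁ + τ) (gstep g₂ (v - τ) F) := gstep_add hG hg hs.le hτ.1.le
    have h1 := hmin τ hτ
    rw [← e1, ← e2] at h1
    have h2 := vari_one hb hG hg hgg hg1 hτ.1 h1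
    rw [e1] at h2
    exact h2
  have hlim : Tendsto (fun τ : ℝ => (2 * s₁ + τ) / (2 * b ^ 2) + τ + 4 * √τ) (𝓝[>] 0)
      (𝓝 ((2 * s₁ + 0) / (2 * b ^ 2) + 0 + 4 * √0)) := by
    refine Tendsto.mono_left (Continuous.tendsto ?_ 0) nhdsWithin_le_nhds
    fun_prop
  have h3 : (2 * s₁ + 0) / (2 * b ^ 2) + 0 + 4 * √0 = s₁ / b ^ 2 := by
    rw [Real.sqrt_zero]
    field_simp
    ring
  rw [h3] at hlim
  refine ge_of_tendsto hlim ?_
  filter_upwards [Ioo_mem_nhdsGT hv] with τ hτ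
  exact key τ hτ

end Vale.Agent.P146.Gap
end
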