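import Vale.Agent.P367.GT.Stein
import Vale.Agent.P157.ParDefs

set_option linter.all false

section

open MeasureTheory ProbabilityTheory Filter Topology Finset

namespace Vale.Agent.P157.Par

set_option linter.unusedSectionVars false

open Vale.Agent.P367.GT (gM stein_pi)

variable {J K : Type} [Fintype J] [DecidableEq J] [Fintype K] [DecidableEq K]

/-- The linear forms `Z_a(ξ) = ∑ U_{a c} ξ_c`. -/
def lin (U : J → K → ℝ) (ξ : K → ℝ) (a : J) : ℝ := ∑ c, U a c * ξ c

/-- `E ∏ f_a(Z_a)`. -/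
noncomputable def gE (U : J → K → ℝ) (f : J → ℝ → ℝ) : ℝ :=
  ∫ ξ, ∏ a, f a (lin U ξ a) ∂(gM K)

/-- The Gram matrix. -/
def gram (U V : J → K → ℝ) (a b : J) : ℝ := ∑ c, U a c * V b c

lemma measurable_lin (U : J → K → ℝ) (a : J) : Measurable fun ξ : K → ℝ => lin U ξ a := by
  unfold lin; fun_prop

lemma measurable_prod_lin {U : J → K → ℝ} {f : J → ℝ → ℝ} (hf : ∀ a, Measurable (f a))
    (s : Finset J) : Measurable fun ξ : K → ℝ => ∏ a ∈ s, f a (lin U ξ a) := by
  refine Finset.measurable_prod _ fun a _ => (hf a).comp (measurable_lin U a)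

lemma abs_prod_le {s : Finset J} {f : J → ℝ} {C : ℝ} (hf : ∀ a ∈ s, |f a| ≤ C) :
    |∏ a ∈ s, f a| ≤ C ^ s.card := by
  rw [Finset.abs_prod, ← Finset.prod_const]
  exact Finset.prod_le_prod (fun _ _ => abs_nonneg _) hf

lemma integrable_prod_lin {U : J → K → ℝ} {f : J → ℝ → ℝ} (hf : ∀ a, Measurable (f a))
    {C : ℝ} (hC : ∀ a x, |f a x| ≤ C) (s : Finset J) :
    Integrable (fun ξ : K → ℝ => ∏ a ∈ s, f a (lin U ξ a)) (gM K) := by
  refine Integrable.mono' (integrable_const (C ^ s.card))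
    (measurable_prod_lin hf s).aestronglyMeasurable (Filter.Eventually.of_forall fun ξ => ?_)
  rw [Real.norm_eq_abs]
  exact abs_prod_le fun a _ => hC a _

lemma abs_gE_le {U : J → K → ℝ} {f : J → ℝ → ℝ} {C : J → ℝ}
    (hC : ∀ a x, |f a x| ≤ C a) : |gE U f| ≤ ∏ a, C a := by
  unfold gE
  rw [← Real.norm_eq_abs]
  calc ‖∫ ξ, ∏ a, f a (lin U ξ a) ∂(gM K)‖ ≤ ∫ ξ, (∏ a, C a) ∂(gM K) := by
        refine norm_integral_le_of_norm_le (integrable_const _)
          (Filter.Eventually.of_forall fun ξ => ?_)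
        rw [Real.norm_eq_abs, Finset.abs_prod]
        exact Finset.prod_le_prod (fun _ _ => abs_nonneg _) fun a _ => hC a _
    _ = ∏ a, C a := by simp

/-- A time dependent function with two space derivatives and one time derivative, all bounded. -/
structure Nice (T : Set ℝ) (C : ℝ) (h ht hx hxx : ℝ → ℝ → ℝ) : Prop where
  m0 : ∀ t ∈ T, Measurable (h t)
  mt : ∀ t ∈ T, Measurable (ht t)
  m1 : ∀ t ∈ T, Measurable (hx t)
  m2 : ∀ t ∈ T, Measurable (hxx t)
  b0 : ∀ t ∈ T, ∀ x, |h t x| ≤ C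
  bt : ∀ t ∈ T, ∀ x, |ht t x| ≤ C
  b1 : ∀ t ∈ T, ∀ x, |hx t x| ≤ C
  b2 : ∀ t ∈ T, ∀ x, |hxx t x| ≤ C
  path : ∀ t ∈ T, ∀ (x : ℝ → ℝ) (x' : ℝ), HasDerivAt x x' t →
    HasDerivAt (fun s => h s (x s)) (ht t (x t) + hx t (x t) * x') t
  d1 : ∀ t ∈ T, ∀ x, HasDerivAt (h t) (hx t x) x
  d2 : ∀ t ∈ T, ∀ x, HasDerivAt (hx t) (hxx t x) x

/-- The functions in the second derivative of a product. -/
def D2 (h hx hxx : J → ℝ → ℝ) (a b : J) : J → ℝ → ℝ :=
  if a = b then Function.update h a (hxx a)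
  else Function.update (Function.update h a (hx a)) b (hx b)

lemma prod_update (f : J → ℝ → ℝ) (a : J) (g : ℝ → ℝ) (z : J → ℝ) :
    ∏ b, Function.update f a g b (z b) = g (z a) * ∏ b ∈ univ.erase a, f b (z b) := by
  rw [← Finset.mul_prod_erase _ _ (Finset.mem_univ a)]
  congr 1
  · simp
  · apply Finset.prod_congr rfl
    intro b hb
    rw [Function.update_of_ne (Finset.ne_of_mem_erase hb)]

lemma lin_update_hasDerivAt (U : J → K → ℝ) (ξ : K → ℝ) (c : K) (b : J) (x : ℝ) :
    HasDerivAt (fun y => lin U (Function.update ξ c y) b) (U b c) x := by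
  have h1 : (fun y => lin U (Function.update ξ c y) b) =
      fun y => U b c * y + ∑ c' ∈ univ.erase c, U b c' * ξ c' := by
    funext y
    unfold lin
    rw [← Finset.add_sum_erase _ _ (Finset.mem_univ c)]
    congr 1
    · simp
    · apply Finset.sum_congr rfl
      intro c' hc'
      rw [Function.update_of_ne (Finset.ne_of_mem_erase hc')]
  rw [h1]
  have h2 := ((hasDerivAt_id x).const_mul (U b c)).add_const
    (∑ c' ∈ univ.erase c, U b c' * ξ c')
  rwa [mul_one] at h2

/-- Integration by parts for a product. -/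
lemma stein_prod (U : J → K → ℝ) {h hx hxx : J → ℝ → ℝ} {C : ℝ}
    (m0 : ∀ a, Measurable (h a)) (m1 : ∀ a, Measurable (hx a)) (m2 : ∀ a, Measurable (hxx a))
    (b0 : ∀ a x, |h a x| ≤ C) (b1 : ∀ a x, |hx a x| ≤ C) (b2 : ∀ a x, |hxx a x| ≤ C)
    (d1 : ∀ a x, HasDerivAt (h a) (hx a x) x) (d2 : ∀ a x, HasDerivAt (hx a) (hxx a x) x)
    (a : J) (c : K) :
    ∫ ξ, ξ c * ∏ b, Function.update h a (hx a) b (lin U ξ b) ∂(gM K) =
      ∑ b, U b c * gE U (D2 h hx hxx a b) := by
  classical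
  have hC : 0 ≤ C := (abs_nonneg _).trans (b0 a 0)
  set f : J → ℝ → ℝ := Function.update h a (hx a) with hf
  set f' : J → ℝ → ℝ := Function.update hx a (hxx a) with hf'
  have mf : ∀ b, Measurable (f b) := by
    intro b
    by_cases hb : b = a
    · subst hb; simpa [hf] using m1 b
    · simpa [hf, Function.update_of_ne hb] using m0 b
  have mf' : ∀ b, Measurable (f' b) := by
    intro b
    by_cases hb : b = a
    · subst hb; simpa [hf'] using m2 b
    · simpa [hf', Function.update_of_ne hb] using m1 b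
  have bf : ∀ b x, |f b x| ≤ C := by
    intro b x
    by_cases hb : b = a
    · subst hb; simpa [hf] using b1 b x
    · simpa [hf, Function.update_of_ne hb] using b0 b x
  have bf' : ∀ b x, |f' b x| ≤ C := by
    intro b x
    by_cases hb : b = a
    · subst hb; simpa [hf'] using b2 b x
    · simpa [hf', Function.update_of_ne hb] using b1 b x
  have df : ∀ b x, HasDerivAt (f b) (f' b x) x := by
    intro b x
    by_cases hb : b = a
    · subst hb; simpa [hf, hf'] using d2 b x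
    · simpa [hf, hf', Function.update_of_ne hb] using d1 b x
  have hD : ∀ b, D2 h hx hxx a b = Function.update f b (f' b) := by
    intro b
    unfold D2
    split_ifs with hab
    · subst hab
      simp [hf, hf']
    · have hba : b ≠ a := fun h => hab h.symm
      simp [hf, hf', Function.update_of_ne hba]
  have hG' : ∀ ξ : K → ℝ, ∑ b, U b c * ∏ b', Function.update f b (f' b) b' (lin U ξ b') =
      ∑ b, (∏ b' ∈ univ.erase b, f b' (lin U ξ b')) • (f' b (lin U ξ b) * U b c) := by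
    intro ξ
    apply Finset.sum_congr rfl
    intro b _
    rw [prod_update, smul_eq_mul]
    ring
  have mU : ∀ b, Measurable fun ξ : K → ℝ => ∏ b', Function.update f b (f' b) b' (lin U ξ b') := by
    intro b
    apply measurable_prod_lin
    intro b'
    by_cases hb : b' = b
    · subst hb; simpa using mf' b'
    · simpa [Function.update_of_ne hb] using mf b'
  have bU : ∀ b b' x, |Function.update f b (f' b) b' x| ≤ C := by
    intro b b' x
    by_cases hb : b' = b
    · subst hb; simpa using bf' b' x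
    · simpa [Function.update_of_ne hb] using bf b' x
  have key := stein_pi (ι := K) c (fun ξ => ∏ b, f b (lin U ξ b))
    (fun ξ => ∑ b, U b c * ∏ b', Function.update f b (f' b) b' (lin U ξ b'))
    (max (C ^ (univ : Finset J).card) (∑ b, |U b c| * C ^ (univ : Finset J).card))
    (measurable_prod_lin mf _)
    (Finset.measurable_sum _ fun b _ => (mU b).const_mul _) ?_ ?_ ?_
  · rw [key, integral_finsetSum _ fun b _ => ?_]
    · apply Finset.sum_congr rfl
      intro b _
      rw [integral_const_mul, hD b]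
      rfl
    · apply Integrable.const_mul
      apply integrable_prod_lin (C := C)
      · intro b'
        by_cases hb : b' = b
        · subst hb; simpa using mf' b'
        · simpa [Function.update_of_ne hb] using mf b'
      · exact bU b
  · intro ξ x
    rw [hG']
    have h2 : ∀ b ∈ (univ : Finset J), HasDerivAt
        (fun y => f b (lin U (Function.update ξ c y) b))
        (f' b (lin U (Function.update ξ c x) b) * U b c) x := by
      intro b _
      exact (df b _).comp x (lin_update_hasDerivAt U ξ c b x)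
    exact HasDerivAt.fun_finsetProd h2
  · intro ξ
    exact (abs_prod_le fun b _ => bf b _).trans (le_max_left _ _)
  · intro ξ
    refine le_trans (Finset.abs_sum_le_sum_abs _ _) (le_trans ?_ (le_max_right _ _))
    apply Finset.sum_le_sum
    intro b _
    rw [abs_mul]
    exact mul_le_mul_of_nonneg_left (abs_prod_le fun b' _ => bU b b' _) (abs_nonneg _)

lemma integrable_coord_gM (c : K) : Integrable (fun ξ : K → ℝ => ξ c) (gM K) :=
  integrable_comp_eval (μ := fun _ : K => gaussianReal 0 1) (i := c) (f := fun x => x)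
    ((memLp_id_gaussianReal 1).integrable le_rfl)

lemma lin_hasDerivAt {U : ℝ → J → K → ℝ} {U' : J → K → ℝ} {t : ℝ} {a : J}
    (hU : ∀ c, HasDerivAt (fun s => U s a c) (U' a c) t) (ξ : K → ℝ) :
    HasDerivAt (fun s => lin (U s) ξ a) (lin U' ξ a) t := by
  unfold lin
  exact HasDerivAt.fun_sum fun c _ => (hU c).mul_const _

lemma abs_lin_le {U : J → K → ℝ} {B : ℝ} {a : J} (hB : ∀ c, |U a c| ≤ B) (ξ : K → ℝ) :
    |lin U ξ a| ≤ B * ∑ c, |ξ c| := by
  unfold lin
  calc |∑ c, U a c * ξ c| ≤ ∑ c, |U a c * ξ c| := Finset.abs_sum_le_sum_abs _ _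
    _ ≤ ∑ c, B * |ξ c| := by
        apply Finset.sum_le_sum
        intro c _
        rw [abs_mul]
        exact mul_le_mul_of_nonneg_right (hB c) (abs_nonneg _)
    _ = B * ∑ c, |ξ c| := by rw [Finset.mul_sum]

/-- Differentiation of `E ∏ h_a(t, Z_a(t))`. -/
theorem hasDerivAt_gE {T : Set ℝ} (hT : IsOpen T) {C : ℝ} {h ht hx hxx : J → ℝ → ℝ → ℝ}
    (hn : ∀ a, Nice T C (h a) (ht a) (hx a) (hxx a)) {U U' : ℝ → J → K → ℝ}
    (hU : ∀ t ∈ T, ∀ a c, HasDerivAt (fun s => U s a c) (U' t a c) t) {t : ℝ} (htT : t ∈ T)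
    {B : ℝ} (hB : ∀ᶠ s in 𝓝 t, ∀ a c, |U' s a c| ≤ B) :
    HasDerivAt (fun s => gE (U s) (fun a => h a s))
      (∑ a, gE (U t) (Function.update (fun a => h a t) a (ht a t)) +
        ∑ a, ∑ b, gram (U' t) (U t) a b *
          gE (U t) (D2 (fun a => h a t) (fun a => hx a t) (fun a => hxx a t) a b)) t := by
  classical
  rcases isEmpty_or_nonempty J with hJ | hJ
  · simp only [Finset.univ_eq_empty, Finset.sum_empty, add_zero, gE, Finset.prod_empty]
    exact hasDerivAt_const _ _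
  have hC : 0 ≤ C := (abs_nonneg _).trans ((hn hJ.some).b0 t htT 0)
  obtain ⟨V, hVT, hVopen, hVt⟩ : ∃ V : Set ℝ, (∀ s ∈ V, s ∈ T ∧ ∀ a c, |U' s a c| ≤ B) ∧
      IsOpen V ∧ t ∈ V := by
    have h0 : ∀ᶠ s in 𝓝 t, s ∈ T := hT.mem_nhds htT
    obtain ⟨V, h1, h2, h3⟩ := eventually_nhds_iff.1 (h0.and hB)
    exact ⟨V, fun s hs => h1 s hs, h2, h3⟩
  set F : ℝ → (K → ℝ) → ℝ := fun s ξ => ∏ a, h a s (lin (U s) ξ a) with hF
  set F' : ℝ → (K → ℝ) → ℝ := fun s ξ => ∑ a, (∏ b ∈ univ.erase a, h b s (lin (U s) ξ b)) •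
    (ht a s (lin (U s) ξ a) + hx a s (lin (U s) ξ a) * lin (U' s) ξ a) with hF'
  have hd : ∀ s ∈ V, ∀ ξ, HasDerivAt (fun s => F s ξ) (F' s ξ) s := by
    intro s hs ξ
    apply HasDerivAt.fun_finsetProd
    intro a _
    exact (hn a).path s (hVT s hs).1 _ _ (lin_hasDerivAt (hU s (hVT s hs).1 a) ξ)
  set q := (univ : Finset J).card with hq
  have hbound : ∀ s ∈ V, ∀ ξ, ‖F' s ξ‖ ≤ ∑ _a : J, ((1 + C) ^ q * ((1 + C) * (1 + |B| * ∑ c, |ξ c|))) := by
    intro s hs ξ
    rw [hF', Real.norm_eq_abs]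
    refine (Finset.abs_sum_le_sum_abs _ _).trans (Finset.sum_le_sum fun a _ => ?_)
    rw [smul_eq_mul, abs_mul]
    have h1 : |∏ b ∈ univ.erase a, h b s (lin (U s) ξ b)| ≤ (1 + C) ^ q := by
      have h2 := abs_prod_le (s := univ.erase a) (f := fun b => h b s (lin (U s) ξ b)) (C := 1 + C)
        (fun b _ => ((hn b).b0 s (hVT s hs).1 _).trans (by linarith only []))
      refine h2.trans (pow_le_pow_right₀ (by linarith) ?_)
      exact Finset.card_le_card (Finset.erase_subset _ _)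
    have h3 : |ht a s (lin (U s) ξ a) + hx a s (lin (U s) ξ a) * lin (U' s) ξ a| ≤
        (1 + C) * (1 + |B| * ∑ c, |ξ c|) := by
      have h4 := (hn a).bt s (hVT s hs).1 (lin (U s) ξ a)
      have h5 := (hn a).b1 s (hVT s hs).1 (lin (U s) ξ a)
      have h6 : |lin (U' s) ξ a| ≤ |B| * ∑ c, |ξ c| :=
        abs_lin_le (fun c => ((hVT s hs).2 a c).trans (le_abs_self B)) ξ
      have h7 : 0 ≤ ∑ c, |ξ c| := Finset.sum_nonneg fun _ _ => abs_nonneg _
      have h8 : 0 ≤ |B| * ∑ c, |ξ c| := mul_nonneg (abs_nonneg _) h7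
      calc _ ≤ |ht a s (lin (U s) ξ a)| + |hx a s (lin (U s) ξ a)| * |lin (U' s) ξ a| := by
            rw [← abs_mul]; exact abs_add_le _ _
        _ ≤ C + C * (|B| * ∑ c, |ξ c|) :=
            add_le_add h4 (mul_le_mul h5 h6 (abs_nonneg _) hC)
        _ ≤ _ := by linarith only [h8]
    exact mul_le_mul h1 h3 (abs_nonneg _) (by positivity)
  have hint : Integrable (fun ξ : K → ℝ =>
      ∑ _a : J, ((1 + C) ^ q * ((1 + C) * (1 + |B| * ∑ c, |ξ c|)))) (gM K) := by
    apply integrable_finsetSum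
    intro a _
    apply Integrable.const_mul
    apply Integrable.const_mul
    apply (integrable_const _).add
    apply Integrable.const_mul
    exact integrable_finsetSum _ fun c _ => (integrable_coord_gM c).abs
  have hFm : ∀ s ∈ V, Measurable (F s) := fun s hs =>
    measurable_prod_lin (f := fun a => h a s) (fun a => (hn a).m0 s (hVT s hs).1) _
  have hF'm : Measurable (F' t) := by
    apply Finset.measurable_sum
    intro a _
    apply Measurable.mul
    · exact measurable_prod_lin (f := fun a => h a t) (fun a => (hn a).m0 t htT) _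
    · exact (((hn a).mt t htT).comp (measurable_lin _ _)).add
        ((((hn a).m1 t htT).comp (measurable_lin _ _)).mul (measurable_lin _ _))
  have key := hasDerivAt_integral_of_dominated_loc_of_deriv_le (μ := gM K) (F := F) (F' := F')
    (x₀ := t) (hVopen.mem_nhds hVt)
    (by filter_upwards [hVopen.mem_nhds hVt] with s hs using (hFm s hs).aestronglyMeasurable)
    (integrable_prod_lin (f := fun a => h a t) (C := C) (fun a => (hn a).m0 t htT)
      (fun a x => (hn a).b0 t htT x) _)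
    hF'm.aestronglyMeasurable
    (Filter.Eventually.of_forall fun ξ s hs => hbound s hs ξ) hint
    (Filter.Eventually.of_forall fun ξ s hs => hd s hs ξ)
  have h1 := key.2
  have h2 : ∫ ξ, F' t ξ ∂(gM K) =
      ∑ a, gE (U t) (Function.update (fun a => h a t) a (ht a t)) +
        ∑ a, ∑ b, gram (U' t) (U t) a b *
          gE (U t) (D2 (fun a => h a t) (fun a => hx a t) (fun a => hxx a t) a b) := by
    have e1 : ∀ ξ, F' t ξ =
        ∑ a, ∏ b, Function.update (fun a => h a t) a (ht a t) b (lin (U t) ξ b) +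
        ∑ a, ∑ c, U' t a c *
          (ξ c * ∏ b, Function.update (fun a => h a t) a (hx a t) b (lin (U t) ξ b)) := by
      intro ξ
      rw [hF', ← Finset.sum_add_distrib]
      apply Finset.sum_congr rfl
      intro a _
      rw [prod_update, smul_eq_mul]
      simp_rw [prod_update]
      rw [show lin (U' t) ξ a = ∑ c, U' t a c * ξ c from rfl]
      have : ∑ c, U' t a c * (ξ c * (hx a t (lin (U t) ξ a) *
          ∏ b ∈ univ.erase a, h b t (lin (U t) ξ b))) =
          (∑ c, U' t a c * ξ c) * (hx a t (lin (U t) ξ a) *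
          ∏ b ∈ univ.erase a, h b t (lin (U t) ξ b)) := by
        rw [Finset.sum_mul]
        apply Finset.sum_congr rfl
        intro c _
        ring
      rw [this]
      ring
    have mu : ∀ (a : J) (g : ℝ → ℝ), Measurable g → ∀ b, Measurable
        (Function.update (fun a => h a t) a g b) := by
      intro a g hg b
      by_cases hb : b = a
      · subst hb; simpa using hg
      · simpa [Function.update_of_ne hb] using (hn b).m0 t htT
    have bu : ∀ (a : J) (g : ℝ → ℝ), (∀ x, |g x| ≤ C) → ∀ b x,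
        |Function.update (fun a => h a t) a g b x| ≤ C := by
      intro a g hg b x
      by_cases hb : b = a
      · subst hb; simpa using hg x
      · simpa [Function.update_of_ne hb] using (hn b).b0 t htT x
    have i1 : ∀ a, Integrable (fun ξ : K → ℝ =>
        ∏ b, Function.update (fun a => h a t) a (ht a t) b (lin (U t) ξ b)) (gM K) := fun a =>
      integrable_prod_lin (C := C) (mu a _ ((hn a).mt t htT)) (bu a _ ((hn a).bt t htT)) _
    have i2 : ∀ a c, Integrable (fun ξ : K → ℝ => U' t a c * (ξ c *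
        ∏ b, Function.update (fun a => h a t) a (hx a t) b (lin (U t) ξ b))) (gM K) := by
      intro a c
      apply Integrable.const_mul
      have := (integrable_coord_gM c).bdd_mul (c := C ^ (univ : Finset J).card)
        (f := fun ξ : K → ℝ => ∏ b, Function.update (fun a => h a t) a (hx a t) b (lin (U t) ξ b))
        (measurable_prod_lin (mu a _ ((hn a).m1 t htT)) _).aestronglyMeasurable
        (Filter.Eventually.of_forall fun ξ => by
          rw [Real.norm_eq_abs]
          exact abs_prod_le fun b _ => bu a _ ((hn a).b1 t htT) b _)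
      refine this.congr (Filter.Eventually.of_forall fun ξ => ?_)
      simp only [mul_comm]
    simp_rw [e1]
    rw [integral_add (integrable_finsetSum _ fun a _ => i1 a)
      (integrable_finsetSum _ fun a _ => integrable_finsetSum _ fun c _ => i2 a c),
      integral_finsetSum _ fun a _ => i1 a]
    congr 1
    rw [integral_finsetSum _ fun a _ => integrable_finsetSum _ fun c _ => i2 a c]
    apply Finset.sum_congr rfl
    intro a _
    rw [integral_finsetSum _ fun c _ => i2 a c]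
    have e2 : ∀ c, ∫ ξ, U' t a c * (ξ c *
        ∏ b, Function.update (fun a => h a t) a (hx a t) b (lin (U t) ξ b)) ∂(gM K) =
        U' t a c * ∑ b, U t b c *
          gE (U t) (D2 (fun a => h a t) (fun a => hx a t) (fun a => hxx a t) a b) := by
      intro c
      rw [integral_const_mul]
      congr 1
      exact stein_prod (U t) (fun a => (hn a).m0 t htT) (fun a => (hn a).m1 t htT)
        (fun a => (hn a).m2 t htT) (fun a => (hn a).b0 t htT) (fun a => (hn a).b1 t htT)
        (fun a => (hn a).b2 t htT) (fun a => (hn a).d1 t htT) (fun a => (hn a).d2 t htT) a c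
    simp_rw [e2, Finset.mul_sum]
    rw [Finset.sum_comm]
    apply Finset.sum_congr rfl
    intro b _
    rw [gram, Finset.sum_mul]
    apply Finset.sum_congr rfl
    intro c _
    ring
  rw [h2] at h1
  exact h1

end Vale.Agent.P157.Par
end

section

open MeasureTheory ProbabilityTheory Filter Topology Finset

namespace Vale.Agent.P157.Par

set_option linter.unusedSectionVars false

open Vale.Agent.P367.GT (gM stein_pi)

variable {J K K' : Type} [Fintype J] [DecidableEq J] [Fintype K] [DecidableEq K] [Fintype K']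
  [DecidableEq K']

/-- Extra coordinates on the right can be dropped. -/
lemma gE_inl (U : J → K → ℝ) (f : J → ℝ → ℝ) :
    gE (K := K ⊕ K') (fun a => Sum.elim (U a) (fun _ => 0)) f = gE U f := by
  have mp := measurePreserving_sumPiEquivProdPi (X := fun _ : K ⊕ K' => ℝ)
    (fun _ : K ⊕ K' => gaussianReal 0 1)
  have e1 : ∀ ξ : K ⊕ K' → ℝ, ∏ a, f a (lin (fun a => Sum.elim (U a) (fun _ => 0)) ξ a) =
      (fun p : (K → ℝ) × (K' → ℝ) => ∏ a, f a (lin U p.1 a))
        (MeasurableEquiv.sumPiEquivProdPi (fun _ : K ⊕ K' => ℝ) ξ) := by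
    intro ξ
    simp only [lin, Fintype.sum_sum_type, Sum.elim_inl, Sum.elim_inr, zero_mul,
      Finset.sum_const_zero, add_zero]
    rfl
  unfold gE
  simp_rw [e1]
  rw [mp.integral_comp' (g := fun p : (K → ℝ) × (K' → ℝ) => ∏ a, f a (lin U p.1 a))]
  rw [integral_fun_fst (μ := gM K) (ν := gM K') (fun ξ => ∏ a, f a (lin U ξ a))]
  simp

/-- Extra coordinates on the left can be dropped. -/
lemma gE_inr (V : J → K' → ℝ) (f : J → ℝ → ℝ) :
    gE (K := K ⊕ K') (fun a => Sum.elim (fun _ => 0) (V a)) f = gE V f := by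
  have mp := measurePreserving_sumPiEquivProdPi (X := fun _ : K ⊕ K' => ℝ)
    (fun _ : K ⊕ K' => gaussianReal 0 1)
  have e1 : ∀ ξ : K ⊕ K' → ℝ, ∏ a, f a (lin (fun a => Sum.elim (fun _ => 0) (V a)) ξ a) =
      (fun p : (K → ℝ) × (K' → ℝ) => ∏ a, f a (lin V p.2 a))
        (MeasurableEquiv.sumPiEquivProdPi (fun _ : K ⊕ K' => ℝ) ξ) := by
    intro ξ
    simp only [lin, Fintype.sum_sum_type, Sum.elim_inl, Sum.elim_inr, zero_mul,
      Finset.sum_const_zero, zero_add]
    rfl
  unfold gE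
  simp_rw [e1]
  rw [mp.integral_comp' (g := fun p : (K → ℝ) × (K' → ℝ) => ∏ a, f a (lin V p.2 a))]
  rw [integral_fun_snd (μ := gM K) (ν := gM K') (fun ξ => ∏ a, f a (lin V ξ a))]
  simp

/-- Reindexing of the Gaussian coordinates. -/
lemma gE_reindex_right (U : J → K → ℝ) (e : K' ≃ K) (f : J → ℝ → ℝ) :
    gE (fun a c => U a (e c)) f = gE U f := by
  have mp := measurePreserving_piCongrLeft (α := fun _ : K => ℝ)
    (fun _ : K => gaussianReal 0 1) e
  unfold gE
  rw [← mp.integral_comp' (g := fun ξ : K → ℝ => ∏ a, f a (lin U ξ a))]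
  apply integral_congr_ae
  filter_upwards with ξ
  apply Finset.prod_congr rfl
  intro a _
  congr 1
  unfold lin
  rw [← e.sum_comp]
  apply Finset.sum_congr rfl
  intro c _
  congr 1
  rw [MeasurableEquiv.coe_piCongrLeft]
  exact (Equiv.piCongrLeft_apply_apply (fun _ : K => ℝ) e ξ c).symm

/-- Reindexing of the factors. -/
lemma gE_reindex_left {J' : Type} [Fintype J'] [DecidableEq J'] (U : J → K → ℝ) (e : J' ≃ J)
    (f : J → ℝ → ℝ) : gE (fun a => U (e a)) (fun a => f (e a)) = gE U f := by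
  unfold gE
  congr 1
  funext ξ
  rw [← e.prod_comp]
  rfl

lemma gE_continuousOn {S : Set ℝ} {U : ℝ → J → K → ℝ}
    (hU : ∀ a c, ContinuousOn (fun t => U t a c) S) {h : J → ℝ → ℝ → ℝ} {C : ℝ}
    (hc : ∀ a, ContinuousOn (fun p : ℝ × ℝ => h a p.1 p.2) (S ×ˢ Set.univ))
    (hm : ∀ a, ∀ t ∈ S, Measurable (h a t)) (hb : ∀ a, ∀ t ∈ S, ∀ x, |h a t x| ≤ C) :
    ContinuousOn (fun t => gE (U t) (fun a => h a t)) S := by
  unfold gE
  apply continuousOn_of_dominated (bound := fun _ => C ^ (univ : Finset J).card)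
  · intro t ht
    exact (measurable_prod_lin (f := fun a => h a t) (fun a => hm a t ht) _).aestronglyMeasurable
  · intro t ht
    filter_upwards with ξ
    rw [Real.norm_eq_abs]
    exact abs_prod_le fun a _ => hb a t ht _
  · exact integrable_const _
  · filter_upwards with ξ
    apply continuousOn_finsetProd
    intro a _
    have h1 : ContinuousOn (fun t => (t, lin (U t) ξ a)) S := by
      apply continuousOn_id.prodMk
      unfold lin
      exact continuousOn_finsetSum _ fun c _ => (hU a c).mul continuousOn_const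
    exact (hc a).comp h1 fun t ht => ⟨ht, Set.mem_univ _⟩

/-- Comparison of two Gaussian families through their Gram matrices. -/
theorem gE_compare (U : J → K → ℝ) (V : J → K' → ℝ) {f f' f'' : J → ℝ → ℝ} {C : ℝ}
    (b0 : ∀ a x, |f a x| ≤ C) (b1 : ∀ a x, |f' a x| ≤ C) (b2 : ∀ a x, |f'' a x| ≤ C)
    (d1 : ∀ a x, HasDerivAt (f a) (f' a x) x) (d2 : ∀ a x, HasDerivAt (f' a) (f'' a x) x)
    (m2 : ∀ a, Measurable (f'' a)) {M : J → J → ℝ}
    (hM : ∀ a b, ∀ W : J → K ⊕ K' → ℝ, |gE W (D2 f f' f'' a b)| ≤ M a b) :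
    |gE V f - gE U f| ≤ 1 / 2 * ∑ a, ∑ b, |gram V V a b - gram U U a b| * M a b := by
  classical
  have c0 : ∀ a, Continuous (f a) := fun a =>
    continuous_iff_continuousAt.2 fun x => (d1 a x).continuousAt
  have c1 : ∀ a, Continuous (f' a) := fun a =>
    continuous_iff_continuousAt.2 fun x => (d2 a x).continuousAt
  set W : ℝ → J → K ⊕ K' → ℝ := fun t a =>
    Sum.elim (fun c => √(1 - t) * U a c) (fun c => √t * V a c) with hW
  set W' : ℝ → J → K ⊕ K' → ℝ := fun t a =>
    Sum.elim (fun c => -(1 / (2 * √(1 - t))) * U a c) (fun c => 1 / (2 * √t) * V a c) with hW'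
  have hW0 : W 0 = fun a => Sum.elim (U a) (fun _ => 0) := by
    funext a c
    cases c <;> simp [hW]
  have hW1 : W 1 = fun a => Sum.elim (fun _ => 0) (V a) := by
    funext a c
    cases c <;> simp [hW]
  have hcont : ContinuousOn (fun t => gE (W t) f) (Set.Icc 0 1) := by
    apply gE_continuousOn (h := fun a _ => f a) (C := C)
    · intro a c
      cases c
      · simp only [hW, Sum.elim_inl]
        exact ((Real.continuous_sqrt.comp (continuous_const.sub continuous_id)).mul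
          continuous_const).continuousOn
      · simp only [hW, Sum.elim_inr]
        exact (Real.continuous_sqrt.mul continuous_const).continuousOn
    · intro a
      exact ((c0 a).comp continuous_snd).continuousOn
    · intro a t _
      exact (c0 a).measurable
    · intro a t _ x
      exact b0 a x
  have hderiv : ∀ t ∈ Set.Ioo (0 : ℝ) 1, HasDerivAt (fun t => gE (W t) f)
      (∑ a, ∑ b, (1 / 2 * (gram V V a b - gram U U a b)) * gE (W t) (D2 f f' f'' a b)) t := by
    intro t ht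
    have hnice : ∀ a, Nice (Set.Ioo (0 : ℝ) 1) C (fun _ => f a) (fun _ _ => 0) (fun _ => f' a)
        (fun _ => f'' a) := by
      intro a
      refine ⟨fun _ _ => (c0 a).measurable, fun _ _ => measurable_const,
        fun _ _ => (c1 a).measurable, fun _ _ => m2 a, fun _ _ => b0 a, fun _ _ _ => ?_,
        fun _ _ => b1 a, fun _ _ => b2 a, fun s _ x x' hx => ?_, fun _ _ => d1 a,
        fun _ _ => d2 a⟩
      · simpa using (abs_nonneg _).trans (b0 a 0)
      · have := (d1 a (x s)).comp s hx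
        rw [zero_add]
        exact this
    have hUd : ∀ t ∈ Set.Ioo (0 : ℝ) 1, ∀ a c, HasDerivAt (fun s => W s a c) (W' t a c) t := by
      intro t ht a c
      cases c with
      | inl c =>
        simp only [hW, hW', Sum.elim_inl]
        have h1 : HasDerivAt (fun s : ℝ => √(1 - s)) (-(1 / (2 * √(1 - t)))) t := by
          have h2 : HasDerivAt (fun s : ℝ => 1 - s) (-1) t := by
            simpa using (hasDerivAt_id t).const_sub 1
          have h3 := h2.sqrt (by linarith only [ht.2] : (1 - t) ≠ 0)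
          convert h3 using 1
          ring
        exact h1.mul_const _
      | inr c =>
        simp only [hW, hW', Sum.elim_inr]
        exact (Real.hasDerivAt_sqrt ht.1.ne').mul_const _
    have hB : ∃ B : ℝ, ∀ᶠ s in 𝓝 t, ∀ a c, |W' s a c| ≤ B := by
      have h1 : ∀ a c, ∃ B : ℝ, ∀ᶠ s in 𝓝 t, |W' s a c| ≤ B := by
        intro a c
        have hc : ContinuousAt (fun s => W' s a c) t := by
          cases c with
          | inl c =>
            simp only [hW', Sum.elim_inl]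
            apply ContinuousAt.mul _ continuousAt_const
            apply ContinuousAt.neg
            apply ContinuousAt.div continuousAt_const
            · exact (continuousAt_const.mul
                (Real.continuous_sqrt.comp (continuous_const.sub continuous_id)).continuousAt)
            · have := Real.sqrt_pos.2 (by linarith only [ht.2] : (0:ℝ) < 1 - t)
              positivity
          | inr c =>
            simp only [hW', Sum.elim_inr]
            apply ContinuousAt.mul _ continuousAt_const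
            apply ContinuousAt.div continuousAt_const
            · exact (continuousAt_const.mul Real.continuous_sqrt.continuousAt)
            · have := Real.sqrt_pos.2 ht.1
              positivity
        refine ⟨|W' t a c| + 1, ?_⟩
        have := hc.abs.eventually (gt_mem_nhds (lt_add_one |W' t a c|))
        filter_upwards [this] with s hs using hs.le
      choose B hB using h1
      refine ⟨∑ a, ∑ c, |B a c|, ?_⟩
      have h2 : ∀ᶠ s in 𝓝 t, ∀ a, ∀ c, |W' s a c| ≤ B a c :=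
        Filter.eventually_all.2 fun a => Filter.eventually_all.2 fun c => hB a c
      filter_upwards [h2] with s hs a c
      calc |W' s a c| ≤ B a c := hs a c
        _ ≤ |B a c| := le_abs_self _
        _ ≤ ∑ c, |B a c| := Finset.single_le_sum (f := fun c => |B a c|)
            (fun _ _ => abs_nonneg _) (Finset.mem_univ c)
        _ ≤ _ := Finset.single_le_sum (f := fun a => ∑ c, |B a c|)
            (fun _ _ => Finset.sum_nonneg fun _ _ => abs_nonneg _) (Finset.mem_univ a)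
    obtain ⟨B, hB⟩ := hB
    have key := hasDerivAt_gE isOpen_Ioo hnice hUd ht hB
    have hz : ∀ a, gE (W t) (Function.update f a (fun _ => 0)) = 0 := by
      intro a
      unfold gE
      have : ∀ ξ : K ⊕ K' → ℝ, ∏ b, Function.update f a (fun _ => 0) b (lin (W t) ξ b) = 0 := by
        intro ξ
        apply Finset.prod_eq_zero (Finset.mem_univ a)
        simp
      simp [this]
    have hg : ∀ a b, gram (W' t) (W t) a b = 1 / 2 * (gram V V a b - gram U U a b) := by
      intro a b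
      unfold gram
      rw [Fintype.sum_sum_type]
      simp only [hW, hW', Sum.elim_inl, Sum.elim_inr]
      have h1 : √(1 - t) ≠ 0 := (Real.sqrt_pos.2 (by linarith [ht.2])).ne'
      have h2 : √t ≠ 0 := (Real.sqrt_pos.2 ht.1).ne'
      have e1 : ∑ c, -(1 / (2 * √(1 - t))) * U a c * (√(1 - t) * U b c) =
          -(1 / 2 * ∑ c, U a c * U b c) := by
        rw [Finset.mul_sum, ← Finset.sum_neg_distrib]
        apply Finset.sum_congr rfl
        intro c _
        field_simp
      have e2 : ∑ c, 1 / (2 * √t) * V a c * (√t * V b c) = 1 / 2 * ∑ c, V a c * V b c := by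
        rw [Finset.mul_sum]
        apply Finset.sum_congr rfl
        intro c _
        field_simp
      rw [e1, e2]
      ring
    have hz' : ∑ a, gE (W t) (Function.update (fun a => (fun _ => f a : ℝ → ℝ → ℝ) t) a
        ((fun _ _ => 0 : ℝ → ℝ → ℝ) t)) = 0 := Finset.sum_eq_zero fun a _ => hz a
    rw [hz', zero_add] at key
    simp only [hg] at key
    exact key
  obtain ⟨t, ht, hslope⟩ := exists_hasDerivAt_eq_slope (fun t => gE (W t) f) _
    (zero_lt_one' ℝ) hcont hderiv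
  have hend : gE V f - gE U f = ∑ a, ∑ b, (1 / 2 * (gram V V a b - gram U U a b)) *
      gE (W t) (D2 f f' f'' a b) := by
    rw [hslope, hW1, hW0, gE_inl U f,
      gE_inr V f]
    simp
  rw [hend]
  refine (Finset.abs_sum_le_sum_abs _ _).trans ?_
  rw [Finset.mul_sum]
  refine Finset.sum_le_sum fun a _ => (Finset.abs_sum_le_sum_abs _ _).trans ?_
  rw [Finset.mul_sum]
  refine Finset.sum_le_sum fun b _ => ?_
  rw [abs_mul, abs_mul, abs_of_pos (by norm_num : (0:ℝ) < 1 / 2), mul_assoc]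
  refine mul_le_mul_of_nonneg_left ?_ (by norm_num)
  exact mul_le_mul_of_nonneg_left (hM a b _) (abs_nonneg _)

end Vale.Agent.P157.Par
end

section

open MeasureTheory ProbabilityTheory Filter Topology Finset

namespace Vale.Agent.P157.Par

set_option linter.unusedSectionVars false

open Vale.Agent.P367.GT (gM stein_pi)

variable {J K K' : Type} [Fintype J] [DecidableEq J] [Fintype K] [DecidableEq K] [Fintype K']
  [DecidableEq K']

lemma char_lin (U : J → K → ℝ) (t : J → ℝ) :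
    ∫ ξ, Complex.exp ((∑ a, lin U ξ a * t a : ℝ) * Complex.I) ∂(gM K) =
      Complex.exp (-(∑ a, ∑ b, t a * t b * gram U U a b : ℝ) / 2) := by
  have e1 : ∀ ξ : K → ℝ, Complex.exp ((∑ a, lin U ξ a * t a : ℝ) * Complex.I) =
      ∏ c, Complex.exp ((∑ a, t a * U a c : ℝ) * (ξ c : ℂ) * Complex.I) := by
    intro ξ
    rw [← Complex.exp_sum]
    congr 1
    rw [← Finset.sum_mul]
    congr 1
    have : (∑ a, lin U ξ a * t a : ℝ) = ∑ c, (∑ a, t a * U a c) * ξ c := by
      unfold lin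
      simp_rw [Finset.sum_mul]
      rw [Finset.sum_comm]
      apply Finset.sum_congr rfl
      intro c _
      apply Finset.sum_congr rfl
      intro a _
      ring
    rw [this]
    push_cast
    rfl
  simp_rw [e1]
  rw [integral_fintype_prod_eq_prod (μ := fun _ : K => gaussianReal 0 1)
    (f := fun c (x : ℝ) => Complex.exp ((∑ a, t a * U a c : ℝ) * (x : ℂ) * Complex.I))]
  have e2 : ∀ s : ℝ, ∫ x : ℝ, Complex.exp ((s : ℂ) * (x : ℂ) * Complex.I) ∂(gaussianReal 0 1) =
      Complex.exp (-(s ^ 2 : ℝ) / 2) := by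
    intro s
    have h := charFun_gaussianReal (μ := 0) (v := 1) s
    rw [charFun_apply] at h
    have h2 : ∀ x : ℝ, Complex.exp ((s : ℂ) * (x : ℂ) * Complex.I) =
        Complex.exp ((inner ℝ x s : ℝ) * Complex.I) := by
      intro x
      congr 2
      simp
    simp_rw [h2]
    rw [h]
    congr 1
    push_cast
    ring
  simp_rw [e2]
  rw [← Complex.exp_sum]
  congr 1
  rw [← Finset.sum_div, Finset.sum_neg_distrib]
  congr 2
  rw [← Complex.ofReal_sum]
  congr 1
  unfold gram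
  simp_rw [Finset.mul_sum, sq, Finset.sum_mul_sum]
  rw [Finset.sum_comm]
  apply Finset.sum_congr rfl
  intro a _
  rw [Finset.sum_comm]
  apply Finset.sum_congr rfl
  intro b _
  apply Finset.sum_congr rfl
  intro c _
  ring

lemma map_lin_congr {U : J → K → ℝ} {V : J → K' → ℝ}
    (hG : ∀ a b, gram U U a b = gram V V a b) :
    (gM K).map (fun ξ => WithLp.toLp 2 (lin U ξ)) =
      (gM K').map (fun ξ => (WithLp.toLp 2 (lin V ξ) : EuclideanSpace ℝ J)) := by
  have mU : Measurable fun ξ : K → ℝ => (WithLp.toLp 2 (lin U ξ) : EuclideanSpace ℝ J) := by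
    unfold lin; fun_prop
  have mV : Measurable fun ξ : K' → ℝ => (WithLp.toLp 2 (lin V ξ) : EuclideanSpace ℝ J) := by
    unfold lin; fun_prop
  have : IsProbabilityMeasure ((gM K).map
      fun ξ => (WithLp.toLp 2 (lin U ξ) : EuclideanSpace ℝ J)) :=
    Measure.isProbabilityMeasure_map mU.aemeasurable
  have : IsProbabilityMeasure ((gM K').map
      fun ξ => (WithLp.toLp 2 (lin V ξ) : EuclideanSpace ℝ J)) :=
    Measure.isProbabilityMeasure_map mV.aemeasurable
  apply Measure.ext_of_charFun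
  ext t
  rw [charFun_apply, charFun_apply, integral_map mU.aemeasurable
    (Measurable.aestronglyMeasurable (by fun_prop)), integral_map mV.aemeasurable
    (Measurable.aestronglyMeasurable (by fun_prop))]
  have e1 : ∀ z : J → ℝ, (inner ℝ (WithLp.toLp 2 z : EuclideanSpace ℝ J) t : ℝ) =
      ∑ a, z a * t a := by
    intro z
    simp [PiLp.inner_apply, mul_comm]
  simp_rw [e1]
  rw [char_lin U, char_lin V]
  simp_rw [hG]

/-- The law of the family `Z` depends on the Gram matrix only. -/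
theorem integral_lin_congr {U : J → K → ℝ} {V : J → K' → ℝ}
    (hG : ∀ a b, gram U U a b = gram V V a b) {F : (J → ℝ) → ℝ} (hF : Measurable F) :
    ∫ ξ, F (lin U ξ) ∂(gM K) = ∫ ξ, F (lin V ξ) ∂(gM K') := by
  have mU : Measurable fun ξ : K → ℝ => (WithLp.toLp 2 (lin U ξ) : EuclideanSpace ℝ J) := by
    unfold lin; fun_prop
  have mV : Measurable fun ξ : K' → ℝ => (WithLp.toLp 2 (lin V ξ) : EuclideanSpace ℝ J) := by
    unfold lin; fun_prop
  have mF : Measurable fun z : EuclideanSpace ℝ J => F (WithLp.ofLp z) :=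
    hF.comp (WithLp.measurable_ofLp 2 _)
  have h1 := integral_map (μ := gM K) mU.aemeasurable (f := fun z => F (WithLp.ofLp z))
    mF.aestronglyMeasurable
  have h2 := integral_map (μ := gM K') mV.aemeasurable (f := fun z => F (WithLp.ofLp z))
    mF.aestronglyMeasurable
  simp only at h1 h2
  rw [← h1, ← h2, map_lin_congr hG]

theorem gE_congr_gram {U : J → K → ℝ} {V : J → K' → ℝ}
    (hG : ∀ a b, gram U U a b = gram V V a b) {f : J → ℝ → ℝ} (hf : ∀ a, Measurable (f a)) :
    gE U f = gE V f := by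
  unfold gE
  exact integral_lin_congr hG (F := fun z => ∏ a, f a (z a))
    (Finset.measurable_prod _ fun a _ => (hf a).comp (measurable_pi_apply a))

end Vale.Agent.P157.Par
end

section

open MeasureTheory ProbabilityTheory Filter Topology Finset

namespace Vale.Agent.P157.Par

set_option linter.unusedSectionVars false

open Vale.Agent.P367.GT (gM stein_pi)

/-- Matrices of levels. -/
abbrev LM (k : ℕ) (J : Type) := J → J → Fin (k + 1)

/-- Ultrametric matrices of levels. -/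
structure Ultra {k : ℕ} {J : Type} (L : LM k J) : Prop where
  symm : ∀ a b, L a b = L b a
  diag : ∀ a, L a a = Fin.last k
  tri : ∀ a b c, min (L a b) (L b c) ≤ L a c

lemma Ultra.comp {k : ℕ} {J J' : Type} {L : LM k J} (hL : Ultra L) (e : J' → J) :
    Ultra fun a b => L (e a) (e b) :=
  ⟨fun _ _ => hL.symm _ _, fun _ => hL.diag _, fun _ _ _ => hL.tri _ _ _⟩

section Clusters

variable {k : ℕ} {J : Type}

/-- The cluster of `a` at the level `l`. -/
def cl (L : LM k J) (l : Fin (k + 1)) (a : J) : J → Bool := fun b => decide (l ≤ L a b)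

lemma cl_eq_iff {L : LM k J} (hL : Ultra L) (l : Fin (k + 1)) (a b : J) :
    cl L l a = cl L l b ↔ l ≤ L a b := by
  constructor
  · intro h
    have h1 := congrFun h b
    simp only [cl, decide_eq_decide] at h1
    exact h1.2 (by rw [hL.diag]; exact Fin.le_last _)
  · intro h
    funext x
    simp only [cl, decide_eq_decide]
    constructor
    · intro h1
      exact (le_min (by rw [hL.symm]; exact h) h1).trans (hL.tri b a x)
    · intro h1
      exact (le_min h h1).trans (hL.tri a b x)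

variable [Fintype J] [DecidableEq J]

/-- Coefficients of the tree-indexed Gaussian family with increments of variance `c l`. -/
noncomputable def UL (c : Fin (k + 1) → ℝ) (L : LM k J) : J → Fin (k + 1) × (J → Bool) → ℝ :=
  fun a p => if p.2 = cl L p.1 a then √(c p.1) else 0

lemma gram_UL {c : Fin (k + 1) → ℝ} (hc : ∀ l, 0 ≤ c l) {L : LM k J} (hL : Ultra L) (a b : J) :
    gram (UL c L) (UL c L) a b = ∑ l, if l ≤ L a b then c l else 0 := by
  unfold gram
  rw [Fintype.sum_prod_type]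
  apply Finset.sum_congr rfl
  intro l _
  have h1 : ∀ s : J → Bool, UL c L a (l, s) * UL c L b (l, s) =
      if s = cl L l a then (if cl L l a = cl L l b then c l else 0) else 0 := by
    intro s
    simp only [UL]
    by_cases h : s = cl L l a
    · subst h
      by_cases h' : cl L l a = cl L l b
      · simp [h', Real.mul_self_sqrt (hc l)]
      · simp [h']
    · simp [h]
  simp_rw [h1]
  rw [Finset.sum_ite_eq' Finset.univ (cl L l a)]
  simp only [Finset.mem_univ, if_true]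
  simp only [cl_eq_iff hL]

end Clusters

/-- A (signed) functional on level matrices indexed by `δ ⊕ ι`, exchangeable in the index `ι`,
carried by the ultrametric matrices and satisfying the Ghirlanda-Guerra identities with the
weights `w`. -/
structure Arr (k : ℕ) (w : Fin (k + 1) → ℝ) (δ : Type) [Fintype δ] where
  E : (ι : Type) → [Fintype ι] → (LM k (δ ⊕ ι) → ℝ) →ₗ[ℝ] ℝ
  C : ℝ
  bound : ∀ (ι : Type) [Fintype ι] (A : LM k (δ ⊕ ι) → ℝ) (a : ℝ), (∀ L, |A L| ≤ a) →
    |E ι A| ≤ C * a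
  supp : ∀ (ι : Type) [Fintype ι] (A : LM k (δ ⊕ ι) → ℝ), (∀ L, Ultra L → A L = 0) → E ι A = 0
  reindex : ∀ (ι ι' : Type) [Fintype ι] [Fintype ι'] (e : ι ≃ ι') (A : LM k (δ ⊕ ι') → ℝ),
    E ι (fun L => A fun a b => L (Sum.map id e.symm a) (Sum.map id e.symm b)) = E ι' A
  gg : ∀ (ι : Type) [Fintype ι] (A : LM k (δ ⊕ ι) → ℝ) (i : δ ⊕ ι) (l : Fin (k + 1)),
    ((Fintype.card δ : ℝ) + Fintype.card ι) * E (Option ι) (fun L =>
      A (fun a b => L (Sum.map id some a) (Sum.map id some b)) *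
        if L (Sum.map id some i) (Sum.inr none) = l then 1 else 0) =
      w l * E ι A + (∑ j, E ι (fun L => A L * if L i j = l then 1 else 0) -
        E ι (fun L => A L * if L i i = l then 1 else 0))

namespace Arr

variable {k : ℕ} {w : Fin (k + 1) → ℝ} {δ : Type} [Fintype δ]

lemma congr_ultra (𝓐 : Arr k w δ) {ι : Type} [Fintype ι] {A B : LM k (δ ⊕ ι) → ℝ}
    (h : ∀ L, Ultra L → A L = B L) : 𝓐.E ι A = 𝓐.E ι B := by
  have h1 := 𝓐.supp ι (A - B) fun L hL => by simp [h L hL]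
  rw [map_sub] at h1
  linarith

lemma bound_ultra (𝓐 : Arr k w δ) {ι : Type} [Fintype ι] {A : LM k (δ ⊕ ι) → ℝ} {a : ℝ}
    (ha : 0 ≤ a) (h : ∀ L, Ultra L → |A L| ≤ a) : |𝓐.E ι A| ≤ 𝓐.C * a := by
  classical
  rw [𝓐.congr_ultra (B := fun L => if Ultra L then A L else 0) (fun L hL => by simp [hL])]
  apply 𝓐.bound
  intro L
  split_ifs with hL
  · exact h L hL
  · simpa using ha

/-- The weight of the levels at least `l`. -/
noncomputable def up (w : Fin (k + 1) → ℝ) (l : Fin (k + 1)) : ℝ := ∑ l', if l ≤ l' then w l' else 0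

lemma indicator_sum (l : Fin (k + 1)) (x : Fin (k + 1)) :
    (if l ≤ x then (1 : ℝ) else 0) = ∑ l', if l ≤ l' then (if x = l' then 1 else 0) else 0 := by
  have h1 : ∀ l', (if l ≤ l' then (if x = l' then (1 : ℝ) else 0) else 0) =
      if x = l' then (if l ≤ x then 1 else 0) else 0 := by
    intro l'
    by_cases h : x = l'
    · subst h; simp
    · simp [h]
  simp_rw [h1]
  rw [Finset.sum_ite_eq Finset.univ x]
  simp

/-- The Ghirlanda-Guerra identity for the event of being linked at the level `l`. -/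
lemma gg_link (𝓐 : Arr k w δ) (ι : Type) [Fintype ι] (A : LM k (δ ⊕ ι) → ℝ) (i : δ ⊕ ι)
    (l : Fin (k + 1)) :
    ((Fintype.card δ : ℝ) + Fintype.card ι) * 𝓐.E (Option ι) (fun L =>
      A (fun a b => L (Sum.map id some a) (Sum.map id some b)) *
        if l ≤ L (Sum.map id some i) (Sum.inr none) then 1 else 0) =
      up w l * 𝓐.E ι A +
        (∑ j, 𝓐.E ι (fun L => A L * if l ≤ L i j then 1 else 0) - 𝓐.E ι A) := by
  have e1 : ∀ (ι' : Type) [Fintype ι'] (B : LM k (δ ⊕ ι') → ℝ) (a b : δ ⊕ ι'),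
      𝓐.E ι' (fun L => B L * if l ≤ L a b then 1 else 0) =
      ∑ l', if l ≤ l' then 𝓐.E ι' (fun L => B L * if L a b = l' then 1 else 0) else 0 := by
    intro ι' _ B a b
    have h1 : (fun L : LM k (δ ⊕ ι') => B L * if l ≤ L a b then (1 : ℝ) else 0) =
        ∑ l', if l ≤ l' then (fun L => B L * if L a b = l' then (1 : ℝ) else 0) else 0 := by
      funext L
      rw [indicator_sum, Finset.mul_sum, Finset.sum_apply]
      apply Finset.sum_congr rfl
      intro l' _
      by_cases h : l ≤ l' <;> simp [h]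
    rw [h1, map_sum]
    apply Finset.sum_congr rfl
    intro l' _
    by_cases h : l ≤ l' <;> simp [h]
  have e2 : 𝓐.E ι A = 𝓐.E ι (fun L => A L * if l ≤ L i i then 1 else 0) :=
    𝓐.congr_ultra fun L hL => by rw [hL.diag, if_pos (Fin.le_last _), mul_one]
  rw [e1 (Option ι) (fun L => A fun a b => L (Sum.map id some a) (Sum.map id some b)),
    Finset.mul_sum]
  have e3 : ∀ l', ((Fintype.card δ : ℝ) + Fintype.card ι) *
      (if l ≤ l' then 𝓐.E (Option ι) (fun L =>
        A (fun a b => L (Sum.map id some a) (Sum.map id some b)) *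
        if L (Sum.map id some i) (Sum.inr none) = l' then 1 else 0) else 0) =
      (if l ≤ l' then w l' else 0) * 𝓐.E ι A +
        (∑ j, (if l ≤ l' then 𝓐.E ι (fun L => A L * if L i j = l' then 1 else 0) else 0) -
        (if l ≤ l' then 𝓐.E ι (fun L => A L * if L i i = l' then 1 else 0) else 0)) := by
    intro l'
    split_ifs with h
    · exact 𝓐.gg ι A i l'
    · simp
  simp_rw [e3]
  rw [Finset.sum_add_distrib, ← Finset.sum_mul, Finset.sum_sub_distrib, Finset.sum_comm]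
  congr 1
  congr 1
  · apply Finset.sum_congr rfl
    intro j _
    rw [e1]
  · rw [e2, e1]

/-- One of the exchangeable indices becomes special. -/
def tr {δ ι : Type} : Option δ ⊕ ι → δ ⊕ Option ι
  | Sum.inl none => Sum.inr none
  | Sum.inl (some i) => Sum.inl i
  | Sum.inr j => Sum.inr (some j)

/-- The inverse of `tr`. -/
def tr' {δ ι : Type} : δ ⊕ Option ι → Option δ ⊕ ι
  | Sum.inr none => Sum.inl none
  | Sum.inl i => Sum.inl (some i)
  | Sum.inr (some j) => Sum.inr j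

/-- `tr` as an equivalence. -/
def trE {δ ι : Type} : Option δ ⊕ ι ≃ δ ⊕ Option ι where
  toFun := tr
  invFun := tr'
  left_inv := by rintro ((_ | i) | j) <;> rfl
  right_inv := by rintro (i | (_ | j)) <;> rfl

/-- Exchange of the two added points. -/
def swapOO {ι : Type} : Option (Option ι) ≃ Option (Option ι) where
  toFun := fun x => match x with
    | none => some none
    | some none => none
    | some (some j) => some (some j)
  invFun := fun x => match x with
    | none => some none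
    | some none => none
    | some (some j) => some (some j)
  left_inv := by rintro (_ | _ | j) <;> rfl
  right_inv := by rintro (_ | _ | j) <;> rfl

lemma funLeft_eq {m n : Type} (f : n → m) (g : m → ℝ) :
    LinearMap.funLeft ℝ ℝ f g = fun i => g (f i) := rfl

/-- The functional with one more special index. -/
noncomputable def mark (𝓐 : Arr k w δ) : Arr k w (Option δ) where
  E := fun ι _ => (𝓐.E (Option ι)).comp
    (LinearMap.funLeft ℝ ℝ fun (L : LM k (δ ⊕ Option ι)) a b => L (tr a) (tr b))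
  C := 𝓐.C
  bound := by
    intro ι _ A a h
    exact 𝓐.bound (Option ι) _ a fun L => h _
  supp := by
    intro ι _ A h
    exact 𝓐.supp (Option ι) _ fun L hL => h _ (hL.comp _)
  reindex := by
    intro ι ι' _ _ e A
    simp only [LinearMap.comp_apply]
    have h := 𝓐.reindex (Option ι) (Option ι') (Equiv.optionCongr e)
      (fun L => A fun a b => L (tr a) (tr b))
    rw [funLeft_eq, funLeft_eq]
    rw [← h]
    congr 1
    funext L
    congr 1
    funext a b
    rcases a with (_ | a) | a <;> rcases b with (_ | b) | b <;> rfl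
  gg := by
    intro ι _ A i l
    simp only [LinearMap.comp_apply, funLeft_eq]
    have h := 𝓐.gg (Option ι) (fun L => A fun a b => L (tr a) (tr b)) (tr i) l
    have hre := 𝓐.reindex (Option (Option ι)) (Option (Option ι)) swapOO
      (fun L => (A fun a b => L (Sum.map id some (tr a)) (Sum.map id some (tr b))) *
        if L (Sum.map id some (tr i)) (Sum.inr none) = l then 1 else 0)
    rw [← hre] at h
    have h1 : ((Fintype.card (Option δ) : ℝ) + Fintype.card ι) =
        (Fintype.card δ : ℝ) + Fintype.card (Option ι) := by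
      rw [Fintype.card_option, Fintype.card_option]
      push_cast
      ring
    rw [h1]
    have h2 : ∀ B : δ ⊕ Option ι → ℝ, ∑ j, B j = ∑ j : Option δ ⊕ ι, B (tr j) := fun B =>
      ((trE (δ := δ) (ι := ι)).sum_comp B).symm
    rw [h2] at h
    have h3 : ∀ x : Option δ ⊕ ι, (Sum.map id swapOO.symm (Sum.map id some (tr x)) :
        δ ⊕ Option (Option ι)) = tr (Sum.map id some x) := by
      rintro ((_ | x) | x) <;> rfl
    have h4 : (Sum.map id swapOO.symm (Sum.inr none) : δ ⊕ Option (Option ι)) =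
        tr (Sum.inr none) := rfl
    simp only [h3, h4] at h
    exact h

end Arr

end Vale.Agent.P157.Par
end

section

open MeasureTheory ProbabilityTheory Filter Topology Finset

namespace Vale.Agent.P157.Par

set_option linter.unusedSectionVars false

open Vale.Agent.P367.GT (gM stein_pi)

section

variable {k : ℕ} {J J' : Type} [Fintype J] [DecidableEq J] [Fintype J'] [DecidableEq J']

lemma gE_UL_comp {c : Fin (k + 1) → ℝ} (hc : ∀ l, 0 ≤ c l) {L : LM k J} (hL : Ultra L)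
    (e : J' → J) {f : J' → ℝ → ℝ} (hf : ∀ a, Measurable (f a)) :
    gE (UL c fun a b => L (e a) (e b)) f = gE (fun a => UL c L (e a)) f := by
  apply gE_congr_gram _ hf
  intro a b
  rw [gram_UL hc (hL.comp e)]
  exact (gram_UL hc hL (e a) (e b)).symm

lemma gE_UL_equiv {c : Fin (k + 1) → ℝ} (hc : ∀ l, 0 ≤ c l) {L : LM k J} (hL : Ultra L)
    (e : J' ≃ J) {f : J → ℝ → ℝ} (hf : ∀ a, Measurable (f a)) :
    gE (UL c fun a b => L (e a) (e b)) (fun a => f (e a)) = gE (UL c L) f := by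
  rw [gE_UL_comp hc hL e fun a => hf (e a), gE_reindex_left (UL c L) e f]

end

/-- The functions of the special indices and of the other indices. -/
def fam {δ ι : Type} (A : δ → ℝ → ℝ) (v : ℝ → ℝ) : δ ⊕ ι → ℝ → ℝ := Sum.elim A fun _ => v

/-- The functions of the special indices and of the new special index. -/
def ext {δ : Type} (g : ℝ → ℝ) (A : δ → ℝ → ℝ) : Option δ → ℝ → ℝ := fun o => o.elim g A

namespace Arr

variable {k : ℕ} {w : Fin (k + 1) → ℝ} {δ : Type} [Fintype δ] [DecidableEq δ]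

/-- Restriction to the special indices. -/
def res {ι : Type} (L : LM k (δ ⊕ ι)) : LM k δ := fun i j => L (Sum.inl i) (Sum.inl j)

/-- The functional applied to a product of Gaussian functions. -/
noncomputable def T (𝓐 : Arr k w δ) (c : Fin (k + 1) → ℝ) (χ : LM k δ → ℝ) (A : δ → ℝ → ℝ)
    (v : ℝ → ℝ) (ι : Type) [Fintype ι] [DecidableEq ι] : ℝ :=
  𝓐.E ι fun L => χ (res L) * gE (UL c L) (fam A v)

lemma measurable_fam {ι : Type} {A : δ → ℝ → ℝ} {v : ℝ → ℝ} (hA : ∀ i, Measurable (A i))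
    (hv : Measurable v) : ∀ a : δ ⊕ ι, Measurable (fam A v a) := by
  rintro (i | j)
  · exact hA i
  · exact hv

lemma T_card (𝓐 : Arr k w δ) {c : Fin (k + 1) → ℝ} (hc : ∀ l, 0 ≤ c l) (χ : LM k δ → ℝ)
    {A : δ → ℝ → ℝ} {v : ℝ → ℝ} (hA : ∀ i, Measurable (A i)) (hv : Measurable v)
    {ι ι' : Type} [Fintype ι] [DecidableEq ι] [Fintype ι'] [DecidableEq ι'] (e : ι ≃ ι') :
    𝓐.T c χ A v ι = 𝓐.T c χ A v ι' := by
  unfold T
  rw [← 𝓐.reindex ι ι' e]
  apply 𝓐.congr_ultra
  intro L hL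
  congr 1
  have h := gE_UL_equiv hc hL (Equiv.sumCongr (Equiv.refl δ) e.symm)
    (f := fam A v) (measurable_fam hA hv)
  rw [← h]
  have h1 : ∀ x : δ ⊕ ι', (Equiv.sumCongr (Equiv.refl δ) e.symm) x = Sum.map id e.symm x := by
    rintro (i | j) <;> rfl
  have h2 : (fun a => (fam A v : δ ⊕ ι → ℝ → ℝ) ((Equiv.sumCongr (Equiv.refl δ) e.symm) a)) =
      fam A v := by
    funext x
    rcases x with i | j <;> rfl
  rw [h2]
  simp only [h1]

lemma T_bound (𝓐 : Arr k w δ) {c : Fin (k + 1) → ℝ} {χ : LM k δ → ℝ} {X : ℝ}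
    (hχ : ∀ L, |χ L| ≤ X) {A : δ → ℝ → ℝ} {v : ℝ → ℝ} {B : δ → ℝ} (hA : ∀ i x, |A i x| ≤ B i)
    {a : ℝ} (hv : ∀ x, |v x| ≤ a) (ι : Type) [Fintype ι] [DecidableEq ι] :
    |𝓐.T c χ A v ι| ≤ 𝓐.C * (X * ((∏ i, B i) * a ^ Fintype.card ι)) := by
  unfold T
  apply 𝓐.bound
  intro L
  rw [abs_mul]
  have h1 : |gE (UL c L) (fam A v)| ≤ (∏ i, B i) * a ^ Fintype.card ι := by
    have h2 := abs_gE_le (U := UL c L) (f := fam A v) (C := Sum.elim B fun _ : ι => a) (by
      rintro (i | j) x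
      · exact hA i x
      · exact hv x)
    rw [Fintype.prod_sum_type] at h2
    simpa using h2
  exact mul_le_mul (hχ _) h1 (abs_nonneg _) ((abs_nonneg _).trans (hχ fun _ _ => 0))

/-- The functional with a marked index in terms of the original one. -/
lemma T_mark (𝓐 : Arr k w δ) {c : Fin (k + 1) → ℝ} (hc : ∀ l, 0 ≤ c l)
    (χ : LM k (Option δ) → ℝ) {A : Option δ → ℝ → ℝ} {v : ℝ → ℝ}
    (hA : ∀ i, Measurable (A i)) (hv : Measurable v)
    (ι : Type) [Fintype ι] [DecidableEq ι] :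
    𝓐.mark.T c χ A v ι = 𝓐.E (Option ι) fun L =>
      χ (fun i j => L (tr (Sum.inl i)) (tr (Sum.inl j))) *
        gE (UL c L) (fun x => fam A v (tr' x)) := by
  unfold T mark
  simp only [LinearMap.comp_apply, funLeft_eq]
  apply 𝓐.congr_ultra
  intro L hL
  congr 1
  have h := gE_UL_equiv hc hL (trE (δ := δ) (ι := ι))
    (f := fun x => fam A v (tr' x)) (fun x => measurable_fam hA hv _)
  rw [← h]
  congr 1
  funext x
  rcases x with (_ | x) | x <;> rfl

lemma gE_one_new {c : Fin (k + 1) → ℝ} (hc : ∀ l, 0 ≤ c l) {ι : Type} [Fintype ι]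
    [DecidableEq ι] {L : LM k (δ ⊕ Option ι)} (hL : Ultra L) {A : δ → ℝ → ℝ} {v : ℝ → ℝ}
    (hA : ∀ i, Measurable (A i)) (hv : Measurable v) :
    gE (UL c L) (fun x => fam (ext (fun _ => 1) A) v (tr' x)) =
      gE (UL c fun a b => L (Sum.map id some a) (Sum.map id some b)) (fam A v) := by
  rw [gE_UL_comp hc hL (Sum.map id some) (measurable_fam hA hv)]
  unfold gE
  congr 1
  funext ξ
  rw [Fintype.prod_sum_type, Fintype.prod_sum_type, Fintype.prod_option]
  simp only [fam, ext, tr', Sum.elim_inl, Sum.elim_inr, Option.elim, one_mul]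
  rfl

/-- On the event that two indices are linked at a level above which the increments vanish, the
two Gaussian variables are equal. -/
lemma UL_eq_of_link {J : Type} [Fintype J] [DecidableEq J] {c : Fin (k + 1) → ℝ}
    {l : Fin (k + 1)} (hcl : ∀ l', l < l' → c l' = 0) {L : LM k J} (hL : Ultra L) {a b : J}
    (hab : l ≤ L a b) : UL c L a = UL c L b := by
  funext p
  unfold UL
  rcases lt_or_ge l p.1 with h | h
  · simp [hcl p.1 h]
  · rw [(cl_eq_iff hL p.1 a b).2 (h.trans hab)]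

lemma gE_move {J : Type} [Fintype J] [DecidableEq J] {K : Type} [Fintype K] [DecidableEq K]
    {U : J → K → ℝ} {a b : J} (hab : a ≠ b)
    (hU : U a = U b) (f : J → ℝ → ℝ) (g : ℝ → ℝ) :
    gE U (Function.update f b g) =
      gE U (Function.update (Function.update f a fun x => f a x * g x) b fun _ => 1) := by
  unfold gE
  congr 1
  funext ξ
  have h1 : lin U ξ a = lin U ξ b := by unfold lin; rw [hU]
  rw [prod_update, prod_update, ← Finset.mul_prod_erase (univ.erase b) _
    (Finset.mem_erase.2 ⟨hab, Finset.mem_univ a⟩), ← Finset.mul_prod_erase (univ.erase b)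
    (fun x => Function.update f a (fun x => f a x * g x) x (lin U ξ x))
    (Finset.mem_erase.2 ⟨hab, Finset.mem_univ a⟩)]
  rw [Function.update_self, h1]
  have h2 : ∏ x ∈ (univ.erase b).erase a, Function.update f a (fun x => f a x * g x) x
      (lin U ξ x) = ∏ x ∈ (univ.erase b).erase a, f x (lin U ξ x) := by
    apply Finset.prod_congr rfl
    intro x hx
    rw [Function.update_of_ne (Finset.ne_of_mem_erase hx)]
  rw [h2]
  ring

/-- A function of the special indices, seen as a function of one more special index. -/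
def lift (χ : LM k δ → ℝ) : LM k (Option δ) → ℝ := fun L => χ fun i j => L (some i) (some j)

/-- The indicator of the event that `i` and `j` are linked at the level `l`. -/
noncomputable def lk (l : Fin (k + 1)) (i j : δ) : LM k δ → ℝ := fun L => if l ≤ L i j then 1 else 0

lemma T_gg (𝓐 : Arr k w δ) {c : Fin (k + 1) → ℝ} (hc : ∀ l, 0 ≤ c l) (χ : LM k δ → ℝ)
    {A : δ → ℝ → ℝ} {v : ℝ → ℝ} (hA : ∀ i, Measurable (A i)) (hv : Measurable v)
    (l : Fin (k + 1)) (i : δ) (ι : Type) [Fintype ι] [DecidableEq ι] :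
    ((Fintype.card δ : ℝ) + Fintype.card ι) *
      𝓐.mark.T c (fun L => lift χ L * lk l (some i) none L) (ext (fun _ => 1) A) v ι =
      up w l * 𝓐.T c χ A v ι + ((∑ j, 𝓐.T c (fun L => χ L * lk l i j L) A v ι +
        ∑ j : ι, 𝓐.E ι (fun L => χ (res L) * gE (UL c L) (fam A v) *
          if l ≤ L (Sum.inl i) (Sum.inr j) then 1 else 0)) - 𝓐.T c χ A v ι) := by
  have h := 𝓐.gg_link ι (fun L => χ (res L) * gE (UL c L) (fam A v)) (Sum.inl i) l
  rw [Fintype.sum_sum_type] at h
  have e1 : 𝓐.mark.T c (fun L => lift χ L * lk l (some i) none L) (ext (fun _ => 1) A) v ι =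
      𝓐.E (Option ι) (fun L =>
        (fun L : LM k (δ ⊕ ι) => χ (res L) * gE (UL c L) (fam A v))
          (fun a b => L (Sum.map id some a) (Sum.map id some b)) *
        if l ≤ L (Sum.map id some (Sum.inl i)) (Sum.inr none) then 1 else 0) := by
    rw [T_mark 𝓐 hc _ (by
      rintro (_ | i)
      · exact measurable_const
      · exact hA i) hv]
    apply 𝓐.congr_ultra
    intro L hL
    rw [gE_one_new hc hL hA hv]
    simp only [lift, lk, tr, Sum.map_inl, id_eq]
    rw [mul_right_comm]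
    rfl
  rw [e1, h]
  congr 2
  congr 1
  apply Finset.sum_congr rfl
  intro j _
  unfold T
  congr 1
  funext L
  rw [mul_right_comm]
  rfl

/-- Marking one of the other indices. -/
lemma E_mark (𝓐 : Arr k w δ) {c : Fin (k + 1) → ℝ} (hc : ∀ l, 0 ≤ c l)
    (χ : LM k (Option δ) → ℝ) {A : δ → ℝ → ℝ} {g v : ℝ → ℝ} (hA : ∀ i, Measurable (A i))
    (hg : Measurable g) (hv : Measurable v) (n : ℕ) (j : Fin (n + 1)) :
    𝓐.E (Fin (n + 1)) (fun L =>
      χ (fun a b => L (a.elim (Sum.inr j) Sum.inl) (b.elim (Sum.inr j) Sum.inl)) *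
        gE (UL c L) (Function.update (fam A v) (Sum.inr j) g)) =
      𝓐.mark.T c χ (ext g A) v (Fin n) := by
  rw [T_mark 𝓐 hc _ (by
      rintro (_ | i)
      · exact hg
      · exact hA i) hv]
  rw [← 𝓐.reindex (Fin (n + 1)) (Option (Fin n)) (finSuccEquiv' j)]
  apply 𝓐.congr_ultra
  intro L hL
  have hF : ∀ x : δ ⊕ Option (Fin n), Measurable (fam (ext g A) v (tr' x)) := by
    rintro (i | (_ | j))
    · exact hA i
    · exact hg
    · exact hv
  have h := gE_UL_equiv hc hL (Equiv.sumCongr (Equiv.refl δ) (finSuccEquiv' j).symm)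
    (f := fun y => fam (ext g A) v
      (tr' ((Equiv.sumCongr (Equiv.refl δ) (finSuccEquiv' j)) y))) (fun y => hF _)
  have h1 : ∀ x : δ ⊕ Option (Fin n), (Equiv.sumCongr (Equiv.refl δ) (finSuccEquiv' j).symm) x =
      Sum.map id (finSuccEquiv' j).symm x := by
    rintro (i | j) <;> rfl
  congr 1
  · congr 1
    funext a b
    have h2 : ∀ a : Option δ, (a.elim (Sum.inr j) Sum.inl : δ ⊕ Fin (n + 1)) =
        Sum.map id (finSuccEquiv' j).symm (tr (Sum.inl a)) := by
      rintro (_ | a)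
      · simp [tr]
      · simp [tr]
    rw [h2 a, h2 b]
  · have h3 : (Function.update (fam A v) (Sum.inr j) g : δ ⊕ Fin (n + 1) → ℝ → ℝ) =
        fun y => fam (ext g A) v
          (tr' ((Equiv.sumCongr (Equiv.refl δ) (finSuccEquiv' j)) y)) := by
      funext y
      rcases y with i | j'
      · rw [Function.update_of_ne (by simp)]
        rfl
      · by_cases hj : j' = j
        · subst hj
          rw [Function.update_self]
          simp [tr', fam, ext]
        · rw [Function.update_of_ne (by simpa using hj)]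
          obtain ⟨m, rfl⟩ := Fin.exists_succAbove_eq hj
          simp [tr', fam]
    rw [h3, ← h]
    simp only [h1]
    congr 1
    funext x
    rw [← h1]
    simp

end Arr

end Vale.Agent.P157.Par
end

section

open MeasureTheory ProbabilityTheory Filter Topology Finset

namespace Vale.Agent.P157.Par

set_option linter.unusedSectionVars false

open Vale.Agent.P367.GT (gM stein_pi)

/-- Bounded measurable functions. -/
structure BM (f : ℝ → ℝ) : Prop where
  meas : Measurable f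
  bdd : ∃ C, ∀ x, |f x| ≤ C

lemma BM.const (c : ℝ) : BM fun _ => c := ⟨measurable_const, |c|, fun _ => le_rfl⟩

lemma BM.mul {f g : ℝ → ℝ} (hf : BM f) (hg : BM g) : BM fun x => f x * g x := by
  obtain ⟨C, hC⟩ := hf.bdd
  obtain ⟨D, hD⟩ := hg.bdd
  refine ⟨hf.meas.mul hg.meas, C * D, fun x => ?_⟩
  rw [abs_mul]
  exact mul_le_mul (hC x) (hD x) (abs_nonneg _) ((abs_nonneg _).trans (hC x))

lemma BM.add {f g : ℝ → ℝ} (hf : BM f) (hg : BM g) : BM fun x => f x + g x := by
  obtain ⟨C, hC⟩ := hf.bdd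
  obtain ⟨D, hD⟩ := hg.bdd
  exact ⟨hf.meas.add hg.meas, C + D, fun x => (abs_add_le _ _).trans (add_le_add (hC x) (hD x))⟩

lemma BM.neg {f : ℝ → ℝ} (hf : BM f) : BM fun x => -f x := by
  obtain ⟨C, hC⟩ := hf.bdd
  exact ⟨hf.meas.neg, C, fun x => by rw [abs_neg]; exact hC x⟩

lemma BM.sub {f g : ℝ → ℝ} (hf : BM f) (hg : BM g) : BM fun x => f x - g x := by
  have := hf.add hg.neg
  simpa [sub_eq_add_neg] using this

section

variable {J K : Type} [Fintype J] [DecidableEq J] [Fintype K] [DecidableEq K]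

lemma BM.update {f : J → ℝ → ℝ} (hf : ∀ a, BM (f a)) {a : J} {g : ℝ → ℝ} (hg : BM g) :
    ∀ b, BM (Function.update f a g b) := by
  intro b
  by_cases hb : b = a
  · subst hb; simpa using hg
  · simpa [Function.update_of_ne hb] using hf b

lemma exists_bound {f : J → ℝ → ℝ} (hf : ∀ a, BM (f a)) : ∃ C, 0 ≤ C ∧ ∀ a x, |f a x| ≤ C := by
  choose C hC using fun a => (hf a).bdd
  refine ⟨∑ a, |C a|, Finset.sum_nonneg fun _ _ => abs_nonneg _, fun a x => ?_⟩
  exact ((hC a x).trans (le_abs_self _)).trans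
    (Finset.single_le_sum (f := fun a => |C a|) (fun _ _ => abs_nonneg _) (Finset.mem_univ a))

lemma gE_integrable (U : J → K → ℝ) {f : J → ℝ → ℝ} (hf : ∀ a, BM (f a)) :
    Integrable (fun ξ : K → ℝ => ∏ a, f a (lin U ξ a)) (gM K) := by
  obtain ⟨C, -, hC⟩ := exists_bound hf
  exact integrable_prod_lin (fun a => (hf a).meas) hC _

lemma gE_update_add (U : J → K → ℝ) {f : J → ℝ → ℝ} (hf : ∀ a, BM (f a)) (a : J)
    {g h : ℝ → ℝ} (hg : BM g) (hh : BM h) :
    gE U (Function.update f a fun x => g x + h x) =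
      gE U (Function.update f a g) + gE U (Function.update f a h) := by
  unfold gE
  rw [← integral_add (gE_integrable U (BM.update hf hg)) (gE_integrable U (BM.update hf hh))]
  congr 1
  funext ξ
  rw [prod_update, prod_update, prod_update]
  ring

lemma gE_update_smul (U : J → K → ℝ) (f : J → ℝ → ℝ) (a : J) (g : ℝ → ℝ) (c : ℝ) :
    gE U (Function.update f a fun x => c * g x) = c * gE U (Function.update f a g) := by
  unfold gE
  rw [← integral_const_mul]
  congr 1
  funext ξ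
  rw [prod_update, prod_update]
  ring

end

lemma fam_update {δ ι : Type} [DecidableEq δ] [DecidableEq ι] (A : δ → ℝ → ℝ) (v g : ℝ → ℝ)
    (i : δ) : (fam (Function.update A i g) v : δ ⊕ ι → ℝ → ℝ) =
      Function.update (fam A v) (Sum.inl i) g := by
  funext x
  rcases x with j | j
  · by_cases h : j = i
    · subst h; simp [fam]
    · rw [Function.update_of_ne (by simpa using h)]
      simp [fam, Function.update_of_ne h]
  · rw [Function.update_of_ne (by simp)]
    rfl

lemma ext_update {δ : Type} [DecidableEq δ] (g G : ℝ → ℝ) (A : δ → ℝ → ℝ) (i : δ) :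
    ext g (Function.update A i G) = Function.update (ext g A) (some i) G := by
  funext x
  rcases x with _ | j
  · rw [Function.update_of_ne (by simp)]
    rfl
  · by_cases h : j = i
    · subst h; simp [ext]
    · rw [Function.update_of_ne (by simpa using h)]
      simp [ext, Function.update_of_ne h]

lemma ext_eq_update {δ : Type} [DecidableEq δ] (g G : ℝ → ℝ) (A : δ → ℝ → ℝ) :
    ext g A = Function.update (ext G A) none g := by
  funext x
  rcases x with _ | j
  · simp [ext]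
  · rw [Function.update_of_ne (by simp)]
    rfl

namespace Arr

variable {k : ℕ} {w : Fin (k + 1) → ℝ} {δ : Type} [Fintype δ] [DecidableEq δ]

lemma BM_fam {ι : Type} {A : δ → ℝ → ℝ} {v : ℝ → ℝ} (hA : ∀ i, BM (A i)) (hv : BM v) :
    ∀ a : δ ⊕ ι, BM (fam A v a) := by
  rintro (i | j)
  · exact hA i
  · exact hv

lemma BM_ext {A : δ → ℝ → ℝ} {g : ℝ → ℝ} (hA : ∀ i, BM (A i)) (hg : BM g) :
    ∀ a : Option δ, BM (ext g A a) := by
  rintro (_ | i)
  · exact hg
  · exact hA i

lemma T_update_add (𝓐 : Arr k w δ) (c : Fin (k + 1) → ℝ) (χ : LM k δ → ℝ)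
    {A : δ → ℝ → ℝ} {v : ℝ → ℝ} (hA : ∀ i, BM (A i)) (hv : BM v) (i : δ) {g h : ℝ → ℝ}
    (hg : BM g) (hh : BM h) (ι : Type) [Fintype ι] [DecidableEq ι] :
    𝓐.T c χ (Function.update A i fun x => g x + h x) v ι =
      𝓐.T c χ (Function.update A i g) v ι + 𝓐.T c χ (Function.update A i h) v ι := by
  unfold T
  rw [← map_add]
  congr 1
  funext L
  rw [Pi.add_apply, fam_update, fam_update, fam_update,
    gE_update_add _ (BM_fam hA hv) _ hg hh]
  ring

lemma T_update_smul (𝓐 : Arr k w δ) (c : Fin (k + 1) → ℝ) (χ : LM k δ → ℝ)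
    (A : δ → ℝ → ℝ) (v : ℝ → ℝ) (i : δ) (g : ℝ → ℝ) (r : ℝ)
    (ι : Type) [Fintype ι] [DecidableEq ι] :
    𝓐.T c χ (Function.update A i fun x => r * g x) v ι =
      r * 𝓐.T c χ (Function.update A i g) v ι := by
  unfold T
  rw [← smul_eq_mul, ← map_smul]
  congr 1
  funext L
  rw [Pi.smul_apply, fam_update, fam_update, gE_update_smul, smul_eq_mul]
  ring

/-- The identity for `n` other replicas. -/
lemma T_gg_fin (𝓐 : Arr k w δ) {c : Fin (k + 1) → ℝ} (hc : ∀ l, 0 ≤ c l) (χ : LM k δ → ℝ)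
    {A : δ → ℝ → ℝ} {v : ℝ → ℝ} (hA : ∀ i, Measurable (A i)) (hv : Measurable v)
    (l : Fin (k + 1)) (i : δ) (n : ℕ) :
    ((Fintype.card δ : ℝ) + n) *
      𝓐.mark.T c (fun L => lift χ L * lk l (some i) none L) (ext (fun _ => 1) A) v (Fin n) =
      (up w l - 1) * 𝓐.T c χ A v (Fin n) +
        ∑ j, 𝓐.T c (fun L => χ L * lk l i j L) A v (Fin n) +
        n * 𝓐.mark.T c (fun L => lift χ L * lk l (some i) none L) (ext v A) v (Fin (n - 1)) := by
  have h := 𝓐.T_gg hc χ hA hv l i (Fin n)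
  have h2 : ∑ j : Fin n, 𝓐.E (Fin n) (fun L => χ (res L) * gE (UL c L) (fam A v) *
      if l ≤ L (Sum.inl i) (Sum.inr j) then 1 else 0) =
      n * 𝓐.mark.T c (fun L => lift χ L * lk l (some i) none L) (ext v A) v (Fin (n - 1)) := by
    rcases n with _ | n
    · simp
    · have h3 : ∀ j : Fin (n + 1), 𝓐.E (Fin (n + 1)) (fun L => χ (res L) *
          gE (UL c L) (fam A v) * if l ≤ L (Sum.inl i) (Sum.inr j) then 1 else 0) =
          𝓐.mark.T c (fun L => lift χ L * lk l (some i) none L) (ext v A) v (Fin n) := by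
        intro j
        have h4 := 𝓐.E_mark hc (fun L => lift χ L * lk l (some i) none L) hA hv hv n j
        rw [← h4]
        congr 1
        funext L
        have h5 : (Function.update (fam A v) (Sum.inr j) v : δ ⊕ Fin (n + 1) → ℝ → ℝ) =
            fam A v := by
          apply Function.update_eq_self_iff.2
          rfl
        rw [h5, mul_right_comm]
        rfl
      simp_rw [h3]
      rw [Finset.sum_const, Finset.card_univ, Fintype.card_fin, nsmul_eq_mul]
      rfl
  rw [h2] at h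
  rw [Fintype.card_fin] at h
  rw [h]
  ring

/-- Resummation over the other replicas, `card δ = e + 1`. -/
noncomputable def Q (𝓐 : Arr k w δ) (e : ℕ) (c : Fin (k + 1) → ℝ) (χ : LM k δ → ℝ)
    (A : δ → ℝ → ℝ) (v : ℝ → ℝ) : ℝ :=
  ∑' n : ℕ, ((n + e).choose e : ℝ) * 𝓐.T c χ A v (Fin n)

lemma C_nonneg (𝓐 : Arr k w δ) : 0 ≤ 𝓐.C := by
  have h := 𝓐.bound Empty (fun _ => 0) 1 (fun _ => by simp)
  rw [mul_one] at h
  exact (abs_nonneg _).trans h

lemma exists_abs_bound (χ : LM k δ → ℝ) : ∃ X, 0 ≤ X ∧ ∀ L, |χ L| ≤ X := by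
  refine ⟨∑ L, |χ L|, Finset.sum_nonneg fun _ _ => abs_nonneg _, fun L => ?_⟩
  exact Finset.single_le_sum (f := fun L => |χ L|) (fun _ _ => abs_nonneg _) (Finset.mem_univ L)

lemma T_geom (𝓐 : Arr k w δ) (c : Fin (k + 1) → ℝ) (χ : LM k δ → ℝ) {A : δ → ℝ → ℝ}
    {v : ℝ → ℝ} (hA : ∀ i, BM (A i)) {a : ℝ} (hv : ∀ x, |v x| ≤ a) :
    ∃ M, 0 ≤ M ∧ ∀ n : ℕ, |𝓐.T c χ A v (Fin n)| ≤ M * a ^ n := by
  obtain ⟨X, hX0, hX⟩ := exists_abs_bound χ
  obtain ⟨B, hB0, hB⟩ := exists_bound hA
  refine ⟨𝓐.C * (X * B ^ Fintype.card δ), by have := 𝓐.C_nonneg; positivity, fun n => ?_⟩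
  have h := 𝓐.T_bound (c := c) hX (B := fun _ => B) hB hv (Fin n)
  rw [Finset.prod_const, Finset.card_univ, Fintype.card_fin] at h
  refine h.trans (le_of_eq ?_)
  ring

lemma Q_summable (𝓐 : Arr k w δ) (e : ℕ) (c : Fin (k + 1) → ℝ) (χ : LM k δ → ℝ)
    {A : δ → ℝ → ℝ} {v : ℝ → ℝ} (hA : ∀ i, BM (A i)) {a : ℝ} (ha0 : 0 ≤ a) (ha : a < 1)
    (hv : ∀ x, |v x| ≤ a) :
    Summable fun n : ℕ => ((n + e).choose e : ℝ) * 𝓐.T c χ A v (Fin n) := by
  obtain ⟨M, hM0, hM⟩ := 𝓐.T_geom c χ hA hv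
  have h1 : Summable fun n : ℕ => ((n + e).choose e : ℝ) * a ^ n :=
    summable_choose_mul_geometric_of_norm_lt_one e (by rwa [Real.norm_eq_abs, abs_of_nonneg ha0])
  refine Summable.of_norm_bounded (h1.mul_left M) fun n => ?_
  rw [norm_mul, Real.norm_eq_abs, Real.norm_eq_abs, abs_of_nonneg (by positivity)]
  calc _ ≤ ((n + e).choose e : ℝ) * (M * a ^ n) :=
        mul_le_mul_of_nonneg_left (hM n) (by positivity)
    _ = _ := by ring

lemma choose_id1 (n e : ℕ) : ((n + e).choose e : ℝ) * ((e + 1 : ℕ) + n) =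
    (e + 1 : ℕ) * ((n + (e + 1)).choose (e + 1) : ℝ) := by
  have h := Nat.add_one_mul_choose_eq (n + e) e
  have h2 : ((n + e + 1 : ℕ) : ℝ) * ((n + e).choose e : ℝ) =
      ((n + e + 1).choose (e + 1) : ℝ) * ((e + 1 : ℕ) : ℝ) := by exact_mod_cast h
  rw [show n + (e + 1) = n + e + 1 from rfl]
  push_cast at h2 ⊢
  linarith

lemma choose_id2 (n e : ℕ) : ((n + 1 + e).choose e : ℝ) * ((n + 1 : ℕ) : ℝ) =
    (e + 1 : ℕ) * ((n + (e + 1)).choose (e + 1) : ℝ) := by
  have h := Nat.choose_succ_right_eq (n + 1 + e) e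
  have h2 : n + 1 + e - e = n + 1 := by omega
  rw [h2] at h
  have h3 : n + (e + 1) = n + 1 + e := by omega
  rw [h3]
  have h4 : ((n + 1 + e).choose (e + 1) : ℝ) * ((e + 1 : ℕ) : ℝ) =
      ((n + 1 + e).choose e : ℝ) * ((n + 1 : ℕ) : ℝ) := by exact_mod_cast h
  linarith

/-- The resummed identity. -/
theorem Q_gg (𝓐 : Arr k w δ) {e : ℕ} (he : Fintype.card δ = e + 1) {c : Fin (k + 1) → ℝ}
    (hc : ∀ l, 0 ≤ c l) (χ : LM k δ → ℝ) {A : δ → ℝ → ℝ} {v : ℝ → ℝ} (hA : ∀ i, BM (A i))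
    (hvm : Measurable v) {a : ℝ} (ha0 : 0 ≤ a) (ha : a < 1) (hv : ∀ x, |v x| ≤ a)
    (l : Fin (k + 1)) (i : δ) :
    ((e + 1 : ℕ) : ℝ) *
      𝓐.mark.Q (e + 1) c (fun L => lift χ L * lk l (some i) none L) (ext (fun _ => 1) A) v =
      (up w l - 1) * 𝓐.Q e c χ A v + ∑ j, 𝓐.Q e c (fun L => χ L * lk l i j L) A v +
      ((e + 1 : ℕ) : ℝ) *
        𝓐.mark.Q (e + 1) c (fun L => lift χ L * lk l (some i) none L) (ext v A) v := by
  have hvb : BM v := ⟨hvm, a, hv⟩
  set P1 : ℕ → ℝ := fun n =>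
    𝓐.mark.T c (fun L => lift χ L * lk l (some i) none L) (ext (fun _ => 1) A) v (Fin n) with hP1
  set Pv : ℕ → ℝ := fun n =>
    𝓐.mark.T c (fun L => lift χ L * lk l (some i) none L) (ext v A) v (Fin n) with hPv
  have s1 := 𝓐.mark.Q_summable (e + 1) c (fun L => lift χ L * lk l (some i) none L)
    (BM_ext hA (BM.const 1)) ha0 ha hv
  have s2 := 𝓐.mark.Q_summable (e + 1) c (fun L => lift χ L * lk l (some i) none L)
    (BM_ext hA hvb) ha0 ha hv
  have s3 := 𝓐.Q_summable e c χ hA ha0 ha hv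
  have s4 := fun j => 𝓐.Q_summable e c (fun L => χ L * lk l i j L) hA ha0 ha hv
  have hterm : ∀ n : ℕ, ((e + 1 : ℕ) : ℝ) * (((n + (e + 1)).choose (e + 1) : ℝ) * P1 n) =
      (up w l - 1) * (((n + e).choose e : ℝ) * 𝓐.T c χ A v (Fin n)) +
      ∑ j, ((n + e).choose e : ℝ) * 𝓐.T c (fun L => χ L * lk l i j L) A v (Fin n) +
      ((n + e).choose e : ℝ) * n * Pv (n - 1) := by
    intro n
    have h := 𝓐.T_gg_fin hc χ (fun i => (hA i).meas) hvm l i n
    rw [he] at h
    rw [← mul_assoc, ← choose_id1 n e, mul_assoc, h, ← Finset.mul_sum]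
    ring
  have hshift : ∀ n : ℕ, ((n + 1 + e).choose e : ℝ) * (n + 1 : ℕ) * Pv (n + 1 - 1) =
      ((e + 1 : ℕ) : ℝ) * (((n + (e + 1)).choose (e + 1) : ℝ) * Pv n) := by
    intro n
    rw [choose_id2, Nat.add_sub_cancel]
    ring
  have s5 : Summable fun n : ℕ => ((n + e).choose e : ℝ) * n * Pv (n - 1) := by
    rw [← summable_nat_add_iff 1]
    refine (s2.mul_left ((e + 1 : ℕ) : ℝ)).congr fun n => ?_
    rw [hshift n]
  have e5 : ∑' n : ℕ, ((n + e).choose e : ℝ) * n * Pv (n - 1) =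
      ((e + 1 : ℕ) : ℝ) * 𝓐.mark.Q (e + 1) c (fun L => lift χ L * lk l (some i) none L)
        (ext v A) v := by
    rw [s5.tsum_eq_zero_add]
    simp only [Nat.cast_zero, mul_zero, zero_mul, zero_add]
    rw [Q, ← tsum_mul_left]
    apply tsum_congr
    intro n
    exact hshift n
  calc ((e + 1 : ℕ) : ℝ) *
      𝓐.mark.Q (e + 1) c (fun L => lift χ L * lk l (some i) none L) (ext (fun _ => 1) A) v
      = ∑' n : ℕ, ((e + 1 : ℕ) : ℝ) * (((n + (e + 1)).choose (e + 1) : ℝ) * P1 n) := by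
        rw [Q, ← tsum_mul_left]
    _ = ∑' n : ℕ, ((up w l - 1) * (((n + e).choose e : ℝ) * 𝓐.T c χ A v (Fin n)) +
      ∑ j, ((n + e).choose e : ℝ) * 𝓐.T c (fun L => χ L * lk l i j L) A v (Fin n) +
      ((n + e).choose e : ℝ) * n * Pv (n - 1)) := tsum_congr hterm
    _ = _ := by
        rw [((s3.mul_left (up w l - 1)).add (summable_sum fun j _ => s4 j)).tsum_add s5,
          (s3.mul_left (up w l - 1)).tsum_add (summable_sum fun j _ => s4 j), tsum_mul_left,
          Summable.tsum_finsetSum fun j _ => s4 j, e5]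
        rfl

lemma Q_update_add (𝓐 : Arr k w δ) (e : ℕ) (c : Fin (k + 1) → ℝ) (χ : LM k δ → ℝ)
    {A : δ → ℝ → ℝ} {v : ℝ → ℝ} (hA : ∀ i, BM (A i)) (hvm : Measurable v) {a : ℝ}
    (ha0 : 0 ≤ a) (ha : a < 1) (hv : ∀ x, |v x| ≤ a) (i : δ) {g h : ℝ → ℝ}
    (hg : BM g) (hh : BM h) :
    𝓐.Q e c χ (Function.update A i fun x => g x + h x) v =
      𝓐.Q e c χ (Function.update A i g) v + 𝓐.Q e c χ (Function.update A i h) v := by
  unfold Q
  rw [← (𝓐.Q_summable e c χ (BM.update hA hg) ha0 ha hv).tsum_add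
    (𝓐.Q_summable e c χ (BM.update hA hh) ha0 ha hv)]
  apply tsum_congr
  intro n
  rw [𝓐.T_update_add c χ hA ⟨hvm, a, hv⟩ i hg hh]
  ring

lemma Q_update_smul (𝓐 : Arr k w δ) (e : ℕ) (c : Fin (k + 1) → ℝ) (χ : LM k δ → ℝ)
    (A : δ → ℝ → ℝ) (v : ℝ → ℝ) (i : δ) (g : ℝ → ℝ) (r : ℝ) :
    𝓐.Q e c χ (Function.update A i fun x => r * g x) v =
      r * 𝓐.Q e c χ (Function.update A i g) v := by
  unfold Q
  rw [← tsum_mul_left]
  apply tsum_congr
  intro n
  rw [𝓐.T_update_smul c χ A v i g]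
  ring

/-- On a link, a function can be moved from the new index to the old one. -/
lemma T_move (𝓐 : Arr k w δ) {c : Fin (k + 1) → ℝ} {l : Fin (k + 1)}
    (hcl : ∀ l', l < l' → c l' = 0) (χ : LM k δ → ℝ) (A : δ → ℝ → ℝ) (v : ℝ → ℝ) {i j : δ}
    (hij : i ≠ j) (g : ℝ → ℝ) (ι : Type) [Fintype ι] [DecidableEq ι] :
    𝓐.T c (fun L => χ L * lk l i j L) (Function.update A j g) v ι =
      𝓐.T c (fun L => χ L * lk l i j L)
        (Function.update (Function.update A i fun x => A i x * g x) j fun _ => 1) v ι := by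
  unfold T
  apply 𝓐.congr_ultra
  intro L hL
  by_cases h : l ≤ L (Sum.inl i) (Sum.inl j)
  · congr 1
    rw [fam_update, fam_update, fam_update]
    exact gE_move (by simpa using hij) (UL_eq_of_link hcl hL h) (fam A v) g
  · have : lk l i j (res L) = 0 := by
      unfold lk res
      rw [if_neg h]
    simp [this]

lemma Q_move (𝓐 : Arr k w δ) (e : ℕ) {c : Fin (k + 1) → ℝ} {l : Fin (k + 1)}
    (hcl : ∀ l', l < l' → c l' = 0) (χ : LM k δ → ℝ) (A : δ → ℝ → ℝ) (v : ℝ → ℝ) {i j : δ}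
    (hij : i ≠ j) (g : ℝ → ℝ) :
    𝓐.Q e c (fun L => χ L * lk l i j L) (Function.update A j g) v =
      𝓐.Q e c (fun L => χ L * lk l i j L)
        (Function.update (Function.update A i fun x => A i x * g x) j fun _ => 1) v := by
  unfold Q
  apply tsum_congr
  intro n
  rw [𝓐.T_move hcl χ A v hij g]

/-- Stability: the resummed Ghirlanda-Guerra identity in its final form. -/
theorem Q_stab (𝓐 : Arr k w δ) {e : ℕ} (he : Fintype.card δ = e + 1) {c : Fin (k + 1) → ℝ}
    (hc : ∀ l, 0 ≤ c l) {l : Fin (k + 1)} (hcl : ∀ l', l < l' → c l' = 0) (χ : LM k δ → ℝ)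
    {A : δ → ℝ → ℝ} {v : ℝ → ℝ} (hA : ∀ i, BM (A i))
    (hvm : Measurable v) {a : ℝ} (ha0 : 0 ≤ a) (ha : a < 1) (hv : ∀ x, |v x| ≤ a) (i : δ)
    {G H : ℝ → ℝ} (hG : BM G) (hH : BM H) :
    ((e + 1 : ℕ) : ℝ) *
      𝓐.mark.Q (e + 1) c (fun L => lift χ L * lk l (some i) none L)
        (ext (fun x => H x * (1 - v x)) (Function.update A i G)) v =
      (up w l - 1) * 𝓐.Q e c χ (Function.update A i fun x => G x * H x) v +
      ∑ j, 𝓐.Q e c (fun L => χ L * lk l i j L)
        (Function.update A i fun x => G x * H x) v := by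
  have hvb : BM v := ⟨hvm, a, hv⟩
  have hGH := hG.mul hH
  have hAG : ∀ j, BM (Function.update A i G j) := BM.update hA hG
  have hAGH : ∀ j, BM (Function.update A i (fun x => G x * H x) j) := BM.update hA hGH
  have h1 := 𝓐.Q_gg he hc χ hAGH hvm ha0 ha hv l i
  have hne : (some i : Option δ) ≠ none := by simp
  -- move everything to the index `i`
  have m1 : ∀ g : ℝ → ℝ, 𝓐.mark.Q (e + 1) c (fun L => lift χ L * lk l (some i) none L)
      (ext g (Function.update A i G)) v =
      𝓐.mark.Q (e + 1) c (fun L => lift χ L * lk l (some i) none L)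
      (ext (fun _ => 1) (Function.update A i fun x => G x * g x)) v := by
    intro g
    rw [ext_eq_update g (fun _ => 1), 𝓐.mark.Q_move (e + 1) hcl _ _ _ hne]
    congr 1
    rw [ext_eq_update (fun _ => 1) (fun _ => 1) (Function.update A i fun x => G x * g x)]
    congr 1
    rw [ext_update, ext_update, Function.update_idem]
    congr 1
    funext x
    simp
  have m2 : 𝓐.mark.Q (e + 1) c (fun L => lift χ L * lk l (some i) none L)
      (ext v (Function.update A i fun x => G x * H x)) v =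
      𝓐.mark.Q (e + 1) c (fun L => lift χ L * lk l (some i) none L)
      (ext (fun _ => 1) (Function.update A i fun x => G x * H x * v x)) v := by
    rw [ext_eq_update v (fun _ => 1), 𝓐.mark.Q_move (e + 1) hcl _ _ _ hne]
    congr 1
    rw [ext_eq_update (fun _ => 1) (fun _ => 1) (Function.update A i fun x => G x * H x * v x)]
    congr 1
    rw [ext_update, ext_update, Function.update_idem]
    congr 1
    funext x
    simp
  have m3 : 𝓐.mark.Q (e + 1) c (fun L => lift χ L * lk l (some i) none L)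
      (ext (fun _ => 1) (Function.update A i fun x => G x * (H x * (1 - v x)))) v =
      𝓐.mark.Q (e + 1) c (fun L => lift χ L * lk l (some i) none L)
        (ext (fun _ => 1) (Function.update A i fun x => G x * H x)) v -
      𝓐.mark.Q (e + 1) c (fun L => lift χ L * lk l (some i) none L)
        (ext (fun _ => 1) (Function.update A i fun x => G x * H x * v x)) v := by
    have hb1 : BM fun x => G x * H x := hGH
    have hb2 : BM fun x => -1 * (G x * H x * v x) := (BM.const (-1)).mul (hGH.mul hvb)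
    have h2 : (fun x => G x * (H x * (1 - v x))) =
        fun x => (G x * H x) + (-1 * (G x * H x * v x)) := by
      funext x; ring
    rw [h2, ext_update, 𝓐.mark.Q_update_add (e + 1) c _ (BM_ext hA (BM.const 1)) hvm ha0 ha hv
      (some i) hb1 hb2, 𝓐.mark.Q_update_smul, ext_update, ext_update]
    ring
  rw [m1, m3]
  rw [m2] at h1
  linarith

end Arr

end Vale.Agent.P157.Par
end

section

open MeasureTheory ProbabilityTheory Filter Topology Finset

namespace Vale.Agent.P157.Par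

set_option linter.unusedSectionVars false

open Vale.Agent.P367.GT (gM stein_pi)

variable {k : ℕ} {J : Type} [Fintype J] [DecidableEq J]

/-- The derivative of the coefficients of the Gaussian family in the variance of the level `l`. -/
noncomputable def UL' (l : Fin (k + 1)) (t : ℝ) (L : LM k J) : J → Fin (k + 1) × (J → Bool) → ℝ :=
  fun a p => if p.2 = cl L p.1 a ∧ p.1 = l then 1 / (2 * √t) else 0

lemma UL_hasDerivAt (c : Fin (k + 1) → ℝ) (l : Fin (k + 1)) (L : LM k J) {t : ℝ} (ht : 0 < t)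
    (a : J) (p : Fin (k + 1) × (J → Bool)) :
    HasDerivAt (fun s => UL (Function.update c l s) L a p) (UL' l t L a p) t := by
  unfold UL UL'
  by_cases h : p.2 = cl L p.1 a
  · by_cases h' : p.1 = l
    · simp only [h, h', and_self, if_true, Function.update_self]
      exact Real.hasDerivAt_sqrt ht.ne'
    · simp only [h, h', and_false, if_true, if_false, Function.update_of_ne h']
      exact hasDerivAt_const _ _
  · simp only [h, false_and, if_false]
    exact hasDerivAt_const _ _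

lemma gram_UL' (c : Fin (k + 1) → ℝ) (l : Fin (k + 1)) {L : LM k J} (hL : Ultra L) {t : ℝ}
    (ht : 0 < t) (a b : J) :
    gram (UL' l t L) (UL (Function.update c l t) L) a b = 1 / 2 * if l ≤ L a b then 1 else 0 := by
  unfold gram
  rw [Fintype.sum_prod_type]
  have h1 : ∀ l' : Fin (k + 1), ∑ s : J → Bool,
      UL' l t L a (l', s) * UL (Function.update c l t) L b (l', s) =
      if l' = l then (1 / 2 * if l ≤ L a b then 1 else 0) else 0 := by
    intro l'
    by_cases h : l' = l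
    · subst h
      have h2 : ∀ s : J → Bool, UL' l' t L a (l', s) * UL (Function.update c l' t) L b (l', s) =
          if s = cl L l' a then (1 / 2 * if l' ≤ L a b then 1 else 0) else 0 := by
        intro s
        simp only [UL', UL, Function.update_self, and_true]
        by_cases hs : s = cl L l' a
        · subst hs
          simp only [if_true, cl_eq_iff hL]
          have := Real.sqrt_pos.2 ht
          split_ifs
          · field_simp
          · simp
        · simp [hs]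
      simp_rw [h2]
      rw [Finset.sum_ite_eq' Finset.univ (cl L l' a)]
      simp
    · simp only [UL', h, and_false, if_false, zero_mul, Finset.sum_const_zero]
  simp_rw [h1]
  rw [Finset.sum_ite_eq' Finset.univ l]
  simp

/-- Time derivative plus half of the second space derivative. -/
noncomputable def LL (ht hxx : ℝ → ℝ → ℝ) (t x : ℝ) : ℝ := ht t x + 1 / 2 * hxx t x

/-- The derivative of the product functional in the variance of the level `l`. -/
theorem gE_UL_hasDerivAt {c : Fin (k + 1) → ℝ} (l : Fin (k + 1)) {σ C : ℝ}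
    {h ht hx hxx : J → ℝ → ℝ → ℝ}
    (hn : ∀ a, Nice (Set.Ioo 0 σ) C (h a) (ht a) (hx a) (hxx a)) {L : LM k J}
    {t : ℝ} (htσ : t ∈ Set.Ioo 0 σ) :
    HasDerivAt (fun s => gE (UL (Function.update c l s) L) (fun a => h a s))
      (∑ a, gE (UL (Function.update c l t) L) (Function.update (fun a => h a t) a (ht a t)) +
        ∑ a, ∑ b, gram (UL' l t L) (UL (Function.update c l t) L) a b *
          gE (UL (Function.update c l t) L)
            (D2 (fun a => h a t) (fun a => hx a t) (fun a => hxx a t) a b)) t := by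
  apply hasDerivAt_gE isOpen_Ioo hn (U' := fun s => UL' l s L) _ htσ
    (B := 1 / (2 * √(t / 2)))
  · filter_upwards [Ioi_mem_nhds (by linarith [htσ.1] : t / 2 < t)] with s hs a p
    have hs' : t / 2 < s := hs
    have h0 : 0 < t / 2 := by linarith [htσ.1]
    have h1 : √(t / 2) ≤ √s := Real.sqrt_le_sqrt hs'.le
    have h2 : 0 < √(t / 2) := Real.sqrt_pos.2 h0
    unfold UL'
    split_ifs
    · rw [abs_of_nonneg (by (clear * -; positivity))]
      apply div_le_div_of_nonneg_left (by norm_num) (by positivity)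
      linarith only [h1]
    · rw [abs_zero]; positivity
  · intro s hs a p
    exact UL_hasDerivAt c l L hs.1 a p

/-- The derivative on an ultrametric matrix. -/
lemma deriv_formula (c : Fin (k + 1) → ℝ) (l : Fin (k + 1)) {C : ℝ} {σ : ℝ}
    {h ht hx hxx : J → ℝ → ℝ → ℝ}
    (hn : ∀ a, Nice (Set.Ioo 0 σ) C (h a) (ht a) (hx a) (hxx a)) {L : LM k J} (hL : Ultra L)
    {t : ℝ} (htσ : t ∈ Set.Ioo 0 σ) :
    (∑ a, gE (UL (Function.update c l t) L) (Function.update (fun a => h a t) a (ht a t)) +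
        ∑ a, ∑ b, gram (UL' l t L) (UL (Function.update c l t) L) a b *
          gE (UL (Function.update c l t) L)
            (D2 (fun a => h a t) (fun a => hx a t) (fun a => hxx a t) a b)) =
      ∑ a, gE (UL (Function.update c l t) L)
        (Function.update (fun a => h a t) a (LL (ht a) (hxx a) t)) +
      1 / 2 * ∑ a, ∑ b, (if a = b then 0 else
        (if l ≤ L a b then 1 else 0) * gE (UL (Function.update c l t) L)
          (Function.update (Function.update (fun a => h a t) a (hx a t)) b (hx b t))) := by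
  have hbm : ∀ a, BM (h a t) := fun a => ⟨(hn a).m0 t htσ, C, (hn a).b0 t htσ⟩
  have hbt : ∀ a, BM (ht a t) := fun a => ⟨(hn a).mt t htσ, C, (hn a).bt t htσ⟩
  have hb2 : ∀ a, BM (hxx a t) := fun a => ⟨(hn a).m2 t htσ, C, (hn a).b2 t htσ⟩
  have e1 : ∀ a, gE (UL (Function.update c l t) L)
      (Function.update (fun a => h a t) a (LL (ht a) (hxx a) t)) =
      gE (UL (Function.update c l t) L) (Function.update (fun a => h a t) a (ht a t)) +
      1 / 2 * gE (UL (Function.update c l t) L)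
        (Function.update (fun a => h a t) a (hxx a t)) := by
    intro a
    have h2 : LL (ht a) (hxx a) t = fun x => ht a t x + (1 / 2 * hxx a t x) := rfl
    rw [h2, gE_update_add _ hbm a (hbt a) ((BM.const (1 / 2)).mul (hb2 a)), gE_update_smul]
  simp_rw [e1]
  rw [Finset.sum_add_distrib, add_assoc]
  congr 1
  rw [Finset.mul_sum, ← Finset.sum_add_distrib]
  apply Finset.sum_congr rfl
  intro a _
  simp_rw [gram_UL' c l hL htσ.1]
  rw [Finset.mul_sum, ← Finset.add_sum_erase _ _ (Finset.mem_univ a),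
    ← Finset.add_sum_erase (a := a) (s := univ) (f := fun b => 1 / 2 * (if a = b then 0 else
        (if l ≤ L a b then (1:ℝ) else 0) * gE (UL (Function.update c l t) L)
          (Function.update (Function.update (fun a => h a t) a (hx a t)) b (hx b t))))
      (Finset.mem_univ a)]
  have h3 : l ≤ L a a := by rw [hL.diag]; exact Fin.le_last l
  simp only [h3, if_true, D2, mul_one, mul_zero, zero_add]
  congr 1
  apply Finset.sum_congr rfl
  intro b hb
  have hab : a ≠ b := (Finset.ne_of_mem_erase hb).symm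
  simp only [if_neg hab]
  ring

namespace Arr

variable {w : Fin (k + 1) → ℝ} {δ : Type} [Fintype δ] [DecidableEq δ]

lemma E_hasDerivAt (𝓐 : Arr k w δ) {ι : Type} [Fintype ι] [DecidableEq ι]
    {A : ℝ → LM k (δ ⊕ ι) → ℝ} {A' : LM k (δ ⊕ ι) → ℝ} {t : ℝ}
    (h : ∀ L, HasDerivAt (fun s => A s L) (A' L) t) :
    HasDerivAt (fun s => 𝓐.E ι (A s)) (𝓐.E ι A') t := by
  have h1 : HasDerivAt A A' t := hasDerivAt_pi.2 h
  exact (LinearMap.toContinuousLinearMap (𝓐.E ι)).hasFDerivAt.comp_hasDerivAt t h1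

lemma E_continuousOn (𝓐 : Arr k w δ) {ι : Type} [Fintype ι] [DecidableEq ι]
    {A : ℝ → LM k (δ ⊕ ι) → ℝ} {S : Set ℝ}
    (h : ∀ L, ContinuousOn (fun s => A s L) S) : ContinuousOn (fun s => 𝓐.E ι (A s)) S := by
  have h1 : ContinuousOn A S := continuousOn_pi.2 h
  exact (LinearMap.toContinuousLinearMap (𝓐.E ι)).continuous.comp_continuousOn h1

end Arr

end Vale.Agent.P157.Par
end

section

open MeasureTheory ProbabilityTheory Filter Topology Finset

namespace Vale.Agent.P157.Par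

set_option linter.unusedSectionVars false

open Vale.Agent.P367.GT (gM stein_pi)

lemma alg_split {δ ι : Type} [Fintype δ] [DecidableEq δ] [Fintype ι] [DecidableEq ι]
    (x : ℝ) (D : δ ⊕ ι → ℝ) (P : δ ⊕ ι → δ ⊕ ι → ℝ)
    (hP : ∀ i j, P (Sum.inr j) (Sum.inl i) = P (Sum.inl i) (Sum.inr j)) :
    x * (∑ a, D a + 1 / 2 * ∑ a, ∑ b, (if a = b then 0 else P a b)) =
      ∑ i : δ, x * D (Sum.inl i) +
      1 / 2 * ∑ i : δ, ∑ i' : δ, (if i = i' then 0 else x * P (Sum.inl i) (Sum.inl i')) +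
      ∑ j : ι, (x * D (Sum.inr j) + ∑ i : δ, x * P (Sum.inl i) (Sum.inr j) +
        1 / 2 * ∑ j' : ι, (if j = j' then 0 else x * P (Sum.inr j) (Sum.inr j'))) := by
  simp only [Fintype.sum_sum_type, Sum.inl.injEq, Sum.inr.injEq, reduceCtorEq, if_false, hP]
  have e1 : ∑ i : δ, ∑ i' : δ, (if i = i' then 0 else x * P (Sum.inl i) (Sum.inl i')) =
      x * ∑ i : δ, ∑ i' : δ, (if i = i' then 0 else P (Sum.inl i) (Sum.inl i')) := by
    simp only [Finset.mul_sum, mul_ite, mul_zero]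
  have e2 : ∑ i : ι, ∑ i' : ι, (if i = i' then 0 else x * P (Sum.inr i) (Sum.inr i')) =
      x * ∑ i : ι, ∑ i' : ι, (if i = i' then 0 else P (Sum.inr i) (Sum.inr i')) := by
    simp only [Finset.mul_sum, mul_ite, mul_zero]
  have e4 : ∑ j : ι, ∑ i : δ, P (Sum.inl i) (Sum.inr j) =
      ∑ i : δ, ∑ j : ι, P (Sum.inl i) (Sum.inr j) := Finset.sum_comm
  simp only [Finset.sum_add_distrib, ← Finset.mul_sum, e1, e2, e4]
  ring

namespace Arr

variable {k : ℕ} {w : Fin (k + 1) → ℝ} {δ : Type} [Fintype δ] [DecidableEq δ]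

/-- The index `j` becomes special. -/
def tau {n : ℕ} (j : Fin (n + 1)) : δ ⊕ Fin (n + 1) → Option δ ⊕ Fin n :=
  fun x => tr' (Sum.map id (finSuccEquiv' j) x)

lemma E_mark_gen (𝓐 : Arr k w δ) (n : ℕ) (j : Fin (n + 1)) (B : LM k (δ ⊕ Fin (n + 1)) → ℝ) :
    𝓐.E (Fin (n + 1)) B = 𝓐.mark.E (Fin n) fun L => B fun a b => L (tau j a) (tau j b) := by
  have h1 : 𝓐.mark.E (Fin n) (fun L => B fun a b => L (tau j a) (tau j b)) =
      𝓐.E (Option (Fin n)) fun L => B fun a b => L (tr (tau j a)) (tr (tau j b)) := rfl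
  rw [h1]
  have h2 : ∀ x : δ ⊕ Fin (n + 1), tr (tau j x) = Sum.map id (finSuccEquiv' j) x := by
    intro x
    exact (trE (δ := δ) (ι := Fin n)).right_inv _
  simp_rw [h2]
  rw [← 𝓐.reindex (Fin (n + 1)) (Option (Fin n)) (finSuccEquiv' j)]
  congr 1
  funext L
  congr 1
  funext a b
  have h3 : ∀ x : δ ⊕ Fin (n + 1), Sum.map id (finSuccEquiv' j).symm
      (Sum.map id (finSuccEquiv' j) x) = x := by
    rintro (i | i) <;> simp
  show L a b = L (Sum.map id (finSuccEquiv' j).symm (Sum.map id (finSuccEquiv' j) a))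
    (Sum.map id (finSuccEquiv' j).symm (Sum.map id (finSuccEquiv' j) b))
  rw [h3, h3]

/-- The equivalence underlying `tau`. -/
def tauE {n : ℕ} (j : Fin (n + 1)) : δ ⊕ Fin (n + 1) ≃ Option δ ⊕ Fin n :=
  (Equiv.sumCongr (Equiv.refl δ) (finSuccEquiv' j)).trans (trE (δ := δ) (ι := Fin n)).symm

lemma tauE_apply {n : ℕ} (j : Fin (n + 1)) (x : δ ⊕ Fin (n + 1)) :
    tauE j x = tau j x := by
  rcases x with i | i <;> rfl

lemma tau_inl {n : ℕ} (j : Fin (n + 1)) (i : δ) :
    tau j (Sum.inl i) = (Sum.inl (some i) : Option δ ⊕ Fin n) := rfl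

lemma tau_self {n : ℕ} (j : Fin (n + 1)) :
    tau j (Sum.inr j) = (Sum.inl none : Option δ ⊕ Fin n) := by
  simp [tau, tr']

lemma tau_succAbove {n : ℕ} (j : Fin (n + 1)) (m : Fin n) :
    tau j (Sum.inr (j.succAbove m)) = (Sum.inr m : Option δ ⊕ Fin n) := by
  simp [tau, tr']

/-- Marking one of two other indices. -/
lemma E_mark_pair (𝓐 : Arr k w δ) {c : Fin (k + 1) → ℝ} (hc : ∀ l, 0 ≤ c l)
    (χ : LM k δ → ℝ) {A : δ → ℝ → ℝ} {g v : ℝ → ℝ} (hA : ∀ i, Measurable (A i))
    (hg : Measurable g) (hv : Measurable v) (l : Fin (k + 1)) (n : ℕ) (j : Fin (n + 2))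
    (m : Fin (n + 1)) :
    𝓐.E (Fin (n + 2)) (fun L => χ (res L) *
      ((if l ≤ L (Sum.inr j) (Sum.inr (j.succAbove m)) then 1 else 0) *
        gE (UL c L) (Function.update (Function.update (fam A v) (Sum.inr j) g)
          (Sum.inr (j.succAbove m)) g))) =
      𝓐.mark.mark.T c (fun L => lift (lift χ) L * lk l (some none) none L)
        (ext g (ext g A)) v (Fin n) := by
  rw [E_mark_gen 𝓐 (n + 1) j]
  rw [← 𝓐.mark.E_mark hc (fun L => lift (lift χ) L * lk l (some none) none L)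
    (A := ext g A) (g := g) (v := v) (by
      rintro (_ | i)
      · exact hg
      · exact hA i) hg hv n m]
  apply 𝓐.mark.congr_ultra
  intro L hL
  have h1 : (if l ≤ L (tau j (Sum.inr j)) (tau j (Sum.inr (j.succAbove m))) then (1:ℝ) else 0) =
      if l ≤ L (Sum.inl none) (Sum.inr m) then 1 else 0 := by
    rw [tau_self, tau_succAbove]
  have hF : ∀ x : Option δ ⊕ Fin (n + 1), Measurable
      (Function.update (fam (ext g A) v) (Sum.inr m) g x) := by
    intro x
    by_cases hx : x = Sum.inr m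
    · subst hx; simpa using hg
    · rw [Function.update_of_ne hx]
      rcases x with (_ | i) | i
      · exact hg
      · exact hA i
      · exact hv
  have h2 : gE (UL c fun a b => L (tau j a) (tau j b))
      (Function.update (Function.update (fam A v) (Sum.inr j) g) (Sum.inr (j.succAbove m)) g) =
      gE (UL c L) (Function.update (fam (ext g A) v) (Sum.inr m) g) := by
    have h3 := gE_UL_equiv hc hL (tauE j) hF
    rw [← h3]
    simp only [tauE_apply]
    congr 1
    funext x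
    rcases x with i | i
    · rw [Function.update_of_ne (by simp), Function.update_of_ne (by simp), tau_inl,
        Function.update_of_ne (by simp)]
      rfl
    · by_cases h : i = j
      · subst h
        rw [Function.update_of_ne (by simp),
          Function.update_self, tau_self, Function.update_of_ne (by simp)]
        rfl
      · obtain ⟨m', rfl⟩ := Fin.exists_succAbove_eq h
        by_cases h' : m' = m
        · subst h'
          rw [Function.update_self, tau_succAbove, Function.update_self]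
        · rw [Function.update_of_ne (by simpa using h'), Function.update_of_ne (by simp),
            tau_succAbove, Function.update_of_ne (by simpa using h')]
          rfl
  show χ (res fun a b => L (tau j a) (tau j b)) *
      ((if l ≤ L (tau j (Sum.inr j)) (tau j (Sum.inr (j.succAbove m))) then (1:ℝ) else 0) *
        gE (UL c fun a b => L (tau j a) (tau j b)) _) = _
  rw [h1, h2, ← mul_assoc]
  rfl

/-- Time dependent families. -/
def famT {ι : Type} (A : δ → ℝ → ℝ → ℝ) (v : ℝ → ℝ → ℝ) : δ ⊕ ι → ℝ → ℝ → ℝ :=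
  Sum.elim A fun _ => v

lemma famT_apply {ι : Type} (A : δ → ℝ → ℝ → ℝ) (v : ℝ → ℝ → ℝ) (t : ℝ) :
    (fun a : δ ⊕ ι => famT A v a t) = fam (fun i => A i t) (v t) := by
  funext a
  rcases a with i | i <;> rfl

/-- The derivative of the functional in the variance of a level. -/
noncomputable def dT (𝓐 : Arr k w δ) (l : Fin (k + 1)) (c : Fin (k + 1) → ℝ)
    (χ : LM k δ → ℝ) (A LA Ax : δ → ℝ → ℝ) (v Lv vx : ℝ → ℝ) (n : ℕ) : ℝ :=
  ∑ i, 𝓐.T c χ (Function.update A i (LA i)) v (Fin n) +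
  1 / 2 * ∑ i, ∑ i', (if i = i' then 0 else 𝓐.T c (fun L => χ L * lk l i i' L)
    (Function.update (Function.update A i (Ax i)) i' (Ax i')) v (Fin n)) +
  n * (𝓐.mark.T c (lift χ) (ext Lv A) v (Fin (n - 1)) +
    ∑ i, 𝓐.mark.T c (fun L => lift χ L * lk l (some i) none L)
      (ext vx (Function.update A i (Ax i))) v (Fin (n - 1)) +
    1 / 2 * ((n - 1 : ℕ) * 𝓐.mark.mark.T c (fun L => lift (lift χ) L * lk l (some none) none L)
      (ext vx (ext vx A)) v (Fin (n - 2))))

lemma E_inl (𝓐 : Arr k w δ) (c : Fin (k + 1) → ℝ) (χ : LM k δ → ℝ) (A : δ → ℝ → ℝ)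
    (v : ℝ → ℝ) (i : δ) (g : ℝ → ℝ) (n : ℕ) :
    𝓐.E (Fin n) (fun L => χ (res L) *
      gE (UL c L) (Function.update (fam A v) (Sum.inl i) g)) =
      𝓐.T c χ (Function.update A i g) v (Fin n) := by
  unfold T
  rw [fam_update]

lemma E_inl_inl (𝓐 : Arr k w δ) (c : Fin (k + 1) → ℝ) (χ : LM k δ → ℝ) (A : δ → ℝ → ℝ)
    (v : ℝ → ℝ) (i i' : δ) (g g' : ℝ → ℝ) (l : Fin (k + 1)) (n : ℕ) :
    𝓐.E (Fin n) (fun L => χ (res L) * ((if l ≤ L (Sum.inl i) (Sum.inl i') then 1 else 0) *
      gE (UL c L) (Function.update (Function.update (fam A v) (Sum.inl i) g)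
        (Sum.inl i') g'))) =
      𝓐.T c (fun L => χ L * lk l i i' L)
        (Function.update (Function.update A i g) i' g') v (Fin n) := by
  unfold T
  rw [fam_update, fam_update]
  congr 1
  funext L
  rw [← mul_assoc]
  rfl

lemma E_inr (𝓐 : Arr k w δ) {c : Fin (k + 1) → ℝ} (hc : ∀ l, 0 ≤ c l) (χ : LM k δ → ℝ)
    {A : δ → ℝ → ℝ} {g v : ℝ → ℝ} (hA : ∀ i, Measurable (A i))
    (hg : Measurable g) (hv : Measurable v) (n : ℕ) (j : Fin (n + 1)) :
    𝓐.E (Fin (n + 1)) (fun L => χ (res L) *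
      gE (UL c L) (Function.update (fam A v) (Sum.inr j) g)) =
      𝓐.mark.T c (lift χ) (ext g A) v (Fin n) := by
  rw [← 𝓐.E_mark hc (lift χ) hA hg hv n j]
  rfl

lemma E_inl_inr (𝓐 : Arr k w δ) {c : Fin (k + 1) → ℝ} (hc : ∀ l, 0 ≤ c l) (χ : LM k δ → ℝ)
    {A : δ → ℝ → ℝ} {g' g v : ℝ → ℝ} (hA : ∀ i, Measurable (A i)) (hg' : Measurable g')
    (hg : Measurable g) (hv : Measurable v) (l : Fin (k + 1)) (n : ℕ) (i : δ)
    (j : Fin (n + 1)) :
    𝓐.E (Fin (n + 1)) (fun L => χ (res L) *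
      ((if l ≤ L (Sum.inl i) (Sum.inr j) then 1 else 0) *
      gE (UL c L) (Function.update (Function.update (fam A v) (Sum.inl i) g') (Sum.inr j) g))) =
      𝓐.mark.T c (fun L => lift χ L * lk l (some i) none L)
        (ext g (Function.update A i g')) v (Fin n) := by
  have hA' : ∀ i', Measurable (Function.update A i g' i') := by
    intro i'
    by_cases h : i' = i
    · subst h; simpa using hg'
    · rw [Function.update_of_ne h]; exact hA i'
  rw [← 𝓐.E_mark hc (fun L => lift χ L * lk l (some i) none L) hA' hg hv n j]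
  rw [fam_update]
  congr 1
  funext L
  rw [← mul_assoc]
  rfl

theorem T_hasDerivAt (𝓐 : Arr k w δ) {c : Fin (k + 1) → ℝ} (hc : ∀ l, 0 ≤ c l)
    (l : Fin (k + 1)) (χ : LM k δ → ℝ) {σ C : ℝ} {A At Ax Axx : δ → ℝ → ℝ → ℝ}
    {v vt vx vxx : ℝ → ℝ → ℝ}
    (hA : ∀ i, Nice (Set.Ioo 0 σ) C (A i) (At i) (Ax i) (Axx i))
    (hv : Nice (Set.Ioo 0 σ) C v vt vx vxx) {t : ℝ} (ht : t ∈ Set.Ioo 0 σ) (n : ℕ) :
    HasDerivAt (fun s => 𝓐.T (Function.update c l s) χ (fun i => A i s) (v s) (Fin n))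
      (𝓐.dT l (Function.update c l t) χ (fun i => A i t) (fun i => LL (At i) (Axx i) t)
        (fun i => Ax i t) (v t) (LL vt vxx t) (vx t) n) t := by
  have hct : ∀ l', 0 ≤ Function.update c l t l' := by
    intro l'
    by_cases h : l' = l
    · subst h; rw [Function.update_self]; exact ht.1.le
    · rw [Function.update_of_ne h]; exact hc l'
  have bA : ∀ i, BM (A i t) := fun i => ⟨(hA i).m0 t ht, C, (hA i).b0 t ht⟩
  have bAt : ∀ i, BM (At i t) := fun i => ⟨(hA i).mt t ht, C, (hA i).bt t ht⟩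
  have bAx : ∀ i, BM (Ax i t) := fun i => ⟨(hA i).m1 t ht, C, (hA i).b1 t ht⟩
  have bAxx : ∀ i, BM (Axx i t) := fun i => ⟨(hA i).m2 t ht, C, (hA i).b2 t ht⟩
  have bv : BM (v t) := ⟨hv.m0 t ht, C, hv.b0 t ht⟩
  have bvt : BM (vt t) := ⟨hv.mt t ht, C, hv.bt t ht⟩
  have bvx : BM (vx t) := ⟨hv.m1 t ht, C, hv.b1 t ht⟩
  have bvxx : BM (vxx t) := ⟨hv.m2 t ht, C, hv.b2 t ht⟩
  have bLA : ∀ i, BM (LL (At i) (Axx i) t) := fun i =>
    (bAt i).add ((BM.const (1 / 2)).mul (bAxx i))
  have bLv : BM (LL vt vxx t) := bvt.add ((BM.const (1 / 2)).mul bvxx)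
  have hn : ∀ a : δ ⊕ Fin n, Nice (Set.Ioo 0 σ) C (famT A v a) (famT At vt a) (famT Ax vx a)
      (famT Axx vxx a) := by
    rintro (i | i)
    · exact hA i
    · exact hv
  -- the derivative in terms of level matrices
  have h1 : HasDerivAt (fun s => 𝓐.T (Function.update c l s) χ (fun i => A i s) (v s) (Fin n))
      (𝓐.E (Fin n) fun L => χ (res L) *
        (∑ a, gE (UL (Function.update c l t) L)
          (Function.update (fun a => famT A v a t) a (famT At vt a t)) +
        ∑ a, ∑ b, gram (UL' l t L) (UL (Function.update c l t) L) a b *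
          gE (UL (Function.update c l t) L)
            (D2 (fun a => famT A v a t) (fun a => famT Ax vx a t) (fun a => famT Axx vxx a t) a b)))
      t := by
    unfold T
    apply 𝓐.E_hasDerivAt
    intro L
    have h2 := gE_UL_hasDerivAt (c := c) l hn (L := L) ht
    have h3 : (fun s => gE (UL (Function.update c l s) L) (fun a => famT A v a s)) =
        fun s => gE (UL (Function.update c l s) L) (fam (fun i => A i s) (v s)) := by
      funext s
      rw [famT_apply]
    rw [h3] at h2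
    exact h2.const_mul _
  convert h1 using 1
  set c' := Function.update c l t with hc'
  set F : δ ⊕ Fin n → ℝ → ℝ := fam (fun i => A i t) (v t) with hF
  have hFt : (fun a : δ ⊕ Fin n => famT A v a t) = F := famT_apply A v t
  -- rewrite the integrand on ultrametric matrices
  have h2 : 𝓐.E (Fin n) (fun L => χ (res L) *
        (∑ a, gE (UL c' L)
          (Function.update (fun a => famT A v a t) a (famT At vt a t)) +
        ∑ a, ∑ b, gram (UL' l t L) (UL c' L) a b *
          gE (UL c' L)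
            (D2 (fun a => famT A v a t) (fun a => famT Ax vx a t) (fun a => famT Axx vxx a t) a b)))
      = 𝓐.E (Fin n) (fun L =>
        ∑ i : δ, χ (res L) * gE (UL c' L) (Function.update F (Sum.inl i) (LL (At i) (Axx i) t)) +
        1 / 2 * ∑ i : δ, ∑ i' : δ, (if i = i' then 0 else χ (res L) *
          ((if l ≤ L (Sum.inl i) (Sum.inl i') then 1 else 0) * gE (UL c' L)
            (Function.update (Function.update F (Sum.inl i) (Ax i t)) (Sum.inl i') (Ax i' t)))) +
        ∑ j : Fin n, (χ (res L) * gE (UL c' L) (Function.update F (Sum.inr j) (LL vt vxx t)) +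
          ∑ i : δ, χ (res L) * ((if l ≤ L (Sum.inl i) (Sum.inr j) then 1 else 0) *
            gE (UL c' L) (Function.update (Function.update F (Sum.inl i) (Ax i t))
              (Sum.inr j) (vx t))) +
          1 / 2 * ∑ j' : Fin n, (if j = j' then 0 else χ (res L) *
            ((if l ≤ L (Sum.inr j) (Sum.inr j') then 1 else 0) *
            gE (UL c' L) (Function.update (Function.update F (Sum.inr j) (vx t))
              (Sum.inr j') (vx t)))))) := by
    apply 𝓐.congr_ultra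
    intro L hL
    rw [deriv_formula c l hn hL ht, hFt]
    have hsymm : ∀ (i : δ) (j : Fin n),
        ((if l ≤ L (Sum.inr j) (Sum.inl i) then (1:ℝ) else 0) * gE (UL c' L)
          (Function.update (Function.update F (Sum.inr j) (famT Ax vx (Sum.inr j : δ ⊕ Fin n) t))
            (Sum.inl i) (famT Ax vx (Sum.inl i : δ ⊕ Fin n) t))) =
        ((if l ≤ L (Sum.inl i) (Sum.inr j) then (1:ℝ) else 0) * gE (UL c' L)
          (Function.update (Function.update F (Sum.inl i) (famT Ax vx (Sum.inl i : δ ⊕ Fin n) t))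
            (Sum.inr j) (famT Ax vx (Sum.inr j : δ ⊕ Fin n) t))) := by
      intro i j
      rw [hL.symm (Sum.inr j) (Sum.inl i), Function.update_comm (by simp)]
    exact alg_split (χ (res L)) (fun a => gE (UL c' L)
        (Function.update F a (LL (famT At vt a) (famT Axx vxx a) t)))
      (fun a b => (if l ≤ L a b then 1 else 0) * gE (UL c' L)
          (Function.update (Function.update F a (famT Ax vx a t)) b (famT Ax vx b t))) hsymm
  rw [h2]
  -- linearity
  have h3 : (fun L : LM k (δ ⊕ Fin n) =>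
        ∑ i : δ, χ (res L) * gE (UL c' L) (Function.update F (Sum.inl i) (LL (At i) (Axx i) t)) +
        1 / 2 * ∑ i : δ, ∑ i' : δ, (if i = i' then 0 else χ (res L) *
          ((if l ≤ L (Sum.inl i) (Sum.inl i') then 1 else 0) * gE (UL c' L)
            (Function.update (Function.update F (Sum.inl i) (Ax i t)) (Sum.inl i') (Ax i' t)))) +
        ∑ j : Fin n, (χ (res L) * gE (UL c' L) (Function.update F (Sum.inr j) (LL vt vxx t)) +
          ∑ i : δ, χ (res L) * ((if l ≤ L (Sum.inl i) (Sum.inr j) then 1 else 0) *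
            gE (UL c' L) (Function.update (Function.update F (Sum.inl i) (Ax i t))
              (Sum.inr j) (vx t))) +
          1 / 2 * ∑ j' : Fin n, (if j = j' then 0 else χ (res L) *
            ((if l ≤ L (Sum.inr j) (Sum.inr j') then 1 else 0) *
            gE (UL c' L) (Function.update (Function.update F (Sum.inr j) (vx t))
              (Sum.inr j') (vx t)))))) =
      ∑ i : δ, (fun L : LM k (δ ⊕ Fin n) =>
        χ (res L) * gE (UL c' L) (Function.update F (Sum.inl i) (LL (At i) (Axx i) t))) +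
      (1 / 2 : ℝ) • ∑ i : δ, ∑ i' : δ, (if i = i' then 0 else fun L : LM k (δ ⊕ Fin n) =>
        χ (res L) * ((if l ≤ L (Sum.inl i) (Sum.inl i') then 1 else 0) * gE (UL c' L)
            (Function.update (Function.update F (Sum.inl i) (Ax i t)) (Sum.inl i') (Ax i' t)))) +
      ∑ j : Fin n, ((fun L : LM k (δ ⊕ Fin n) =>
          χ (res L) * gE (UL c' L) (Function.update F (Sum.inr j) (LL vt vxx t))) +
        ∑ i : δ, (fun L : LM k (δ ⊕ Fin n) =>
          χ (res L) * ((if l ≤ L (Sum.inl i) (Sum.inr j) then 1 else 0) *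
            gE (UL c' L) (Function.update (Function.update F (Sum.inl i) (Ax i t))
              (Sum.inr j) (vx t)))) +
        (1 / 2 : ℝ) • ∑ j' : Fin n, (if j = j' then 0 else fun L : LM k (δ ⊕ Fin n) =>
          χ (res L) * ((if l ≤ L (Sum.inr j) (Sum.inr j') then 1 else 0) *
            gE (UL c' L) (Function.update (Function.update F (Sum.inr j) (vx t))
              (Sum.inr j') (vx t))))) := by
    funext L
    simp only [Pi.add_apply, Finset.sum_apply, Pi.smul_apply, smul_eq_mul, ite_apply,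
      Pi.zero_apply]
  rw [h3]
  simp only [map_add, map_sum, map_smul, smul_eq_mul, apply_ite (𝓐.E (Fin n)), map_zero]
  rw [hF]
  simp only [E_inl, E_inl_inl]
  unfold dT
  congr 1
  clear h1 h2 h3 hn hFt hF F
  rcases n with _ | n
  · simp
  · have hj : ∀ j : Fin (n + 1),
        (𝓐.E (Fin (n + 1)) fun L => χ (res L) * gE (UL c' L)
          (Function.update (fam (fun i => A i t) (v t)) (Sum.inr j) (LL vt vxx t))) +
        ∑ i, (𝓐.E (Fin (n + 1)) fun L => χ (res L) *
          ((if l ≤ L (Sum.inl i) (Sum.inr j) then 1 else 0) * gE (UL c' L)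
            (Function.update (Function.update (fam (fun i => A i t) (v t)) (Sum.inl i) (Ax i t))
              (Sum.inr j) (vx t)))) +
        1 / 2 * ∑ j', (if j = j' then 0 else 𝓐.E (Fin (n + 1)) fun L => χ (res L) *
          ((if l ≤ L (Sum.inr j) (Sum.inr j') then 1 else 0) * gE (UL c' L)
            (Function.update (Function.update (fam (fun i => A i t) (v t)) (Sum.inr j) (vx t))
              (Sum.inr j') (vx t)))) =
        𝓐.mark.T c' (lift χ) (ext (LL vt vxx t) fun i => A i t) (v t) (Fin n) +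
        ∑ i, 𝓐.mark.T c' (fun L => lift χ L * lk l (some i) none L)
          (ext (vx t) (Function.update (fun i => A i t) i (Ax i t))) (v t) (Fin n) +
        1 / 2 * ((n : ℕ) * 𝓐.mark.mark.T c'
          (fun L => lift (lift χ) L * lk l (some none) none L)
          (ext (vx t) (ext (vx t) fun i => A i t)) (v t) (Fin (n - 1))) := by
      intro j
      rw [E_inr 𝓐 hct χ (fun i => (bA i).meas) bLv.meas bv.meas n j]
      have e1 : ∀ i, (𝓐.E (Fin (n + 1)) fun L => χ (res L) *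
          ((if l ≤ L (Sum.inl i) (Sum.inr j) then 1 else 0) * gE (UL c' L)
            (Function.update (Function.update (fam (fun i => A i t) (v t)) (Sum.inl i) (Ax i t))
              (Sum.inr j) (vx t)))) =
          𝓐.mark.T c' (fun L => lift χ L * lk l (some i) none L)
          (ext (vx t) (Function.update (fun i => A i t) i (Ax i t))) (v t) (Fin n) := fun i =>
        E_inl_inr 𝓐 hct χ (fun i => (bA i).meas) (bAx i).meas bvx.meas bv.meas l n i j
      simp_rw [e1]
      congr 2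
      rw [Fin.sum_univ_succAbove _ j]
      simp only [if_true, zero_add]
      rcases n with _ | n
      · simp
      · have e2 : ∀ m : Fin (n + 1), (if j = j.succAbove m then 0 else
            𝓐.E (Fin (n + 1 + 1)) fun L => χ (res L) *
              ((if l ≤ L (Sum.inr j) (Sum.inr (j.succAbove m)) then 1 else 0) * gE (UL c' L)
              (Function.update (Function.update (fam (fun i => A i t) (v t)) (Sum.inr j) (vx t))
                (Sum.inr (j.succAbove m)) (vx t)))) =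
            𝓐.mark.mark.T c' (fun L => lift (lift χ) L * lk l (some none) none L)
              (ext (vx t) (ext (vx t) fun i => A i t)) (v t) (Fin n) := by
          intro m
          rw [if_neg (Fin.succAbove_ne j m).symm]
          exact E_mark_pair 𝓐 hct χ (fun i => (bA i).meas) bvx.meas bv.meas l n j m
        simp_rw [e2]
        rw [Finset.sum_const, Finset.card_univ, Fintype.card_fin, nsmul_eq_mul]
        rfl
    simp_rw [hj]
    rw [Finset.sum_const, Finset.card_univ, Fintype.card_fin, nsmul_eq_mul]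
    rfl

end Arr

end Vale.Agent.P157.Par
end

section

open MeasureTheory ProbabilityTheory Filter Topology Finset

namespace Vale.Agent.P157.Par

set_option linter.unusedSectionVars false

namespace Arr

variable {k : ℕ} {w : Fin (k + 1) → ℝ} {δ : Type} [Fintype δ] [DecidableEq δ]

lemma T_le (𝓐 : Arr k w δ) (c : Fin (k + 1) → ℝ) {χ : LM k δ → ℝ} {X : ℝ}
    (hχ : ∀ L, |χ L| ≤ X) {A : δ → ℝ → ℝ} {v : ℝ → ℝ} {C a : ℝ} (hA : ∀ i x, |A i x| ≤ C)
    (hv : ∀ x, |v x| ≤ a) (n : ℕ) :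
    |𝓐.T c χ A v (Fin n)| ≤ 𝓐.C * X * C ^ Fintype.card δ * a ^ n := by
  have h := 𝓐.T_bound (c := c) hχ (B := fun _ => C) hA hv (Fin n)
  rw [Finset.prod_const, Finset.card_univ, Fintype.card_fin] at h
  refine h.trans (le_of_eq ?_)
  ring

lemma abs_lk_le (l : Fin (k + 1)) (i j : δ) {χ : LM k δ → ℝ} {X : ℝ}
    (hχ : ∀ L, |χ L| ≤ X) (L : LM k δ) : |χ L * lk l i j L| ≤ X := by
  rw [abs_mul]
  have h1 : |lk l i j L| ≤ 1 := by
    unfold lk
    split_ifs <;> simp
  have h0 := hχ L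
  linarith only [mul_nonneg (sub_nonneg.2 h1) (sub_nonneg.2 (abs_nonneg (χ L))), mul_nonneg (sub_nonneg.2 h0) (sub_nonneg.2 (abs_nonneg (lk l i j L))), mul_nonneg (sub_nonneg.2 h0) (sub_nonneg.2 h1)]

lemma abs_lift_le {χ : LM k δ → ℝ} {X : ℝ} (hχ : ∀ L, |χ L| ≤ X) (L : LM k (Option δ)) :
    |lift χ L| ≤ X := hχ _

lemma update_le {A : δ → ℝ → ℝ} {C : ℝ} (hA : ∀ i x, |A i x| ≤ C) {i : δ} {g : ℝ → ℝ}
    (hg : ∀ x, |g x| ≤ C) : ∀ j x, |Function.update A i g j x| ≤ C := by
  intro j x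
  by_cases h : j = i
  · subst h; simpa using hg x
  · rw [Function.update_of_ne h]; exact hA j x

lemma ext_le {A : δ → ℝ → ℝ} {C : ℝ} (hA : ∀ i x, |A i x| ≤ C) {g : ℝ → ℝ}
    (hg : ∀ x, |g x| ≤ C) : ∀ j x, |ext g A j x| ≤ C := by
  rintro (_ | i) x
  · exact hg x
  · exact hA i x

lemma pow_pred_le {a : ℝ} (ha0 : 0 < a) (ha : a ≤ 1) (n : ℕ) : a ^ (n - 1) ≤ a ^ n / a := by
  rw [le_div_iff₀ ha0]
  rcases n with _ | n
  · simpa using ha
  · simp [pow_succ]

lemma dT_aux {d n : ℝ} (hd : 0 ≤ d) (hn : 0 ≤ n) :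
    d + 1 / 2 * d ^ 2 + n * (1 + d) + 1 / 2 * n ^ 2 ≤ (d + 1) ^ 2 * (n + 1) ^ 2 := by
  have h : (d + 1) ^ 2 * (n + 1) ^ 2 - (d + 1 / 2 * d ^ 2 + n * (1 + d) + 1 / 2 * n ^ 2) =
      d ^ 2 * n ^ 2 + 2 * d ^ 2 * n + d ^ 2 / 2 + 2 * d * n ^ 2 + 3 * d * n + d + n ^ 2 / 2 + n +
        1 := by ring
  have h2 : 0 ≤ d ^ 2 * n ^ 2 + 2 * d ^ 2 * n + d ^ 2 / 2 + 2 * d * n ^ 2 + 3 * d * n + d +
      n ^ 2 / 2 + n + 1 := by (clear * - hn hd; positivity)
  linarith only [h2]

lemma dT_le (𝓐 : Arr k w δ) (l : Fin (k + 1)) (c : Fin (k + 1) → ℝ) {χ : LM k δ → ℝ} {X : ℝ}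
    (hχ : ∀ L, |χ L| ≤ X) {A LA Ax : δ → ℝ → ℝ} {v Lv vx : ℝ → ℝ} {C a : ℝ} (hC : 1 ≤ C)
    (hA : ∀ i x, |A i x| ≤ C) (hLA : ∀ i x, |LA i x| ≤ C) (hAx : ∀ i x, |Ax i x| ≤ C)
    (hv : ∀ x, |v x| ≤ a) (hLv : ∀ x, |Lv x| ≤ C) (hvx : ∀ x, |vx x| ≤ C)
    (ha0 : 0 < a) (ha : a ≤ 1) (n : ℕ) :
    |𝓐.dT l c χ A LA Ax v Lv vx n| ≤
      𝓐.C * X * C ^ (Fintype.card δ + 2) * (Fintype.card δ + 1) ^ 2 / a ^ 2 *
        ((n + 1) ^ 2 * a ^ n) := by
  have hX0 : 0 ≤ X := (abs_nonneg _).trans (hχ fun _ _ => 0)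
  have hC0 := 𝓐.C_nonneg
  set d := Fintype.card δ with hd
  set K := 𝓐.C * X * C ^ (d + 2) with hK
  have hK0 : 0 ≤ K := by positivity
  have hle1 : 𝓐.C * X * C ^ d ≤ K := by
    rw [hK]
    gcongr
    omega
  have hle2 : 𝓐.C * X * C ^ (d + 1) ≤ K := by
    rw [hK]
    gcongr
    omega
  have hp1 := pow_pred_le ha0 ha n
  have hp2 : a ^ (n - 2) ≤ a ^ n / a ^ 2 := by
    have h1 := pow_pred_le ha0 ha (n - 1)
    have h2 : n - 1 - 1 = n - 2 := by omega
    rw [h2] at h1
    refine h1.trans ?_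
    rw [pow_two, ← div_div]
    gcongr
  have t1 : ∀ i, |𝓐.T c χ (Function.update A i (LA i)) v (Fin n)| ≤ K * a ^ n := fun i =>
    (𝓐.T_le c hχ (update_le hA (hLA i)) hv n).trans
      (mul_le_mul_of_nonneg_right hle1 (by positivity))
  have t2 : ∀ i i', |(if i = i' then 0 else 𝓐.T c (fun L => χ L * lk l i i' L)
      (Function.update (Function.update A i (Ax i)) i' (Ax i')) v (Fin n))| ≤ K * a ^ n := by
    intro i i'
    split_ifs
    · rw [abs_zero]; (clear * - hC0 hX0 hC ha0; positivity)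
    · exact (𝓐.T_le c (abs_lk_le l i i' hχ) (update_le (update_le hA (hAx i)) (hAx i')) hv n).trans
        (mul_le_mul_of_nonneg_right hle1 (by positivity))
  have t3 : |𝓐.mark.T c (lift χ) (ext Lv A) v (Fin (n - 1))| ≤ K * (a ^ n / a) := by
    have h := 𝓐.mark.T_le c (abs_lift_le hχ) (ext_le hA hLv) hv (n - 1)
    rw [Fintype.card_option] at h
    exact h.trans (mul_le_mul hle2 hp1 (by positivity) hK0)
  have t4 : ∀ i, |𝓐.mark.T c (fun L => lift χ L * lk l (some i) none L)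
      (ext vx (Function.update A i (Ax i))) v (Fin (n - 1))| ≤ K * (a ^ n / a) := by
    intro i
    have h := 𝓐.mark.T_le c (abs_lk_le l (some i) none (abs_lift_le hχ))
      (ext_le (update_le (i := i) hA (hAx i)) hvx) hv (n - 1)
    rw [Fintype.card_option] at h
    exact h.trans (mul_le_mul hle2 hp1 (by positivity) hK0)
  have t5 : |𝓐.mark.mark.T c (fun L => lift (lift χ) L * lk l (some none) none L)
      (ext vx (ext vx A)) v (Fin (n - 2))| ≤ K * (a ^ n / a ^ 2) := by
    have h := 𝓐.mark.mark.T_le c (abs_lk_le l (some none) none (abs_lift_le (abs_lift_le hχ)))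
      (ext_le (ext_le hA hvx) hvx) hv (n - 2)
    rw [Fintype.card_option, Fintype.card_option] at h
    exact h.trans (mul_le_mul_of_nonneg_left hp2 hK0)
  have s1 : |∑ i, 𝓐.T c χ (Function.update A i (LA i)) v (Fin n)| ≤ d * (K * a ^ n) := by
    refine (Finset.abs_sum_le_sum_abs _ _).trans ((Finset.sum_le_sum fun i _ => t1 i).trans ?_)
    rw [Finset.sum_const, Finset.card_univ, nsmul_eq_mul]
  have s2 : |∑ i, ∑ i', (if i = i' then 0 else 𝓐.T c (fun L => χ L * lk l i i' L)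
      (Function.update (Function.update A i (Ax i)) i' (Ax i')) v (Fin n))| ≤
      d * (d * (K * a ^ n)) := by
    refine (Finset.abs_sum_le_sum_abs _ _).trans ((Finset.sum_le_sum fun i _ =>
      (Finset.abs_sum_le_sum_abs _ _).trans (Finset.sum_le_sum fun i' _ => t2 i i')).trans ?_)
    rw [Finset.sum_const, Finset.sum_const, Finset.card_univ, nsmul_eq_mul, nsmul_eq_mul]
  have s4 : |∑ i, 𝓐.mark.T c (fun L => lift χ L * lk l (some i) none L)
      (ext vx (Function.update A i (Ax i))) v (Fin (n - 1))| ≤ d * (K * (a ^ n / a)) := by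
    refine (Finset.abs_sum_le_sum_abs _ _).trans ((Finset.sum_le_sum fun i _ => t4 i).trans ?_)
    rw [Finset.sum_const, Finset.card_univ, nsmul_eq_mul]
  have hn1 : ((n - 1 : ℕ) : ℝ) ≤ n := by exact_mod_cast Nat.sub_le n 1
  have hsq : ∀ x y z : ℝ, |x + y + z| ≤ |x| + |y| + |z| := fun x y z => abs_add_three x y z
  unfold dT
  refine (hsq _ _ _).trans ?_
  rw [abs_mul, abs_mul (n : ℝ), Nat.abs_cast]
  have s5 : |1 / 2 * ((n - 1 : ℕ) * 𝓐.mark.mark.T c
      (fun L => lift (lift χ) L * lk l (some none) none L)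
      (ext vx (ext vx A)) v (Fin (n - 2)))| ≤ 1 / 2 * (n * (K * (a ^ n / a ^ 2))) := by
    rw [abs_mul, abs_mul, Nat.abs_cast, abs_of_pos (by norm_num : (0:ℝ) < 1 / 2)]
    have h0 : 0 ≤ K * (a ^ n / a ^ 2) := by (clear * - hC0 hX0 hC ha0; positivity)
    gcongr
  have s6 := hsq (𝓐.mark.T c (lift χ) (ext Lv A) v (Fin (n - 1)))
    (∑ i, 𝓐.mark.T c (fun L => lift χ L * lk l (some i) none L)
      (ext vx (Function.update A i (Ax i))) v (Fin (n - 1)))
    (1 / 2 * ((n - 1 : ℕ) * 𝓐.mark.mark.T c (fun L => lift (lift χ) L * lk l (some none) none L)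
      (ext vx (ext vx A)) v (Fin (n - 2))))
  have hn0 : (0 : ℝ) ≤ n := Nat.cast_nonneg n
  have hd0 : (0 : ℝ) ≤ d := Nat.cast_nonneg d
  have s7 : (n : ℝ) * |𝓐.mark.T c (lift χ) (ext Lv A) v (Fin (n - 1)) +
    ∑ i, 𝓐.mark.T c (fun L => lift χ L * lk l (some i) none L)
      (ext vx (Function.update A i (Ax i))) v (Fin (n - 1)) +
    1 / 2 * ((n - 1 : ℕ) * 𝓐.mark.mark.T c (fun L => lift (lift χ) L * lk l (some none) none L)
      (ext vx (ext vx A)) v (Fin (n - 2)))| ≤ n * (K * (a ^ n / a) + d * (K * (a ^ n / a)) +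
        1 / 2 * (n * (K * (a ^ n / a ^ 2)))) := by
    apply mul_le_mul_of_nonneg_left _ hn0
    linarith only [t3, s4, s5, s6]
  have hq : a ^ n ≤ a ^ n / a ^ 2 := by
    rw [le_div_iff₀ (by positivity)]
    exact mul_le_of_le_one_right (pow_nonneg ha0.le n) (pow_le_one₀ ha0.le ha)
  have hq' : a ^ n / a ≤ a ^ n / a ^ 2 := by
    rw [pow_two, ← div_div]
    rw [le_div_iff₀ ha0]
    exact mul_le_of_le_one_right (div_nonneg (pow_nonneg ha0.le n) ha0.le) ha
  set q := a ^ n / a ^ 2 with hqdef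
  have hq0 : 0 ≤ q := by positivity
  have e1 : K * a ^ n ≤ K * q := mul_le_mul_of_nonneg_left hq hK0
  have e2 : K * (a ^ n / a) ≤ K * q := mul_le_mul_of_nonneg_left hq' hK0
  set Kq := K * q with hKq
  have hKq0 : 0 ≤ Kq := by (clear * - hC0 hX0 hC ha0; positivity)
  have final : K * (d + 1) ^ 2 / a ^ 2 * ((n + 1) ^ 2 * a ^ n) = Kq * ((d + 1) ^ 2 * (n + 1) ^ 2) := by
    rw [hKq, hqdef]
    field_simp
  rw [final, abs_of_pos (by norm_num : (0:ℝ) < 1 / 2)]
  calc _ ≤ d * Kq + 1 / 2 * (d * (d * Kq)) + n * (Kq + d * Kq + 1 / 2 * (n * Kq)) := by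
        refine add_le_add (add_le_add (s1.trans ?_) ?_) (s7.trans ?_)
        · gcongr
        · have : d * (d * (K * a ^ n)) ≤ d * (d * Kq) := by gcongr
          linarith only [this, s2]
        · gcongr
    _ = Kq * (d + 1 / 2 * d ^ 2 + n * (1 + d) + 1 / 2 * n ^ 2) := by ring
    _ ≤ Kq * ((d + 1) ^ 2 * (n + 1) ^ 2) := by
        exact mul_le_mul_of_nonneg_left (dT_aux hd0 hn0) hKq0

lemma choose_bound (e n : ℕ) : ((n + e).choose e : ℝ) * ((n : ℝ) + 1) ^ 2 ≤
    ((e + 2) * (e + 1) : ℕ) * ((n + (e + 2)).choose (e + 2) : ℝ) := by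
  have h1 := choose_id1 n e
  have h2 := choose_id1 n (e + 1)
  have h3 : (0 : ℝ) ≤ ((n + e).choose e : ℝ) := Nat.cast_nonneg _
  have h4 : ((n : ℝ) + 1) ^ 2 ≤ ((e + 1 : ℕ) + n) * ((e + 1 + 1 : ℕ) + n) := by
    push_cast
    nlinarith only [Nat.cast_nonneg (α := ℝ) e, Nat.cast_nonneg (α := ℝ) n,
      mul_nonneg (Nat.cast_nonneg (α := ℝ) e) (Nat.cast_nonneg (α := ℝ) n)]
  calc ((n + e).choose e : ℝ) * ((n : ℝ) + 1) ^ 2
      ≤ ((n + e).choose e : ℝ) * (((e + 1 : ℕ) + n) * ((e + 1 + 1 : ℕ) + n)) := by gcongr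
    _ = (((n + e).choose e : ℝ) * ((e + 1 : ℕ) + n)) * ((e + 1 + 1 : ℕ) + n) := by ring
    _ = (e + 1 : ℕ) * (((n + (e + 1)).choose (e + 1) : ℝ) * ((e + 1 + 1 : ℕ) + n)) := by
        rw [h1]; ring
    _ = _ := by
        rw [h2]
        push_cast
        ring

lemma summable_dT_bound (e : ℕ) {a : ℝ} (ha0 : 0 ≤ a) (ha : a < 1) (M : ℝ) :
    Summable fun n : ℕ => ((n + e).choose e : ℝ) * (M * (((n : ℝ) + 1) ^ 2 * a ^ n)) := by
  have h1 : Summable fun n : ℕ => ((n + (e + 2)).choose (e + 2) : ℝ) * a ^ n :=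
    summable_choose_mul_geometric_of_norm_lt_one (e + 2)
      (by rwa [Real.norm_eq_abs, abs_of_nonneg ha0])
  refine Summable.of_norm_bounded (h1.mul_left (|M| * ((e + 2) * (e + 1) : ℕ))) fun n => ?_
  rw [norm_mul, norm_mul, norm_mul, Real.norm_eq_abs, Real.norm_eq_abs, Real.norm_eq_abs,
    Real.norm_eq_abs, abs_of_nonneg (by positivity), abs_of_nonneg (by positivity : (0:ℝ) ≤ ((n : ℝ) + 1) ^ 2),
    abs_of_nonneg (by positivity : (0:ℝ) ≤ a ^ n)]
  calc _ = |M| * ((((n + e).choose e : ℝ) * ((n : ℝ) + 1) ^ 2) * a ^ n) := by ring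
    _ ≤ |M| * ((((e + 2) * (e + 1) : ℕ) * ((n + (e + 2)).choose (e + 2) : ℝ)) * a ^ n) :=
        mul_le_mul_of_nonneg_left (mul_le_mul_of_nonneg_right (choose_bound e n) (by positivity))
          (abs_nonneg _)
    _ = _ := by ring

/-- The derivative of the resummed functional. -/
theorem Q_hasDerivAt (𝓐 : Arr k w δ) (e : ℕ) {c : Fin (k + 1) → ℝ}
    (hc : ∀ l, 0 ≤ c l) (l : Fin (k + 1)) (χ : LM k δ → ℝ) {σ C a : ℝ}
    {A At Ax Axx : δ → ℝ → ℝ → ℝ} {v vt vx vxx : ℝ → ℝ → ℝ}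
    (hA : ∀ i, Nice (Set.Ioo 0 σ) C (A i) (At i) (Ax i) (Axx i))
    (hv : Nice (Set.Ioo 0 σ) C v vt vx vxx) (ha0 : 0 ≤ a) (ha : a < 1)
    (hva : ∀ t ∈ Set.Ioo 0 σ, ∀ x, |v t x| ≤ a) {t : ℝ} (ht : t ∈ Set.Ioo 0 σ) :
    HasDerivAt (fun s => 𝓐.Q e (Function.update c l s) χ (fun i => A i s) (v s))
      (∑' n : ℕ, ((n + e).choose e : ℝ) * 𝓐.dT l (Function.update c l t) χ (fun i => A i t)
        (fun i => LL (At i) (Axx i) t) (fun i => Ax i t) (v t) (LL vt vxx t) (vx t) n) t := by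
  obtain ⟨X, hX0, hX⟩ := exists_abs_bound χ
  set b := max a (1 / 2) with hb
  have hb0 : 0 < b := lt_of_lt_of_le (by norm_num) (le_max_right _ _)
  have hb1 : b < 1 := max_lt ha (by norm_num)
  set C' := max 1 (2 * |C|) with hC'
  have hC1 : 1 ≤ C' := le_max_left _ _
  have hCC : |C| ≤ C' := (by linarith only [abs_nonneg C] : |C| ≤ 2 * |C|).trans (le_max_right _ _)
  have hCC0 : C ≤ C' := (le_abs_self C).trans hCC
  have hLL : ∀ {h ht hx hxx : ℝ → ℝ → ℝ}, Nice (Set.Ioo 0 σ) C h ht hx hxx →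
      ∀ t ∈ Set.Ioo 0 σ, ∀ x, |LL ht hxx t x| ≤ C' := by
    intro h ht hx hxx hn t ht' x
    unfold LL
    have h1 := hn.bt t ht' x
    have h2 := hn.b2 t ht' x
    have h3 := abs_add_le (ht t x) (1 / 2 * hxx t x)
    rw [abs_mul, abs_of_pos (by norm_num : (0:ℝ) < 1 / 2)] at h3
    have h4 : 2 * |C| ≤ C' := le_max_right _ _
    have h5 := le_abs_self C
    linarith only [hb0, hb1, hC1, h1, h2, h3, h4, h5, abs_nonneg C]
  apply hasDerivAt_tsum_of_isPreconnected (summable_dT_bound e hb0.le hb1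
    (𝓐.C * X * C' ^ (Fintype.card δ + 2) * (Fintype.card δ + 1) ^ 2 / b ^ 2)) isOpen_Ioo
    isPreconnected_Ioo (g := fun n s => ((n + e).choose e : ℝ) *
      𝓐.T (Function.update c l s) χ (fun i => A i s) (v s) (Fin n))
    (g' := fun n t => ((n + e).choose e : ℝ) * 𝓐.dT l (Function.update c l t) χ (fun i => A i t)
        (fun i => LL (At i) (Axx i) t) (fun i => Ax i t) (v t) (LL vt vxx t) (vx t) n)
    (y₀ := t) _ _ ht _ ht
  · intro n s hs
    exact (𝓐.T_hasDerivAt hc l χ hA hv hs n).const_mul _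
  · intro n s hs
    rw [norm_mul, Real.norm_eq_abs, Real.norm_eq_abs, abs_of_nonneg (by positivity)]
    apply mul_le_mul_of_nonneg_left _ (by positivity)
    exact 𝓐.dT_le l _ hX hC1 (fun i x => ((hA i).b0 s hs x).trans hCC0)
      (fun i x => hLL (hA i) s hs x) (fun i x => ((hA i).b1 s hs x).trans hCC0)
      (fun x => (hva s hs x).trans (le_max_left _ _)) (fun x => hLL hv s hs x)
      (fun x => (hv.b1 s hs x).trans hCC0) hb0 hb1.le n
  · exact 𝓐.Q_summable e _ χ (fun i => ⟨(hA i).m0 t ht, C, (hA i).b0 t ht⟩) ha0 ha (hva t ht)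

lemma tsum_shift (e : ℕ) (g : ℕ → ℝ)
    (hs : Summable fun n => ((n + (e + 1)).choose (e + 1) : ℝ) * g n) :
    Summable (fun n => ((n + e).choose e : ℝ) * (n * g (n - 1))) ∧
      ∑' n, ((n + e).choose e : ℝ) * (n * g (n - 1)) =
        ((e + 1 : ℕ) : ℝ) * ∑' n, ((n + (e + 1)).choose (e + 1) : ℝ) * g n := by
  have hshift : ∀ n : ℕ, ((n + 1 + e).choose e : ℝ) * ((n + 1 : ℕ) * g (n + 1 - 1)) =
      ((e + 1 : ℕ) : ℝ) * (((n + (e + 1)).choose (e + 1) : ℝ) * g n) := by
    intro n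
    rw [← mul_assoc, choose_id2, Nat.add_sub_cancel]
    ring
  have s5 : Summable fun n : ℕ => ((n + e).choose e : ℝ) * (n * g (n - 1)) := by
    rw [← summable_nat_add_iff 1]
    refine (hs.mul_left ((e + 1 : ℕ) : ℝ)).congr fun n => ?_
    rw [hshift n]
  refine ⟨s5, ?_⟩
  rw [s5.tsum_eq_zero_add]
  simp only [Nat.cast_zero, zero_mul, mul_zero, zero_add]
  rw [← tsum_mul_left]
  exact tsum_congr hshift

/-- Resummation of the derivative. -/
theorem tsum_dT (𝓐 : Arr k w δ) (e : ℕ) (l : Fin (k + 1)) (c : Fin (k + 1) → ℝ)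
    (χ : LM k δ → ℝ) {A LA Ax : δ → ℝ → ℝ} {v Lv vx : ℝ → ℝ} (hA : ∀ i, BM (A i))
    (hLA : ∀ i, BM (LA i)) (hAx : ∀ i, BM (Ax i)) (hLv : BM Lv) (hvx : BM vx) {a : ℝ}
    (ha0 : 0 ≤ a) (ha : a < 1) (hv : ∀ x, |v x| ≤ a) :
    ∑' n : ℕ, ((n + e).choose e : ℝ) * 𝓐.dT l c χ A LA Ax v Lv vx n =
      ∑ i, 𝓐.Q e c χ (Function.update A i (LA i)) v +
      1 / 2 * ∑ i, ∑ i', (if i = i' then 0 else 𝓐.Q e c (fun L => χ L * lk l i i' L)
        (Function.update (Function.update A i (Ax i)) i' (Ax i')) v) +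
      ((e + 1 : ℕ) : ℝ) * (𝓐.mark.Q (e + 1) c (lift χ) (ext Lv A) v +
        ∑ i, 𝓐.mark.Q (e + 1) c (fun L => lift χ L * lk l (some i) none L)
          (ext vx (Function.update A i (Ax i))) v) +
      1 / 2 * ((e + 1 : ℕ) : ℝ) * (((e + 2 : ℕ) : ℝ) * 𝓐.mark.mark.Q (e + 2) c
        (fun L => lift (lift χ) L * lk l (some none) none L) (ext vx (ext vx A)) v) := by
  have sQ := fun (χ' : LM k δ → ℝ) (B : δ → ℝ → ℝ) (hB : ∀ i, BM (B i)) =>
    𝓐.Q_summable e c χ' hB ha0 ha hv
  have sQ1 := fun (χ' : LM k (Option δ) → ℝ) (B : Option δ → ℝ → ℝ) (hB : ∀ i, BM (B i)) =>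
    𝓐.mark.Q_summable (e + 1) c χ' hB ha0 ha hv
  have sQ2 := 𝓐.mark.mark.Q_summable (e + 2) c
    (fun L => lift (lift χ) L * lk l (some none) none L) (BM_ext (BM_ext hA hvx) hvx) ha0 ha hv
  have q1 := fun i => sQ χ _ (BM.update hA (hLA i) (a := i))
  have q2 : ∀ i i', Summable fun n : ℕ => (if i = i' then 0 else
      ((n + e).choose e : ℝ) * 𝓐.T c (fun L => χ L * lk l i i' L)
        (Function.update (Function.update A i (Ax i)) i' (Ax i')) v (Fin n)) := by
    intro i i'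
    by_cases h : i = i'
    · simp only [h, if_true]; exact summable_zero
    · simp only [h, if_false]
      exact sQ _ _ (BM.update (BM.update hA (hAx i)) (hAx i'))
  have q3 := tsum_shift e _ (sQ1 (lift χ) _ (BM_ext hA hLv))
  have q4 := fun i => tsum_shift e _ (sQ1 (fun L => lift χ L * lk l (some i) none L) _
    (BM_ext (BM.update hA (hAx i) (a := i)) hvx))
  have q5 := tsum_shift (e + 1) _ sQ2
  have q6 := tsum_shift e _ q5.1
  have hterm : ∀ n : ℕ, ((n + e).choose e : ℝ) * 𝓐.dT l c χ A LA Ax v Lv vx n =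
      (((∑ i, ((n + e).choose e : ℝ) * 𝓐.T c χ (Function.update A i (LA i)) v (Fin n)) +
      1 / 2 * ∑ i, ∑ i', (if i = i' then 0 else
        ((n + e).choose e : ℝ) * 𝓐.T c (fun L => χ L * lk l i i' L)
        (Function.update (Function.update A i (Ax i)) i' (Ax i')) v (Fin n))) +
      (((n + e).choose e : ℝ) * (n * 𝓐.mark.T c (lift χ) (ext Lv A) v (Fin (n - 1))) +
        ∑ i, ((n + e).choose e : ℝ) * (n * 𝓐.mark.T c (fun L => lift χ L * lk l (some i) none L)
      (ext vx (Function.update A i (Ax i))) v (Fin (n - 1))))) +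
      1 / 2 * (((n + e).choose e : ℝ) * (n * ((n - 1 : ℕ) * 𝓐.mark.mark.T c
        (fun L => lift (lift χ) L * lk l (some none) none L)
      (ext vx (ext vx A)) v (Fin (n - 1 - 1))))) := by
    intro n
    have e1 : ∑ i, ∑ i', (if i = i' then 0 else
        ((n + e).choose e : ℝ) * 𝓐.T c (fun L => χ L * lk l i i' L)
        (Function.update (Function.update A i (Ax i)) i' (Ax i')) v (Fin n)) =
        ((n + e).choose e : ℝ) * ∑ i, ∑ i', (if i = i' then 0 else
        𝓐.T c (fun L => χ L * lk l i i' L)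
        (Function.update (Function.update A i (Ax i)) i' (Ax i')) v (Fin n)) := by
      simp only [Finset.mul_sum, mul_ite, mul_zero]
    have e2 : n - 1 - 1 = n - 2 := by omega
    rw [e1, ← Finset.mul_sum, e2]
    simp only [← Finset.mul_sum]
    unfold dT
    ring
  simp_rw [hterm]
  have s1 : Summable fun n : ℕ => ∑ i, ((n + e).choose e : ℝ) *
      𝓐.T c χ (Function.update A i (LA i)) v (Fin n) := summable_sum fun i _ => q1 i
  have s2 : Summable fun n : ℕ => ∑ i, ∑ i', (if i = i' then 0 else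
        ((n + e).choose e : ℝ) * 𝓐.T c (fun L => χ L * lk l i i' L)
        (Function.update (Function.update A i (Ax i)) i' (Ax i')) v (Fin n)) :=
    summable_sum fun i _ => summable_sum fun i' _ => q2 i i'
  have s4 : Summable fun n : ℕ => ∑ i, ((n + e).choose e : ℝ) * (n * 𝓐.mark.T c
      (fun L => lift χ L * lk l (some i) none L)
      (ext vx (Function.update A i (Ax i))) v (Fin (n - 1))) :=
    summable_sum fun i _ => (q4 i).1
  rw [((s1.add (s2.mul_left (1 / 2))).add (q3.1.add s4)).tsum_add (q6.1.mul_left (1 / 2)),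
    (s1.add (s2.mul_left (1 / 2))).tsum_add (q3.1.add s4),
    s1.tsum_add (s2.mul_left (1 / 2)), q3.1.tsum_add s4, tsum_mul_left, tsum_mul_left,
    Summable.tsum_finsetSum fun i _ => q1 i,
    Summable.tsum_finsetSum fun i _ => summable_sum fun i' _ => q2 i i',
    Summable.tsum_finsetSum fun i _ => (q4 i).1, q3.2, q6.2, q5.2]
  have e3 : ∀ i, ∑' n : ℕ, ∑ i', (if i = i' then 0 else
        ((n + e).choose e : ℝ) * 𝓐.T c (fun L => χ L * lk l i i' L)
        (Function.update (Function.update A i (Ax i)) i' (Ax i')) v (Fin n)) =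
      ∑ i', (if i = i' then 0 else 𝓐.Q e c (fun L => χ L * lk l i i' L)
        (Function.update (Function.update A i (Ax i)) i' (Ax i')) v) := by
    intro i
    rw [Summable.tsum_finsetSum fun i' _ => q2 i i']
    apply Finset.sum_congr rfl
    intro i' _
    by_cases h : i = i'
    · simp [h]
    · simp only [h, if_false]
      rfl
  simp_rw [e3]
  have e4 : ∀ i, ∑' n : ℕ, ((n + e).choose e : ℝ) * (n * 𝓐.mark.T c
      (fun L => lift χ L * lk l (some i) none L)
      (ext vx (Function.update A i (Ax i))) v (Fin (n - 1))) =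
      ((e + 1 : ℕ) : ℝ) * 𝓐.mark.Q (e + 1) c (fun L => lift χ L * lk l (some i) none L)
          (ext vx (Function.update A i (Ax i))) v := fun i => (q4 i).2
  simp_rw [e4]
  rw [← Finset.mul_sum]
  unfold Q
  rw [show (e + 1 + 1 : ℕ) = e + 2 from rfl]
  ring

end Arr

end Vale.Agent.P157.Par
end

section

open MeasureTheory ProbabilityTheory Filter Topology Finset

namespace Vale.Agent.P157.Par

set_option linter.unusedSectionVars false

lemma nice_mul {S : Set ℝ} {C : ℝ} {f ft fx fxx g gt gx gxx : ℝ → ℝ → ℝ}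
    (hf : Nice S C f ft fx fxx) (hg : Nice S C g gt gx gxx) :
    Nice S (4 * C ^ 2) (fun t x => f t x * g t x) (fun t x => ft t x * g t x + f t x * gt t x)
      (fun t x => fx t x * g t x + f t x * gx t x)
      (fun t x => fxx t x * g t x + 2 * (fx t x * gx t x) + f t x * gxx t x) := by
  have hmul : ∀ a b : ℝ, |a| ≤ C → |b| ≤ C → |a * b| ≤ C ^ 2 := by
    intro a b ha hb
    rw [abs_mul, sq]
    exact mul_le_mul ha hb (abs_nonneg _) ((abs_nonneg _).trans ha)
  refine ⟨?_, ?_, ?_, ?_, ?_, ?_, ?_, ?_, ?_, ?_, ?_⟩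
  · intro t ht; exact (hf.m0 t ht).mul (hg.m0 t ht)
  · intro t ht
    exact ((hf.mt t ht).mul (hg.m0 t ht)).add ((hf.m0 t ht).mul (hg.mt t ht))
  · intro t ht
    exact ((hf.m1 t ht).mul (hg.m0 t ht)).add ((hf.m0 t ht).mul (hg.m1 t ht))
  · intro t ht
    exact (((hf.m2 t ht).mul (hg.m0 t ht)).add
      (((hf.m1 t ht).mul (hg.m1 t ht)).const_mul 2)).add ((hf.m0 t ht).mul (hg.m2 t ht))
  · intro t ht x
    have := hmul _ _ (hf.b0 t ht x) (hg.b0 t ht x)
    linarith only [sq_nonneg C, this]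
  · intro t ht x
    have h1 := hmul _ _ (hf.bt t ht x) (hg.b0 t ht x)
    have h2 := hmul _ _ (hf.b0 t ht x) (hg.bt t ht x)
    have h3 := abs_add_le (ft t x * g t x) (f t x * gt t x)
    linarith only [sq_nonneg C, h3, h2, h1]
  · intro t ht x
    have h1 := hmul _ _ (hf.b1 t ht x) (hg.b0 t ht x)
    have h2 := hmul _ _ (hf.b0 t ht x) (hg.b1 t ht x)
    have h3 := abs_add_le (fx t x * g t x) (f t x * gx t x)
    linarith only [sq_nonneg C, h3, h2, h1]
  · intro t ht x
    have h1 := hmul _ _ (hf.b2 t ht x) (hg.b0 t ht x)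
    have h2 := hmul _ _ (hf.b1 t ht x) (hg.b1 t ht x)
    have h4 := hmul _ _ (hf.b0 t ht x) (hg.b2 t ht x)
    have h3 := abs_add_three (fxx t x * g t x) (2 * (fx t x * gx t x)) (f t x * gxx t x)
    rw [abs_mul 2, abs_two] at h3
    linarith
  · intro t ht x x' hx
    have h1 := (hf.path t ht x x' hx).mul (hg.path t ht x x' hx)
    exact h1.congr_deriv (by ring)
  · intro t ht x
    exact (hf.d1 t ht x).mul (hg.d1 t ht x)
  · intro t ht x
    have h1 := ((hf.d2 t ht x).mul (hg.d1 t ht x)).add ((hf.d1 t ht x).mul (hg.d2 t ht x))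
    exact h1.congr_deriv (by ring)

lemma nice_one_sub {S : Set ℝ} {C : ℝ} {g gt gx gxx : ℝ → ℝ → ℝ}
    (hg : Nice S C g gt gx gxx) :
    Nice S (1 + C) (fun t x => 1 - g t x) (fun t x => -gt t x) (fun t x => -gx t x)
      (fun t x => -gxx t x) := by
  refine ⟨?_, ?_, ?_, ?_, ?_, ?_, ?_, ?_, ?_, ?_, ?_⟩
  · intro t ht; exact measurable_const.sub (hg.m0 t ht)
  · intro t ht; exact (hg.mt t ht).neg
  · intro t ht; exact (hg.m1 t ht).neg
  · intro t ht; exact (hg.m2 t ht).neg
  · intro t ht x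
    have h1 := hg.b0 t ht x
    have h2 := abs_sub (1 : ℝ) (g t x)
    rw [abs_one] at h2
    linarith
  · intro t ht x; rw [abs_neg]; linarith [hg.bt t ht x]
  · intro t ht x; rw [abs_neg]; linarith [hg.b1 t ht x]
  · intro t ht x; rw [abs_neg]; linarith [hg.b2 t ht x]
  · intro t ht x x' hx
    have h1 := (hg.path t ht x x' hx).const_sub 1
    exact h1.congr_deriv (by ring)
  · intro t ht x
    exact (hg.d1 t ht x).const_sub 1
  · intro t ht x
    exact (hg.d2 t ht x).neg

lemma Nice.mono {S : Set ℝ} {C C' : ℝ} {g gt gx gxx : ℝ → ℝ → ℝ}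
    (hg : Nice S C g gt gx gxx) (h : C ≤ C') : Nice S C' g gt gx gxx :=
  ⟨hg.m0, hg.mt, hg.m1, hg.m2, fun t ht x => (hg.b0 t ht x).trans h,
    fun t ht x => (hg.bt t ht x).trans h, fun t ht x => (hg.b1 t ht x).trans h,
    fun t ht x => (hg.b2 t ht x).trans h, hg.path, hg.d1, hg.d2⟩

namespace Arr

variable {k : ℕ} {w : Fin (k + 1) → ℝ} {δ : Type} [Fintype δ] [DecidableEq δ]

lemma Q_congr (𝓐 : Arr k w δ) (e : ℕ) (c : Fin (k + 1) → ℝ) {χ χ' : LM k δ → ℝ}
    (h : ∀ L, Ultra L → χ L = χ' L) (A : δ → ℝ → ℝ) (v : ℝ → ℝ) :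
    𝓐.Q e c χ A v = 𝓐.Q e c χ' A v := by
  unfold Q T
  apply tsum_congr
  intro n
  congr 1
  apply 𝓐.congr_ultra
  intro L hL
  rw [show χ (res L) = χ' (res L) from h _ (hL.comp _)]

lemma Q_lk_self (𝓐 : Arr k w δ) (e : ℕ) (c : Fin (k + 1) → ℝ) (χ : LM k δ → ℝ)
    (l : Fin (k + 1)) (i : δ) (A : δ → ℝ → ℝ) (v : ℝ → ℝ) :
    𝓐.Q e c (fun L => χ L * lk l i i L) A v = 𝓐.Q e c χ A v := by
  apply 𝓐.Q_congr
  intro L hL
  unfold lk
  rw [hL.diag, if_pos (Fin.le_last _), mul_one]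

lemma Q_lk_symm (𝓐 : Arr k w δ) (e : ℕ) (c : Fin (k + 1) → ℝ) (χ : LM k δ → ℝ)
    (l : Fin (k + 1)) (i j : δ) (A : δ → ℝ → ℝ) (v : ℝ → ℝ) :
    𝓐.Q e c (fun L => χ L * lk l i j L) A v = 𝓐.Q e c (fun L => χ L * lk l j i L) A v := by
  apply 𝓐.Q_congr
  intro L hL
  unfold lk
  rw [hL.symm i j]

/-- The pair functional: on the link, everything is at the index `i`. -/
noncomputable def qq (𝓐 : Arr k w δ) (e : ℕ) (c : Fin (k + 1) → ℝ) (l : Fin (k + 1))
    (χ : LM k δ → ℝ) (A : δ → ℝ → ℝ) (v : ℝ → ℝ) (i j : δ) (F : ℝ → ℝ) : ℝ :=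
  𝓐.Q e c (fun L => χ L * lk l i j L) (Function.update (Function.update A i F) j fun _ => 1) v

variable (𝓐 : Arr k w δ) (e : ℕ) {c : Fin (k + 1) → ℝ} {l : Fin (k + 1)} (χ : LM k δ → ℝ)
  {A : δ → ℝ → ℝ} {v : ℝ → ℝ}

lemma qq_symm (hcl : ∀ l', l < l' → c l' = 0) {i j : δ} (hij : i ≠ j) (F : ℝ → ℝ) :
    𝓐.qq e c l χ A v i j F = 𝓐.qq e c l χ A v j i F := by
  have h := 𝓐.Q_move e hcl χ (Function.update A i fun _ => 1) v hij F
  have h2 : (fun x => Function.update A i (fun _ => (1 : ℝ)) i x * F x) = F := by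
    funext x; simp
  rw [h2, Function.update_idem] at h
  unfold qq
  rw [← h, 𝓐.Q_lk_symm, Function.update_comm hij]

lemma Q_pair (hcl : ∀ l', l < l' → c l' = 0) {i j : δ} (hij : i ≠ j) (F G : ℝ → ℝ) :
    𝓐.Q e c (fun L => χ L * lk l i j L) (Function.update (Function.update A i F) j G) v =
      𝓐.qq e c l χ A v i j fun x => F x * G x := by
  have h := 𝓐.Q_move e hcl χ (Function.update A i F) v hij G
  rw [h, Function.update_self, Function.update_idem]
  rfl

lemma Q_pair_one (hcl : ∀ l', l < l' → c l' = 0) {i j : δ} (hij : i ≠ j) (F : ℝ → ℝ) :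
    𝓐.Q e c (fun L => χ L * lk l i j L) (Function.update A i F) v =
      𝓐.qq e c l χ A v i j fun x => F x * A j x := by
  have h := 𝓐.Q_pair e (A := A) (v := v) χ hcl hij F (A j)
  rw [← h]
  congr 1
  symm
  rw [Function.update_eq_self_iff]
  rw [Function.update_of_ne hij.symm]

lemma qq_add (hA : ∀ i, BM (A i)) (hvm : Measurable v) {a : ℝ}
    (ha0 : 0 ≤ a) (ha : a < 1) (hv : ∀ x, |v x| ≤ a) {i j : δ} (hij : i ≠ j) {F G : ℝ → ℝ}
    (hF : BM F) (hG : BM G) :
    𝓐.qq e c l χ A v i j (fun x => F x + G x) =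
      𝓐.qq e c l χ A v i j F + 𝓐.qq e c l χ A v i j G := by
  unfold qq
  rw [Function.update_comm hij, Function.update_comm hij, Function.update_comm hij]
  exact 𝓐.Q_update_add e c _ (BM.update hA (BM.const 1)) hvm ha0 ha hv i hF hG

lemma qq_smul {i j : δ} (hij : i ≠ j) (F : ℝ → ℝ) (r : ℝ) :
    𝓐.qq e c l χ A v i j (fun x => r * F x) = r * 𝓐.qq e c l χ A v i j F := by
  unfold qq
  rw [Function.update_comm hij, Function.update_comm hij]
  exact 𝓐.Q_update_smul e c _ _ v i F r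

lemma ext_update_none (g G : ℝ → ℝ) (A : δ → ℝ → ℝ) :
    Function.update (ext g A) none G = ext G A := (ext_eq_update G g A).symm

/-- The algebra of the conservation law at a fixed time. -/
theorem conservation (he : Fintype.card δ = e + 1) (hc : ∀ l, 0 ≤ c l)
    (hcl : ∀ l', l < l' → c l' = 0) {a : ℝ} (ha0 : 0 ≤ a) (ha : a < 1)
    {W Wx : ℝ → ℝ} (hWm : Measurable W) (hW : ∀ x, |1 - W x| ≤ a) (hWx : BM Wx)
    (hA : ∀ i, BM (A i)) {LA Ax : δ → ℝ → ℝ} (hAx : ∀ i, BM (Ax i))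
    (p1 : ∀ i x, LA i x = up w l * (Ax i x * (Wx x / W x)) -
      1 / 2 * (up w l * (A i x * (Wx x ^ 2 / W x ^ 2))))
    (p2 : ∀ i j, i ≠ j → (∀ L, Ultra L → χ L * lk l i j L = 0) ∨
      (∀ x, (Ax i x - A i x * (Wx x / W x)) * (Ax j x - A j x * (Wx x / W x)) = 0)) :
    ∑ i, 𝓐.Q e c χ (Function.update A i (LA i)) (fun x => 1 - W x) +
      1 / 2 * ∑ i, ∑ i', (if i = i' then 0 else 𝓐.Q e c (fun L => χ L * lk l i i' L)
        (Function.update (Function.update A i (Ax i)) i' (Ax i')) (fun x => 1 - W x)) +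
      ((e + 1 : ℕ) : ℝ) * (𝓐.mark.Q (e + 1) c (lift χ)
          (ext (fun x => - (1 / 2 * up w l * (Wx x ^ 2 / W x))) A) (fun x => 1 - W x) +
        ∑ i, 𝓐.mark.Q (e + 1) c (fun L => lift χ L * lk l (some i) none L)
          (ext (fun x => -Wx x) (Function.update A i (Ax i))) (fun x => 1 - W x)) +
      1 / 2 * ((e + 1 : ℕ) : ℝ) * (((e + 2 : ℕ) : ℝ) * 𝓐.mark.mark.Q (e + 2) c
        (fun L => lift (lift χ) L * lk l (some none) none L)
        (ext (fun x => -Wx x) (ext (fun x => -Wx x) A)) (fun x => 1 - W x)) = 0 := by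
  classical
  set u := up w l with hu
  set v : ℝ → ℝ := fun x => 1 - W x with hv
  have hW0 : ∀ x, 1 - a ≤ W x := fun x => by linarith [le_abs_self (1 - W x), hW x]
  have hWpos : ∀ x, 0 < W x := fun x => by linarith [hW0 x]
  have hWne : ∀ x, W x ≠ 0 := fun x => (hWpos x).ne'
  have hvm : Measurable v := measurable_const.sub hWm
  have hva : ∀ x, |v x| ≤ a := hW
  have hinv : BM fun x => (W x)⁻¹ := by
    refine ⟨hWm.inv, (1 - a)⁻¹, fun x => ?_⟩
    rw [abs_of_pos (inv_pos.2 (hWpos x))]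
    exact inv_anti₀ (by linarith) (hW0 x)
  set R : ℝ → ℝ := fun x => Wx x / W x with hR
  have bR : BM R := by
    have := hWx.mul hinv
    exact this
  have bnWx : BM fun x => -Wx x := hWx.neg
  have bnR : BM fun x => -R x := bR.neg
  -- the term with two new indices
  have hA' : ∀ i, BM (ext (fun x => -Wx x) A i) := BM_ext hA bnWx
  have cardO : Fintype.card (Option δ) = e + 1 + 1 := by rw [Fintype.card_option, he]
  have s1 := 𝓐.mark.Q_stab cardO hc hcl (lift χ) hA' hvm ha0 ha hva none bnWx bnR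
  have x1 : (fun x => -R x * (1 - v x)) = fun x => -Wx x := by
    funext x
    simp only [hR, hv]
    have := hWne x
    field_simp
    ring
  have x2 : (fun x => -Wx x * -R x) = fun x => Wx x ^ 2 / W x := by
    funext x
    simp only [hR]
    ring
  rw [x1, x2, ext_update_none, ext_update_none, Fintype.sum_option, 𝓐.mark.Q_lk_self] at s1
  have b2 : BM fun x => Wx x ^ 2 / W x := by
    have h := hWx.mul bR
    have h2 : (fun x => Wx x ^ 2 / W x) = fun x => Wx x * R x := by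
      funext x; simp only [hR]; ring
    rw [h2]; exact h
  set G2 : ℝ → ℝ := fun x => Wx x ^ 2 / W x with hG2
  set q2 : δ → ℝ := fun i => 𝓐.mark.Q (e + 1) c (fun L => lift χ L * lk l (some i) none L)
    (ext G2 A) v with hq2
  have s1' : ((e + 2 : ℕ) : ℝ) * 𝓐.mark.mark.Q (e + 2) c
        (fun L => lift (lift χ) L * lk l (some none) none L)
        (ext (fun x => -Wx x) (ext (fun x => -Wx x) A)) v =
      u * 𝓐.mark.Q (e + 1) c (lift χ) (ext G2 A) v + ∑ i, q2 i := by
    have h3 : ∀ i, 𝓐.mark.Q (e + 1) c (fun L => lift χ L * lk l none (some i) L)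
        (ext G2 A) v = q2 i := fun i => 𝓐.mark.Q_lk_symm _ _ _ _ _ _ _ _
    simp_rw [h3] at s1
    rw [show (e + 1 + 1 : ℕ) = e + 2 from rfl] at s1
    rw [s1]
    ring
  -- the term with one new free index
  have s2 : 𝓐.mark.Q (e + 1) c (lift χ)
      (ext (fun x => - (1 / 2 * u * (Wx x ^ 2 / W x))) A) v =
      -(1 / 2 * u) * 𝓐.mark.Q (e + 1) c (lift χ) (ext G2 A) v := by
    have h := 𝓐.mark.Q_update_smul (e + 1) c (lift χ) (ext G2 A) v none G2 (-(1 / 2 * u))
    rw [ext_update_none, ext_update_none] at h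
    rw [← h]
    congr 2
    funext x
    simp only [hG2]
    ring
  rw [s1', s2]
  -- the terms with one new linked index
  have s3 : ∀ i, ((e + 1 : ℕ) : ℝ) * 𝓐.mark.Q (e + 1) c
      (fun L => lift χ L * lk l (some i) none L)
      (ext (fun x => -Wx x) (Function.update A i (Ax i))) v =
      (u - 1) * 𝓐.Q e c χ (Function.update A i fun x => Ax i x * -R x) v +
      ∑ j, 𝓐.Q e c (fun L => χ L * lk l i j L)
        (Function.update A i fun x => Ax i x * -R x) v := by
    intro i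
    have h := 𝓐.Q_stab he hc hcl χ hA hvm ha0 ha hva i (hAx i) bnR
    rw [x1] at h
    exact h
  have x3 : (fun x => R x ^ 2 * (1 - v x)) = G2 := by
    funext x
    simp only [hR, hv, hG2]
    have := hWne x
    field_simp
    ring
  have bR2 : BM fun x => R x ^ 2 := by
    have h2 : (fun x => R x ^ 2) = fun x => R x * R x := by funext x; ring
    rw [h2]; exact bR.mul bR
  have s4 : ∀ i, ((e + 1 : ℕ) : ℝ) * q2 i =
      (u - 1) * 𝓐.Q e c χ (Function.update A i fun x => A i x * R x ^ 2) v +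
      ∑ j, 𝓐.Q e c (fun L => χ L * lk l i j L)
        (Function.update A i fun x => A i x * R x ^ 2) v := by
    intro i
    have h := 𝓐.Q_stab he hc hcl χ hA hvm ha0 ha hva i (hA i) bR2
    rw [x3, Function.update_eq_self] at h
    exact h
  -- split the diagonal
  have split : ∀ (i : δ) (B : δ → ℝ → ℝ), ∑ j, 𝓐.Q e c (fun L => χ L * lk l i j L) B v =
      𝓐.Q e c χ B v + ∑ j, (if i = j then 0 else 𝓐.Q e c (fun L => χ L * lk l i j L) B v) := by
    intro i B
    rw [← Finset.add_sum_erase _ _ (Finset.mem_univ i), 𝓐.Q_lk_self,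
      ← Finset.add_sum_erase (a := i) (s := univ)
        (f := fun j => if i = j then 0 else 𝓐.Q e c (fun L => χ L * lk l i j L) B v)
        (Finset.mem_univ i)]
    simp only [if_true, zero_add]
    congr 1
    apply Finset.sum_congr rfl
    intro j hj
    rw [if_neg (Finset.ne_of_mem_erase hj).symm]
  have bAR : ∀ i, BM fun x => Ax i x * -R x := fun i => (hAx i).mul bnR
  have bAR2 : ∀ i, BM fun x => A i x * R x ^ 2 := fun i => (hA i).mul bR2
  -- the single index terms cancel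
  have s5 : ∀ i, 𝓐.Q e c χ (Function.update A i (LA i)) v +
      u * 𝓐.Q e c χ (Function.update A i fun x => Ax i x * -R x) v +
      1 / 2 * (u * 𝓐.Q e c χ (Function.update A i fun x => A i x * R x ^ 2) v) = 0 := by
    intro i
    have h1 : LA i = fun x => -u * (Ax i x * -R x) + -(1 / 2 * u) * (A i x * R x ^ 2) := by
      funext x
      rw [p1 i x]
      simp only [hR]
      rw [div_pow]
      ring
    have b3 : BM fun x => -u * (Ax i x * -R x) := (BM.const (-u)).mul (bAR i)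
    have b4 : BM fun x => -(1 / 2 * u) * (A i x * R x ^ 2) := (BM.const _).mul (bAR2 i)
    rw [h1, 𝓐.Q_update_add e c χ hA hvm ha0 ha hva i b3 b4, 𝓐.Q_update_smul,
      𝓐.Q_update_smul]
    ring
  -- pair terms
  have s6 : ∀ i j, i ≠ j →
      1 / 2 * 𝓐.Q e c (fun L => χ L * lk l i j L)
        (Function.update (Function.update A i (Ax i)) j (Ax j)) v +
      (1 / 2 * 𝓐.qq e c l χ A v i j (fun x => Ax i x * -R x * A j x) +
      1 / 2 * 𝓐.qq e c l χ A v i j (fun x => A i x * (Ax j x * -R x))) +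
      1 / 2 * 𝓐.Q e c (fun L => χ L * lk l i j L)
        (Function.update A i fun x => A i x * R x ^ 2) v = 0 := by
    intro i j hij
    rw [𝓐.Q_pair e χ hcl hij, 𝓐.Q_pair_one e χ hcl hij]
    have b5 := (hAx i).mul (hAx j)
    have b6 := (bAR i).mul (hA j)
    have b7 := (hA i).mul (bAR j)
    have b8 := (bAR2 i).mul (hA j)
    have h1 : 𝓐.qq e c l χ A v i j (fun x => ((Ax i x * Ax j x + Ax i x * -R x * A j x) +
        A i x * (Ax j x * -R x)) + A i x * R x ^ 2 * A j x) = 0 := by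
      rcases p2 i j hij with h | h
      · unfold qq
        rw [𝓐.Q_congr e c (χ' := fun _ => 0) h]
        unfold Q T
        have h0 : ∀ n : ℕ, 𝓐.E (Fin n) (fun _ => (0 : ℝ)) = 0 := fun n => map_zero _
        simp [h0]
      · have h2 : (fun x => ((Ax i x * Ax j x + Ax i x * -R x * A j x) +
            A i x * (Ax j x * -R x)) + A i x * R x ^ 2 * A j x) = fun _ => 0 * 1 := by
          funext x
          have := h x
          simp only [hR]
          linear_combination this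
        rw [h2, 𝓐.qq_smul e χ hij (fun _ => 1) 0, zero_mul]
    rw [𝓐.qq_add e χ hA hvm ha0 ha hva hij ((b5.add b6).add b7) b8,
      𝓐.qq_add e χ hA hvm ha0 ha hva hij (b5.add b6) b7,
      𝓐.qq_add e χ hA hvm ha0 ha hva hij b5 b6] at h1
    linarith
  -- symmetrization
  have s7 : ∑ i, ∑ j, (if i = j then 0 else 𝓐.Q e c (fun L => χ L * lk l i j L)
      (Function.update A i fun x => Ax i x * -R x) v) =
      ∑ i, ∑ j, (if i = j then 0 else
        (1 / 2 * 𝓐.qq e c l χ A v i j (fun x => Ax i x * -R x * A j x) +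
      1 / 2 * 𝓐.qq e c l χ A v i j (fun x => A i x * (Ax j x * -R x)))) := by
    have h1 : ∑ i, ∑ j, (if i = j then 0 else 𝓐.Q e c (fun L => χ L * lk l i j L)
      (Function.update A i fun x => Ax i x * -R x) v) =
      ∑ i, ∑ j, (if i = j then 0 else 𝓐.qq e c l χ A v i j (fun x => Ax i x * -R x * A j x)) := by
      apply Finset.sum_congr rfl
      intro i _
      apply Finset.sum_congr rfl
      intro j _
      by_cases h : i = j
      · simp [h]
      · simp only [h, if_false]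
        exact 𝓐.Q_pair_one e χ hcl h _
    have h2 : ∑ i, ∑ j, (if i = j then 0 else 𝓐.qq e c l χ A v i j
        (fun x => Ax i x * -R x * A j x)) =
        ∑ i, ∑ j, (if i = j then 0 else 𝓐.qq e c l χ A v i j
        (fun x => A i x * (Ax j x * -R x))) := by
      rw [Finset.sum_comm]
      apply Finset.sum_congr rfl
      intro j _
      apply Finset.sum_congr rfl
      intro i _
      by_cases h : i = j
      · simp [h]
      · have h' : ¬ j = i := fun h' => h h'.symm
        simp only [h, h', if_false]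
        rw [𝓐.qq_symm e χ hcl h]
        congr 1
        funext x
        ring
    have h3 : ∑ i, ∑ j, (if i = j then 0 else
        (1 / 2 * 𝓐.qq e c l χ A v i j (fun x => Ax i x * -R x * A j x) +
      1 / 2 * 𝓐.qq e c l χ A v i j (fun x => A i x * (Ax j x * -R x)))) =
      1 / 2 * ∑ i, ∑ j, (if i = j then 0 else 𝓐.qq e c l χ A v i j
        (fun x => Ax i x * -R x * A j x)) +
      1 / 2 * ∑ i, ∑ j, (if i = j then 0 else 𝓐.qq e c l χ A v i j
        (fun x => A i x * (Ax j x * -R x))) := by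
      simp only [Finset.mul_sum, ← Finset.sum_add_distrib, mul_ite, mul_zero]
      apply Finset.sum_congr rfl
      intro i _
      apply Finset.sum_congr rfl
      intro j _
      by_cases h : i = j
      · simp [h]
      · simp [h]
    rw [h3, ← h2, h1]
    ring
  have s8 : 1 / 2 * ∑ i, ∑ i', (if i = i' then 0 else 𝓐.Q e c (fun L => χ L * lk l i i' L)
        (Function.update (Function.update A i (Ax i)) i' (Ax i')) v) +
      ∑ i, ∑ j, (if i = j then 0 else 𝓐.Q e c (fun L => χ L * lk l i j L)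
      (Function.update A i fun x => Ax i x * -R x) v) +
      1 / 2 * ∑ i, ∑ j, (if i = j then 0 else 𝓐.Q e c (fun L => χ L * lk l i j L)
      (Function.update A i fun x => A i x * R x ^ 2) v) = 0 := by
    rw [s7]
    simp only [Finset.mul_sum, ← Finset.sum_add_distrib]
    apply Finset.sum_eq_zero
    intro i _
    apply Finset.sum_eq_zero
    intro j _
    by_cases h : i = j
    · simp [h]
    · simp only [h, if_false]
      exact s6 i j h
  have s9 : ((e + 1 : ℕ) : ℝ) * ∑ i, 𝓐.mark.Q (e + 1) c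
      (fun L => lift χ L * lk l (some i) none L)
      (ext (fun x => -Wx x) (Function.update A i (Ax i))) v =
      ∑ i, u * 𝓐.Q e c χ (Function.update A i fun x => Ax i x * -R x) v +
      ∑ i, ∑ j, (if i = j then 0 else 𝓐.Q e c (fun L => χ L * lk l i j L)
      (Function.update A i fun x => Ax i x * -R x) v) := by
    rw [Finset.mul_sum, ← Finset.sum_add_distrib]
    apply Finset.sum_congr rfl
    intro i _
    rw [s3 i, split i]
    ring
  have s10 : ((e + 1 : ℕ) : ℝ) * ∑ i, q2 i =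
      ∑ i, u * 𝓐.Q e c χ (Function.update A i fun x => A i x * R x ^ 2) v +
      ∑ i, ∑ j, (if i = j then 0 else 𝓐.Q e c (fun L => χ L * lk l i j L)
      (Function.update A i fun x => A i x * R x ^ 2) v) := by
    rw [Finset.mul_sum, ← Finset.sum_add_distrib]
    apply Finset.sum_congr rfl
    intro i _
    rw [s4 i, split i]
    ring
  have s11 : ∑ i, 𝓐.Q e c χ (Function.update A i (LA i)) v +
      ∑ i, u * 𝓐.Q e c χ (Function.update A i fun x => Ax i x * -R x) v +
      1 / 2 * ∑ i, u * 𝓐.Q e c χ (Function.update A i fun x => A i x * R x ^ 2) v = 0 := by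
    rw [Finset.mul_sum, ← Finset.sum_add_distrib, ← Finset.sum_add_distrib]
    exact Finset.sum_eq_zero fun i _ => s5 i
  linear_combination s8 + s9 + 1 / 2 * s10 + s11

end Arr

end Vale.Agent.P157.Par
end

section

open MeasureTheory ProbabilityTheory Filter Topology Finset

namespace Vale.Agent.P157.Par

/-- Functions with two bounded continuous derivatives. -/
structure CB2 (g g' g'' : ℝ → ℝ) : Prop where
  d1 : ∀ x, HasDerivAt g (g' x) x
  d2 : ∀ x, HasDerivAt g' (g'' x) x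
  c2 : Continuous g''
  b0 : ∃ C, ∀ x, |g x| ≤ C
  b1 : ∃ C, ∀ x, |g' x| ≤ C
  b2 : ∃ C, ∀ x, |g'' x| ≤ C

/-- The heat semigroup. -/
noncomputable def heat (s : ℝ) (g : ℝ → ℝ) (x : ℝ) : ℝ :=
  ∫ z, g (x + √s * z) ∂(gaussianReal 0 1)

/-- A function of time and space which is regular inside and continuous up to the boundary. -/
structure Flow (σ C : ℝ) (h ht hx hxx : ℝ → ℝ → ℝ) : Prop where
  nice : Nice (Set.Ioo 0 σ) C h ht hx hxx
  cont : ContinuousOn (fun p : ℝ × ℝ => h p.1 p.2) (Set.Icc 0 σ ×ˢ Set.univ)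
  bdd : ∀ t ∈ Set.Icc 0 σ, ∀ x, |h t x| ≤ C

/-- The flow of the weight: `W_t = (P_{σ-t} W^m)^{1/m}`. -/
noncomputable def flowW (m σ : ℝ) (W : ℝ → ℝ) (t x : ℝ) : ℝ :=
  (heat (σ - t) (fun y => W y ^ m) x) ^ (1 / m)

/-- The flow of the observable: `h_t = P_{σ-t}(h W^m) / P_{σ-t}(W^m)`. -/
noncomputable def flowh (m σ : ℝ) (W h : ℝ → ℝ) (t x : ℝ) : ℝ :=
  heat (σ - t) (fun y => h y * W y ^ m) x / heat (σ - t) (fun y => W y ^ m) x

end Vale.Agent.P157.Par
end

section

open MeasureTheory ProbabilityTheory Filter Topology Finset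

namespace Vale.Agent.P157.Par

open Vale.Agent.P367.GT (stein_one)

/-! ### Functions with two derivatives -/

lemma CB2.cont {g g' g'' : ℝ → ℝ} (h : CB2 g g' g'') : Continuous g :=
  continuous_iff_continuousAt.mpr fun x => (h.d1 x).continuousAt

lemma CB2.cont1 {g g' g'' : ℝ → ℝ} (h : CB2 g g' g'') : Continuous g' :=
  continuous_iff_continuousAt.mpr fun x => (h.d2 x).continuousAt

/-- A smooth outer function on an interval. -/
structure Outer (A B : ℝ) (F F' F'' : ℝ → ℝ) : Prop where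
  d1 : ∀ u ∈ Set.Icc A B, HasDerivAt F (F' u) u
  d2 : ∀ u ∈ Set.Icc A B, HasDerivAt F' (F'' u) u
  c2 : ContinuousOn F'' (Set.Icc A B)
  m0 : Measurable F
  m1 : Measurable F'
  m2 : Measurable F''

lemma Outer.c0 {A B : ℝ} {F F' F'' : ℝ → ℝ} (h : Outer A B F F' F'') :
    ContinuousOn F (Set.Icc A B) := fun u hu => (h.d1 u hu).continuousAt.continuousWithinAt

lemma Outer.c1 {A B : ℝ} {F F' F'' : ℝ → ℝ} (h : Outer A B F F' F'') :
    ContinuousOn F' (Set.Icc A B) := fun u hu => (h.d2 u hu).continuousAt.continuousWithinAt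

lemma Outer.bound {A B : ℝ} {F F' F'' : ℝ → ℝ} (h : Outer A B F F' F'') :
    ∃ D, 0 ≤ D ∧ ∀ u ∈ Set.Icc A B, |F u| ≤ D ∧ |F' u| ≤ D ∧ |F'' u| ≤ D := by
  obtain ⟨D0, h0⟩ := isCompact_Icc.exists_bound_of_continuousOn h.c0
  obtain ⟨D1, h1⟩ := isCompact_Icc.exists_bound_of_continuousOn h.c1
  obtain ⟨D2, h2⟩ := isCompact_Icc.exists_bound_of_continuousOn h.c2
  refine ⟨|D0| + |D1| + |D2|, by (clear * -; positivity), fun u hu => ?_⟩
  have a0 := (h0 u hu).trans (le_abs_self D0)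
  have a1 := (h1 u hu).trans (le_abs_self D1)
  have a2 := (h2 u hu).trans (le_abs_self D2)
  rw [Real.norm_eq_abs] at a0 a1 a2
  have n0 := abs_nonneg D0
  have n1 := abs_nonneg D1
  have n2 := abs_nonneg D2
  exact ⟨by linarith, by linarith, by linarith⟩

lemma outer_rpow {A B : ℝ} (hA : 0 < A) (p : ℝ) :
    Outer A B (fun u => u ^ p) (fun u => p * u ^ (p - 1)) (fun u => p * ((p - 1) * u ^ (p - 1 - 1)))
    where
  d1 u hu := Real.hasDerivAt_rpow_const (Or.inl (hA.trans_le hu.1).ne')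
  d2 u hu := (Real.hasDerivAt_rpow_const (Or.inl (hA.trans_le hu.1).ne')).const_mul p
  c2 := by
    refine ContinuousOn.mul continuousOn_const (ContinuousOn.mul continuousOn_const ?_)
    exact fun u hu => (Real.continuousAt_rpow_const _ _
      (Or.inl (hA.trans_le hu.1).ne')).continuousWithinAt
  m0 := by fun_prop
  m1 := by fun_prop
  m2 := by fun_prop

lemma outer_inv {A B : ℝ} (hA : 0 < A) :
    Outer A B (fun u => u⁻¹) (fun u => -(u ^ 2)⁻¹) (fun u => 2 * (u ^ 3)⁻¹) where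
  d1 u hu := hasDerivAt_inv (hA.trans_le hu.1).ne'
  d2 u hu := by
    have hu0 : u ≠ 0 := (hA.trans_le hu.1).ne'
    have h1 : HasDerivAt (fun u : ℝ => -(u ^ 2)⁻¹) (-(-(((2 : ℕ) : ℝ) * u ^ (2 - 1)) / (u ^ 2) ^ 2)) u :=
      ((hasDerivAt_pow 2 u).fun_inv (pow_ne_zero 2 hu0)).fun_neg
    refine h1.congr_deriv ?_
    push_cast
    field_simp
  c2 := by
    refine ContinuousOn.mul continuousOn_const (ContinuousOn.inv₀ (by fun_prop) ?_)
    exact fun u hu => pow_ne_zero 3 (hA.trans_le hu.1).ne'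
  m0 := by fun_prop
  m1 := by fun_prop
  m2 := by fun_prop

lemma CB2.outer {A B : ℝ} {F F' F'' g g' g'' : ℝ → ℝ} (h : CB2 g g' g'')
    (hmem : ∀ x, g x ∈ Set.Icc A B) (hF : Outer A B F F' F'') :
    CB2 (fun x => F (g x)) (fun x => F' (g x) * g' x)
      (fun x => F'' (g x) * g' x * g' x + F' (g x) * g'' x) := by
  obtain ⟨D, hD0, hD⟩ := hF.bound
  obtain ⟨C1, h1⟩ := h.b1
  obtain ⟨C2, h2⟩ := h.b2
  have hC1 : 0 ≤ C1 := (abs_nonneg _).trans (h1 0)
  refine ⟨fun x => (hF.d1 _ (hmem x)).comp x (h.d1 x), fun x => ?_, ?_, ⟨D, fun x => ?_⟩,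
    ⟨D * C1, fun x => ?_⟩, ⟨D * C1 * C1 + D * C2, fun x => ?_⟩⟩
  · exact ((hF.d2 _ (hmem x)).comp x (h.d1 x)).mul (h.d2 x)
  · refine Continuous.add (Continuous.mul (Continuous.mul ?_ h.cont1) h.cont1)
      (Continuous.mul ?_ h.c2)
    · exact hF.c2.comp_continuous h.cont hmem
    · exact hF.c1.comp_continuous h.cont hmem
  · exact (hD _ (hmem x)).1
  · rw [abs_mul]
    exact mul_le_mul (hD _ (hmem x)).2.1 (h1 x) (abs_nonneg _) hD0
  · refine (abs_add_le _ _).trans (add_le_add ?_ ?_)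
    · rw [abs_mul, abs_mul]
      exact mul_le_mul (mul_le_mul (hD _ (hmem x)).2.2 (h1 x) (abs_nonneg _) hD0) (h1 x)
        (abs_nonneg _) (by positivity)
    · rw [abs_mul]
      exact mul_le_mul (hD _ (hmem x)).2.1 (h2 x) (abs_nonneg _) hD0

lemma CB2.mul {g g' g'' k k' k'' : ℝ → ℝ} (h : CB2 g g' g'') (l : CB2 k k' k'') :
    CB2 (fun x => g x * k x) (fun x => g' x * k x + g x * k' x)
      (fun x => g'' x * k x + g' x * k' x + (g' x * k' x + g x * k'' x)) := by
  obtain ⟨G0, g0⟩ := h.b0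
  obtain ⟨G1, g1⟩ := h.b1
  obtain ⟨G2, g2⟩ := h.b2
  obtain ⟨K0, k0⟩ := l.b0
  obtain ⟨K1, k1⟩ := l.b1
  obtain ⟨K2, k2⟩ := l.b2
  have n0 : 0 ≤ G0 := (abs_nonneg _).trans (g0 0)
  have n1 : 0 ≤ G1 := (abs_nonneg _).trans (g1 0)
  have n2 : 0 ≤ G2 := (abs_nonneg _).trans (g2 0)
  have hm : ∀ {a b A B : ℝ}, |a| ≤ A → |b| ≤ B → 0 ≤ A → |a * b| ≤ A * B := by
    intro a b A B ha hb hA
    rw [abs_mul]
    exact mul_le_mul ha hb (abs_nonneg _) hA
  refine ⟨fun x => (h.d1 x).mul (l.d1 x), fun x => ?_, ?_, ⟨G0 * K0, fun x => hm (g0 x) (k0 x) n0⟩,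
    ⟨G1 * K0 + G0 * K1, fun x => ?_⟩, ⟨G2 * K0 + G1 * K1 + (G1 * K1 + G0 * K2), fun x => ?_⟩⟩
  · exact ((h.d2 x).mul (l.d1 x)).add ((h.d1 x).mul (l.d2 x))
  · exact ((h.c2.mul l.cont).add (h.cont1.mul l.cont1)).add ((h.cont1.mul l.cont1).add
      (h.cont.mul l.c2))
  · exact (abs_add_le _ _).trans (add_le_add (hm (g1 x) (k0 x) n1) (hm (g0 x) (k1 x) n0))
  · refine (abs_add_le _ _).trans (add_le_add ?_ ?_)
    · exact (abs_add_le _ _).trans (add_le_add (hm (g2 x) (k0 x) n2) (hm (g1 x) (k1 x) n1))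
    · exact (abs_add_le _ _).trans (add_le_add (hm (g1 x) (k1 x) n1) (hm (g0 x) (k2 x) n0))

/-! ### The heat semigroup -/

lemma heat_continuous {g : ℝ → ℝ} (hg : Continuous g) {C : ℝ} (hC : ∀ x, |g x| ≤ C) :
    Continuous fun p : ℝ × ℝ => heat p.1 g p.2 := by
  unfold heat
  refine continuous_of_dominated (bound := fun _ => C) ?_ ?_ (integrable_const C) ?_
  · intro p
    exact (hg.comp (by fun_prop)).aestronglyMeasurable
  · intro p
    exact Filter.Eventually.of_forall fun z => hC _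
  · refine Filter.Eventually.of_forall fun z => hg.comp ?_
    exact continuous_snd.add ((Real.continuous_sqrt.comp continuous_fst).mul continuous_const)

lemma heat_continuous_x {g : ℝ → ℝ} (hg : Continuous g) {C : ℝ} (hC : ∀ x, |g x| ≤ C) (s : ℝ) :
    Continuous (heat s g) :=
  (heat_continuous hg hC).comp (Continuous.prodMk continuous_const continuous_id)

lemma heat_abs_le {g : ℝ → ℝ} {C : ℝ} (hC : ∀ x, |g x| ≤ C) (s x : ℝ) : |heat s g x| ≤ C := by
  unfold heat
  rw [← Real.norm_eq_abs]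
  refine (norm_integral_le_of_norm_le_const (C := C) (Filter.Eventually.of_forall fun z => ?_)).trans
    ?_
  · rw [Real.norm_eq_abs]; exact hC _
  · simp

lemma integrable_heat {g : ℝ → ℝ} (hg : Measurable g) {C : ℝ} (hC : ∀ x, |g x| ≤ C) (s x : ℝ) :
    Integrable (fun z => g (x + √s * z)) (gaussianReal 0 1) := by
  refine Integrable.mono' (integrable_const C) (hg.comp (by fun_prop)).aestronglyMeasurable
    (Filter.Eventually.of_forall fun z => ?_)
  rw [Real.norm_eq_abs]; exact hC _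

lemma heat_hasDerivAt {g g' : ℝ → ℝ} (hd : ∀ x, HasDerivAt g (g' x) x) (hg' : Continuous g')
    {C C' : ℝ} (hC : ∀ x, |g x| ≤ C) (hC' : ∀ x, |g' x| ≤ C') (s x : ℝ) :
    HasDerivAt (heat s g) (heat s g' x) x := by
  have hgc : Continuous g := continuous_iff_continuousAt.mpr fun x => (hd x).continuousAt
  have := hasDerivAt_integral_of_dominated_loc_of_deriv_le (μ := gaussianReal 0 1)
    (F := fun x z => g (x + √s * z)) (F' := fun x z => g' (x + √s * z)) (x₀ := x)
    (bound := fun _ => C') (s := Set.univ) Filter.univ_mem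
    (Filter.Eventually.of_forall fun y => (hgc.comp (by fun_prop)).aestronglyMeasurable)
    (integrable_heat hgc.measurable hC s x) (hg'.comp (by fun_prop)).aestronglyMeasurable
    (Filter.Eventually.of_forall fun z y _ => hC' _) (integrable_const _)
    (Filter.Eventually.of_forall fun z y _ => by
      have h1 := (hd (y + √s * z)).comp y ((hasDerivAt_id y).add_const (√s * z))
      simpa [Function.comp_def] using h1)
  exact this.2

/-- Derivative of a parametric integral at a point from a Lipschitz bound at this point. -/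
lemma hasDerivAt_integral_lip {μ : Measure ℝ} {F : ℝ → ℝ → ℝ} {F' bound : ℝ → ℝ} {x₀ : ℝ}
    {s : Set ℝ} (hs : s ∈ 𝓝 x₀)
    (hF_meas : ∀ x ∈ s, AEStronglyMeasurable (F x) μ) (hF_int : Integrable (F x₀) μ)
    (hF'_meas : AEStronglyMeasurable F' μ) (hF'_int : Integrable F' μ)
    (h_lipsch : ∀ᵐ a ∂μ, ∀ x ∈ s, ‖F x a - F x₀ a‖ ≤ bound a * ‖x - x₀‖)
    (bound_integrable : Integrable bound μ)
    (h_diff : ∀ᵐ a ∂μ, HasDerivAt (F · a) (F' a) x₀) :
    HasDerivAt (fun x => ∫ a, F x a ∂μ) (∫ a, F' a ∂μ) x₀ := by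
  set L : ℝ →L[ℝ] ℝ →L[ℝ] ℝ := ContinuousLinearMap.smulRightL ℝ ℝ ℝ 1
  have h_diff' : ∀ᵐ a ∂μ, HasFDerivAt (F · a) (L (F' a)) x₀ :=
    h_diff.mono fun x hx => hx.hasFDerivAt
  have hm : AEStronglyMeasurable (L ∘ F') μ := L.continuous.comp_aestronglyMeasurable hF'_meas
  obtain ⟨_, key⟩ := hasFDerivAt_integral_of_dominated_loc_of_lip' hs hF_meas hF_int hm
    h_lipsch bound_integrable h_diff'
  simp only [(· ∘ ·), ContinuousLinearMap.integral_comp_comm _ hF'_int] at key
  have h2 := key.hasDerivAt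
  simpa [L] using h2

lemma heat_path {g g' g'' : ℝ → ℝ} (h : CB2 g g' g'') {t σ : ℝ} (ht : t < σ) {y : ℝ → ℝ} {y' : ℝ}
    (hy : HasDerivAt y y' t) :
    HasDerivAt (fun r => heat (σ - r) g (y r))
      (-(1 / 2) * heat (σ - t) g'' (y t) + heat (σ - t) g' (y t) * y') t := by
  obtain ⟨C0, h0⟩ := h.b0
  obtain ⟨C1, h1⟩ := h.b1
  obtain ⟨C2, h2⟩ := h.b2
  have hC1 : 0 ≤ C1 := (abs_nonneg _).trans (h1 0)
  have hs : 0 < √(σ - t) := Real.sqrt_pos.mpr (by linarith)
  have hsq : HasDerivAt (fun r => √(σ - r)) (-1 / (2 * √(σ - t))) t := by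
    have := ((hasDerivAt_id t).const_sub σ).sqrt (by simp; linarith)
    simpa using this
  have hzint : Integrable (fun z : ℝ => z) (gaussianReal 0 1) :=
    (memLp_id_gaussianReal 1).integrable le_rfl
  -- Lipschitz constants
  obtain ⟨c1, hc1⟩ := hy.isBigO_sub.bound
  obtain ⟨c2, hc2⟩ := hsq.isBigO_sub.bound
  have hF'int : Integrable (fun z => g' (y t + √(σ - t) * z) *
      (y' + (-1 / (2 * √(σ - t))) * z)) (gaussianReal 0 1) := by
    have h3 : Integrable (fun z : ℝ => y' + (-1 / (2 * √(σ - t))) * z) (gaussianReal 0 1) :=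
      (integrable_const _).add (hzint.const_mul _)
    refine h3.bdd_mul (c := C1) (h.cont1.comp (by fun_prop)).aestronglyMeasurable ?_
    exact Filter.Eventually.of_forall fun z => by
      rw [Real.norm_eq_abs]; exact h1 _
  have key := hasDerivAt_integral_lip (μ := gaussianReal 0 1)
    (F := fun r z => g (y r + √(σ - r) * z))
    (F' := fun z => g' (y t + √(σ - t) * z) * (y' + (-1 / (2 * √(σ - t))) * z))
    (bound := fun z => C1 * (c1 + c2 * |z|)) (x₀ := t)
    (s := {r | ‖y r - y t‖ ≤ c1 * ‖r - t‖} ∩ {r | ‖√(σ - r) - √(σ - t)‖ ≤ c2 * ‖r - t‖})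
    (Filter.inter_mem hc1 hc2)
    (fun r _ => (h.cont.comp (by fun_prop)).aestronglyMeasurable)
    (integrable_heat h.cont.measurable h0 _ _)
    hF'int.aestronglyMeasurable hF'int
    (Filter.Eventually.of_forall fun z r hr => by
      have hlip : ∀ a b : ℝ, |g a - g b| ≤ C1 * |a - b| := by
        intro a b
        have := Convex.norm_image_sub_le_of_norm_hasDerivWithin_le (f := g) (f' := g') (C := C1)
          (s := Set.univ) (x := b) (y := a) (fun x _ => (h.d1 x).hasDerivWithinAt)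
          (fun x _ => h1 x) convex_univ (Set.mem_univ _) (Set.mem_univ _)
        simpa [Real.norm_eq_abs] using this
      rw [Real.norm_eq_abs]
      refine (hlip _ _).trans ?_
      have e1 : y r + √(σ - r) * z - (y t + √(σ - t) * z) =
          (y r - y t) + (√(σ - r) - √(σ - t)) * z := by ring
      rw [e1, mul_assoc]
      refine mul_le_mul_of_nonneg_left ?_ hC1
      refine (abs_add_le _ _).trans ?_
      rw [abs_mul, add_mul]
      have hr1 : |y r - y t| ≤ c1 * ‖r - t‖ := hr.1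
      have hr2 : |√(σ - r) - √(σ - t)| ≤ c2 * ‖r - t‖ := hr.2
      have := mul_le_mul_of_nonneg_right hr2 (abs_nonneg z)
      linarith only [this, hr1])
    (((integrable_const c1).add (hzint.abs.const_mul c2)).const_mul C1)
    (Filter.Eventually.of_forall fun z => by
      exact (h.d1 (y t + √(σ - t) * z)).comp t (hy.add (hsq.mul_const z)))
  have hval : ∫ z, g' (y t + √(σ - t) * z) * (y' + (-1 / (2 * √(σ - t))) * z)
      ∂(gaussianReal 0 1) =
      -(1 / 2) * heat (σ - t) g'' (y t) + heat (σ - t) g' (y t) * y' := by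
    have hst := stein_one (fun z => g' (y t + √(σ - t) * z))
      (fun z => g'' (y t + √(σ - t) * z) * √(σ - t)) (C1 + C2 * √(σ - t))
      (fun z => by
        have := (h.d2 (y t + √(σ - t) * z)).comp z
          (((hasDerivAt_id z).const_mul (√(σ - t))).const_add (y t))
        simpa [Function.comp_def] using this)
      (fun z => by
        have := h1 (y t + √(σ - t) * z)
        have hC2 : 0 ≤ C2 := (abs_nonneg _).trans (h2 0)
        have : 0 ≤ C2 * √(σ - t) := by (clear * - hC2 ht; positivity)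
        linarith)
      (fun z => by
        rw [abs_mul, abs_of_pos hs]
        have := mul_le_mul_of_nonneg_right (h2 (y t + √(σ - t) * z)) hs.le
        linarith)
    have i1 : Integrable (fun z => g' (y t + √(σ - t) * z)) (gaussianReal 0 1) :=
      integrable_heat h.cont1.measurable h1 _ _
    have i2 : Integrable (fun z => z * g' (y t + √(σ - t) * z)) (gaussianReal 0 1) := by
      refine hzint.mul_bdd (c := C1) (h.cont1.comp (by fun_prop)).aestronglyMeasurable ?_
      exact Filter.Eventually.of_forall fun z => by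
        rw [Real.norm_eq_abs]; exact h1 _
    have e1 : ∀ z, g' (y t + √(σ - t) * z) * (y' + (-1 / (2 * √(σ - t))) * z) =
        y' * g' (y t + √(σ - t) * z) +
          (-1 / (2 * √(σ - t))) * (z * g' (y t + √(σ - t) * z)) := by
      intro z; ring
    simp only [e1]
    rw [integral_add (i1.const_mul _) (i2.const_mul _), integral_const_mul, integral_const_mul,
      hst, integral_mul_const]
    unfold heat
    field_simp
    ring
  rw [hval] at key
  exact key

lemma heat_flow {g g' g'' : ℝ → ℝ} (h : CB2 g g' g'') (σ : ℝ) :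
    ∃ C, Flow σ C (fun t x => heat (σ - t) g x) (fun t x => -(1 / 2) * heat (σ - t) g'' x)
      (fun t x => heat (σ - t) g' x) (fun t x => heat (σ - t) g'' x) := by
  obtain ⟨C0, h0⟩ := h.b0
  obtain ⟨C1, h1⟩ := h.b1
  obtain ⟨C2, h2⟩ := h.b2
  have n0 : 0 ≤ C0 := (abs_nonneg _).trans (h0 0)
  have n1 : 0 ≤ C1 := (abs_nonneg _).trans (h1 0)
  have n2 : 0 ≤ C2 := (abs_nonneg _).trans (h2 0)
  refine ⟨C0 + C1 + C2, ⟨?_, ?_, ?_⟩⟩
  · refine ⟨fun t _ => (heat_continuous_x h.cont h0 _).measurable,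
      fun t _ => ((heat_continuous_x h.c2 h2 _).measurable).const_mul _,
      fun t _ => (heat_continuous_x h.cont1 h1 _).measurable,
      fun t _ => (heat_continuous_x h.c2 h2 _).measurable, fun t _ x => ?_, fun t _ x => ?_,
      fun t _ x => ?_, fun t _ x => ?_, fun t ht x x' hx => ?_, fun t _ x => ?_, fun t _ x => ?_⟩
    · have := heat_abs_le h0 (σ - t) x
      linarith
    · have := heat_abs_le h2 (σ - t) x
      rw [abs_mul, abs_neg, abs_of_pos (by norm_num : (0 : ℝ) < 1 / 2)]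
      linarith
    · have := heat_abs_le h1 (σ - t) x
      linarith
    · have := heat_abs_le h2 (σ - t) x
      linarith
    · exact heat_path h ht.2 hx
    · exact heat_hasDerivAt h.d1 h.cont1 h0 h1 _ x
    · exact heat_hasDerivAt h.d2 h.c2 h1 h2 _ x
  · refine Continuous.continuousOn ?_
    exact (heat_continuous h.cont h0).comp
      ((continuous_const.sub continuous_fst).prodMk continuous_snd)
  · intro t _ x
    have := heat_abs_le h0 (σ - t) x
    linarith

lemma Flow.outer {σ C A B : ℝ} {F F' F'' : ℝ → ℝ} {h ht hx hxx : ℝ → ℝ → ℝ}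
    (hf : Flow σ C h ht hx hxx) (hmem : ∀ t ∈ Set.Icc 0 σ, ∀ x, h t x ∈ Set.Icc A B)
    (hF : Outer A B F F' F'') :
    ∃ C', Flow σ C' (fun t x => F (h t x)) (fun t x => F' (h t x) * ht t x)
      (fun t x => F' (h t x) * hx t x)
      (fun t x => F'' (h t x) * hx t x * hx t x + F' (h t x) * hxx t x) := by
  obtain ⟨D, hD0, hD⟩ := hF.bound
  have hn := hf.nice
  have hK : C ≤ |C| := le_abs_self C
  have hK0 : 0 ≤ |C| := abs_nonneg C
  have hmem' : ∀ t ∈ Set.Ioo 0 σ, ∀ x, h t x ∈ Set.Icc A B := fun t ht x =>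
    hmem t ⟨ht.1.le, ht.2.le⟩ x
  have hP : 0 ≤ D * |C| := by positivity
  have hP2 : 0 ≤ D * |C| * |C| := by positivity
  refine ⟨D + D * |C| + D * |C| * |C|, ⟨?_, ?_, ?_⟩⟩
  · refine ⟨fun t ht => hF.m0.comp (hn.m0 t ht),
      fun t ht => (hF.m1.comp (hn.m0 t ht)).mul (hn.mt t ht),
      fun t ht => (hF.m1.comp (hn.m0 t ht)).mul (hn.m1 t ht),
      fun t ht => (((hF.m2.comp (hn.m0 t ht)).mul (hn.m1 t ht)).mul (hn.m1 t ht)).add
        ((hF.m1.comp (hn.m0 t ht)).mul (hn.m2 t ht)),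
      fun t ht x => ?_, fun t ht x => ?_,
      fun t ht x => ?_, fun t ht x => ?_, fun t ht x x' hx' => ?_, fun t ht x => ?_,
      fun t ht x => ?_⟩
    · have := (hD _ (hmem' t ht x)).1
      linarith
    · have := mul_le_mul (hD _ (hmem' t ht x)).2.1 ((hn.bt t ht x).trans hK) (abs_nonneg _) hD0
      rw [abs_mul]
      linarith
    · have := mul_le_mul (hD _ (hmem' t ht x)).2.1 ((hn.b1 t ht x).trans hK) (abs_nonneg _) hD0
      rw [abs_mul]
      linarith
    · have e1 := mul_le_mul (hD _ (hmem' t ht x)).2.1 ((hn.b2 t ht x).trans hK) (abs_nonneg _) hD0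
      have e2 := mul_le_mul (mul_le_mul (hD _ (hmem' t ht x)).2.2 ((hn.b1 t ht x).trans hK)
        (abs_nonneg _) hD0) ((hn.b1 t ht x).trans hK) (abs_nonneg _) hP
      refine (abs_add_le _ _).trans ?_
      rw [abs_mul, abs_mul, abs_mul]
      linarith
    · have e1 := (hF.d1 _ (hmem' t ht (x t))).comp t (hn.path t ht x x' hx')
      refine e1.congr_deriv ?_
      ring
    · exact (hF.d1 _ (hmem' t ht x)).comp x (hn.d1 t ht x)
    · exact ((hF.d2 _ (hmem' t ht x)).comp x (hn.d1 t ht x)).mul (hn.d2 t ht x)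
  · exact hF.c0.comp hf.cont fun p hp => hmem p.1 hp.1 p.2
  · intro t ht x
    have := (hD _ (hmem t ht x)).1
    linarith

lemma Flow.mul {σ C K : ℝ} {h ht hx hxx k kt kx kxx : ℝ → ℝ → ℝ}
    (hf : Flow σ C h ht hx hxx) (kf : Flow σ K k kt kx kxx) :
    ∃ C', Flow σ C' (fun t x => h t x * k t x) (fun t x => ht t x * k t x + h t x * kt t x)
      (fun t x => hx t x * k t x + h t x * kx t x)
      (fun t x => hxx t x * k t x + hx t x * kx t x + (hx t x * kx t x + h t x * kxx t x)) := by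
  have hn := hf.nice
  have kn := kf.nice
  have hC : C ≤ |C| := le_abs_self C
  have hK : K ≤ |K| := le_abs_self K
  have hC0 : 0 ≤ |C| := abs_nonneg C
  have hK0 : 0 ≤ |K| := abs_nonneg K
  have hP : 0 ≤ |C| * |K| := by positivity
  have hm : ∀ {a b : ℝ}, |a| ≤ C → |b| ≤ K → |a * b| ≤ |C| * |K| := by
    intro a b ha hb
    rw [abs_mul]
    exact mul_le_mul (ha.trans hC) (hb.trans hK) (abs_nonneg _) hC0
  refine ⟨4 * (|C| * |K|), ⟨?_, ?_, ?_⟩⟩
  · refine ⟨fun t ht => (hn.m0 t ht).mul (kn.m0 t ht),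
      fun t ht => ((hn.mt t ht).mul (kn.m0 t ht)).add ((hn.m0 t ht).mul (kn.mt t ht)),
      fun t ht => ((hn.m1 t ht).mul (kn.m0 t ht)).add ((hn.m0 t ht).mul (kn.m1 t ht)),
      fun t ht => (((hn.m2 t ht).mul (kn.m0 t ht)).add ((hn.m1 t ht).mul (kn.m1 t ht))).add
        (((hn.m1 t ht).mul (kn.m1 t ht)).add ((hn.m0 t ht).mul (kn.m2 t ht))),
      fun t ht x => ?_, fun t ht x => ?_,
      fun t ht x => ?_, fun t ht x => ?_, fun t ht x x' hx' => ?_, fun t ht x => ?_,
      fun t ht x => ?_⟩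
    · have := hm (hn.b0 t ht x) (kn.b0 t ht x)
      linarith
    · have e1 := hm (hn.bt t ht x) (kn.b0 t ht x)
      have e2 := hm (hn.b0 t ht x) (kn.bt t ht x)
      refine (abs_add_le _ _).trans ?_
      linarith
    · have e1 := hm (hn.b1 t ht x) (kn.b0 t ht x)
      have e2 := hm (hn.b0 t ht x) (kn.b1 t ht x)
      refine (abs_add_le _ _).trans ?_
      linarith
    · have e1 := hm (hn.b2 t ht x) (kn.b0 t ht x)
      have e2 := hm (hn.b1 t ht x) (kn.b1 t ht x)
      have e3 := hm (hn.b0 t ht x) (kn.b2 t ht x)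
      refine (abs_add_le _ _).trans ((add_le_add (abs_add_le _ _) (abs_add_le _ _)).trans ?_)
      linarith
    · have e1 := (hn.path t ht x x' hx').mul (kn.path t ht x x' hx')
      refine e1.congr_deriv ?_
      ring
    · exact (hn.d1 t ht x).mul (kn.d1 t ht x)
    · exact ((hn.d2 t ht x).mul (kn.d1 t ht x)).add ((hn.d1 t ht x).mul (kn.d2 t ht x))
  · exact hf.cont.mul kf.cont
  · intro t ht x
    have := hm (hf.bdd t ht x) (kf.bdd t ht x)
    linarith

/-! ### Bounds -/

lemma pow_mem_Icc {m a b : ℝ} (hm : 0 < m) (ha : 0 < a) {W : ℝ → ℝ} (hWa : ∀ x, a ≤ W x)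
    (hWb : ∀ x, W x ≤ b) (x : ℝ) : W x ^ m ∈ Set.Icc (a ^ m) (b ^ m) :=
  ⟨Real.rpow_le_rpow ha.le (hWa x) hm.le,
    Real.rpow_le_rpow (ha.le.trans (hWa x)) (hWb x) hm.le⟩

lemma heat_mem_Icc {g : ℝ → ℝ} (hg : Measurable g) {A B : ℝ} (h : ∀ x, g x ∈ Set.Icc A B)
    (s x : ℝ) : heat s g x ∈ Set.Icc A B := by
  have hint : Integrable (fun z => g (x + √s * z)) (gaussianReal 0 1) :=
    integrable_heat hg (C := |A| + |B|) (fun y => by
      have h1 := (h y).1
      have h2 := (h y).2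
      rw [abs_le]
      constructor
      · have := neg_abs_le A
        have := abs_nonneg B
        linarith
      · have := le_abs_self B
        have := abs_nonneg A
        linarith) s x
  unfold heat
  constructor
  · calc A = ∫ _z, A ∂(gaussianReal 0 1) := by simp
      _ ≤ _ := integral_mono (integrable_const _) hint fun z => (h _).1
  · calc _ ≤ ∫ _z, B ∂(gaussianReal 0 1) := integral_mono hint (integrable_const _) fun z => (h _).2
      _ = B := by simp

/-- bounds are preserved -/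
theorem flowW_mem {m σ a b t : ℝ} (hm : 0 < m) (ha : 0 < a) {W : ℝ → ℝ} (hWm : Measurable W)
    (hWa : ∀ x, a ≤ W x) (hWb : ∀ x, W x ≤ b) (x : ℝ) :
    a ≤ flowW m σ W t x ∧ flowW m σ W t x ≤ b := by
  have h1 := heat_mem_Icc (g := fun y => W y ^ m) (hWm.pow_const m) (pow_mem_Icc hm ha hWa hWb)
    (σ - t) x
  have hb : 0 < b := ha.trans_le ((hWa 0).trans (hWb 0))
  have ham : 0 < a ^ m := Real.rpow_pos_of_pos ha m
  unfold flowW
  constructor
  · calc a = (a ^ m) ^ (1 / m) := by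
          rw [← Real.rpow_mul ha.le, mul_one_div_cancel hm.ne', Real.rpow_one]
      _ ≤ _ := Real.rpow_le_rpow ham.le h1.1 (by positivity)
  · calc _ ≤ (b ^ m) ^ (1 / m) := Real.rpow_le_rpow (ham.le.trans h1.1) h1.2 (by positivity)
      _ = b := by rw [← Real.rpow_mul hb.le, mul_one_div_cancel hm.ne', Real.rpow_one]

lemma heat_zero (g : ℝ → ℝ) (x : ℝ) : heat 0 g x = g x := by
  unfold heat
  simp

theorem flowW_end {m σ a : ℝ} (hm : 0 < m) (ha : 0 < a) {W : ℝ → ℝ} (hWa : ∀ x, a ≤ W x)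
    (x : ℝ) : flowW m σ W σ x = W x := by
  unfold flowW
  rw [sub_self, heat_zero, ← Real.rpow_mul (ha.le.trans (hWa x)), mul_one_div_cancel hm.ne',
    Real.rpow_one]

theorem flowh_end {m σ a : ℝ} (_hm : 0 < m) (ha : 0 < a) {W h : ℝ → ℝ} (hWa : ∀ x, a ≤ W x)
    (x : ℝ) : flowh m σ W h σ x = h x := by
  unfold flowh
  rw [sub_self, heat_zero, heat_zero]
  have : W x ^ m ≠ 0 := (Real.rpow_pos_of_pos (ha.trans_le (hWa x)) m).ne'
  field_simp

theorem flowh_one {m σ t a b : ℝ} (hm : 0 < m) (ha : 0 < a) {W : ℝ → ℝ} (hWm : Measurable W)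
    (hWa : ∀ x, a ≤ W x) (hWb : ∀ x, W x ≤ b) (x : ℝ) : flowh m σ W (fun _ => 1) t x = 1 := by
  have h1 := heat_mem_Icc (g := fun y => W y ^ m) (hWm.pow_const m) (pow_mem_Icc hm ha hWa hWb)
    (σ - t) x
  have ham : 0 < a ^ m := Real.rpow_pos_of_pos ha m
  unfold flowh
  simp only [one_mul]
  exact div_self (ham.trans_le h1.1).ne'

/-! ### Regularity -/

lemma CB2.rpow {m a b : ℝ} (ha : 0 < a) {W W' W'' : ℝ → ℝ}
    (hW : CB2 W W' W'') (hWa : ∀ x, a ≤ W x) (hWb : ∀ x, W x ≤ b) :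
    ∃ g' g'', CB2 (fun y => W y ^ m) g' g'' :=
  ⟨_, _, hW.outer (fun x => ⟨hWa x, hWb x⟩) (outer_rpow ha m)⟩

lemma CB2.heat {g g' g'' : ℝ → ℝ} (h : CB2 g g' g'') (s : ℝ) :
    CB2 (heat s g) (Par.heat s g') (Par.heat s g'') := by
  obtain ⟨C0, h0⟩ := h.b0
  obtain ⟨C1, h1⟩ := h.b1
  obtain ⟨C2, h2⟩ := h.b2
  exact ⟨fun x => heat_hasDerivAt h.d1 h.cont1 h0 h1 _ x,
    fun x => heat_hasDerivAt h.d2 h.c2 h1 h2 _ x, heat_continuous_x h.c2 h2 _,
    ⟨C0, heat_abs_le h0 s⟩, ⟨C1, heat_abs_le h1 s⟩, ⟨C2, heat_abs_le h2 s⟩⟩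

/-- Regularity is preserved. -/
theorem flowW_cb2 {m σ a b t : ℝ} (hm : 0 < m) (ha : 0 < a) {W W' W'' : ℝ → ℝ}
    (hW : CB2 W W' W'') (hWa : ∀ x, a ≤ W x) (hWb : ∀ x, W x ≤ b) :
    ∃ V' V'', CB2 (flowW m σ W t) V' V'' := by
  obtain ⟨g', g'', hg⟩ := hW.rpow (m := m) ha hWa hWb
  have hmem : ∀ x, heat (σ - t) (fun y => W y ^ m) x ∈ Set.Icc (a ^ m) (b ^ m) :=
    heat_mem_Icc hg.cont.measurable (pow_mem_Icc hm ha hWa hWb) (σ - t)
  exact ⟨_, _, (hg.heat (σ - t)).outer hmem (outer_rpow (Real.rpow_pos_of_pos ha m) (1 / m))⟩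

theorem flowh_cb2 {m σ a b t : ℝ} (hm : 0 < m) (ha : 0 < a) {W W' W'' h h' h'' : ℝ → ℝ}
    (hW : CB2 W W' W'') (hWa : ∀ x, a ≤ W x) (hWb : ∀ x, W x ≤ b) (hh : CB2 h h' h'') :
    ∃ g' g'', CB2 (flowh m σ W h t) g' g'' := by
  obtain ⟨g', g'', hg⟩ := hW.rpow (m := m) ha hWa hWb
  have hmem : ∀ x, heat (σ - t) (fun y => W y ^ m) x ∈ Set.Icc (a ^ m) (b ^ m) :=
    heat_mem_Icc hg.cont.measurable (pow_mem_Icc hm ha hWa hWb) (σ - t)
  have h1 := ((hh.mul hg).heat (σ - t)).mul
    ((hg.heat (σ - t)).outer hmem (outer_inv (Real.rpow_pos_of_pos ha m)))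
  exact ⟨_, _, h1⟩

/-- Jensen -/
theorem flowh_sq {m σ a b t : ℝ} (hm : 0 < m) (ha : 0 < a) {W h : ℝ → ℝ} (hWm : Measurable W)
    (hWa : ∀ x, a ≤ W x) (hWb : ∀ x, W x ≤ b) (hhm : Measurable h) {C : ℝ} (hC : ∀ x, |h x| ≤ C)
    (x : ℝ) : flowh m σ W h t x ^ 2 ≤ flowh m σ W (fun y => h y ^ 2) t x := by
  have hC0 : 0 ≤ C := (abs_nonneg _).trans (hC 0)
  have hpow := pow_mem_Icc hm ha hWa hWb
  have hgm : Measurable fun y => W y ^ m := hWm.pow_const m
  have h1 := heat_mem_Icc (g := fun y => W y ^ m) hgm hpow (σ - t) x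
  have ham : 0 < a ^ m := Real.rpow_pos_of_pos ha m
  have hbW : ∀ y, |W y ^ m| ≤ b ^ m := fun y => by
    rw [abs_of_pos (ham.trans_le (hpow y).1)]
    exact (hpow y).2
  have i0 : Integrable (fun z => W (x + √(σ - t) * z) ^ m) (gaussianReal 0 1) :=
    integrable_heat hgm hbW _ _
  have i1 : Integrable (fun z => h (x + √(σ - t) * z) * W (x + √(σ - t) * z) ^ m)
      (gaussianReal 0 1) :=
    integrable_heat (g := fun y => h y * W y ^ m) (hhm.mul hgm) (C := C * b ^ m) (fun y => by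
      rw [abs_mul]
      exact mul_le_mul (hC y) (hbW y) (abs_nonneg _) hC0) _ _
  have i2 : Integrable (fun z => h (x + √(σ - t) * z) ^ 2 * W (x + √(σ - t) * z) ^ m)
      (gaussianReal 0 1) :=
    integrable_heat (g := fun y => h y ^ 2 * W y ^ m) ((hhm.pow_const 2).mul hgm)
      (C := C ^ 2 * b ^ m) (fun y => by
      rw [abs_mul, abs_pow]
      exact mul_le_mul (pow_le_pow_left₀ (abs_nonneg _) (hC y) 2) (hbW y) (abs_nonneg _)
        (by positivity)) _ _
  unfold flowh
  have hD : 0 < heat (σ - t) (fun y => W y ^ m) x := ham.trans_le h1.1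
  set D := heat (σ - t) (fun y => W y ^ m) x with hDdef
  set N1 := heat (σ - t) (fun y => h y * W y ^ m) x with hN1
  set N2 := heat (σ - t) (fun y => h y ^ 2 * W y ^ m) x with hN2
  have hkey : 0 ≤ N2 - 2 * (N1 / D) * N1 + (N1 / D) ^ 2 * D := by
    have e1 : N2 - 2 * (N1 / D) * N1 + (N1 / D) ^ 2 * D =
        ∫ z, (h (x + √(σ - t) * z) - N1 / D) ^ 2 * W (x + √(σ - t) * z) ^ m
          ∂(gaussianReal 0 1) := by
      have e2 : ∀ z, (h (x + √(σ - t) * z) - N1 / D) ^ 2 * W (x + √(σ - t) * z) ^ m =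
          (h (x + √(σ - t) * z) ^ 2 * W (x + √(σ - t) * z) ^ m -
            2 * (N1 / D) * (h (x + √(σ - t) * z) * W (x + √(σ - t) * z) ^ m)) +
            (N1 / D) ^ 2 * W (x + √(σ - t) * z) ^ m := by
        intro z; ring
      simp only [e2]
      have i3 : Integrable (fun z => h (x + √(σ - t) * z) ^ 2 * W (x + √(σ - t) * z) ^ m -
            2 * (N1 / D) * (h (x + √(σ - t) * z) * W (x + √(σ - t) * z) ^ m))
          (gaussianReal 0 1) := i2.sub (i1.const_mul _)
      rw [integral_add i3 (i0.const_mul _),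
        integral_sub i2 (i1.const_mul _), integral_const_mul, integral_const_mul]
      rfl
    rw [e1]
    refine integral_nonneg fun z => ?_
    have := (ham.trans_le (hpow (x + √(σ - t) * z)).1).le
    (clear * - this; positivity)
  have e3 : N2 - 2 * (N1 / D) * N1 + (N1 / D) ^ 2 * D = N2 - N1 ^ 2 / D := by
    field_simp
    ring
  rw [e3] at hkey
  rw [div_pow, div_le_div_iff₀ (by positivity) hD]
  have e4 : N1 ^ 2 / D ≤ N2 := by linarith only [hkey]
  rw [div_le_iff₀ hD] at e4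
  (by_contra nlg; linarith only [nlg, mul_pos (sub_pos.2 (not_le.1 nlg)) (sub_pos.2 hD), mul_nonneg (sq_nonneg (D : ℝ)) (sub_nonneg.2 e4)])

/-! ### The equations -/

/-- The main statement. -/
theorem flow_exists {m σ a b : ℝ} (hm : 0 < m) (_hσ : 0 < σ) (ha : 0 < a) {W W' W'' : ℝ → ℝ}
    (hW : CB2 W W' W'') (hWa : ∀ x, a ≤ W x) (hWb : ∀ x, W x ≤ b) :
    ∃ C : ℝ, ∃ Wt Wx Wxx : ℝ → ℝ → ℝ, Flow σ C (flowW m σ W) Wt Wx Wxx ∧
      (∀ t ∈ Set.Ioo 0 σ, ∀ x, LL Wt Wxx t x = 1 / 2 * (1 - m) * Wx t x ^ 2 / flowW m σ W t x) ∧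
      ∀ {h h' h'' : ℝ → ℝ}, CB2 h h' h'' → ∃ C' : ℝ, ∃ ht hx hxx : ℝ → ℝ → ℝ,
        Flow σ C' (flowh m σ W h) ht hx hxx ∧
        ∀ t ∈ Set.Ioo 0 σ, ∀ x,
          LL ht hxx t x = - m * (Wx t x / flowW m σ W t x) * hx t x := by
  obtain ⟨g', g'', hg⟩ := hW.rpow (m := m) ha hWa hWb
  have ham : 0 < a ^ m := Real.rpow_pos_of_pos ha m
  have hmem : ∀ t x, heat (σ - t) (fun y => W y ^ m) x ∈ Set.Icc (a ^ m) (b ^ m) := fun t x =>
    heat_mem_Icc hg.cont.measurable (pow_mem_Icc hm ha hWa hWb) (σ - t) x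
  obtain ⟨C0, hu⟩ := heat_flow hg σ
  obtain ⟨C1, hU⟩ := hu.outer (fun t _ x => hmem t x) (outer_rpow ham (1 / m))
  obtain ⟨C2, hV⟩ := hu.outer (fun t _ x => hmem t x) (outer_inv ham)
  refine ⟨C1, _, _, _, hU, ?_, ?_⟩
  · intro t _ x
    have hu0 : 0 < heat (σ - t) (fun y => W y ^ m) x := ham.trans_le (hmem t x).1
    unfold LL flowW
    beta_reduce
    set u := heat (σ - t) (fun y => W y ^ m) x with hudef
    simp only [Real.rpow_sub_one hu0.ne']
    have hP : 0 < u ^ (1 / m) := Real.rpow_pos_of_pos hu0 _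
    set P := u ^ (1 / m) with hPdef
    field_simp
    ring
  · intro h h' h'' hh
    obtain ⟨C3, hN⟩ := heat_flow (hh.mul hg) σ
    obtain ⟨C4, hH⟩ := hN.mul hV
    refine ⟨C4, _, _, _, hH, ?_⟩
    intro t _ x
    have hu0 : 0 < heat (σ - t) (fun y => W y ^ m) x := ham.trans_le (hmem t x).1
    unfold LL flowW
    beta_reduce
    set u := heat (σ - t) (fun y => W y ^ m) x with hudef
    rw [Real.rpow_sub_one hu0.ne']
    have hP : 0 < u ^ (1 / m) := Real.rpow_pos_of_pos hu0 _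
    set P := u ^ (1 / m) with hPdef
    field_simp
    ring

end Vale.Agent.P157.Par
end

section

open MeasureTheory ProbabilityTheory Filter Topology Finset

namespace Vale.Agent.P157.Par

set_option linter.unusedSectionVars false

namespace Arr

variable {k : ℕ} {w : Fin (k + 1) → ℝ} {δ : Type} [Fintype δ] [DecidableEq δ]

lemma slice_continuous {S : Set ℝ} {f : ℝ → ℝ → ℝ}
    (hf : ContinuousOn (fun p : ℝ × ℝ => f p.1 p.2) (S ×ˢ Set.univ)) {t : ℝ} (ht : t ∈ S) :
    Continuous (f t) := by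
  rw [← continuousOn_univ]
  exact hf.comp (f := fun x : ℝ => (t, x)) (by fun_prop) fun x _ => ⟨ht, trivial⟩

lemma T_continuousOn (𝓐 : Arr k w δ) (c : Fin (k + 1) → ℝ) (l : Fin (k + 1))
    (χ : LM k δ → ℝ) {S : Set ℝ} {C : ℝ} {A : δ → ℝ → ℝ → ℝ} {v : ℝ → ℝ → ℝ}
    (hA : ∀ i, ContinuousOn (fun p : ℝ × ℝ => A i p.1 p.2) (S ×ˢ Set.univ))
    (hv : ContinuousOn (fun p : ℝ × ℝ => v p.1 p.2) (S ×ˢ Set.univ))
    (bA : ∀ i, ∀ t ∈ S, ∀ x, |A i t x| ≤ C) (bv : ∀ t ∈ S, ∀ x, |v t x| ≤ C) (n : ℕ) :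
    ContinuousOn (fun s => 𝓐.T (Function.update c l s) χ (fun i => A i s) (v s) (Fin n)) S := by
  unfold T
  apply 𝓐.E_continuousOn
  intro L
  apply ContinuousOn.mul continuousOn_const
  have h := gE_continuousOn (S := S) (U := fun s => UL (Function.update c l s) L)
    (h := (famT A v : δ ⊕ Fin n → ℝ → ℝ → ℝ)) (C := C) ?_ ?_ ?_ ?_
  · simp only [famT_apply] at h
    exact h
  · intro a p
    unfold UL
    by_cases h : p.2 = cl L p.1 a
    · simp only [h, if_true]
      by_cases h' : p.1 = l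
      · subst h'
        simp only [Function.update_self]
        exact Real.continuous_sqrt.continuousOn
      · simp only [Function.update_of_ne h']
        exact continuousOn_const
    · simp only [h, if_false]
      exact continuousOn_const
  · rintro (i | j)
    · exact hA i
    · exact hv
  · rintro (i | j) t ht
    · exact (slice_continuous (hA i) ht).measurable
    · exact (slice_continuous hv ht).measurable
  · rintro (i | j) t ht x
    · exact bA i t ht x
    · exact bv t ht x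

lemma Q_continuousOn (𝓐 : Arr k w δ) (e : ℕ) (c : Fin (k + 1) → ℝ) (l : Fin (k + 1))
    (χ : LM k δ → ℝ) {S : Set ℝ} {C a : ℝ} {A : δ → ℝ → ℝ → ℝ} {v : ℝ → ℝ → ℝ}
    (hA : ∀ i, ContinuousOn (fun p : ℝ × ℝ => A i p.1 p.2) (S ×ˢ Set.univ))
    (hv : ContinuousOn (fun p : ℝ × ℝ => v p.1 p.2) (S ×ˢ Set.univ))
    (bA : ∀ i, ∀ t ∈ S, ∀ x, |A i t x| ≤ C) (ha0 : 0 ≤ a) (ha : a < 1)
    (bv : ∀ t ∈ S, ∀ x, |v t x| ≤ a) :
    ContinuousOn (fun s => 𝓐.Q e (Function.update c l s) χ (fun i => A i s) (v s)) S := by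
  obtain ⟨X, hX0, hX⟩ := exists_abs_bound χ
  have h1 : Summable fun n : ℕ => ((n + e).choose e : ℝ) * a ^ n :=
    summable_choose_mul_geometric_of_norm_lt_one e (by rwa [Real.norm_eq_abs, abs_of_nonneg ha0])
  unfold Q
  apply continuousOn_tsum (u := fun n : ℕ => (𝓐.C * X * |C| ^ Fintype.card δ) *
    (((n + e).choose e : ℝ) * a ^ n))
  · intro n
    apply ContinuousOn.mul continuousOn_const
    exact 𝓐.T_continuousOn c l χ (C := max |C| a) hA hv
      (fun i t ht x => ((bA i t ht x).trans (le_abs_self C)).trans (le_max_left _ _))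
      (fun t ht x => (bv t ht x).trans (le_max_right _ _)) n
  · exact h1.mul_left _
  · intro n s hs
    rw [norm_mul, Real.norm_eq_abs, Real.norm_eq_abs, abs_of_nonneg (by positivity)]
    have h2 := 𝓐.T_le (Function.update c l s) hX (A := fun i => A i s) (v := v s)
      (fun i x => (bA i s hs x).trans (le_abs_self C)) (bv s hs) n
    calc ((n + e).choose e : ℝ) * _ ≤ ((n + e).choose e : ℝ) *
          (𝓐.C * X * |C| ^ Fintype.card δ * a ^ n) := mul_le_mul_of_nonneg_left h2 (by positivity)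
      _ = _ := by ring

/-- Collapse of the level `l` for functionals with special indices. -/
theorem Q_collapse (𝓐 : Arr k w δ) {e : ℕ} (he : Fintype.card δ = e + 1)
    {c : Fin (k + 1) → ℝ} (hc : ∀ l, 0 ≤ c l) {l : Fin (k + 1)}
    (hcl : ∀ l', l < l' → c l' = 0) (hm : up w l < 1) (χ : LM k δ → ℝ)
    {a : ℝ} (ha : 0 < a) {W W' W'' : ℝ → ℝ} (hW : CB2 W W' W'') (hWa : ∀ x, a ≤ W x)
    (hW1 : ∀ x, W x ≤ 1) {h h' h'' : δ → ℝ → ℝ} (hh : ∀ i, CB2 (h i) (h' i) (h'' i))
    (cons : ∀ i j, i ≠ j → (∀ L, Ultra L → χ L * lk l i j L = 0) ∨ (h i = fun _ => 1) ∨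
      (h j = fun _ => 1)) :
    𝓐.Q e c χ (fun i x => h i x * W x) (fun x => 1 - W x) =
      𝓐.Q e (Function.update c l 0) χ
        (fun i x => flowh (1 - up w l) (c l) W (h i) 0 x * flowW (1 - up w l) (c l) W 0 x)
        (fun x => 1 - flowW (1 - up w l) (c l) W 0 x) := by
  have hm0 : 0 < 1 - up w l := by linarith
  rcases (hc l).eq_or_lt with h0 | hσ
  · have e1 : Function.update c l 0 = c := by rw [h0, Function.update_eq_self]
    have e2 : ∀ x, flowW (1 - up w l) (c l) W 0 x = W x := by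
      intro x
      rw [← h0]
      exact flowW_end hm0 ha hWa x
    have e3 : ∀ i x, flowh (1 - up w l) (c l) W (h i) 0 x = h i x := by
      intro i x
      rw [← h0]
      exact flowh_end hm0 ha hWa x
    simp only [e1, e2, e3]
  set m := 1 - up w l with hmdef
  set σ := c l with hσdef
  obtain ⟨C0, Wt, Wx, Wxx, fW, pW, hrest⟩ := flow_exists hm0 hσ ha hW hWa hW1
  have hex : ∀ i, ∃ C' : ℝ, ∃ ht hx hxx : ℝ → ℝ → ℝ, Flow σ C' (flowh m σ W (h i)) ht hx hxx ∧
        ∀ t ∈ Set.Ioo 0 σ, ∀ x,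
          LL ht hxx t x = - m * (Wx t x / flowW m σ W t x) * hx t x := fun i => hrest (hh i)
  choose C1 ht hx hxx fh ph using hex
  obtain ⟨C2, hC2⟩ : ∃ C2 : ℝ, ∀ i, C1 i ≤ C2 :=
    ⟨∑ i, |C1 i|, fun i => (le_abs_self _).trans
      (Finset.single_le_sum (f := fun i => |C1 i|) (fun _ _ => abs_nonneg _) (Finset.mem_univ i))⟩
  have hWm : Measurable W := hW.cont.measurable
  have hmem : ∀ t x, a ≤ flowW m σ W t x ∧ flowW m σ W t x ≤ 1 := fun t x =>
    flowW_mem hm0 ha hWm hWa hW1 x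
  have hb : ∀ t x, |1 - flowW m σ W t x| ≤ 1 - a := by
    intro t x
    obtain ⟨h1, h2⟩ := hmem t x
    rw [abs_of_nonneg (by linarith)]
    linarith
  have ha1 : a ≤ 1 := (hWa 0).trans (hW1 0)
  have hone : ∀ i, (h i = fun _ => 1) → ∀ t x, flowh m σ W (h i) t x = 1 := by
    intro i hi t x
    rw [hi]
    exact flowh_one hm0 ha hWm hWa hW1 x
  have hone' : ∀ i, (h i = fun _ => 1) → ∀ t ∈ Set.Ioo 0 σ, ∀ x, hx i t x = 0 := by
    intro i hi t ht' x
    have h1 := (fh i).nice.d1 t ht' x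
    have h2 : flowh m σ W (h i) t = fun _ => 1 := funext fun x => hone i hi t x
    rw [h2] at h1
    exact h1.unique (hasDerivAt_const x 1)
  set G : ℝ → ℝ := fun t => 𝓐.Q e (Function.update c l t) χ
    (fun i x => flowh m σ W (h i) t x * flowW m σ W t x) (fun x => 1 - flowW m σ W t x) with hG
  set CC : ℝ := max C0 C2 with hCC
  have fh' : ∀ i, Nice (Set.Ioo 0 σ) CC (flowh m σ W (h i)) (ht i) (hx i) (hxx i) := fun i =>
    (fh i).nice.mono ((hC2 i).trans (le_max_right _ _))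
  have fW' : Nice (Set.Ioo 0 σ) CC (flowW m σ W) Wt Wx Wxx := fW.nice.mono (le_max_left _ _)
  -- derivative
  have hderiv : ∀ t ∈ Set.Ioo 0 σ, HasDerivAt G 0 t := by
    intro t ht'
    have hA := fun i => (nice_mul (fh' i) fW').mono (le_max_left (4 * CC ^ 2) (1 + CC))
    have hv := (nice_one_sub fW').mono (le_max_right (4 * CC ^ 2) (1 + CC))
    have h1 := 𝓐.Q_hasDerivAt e hc l χ hA hv (by linarith : 0 ≤ 1 - a) (by linarith)
      (fun t _ x => hb t x) ht'
    refine h1.congr_deriv ?_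
    have hct : ∀ l', 0 ≤ Function.update c l t l' := by
      intro l'
      by_cases h : l' = l
      · subst h; rw [Function.update_self]; exact ht'.1.le
      · rw [Function.update_of_ne h]; exact hc l'
    have hclt : ∀ l', l < l' → Function.update c l t l' = 0 := by
      intro l' hl'
      rw [Function.update_of_ne hl'.ne']
      exact hcl l' hl'
    have bW : BM (flowW m σ W t) := ⟨fW'.m0 t ht', CC, fW'.b0 t ht'⟩
    have bWt : BM (Wt t) := ⟨fW'.mt t ht', CC, fW'.bt t ht'⟩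
    have bWx : BM (Wx t) := ⟨fW'.m1 t ht', CC, fW'.b1 t ht'⟩
    have bWxx : BM (Wxx t) := ⟨fW'.m2 t ht', CC, fW'.b2 t ht'⟩
    have bh : ∀ i, BM (flowh m σ W (h i) t) := fun i =>
      ⟨(fh' i).m0 t ht', CC, (fh' i).b0 t ht'⟩
    have bht : ∀ i, BM (ht i t) := fun i => ⟨(fh' i).mt t ht', CC, (fh' i).bt t ht'⟩
    have bhx : ∀ i, BM (hx i t) := fun i => ⟨(fh' i).m1 t ht', CC, (fh' i).b1 t ht'⟩
    have bhxx : ∀ i, BM (hxx i t) := fun i => ⟨(fh' i).m2 t ht', CC, (fh' i).b2 t ht'⟩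
    have hWne : ∀ x, flowW m σ W t x ≠ 0 := fun x => (ha.trans_le (hmem t x).1).ne'
    have hu : up w l = 1 - m := by rw [hmdef]; ring
    -- identification of the space-time operator
    have eLv : LL (fun t x => -Wt t x) (fun t x => -Wxx t x) t =
        fun x => -(1 / 2 * up w l * (Wx t x ^ 2 / flowW m σ W t x)) := by
      funext x
      have := pW t ht' x
      unfold LL at this ⊢
      rw [hu]
      linear_combination -this
    have eLA : ∀ i, LL (fun t x => ht i t x * flowW m σ W t x +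
        flowh m σ W (h i) t x * Wt t x) (fun t x => hxx i t x * flowW m σ W t x +
          2 * (hx i t x * Wx t x) + flowh m σ W (h i) t x * Wxx t x) t =
        fun x => up w l * ((hx i t x * flowW m σ W t x + flowh m σ W (h i) t x * Wx t x) *
          (Wx t x / flowW m σ W t x)) - 1 / 2 * (up w l *
          (flowh m σ W (h i) t x * flowW m σ W t x * (Wx t x ^ 2 / flowW m σ W t x ^ 2))) := by
      intro i
      funext x
      have h1 := pW t ht' x
      have h2 := ph i t ht' x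
      have h3 := hWne x
      unfold LL at h1 h2 ⊢
      beta_reduce
      rw [hu]
      have h4 : ht i t x = -m * (Wx t x / flowW m σ W t x) * hx i t x - 1 / 2 * hxx i t x := by
        linarith
      have h5 : Wt t x = 1 / 2 * (1 - m) * Wx t x ^ 2 / flowW m σ W t x - 1 / 2 * Wxx t x := by
        linarith
      rw [h4, h5]
      field_simp
      ring
    rw [𝓐.tsum_dT e l _ χ (fun i => (bh i).mul bW) _ _ _ _ (by linarith only [ha1] : 0 ≤ 1 - a)
      (by linarith only [ha]) (fun x => hb t x)]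
    · simp only [eLv, eLA]
      exact 𝓐.conservation e χ he hct hclt (by linarith only [ha1] : 0 ≤ 1 - a) (by linarith) bW.meas
        (fun x => hb t x) bWx (fun i => (bh i).mul bW)
        (fun i => ((bhx i).mul bW).add ((bh i).mul bWx))
        (fun i x => rfl) (fun i j hij => by
          rcases cons i j hij with h1 | h1 | h1
          · exact Or.inl h1
          · right
            intro x
            have h2 := hone' i h1 t ht' x
            have h3 := hWne x
            rw [h2]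
            field_simp
            ring
          · right
            intro x
            have h2 := hone' j h1 t ht' x
            have h3 := hWne x
            rw [h2]
            field_simp
            ring)
    · intro i
      exact (((bht i).mul bW).add ((bh i).mul bWt)).add ((BM.const (1 / 2)).mul
        ((((bhxx i).mul bW).add ((BM.const 2).mul ((bhx i).mul bWx))).add ((bh i).mul bWxx)))
    · intro i
      exact ((bhx i).mul bW).add ((bh i).mul bWx)
    · exact bWt.neg.add ((BM.const (1 / 2)).mul bWxx.neg)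
    · exact bWx.neg
  have hcont : ContinuousOn G (Set.Icc 0 σ) := by
    apply 𝓐.Q_continuousOn e c l χ (C := CC ^ 2) (a := 1 - a)
      (A := fun i t x => flowh m σ W (h i) t x * flowW m σ W t x)
      (v := fun t x => 1 - flowW m σ W t x)
    · intro i
      exact (fh i).cont.mul fW.cont
    · exact continuousOn_const.sub fW.cont
    · intro i t ht' x
      rw [abs_mul, sq]
      have h1 := ((fh i).bdd t ht' x).trans ((hC2 i).trans (le_max_right C0 C2))
      have h2 := (fW.bdd t ht' x).trans (le_max_left C0 C2)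
      exact mul_le_mul h1 h2 (abs_nonneg _) ((abs_nonneg _).trans h1)
    · linarith
    · linarith
    · intro t _ x
      exact hb t x
  obtain ⟨t, ht', hslope⟩ := exists_hasDerivAt_eq_slope G (fun _ => 0) hσ hcont hderiv
  have hfin : G σ = G 0 := by
    have hne : σ - 0 ≠ 0 := by linarith
    have := hslope.symm
    rw [div_eq_zero_iff] at this
    rcases this with h1 | h1
    · linarith
    · exact absurd h1 hne
  have hGσ : G σ = 𝓐.Q e c χ (fun i x => h i x * W x) (fun x => 1 - W x) := by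
    simp only [hG]
    have e1 : Function.update c l σ = c := by rw [hσdef, Function.update_eq_self]
    have e2 : ∀ x, flowW m σ W σ x = W x := fun x => flowW_end hm0 ha hWa x
    have e3 : ∀ i x, flowh m σ W (h i) σ x = h i x := fun i x => flowh_end hm0 ha hWa x
    simp only [e1, e2, e3]
  rw [← hGσ, hfin]

end Arr

end Vale.Agent.P157.Par
end

section

open MeasureTheory ProbabilityTheory Filter Topology Finset

namespace Vale.Agent.P157.Par

set_option linter.unusedSectionVars false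

/-- The empty family. -/
def noA : Empty → ℝ → ℝ := fun i => i.elim

namespace Arr

variable {k : ℕ} {w : Fin (k + 1) → ℝ}

/-- The logarithm series: `-E log ⟨1 - v⟩ = ∑ E ⟨v⟩^n / n`. -/
noncomputable def Lg (𝓐 : Arr k w Empty) (c : Fin (k + 1) → ℝ) (v : ℝ → ℝ) : ℝ :=
  ∑' n : ℕ, 1 / ((n : ℝ) + 1) * 𝓐.T c (fun _ => 1) noA v (Fin (n + 1))

lemma abs_one_le {X : ℝ} (hX : 1 ≤ X) (L : LM k Empty) : |(fun _ : LM k Empty => (1 : ℝ)) L| ≤ X := by
  simpa using hX

lemma T_empty_le (𝓐 : Arr k w Empty) (c : Fin (k + 1) → ℝ) {v : ℝ → ℝ} {a : ℝ}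
    (hv : ∀ x, |v x| ≤ a) (n : ℕ) :
    |𝓐.T c (fun _ => 1) noA v (Fin n)| ≤ 𝓐.C * a ^ n := by
  have h := 𝓐.T_le c (χ := fun _ => 1) (X := 1) (fun _ => by simp) (A := noA) (C := 1)
    (fun i => i.elim) hv n
  simpa using h

lemma Lg_summable (𝓐 : Arr k w Empty) (c : Fin (k + 1) → ℝ) {v : ℝ → ℝ} {a : ℝ}
    (ha0 : 0 ≤ a) (ha : a < 1) (hv : ∀ x, |v x| ≤ a) :
    Summable fun n : ℕ => 1 / ((n : ℝ) + 1) * 𝓐.T c (fun _ => 1) noA v (Fin (n + 1)) := by
  have h1 : Summable fun n : ℕ => a ^ n := summable_geometric_of_lt_one ha0 ha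
  refine Summable.of_norm_bounded (h1.mul_left 𝓐.C) fun n => ?_
  rw [norm_mul, Real.norm_eq_abs, Real.norm_eq_abs, abs_of_nonneg (by positivity)]
  have h2 := 𝓐.T_empty_le c hv (n + 1)
  have h3 : 1 / ((n : ℝ) + 1) ≤ 1 := by
    rw [div_le_one (by positivity)]; linarith [Nat.cast_nonneg (α := ℝ) n]
  have hC := 𝓐.C_nonneg
  calc 1 / ((n : ℝ) + 1) * |𝓐.T c (fun _ => 1) noA v (Fin (n + 1))| ≤
      1 * (𝓐.C * a ^ (n + 1)) := mul_le_mul h3 h2 (abs_nonneg _) zero_le_one
    _ = 𝓐.C * a ^ n * a := by ring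
    _ ≤ 𝓐.C * a ^ n * 1 := by gcongr
    _ = 𝓐.C * a ^ n := mul_one _

lemma Lg_continuousOn (𝓐 : Arr k w Empty) (c : Fin (k + 1) → ℝ) (l : Fin (k + 1))
    {S : Set ℝ} {a : ℝ} {v : ℝ → ℝ → ℝ}
    (hv : ContinuousOn (fun p : ℝ × ℝ => v p.1 p.2) (S ×ˢ Set.univ))
    (ha0 : 0 ≤ a) (ha : a < 1) (bv : ∀ t ∈ S, ∀ x, |v t x| ≤ a) :
    ContinuousOn (fun s => 𝓐.Lg (Function.update c l s) (v s)) S := by
  have h1 : Summable fun n : ℕ => a ^ n := summable_geometric_of_lt_one ha0 ha
  unfold Lg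
  apply continuousOn_tsum (u := fun n : ℕ => 𝓐.C * a ^ n)
  · intro n
    apply ContinuousOn.mul continuousOn_const
    exact 𝓐.T_continuousOn c l (fun _ => 1) (C := a) (A := fun i _ => noA i) (v := v)
      (fun i => i.elim) hv (fun i => i.elim) bv (n + 1)
  · exact h1.mul_left _
  · intro n s hs
    rw [norm_mul, Real.norm_eq_abs, Real.norm_eq_abs, abs_of_nonneg (by positivity)]
    have h2 := 𝓐.T_empty_le (Function.update c l s) (bv s hs) (n + 1)
    have h3 : 1 / ((n : ℝ) + 1) ≤ 1 := by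
      rw [div_le_one (by positivity)]; linarith [Nat.cast_nonneg (α := ℝ) n]
    have hC := 𝓐.C_nonneg
    calc 1 / ((n : ℝ) + 1) * |𝓐.T (Function.update c l s) (fun _ => 1) noA (v s) (Fin (n + 1))| ≤
        1 * (𝓐.C * a ^ (n + 1)) := mul_le_mul h3 h2 (abs_nonneg _) zero_le_one
      _ = 𝓐.C * a ^ n * a := by ring
      _ ≤ 𝓐.C * a ^ n * 1 := by gcongr
      _ = 𝓐.C * a ^ n := mul_one _

/-- The derivative of the logarithm series. -/
theorem Lg_hasDerivAt (𝓐 : Arr k w Empty) {c : Fin (k + 1) → ℝ}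
    (hc : ∀ l, 0 ≤ c l) (l : Fin (k + 1)) {σ C a : ℝ} {v vt vx vxx : ℝ → ℝ → ℝ}
    (hv : Nice (Set.Ioo 0 σ) C v vt vx vxx) (ha0 : 0 ≤ a) (ha : a < 1)
    (hva : ∀ t ∈ Set.Ioo 0 σ, ∀ x, |v t x| ≤ a) {t : ℝ} (ht : t ∈ Set.Ioo 0 σ) :
    HasDerivAt (fun s => 𝓐.Lg (Function.update c l s) (v s))
      (𝓐.mark.Q 0 (Function.update c l t) (fun _ => 1) (ext (LL vt vxx t) noA) (v t) +
        1 / 2 * 𝓐.mark.mark.Q 1 (Function.update c l t)
          (fun L => lift (lift fun _ => 1) L * lk l (some none) none L)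
          (ext (vx t) (ext (vx t) noA)) (v t)) t := by
  set b := max a (1 / 2) with hb
  have hb0 : 0 < b := lt_of_lt_of_le (by norm_num) (le_max_right _ _)
  have hb1 : b < 1 := max_lt ha (by norm_num)
  set C' := max 1 (2 * |C|) with hC'
  have hC1 : 1 ≤ C' := le_max_left _ _
  have hCC : |C| ≤ C' := (by linarith only [abs_nonneg C] : |C| ≤ 2 * |C|).trans (le_max_right _ _)
  have hCC0 : C ≤ C' := (le_abs_self C).trans hCC
  have hLL : ∀ t ∈ Set.Ioo 0 σ, ∀ x, |LL vt vxx t x| ≤ C' := by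
    intro t ht' x
    unfold LL
    have h1 := hv.bt t ht' x
    have h2 := hv.b2 t ht' x
    have h3 := abs_add_le (vt t x) (1 / 2 * vxx t x)
    rw [abs_mul, abs_of_pos (by norm_num : (0:ℝ) < 1 / 2)] at h3
    have h4 : 2 * |C| ≤ C' := le_max_right _ _
    have h5 := le_abs_self C
    linarith [abs_nonneg C]
  have hsum := summable_dT_bound 0 hb0.le hb1
    (𝓐.C * 1 * C' ^ (Fintype.card Empty + 2) * (Fintype.card Empty + 1) ^ 2 / b ^ 2)
  have hsum' := (summable_nat_add_iff 1).2 hsum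
  have key : HasDerivAt (fun s => 𝓐.Lg (Function.update c l s) (v s))
      (∑' n : ℕ, 1 / ((n : ℝ) + 1) * 𝓐.dT l (Function.update c l t) (fun _ => 1) noA noA noA
        (v t) (LL vt vxx t) (vx t) (n + 1)) t := by
    apply hasDerivAt_tsum_of_isPreconnected hsum' isOpen_Ioo
      isPreconnected_Ioo (g := fun (n : ℕ) s => 1 / ((n : ℝ) + 1) *
        𝓐.T (Function.update c l s) (fun _ => 1) noA (v s) (Fin (n + 1)))
      (g' := fun (n : ℕ) t => 1 / ((n : ℝ) + 1) * 𝓐.dT l (Function.update c l t) (fun _ => 1) noA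
        noA noA (v t) (LL vt vxx t) (vx t) (n + 1)) (y₀ := t) _ _ ht _ ht
    · intro n s hs
      have h1 := 𝓐.T_hasDerivAt hc l (fun _ => 1) (A := fun i _ => noA i)
        (At := fun i _ => noA i) (Ax := fun i _ => noA i) (Axx := fun i _ => noA i)
        (fun i => i.elim) hv hs (n + 1)
      have h2 : (fun i : Empty => LL (fun _ => noA i) (fun _ => noA i) s) = noA :=
        funext fun i => i.elim
      rw [h2] at h1
      exact h1.const_mul _
    · intro n s hs
      rw [norm_mul, Real.norm_eq_abs, Real.norm_eq_abs, abs_of_nonneg (by (clear * -; positivity))]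
      have h1 := 𝓐.dT_le l (Function.update c l s) (χ := fun _ => 1) (X := 1)
        (fun _ => by simp) (A := noA) (LA := noA) (Ax := noA) hC1
        (fun i => i.elim) (fun i => i.elim) (fun i => i.elim)
        (fun x => (hva s hs x).trans (le_max_left _ _)) (fun x => hLL s hs x)
        (fun x => (hv.b1 s hs x).trans hCC0) hb0 hb1.le (n + 1)
      have h3 : 1 / ((n : ℝ) + 1) ≤ 1 := by
        rw [div_le_one (by positivity)]; linarith only [Nat.cast_nonneg (α := ℝ) n]
      have h4 := mul_le_mul h3 h1 (abs_nonneg _) zero_le_one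
      refine h4.trans (le_of_eq ?_)
      rw [← hb, one_mul]
      simp
    · exact 𝓐.Lg_summable _ ha0 ha (hva t ht)
  refine key.congr_deriv ?_
  have bv : BM (v t) := ⟨hv.m0 t ht, C, hv.b0 t ht⟩
  have bvx : BM (vx t) := ⟨hv.m1 t ht, C, hv.b1 t ht⟩
  have bLv : BM (LL vt vxx t) :=
    (⟨hv.mt t ht, C, hv.bt t ht⟩ : BM (vt t)).add
      ((BM.const (1 / 2)).mul ⟨hv.m2 t ht, C, hv.b2 t ht⟩)
  set c' := Function.update c l t with hc'
  have bn : ∀ i : Empty, BM (noA i) := fun i => i.elim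
  have q1 := 𝓐.mark.Q_summable 0 c' (fun _ => 1) (BM_ext bn bLv) ha0 ha (hva t ht)
  have q2 := 𝓐.mark.mark.Q_summable 1 c'
    (fun L => lift (lift fun _ => 1) L * lk l (some none) none L)
    (BM_ext (BM_ext bn bvx) bvx) ha0 ha (hva t ht)
  have q3 := tsum_shift 0 _ q2
  have hterm : ∀ n : ℕ, 1 / ((n : ℝ) + 1) * 𝓐.dT l c' (fun _ => 1) noA
        noA noA (v t) (LL vt vxx t) (vx t) (n + 1) =
      ((n + 0).choose 0 : ℝ) * 𝓐.mark.T c' (fun _ => 1) (ext (LL vt vxx t) noA) (v t) (Fin n) +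
      1 / 2 * (((n + 0).choose 0 : ℝ) * (n * 𝓐.mark.mark.T c'
        (fun L => lift (lift fun _ => 1) L * lk l (some none) none L)
        (ext (vx t) (ext (vx t) noA)) (v t) (Fin (n - 1)))) := by
    intro n
    unfold dT
    have hn : ((n : ℝ) + 1) ≠ 0 := by (clear * -; positivity)
    have h1 : (lift fun _ : LM k Empty => (1 : ℝ)) = fun _ => 1 := rfl
    simp only [Finset.univ_eq_empty, Finset.sum_empty, mul_zero, zero_add, add_zero,
      Nat.add_sub_cancel, Nat.choose_zero_right, Nat.cast_one, one_mul, h1]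
    rw [show n + 1 - 2 = n - 1 from by omega]
    push_cast
    have e3 : 𝓐.mark.T c' (fun _ => 1) (ext (LL vt vxx t) noA) (v t) (Fin (n + 1 - 1)) =
        𝓐.mark.T c' (fun _ => 1) (ext (LL vt vxx t) noA) (v t) (Fin n) := rfl
    rw [e3]
    field_simp
  simp_rw [hterm]
  rw [q1.tsum_add (q3.1.mul_left _), tsum_mul_left, q3.2]
  unfold Q
  simp

/-- Collapse of the level `l` for the logarithm. -/
theorem Lg_collapse (𝓐 : Arr k w Empty)
    {c : Fin (k + 1) → ℝ} (hc : ∀ l, 0 ≤ c l) {l : Fin (k + 1)}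
    (hcl : ∀ l', l < l' → c l' = 0) (hm : up w l < 1)
    {a : ℝ} (ha : 0 < a) {W W' W'' : ℝ → ℝ} (hW : CB2 W W' W'') (hWa : ∀ x, a ≤ W x)
    (hW1 : ∀ x, W x ≤ 1) :
    𝓐.Lg c (fun x => 1 - W x) =
      𝓐.Lg (Function.update c l 0) (fun x => 1 - flowW (1 - up w l) (c l) W 0 x) := by
  have hm0 : 0 < 1 - up w l := by linarith
  rcases (hc l).eq_or_lt with h0 | hσ
  · have e1 : Function.update c l 0 = c := by rw [h0, Function.update_eq_self]
    have e2 : ∀ x, flowW (1 - up w l) (c l) W 0 x = W x := by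
      intro x
      rw [← h0]
      exact flowW_end hm0 ha hWa x
    simp only [e1, e2]
  set m := 1 - up w l with hmdef
  set σ := c l with hσdef
  obtain ⟨C0, Wt, Wx, Wxx, fW, pW, -⟩ := flow_exists hm0 hσ ha hW hWa hW1
  have hWm : Measurable W := hW.cont.measurable
  have hmem : ∀ t x, a ≤ flowW m σ W t x ∧ flowW m σ W t x ≤ 1 := fun t x =>
    flowW_mem hm0 ha hWm hWa hW1 x
  have hb : ∀ t x, |1 - flowW m σ W t x| ≤ 1 - a := by
    intro t x
    obtain ⟨h1, h2⟩ := hmem t x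
    rw [abs_of_nonneg (by linarith)]
    linarith
  have ha1 : a ≤ 1 := (hWa 0).trans (hW1 0)
  set G : ℝ → ℝ := fun t => 𝓐.Lg (Function.update c l t) (fun x => 1 - flowW m σ W t x) with hG
  have hderiv : ∀ t ∈ Set.Ioo 0 σ, HasDerivAt G 0 t := by
    intro t ht'
    have hv := nice_one_sub fW.nice
    have h1 := 𝓐.Lg_hasDerivAt hc l hv (by linarith : 0 ≤ 1 - a) (by linarith)
      (fun t _ x => hb t x) ht'
    refine h1.congr_deriv ?_
    have hct : ∀ l', 0 ≤ Function.update c l t l' := by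
      intro l'
      by_cases h : l' = l
      · subst h; rw [Function.update_self]; exact ht'.1.le
      · rw [Function.update_of_ne h]; exact hc l'
    have hclt : ∀ l', l < l' → Function.update c l t l' = 0 := by
      intro l' hl'
      rw [Function.update_of_ne hl'.ne']
      exact hcl l' hl'
    have bW : BM (flowW m σ W t) := ⟨fW.nice.m0 t ht', C0, fW.nice.b0 t ht'⟩
    have bWx : BM (Wx t) := ⟨fW.nice.m1 t ht', C0, fW.nice.b1 t ht'⟩
    have hWne : ∀ x, flowW m σ W t x ≠ 0 := fun x => (ha.trans_le (hmem t x).1).ne'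
    have hu : up w l = 1 - m := by rw [hmdef]; ring
    have hinv : BM fun x => (flowW m σ W t x)⁻¹ := by
      refine ⟨bW.meas.inv, a⁻¹, fun x => ?_⟩
      rw [abs_of_pos (inv_pos.2 (ha.trans_le (hmem t x).1))]
      exact inv_anti₀ ha (hmem t x).1
    have bR : BM fun x => -(Wx t x * (flowW m σ W t x)⁻¹) := (bWx.mul hinv).neg
    have bn : ∀ i : Empty, BM (noA i) := fun i => i.elim
    have s1 := 𝓐.mark.Q_stab (e := 0) (by simp) hct hclt (lift fun _ => 1)
      (A := ext (fun x => -Wx t x) noA) (v := fun x => 1 - flowW m σ W t x)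
      (BM_ext bn bWx.neg) (measurable_const.sub bW.meas) (by linarith : 0 ≤ 1 - a)
      (by linarith) (fun x => hb t x) none (G := fun x => -Wx t x) bWx.neg bR
    have x1 : (fun x => -(Wx t x * (flowW m σ W t x)⁻¹) * (1 - (1 - flowW m σ W t x))) =
        fun x => -Wx t x := by
      funext x
      have := hWne x
      field_simp
      ring
    rw [x1, ext_update_none, ext_update_none, Fintype.sum_option, 𝓐.mark.Q_lk_self] at s1
    have x2 : (fun x => -Wx t x * -(Wx t x * (flowW m σ W t x)⁻¹)) =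
        fun x => Wx t x ^ 2 / flowW m σ W t x := by
      funext x; ring
    rw [x2] at s1
    simp only [Finset.univ_eq_empty, Finset.sum_empty, add_zero] at s1
    have s2 : 𝓐.mark.Q 0 (Function.update c l t) (fun _ => 1)
        (ext (LL (fun t x => -Wt t x) (fun t x => -Wxx t x) t) noA)
        (fun x => 1 - flowW m σ W t x) = -(1 / 2 * up w l) *
        𝓐.mark.Q 0 (Function.update c l t) (fun _ => 1)
        (ext (fun x => Wx t x ^ 2 / flowW m σ W t x) noA)
        (fun x => 1 - flowW m σ W t x) := by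
      have h := 𝓐.mark.Q_update_smul 0 (Function.update c l t) (fun _ => 1)
        (ext (fun x => Wx t x ^ 2 / flowW m σ W t x) noA) (fun x => 1 - flowW m σ W t x) none
        (fun x => Wx t x ^ 2 / flowW m σ W t x) (-(1 / 2 * up w l))
      rw [ext_update_none, ext_update_none] at h
      rw [← h]
      congr 2
      funext x
      have := pW t ht' x
      unfold LL at this ⊢
      beta_reduce
      rw [hu]
      linear_combination -this
    rw [s2]
    have e0 : (lift fun _ : LM k Empty => (1 : ℝ)) = fun _ => 1 := rfl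
    rw [e0] at s1 ⊢
    norm_num at s1 ⊢
    rw [s1]
    ring
  have hcont : ContinuousOn G (Set.Icc 0 σ) := by
    apply 𝓐.Lg_continuousOn c l (a := 1 - a) (v := fun t x => 1 - flowW m σ W t x)
    · exact continuousOn_const.sub fW.cont
    · linarith
    · linarith
    · intro t _ x
      exact hb t x
  obtain ⟨t, ht', hslope⟩ := exists_hasDerivAt_eq_slope G (fun _ => 0) hσ hcont hderiv
  have hfin : G σ = G 0 := by
    have hne : σ - 0 ≠ 0 := by linarith
    have := hslope.symm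
    rw [div_eq_zero_iff] at this
    rcases this with h1 | h1
    · linarith
    · exact absurd h1 hne
  have hGσ : G σ = 𝓐.Lg c (fun x => 1 - W x) := by
    simp only [hG]
    have e1 : Function.update c l σ = c := by rw [hσdef, Function.update_eq_self]
    have e2 : ∀ x, flowW m σ W σ x = W x := fun x => flowW_end hm0 ha hWa x
    simp only [e1, e2]
  rw [← hGσ, hfin]

end Arr

end Vale.Agent.P157.Par
end

section

open MeasureTheory ProbabilityTheory Filter Topology Finset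

namespace Vale.Agent.P157.Par

set_option linter.unusedSectionVars false

open Vale.Agent.P367.GT (gM)

namespace Arr

variable {k : ℕ} {w : Fin (k + 1) → ℝ} {δ : Type} [Fintype δ] [DecidableEq δ]

lemma up_zero : up w 0 = ∑ l, w l := by
  unfold up
  simp

/-- Marginals. -/
lemma E_drop (𝓐 : Arr k w δ) (hw : ∑ l, w l = 1) (ι : Type) [Fintype ι] [DecidableEq ι]
    (i : δ ⊕ ι) (A : LM k (δ ⊕ ι) → ℝ) :
    𝓐.E (Option ι) (fun L => A (fun a b => L (Sum.map id some a) (Sum.map id some b))) =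
      𝓐.E ι A := by
  have h := 𝓐.gg_link ι A i 0
  simp only [Fin.zero_le, if_true, mul_one, up_zero, hw, one_mul] at h
  rw [Finset.sum_const, Finset.card_univ, Fintype.card_sum, nsmul_eq_mul] at h
  have h2 : (0 : ℝ) < (Fintype.card δ : ℝ) + Fintype.card ι := by
    have : 0 < Fintype.card (δ ⊕ ι) := Fintype.card_pos_iff.2 ⟨i⟩
    rw [Fintype.card_sum] at this
    exact_mod_cast this
  push_cast at h
  have h3 : ((Fintype.card δ : ℝ) + Fintype.card ι) *
      (𝓐.E (Option ι) (fun L => A (fun a b => L (Sum.map id some a) (Sum.map id some b))) -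
        𝓐.E ι A) = 0 := by linarith
  rcases mul_eq_zero.1 h3 with h4 | h4
  · linarith
  · linarith

lemma E_marg (𝓐 : Arr k w δ) (hw : ∑ l, w l = 1) (i : δ) (χ : LM k δ → ℝ) (n : ℕ) :
    𝓐.E (Fin n) (fun L => χ (res L)) = 𝓐.E (Fin 0) (fun L => χ (res L)) := by
  induction n with
  | zero => rfl
  | succ n ih =>
    rw [← ih, ← 𝓐.E_drop hw (Fin n) (Sum.inl i) (fun L => χ (res L)),
      ← 𝓐.reindex (Fin (n + 1)) (Option (Fin n)) (finSuccEquivLast)]
    rfl

lemma E_one (𝓐 : Arr k w Empty) (hw : ∑ l, w l = 1) (n : ℕ) :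
    𝓐.E (Fin (n + 1)) (fun _ => 1) = 𝓐.E (Fin 1) (fun _ => 1) := by
  induction n with
  | zero => rfl
  | succ n ih =>
    rw [← ih, ← 𝓐.E_drop hw (Fin (n + 1)) (Sum.inr 0) (fun _ => 1),
      ← 𝓐.reindex (Fin (n + 1 + 1)) (Option (Fin (n + 1))) (finSuccEquivLast)]

end Arr

lemma gE_level0 {k : ℕ} {J : Type} [Fintype J] [DecidableEq J] {c : Fin (k + 1) → ℝ}
    (hc : ∀ l, 0 ≤ c l) (hc0 : ∀ l, l ≠ 0 → c l = 0) {L : LM k J} (hL : Ultra L)
    {f : J → ℝ → ℝ} (hf : ∀ a, Measurable (f a)) :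
    gE (UL c L) f = ∫ z, ∏ a, f a (√(c 0) * z) ∂(gaussianReal 0 1) := by
  have h1 : gE (UL c L) f = gE (fun (_ : J) (_ : Unit) => √(c 0)) f := by
    apply gE_congr_gram _ hf
    intro a b
    rw [gram_UL hc hL]
    unfold gram
    rw [Fintype.sum_eq_single (0 : Fin (k + 1))]
    · simp [Real.mul_self_sqrt (hc 0)]
    · intro l hl
      rw [hc0 l hl]
      simp
  rw [h1]
  unfold gE gM
  have h2 := (measurePreserving_funUnique (gaussianReal 0 1) Unit).integral_comp'
    (g := fun z : ℝ => ∏ a, f a (√(c 0) * z))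
  rw [← h2]
  congr 1
  funext ξ
  simp [lin]

namespace Arr

variable {k : ℕ} {w : Fin (k + 1) → ℝ} {δ : Type} [Fintype δ] [DecidableEq δ]

lemma T_level0 (𝓐 : Arr k w δ) (hw : ∑ l, w l = 1) (i : δ) {c : Fin (k + 1) → ℝ}
    (hc : ∀ l, 0 ≤ c l) (hc0 : ∀ l, l ≠ 0 → c l = 0) (χ : LM k δ → ℝ) {A : δ → ℝ → ℝ}
    {v : ℝ → ℝ} (hA : ∀ i, Measurable (A i)) (hv : Measurable v) (n : ℕ) :
    𝓐.T c χ A v (Fin n) = 𝓐.E (Fin 0) (fun L => χ (res L)) *
      ∫ z, (∏ i, A i (√(c 0) * z)) * v (√(c 0) * z) ^ n ∂(gaussianReal 0 1) := by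
  rw [← 𝓐.E_marg hw i χ n, mul_comm, ← smul_eq_mul, ← map_smul]
  unfold T
  apply 𝓐.congr_ultra
  intro L hL
  rw [gE_level0 hc hc0 hL (measurable_fam hA hv), Pi.smul_apply, smul_eq_mul, mul_comm]
  congr 1
  congr 1
  funext z
  rw [Fintype.prod_sum_type]
  simp [fam]

lemma T_level0_empty (𝓐 : Arr k w Empty) (hw : ∑ l, w l = 1) {c : Fin (k + 1) → ℝ}
    (hc : ∀ l, 0 ≤ c l) (hc0 : ∀ l, l ≠ 0 → c l = 0) {v : ℝ → ℝ} (hv : Measurable v) (n : ℕ) :
    𝓐.T c (fun _ => 1) noA v (Fin (n + 1)) = 𝓐.E (Fin 1) (fun _ => 1) *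
      ∫ z, v (√(c 0) * z) ^ (n + 1) ∂(gaussianReal 0 1) := by
  rw [← 𝓐.E_one hw n, mul_comm, ← smul_eq_mul, ← map_smul]
  unfold T
  apply 𝓐.congr_ultra
  intro L hL
  rw [gE_level0 hc hc0 hL (measurable_fam (fun i : Empty => i.elim) hv), Pi.smul_apply,
    smul_eq_mul, mul_one, one_mul]
  congr 1
  funext z
  rw [Fintype.prod_sum_type]
  simp [fam]

/-- The value of the resummed functional when only the level `0` is left. -/
theorem Q_level0 (𝓐 : Arr k w δ) (hw : ∑ l, w l = 1) {e : ℕ} (he : Fintype.card δ = e + 1)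
    {c : Fin (k + 1) → ℝ} (hc : ∀ l, 0 ≤ c l) (hc0 : ∀ l, l ≠ 0 → c l = 0) (χ : LM k δ → ℝ)
    {h : δ → ℝ → ℝ} {W : ℝ → ℝ} (hh : ∀ i, BM (h i)) (hWm : Measurable W) {a : ℝ} (ha : 0 < a)
    (hWa : ∀ x, a ≤ W x) (hW1 : ∀ x, W x ≤ 1) :
    𝓐.Q e c χ (fun i x => h i x * W x) (fun x => 1 - W x) =
      𝓐.E (Fin 0) (fun L => χ (res L)) *
        ∫ z, ∏ i, h i (√(c 0) * z) ∂(gaussianReal 0 1) := by
  have hne : Nonempty δ := Fintype.card_pos_iff.1 (by omega)
  obtain ⟨i⟩ := hne
  have ha1 : a ≤ 1 := (hWa 0).trans (hW1 0)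
  obtain ⟨B, hB0, hB⟩ := exists_bound hh
  unfold Q
  have hT := fun n => 𝓐.T_level0 hw i hc hc0 χ (A := fun i x => h i x * W x)
    (v := fun x => 1 - W x) (fun i => (hh i).meas.mul hWm) (measurable_const.sub hWm) n
  simp_rw [hT]
  have e1 : ∀ n : ℕ, ((n + e).choose e : ℝ) * (𝓐.E (Fin 0) (fun L => χ (res L)) *
      ∫ z, (∏ i, (h i (√(c 0) * z) * W (√(c 0) * z))) * (1 - W (√(c 0) * z)) ^ n
        ∂(gaussianReal 0 1)) = 𝓐.E (Fin 0) (fun L => χ (res L)) *
      ∫ z, (∏ i, h i (√(c 0) * z)) * (W (√(c 0) * z) ^ (e + 1) *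
        (((n + e).choose e : ℝ) * (1 - W (√(c 0) * z)) ^ n)) ∂(gaussianReal 0 1) := by
    intro n
    rw [mul_left_comm, ← integral_const_mul]
    congr 2
    funext z
    rw [Finset.prod_mul_distrib, Finset.prod_const, Finset.card_univ, he]
    ring
  simp_rw [e1]
  rw [tsum_mul_left]
  congr 1
  have hbd : ∀ z : ℝ, |1 - W (√(c 0) * z)| ≤ 1 - a := by
    intro z
    have h1 := hWa (√(c 0) * z)
    have h2 := hW1 (√(c 0) * z)
    rw [abs_of_nonneg (by linarith)]
    linarith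
  have hmz : Measurable fun z : ℝ => √(c 0) * z := by fun_prop
  have hprodm : Measurable fun z : ℝ => ∏ i, h i (√(c 0) * z) :=
    Finset.measurable_prod _ fun i _ => (hh i).meas.comp hmz
  have hprodb : ∀ z : ℝ, |∏ i, h i (√(c 0) * z)| ≤ B ^ Fintype.card δ := by
    intro z
    have := abs_prod_le (s := Finset.univ) (f := fun i => h i (√(c 0) * z)) (C := B)
      (fun i _ => hB i _)
    simpa using this
  have hterm : ∀ (n : ℕ) (z : ℝ), ‖(∏ i, h i (√(c 0) * z)) * (W (√(c 0) * z) ^ (e + 1) *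
        (((n + e).choose e : ℝ) * (1 - W (√(c 0) * z)) ^ n))‖ ≤
      B ^ Fintype.card δ * (((n + e).choose e : ℝ) * (1 - a) ^ n) := by
    intro n z
    rw [Real.norm_eq_abs, abs_mul, abs_mul, abs_mul, abs_pow, abs_pow, Nat.abs_cast]
    have h1 : |W (√(c 0) * z)| ≤ 1 := by
      rw [abs_of_nonneg (ha.le.trans (hWa _))]; exact hW1 _
    have h2 : |W (√(c 0) * z)| ^ (e + 1) ≤ 1 := pow_le_one₀ (abs_nonneg _) h1
    have h3 := pow_le_pow_left₀ (abs_nonneg _) (hbd z) n
    calc _ ≤ B ^ Fintype.card δ * (1 * (((n + e).choose e : ℝ) * (1 - a) ^ n)) := by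
          gcongr
          exact hprodb z
      _ = _ := by ring
  have hmeas : ∀ n : ℕ, Measurable fun z : ℝ => (∏ i, h i (√(c 0) * z)) *
      (W (√(c 0) * z) ^ (e + 1) * (((n + e).choose e : ℝ) * (1 - W (√(c 0) * z)) ^ n)) := by
    intro n
    exact hprodm.mul (((hWm.comp hmz).pow_const _).mul
      (((measurable_const.sub (hWm.comp hmz)).pow_const _).const_mul _))
  have hint : ∀ n : ℕ, Integrable (fun z : ℝ => (∏ i, h i (√(c 0) * z)) *
      (W (√(c 0) * z) ^ (e + 1) * (((n + e).choose e : ℝ) * (1 - W (√(c 0) * z)) ^ n)))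
      (gaussianReal 0 1) := fun n =>
    Integrable.of_bound (hmeas n).aestronglyMeasurable _ (Eventually.of_forall (hterm n))
  have hsumg : Summable fun n : ℕ => ((n + e).choose e : ℝ) * (1 - a) ^ n :=
    summable_choose_mul_geometric_of_norm_lt_one e (by
      rw [Real.norm_eq_abs, abs_of_nonneg (by linarith)]; linarith)
  have hsum : Summable fun n : ℕ => ∫ z, ‖(∏ i, h i (√(c 0) * z)) *
      (W (√(c 0) * z) ^ (e + 1) * (((n + e).choose e : ℝ) * (1 - W (√(c 0) * z)) ^ n))‖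
      ∂(gaussianReal 0 1) := by
    refine Summable.of_nonneg_of_le (fun n => integral_nonneg fun z => norm_nonneg _) (fun n => ?_)
      (hsumg.mul_left (B ^ Fintype.card δ))
    have h1 := integral_mono (hint n).norm (integrable_const _) (hterm n)
    rwa [integral_const, probReal_univ, one_smul] at h1
  rw [integral_tsum_of_summable_integral_norm hint hsum]
  congr 1
  funext z
  have hW0 : 0 < W (√(c 0) * z) := ha.trans_le (hWa _)
  rw [tsum_mul_left, tsum_mul_left]
  have h1 := tsum_choose_mul_geometric_of_norm_lt_one (𝕜 := ℝ) e (r := 1 - W (√(c 0) * z)) (by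
    rw [Real.norm_eq_abs]; exact (hbd z).trans_lt (by linarith))
  rw [h1]
  have h2 : 1 - (1 - W (√(c 0) * z)) = W (√(c 0) * z) := by ring
  rw [h2]
  field_simp

/-- The value of the logarithm when only the level `0` is left. -/
theorem Lg_level0 (𝓐 : Arr k w Empty) (hw : ∑ l, w l = 1)
    {c : Fin (k + 1) → ℝ} (hc : ∀ l, 0 ≤ c l) (hc0 : ∀ l, l ≠ 0 → c l = 0)
    {W : ℝ → ℝ} (hWm : Measurable W) {a : ℝ} (ha : 0 < a)
    (hWa : ∀ x, a ≤ W x) (hW1 : ∀ x, W x ≤ 1) :
    𝓐.Lg c (fun x => 1 - W x) = - (𝓐.E (Fin 1) (fun _ => 1) *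
        ∫ z, Real.log (W (√(c 0) * z)) ∂(gaussianReal 0 1)) := by
  have ha1 : a ≤ 1 := (hWa 0).trans (hW1 0)
  unfold Lg
  have hT := fun n => 𝓐.T_level0_empty hw hc hc0 (v := fun x => 1 - W x)
    (measurable_const.sub hWm) n
  simp_rw [hT]
  have hbd : ∀ z : ℝ, |1 - W (√(c 0) * z)| ≤ 1 - a := by
    intro z
    have h1 := hWa (√(c 0) * z)
    have h2 := hW1 (√(c 0) * z)
    rw [abs_of_nonneg (by linarith)]
    linarith
  have hmz : Measurable fun z : ℝ => √(c 0) * z := by fun_prop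
  have e1 : ∀ n : ℕ, 1 / ((n : ℝ) + 1) * (𝓐.E (Fin 1) (fun _ => 1) *
      ∫ z, (1 - W (√(c 0) * z)) ^ (n + 1) ∂(gaussianReal 0 1)) =
      𝓐.E (Fin 1) (fun _ => 1) * ∫ z, (1 - W (√(c 0) * z)) ^ (n + 1) / ((n : ℝ) + 1)
        ∂(gaussianReal 0 1) := by
    intro n
    rw [integral_div]
    ring
  simp_rw [e1]
  rw [tsum_mul_left, ← mul_neg]
  congr 1
  have hterm : ∀ (n : ℕ) (z : ℝ), ‖(1 - W (√(c 0) * z)) ^ (n + 1) / ((n : ℝ) + 1)‖ ≤
      (1 - a) ^ n := by
    intro n z
    rw [Real.norm_eq_abs, abs_div, abs_pow, abs_of_nonneg (by positivity : (0:ℝ) ≤ (n : ℝ) + 1)]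
    have h3 := pow_le_pow_left₀ (abs_nonneg _) (hbd z) (n + 1)
    have h4 : (1 - a) ^ (n + 1) ≤ (1 - a) ^ n := by
      rw [pow_succ]
      exact mul_le_of_le_one_right (pow_nonneg (by linarith) n) (by linarith)
    rw [div_le_iff₀ (by positivity)]
    have h5 : 0 ≤ (1 - a) ^ n := pow_nonneg (by linarith) n
    have h6 : (1 : ℝ) ≤ (n : ℝ) + 1 := by linarith [Nat.cast_nonneg (α := ℝ) n]
    nlinarith
  have hmeas : ∀ n : ℕ, Measurable fun z : ℝ => (1 - W (√(c 0) * z)) ^ (n + 1) / ((n : ℝ) + 1) :=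
    fun n => ((measurable_const.sub (hWm.comp hmz)).pow_const _).div_const _
  have hint : ∀ n : ℕ, Integrable (fun z : ℝ => (1 - W (√(c 0) * z)) ^ (n + 1) / ((n : ℝ) + 1))
      (gaussianReal 0 1) := fun n =>
    Integrable.of_bound (hmeas n).aestronglyMeasurable _ (Eventually.of_forall (hterm n))
  have hsumg : Summable fun n : ℕ => (1 - a) ^ n :=
    summable_geometric_of_lt_one (by linarith) (by linarith)
  have hsum : Summable fun n : ℕ => ∫ z, ‖(1 - W (√(c 0) * z)) ^ (n + 1) / ((n : ℝ) + 1)‖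
      ∂(gaussianReal 0 1) := by
    refine Summable.of_nonneg_of_le (fun n => integral_nonneg fun z => norm_nonneg _) (fun n => ?_)
      hsumg
    have h1 := integral_mono (hint n).norm (integrable_const _) (hterm n)
    rwa [integral_const, probReal_univ, one_smul] at h1
  rw [integral_tsum_of_summable_integral_norm hint hsum, ← integral_neg]
  congr 1
  funext z
  have h1 := Real.hasSum_pow_div_log_of_abs_lt_one (x := 1 - W (√(c 0) * z))
    ((hbd z).trans_lt (by linarith))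
  rw [h1.tsum_eq]
  congr 2
  ring

end Arr

end Vale.Agent.P157.Par
end

section

open MeasureTheory ProbabilityTheory Filter Topology Finset

namespace Vale.Agent.P157.Par

set_option linter.unusedSectionVars false

/-- The weight after `n` steps of the cascade starting from the level `k`. -/
noncomputable def parW (m v : ℕ → ℝ) (k : ℕ) (W : ℝ → ℝ) : ℕ → ℝ → ℝ
  | 0 => W
  | n + 1 => flowW (m (k - n)) (v (k - n)) (parW m v k W n) 0

/-- The weight at the level `l`. -/
noncomputable def lvW (m v : ℕ → ℝ) (k : ℕ) (W : ℝ → ℝ) (l : ℕ) : ℝ → ℝ := parW m v k W (k - l)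

/-- The observable after `n` steps of the cascade starting from the level `s`. -/
noncomputable def parh (m v : ℕ → ℝ) (V : ℕ → ℝ → ℝ) (s : ℕ) (h : ℝ → ℝ) : ℕ → ℝ → ℝ
  | 0 => h
  | n + 1 => flowh (m (s - n)) (v (s - n)) (V (s - n)) (parh m v V s h n) 0

/-- The observable at the level `l ≤ s` when it is `h` at the level `s`. -/
noncomputable def lvh (m v : ℕ → ℝ) (V : ℕ → ℝ → ℝ) (s : ℕ) (h : ℝ → ℝ) (l : ℕ) : ℝ → ℝ :=
  parh m v V s h (s - l)

section

variable {m v : ℕ → ℝ} {k : ℕ} {W : ℝ → ℝ}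

lemma lvW_top : lvW m v k W k = W := by simp [lvW, parW]

lemma lvW_succ {l : ℕ} (hl : l < k) :
    lvW m v k W l = flowW (m (l + 1)) (v (l + 1)) (lvW m v k W (l + 1)) 0 := by
  unfold lvW
  have h1 : k - l = (k - (l + 1)) + 1 := by omega
  have h2 : k - (k - (l + 1)) = l + 1 := by omega
  rw [h1, parW, h2]

variable {V : ℕ → ℝ → ℝ} {s : ℕ} {h : ℝ → ℝ}

lemma lvh_top : lvh m v V s h s = h := by simp [lvh, parh]

lemma lvh_succ {l : ℕ} (hl : l < s) :
    lvh m v V s h l = flowh (m (l + 1)) (v (l + 1)) (V (l + 1)) (lvh m v V s h (l + 1)) 0 := by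
  unfold lvh
  have h1 : s - l = (s - (l + 1)) + 1 := by omega
  have h2 : s - (s - (l + 1)) = l + 1 := by omega
  rw [h1, parh, h2]

lemma down_ind {P : ℕ → Prop} {k : ℕ} (top : P k) (step : ∀ l < k, P (l + 1) → P l) :
    ∀ l ≤ k, P l := by
  have h : ∀ d l, l + d = k → P l := by
    intro d
    induction d with
    | zero => intro l hl; rw [add_zero] at hl; rwa [hl]
    | succ d ih => intro l hl; exact step l (by omega) (ih (l + 1) (by omega))
  intro l hl
  exact h (k - l) l (by omega)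

lemma lvh_lvh {l : ℕ} (hl : l ≤ s) :
    ∀ l' ≤ l, lvh m v V l (lvh m v V s h l) l' = lvh m v V s h l' := by
  apply down_ind
  · rw [lvh_top]
  · intro l' hl' ih
    rw [lvh_succ hl', ih, ← lvh_succ (by omega)]

/-- Regularity and bounds of the weights. -/
lemma lvW_spec (hm : ∀ l, 1 ≤ l → l ≤ k → 0 < m l) {a : ℝ} (ha : 0 < a)
    (hW : ∃ W' W'', CB2 W W' W'') (hWa : ∀ x, a ≤ W x) (hW1 : ∀ x, W x ≤ 1) :
    ∀ l ≤ k, (∃ V' V'', CB2 (lvW m v k W l) V' V'') ∧ (∀ x, a ≤ lvW m v k W l x) ∧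
      ∀ x, lvW m v k W l x ≤ 1 := by
  apply down_ind
  · rw [lvW_top]; exact ⟨hW, hWa, hW1⟩
  · intro l hl ih
    obtain ⟨⟨V', V'', hV⟩, h1, h2⟩ := ih
    have hm' := hm (l + 1) (by omega) (by omega)
    rw [lvW_succ hl]
    refine ⟨flowW_cb2 hm' ha hV h1 h2, fun x => ?_, fun x => ?_⟩
    · exact (flowW_mem hm' ha hV.cont.measurable h1 h2 x).1
    · exact (flowW_mem hm' ha hV.cont.measurable h1 h2 x).2

/-- Regularity of the observables. -/
lemma lvh_spec (hm : ∀ l, 1 ≤ l → l ≤ k → 0 < m l) {a : ℝ} (ha : 0 < a)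
    (hV : ∀ l ≤ k, (∃ V' V'', CB2 (V l) V' V'') ∧ (∀ x, a ≤ V l x) ∧ ∀ x, V l x ≤ 1)
    (hs : s ≤ k) (hh : ∃ h' h'', CB2 h h' h'') :
    ∀ l ≤ s, ∃ h' h'', CB2 (lvh m v V s h l) h' h'' := by
  apply down_ind
  · rw [lvh_top]; exact hh
  · intro l hl ih
    obtain ⟨h', h'', ih⟩ := ih
    have hm' := hm (l + 1) (by omega) (by omega)
    obtain ⟨⟨V', V'', hV0⟩, h1, h2⟩ := hV (l + 1) (by omega)
    rw [lvh_succ hl]
    exact flowh_cb2 hm' ha hV0 h1 h2 ih

lemma lvh_one (hm : ∀ l, 1 ≤ l → l ≤ k → 0 < m l) {a : ℝ} (ha : 0 < a)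
    (hV : ∀ l ≤ k, (∃ V' V'', CB2 (V l) V' V'') ∧ (∀ x, a ≤ V l x) ∧ ∀ x, V l x ≤ 1)
    (hs : s ≤ k) : ∀ l ≤ s, lvh m v V s (fun _ => 1) l = fun _ => 1 := by
  apply down_ind
  · rw [lvh_top]
  · intro l hl ih
    have hm' := hm (l + 1) (by omega) (by omega)
    obtain ⟨⟨V', V'', hV0⟩, h1, h2⟩ := hV (l + 1) (by omega)
    rw [lvh_succ hl, ih]
    funext x
    exact flowh_one hm' ha hV0.cont.measurable h1 h2 x

end

/-- The increments up to the level `l`. -/
noncomputable def cut {k : ℕ} (v : ℕ → ℝ) (l : ℕ) : Fin (k + 1) → ℝ :=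
  fun i => if (i : ℕ) ≤ l then v i else 0

section

variable {k : ℕ} {v : ℕ → ℝ}

lemma cut_nonneg (hv : ∀ l, 0 ≤ v l) (l : ℕ) (i : Fin (k + 1)) : 0 ≤ cut v l i := by
  unfold cut
  split_ifs
  · exact hv _
  · exact le_rfl

lemma cut_update {l : ℕ} (hl : l < k) :
    Function.update (cut v (l + 1) : Fin (k + 1) → ℝ) ⟨l + 1, by omega⟩ 0 = cut v l := by
  funext i
  by_cases h : i = ⟨l + 1, by omega⟩
  · subst h
    rw [Function.update_self]
    simp [cut]
  · rw [Function.update_of_ne h]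
    unfold cut
    have h2 : (i : ℕ) ≠ l + 1 := fun h3 => h (Fin.ext h3)
    by_cases h3 : (i : ℕ) ≤ l
    · rw [if_pos h3, if_pos (by omega)]
    · rw [if_neg h3, if_neg (by omega)]

lemma cut_apply {l : ℕ} (hl : l < k + 1) : (cut v l : Fin (k + 1) → ℝ) ⟨l, hl⟩ = v l := by
  simp [cut]

lemma cut_above {l : ℕ} (i : Fin (k + 1)) (hi : l < (i : ℕ)) : cut v l i = 0 := by
  unfold cut
  rw [if_neg (by omega)]

end

namespace Arr

variable {k : ℕ} {w : Fin (k + 1) → ℝ} {δ : Type} [Fintype δ] [DecidableEq δ]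

/-- The logarithm. -/
theorem Lg_eval (𝓐 : Arr k w Empty) (hw : ∑ l, w l = 1) {m v : ℕ → ℝ} (hv : ∀ l, 0 ≤ v l)
    (hm : ∀ l, 1 ≤ l → l ≤ k → 0 < m l) (hmw : ∀ l : Fin (k + 1), up w l = 1 - m l)
    {a : ℝ} (ha : 0 < a) {W : ℝ → ℝ} (hW : ∃ W' W'', CB2 W W' W'') (hWa : ∀ x, a ≤ W x)
    (hW1 : ∀ x, W x ≤ 1) :
    𝓐.Lg (cut v k) (fun x => 1 - W x) = - (𝓐.E (Fin 1) (fun _ => 1) *
        ∫ z, Real.log (lvW m v k W 0 (√(v 0) * z)) ∂(gaussianReal 0 1)) := by
  have hspec := lvW_spec (v := v) hm ha hW hWa hW1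
  have h1 : ∀ l ≤ k, 𝓐.Lg (cut v k) (fun x => 1 - W x) =
      𝓐.Lg (cut v l) (fun x => 1 - lvW m v k W l x) := by
    apply down_ind
    · rw [lvW_top]
    · intro l hl ih
      rw [ih]
      obtain ⟨⟨V', V'', hV⟩, h2, h3⟩ := hspec (l + 1) (by omega)
      have hm' := hm (l + 1) (by omega) (by omega)
      have hmw' := hmw ⟨l + 1, by omega⟩
      simp only at hmw'
      have hcol := 𝓐.Lg_collapse (cut_nonneg hv (l + 1)) (l := ⟨l + 1, by omega⟩)
        (fun l' hl' => cut_above l' hl') (by rw [hmw']; linarith) ha hV h2 h3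
      rw [hcol, cut_update hl, cut_apply, hmw']
      have e1 : 1 - (1 - m (l + 1)) = m (l + 1) := by ring
      rw [e1, lvW_succ hl]
  rw [h1 0 (Nat.zero_le k)]
  obtain ⟨⟨V', V'', hV⟩, h2, h3⟩ := hspec 0 (Nat.zero_le k)
  rw [𝓐.Lg_level0 hw (cut_nonneg hv 0) (fun l hl => cut_above l (by
    rcases Nat.eq_zero_or_pos (l : ℕ) with h | h
    · exact absurd (Fin.ext h) hl
    · exact h)) hV.cont.measurable ha h2 h3]
  rfl

/-- Collapse of the levels above `l₀`, when the pairs are not linked at these levels or one of the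
observables is `1`. -/
theorem Q_chain (𝓐 : Arr k w δ) {e : ℕ} (he : Fintype.card δ = e + 1) {m v : ℕ → ℝ}
    (hv : ∀ l, 0 ≤ v l)
    (hm : ∀ l, 1 ≤ l → l ≤ k → 0 < m l) (hmw : ∀ l : Fin (k + 1), up w l = 1 - m l)
    {a : ℝ} (ha : 0 < a) {V : ℕ → ℝ → ℝ}
    (hV : ∀ l ≤ k, (∃ V' V'', CB2 (V l) V' V'') ∧ (∀ x, a ≤ V l x) ∧ ∀ x, V l x ≤ 1)
    (hVs : ∀ l < k, V l = flowW (m (l + 1)) (v (l + 1)) (V (l + 1)) 0)
    (χ : LM k δ → ℝ) {h : δ → ℝ → ℝ}
    (hh : ∀ i, ∃ h' h'', CB2 (h i) h' h'') {s l₀ : ℕ} (hs : s ≤ k) (hl₀ : l₀ ≤ s)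
    (cons : ∀ l : Fin (k + 1), l₀ < (l : ℕ) → (l : ℕ) ≤ s → ∀ i j, i ≠ j →
      (∀ L, Ultra L → χ L * lk l i j L = 0) ∨ (h i = fun _ => 1) ∨ (h j = fun _ => 1)) :
    𝓐.Q e (cut v s) χ (fun i x => h i x * V s x) (fun x => 1 - V s x) =
      𝓐.Q e (cut v l₀) χ (fun i x => lvh m v V s (h i) l₀ x * V l₀ x)
        (fun x => 1 - V l₀ x) := by
  have hspec := fun i => lvh_spec (v := v) hm ha hV hs (hh i)
  have hone := lvh_one (v := v) hm ha hV hs
  have h1 : ∀ l ≤ s, l₀ ≤ l → 𝓐.Q e (cut v s) χ (fun i x => h i x * V s x) (fun x => 1 - V s x) =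
      𝓐.Q e (cut v l) χ (fun i x => lvh m v V s (h i) l x * V l x) (fun x => 1 - V l x) := by
    apply down_ind
    · intro _
      simp only [lvh_top]
    · intro l hl ih hl'
      rw [ih (by omega)]
      obtain ⟨⟨V', V'', hV0⟩, h2, h3⟩ := hV (l + 1) (by omega)
      have hm' := hm (l + 1) (by omega) (by omega)
      have hmw' := hmw ⟨l + 1, by omega⟩
      simp only at hmw'
      choose h' h'' hh' using fun i => hspec i (l + 1) (by omega)
      have hcol := 𝓐.Q_collapse he (cut_nonneg hv (l + 1)) (l := ⟨l + 1, by omega⟩)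
        (fun l' hl' => cut_above l' hl') (by rw [hmw']; linarith only [hm']) χ ha hV0 h2 h3 hh'
        (fun i j hij => by
          rcases cons ⟨l + 1, by omega⟩ (by simp; omega) (by simp; omega) i j hij with h4 | h4 | h4
          · exact Or.inl h4
          · right; left; rw [h4]; exact hone (l + 1) (by omega)
          · right; right; rw [h4]; exact hone (l + 1) (by omega))
      rw [hcol, cut_update (by omega), cut_apply, hmw']
      have e1 : 1 - (1 - m (l + 1)) = m (l + 1) := by ring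
      simp only [e1]
      simp only [← hVs l (by omega), ← lvh_succ hl]
  exact h1 l₀ hl₀ le_rfl

/-- One special index. -/
theorem Q_eval_one (𝓐 : Arr k w δ) (hcard : Fintype.card δ = 1) (hw : ∑ l, w l = 1) {m v : ℕ → ℝ}
    (hv : ∀ l, 0 ≤ v l)
    (hm : ∀ l, 1 ≤ l → l ≤ k → 0 < m l) (hmw : ∀ l : Fin (k + 1), up w l = 1 - m l)
    {a : ℝ} (ha : 0 < a) {W : ℝ → ℝ} (hW : ∃ W' W'', CB2 W W' W'') (hWa : ∀ x, a ≤ W x)
    (hW1 : ∀ x, W x ≤ 1) (χ : LM k δ → ℝ) {h : ℝ → ℝ} (hh : ∃ h' h'', CB2 h h' h'') :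
    𝓐.Q 0 (cut v k) χ (fun _ x => h x * W x) (fun x => 1 - W x) =
      𝓐.E (Fin 0) (fun L => χ (res L)) *
        ∫ z, lvh m v (lvW m v k W) k h 0 (√(v 0) * z) ∂(gaussianReal 0 1) := by
  have hspec := lvW_spec (v := v) hm ha hW hWa hW1
  have hsub : ∀ i j : δ, i = j := Fintype.card_le_one_iff.1 hcard.le
  have h1 := 𝓐.Q_chain (e := 0) (by simpa using hcard) hv hm hmw ha hspec
    (fun l hl => lvW_succ hl) χ (h := fun _ => h) (fun _ => hh) le_rfl (Nat.zero_le k)
    (fun l _ _ i j hij => absurd (hsub i j) hij)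
  rw [lvW_top] at h1
  rw [h1]
  obtain ⟨h', h'', hh0⟩ := lvh_spec (v := v) hm ha hspec le_rfl hh 0 (Nat.zero_le k)
  obtain ⟨⟨V', V'', hV⟩, h2, h3⟩ := hspec 0 (Nat.zero_le k)
  rw [𝓐.Q_level0 (e := 0) hw (by simpa using hcard) (cut_nonneg hv 0) (fun l hl => cut_above l (by
    rcases Nat.eq_zero_or_pos (l : ℕ) with h | h
    · exact absurd (Fin.ext h) hl
    · exact h)) χ (fun _ => ⟨hh0.cont.measurable, hh0.b0⟩) hV.cont.measurable ha h2 h3]
  simp [cut, hcard]

/-- The value of the pair functional for replicas linked exactly at the level `l`. -/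
noncomputable def pairVal (m v : ℕ → ℝ) (k : ℕ) (W h : ℝ → ℝ) (l : ℕ) : ℝ :=
  ∫ z, lvh m v (lvW m v k W) l (fun x => lvh m v (lvW m v k W) k h l x ^ 2) 0 (√(v 0) * z)
    ∂(gaussianReal 0 1)

/-- Two special indices, linked exactly at the level `l₀`. -/
theorem Q_eval_two (𝓐 : Arr k w δ) (hcard : Fintype.card δ = 2) {i₀ j₀ : δ} (hne : i₀ ≠ j₀)
    (hw : ∑ l, w l = 1) {m v : ℕ → ℝ} (hv : ∀ l, 0 ≤ v l)
    (hm : ∀ l, 1 ≤ l → l ≤ k → 0 < m l) (hmw : ∀ l : Fin (k + 1), up w l = 1 - m l)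
    {a : ℝ} (ha : 0 < a) {W : ℝ → ℝ} (hW : ∃ W' W'', CB2 W W' W'') (hWa : ∀ x, a ≤ W x)
    (hW1 : ∀ x, W x ≤ 1) {h : ℝ → ℝ} (hh : ∃ h' h'', CB2 h h' h'') (l₀ : Fin (k + 1)) :
    𝓐.Q 1 (cut v k) (fun L => if L i₀ j₀ = l₀ then 1 else 0) (fun _ x => h x * W x)
      (fun x => 1 - W x) =
      𝓐.E (Fin 0) (fun L => if L (Sum.inl i₀) (Sum.inl j₀) = l₀ then 1 else 0) *
        pairVal m v k W h l₀ := by
  have hall : ∀ i : δ, i = i₀ ∨ i = j₀ := by
    intro i
    by_contra hcon
    push Not at hcon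
    have h1 : ({i, i₀, j₀} : Finset δ).card ≤ 2 := by
      rw [← hcard]; exact Finset.card_le_univ _
    have h2 : ({i, i₀, j₀} : Finset δ).card = 3 := by
      rw [Finset.card_eq_three]
      exact ⟨i, i₀, j₀, hcon.1, hcon.2, hne, rfl⟩
    omega
  have huniv : (Finset.univ : Finset δ) = {i₀, j₀} := by
    ext i
    simpa using hall i
  have hspec := lvW_spec (v := v) hm ha hW hWa hW1
  set V := lvW m v k W with hVdef
  set χ : LM k δ → ℝ := fun L => if L i₀ j₀ = l₀ then 1 else 0 with hχ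
  have hl₀ : (l₀ : ℕ) ≤ k := by omega
  -- above `l₀`
  have h1 := 𝓐.Q_chain (e := 1) hcard hv hm hmw ha hspec (fun l hl => lvW_succ hl) χ
    (h := fun _ => h) (fun _ => hh) (s := k) (l₀ := l₀) le_rfl hl₀
    (fun l hl _ i j hij => by
      left
      intro L hL
      simp only [hχ]
      by_cases h2 : L i₀ j₀ = l₀
      · have h3 : L i j = l₀ := by
          rcases hall i with rfl | rfl <;> rcases hall j with rfl | rfl
          · exact absurd rfl hij
          · exact h2
          · rw [hL.symm]; exact h2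
          · exact absurd rfl hij
        unfold lk
        rw [h3, if_neg (show ¬ l ≤ l₀ from not_le.2 hl), mul_zero]
      · rw [if_neg h2, zero_mul])
  have hVk : V k = W := lvW_top
  rw [hVk] at h1
  rw [h1]
  set g : ℝ → ℝ := lvh m v V k h l₀ with hg
  obtain ⟨g', g'', hg0⟩ := lvh_spec (v := v) hm ha hspec le_rfl hh l₀ hl₀
  rw [← hg] at hg0
  obtain ⟨⟨V', V'', hV⟩, h2, h3⟩ := hspec l₀ hl₀
  -- on the link, everything can be moved
  have hχlk : ∀ L, Ultra L → χ L = χ L * lk l₀ i₀ j₀ L := by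
    intro L _
    simp only [hχ]
    by_cases h4 : L i₀ j₀ = l₀
    · unfold lk
      rw [if_pos h4, if_pos (le_of_eq h4.symm), mul_one]
    · rw [if_neg h4, zero_mul]
  have hcl : ∀ l', l₀ < l' → (cut v l₀ : Fin (k + 1) → ℝ) l' = 0 := fun l' hl' => cut_above l' hl'
  have e1 : ∀ A : δ → ℝ → ℝ, 𝓐.Q 1 (cut v l₀) χ A (fun x => 1 - V l₀ x) =
      𝓐.qq 1 (cut v l₀) l₀ χ A (fun x => 1 - V l₀ x) i₀ j₀ fun x => A i₀ x * A j₀ x := by
    intro A
    rw [𝓐.Q_congr 1 _ hχlk]
    have h4 := 𝓐.Q_pair 1 (l := l₀) χ (A := A) (v := fun x => 1 - V l₀ x) hcl hne (A i₀) (A j₀)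
    rw [Function.update_eq_self, Function.update_eq_self] at h4
    exact h4
  have e2 : 𝓐.Q 1 (cut v l₀) χ (fun _ x => g x * V l₀ x) (fun x => 1 - V l₀ x) =
      𝓐.Q 1 (cut v l₀) χ (fun i x => (if i = i₀ then fun x => g x ^ 2 else fun _ => 1) x * V l₀ x)
        (fun x => 1 - V l₀ x) := by
    rw [e1, e1]
    unfold qq
    congr 1
    funext i x
    by_cases hi : i = j₀
    · subst hi
      simp only [Function.update_self]
    · have hi' : i = i₀ := (hall i).resolve_right hi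
      subst hi'
      rw [Function.update_of_ne hne, Function.update_of_ne hne, Function.update_self,
        Function.update_self]
      simp only [if_true, if_neg hne.symm]
      ring
  rw [e2]
  have hg2 : ∃ p' p'', CB2 (fun x => g x ^ 2) p' p'' := by
    have h4 := hg0.mul hg0
    have h5 : (fun x => g x ^ 2) = fun x => g x * g x := by funext x; ring
    rw [h5]
    exact ⟨_, _, h4⟩
  have hone : ∃ p' p'', CB2 (fun _ : ℝ => (1 : ℝ)) p' p'' :=
    ⟨fun _ => 0, fun _ => 0, ⟨fun x => hasDerivAt_const x 1, fun x => hasDerivAt_const x 0,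
      continuous_const, ⟨1, by simp⟩, ⟨0, by simp⟩, ⟨0, by simp⟩⟩⟩
  -- below `l₀`
  have h5 := 𝓐.Q_chain (e := 1) hcard hv hm hmw ha hspec (fun l hl => lvW_succ hl) χ
    (h := fun i => if i = i₀ then fun x => g x ^ 2 else fun _ => 1)
    (fun i => by
      by_cases hi : i = i₀
      · simpa [hi] using hg2
      · simpa [hi] using hone) (s := l₀) (l₀ := 0) hl₀ (Nat.zero_le _)
    (fun l _ _ i j hij => by
      right
      rcases hall i with rfl | rfl
      · right
        rcases hall j with rfl | rfl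
        · exact absurd rfl hij
        · rw [if_neg hne.symm]
      · left
        rw [if_neg hne.symm])
  rw [h5]
  obtain ⟨⟨V0', V0'', hV0⟩, h20, h30⟩ := hspec 0 (Nat.zero_le k)
  obtain ⟨p', p'', hp⟩ := lvh_spec (v := v) hm ha hspec hl₀ hg2 0 (Nat.zero_le _)
  have hone0 := lvh_one (v := v) hm ha hspec hl₀ 0 (Nat.zero_le _)
  rw [𝓐.Q_level0 (e := 1) hw hcard (cut_nonneg hv 0) (fun l hl => cut_above l (by
    rcases Nat.eq_zero_or_pos (l : ℕ) with h | h
    · exact absurd (Fin.ext h) hl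
    · exact h)) χ (fun i => by
      by_cases hi : i = i₀
      · simp only [hi, if_true]
        exact ⟨hp.cont.measurable, hp.b0⟩
      · simp only [hi, if_false, hone0]
        exact BM.const 1) hV0.cont.measurable ha h20 h30]
  rw [huniv]
  simp only [Finset.prod_pair hne, if_true, if_neg hne.symm, hone0, mul_one]
  unfold pairVal
  rw [← hVdef, ← hg]
  have e3 : (cut v 0 : Fin (k + 1) → ℝ) 0 = v 0 := by simp [cut]
  rw [e3]
  rfl

end Arr

end Vale.Agent.P157.Par
end

section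

open MeasureTheory ProbabilityTheory Filter Topology Finset

namespace Vale.Agent.P157.Par

/-- The increments of a path. -/
def incr (q : ℕ → ℝ) : ℕ → ℝ
  | 0 => q 0
  | l + 1 => q (l + 1) - q l

lemma incr_zero_def (q : ℕ → ℝ) : incr q 0 = q 0 := rfl

lemma incr_succ_def (q : ℕ → ℝ) (l : ℕ) : incr q (l + 1) = q (l + 1) - q l := rfl

/-! ### The cascade in terms of the weights -/

lemma flowW_log {m v a : ℝ} (hm : 0 < m) (ha : 0 < a) {W : ℝ → ℝ} (hWm : Measurable W)
    (hWa : ∀ x, a ≤ W x) (hW1 : ∀ x, W x ≤ 1) (x : ℝ) :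
    gstep m v (fun y => Real.log (W y)) x = Real.log (flowW m v W 0 x) := by
  have h1 := heat_mem_Icc (g := fun y => W y ^ m) (hWm.pow_const m) (pow_mem_Icc hm ha hWa hW1)
    (v - 0) x
  have ham : 0 < a ^ m := Real.rpow_pos_of_pos ha m
  unfold gstep flowW
  rw [Real.log_rpow (ham.trans_le h1.1), sub_zero]
  unfold heat
  congr 2
  refine integral_congr_ae (Filter.Eventually.of_forall fun z => ?_)
  simp only
  rw [Real.rpow_def_of_pos (ha.trans_le (hWa _)), mul_comm]

lemma lvW_shift {m v : ℕ → ℝ} {k : ℕ} {W : ℝ → ℝ} : ∀ l ≤ k, lvW m v (k + 1) W l =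
    lvW m v k (flowW (m (k + 1)) (v (k + 1)) W 0) l := by
  apply down_ind
  · rw [lvW_succ (Nat.lt_succ_self k), lvW_top, lvW_top]
  · intro l hl ih
    rw [lvW_succ (by omega), lvW_succ hl, ih]

theorem cascade_log {m q : ℕ → ℝ} {k : ℕ} (hm : ∀ l, 1 ≤ l → l ≤ k → 0 < m l) {a : ℝ}
    (ha : 0 < a) {W : ℝ → ℝ} (hW : ∃ W' W'', CB2 W W' W'') (hWa : ∀ x, a ≤ W x)
    (hW1 : ∀ x, W x ≤ 1) (x : ℝ) :
    cascade m q k (fun x => Real.log (W x)) x = Real.log (lvW m (incr q) k W 0 x) := by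
  induction k generalizing W with
  | zero => rw [lvW_top]; rfl
  | succ k ih =>
    obtain ⟨W', W'', hW⟩ := hW
    have hm' := hm (k + 1) (by omega) le_rfl
    have h1 : gstep (m (k + 1)) (q (k + 1) - q k) (fun x => Real.log (W x)) =
        fun x => Real.log (flowW (m (k + 1)) (incr q (k + 1)) W 0 x) := by
      funext y
      exact flowW_log hm' ha hW.cont.measurable hWa hW1 y
    rw [cascade, h1, lvW_shift 0 (Nat.zero_le k)]
    exact ih (fun l hl hl' => hm l hl (by omega)) (flowW_cb2 hm' ha hW hWa hW1)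
      (fun y => (flowW_mem hm' ha hW.cont.measurable hWa hW1 y).1)
      (fun y => (flowW_mem hm' ha hW.cont.measurable hWa hW1 y).2)

lemma val_integrable_exp_lip {F : ℝ → ℝ} {L : NNReal} (hF : LipschitzWith L F) (m v x : ℝ) :
    Integrable (fun z => Real.exp (m * F (x + √v * z))) (gaussianReal 0 1) := by
  have hF0 : ∀ y, |F y| ≤ |F 0| + L * |y| := by
    intro y
    have h := hF.dist_le_mul y 0
    rw [Real.dist_eq, Real.dist_eq, sub_zero] at h
    have := abs_sub_abs_le_abs_sub (F y) (F 0)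
    linarith
  set c : ℝ := |m| * L * √v with hc
  have hc0 : 0 ≤ c := by positivity
  have hint : Integrable (fun z : ℝ => Real.exp (|m| * (|F 0| + L * |x|)) *
      (Real.exp (c * z) + Real.exp (-c * z))) (gaussianReal 0 1) :=
    ((integrable_exp_mul_gaussianReal c).add (integrable_exp_mul_gaussianReal (-c))).const_mul _
  refine hint.mono' ?_ (Filter.Eventually.of_forall fun z => ?_)
  · have := hF.continuous
    exact (by fun_prop : Continuous fun z : ℝ =>
      Real.exp (m * F (x + √v * z))).aestronglyMeasurable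
  · rw [Real.norm_eq_abs, Real.abs_exp]
    have h1 : m * F (x + √v * z) ≤ |m| * (|F 0| + L * |x|) + c * |z| := by
      calc m * F (x + √v * z) ≤ |m * F (x + √v * z)| := le_abs_self _
        _ = |m| * |F (x + √v * z)| := abs_mul _ _
        _ ≤ |m| * (|F 0| + L * (|x| + √v * |z|)) := by
            have h2 := hF0 (x + √v * z)
            have h3 : |x + √v * z| ≤ |x| + √v * |z| := by
              refine (abs_add_le _ _).trans ?_
              rw [abs_mul, abs_of_nonneg (Real.sqrt_nonneg v)]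
            have h4 : (L : ℝ) * |x + √v * z| ≤ L * (|x| + √v * |z|) :=
              mul_le_mul_of_nonneg_left h3 L.2
            exact mul_le_mul_of_nonneg_left (by linarith) (abs_nonneg m)
        _ = _ := by rw [hc]; ring
    refine (Real.exp_le_exp.2 h1).trans ?_
    rw [Real.exp_add]
    refine mul_le_mul_of_nonneg_left ?_ (Real.exp_pos _).le
    rcases le_total 0 z with hz | hz
    · rw [abs_of_nonneg hz]
      linarith [Real.exp_pos (-c * z)]
    · rw [abs_of_nonpos hz]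
      have : c * -z = -c * z := by ring
      rw [this]
      linarith [Real.exp_pos (c * z)]

lemma val_integral_exp_lip_pos {F : ℝ → ℝ} {L : NNReal} (hF : LipschitzWith L F) (m v x : ℝ) :
    0 < ∫ z, Real.exp (m * F (x + √v * z)) ∂(gaussianReal 0 1) :=
  integral_exp_pos (val_integrable_exp_lip hF m v x)

lemma val_gstep_lip {m v : ℝ} (hm : 0 < m) {F : ℝ → ℝ} {L : NNReal} (hF : LipschitzWith L F) :
    LipschitzWith L (gstep m v F) := by
  have key : ∀ x y, gstep m v F x ≤ gstep m v F y + L * |x - y| := by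
    intro x y
    unfold gstep
    have h1 : ∫ z, Real.exp (m * F (x + √v * z)) ∂(gaussianReal 0 1) ≤
        Real.exp (m * (L * |x - y|)) * ∫ z, Real.exp (m * F (y + √v * z)) ∂(gaussianReal 0 1) := by
      rw [← integral_const_mul]
      refine integral_mono (val_integrable_exp_lip hF m v x)
        ((val_integrable_exp_lip hF m v y).const_mul _) fun z => ?_
      simp only
      rw [← Real.exp_add, Real.exp_le_exp, ← mul_add]
      refine mul_le_mul_of_nonneg_left ?_ hm.le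
      have h := hF.dist_le_mul (x + √v * z) (y + √v * z)
      rw [Real.dist_eq, Real.dist_eq] at h
      have e : x + √v * z - (y + √v * z) = x - y := by ring
      rw [e] at h
      have := le_abs_self (F (x + √v * z) - F (y + √v * z))
      linarith
    have h2 := Real.log_le_log (val_integral_exp_lip_pos hF m v x) h1
    rw [Real.log_mul (Real.exp_pos _).ne' (val_integral_exp_lip_pos hF m v y).ne', Real.log_exp] at h2
    have h3 := mul_le_mul_of_nonneg_left h2 (by positivity : 0 ≤ 1 / m)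
    rw [mul_add] at h3
    have h4 : 1 / m * (m * (L * |x - y|)) = L * |x - y| := by field_simp
    linarith
  refine LipschitzWith.of_dist_le_mul fun x y => ?_
  rw [Real.dist_eq, Real.dist_eq, abs_le]
  have h1 := key x y
  have h2 := key y x
  rw [abs_sub_comm y x] at h2
  constructor <;> linarith

lemma val_gstep_add_const {m v : ℝ} (hm : 0 < m) {F : ℝ → ℝ} {L : NNReal} (hF : LipschitzWith L F)
    (c x : ℝ) : gstep m v (fun x => F x + c) x = gstep m v F x + c := by
  unfold gstep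
  have h1 : ∫ z, Real.exp (m * (F (x + √v * z) + c)) ∂(gaussianReal 0 1) =
      Real.exp (m * c) * ∫ z, Real.exp (m * F (x + √v * z)) ∂(gaussianReal 0 1) := by
    rw [← integral_const_mul]
    refine integral_congr_ae (Filter.Eventually.of_forall fun z => ?_)
    simp only
    rw [← Real.exp_add]
    congr 1
    ring
  rw [h1, Real.log_mul (Real.exp_pos _).ne' (val_integral_exp_lip_pos hF m v x).ne', Real.log_exp]
  field_simp
  ring

theorem cascade_add_const {m q : ℕ → ℝ} {k : ℕ} (hm : ∀ l, 1 ≤ l → l ≤ k → 0 < m l)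
    {F : ℝ → ℝ} {L : NNReal} (hF : LipschitzWith L F) (c x : ℝ) :
    cascade m q k (fun x => F x + c) x = cascade m q k F x + c := by
  induction k generalizing F with
  | zero => rfl
  | succ k ih =>
    have hm' := hm (k + 1) (by omega) le_rfl
    have h1 : gstep (m (k + 1)) (q (k + 1) - q k) (fun x => F x + c) =
        fun x => gstep (m (k + 1)) (q (k + 1) - q k) F x + c := by
      funext y
      exact val_gstep_add_const hm' hF c y
    rw [cascade, h1, cascade]
    exact ih (fun l hl hl' => hm l hl (by omega)) (val_gstep_lip hm' hF)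

lemma val_log_lip {a : ℝ} (ha : 0 < a) {W W' W'' : ℝ → ℝ} (hW : CB2 W W' W'')
    (hWa : ∀ x, a ≤ W x) : ∃ L : NNReal, LipschitzWith L fun x => Real.log (W x) := by
  obtain ⟨C, hC⟩ := hW.b1
  have hC0 : 0 ≤ C := (abs_nonneg _).trans (hC 0)
  refine ⟨(C / a).toNNReal, ?_⟩
  refine lipschitzWith_of_nnnorm_deriv_le (fun x => ?_) (fun x => ?_)
  · exact ((hW.d1 x).log (ha.trans_le (hWa x)).ne').differentiableAt
  · rw [((hW.d1 x).log (ha.trans_le (hWa x)).ne').deriv, ← NNReal.coe_le_coe, coe_nnnorm,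
      Real.norm_eq_abs, abs_div, abs_of_pos (ha.trans_le (hWa x)),
      Real.coe_toNNReal _ (by positivity)]
    exact div_le_div₀ hC0 (hC x) ha (hWa x)

/-- The pattern part. -/
theorem patternPart_eq {m q : ℕ → ℝ} {k : ℕ} (hm : ∀ l, 1 ≤ l → l ≤ k → 0 < m l)
    {f : ℝ → ℝ} {c a : ℝ} (hc : 0 < c) (ha : 0 < a)
    (hW : ∃ W' W'', CB2 (fun x => Real.exp (f x) / c) W' W'')
    (hWa : ∀ x, a ≤ Real.exp (f x) / c) (hW1 : ∀ x, Real.exp (f x) / c ≤ 1) (hq : q k ≤ 1) :
    patternPart f k m q = Real.log c +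
      ∫ z, Real.log (lvW m (incr q) k (flowW 1 (1 - q k) (fun x => Real.exp (f x) / c) 0) 0
        (√(incr q 0) * z)) ∂(gaussianReal 0 1) := by
  obtain ⟨W', W'', hW⟩ := hW
  set W : ℝ → ℝ := fun x => Real.exp (f x) / c with hWdef
  set V : ℝ → ℝ := flowW 1 (1 - q k) W 0 with hV
  have hVcb : ∃ V' V'', CB2 V V' V'' := flowW_cb2 one_pos ha hW hWa hW1
  have hVa : ∀ x, a ≤ V x := fun x => (flowW_mem one_pos ha hW.cont.measurable hWa hW1 x).1
  have hV1 : ∀ x, V x ≤ 1 := fun x => (flowW_mem one_pos ha hW.cont.measurable hWa hW1 x).2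
  have h1 : (fun x => Real.log (∫ y, Real.exp (f (x + √(1 - q k) * y)) ∂(gaussianReal 0 1))) =
      fun x => Real.log (V x) + Real.log c := by
    funext x
    have e1 : ∫ y, Real.exp (f (x + √(1 - q k) * y)) ∂(gaussianReal 0 1) = V x * c := by
      rw [hV]
      unfold flowW heat
      rw [sub_zero, div_one, Real.rpow_one, ← integral_mul_const]
      refine integral_congr_ae (Filter.Eventually.of_forall fun z => ?_)
      simp only [hWdef, Real.rpow_one]
      field_simp
    rw [e1, Real.log_mul (ha.trans_le (hVa x)).ne' hc.ne']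
  obtain ⟨V', V'', hVc⟩ := hVcb
  obtain ⟨L, hL⟩ := val_log_lip ha hVc hVa
  unfold patternPart
  rw [h1]
  have h2 : ∀ z, cascade m q k (fun x => Real.log (V x) + Real.log c) (√(q 0) * z) =
      Real.log (lvW m (incr q) k V 0 (√(incr q 0) * z)) + Real.log c := by
    intro z
    rw [cascade_add_const hm hL, cascade_log hm ha ⟨V', V'', hVc⟩ hVa hV1]
    rfl
  simp only [h2]
  obtain ⟨⟨U', U'', hU⟩, h3, h4⟩ := lvW_spec (v := incr q) hm ha ⟨V', V'', hVc⟩ hVa hV1 0
    (Nat.zero_le k)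
  have hint : Integrable (fun z => Real.log (lvW m (incr q) k V 0 (√(incr q 0) * z)))
      (gaussianReal 0 1) := by
    refine Integrable.mono' (integrable_const (|Real.log a|)) ?_
      (Filter.Eventually.of_forall fun z => ?_)
    · exact ((Real.measurable_log.comp hU.cont.measurable).comp
        (by fun_prop)).aestronglyMeasurable
    · rw [Real.norm_eq_abs]
      have h5 := Real.log_le_log ha (h3 (√(incr q 0) * z))
      have h6 := Real.log_nonpos (ha.le.trans (h3 (√(incr q 0) * z))) (h4 (√(incr q 0) * z))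
      rw [abs_of_nonpos h6, abs_of_nonpos (h5.trans h6)]
      linarith
  rw [integral_add hint (integrable_const _), integral_const]
  simp only [probReal_univ, one_smul]
  ring

/-! ### Pair values -/

lemma val_flowh_mono {m σ a : ℝ} (hm : 0 < m) (ha : 0 < a) {W : ℝ → ℝ} (hWm : Measurable W)
    (hWa : ∀ x, a ≤ W x) (hW1 : ∀ x, W x ≤ 1) {h g : ℝ → ℝ} (hh : Measurable h)
    (hg : Measurable g) {B C : ℝ} (hB : ∀ x, |h x| ≤ B) (hC : ∀ x, |g x| ≤ C)
    (hle : ∀ x, h x ≤ g x) (x : ℝ) : flowh m σ W h 0 x ≤ flowh m σ W g 0 x := by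
  have hpow := pow_mem_Icc hm ha hWa hW1
  have hgm : Measurable fun y => W y ^ m := hWm.pow_const m
  have h1 := heat_mem_Icc (g := fun y => W y ^ m) hgm hpow (σ - 0) x
  have ham : 0 < a ^ m := Real.rpow_pos_of_pos ha m
  have hbd : ∀ {p : ℝ → ℝ} {D : ℝ}, (∀ x, |p x| ≤ D) → ∀ x, |p x * W x ^ m| ≤ D := by
    intro p D hD x
    have h2 := (hpow x).1
    have h3 := (hpow x).2
    rw [Real.one_rpow] at h3
    rw [abs_mul, abs_of_nonneg (ham.le.trans h2)]
    calc |p x| * W x ^ m ≤ |p x| * 1 := mul_le_mul_of_nonneg_left h3 (abs_nonneg _)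
      _ ≤ D := by rw [mul_one]; exact hD x
  unfold flowh
  refine div_le_div_of_nonneg_right ?_ (ham.le.trans h1.1)
  unfold heat
  refine integral_mono (integrable_heat (hh.mul hgm) (hbd hB) _ _)
    (integrable_heat (hg.mul hgm) (hbd hC) _ _) fun z => ?_
  simp only
  exact mul_le_mul_of_nonneg_right (hle _) (ham.le.trans (hpow _).1)

lemma val_flowh_const {m σ a : ℝ} (hm : 0 < m) (ha : 0 < a) {W : ℝ → ℝ} (hWm : Measurable W)
    (hWa : ∀ x, a ≤ W x) (hW1 : ∀ x, W x ≤ 1) (c x : ℝ) :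
    flowh m σ W (fun _ => c) 0 x = c := by
  have h1 := flowh_one (t := 0) (σ := σ) hm ha hWm hWa hW1 x
  unfold flowh at h1 ⊢
  have e : heat (σ - 0) (fun y => c * W y ^ m) x = c * heat (σ - 0) (fun y => 1 * W y ^ m) x := by
    unfold heat
    rw [← integral_const_mul]
    refine integral_congr_ae (Filter.Eventually.of_forall fun z => ?_)
    simp only
    ring
  rw [e, mul_div_assoc, h1, mul_one]

section

variable {m v : ℕ → ℝ} {k : ℕ} {V : ℕ → ℝ → ℝ} {s : ℕ}

lemma lvh_mono (hm : ∀ l, 1 ≤ l → l ≤ k → 0 < m l) {a : ℝ} (ha : 0 < a)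
    (hV : ∀ l ≤ k, (∃ V' V'', CB2 (V l) V' V'') ∧ (∀ x, a ≤ V l x) ∧ ∀ x, V l x ≤ 1)
    (hs : s ≤ k) {h g : ℝ → ℝ} (hh : ∃ h' h'', CB2 h h' h'') (hg : ∃ h' h'', CB2 g h' h'')
    (hle : ∀ x, h x ≤ g x) : ∀ l ≤ s, ∀ x, lvh m v V s h l x ≤ lvh m v V s g l x := by
  have hh1 := lvh_spec (v := v) hm ha hV hs hh
  have hg1 := lvh_spec (v := v) hm ha hV hs hg
  apply down_ind
  · intro x
    rw [lvh_top, lvh_top]
    exact hle x
  · intro l hl ih x
    have hm' := hm (l + 1) (by omega) (by omega)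
    obtain ⟨⟨V', V'', hV0⟩, h1, h2⟩ := hV (l + 1) (by omega)
    obtain ⟨p', p'', hp⟩ := hh1 (l + 1) (by omega)
    obtain ⟨r', r'', hr⟩ := hg1 (l + 1) (by omega)
    obtain ⟨B, hB⟩ := hp.b0
    obtain ⟨C, hC⟩ := hr.b0
    rw [lvh_succ hl, lvh_succ hl]
    exact val_flowh_mono hm' ha hV0.cont.measurable h1 h2 hp.cont.measurable hr.cont.measurable
      hB hC ih x

lemma lvh_const (hm : ∀ l, 1 ≤ l → l ≤ k → 0 < m l) {a : ℝ} (ha : 0 < a)
    (hV : ∀ l ≤ k, (∃ V' V'', CB2 (V l) V' V'') ∧ (∀ x, a ≤ V l x) ∧ ∀ x, V l x ≤ 1)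
    (hs : s ≤ k) (c : ℝ) : ∀ l ≤ s, lvh m v V s (fun _ => c) l = fun _ => c := by
  apply down_ind
  · rw [lvh_top]
  · intro l hl ih
    have hm' := hm (l + 1) (by omega) (by omega)
    obtain ⟨⟨V', V'', hV0⟩, h1, h2⟩ := hV (l + 1) (by omega)
    rw [lvh_succ hl, ih]
    funext x
    exact val_flowh_const hm' ha hV0.cont.measurable h1 h2 c x

end

lemma CB2.const_fn (c : ℝ) : ∃ p' p'', CB2 (fun _ : ℝ => c) p' p'' :=
  ⟨fun _ => 0, fun _ => 0, ⟨fun x => hasDerivAt_const x c, fun x => hasDerivAt_const x 0,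
    continuous_const, ⟨|c|, by simp⟩, ⟨0, by simp⟩, ⟨0, by simp⟩⟩⟩

lemma CB2.sq_fn {g g' g'' : ℝ → ℝ} (h : CB2 g g' g'') : ∃ p' p'', CB2 (fun x => g x ^ 2) p' p'' := by
  have h4 := h.mul h
  have h5 : (fun x => g x ^ 2) = fun x => g x * g x := by funext x; ring
  rw [h5]
  exact ⟨_, _, h4⟩

lemma CB2.integrable_fn {g g' g'' : ℝ → ℝ} (h : CB2 g g' g'') (t : ℝ) :
    Integrable (fun z => g (t * z)) (gaussianReal 0 1) := by
  obtain ⟨C, hC⟩ := h.b0
  refine Integrable.mono' (integrable_const C) ?_ (Filter.Eventually.of_forall fun z => hC _)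
  exact (h.cont.measurable.comp (by fun_prop)).aestronglyMeasurable

section

variable {m v : ℕ → ℝ} {k : ℕ} {a : ℝ} {W h : ℝ → ℝ}

/-- Regularity of the square of the observable at the level `l`. -/
lemma pair_spec (hm : ∀ l, 1 ≤ l → l ≤ k → 0 < m l)
    (ha : 0 < a) (hW : ∃ W' W'', CB2 W W' W'') (hWa : ∀ x, a ≤ W x)
    (hW1 : ∀ x, W x ≤ 1) (hh : ∃ h' h'', CB2 h h' h'') {l : ℕ} (hl : l ≤ k) :
    (∃ p' p'', CB2 (fun x => lvh m v (lvW m v k W) k h l x ^ 2) p' p'') ∧
    ∃ p' p'', CB2 (lvh m v (lvW m v k W) l (fun x => lvh m v (lvW m v k W) k h l x ^ 2) 0)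
      p' p'' := by
  have hspec := lvW_spec (v := v) hm ha hW hWa hW1
  obtain ⟨g', g'', hg⟩ := lvh_spec (v := v) hm ha hspec le_rfl hh l hl
  exact ⟨hg.sq_fn, lvh_spec (v := v) hm ha hspec hl hg.sq_fn 0 (Nat.zero_le l)⟩

end

theorem pairVal_nonneg {m v : ℕ → ℝ} {k : ℕ} (hm : ∀ l, 1 ≤ l → l ≤ k → 0 < m l) {a : ℝ}
    (ha : 0 < a) {W h : ℝ → ℝ} (hW : ∃ W' W'', CB2 W W' W'') (hWa : ∀ x, a ≤ W x)
    (hW1 : ∀ x, W x ≤ 1) (hh : ∃ h' h'', CB2 h h' h'') {l : ℕ} (hl : l ≤ k) :
    0 ≤ Arr.pairVal m v k W h l := by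
  have hspec := lvW_spec (v := v) hm ha hW hWa hW1
  obtain ⟨h1, -⟩ := pair_spec (v := v) hm ha hW hWa hW1 hh hl
  have h2 := lvh_mono (v := v) hm ha hspec hl (CB2.const_fn 0) h1 (fun x => sq_nonneg _) 0
    (Nat.zero_le l)
  rw [lvh_const (v := v) hm ha hspec hl 0 0 (Nat.zero_le l)] at h2
  exact integral_nonneg fun z => h2 _

theorem pairVal_mono {m v : ℕ → ℝ} {k : ℕ} (hm : ∀ l, 1 ≤ l → l ≤ k → 0 < m l) {a : ℝ}
    (ha : 0 < a) {W h : ℝ → ℝ} (hW : ∃ W' W'', CB2 W W' W'') (hWa : ∀ x, a ≤ W x)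
    (hW1 : ∀ x, W x ≤ 1) (hh : ∃ h' h'', CB2 h h' h'') {l : ℕ} (hl : l < k) :
    Arr.pairVal m v k W h l ≤ Arr.pairVal m v k W h (l + 1) := by
  have hspec := lvW_spec (v := v) hm ha hW hWa hW1
  obtain ⟨h1, g', g'', hg⟩ := pair_spec (v := v) hm ha hW hWa hW1 hh (l := l) (by omega)
  obtain ⟨h2, r', r'', hr⟩ := pair_spec (v := v) hm ha hW hWa hW1 hh (l := l + 1) (by omega)
  set V := lvW m v k W with hV
  have hm' := hm (l + 1) (by omega) (by omega)
  obtain ⟨⟨V', V'', hV0⟩, h3, h4⟩ := hspec (l + 1) (by omega)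
  obtain ⟨u', u'', hu⟩ := lvh_spec (v := v) hm ha hspec le_rfl hh (l + 1) (by omega)
  obtain ⟨C, hC⟩ := hu.b0
  have h5 : ∀ x, lvh m v V k h l x ^ 2 ≤
      lvh m v V (l + 1) (fun x => lvh m v V k h (l + 1) x ^ 2) l x := by
    intro x
    rw [lvh_succ hl, lvh_succ (Nat.lt_succ_self l), lvh_top]
    exact flowh_sq hm' ha hV0.cont.measurable h3 h4 hu.cont.measurable hC x
  have h6 : ∃ h' h'', CB2 (lvh m v V (l + 1) (fun x => lvh m v V k h (l + 1) x ^ 2) l) h' h'' :=
    lvh_spec (v := v) hm ha hspec (by omega) h2 l (by omega)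
  have h7 := lvh_mono (v := v) hm ha hspec (s := l) (by omega) h1 h6 h5 0 (Nat.zero_le l)
  rw [lvh_lvh (Nat.le_succ l) 0 (Nat.zero_le l)] at h7
  exact integral_mono (hg.integrable_fn _) (hr.integrable_fn _) fun z => h7 _

theorem pairVal_le {m v : ℕ → ℝ} {k : ℕ} (hm : ∀ l, 1 ≤ l → l ≤ k → 0 < m l) {a : ℝ}
    (ha : 0 < a) {W h : ℝ → ℝ} (hW : ∃ W' W'', CB2 W W' W'') (hWa : ∀ x, a ≤ W x)
    (hW1 : ∀ x, W x ≤ 1) (hh : ∃ h' h'', CB2 h h' h'') {B : ℝ} (hB : ∀ x, |h x| ≤ B) {l : ℕ}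
    (hl : l ≤ k) : Arr.pairVal m v k W h l ≤ B ^ 2 := by
  have hspec := lvW_spec (v := v) hm ha hW hWa hW1
  obtain ⟨h1, g', g'', hg⟩ := pair_spec (v := v) hm ha hW hWa hW1 hh hl
  have h2 := lvh_mono (v := v) hm ha hspec le_rfl hh (CB2.const_fn B)
    (fun x => (le_abs_self _).trans (hB x)) l hl
  have h3 := lvh_mono (v := v) hm ha hspec le_rfl (CB2.const_fn (-B)) hh
    (fun x => (abs_le.1 (hB x)).1) l hl
  rw [lvh_const (v := v) hm ha hspec le_rfl _ l hl] at h2 h3
  have h4 : ∀ x, lvh m v (lvW m v k W) k h l x ^ 2 ≤ B ^ 2 := fun x =>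
    sq_le_sq' (h3 x) (h2 x)
  have h5 := lvh_mono (v := v) hm ha hspec hl h1 (CB2.const_fn (B ^ 2)) h4 0 (Nat.zero_le l)
  rw [lvh_const (v := v) hm ha hspec hl _ 0 (Nat.zero_le l)] at h5
  have h6 : Arr.pairVal m v k W h l ≤ ∫ _, B ^ 2 ∂(gaussianReal 0 1) :=
    integral_mono (hg.integrable_fn _) (integrable_const _) fun z => h5 _
  simpa using h6

/-- with the observable `1` the pair value is `1` -/
theorem pairVal_one {m v : ℕ → ℝ} {k : ℕ} (hm : ∀ l, 1 ≤ l → l ≤ k → 0 < m l) {a : ℝ}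
    (ha : 0 < a) {W : ℝ → ℝ} (hW : ∃ W' W'', CB2 W W' W'') (hWa : ∀ x, a ≤ W x)
    (hW1 : ∀ x, W x ≤ 1) {l : ℕ} (hl : l ≤ k) : Arr.pairVal m v k W (fun _ => 1) l = 1 := by
  have hspec := lvW_spec (v := v) hm ha hW hWa hW1
  unfold Arr.pairVal
  rw [lvh_one (v := v) hm ha hspec le_rfl l hl]
  simp only [one_pow]
  rw [lvh_one (v := v) hm ha hspec hl 0 (Nat.zero_le l)]
  simp

end Vale.Agent.P157.Par
end

section

open MeasureTheory ProbabilityTheory Filter Topology Finset

namespace Vale.Agent.P157.Par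

open Vale.Agent.P367.GT (gM)

/-- Functions with three bounded derivatives. -/
structure CB3 (C : ℝ) (f f1 f2 f3 : ℝ → ℝ) : Prop where
  d1 : ∀ x, HasDerivAt f (f1 x) x
  d2 : ∀ x, HasDerivAt f1 (f2 x) x
  d3 : ∀ x, HasDerivAt f2 (f3 x) x
  b0 : ∀ x, |f x| ≤ C
  b1 : ∀ x, |f1 x| ≤ C
  b2 : ∀ x, |f2 x| ≤ C
  b3 : ∀ x, |f3 x| ≤ C

/-- the linearized energy of one pattern; `S` is the field of the system, `H` the new field -/
noncomputable def linE (δ : ℝ) (f f1 f2 : ℝ → ℝ) (S H : ℝ) : ℝ :=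
  f S + √δ * f1 S * H + δ / 2 * (f2 S - S * f1 S)

namespace Lin

/-- exponential constant -/
noncomputable def cc (C : ℝ) : ℝ := 2 * C ^ 2 + 6 * C + 5

lemma absorb {C T : ℝ} (hC : 0 ≤ C) (hT : 1 ≤ T) :
    Real.exp C * ((2 * C ^ 2 + 4 * C + 1) * T ^ 4 * Real.exp (C * T)) ≤ Real.exp (cc C * T) := by
  have hk : 0 ≤ 2 * C ^ 2 + 4 * C + 1 := by positivity
  have e1 : Real.exp C ≤ Real.exp (C * T) := Real.exp_le_exp.2 (le_mul_of_one_le_right hC hT)
  have e2 : 2 * C ^ 2 + 4 * C + 1 ≤ Real.exp ((2 * C ^ 2 + 4 * C + 1) * T) := by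
    have h1 := Real.add_one_le_exp ((2 * C ^ 2 + 4 * C + 1) * T)
    have h2 := le_mul_of_one_le_right hk hT
    linarith only [h1, h2]
  have e3 : T ^ 4 ≤ Real.exp (4 * T) := by
    have h1 : T ≤ Real.exp T := by linarith [Real.add_one_le_exp T]
    calc T ^ 4 ≤ Real.exp T ^ 4 := pow_le_pow_left₀ (by linarith) h1 4
      _ = Real.exp (4 * T) := by rw [← Real.exp_nat_mul]; norm_num
  have hT0 : 0 ≤ T := by linarith
  calc Real.exp C * ((2 * C ^ 2 + 4 * C + 1) * T ^ 4 * Real.exp (C * T))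
      ≤ Real.exp (C * T) * (Real.exp ((2 * C ^ 2 + 4 * C + 1) * T) * Real.exp (4 * T)
          * Real.exp (C * T)) := by gcongr
    _ = Real.exp (cc C * T) := by
        rw [← Real.exp_add, ← Real.exp_add, ← Real.exp_add]
        congr 1
        unfold cc
        ring

lemma mvt {g g' : ℝ → ℝ} {M x : ℝ} (hd : ∀ y, HasDerivAt g (g' y) y)
    (hM : ∀ y, |y| ≤ |x| → |g' y| ≤ M) : |g x - g 0| ≤ M * |x| := by
  have h := Convex.norm_image_sub_le_of_norm_hasDerivWithin_le (f := g) (f' := g') (C := M)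
    (s := Metric.closedBall (0 : ℝ) |x|) (x := 0) (y := x)
    (fun y _ => (hd y).hasDerivWithinAt)
    (fun y hy => by
      rw [mem_closedBall_zero_iff, Real.norm_eq_abs] at hy
      exact hM y hy)
    (convex_closedBall _ _) (Metric.mem_closedBall_self (abs_nonneg _))
    (by rw [mem_closedBall_zero_iff, Real.norm_eq_abs])
  rw [sub_zero] at h
  exact h

variable {C : ℝ} {f f1 f2 f3 : ℝ → ℝ}

lemma C_nonneg (hf : CB3 C f f1 f2 f3) : 0 ≤ C := (abs_nonneg _).trans (hf.b0 0)

lemma lip (hf : CB3 C f f1 f2 f3) (s x : ℝ) : |f (s + x) - f s| ≤ C * |x| := by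
  have h := mvt (g := fun y => f (s + y)) (g' := fun y => f1 (s + y)) (M := C) (x := x)
    (fun y => by
      have := (hf.d1 (s + y)).comp y ((hasDerivAt_id y).const_add s)
      rwa [mul_one] at this)
    (fun y _ => hf.b1 _)
  simp only [add_zero] at h
  exact h

lemma lip2 (hf : CB3 C f f1 f2 f3) (s x : ℝ) : |f2 (s + x) - f2 s| ≤ C * |x| := by
  have h := mvt (g := fun y => f2 (s + y)) (g' := fun y => f3 (s + y)) (M := C) (x := x)
    (fun y => by
      have := (hf.d3 (s + y)).comp y ((hasDerivAt_id y).const_add s)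
      rwa [mul_one] at this)
    (fun y _ => hf.b3 _)
  simp only [add_zero] at h
  exact h

lemma taylor1 (hf : CB3 C f f1 f2 f3) (s x : ℝ) : |f1 (s + x) - f1 s - f2 s * x| ≤ C * |x| ^ 2 := by
  have hC := C_nonneg hf
  have h := mvt (g := fun y => f1 (s + y) - f1 s - f2 s * y) (g' := fun y => f2 (s + y) - f2 s)
    (M := C * |x|) (x := x)
    (fun y => by
      have h1 := (hf.d2 (s + y)).comp y ((hasDerivAt_id y).const_add s)
      have h2 := (h1.sub_const (f1 s)).sub ((hasDerivAt_id y).const_mul (f2 s))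
      rw [mul_one, mul_one] at h2
      exact h2)
    (fun y hy => (lip2 hf s y).trans (mul_le_mul_of_nonneg_left hy hC))
  simp only [add_zero, mul_zero, sub_self, sub_zero] at h
  calc _ ≤ C * |x| * |x| := h
    _ = _ := by ring

lemma taylor2 (hf : CB3 C f f1 f2 f3) (s x : ℝ) :
    |f (s + x) - f s - f1 s * x - f2 s * (x ^ 2 / 2)| ≤ C * |x| ^ 3 := by
  have hC := C_nonneg hf
  have h := mvt (g := fun y => f (s + y) - f s - f1 s * y - f2 s * (y ^ 2 / 2))
    (g' := fun y => f1 (s + y) - f1 s - f2 s * y) (M := C * |x| ^ 2) (x := x)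
    (fun y => by
      have h1 := (hf.d1 (s + y)).comp y ((hasDerivAt_id y).const_add s)
      have h2 := (h1.sub_const (f s)).sub ((hasDerivAt_id y).const_mul (f1 s))
      have h3 := h2.sub (((hasDerivAt_pow 2 y).div_const 2).const_mul (f2 s))
      have e : f1 (s + y) * 1 - f1 s * 1 - f2 s * (((2 : ℕ) : ℝ) * y ^ (2 - 1) / 2)
          = f1 (s + y) - f1 s - f2 s * y := by
        norm_num
      rw [e] at h3
      exact h3)
    (fun y hy => (taylor1 hf s y).trans (mul_le_mul_of_nonneg_left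
      (pow_le_pow_left₀ (abs_nonneg _) hy 2) hC))
  simp only [add_zero, mul_zero, sub_self, sub_zero, ne_eq, OfNat.ofNat_ne_zero, not_false_eq_true,
    zero_pow, zero_div] at h
  calc _ ≤ C * |x| ^ 2 * |x| := h
    _ = _ := by ring

lemma sqrt_facts {δ : ℝ} (h0 : 0 ≤ δ) (h1 : δ ≤ 1) :
    0 ≤ 1 - √(1 - δ) ∧ 1 - √(1 - δ) ≤ δ ∧ |1 - √(1 - δ) - δ / 2| ≤ δ ^ 2 / 2 := by
  set q := √(1 - δ) with hq
  have hq0 : 0 ≤ q := Real.sqrt_nonneg _
  have hq2 : q ^ 2 = 1 - δ := Real.sq_sqrt (by linarith)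
  have hq1 : q ≤ 1 := by nlinarith only [h0, hq2, hq0]
  have hd : δ = (1 - q) * (1 + q) := by linarith only [hq2]
  refine ⟨by linarith, by nlinarith only [hq2, hq0, hq1], ?_⟩
  have e : 1 - q - δ / 2 = (1 - q) ^ 2 / 2 := by rw [hd]; ring
  rw [e, abs_of_nonneg (by positivity)]
  have h5 : 1 - q ≤ δ := by nlinarith only [hq2, h0, hq0]
  have h6 : (1 - q) ^ 2 ≤ δ ^ 2 := pow_le_pow_left₀ (by linarith) h5 2
  linarith

/-- first-order bounds -/
lemma bd_a (hf : CB3 C f f1 f2 f3) {δ : ℝ} (h0 : 0 ≤ δ) (h1 : δ ≤ 1) (s h : ℝ) :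
    |f (√(1 - δ) * s + √δ * h) - f s| ≤ C * √δ * (1 + |s| + |h|) := by
  have hC := C_nonneg hf
  obtain ⟨g1, g2, -⟩ := sqrt_facts h0 h1
  have hr0 : 0 ≤ √δ := Real.sqrt_nonneg _
  have hr2 : √δ ^ 2 = δ := Real.sq_sqrt h0
  have hr1 : √δ ≤ 1 := by nlinarith only [h1, hr2, hr0]
  have hδr : δ ≤ √δ := by nlinarith only [hr2, hr0, hr1]
  have e : √(1 - δ) * s + √δ * h = s + (√δ * h - (1 - √(1 - δ)) * s) := by ring
  rw [e]
  refine (lip hf s _).trans ?_
  rw [mul_assoc]
  refine mul_le_mul_of_nonneg_left ?_ hC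
  calc |√δ * h - (1 - √(1 - δ)) * s| ≤ |√δ * h| + |(1 - √(1 - δ)) * s| := abs_sub _ _
    _ = √δ * |h| + (1 - √(1 - δ)) * |s| := by
        rw [abs_mul, abs_mul, abs_of_nonneg hr0, abs_of_nonneg g1]
    _ ≤ √δ * |h| + √δ * |s| := by
        have : (1 - √(1 - δ)) * |s| ≤ √δ * |s| :=
          mul_le_mul_of_nonneg_right (g2.trans hδr) (abs_nonneg _)
        linarith
    _ ≤ √δ * (1 + |s| + |h|) := by linarith only [hr0]

lemma bd_b (hf : CB3 C f f1 f2 f3) {δ : ℝ} (h0 : 0 ≤ δ) (h1 : δ ≤ 1) (s h : ℝ) :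
    |linE δ f f1 f2 s h - f s| ≤ C * √δ * (1 + |s| + |h|) := by
  have hC := C_nonneg hf
  have hr0 : 0 ≤ √δ := Real.sqrt_nonneg _
  have hr2 : √δ ^ 2 = δ := Real.sq_sqrt h0
  have hr1 : √δ ≤ 1 := by (by_contra nlg; linarith [mul_eq_zero_of_left (sub_eq_zero.2 hr2) (√δ - (0)), mul_nonneg (sub_nonneg.2 h1) (sub_nonneg.2 hr0), mul_eq_zero_of_left (sub_eq_zero.2 hr2) (√δ - (1)), mul_nonneg (le_of_lt (sub_pos.2 (not_le.1 nlg))) (sub_nonneg.2 h1), mul_pos (sub_pos.2 (not_le.1 nlg)) (sub_pos.2 (not_le.1 nlg)), mul_nonneg (sq_nonneg (√δ : ℝ)) (le_of_lt (sub_pos.2 (not_le.1 nlg)))])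
  have hδr : δ ≤ √δ := by linarith only [mul_nonneg (sub_nonneg.2 hr0) (sub_nonneg.2 hr1), mul_eq_zero_of_left (sub_eq_zero.2 hr2) (1 - (√δ)), mul_eq_zero_of_left (sub_eq_zero.2 hr2) (√δ - (0))]
  have e : linE δ f f1 f2 s h - f s = √δ * f1 s * h + δ / 2 * (f2 s - s * f1 s) := by
    unfold linE; ring
  rw [e]
  have e1 : |√δ * f1 s * h| ≤ √δ * (C * |h|) := by
    rw [abs_mul, abs_mul, abs_of_nonneg hr0, mul_assoc]
    exact mul_le_mul_of_nonneg_left (mul_le_mul_of_nonneg_right (hf.b1 s) (abs_nonneg _)) hr0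
  have e2 : |δ / 2 * (f2 s - s * f1 s)| ≤ √δ * (C * (1 + |s|)) := by
    rw [abs_mul, abs_of_nonneg (by positivity : 0 ≤ δ / 2)]
    have e3 : |f2 s - s * f1 s| ≤ C * (1 + |s|) := by
      refine (abs_sub _ _).trans ?_
      rw [abs_mul]
      have := mul_le_mul_of_nonneg_left (hf.b1 s) (abs_nonneg s)
      linarith only [hf.b2 s, this]
    exact mul_le_mul (by linarith) e3 (abs_nonneg _) hr0
  refine (abs_add_le _ _).trans ?_
  linarith only [e1, e2]

/-- second-order bound -/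
lemma bd_r (hf : CB3 C f f1 f2 f3) {δ : ℝ} (h0 : 0 ≤ δ) (h1 : δ ≤ 1) (s h : ℝ) :
    |f (√(1 - δ) * s + √δ * h) - linE δ f f1 f2 s h - δ / 2 * (f2 s * (h ^ 2 - 1))|
      ≤ C * √δ ^ 3 * (1 + |s| + |h|) ^ 3 := by
  have hC := C_nonneg hf
  obtain ⟨g1, g2, g3⟩ := sqrt_facts h0 h1
  set r := √δ with hr
  have hr0 : 0 ≤ r := Real.sqrt_nonneg _
  have hr2 : r ^ 2 = δ := Real.sq_sqrt h0
  have hr1 : r ≤ 1 := by (by_contra nlg; linarith [mul_eq_zero_of_left (sub_eq_zero.2 hr2) (r - (0)), mul_nonneg (sub_nonneg.2 h1) (sub_nonneg.2 hr0), mul_eq_zero_of_left (sub_eq_zero.2 hr2) (r - (1)), mul_nonneg (le_of_lt (sub_pos.2 (not_le.1 nlg))) (sub_nonneg.2 h1), mul_pos (sub_pos.2 (not_le.1 nlg)) (sub_pos.2 (not_le.1 nlg)), mul_nonneg (sq_nonneg (r : ℝ)) (le_of_lt (sub_pos.2 (not_le.1 nlg)))])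
  set k := 1 - √(1 - δ) with hk
  set x := r * h - k * s with hx
  have e0 : √(1 - δ) * s + r * h = s + x := by rw [hx, hk]; ring
  rw [e0]
  have ht := taylor2 hf s x
  have e1 : f (s + x) - linE δ f f1 f2 s h - δ / 2 * (f2 s * (h ^ 2 - 1))
      = (f (s + x) - f s - f1 s * x - f2 s * (x ^ 2 / 2))
        + f1 s * (s * (δ / 2 - k)) + f2 s / 2 * (x ^ 2 - r ^ 2 * h ^ 2) := by
    unfold linE
    rw [← hr, hr2, hx]
    ring
  rw [e1]
  have hs := abs_nonneg s
  have hh := abs_nonneg h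
  have hkr : k ≤ r ^ 2 := by rw [hr2]; exact g2
  have hks : k * |s| ≤ r * |s| :=
    mul_le_mul_of_nonneg_right (hkr.trans (by nlinarith only [hr0, hr1])) hs
  have hxb : |x| ≤ r * (|s| + |h|) := by
    calc |x| ≤ |r * h| + |k * s| := abs_sub _ _
      _ = r * |h| + k * |s| := by rw [abs_mul, abs_mul, abs_of_nonneg hr0, abs_of_nonneg g1]
      _ ≤ r * (|s| + |h|) := by linarith only [hks]
  have b1 : C * |x| ^ 3 ≤ C * r ^ 3 * (|s| + |h|) ^ 3 := by
    have := pow_le_pow_left₀ (abs_nonneg x) hxb 3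
    rw [mul_pow] at this
    calc C * |x| ^ 3 ≤ C * (r ^ 3 * (|s| + |h|) ^ 3) := mul_le_mul_of_nonneg_left this hC
      _ = _ := by ring
  have hr43 : r ^ 4 ≤ r ^ 3 := by
    have : r ^ 3 * r ≤ r ^ 3 * 1 := mul_le_mul_of_nonneg_left hr1 (by positivity)
    calc r ^ 4 = r ^ 3 * r := by ring
      _ ≤ r ^ 3 := by linarith only [this]
  have b2 : |f1 s * (s * (δ / 2 - k))| ≤ C * r ^ 3 * |s| := by
    rw [abs_mul, abs_mul]
    have h5 : |δ / 2 - k| ≤ r ^ 3 := by
      rw [abs_sub_comm]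
      refine g3.trans ?_
      rw [← hr2]
      calc (r ^ 2) ^ 2 / 2 = r ^ 4 / 2 := by ring
        _ ≤ r ^ 3 := by linarith only [hr43, pow_nonneg hr0 3]
    calc |f1 s| * (|s| * |δ / 2 - k|) ≤ C * (|s| * r ^ 3) :=
          mul_le_mul (hf.b1 s) (mul_le_mul_of_nonneg_left h5 hs) (by (clear * -; positivity)) hC
      _ = _ := by ring
  have b3 : |f2 s / 2 * (x ^ 2 - r ^ 2 * h ^ 2)| ≤ C * r ^ 3 * (|s| * (2 * |h| + |s|) / 2) := by
    rw [abs_mul, abs_div, abs_of_pos (by norm_num : (0 : ℝ) < 2)]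
    have e5 : x ^ 2 - r ^ 2 * h ^ 2 = -(k * s) * (2 * (r * h) - k * s) := by rw [hx]; ring
    rw [e5, abs_mul, abs_neg, abs_mul, abs_of_nonneg g1]
    have h6 : |2 * (r * h) - k * s| ≤ r * (2 * |h| + |s|) := by
      calc |2 * (r * h) - k * s| ≤ |2 * (r * h)| + |k * s| := abs_sub _ _
        _ = 2 * (r * |h|) + k * |s| := by
            rw [abs_mul, abs_mul, abs_mul, abs_of_nonneg hr0, abs_of_nonneg g1,
              abs_of_pos (by norm_num : (0 : ℝ) < 2)]
        _ ≤ r * (2 * |h| + |s|) := by linarith only [hks]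
    have h7 : k * |s| ≤ r ^ 2 * |s| := mul_le_mul_of_nonneg_right hkr hs
    have h8 : k * |s| * |2 * (r * h) - k * s| ≤ r ^ 2 * |s| * (r * (2 * |h| + |s|)) :=
      mul_le_mul h7 h6 (abs_nonneg _) (by (clear * -; positivity))
    have h9 : |f2 s| / 2 ≤ C / 2 := by linarith only [hf, hf.b2 s]
    calc |f2 s| / 2 * (k * |s| * |2 * (r * h) - k * s|)
        ≤ C / 2 * (r ^ 2 * |s| * (r * (2 * |h| + |s|))) :=
          mul_le_mul h9 h8 (by (clear * - g1; positivity)) (by positivity)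
      _ = _ := by ring
  refine (abs_add_le _ _).trans ?_
  refine (add_le_add_left (abs_add_le _ _) _).trans ?_
  have hCr : 0 ≤ C * r ^ 3 := by positivity
  have key : (|s| + |h|) ^ 3 + |s| + |s| * (2 * |h| + |s|) / 2 ≤ (1 + |s| + |h|) ^ 3 := by
    linarith only [sq_nonneg (|h|), sq_nonneg (|s|), mul_nonneg hs hh, hh, hs]
  calc _ ≤ C * r ^ 3 * (|s| + |h|) ^ 3 + C * r ^ 3 * |s|
        + C * r ^ 3 * (|s| * (2 * |h| + |s|) / 2) := by linarith only [ht, b1, b2, b3]
    _ = C * r ^ 3 * ((|s| + |h|) ^ 3 + |s| + |s| * (2 * |h| + |s|) / 2) := by ring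
    _ ≤ _ := mul_le_mul_of_nonneg_left key hCr

/-- comparison of exponentials -/
lemma exp_sub_le {a b M : ℝ} (ha : |a| ≤ M) (hb : |b| ≤ M) :
    |Real.exp a - Real.exp b| ≤ |a - b| * Real.exp M := by
  have h := Convex.norm_image_sub_le_of_norm_hasDerivWithin_le (f := Real.exp)
    (f' := Real.exp) (C := Real.exp M) (s := Metric.closedBall (0 : ℝ) M) (x := b) (y := a)
    (fun y _ => (Real.hasDerivAt_exp y).hasDerivWithinAt)
    (fun y hy => by
      rw [mem_closedBall_zero_iff, Real.norm_eq_abs] at hy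
      rw [Real.norm_eq_abs, Real.abs_exp]
      exact Real.exp_le_exp.2 ((le_abs_self y).trans hy))
    (convex_closedBall _ _) (by rwa [mem_closedBall_zero_iff, Real.norm_eq_abs])
    (by rwa [mem_closedBall_zero_iff, Real.norm_eq_abs])
  rw [Real.norm_eq_abs, Real.norm_eq_abs] at h
  linarith

lemma exp_sub_sub_le {a b M : ℝ} (ha : |a| ≤ M) (hb : |b| ≤ M) :
    |Real.exp a - Real.exp b - (a - b)| ≤ |a - b| * (M * Real.exp M) := by
  have h := Convex.norm_image_sub_le_of_norm_hasDerivWithin_le (f := fun x => Real.exp x - x)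
    (f' := fun x => Real.exp x - 1) (C := M * Real.exp M) (s := Metric.closedBall (0 : ℝ) M)
    (x := b) (y := a)
    (fun y _ => ((Real.hasDerivAt_exp y).sub (hasDerivAt_id y)).hasDerivWithinAt)
    (fun y hy => by
      rw [mem_closedBall_zero_iff, Real.norm_eq_abs] at hy
      rw [Real.norm_eq_abs]
      have h1 := exp_sub_le (a := y) (b := 0) (M := M) hy (by
        rw [abs_zero]; exact (abs_nonneg y).trans hy)
      rw [Real.exp_zero, sub_zero] at h1
      exact h1.trans (mul_le_mul_of_nonneg_right hy (Real.exp_pos _).le))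
    (convex_closedBall _ _) (by rwa [mem_closedBall_zero_iff, Real.norm_eq_abs])
    (by rwa [mem_closedBall_zero_iff, Real.norm_eq_abs])
  rw [Real.norm_eq_abs, Real.norm_eq_abs] at h
  have e : Real.exp a - Real.exp b - (a - b) = Real.exp a - a - (Real.exp b - b) := by ring
  rw [e]
  linarith

/-- All the bounds for one point. -/
structure Bds (r Q F X Y m : ℝ) : Prop where
  x : |Real.exp X - Real.exp F| ≤ r * Q
  y : |Real.exp Y - Real.exp F| ≤ r * Q
  xy : |Real.exp X - Real.exp Y| ≤ r ^ 2 * Q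
  xym : |Real.exp X - Real.exp Y - Real.exp F * m| ≤ r ^ 3 * Q
  nx : Real.exp (-X) ≤ Q
  ny : Real.exp (-Y) ≤ Q
  nf : Real.exp (-F) ≤ Q

lemma closeE {C T F : ℝ} (hC : 0 ≤ C) (hT : 1 ≤ T) (hF : F ≤ C) {q x : ℝ} (hq : 0 ≤ q)
    (hx : x ≤ q * ((2 * C ^ 2 + 4 * C + 1) * T ^ 4 * Real.exp (C * T))) :
    Real.exp F * x ≤ q * Real.exp (cc C * T) := by
  have hT0 : 0 ≤ T := by linarith
  have hp : 0 ≤ q * ((2 * C ^ 2 + 4 * C + 1) * T ^ 4 * Real.exp (C * T)) := by positivity
  calc Real.exp F * x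
      ≤ Real.exp F * (q * ((2 * C ^ 2 + 4 * C + 1) * T ^ 4 * Real.exp (C * T))) :=
        mul_le_mul_of_nonneg_left hx (Real.exp_pos _).le
    _ ≤ Real.exp C * (q * ((2 * C ^ 2 + 4 * C + 1) * T ^ 4 * Real.exp (C * T))) :=
        mul_le_mul_of_nonneg_right (Real.exp_le_exp.2 hF) hp
    _ = q * (Real.exp C * ((2 * C ^ 2 + 4 * C + 1) * T ^ 4 * Real.exp (C * T))) := by ring
    _ ≤ q * Real.exp (cc C * T) := mul_le_mul_of_nonneg_left (absorb hC hT) hq

lemma exp_split (F z : ℝ) : Real.exp z = Real.exp F * Real.exp (z - F) := by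
  rw [← Real.exp_add]
  congr 1
  ring

lemma firstE {C T r F z : ℝ} (hC : 0 ≤ C) (hT : 1 ≤ T) (hr0 : 0 ≤ r) (hr1 : r ≤ 1) (hF : F ≤ C)
    (hz : |z - F| ≤ C * r * T) : |Real.exp z - Real.exp F| ≤ r * Real.exp (cc C * T) := by
  have hT0 : 0 ≤ T := by linarith
  have hCT : C * r * T ≤ C * T := by
    have : C * r * T ≤ C * 1 * T := by gcongr
    linarith
  have e1 := exp_sub_le (a := z - F) (b := 0) (M := C * T) (hz.trans hCT)
    (by rw [abs_zero]; positivity)
  rw [Real.exp_zero, sub_zero] at e1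
  have e2 : Real.exp z - Real.exp F = Real.exp F * (Real.exp (z - F) - 1) := by
    rw [exp_split F z]; ring
  rw [e2, abs_mul, abs_of_pos (Real.exp_pos _)]
  refine closeE hC hT hF hr0 (e1.trans ?_)
  have hE0 : 0 < Real.exp (C * T) := Real.exp_pos _
  have hT14 : T ≤ T ^ 4 := by
    have := pow_le_pow_right₀ hT (by norm_num : 1 ≤ 4)
    rwa [pow_one] at this
  have hCC : C ≤ 2 * C ^ 2 + 4 * C + 1 := by nlinarith only [hC]
  have e3 : C * T ≤ (2 * C ^ 2 + 4 * C + 1) * T ^ 4 :=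
    mul_le_mul hCC hT14 hT0 (by positivity)
  calc |z - F| * Real.exp (C * T) ≤ C * r * T * Real.exp (C * T) :=
        mul_le_mul_of_nonneg_right hz hE0.le
    _ = r * (C * T * Real.exp (C * T)) := by ring
    _ ≤ r * ((2 * C ^ 2 + 4 * C + 1) * T ^ 4 * Real.exp (C * T)) :=
        mul_le_mul_of_nonneg_left (mul_le_mul_of_nonneg_right e3 hE0.le) hr0

lemma secondE {C T r F X Y : ℝ} (hC : 0 ≤ C) (hT : 1 ≤ T) (hr1 : r ≤ 1)
    (hF : F ≤ C) (ha : |X - F| ≤ C * r * T) (hb : |Y - F| ≤ C * r * T)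
    (hxy : |X - Y| ≤ 2 * C * r ^ 2 * T ^ 3) :
    |Real.exp X - Real.exp Y| ≤ r ^ 2 * Real.exp (cc C * T) := by
  have hT0 : 0 ≤ T := by linarith
  have hCT : C * r * T ≤ C * T := by
    have : C * r * T ≤ C * 1 * T := by gcongr
    linarith
  have e1 := exp_sub_le (a := X - F) (b := Y - F) (M := C * T) (ha.trans hCT) (hb.trans hCT)
  rw [sub_sub_sub_cancel_right] at e1
  have e2 : Real.exp X - Real.exp Y = Real.exp F * (Real.exp (X - F) - Real.exp (Y - F)) := by
    rw [exp_split F X, exp_split F Y]; ring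
  rw [e2, abs_mul, abs_of_pos (Real.exp_pos _)]
  refine closeE hC hT hF (by positivity) (e1.trans ?_)
  have hE0 : 0 < Real.exp (C * T) := Real.exp_pos _
  have hT34 : T ^ 3 ≤ T ^ 4 := pow_le_pow_right₀ hT (by norm_num)
  have hCC : 2 * C ≤ 2 * C ^ 2 + 4 * C + 1 := by nlinarith only [hC]
  have e3 : 2 * C * T ^ 3 ≤ (2 * C ^ 2 + 4 * C + 1) * T ^ 4 :=
    mul_le_mul hCC hT34 (by positivity) (by positivity)
  calc |X - Y| * Real.exp (C * T) ≤ 2 * C * r ^ 2 * T ^ 3 * Real.exp (C * T) :=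
        mul_le_mul_of_nonneg_right hxy hE0.le
    _ = r ^ 2 * (2 * C * T ^ 3 * Real.exp (C * T)) := by ring
    _ ≤ r ^ 2 * ((2 * C ^ 2 + 4 * C + 1) * T ^ 4 * Real.exp (C * T)) :=
        mul_le_mul_of_nonneg_left (mul_le_mul_of_nonneg_right e3 hE0.le) (by positivity)

lemma thirdE {C T r F X Y m : ℝ} (hC : 0 ≤ C) (hT : 1 ≤ T) (hr0 : 0 ≤ r) (hr1 : r ≤ 1)
    (hF : F ≤ C) (ha : |X - F| ≤ C * r * T) (hb : |Y - F| ≤ C * r * T)
    (hxy : |X - Y| ≤ 2 * C * r ^ 2 * T ^ 3) (hm : |X - Y - m| ≤ C * r ^ 3 * T ^ 3) :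
    |Real.exp X - Real.exp Y - Real.exp F * m| ≤ r ^ 3 * Real.exp (cc C * T) := by
  have hT0 : 0 ≤ T := by linarith
  have hCT : C * r * T ≤ C * T := by
    have : C * r * T ≤ C * 1 * T := by gcongr
    linarith
  have e1 := exp_sub_sub_le (a := X - F) (b := Y - F) (M := C * r * T) ha hb
  rw [sub_sub_sub_cancel_right] at e1
  have e2 : Real.exp X - Real.exp Y - Real.exp F * m
      = Real.exp F * (Real.exp (X - F) - Real.exp (Y - F) - m) := by
    rw [exp_split F X, exp_split F Y]; ring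
  rw [e2, abs_mul, abs_of_pos (Real.exp_pos _)]
  refine closeE hC hT hF (by positivity) ?_
  have e3 : Real.exp (X - F) - Real.exp (Y - F) - m
      = (Real.exp (X - F) - Real.exp (Y - F) - (X - Y)) + (X - Y - m) := by ring
  rw [e3]
  have hE0 : 0 < Real.exp (C * T) := Real.exp_pos _
  have hE1 : 1 ≤ Real.exp (C * T) := Real.one_le_exp (by positivity)
  have e4 : Real.exp (C * r * T) ≤ Real.exp (C * T) := Real.exp_le_exp.2 hCT
  have e5 : |X - Y| * (C * r * T * Real.exp (C * r * T))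
      ≤ 2 * C * r ^ 2 * T ^ 3 * (C * r * T * Real.exp (C * T)) :=
    mul_le_mul hxy (mul_le_mul_of_nonneg_left e4 (by positivity)) (by positivity)
      (by positivity)
  have hT34 : T ^ 3 ≤ T ^ 4 := pow_le_pow_right₀ hT (by norm_num)
  have q1 : C ≤ 4 * C + 1 := by linarith
  have e7 : C * T ^ 3 ≤ (4 * C + 1) * T ^ 4 := mul_le_mul q1 hT34 (by positivity) (by positivity)
  have e8 : C * T ^ 3 * 1 ≤ (4 * C + 1) * T ^ 4 * Real.exp (C * T) :=
    mul_le_mul e7 hE1 (by norm_num) (by positivity)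
  have e6 : C * r ^ 3 * T ^ 3 ≤ r ^ 3 * ((4 * C + 1) * T ^ 4 * Real.exp (C * T)) := by
    calc C * r ^ 3 * T ^ 3 = r ^ 3 * (C * T ^ 3 * 1) := by ring
      _ ≤ _ := mul_le_mul_of_nonneg_left e8 (by positivity)
  refine (abs_add_le _ _).trans ?_
  calc _ ≤ 2 * C * r ^ 2 * T ^ 3 * (C * r * T * Real.exp (C * T))
        + r ^ 3 * ((4 * C + 1) * T ^ 4 * Real.exp (C * T)) :=
        add_le_add (e1.trans e5) (hm.trans e6)
    _ = _ := by ring

lemma negE {C T z : ℝ} (hC : 0 ≤ C) (hT : 1 ≤ T) (hz : -z ≤ C + C * T) :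
    Real.exp (-z) ≤ Real.exp (cc C * T) := by
  have hT0 : 0 ≤ T := by linarith
  refine Real.exp_le_exp.2 (hz.trans ?_)
  have h1 : 2 * C ≤ cc C := by unfold cc; (by_contra nlg; linarith only [nlg, mul_nonneg (sub_nonneg.2 hC) (sub_nonneg.2 hT0), mul_nonneg (le_of_lt (sub_pos.2 (not_le.1 nlg))) (sub_nonneg.2 hT0), mul_nonneg (sq_nonneg (C : ℝ)) (sub_nonneg.2 hT0), hT])
  have h2 : C ≤ C * T := le_mul_of_one_le_right hC hT
  calc C + C * T ≤ 2 * C * T := by linarith
    _ ≤ cc C * T := mul_le_mul_of_nonneg_right h1 hT0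

lemma bd_m (hf : CB3 C f f1 f2 f3) {δ : ℝ} (h0 : 0 ≤ δ) (s h : ℝ) :
    |δ / 2 * (f2 s * (h ^ 2 - 1))| ≤ C * √δ ^ 2 * (1 + |s| + |h|) ^ 3 := by
  have hC := C_nonneg hf
  have hr2 : √δ ^ 2 = δ := Real.sq_sqrt h0
  have hs := abs_nonneg s
  have hh := abs_nonneg h
  have hT1 : 1 ≤ 1 + |s| + |h| := by linarith
  rw [abs_mul, abs_mul, abs_of_nonneg (by positivity : 0 ≤ δ / 2), hr2]
  have h5 : |h ^ 2 - 1| ≤ (1 + |s| + |h|) ^ 3 := by
    have e1 : |h ^ 2 - 1| ≤ h ^ 2 + 1 := by
      rw [abs_le]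
      constructor <;> linarith only [sq_nonneg h]
    have e2 : h ^ 2 = |h| ^ 2 := (sq_abs h).symm
    have e3 : |h| ^ 2 + 1 ≤ (1 + |s| + |h|) ^ 2 := by linarith [mul_nonneg (sub_nonneg.2 hs) (sub_nonneg.2 hh), mul_nonneg (sub_nonneg.2 hs) (sub_nonneg.2 hs), hh, hs]
    have e4 : (1 + |s| + |h|) ^ 2 ≤ (1 + |s| + |h|) ^ 3 := pow_le_pow_right₀ hT1 (by norm_num)
    linarith
  have h6 : |f2 s| * |h ^ 2 - 1| ≤ C * (1 + |s| + |h|) ^ 3 :=
    mul_le_mul (hf.b2 s) h5 (abs_nonneg _) hC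
  calc δ / 2 * (|f2 s| * |h ^ 2 - 1|) ≤ δ * (C * (1 + |s| + |h|) ^ 3) :=
        mul_le_mul (by linarith) h6 (by positivity) h0
    _ = _ := by ring

theorem bds (hf : CB3 C f f1 f2 f3) {δ : ℝ} (h0 : 0 ≤ δ) (h1 : δ ≤ 1) (s h : ℝ) :
    Bds (√δ) (Real.exp (cc C * (1 + |s| + |h|))) (f s) (f (√(1 - δ) * s + √δ * h))
      (linE δ f f1 f2 s h) (δ / 2 * (f2 s * (h ^ 2 - 1))) := by
  have hC := C_nonneg hf
  have ha := bd_a hf h0 h1 s h
  have hb := bd_b hf h0 h1 s h
  have hr := bd_r hf h0 h1 s h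
  have hm := bd_m hf h0 s h
  have hs := abs_nonneg s
  have hh := abs_nonneg h
  have hT1 : 1 ≤ 1 + |s| + |h| := by linarith only [hh, hs]
  have hT0 : 0 ≤ 1 + |s| + |h| := by linarith only [hT1]
  have hr0 : 0 ≤ √δ := Real.sqrt_nonneg _
  have hr2 : √δ ^ 2 = δ := Real.sq_sqrt h0
  have hr1 : √δ ≤ 1 := by nlinarith only [h1, hr2, hr0]
  have hxy : |f (√(1 - δ) * s + √δ * h) - linE δ f f1 f2 s h|
      ≤ 2 * C * √δ ^ 2 * (1 + |s| + |h|) ^ 3 := by
    have e1 : f (√(1 - δ) * s + √δ * h) - linE δ f f1 f2 s h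
        = (f (√(1 - δ) * s + √δ * h) - linE δ f f1 f2 s h - δ / 2 * (f2 s * (h ^ 2 - 1)))
          + δ / 2 * (f2 s * (h ^ 2 - 1)) := by ring
    have e3 : √δ ^ 3 ≤ √δ ^ 2 := pow_le_pow_of_le_one hr0 hr1 (by norm_num)
    have e2 : C * √δ ^ 3 * (1 + |s| + |h|) ^ 3 ≤ C * √δ ^ 2 * (1 + |s| + |h|) ^ 3 :=
      mul_le_mul_of_nonneg_right (mul_le_mul_of_nonneg_left e3 hC) (by positivity)
    rw [e1]
    refine (abs_add_le _ _).trans ?_
    linarith only [e2, hm, hr]
  have hfs := abs_le.1 (hf.b0 s)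
  have hCT : C * √δ * (1 + |s| + |h|) ≤ C * (1 + |s| + |h|) := by
    have : C * √δ ≤ C := mul_le_of_le_one_right hC hr1
    exact mul_le_mul_of_nonneg_right this hT0
  refine ⟨firstE hC hT1 hr0 hr1 hfs.2 ha, firstE hC hT1 hr0 hr1 hfs.2 hb,
    secondE hC hT1 hr1 hfs.2 ha hb hxy, thirdE hC hT1 hr0 hr1 hfs.2 ha hb hxy hr,
    negE hC hT1 ?_, negE hC hT1 ?_, negE hC hT1 ?_⟩
  · have := (abs_le.1 (hf.b0 (√(1 - δ) * s + √δ * h))).1
    have : 0 ≤ C * (1 + |s| + |h|) := by positivity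
    linarith
  · have := (abs_le.1 hb).1
    linarith only [hfs.1, this, hCT]
  · have : 0 ≤ C * (1 + |s| + |h|) := by positivity
    linarith only [hfs.1, this]

lemma inv_sum_le {Y : Type} [Fintype Y] {p x : Y → ℝ} (hp : ∀ y, 0 ≤ p y) (hp1 : ∑ y, p y = 1)
    (hx : ∀ y, 0 < x y) {A : ℝ} (hA : A = ∑ y, p y * x y) (hA0 : 0 < A) :
    A⁻¹ ≤ ∑ y, p y * (x y)⁻¹ := by
  have h1 : ∀ y, p y * (2 * A⁻¹ - x y * (A⁻¹) ^ 2) ≤ p y * (x y)⁻¹ := by
    intro y
    refine mul_le_mul_of_nonneg_left ?_ (hp y)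
    have h2 : 0 ≤ (x y)⁻¹ * (1 - x y * A⁻¹) ^ 2 := mul_nonneg (inv_nonneg.2 (hx y).le) (sq_nonneg _)
    have h3 : (x y)⁻¹ * (1 - x y * A⁻¹) ^ 2 = (x y)⁻¹ - 2 * A⁻¹ + x y * (A⁻¹) ^ 2 := by
      have := (hx y).ne'
      field_simp
      ring
    linarith only [h2, h3]
  have h2 : ∑ y, p y * (2 * A⁻¹ - x y * (A⁻¹) ^ 2) = A⁻¹ := by
    have e : ∀ y, p y * (2 * A⁻¹ - x y * (A⁻¹) ^ 2) = 2 * A⁻¹ * p y - (A⁻¹) ^ 2 * (p y * x y) := by
      intro y; ring
    simp_rw [e]
    rw [Finset.sum_sub_distrib, ← Finset.mul_sum, ← Finset.mul_sum, hp1, ← hA]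
    field_simp
    ring
  rw [← h2]
  exact Finset.sum_le_sum fun y _ => h1 y

/-- the deterministic estimate -/
theorem det_bound {Y : Type} [Fintype Y] {p : Y → ℝ} (hp : ∀ y, 0 ≤ p y) (hp1 : ∑ y, p y = 1)
    {r : ℝ} (hr : 0 ≤ r) {Q F X Z m : Y → ℝ} (hQ : ∀ y, 1 ≤ Q y)
    (hB : ∀ y, Bds r (Q y) (F y) (X y) (Z y) (m y)) :
    |Real.log (∑ y, p y * Real.exp (X y)) - Real.log (∑ y, p y * Real.exp (Z y))
        - (∑ y, p y * (Real.exp (F y) * m y)) / ∑ y, p y * Real.exp (F y)|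
      ≤ 2 * r ^ 3 * ∑ y, p y * Q y ^ 4 := by
  set A := ∑ y, p y * Real.exp (X y) with hA
  set B := ∑ y, p y * Real.exp (Z y) with hBdef
  set A0 := ∑ y, p y * Real.exp (F y) with hA0def
  set M := ∑ y, p y * (Real.exp (F y) * m y) with hM
  set q := ∑ y, p y * Q y with hq
  have hpos : ∀ g : Y → ℝ, 0 < ∑ y, p y * Real.exp (g y) := by
    intro g
    by_contra hcon
    have h1 : ∀ y ∈ (univ : Finset Y), 0 ≤ p y * Real.exp (g y) :=
      fun y _ => mul_nonneg (hp y) (Real.exp_pos _).le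
    have h2 := le_antisymm (not_lt.1 hcon) (Finset.sum_nonneg h1)
    have h3 := (Finset.sum_eq_zero_iff_of_nonneg h1).1 h2
    have h4 : ∀ y, p y = 0 := by
      intro y
      rcases mul_eq_zero.1 (h3 y (mem_univ y)) with h | h
      · exact h
      · exact absurd h (Real.exp_pos _).ne'
    rw [Finset.sum_eq_zero (fun y _ => h4 y)] at hp1
    exact zero_ne_one hp1
  have hAp : 0 < A := hpos X
  have hBp : 0 < B := hpos Z
  have hA0p : 0 < A0 := hpos F
  have hinv : ∀ g : Y → ℝ, (∀ y, Real.exp (-g y) ≤ Q y) → (∑ y, p y * Real.exp (g y))⁻¹ ≤ q := by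
    intro g hg
    refine (inv_sum_le hp hp1 (fun y => Real.exp_pos (g y)) rfl (hpos g)).trans ?_
    refine Finset.sum_le_sum fun y _ => mul_le_mul_of_nonneg_left ?_ (hp y)
    rw [← Real.exp_neg]
    exact hg y
  have hdiff : ∀ (g g' : Y → ℝ) (k : ℕ), (∀ y, |g y - g' y| ≤ r ^ k * Q y) →
      |∑ y, p y * g y - ∑ y, p y * g' y| ≤ r ^ k * q := by
    intro g g' k hg
    rw [← Finset.sum_sub_distrib, hq, Finset.mul_sum]
    refine (Finset.abs_sum_le_sum_abs _ _).trans (Finset.sum_le_sum fun y _ => ?_)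
    rw [← mul_sub, abs_mul, abs_of_nonneg (hp y)]
    calc p y * |g y - g' y| ≤ p y * (r ^ k * Q y) := mul_le_mul_of_nonneg_left (hg y) (hp y)
      _ = _ := by ring
  have d1 : |A - A0| ≤ r ^ 1 * q := hdiff _ _ 1 fun y => by rw [pow_one]; exact (hB y).x
  have d2 : |B - A0| ≤ r ^ 1 * q := hdiff _ _ 1 fun y => by rw [pow_one]; exact (hB y).y
  have d3 : |A - B| ≤ r ^ 2 * q := hdiff _ _ 2 fun y => (hB y).xy
  have d4 : |A - B - M| ≤ r ^ 3 * q := by
    have e1 : A - B = ∑ y, p y * (Real.exp (X y) - Real.exp (Z y)) := by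
      rw [hA, hBdef, ← Finset.sum_sub_distrib]
      exact Finset.sum_congr rfl fun y _ => by ring
    rw [e1]
    exact hdiff _ _ 3 fun y => (hB y).xym
  rw [pow_one] at d1 d2
  have i1 : A⁻¹ ≤ q := hinv X fun y => (hB y).nx
  have i2 : B⁻¹ ≤ q := hinv Z fun y => (hB y).ny
  have i3 : A0⁻¹ ≤ q := hinv F fun y => (hB y).nf
  have hq1 : 1 ≤ q := by
    rw [← hp1, hq]
    exact Finset.sum_le_sum fun y _ => le_mul_of_one_le_right (hp y) (hQ y)
  have hq0 : 0 ≤ q := by linarith only [hq1]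
  have key : ∀ D, 0 < D → D⁻¹ ≤ q → |D - A0| ≤ r * q →
      |(A - B) * D⁻¹ - (A - B) * A0⁻¹| ≤ r ^ 3 * q ^ 4 := by
    intro D hD h1 h2
    have e : (A - B) * D⁻¹ - (A - B) * A0⁻¹ = (A - B) * (A0 - D) * (D⁻¹ * A0⁻¹) := by
      field_simp
    rw [e, abs_mul, abs_mul, abs_of_pos (by (clear * - hD hA0p; positivity) : 0 < D⁻¹ * A0⁻¹), abs_sub_comm A0 D]
    have e2 : |A - B| * |D - A0| ≤ r ^ 2 * q * (r * q) :=
      mul_le_mul d3 h2 (abs_nonneg _) (by (clear * - hq1; positivity))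
    have e3 : D⁻¹ * A0⁻¹ ≤ q * q := mul_le_mul h1 i3 (by (clear * - hA0p; positivity)) hq0
    calc _ ≤ r ^ 2 * q * (r * q) * (q * q) := mul_le_mul e2 e3 (by (clear * - hD hA0p; positivity)) (by (clear * - hq1 hr; positivity))
      _ = _ := by ring
  have l1 : Real.log A - Real.log B ≤ (A - B) * B⁻¹ := by
    rw [← Real.log_div hAp.ne' hBp.ne']
    have := Real.log_le_sub_one_of_pos (div_pos hAp hBp)
    have e : A / B - 1 = (A - B) * B⁻¹ := by field_simp
    linarith only [e, this]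
  have l2 : (A - B) * A⁻¹ ≤ Real.log A - Real.log B := by
    have h1 := Real.log_le_sub_one_of_pos (div_pos hBp hAp)
    rw [Real.log_div hBp.ne' hAp.ne'] at h1
    have e : B / A - 1 = -((A - B) * A⁻¹) := by field_simp; ring
    linarith only [e, h1]
  have k1 := abs_le.1 (key B hBp i2 d2)
  have k2 := abs_le.1 (key A hAp i1 d1)
  have k3 : |Real.log A - Real.log B - (A - B) * A0⁻¹| ≤ r ^ 3 * q ^ 4 := by
    rw [abs_le]
    constructor <;> linarith only [l2, l1, k1.1, k1.2, k2.1, k2.2]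
  have k4 : |(A - B) * A0⁻¹ - M / A0| ≤ r ^ 3 * q ^ 4 := by
    have e : (A - B) * A0⁻¹ - M / A0 = (A - B - M) * A0⁻¹ := by
      rw [div_eq_mul_inv]; ring
    rw [e, abs_mul, abs_of_pos (by (clear * - hA0p; positivity) : 0 < A0⁻¹)]
    calc |A - B - M| * A0⁻¹ ≤ r ^ 3 * q * q := mul_le_mul d4 i3 (by (clear * - hA0p; positivity)) (by (clear * - hr hq1; positivity))
      _ = r ^ 3 * q ^ 2 := by ring
      _ ≤ r ^ 3 * q ^ 4 := by
          have : q ^ 2 ≤ q ^ 4 := pow_le_pow_right₀ hq1 (by norm_num)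
          gcongr
  have hq4 : q ^ 4 ≤ ∑ y, p y * Q y ^ 4 :=
    Real.pow_arith_mean_le_arith_mean_pow univ p Q (fun y _ => hp y) hp1
      (fun y _ => by linarith only [hQ y]) 4
  have e : Real.log A - Real.log B - M / A0
      = (Real.log A - Real.log B - (A - B) * A0⁻¹) + ((A - B) * A0⁻¹ - M / A0) := by ring
  rw [e]
  refine (abs_add_le _ _).trans ?_
  calc _ ≤ r ^ 3 * q ^ 4 + r ^ 3 * q ^ 4 := add_le_add k3 k4
    _ = 2 * r ^ 3 * q ^ 4 := by ring
    _ ≤ _ := by gcongr

end Lin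

end Vale.Agent.P157.Par
end

section

open MeasureTheory ProbabilityTheory Filter Topology Finset

namespace Vale.Agent.P157.Par

open Vale.Agent.P367.GT (gM)

namespace Lin

lemma law_lin {J K : Type} [Fintype K] [DecidableEq K] (φ : J → K → ℝ) (y : J)
    (h : ∑ i, φ y i ^ 2 = 1) : (gM K).map (fun ξ => lin φ ξ y) = gaussianReal 0 1 := by
  have hm : Measurable fun ξ : K → ℝ => lin φ ξ y := by unfold lin; fun_prop
  have : IsProbabilityMeasure ((gM K).map fun ξ => lin φ ξ y) :=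
    Measure.isProbabilityMeasure_map hm.aemeasurable
  apply Measure.ext_of_charFun
  ext t
  rw [charFun_apply_real, charFun_gaussianReal, integral_map hm.aemeasurable
    (Measurable.aestronglyMeasurable (by fun_prop))]
  have h1 := char_lin (J := Unit) (K := K) (fun _ => φ y) (fun _ => t)
  simp only [univ_unique, sum_singleton, PUnit.default_eq_unit] at h1
  have e : gram (fun _ : Unit => φ y) (fun _ : Unit => φ y) () () = 1 := by
    rw [← h]
    exact Finset.sum_congr rfl fun c _ => (sq _).symm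
  rw [e] at h1
  have h2 : ∀ ξ : K → ℝ, Complex.exp ((t : ℂ) * (lin φ ξ y : ℝ) * Complex.I)
      = Complex.exp ((lin (fun _ : Unit => φ y) ξ () * t : ℝ) * Complex.I) := by
    intro ξ
    congr 1
    push_cast
    have : lin (fun _ : Unit => φ y) ξ () = lin φ ξ y := rfl
    rw [this]
    ring
  simp_rw [h2]
  rw [h1]
  congr 1
  push_cast
  ring

section logsum
variable {Y : Type} [Fintype Y] [Nonempty Y]

lemma sum_pos' {w : Y → ℝ} (hw : ∀ y, 0 < w y) : 0 < ∑ y, w y :=
  Finset.sum_pos (fun y _ => hw y) univ_nonempty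

lemma logsum_bound {w : Y → ℝ} (hw : ∀ y, 0 < w y) (E : Y → ℝ) :
    |Real.log (∑ y, w y * Real.exp (E y))| ≤ |Real.log (∑ y, w y)| + ∑ y, |E y| := by
  have hW := sum_pos' hw
  set M := ∑ y, |E y| with hM
  have hEy : ∀ y, |E y| ≤ M := fun y => Finset.single_le_sum (f := fun y => |E y|)
    (fun y _ => abs_nonneg _) (mem_univ y)
  have h1 : (∑ y, w y) * Real.exp (-M) ≤ ∑ y, w y * Real.exp (E y) := by
    rw [Finset.sum_mul]
    refine Finset.sum_le_sum fun y _ => mul_le_mul_of_nonneg_left (Real.exp_le_exp.2 ?_) (hw y).le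
    linarith [neg_abs_le (E y), hEy y]
  have h2 : ∑ y, w y * Real.exp (E y) ≤ (∑ y, w y) * Real.exp M := by
    rw [Finset.sum_mul]
    refine Finset.sum_le_sum fun y _ => mul_le_mul_of_nonneg_left (Real.exp_le_exp.2 ?_) (hw y).le
    linarith [le_abs_self (E y), hEy y]
  have hS : 0 < ∑ y, w y * Real.exp (E y) := sum_pos' fun y => mul_pos (hw y) (Real.exp_pos _)
  have l1 := Real.log_le_log (by positivity) h1
  have l2 := Real.log_le_log hS h2
  rw [Real.log_mul hW.ne' (Real.exp_pos _).ne', Real.log_exp] at l1 l2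
  rw [abs_le]
  constructor
  · linarith [neg_abs_le (Real.log (∑ y, w y))]
  · linarith [le_abs_self (Real.log (∑ y, w y))]

lemma integrable_logsum {Ω : Type} [MeasurableSpace Ω] {μ : Measure Ω} [IsFiniteMeasure μ]
    {w : Y → ℝ} (hw : ∀ y, 0 < w y) {E : Ω → Y → ℝ}
    (hE : ∀ y, Integrable (fun ω => E ω y) μ) :
    Integrable (fun ω => Real.log (∑ y, w y * Real.exp (E ω y))) μ := by
  refine Integrable.mono' (g := fun ω => |Real.log (∑ y, w y)| + ∑ y, |E ω y|)
    ((integrable_const _).add (integrable_finsetSum _ fun y _ => (hE y).abs)) ?_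
    (Filter.Eventually.of_forall fun ω => logsum_bound hw (E ω))
  refine (Real.measurable_log.comp_aemeasurable ?_).aestronglyMeasurable
  exact Finset.aemeasurable_fun_sum _ fun y _ =>
    (Real.measurable_exp.comp_aemeasurable (hE y).aestronglyMeasurable.aemeasurable).const_mul _

/-- replacing the energies one at a time -/
theorem replace_many {Ω : Type} [MeasurableSpace Ω] (μ : Measure Ω) [IsProbabilityMeasure μ]
    {x z : Ω → Y → ℝ} (hx : ∀ y, Integrable (fun g => x g y) μ)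
    (hz : ∀ y, Integrable (fun g => z g y) μ) {ε : ℝ}
    (h : ∀ w : Y → ℝ, (∀ y, 0 < w y) → |(∫ g, Real.log (∑ y, w y * Real.exp (x g y)) ∂μ)
      - ∫ g, Real.log (∑ y, w y * Real.exp (z g y)) ∂μ| ≤ ε) (M : ℕ) :
    ∀ w : Y → ℝ, (∀ y, 0 < w y) →
      |(∫ g : Fin M → Ω, Real.log (∑ y, w y * Real.exp (∑ a, x (g a) y))
          ∂(Measure.pi fun _ => μ))
        - ∫ g : Fin M → Ω, Real.log (∑ y, w y * Real.exp (∑ a, z (g a) y))
          ∂(Measure.pi fun _ => μ)| ≤ M * ε := by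
  induction M with
  | zero =>
    intro w _
    simp
  | succ M ih =>
    intro w hw
    have hev : ∀ (u : Ω → Y → ℝ), (∀ y, Integrable (fun g => u g y) μ) → ∀ (y : Y) (a : Fin M),
        Integrable (fun g : Fin M → Ω => u (g a) y) (Measure.pi fun _ => μ) := fun u hu y a =>
      integrable_comp_eval (μ := fun _ : Fin M => μ) (i := a) (f := fun g => u g y) (hu y)
    have hint : ∀ (u v : Ω → Y → ℝ), (∀ y, Integrable (fun g => u g y) μ) →
        (∀ y, Integrable (fun g => v g y) μ) →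
        Integrable (fun q : Ω × (Fin M → Ω) => Real.log (∑ y, w y *
          Real.exp (u q.1 y + ∑ a, v (q.2 a) y))) (μ.prod (Measure.pi fun _ => μ)) := by
      intro u v hu hv
      refine integrable_logsum hw fun y => ?_
      exact ((hu y).comp_fst _).add
        (integrable_finsetSum _ fun a _ => (hev v hv y a).comp_snd _)
    have hsplit : ∀ (u : Ω → Y → ℝ), (∀ y, Integrable (fun g => u g y) μ) →
        ∫ g : Fin (M + 1) → Ω, Real.log (∑ y, w y * Real.exp (∑ a, u (g a) y))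
          ∂(Measure.pi fun _ => μ)
        = ∫ q : Ω × (Fin M → Ω), Real.log (∑ y, w y *
          Real.exp (u q.1 y + ∑ a, u (q.2 a) y)) ∂(μ.prod (Measure.pi fun _ => μ)) := by
      intro u _
      have hp := measurePreserving_piFinSuccAbove (fun _ : Fin (M + 1) => μ) 0
      rw [← hp.integral_comp (MeasurableEquiv.measurableEmbedding _)]
      congr 1
      funext g
      congr 1
      refine Finset.sum_congr rfl fun y _ => ?_
      congr 2
      rw [Fin.sum_univ_succ]
      rfl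
    rw [hsplit x hx, hsplit z hz]
    have i1 := hint x x hx hx
    have i2 := hint x z hx hz
    have i3 := hint z z hz hz
    have s1 : |(∫ q, Real.log (∑ y, w y * Real.exp (x q.1 y + ∑ a, x (q.2 a) y))
          ∂(μ.prod (Measure.pi fun _ : Fin M => μ)))
        - ∫ q, Real.log (∑ y, w y * Real.exp (x q.1 y + ∑ a, z (q.2 a) y))
          ∂(μ.prod (Measure.pi fun _ : Fin M => μ))| ≤ M * ε := by
      rw [integral_prod _ i1, integral_prod _ i2, ← integral_sub i1.integral_prod_left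
        i2.integral_prod_left]
      have hb : ∀ g0 : Ω, ‖(∫ g : Fin M → Ω, Real.log (∑ y, w y *
            Real.exp (x g0 y + ∑ a, x (g a) y)) ∂(Measure.pi fun _ => μ))
          - ∫ g : Fin M → Ω, Real.log (∑ y, w y *
            Real.exp (x g0 y + ∑ a, z (g a) y)) ∂(Measure.pi fun _ => μ)‖ ≤ M * ε := by
        intro g0
        have := ih (fun y => w y * Real.exp (x g0 y)) fun y => mul_pos (hw y) (Real.exp_pos _)
        simp_rw [mul_assoc, ← Real.exp_add] at this
        exact this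
      have := norm_integral_le_of_norm_le_const (μ := μ) (Filter.Eventually.of_forall hb)
      simpa using this
    have s2 : |(∫ q, Real.log (∑ y, w y * Real.exp (x q.1 y + ∑ a, z (q.2 a) y))
          ∂(μ.prod (Measure.pi fun _ : Fin M => μ)))
        - ∫ q, Real.log (∑ y, w y * Real.exp (z q.1 y + ∑ a, z (q.2 a) y))
          ∂(μ.prod (Measure.pi fun _ : Fin M => μ))| ≤ ε := by
      rw [integral_prod_symm _ i2, integral_prod_symm _ i3, ← integral_sub i2.integral_prod_right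
        i3.integral_prod_right]
      have hb : ∀ g : Fin M → Ω, ‖(∫ g0 : Ω, Real.log (∑ y, w y *
            Real.exp (x g0 y + ∑ a, z (g a) y)) ∂μ)
          - ∫ g0 : Ω, Real.log (∑ y, w y *
            Real.exp (z g0 y + ∑ a, z (g a) y)) ∂μ‖ ≤ ε := by
        intro g
        have := h (fun y => w y * Real.exp (∑ a, z (g a) y))
          fun y => mul_pos (hw y) (Real.exp_pos _)
        simp_rw [mul_assoc, ← Real.exp_add] at this
        simp_rw [add_comm (x _ _), add_comm (z _ _)]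
        exact this
      have := norm_integral_le_of_norm_le_const (μ := Measure.pi fun _ : Fin M => μ)
        (Filter.Eventually.of_forall hb)
      simpa using this
    have e := abs_sub_le (∫ q, Real.log (∑ y, w y * Real.exp (x q.1 y + ∑ a, x (q.2 a) y))
          ∂(μ.prod (Measure.pi fun _ : Fin M => μ)))
        (∫ q, Real.log (∑ y, w y * Real.exp (x q.1 y + ∑ a, z (q.2 a) y))
          ∂(μ.prod (Measure.pi fun _ : Fin M => μ)))
        (∫ q, Real.log (∑ y, w y * Real.exp (z q.1 y + ∑ a, z (q.2 a) y))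
          ∂(μ.prod (Measure.pi fun _ : Fin M => μ)))
    push_cast
    linarith

end logsum

lemma integral_sq_sub_one : ∫ x, (x ^ 2 - 1) ∂(gaussianReal 0 1) = 0 := by
  have h1 : Integrable (fun x : ℝ => x ^ 2) (gaussianReal 0 1) := by
    have := (memLp_id_gaussianReal (μ := 0) (v := 1) 2).integrable_sq
    exact this
  rw [integral_sub h1 (integrable_const _)]
  have h2 : ∫ x : ℝ, x ^ 2 ∂(gaussianReal 0 1) = 1 := by
    have h3 := variance_eq_sub (μ := gaussianReal 0 1) (X := id)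
      (memLp_id_gaussianReal (μ := 0) (v := 1) 2)
    rw [variance_id_gaussianReal] at h3
    simp only [id_eq, Pi.pow_apply, integral_id_gaussianReal] at h3
    simpa using h3.symm
  rw [h2]
  simp

section one
variable {C : ℝ} {f f1 f2 f3 : ℝ → ℝ}

/-- the error integral -/
noncomputable def DD (C : ℝ) : ℝ :=
  ∫ q : ℝ × ℝ, Real.exp (cc C * (1 + |q.1| + |q.2|)) ^ 4 ∂((gaussianReal 0 1).prod (gaussianReal 0 1))

lemma integrable_exp_abs (t : ℝ) :
    Integrable (fun x : ℝ => Real.exp (t * |x|)) (gaussianReal 0 1) :=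
  integrable_exp_mul_abs (X := id) (integrable_exp_mul_gaussianReal t)
    (integrable_exp_mul_gaussianReal (-t))

lemma integrable_DD (C : ℝ) : Integrable (fun q : ℝ × ℝ =>
    Real.exp (cc C * (1 + |q.1| + |q.2|)) ^ 4) ((gaussianReal 0 1).prod (gaussianReal 0 1)) := by
  have h := (((integrable_exp_abs (4 * cc C)).mul_prod (integrable_exp_abs (4 * cc C))).const_mul
    (Real.exp (4 * cc C)))
  refine h.congr (Filter.Eventually.of_forall fun q => ?_)
  simp only
  rw [← Real.exp_nat_mul, ← Real.exp_add, ← Real.exp_add]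
  congr 1
  push_cast
  ring

variable {K K' Y : Type} [Fintype K] [Fintype K'] [DecidableEq K] [DecidableEq K']

lemma law_pair {φ : Y → K → ℝ} {ψ : Y → K' → ℝ} (hφ : ∀ y, ∑ i, φ y i ^ 2 = 1)
    (hψ : ∀ y, ∑ i, ψ y i ^ 2 = 1) (y : Y) :
    ((gM K).prod (gM K')).map (fun g => (lin φ g.1 y, lin ψ g.2 y))
      = (gaussianReal 0 1).prod (gaussianReal 0 1) := by
  have m1 : Measurable fun ξ : K → ℝ => lin φ ξ y := by unfold lin; fun_prop
  have m2 : Measurable fun ξ : K' → ℝ => lin ψ ξ y := by unfold lin; fun_prop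
  have h := Measure.map_prod_map (gM K) (gM K') m1 m2
  rw [law_lin φ y (hφ y), law_lin ψ y (hψ y)] at h
  rw [h]
  rfl

lemma continuous_f (hf : CB3 C f f1 f2 f3) : Continuous f :=
  continuous_iff_continuousAt.2 fun x => (hf.d1 x).continuousAt

lemma continuous_f1 (hf : CB3 C f f1 f2 f3) : Continuous f1 :=
  continuous_iff_continuousAt.2 fun x => (hf.d2 x).continuousAt

lemma continuous_f2 (hf : CB3 C f f1 f2 f3) : Continuous f2 :=
  continuous_iff_continuousAt.2 fun x => (hf.d3 x).continuousAt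

omit [DecidableEq K] in
lemma measurable_lin' (φ : Y → K → ℝ) (y : Y) : Measurable fun ξ : K → ℝ => lin φ ξ y := by
  unfold lin; fun_prop

lemma integrable_pair {φ : Y → K → ℝ} {ψ : Y → K' → ℝ} (hφ : ∀ y, ∑ i, φ y i ^ 2 = 1)
    (hψ : ∀ y, ∑ i, ψ y i ^ 2 = 1) (y : Y) {G : ℝ × ℝ → ℝ} (hG : Measurable G)
    (hi : Integrable G ((gaussianReal 0 1).prod (gaussianReal 0 1))) :
    Integrable (fun g : (K → ℝ) × (K' → ℝ) => G (lin φ g.1 y, lin ψ g.2 y))
      ((gM K).prod (gM K')) := by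
  rw [← law_pair hφ hψ y] at hi
  exact (integrable_map_measure hG.aestronglyMeasurable
    (((measurable_lin' φ y).comp measurable_fst).prodMk
      ((measurable_lin' ψ y).comp measurable_snd)).aemeasurable).1 hi

lemma integral_pair {φ : Y → K → ℝ} {ψ : Y → K' → ℝ} (hφ : ∀ y, ∑ i, φ y i ^ 2 = 1)
    (hψ : ∀ y, ∑ i, ψ y i ^ 2 = 1) (y : Y) {G : ℝ × ℝ → ℝ} (hG : Measurable G) :
    ∫ g : (K → ℝ) × (K' → ℝ), G (lin φ g.1 y, lin ψ g.2 y) ∂((gM K).prod (gM K'))
      = ∫ q, G q ∂((gaussianReal 0 1).prod (gaussianReal 0 1)) := by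
  rw [← law_pair hφ hψ y]
  exact (integral_map (((measurable_lin' φ y).comp measurable_fst).prodMk
      ((measurable_lin' ψ y).comp measurable_snd)).aemeasurable hG.aestronglyMeasurable).symm

omit [DecidableEq K] [DecidableEq K'] in
lemma measurable_xE (hf : CB3 C f f1 f2 f3) (δ : ℝ) (φ : Y → K → ℝ) (ψ : Y → K' → ℝ) (y : Y) :
    Measurable fun g : (K → ℝ) × (K' → ℝ) => f (√(1 - δ) * lin φ g.1 y + √δ * lin ψ g.2 y) :=
  (continuous_f hf).measurable.comp
    ((((measurable_lin' φ y).comp measurable_fst).const_mul _).add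
      (((measurable_lin' ψ y).comp measurable_snd).const_mul _))

lemma integrable_xE (hf : CB3 C f f1 f2 f3) (δ : ℝ) (φ : Y → K → ℝ) (ψ : Y → K' → ℝ) (y : Y) :
    Integrable (fun g : (K → ℝ) × (K' → ℝ) =>
      f (√(1 - δ) * lin φ g.1 y + √δ * lin ψ g.2 y)) ((gM K).prod (gM K')) :=
  Integrable.mono' (integrable_const C) (measurable_xE hf δ φ ψ y).aestronglyMeasurable
    (Filter.Eventually.of_forall fun _ => hf.b0 _)

lemma integrable_zE (hf : CB3 C f f1 f2 f3) {δ : ℝ} (h0 : 0 ≤ δ) (h1 : δ ≤ 1)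
    {φ : Y → K → ℝ} {ψ : Y → K' → ℝ} (hφ : ∀ y, ∑ i, φ y i ^ 2 = 1)
    (hψ : ∀ y, ∑ i, ψ y i ^ 2 = 1) (y : Y) :
    Integrable (fun g : (K → ℝ) × (K' → ℝ) => linE δ f f1 f2 (lin φ g.1 y) (lin ψ g.2 y))
      ((gM K).prod (gM K')) := by
  have m0 := (continuous_f hf).measurable
  have m1 := (continuous_f1 hf).measurable
  have m2 := (continuous_f2 hf).measurable
  have hG : Measurable fun q : ℝ × ℝ => linE δ f f1 f2 q.1 q.2 := by
    unfold linE
    fun_prop
  refine integrable_pair hφ hψ y (G := fun q => linE δ f f1 f2 q.1 q.2) hG ?_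
  have hi : Integrable (fun x : ℝ => |x|) (gaussianReal 0 1) :=
    ((memLp_id_gaussianReal (μ := 0) (v := 1) 1).integrable le_rfl).abs
  have hb : Integrable (fun q : ℝ × ℝ => C + C * √δ * (1 + |q.1| + |q.2|))
      ((gaussianReal 0 1).prod (gaussianReal 0 1)) :=
    (integrable_const _).add ((((integrable_const _).add (hi.comp_fst _)).add
      (hi.comp_snd _)).const_mul _)
  refine Integrable.mono' hb hG.aestronglyMeasurable (Filter.Eventually.of_forall fun q => ?_)
  have e1 := bd_b hf h0 h1 q.1 q.2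
  have e2 := hf.b0 q.1
  rw [Real.norm_eq_abs]
  have e3 : linE δ f f1 f2 q.1 q.2 = (linE δ f f1 f2 q.1 q.2 - f q.1) + f q.1 := by ring
  rw [e3]
  refine (abs_add_le _ _).trans ?_
  linarith

end one

end Lin

open Lin in
/-- One pattern. -/
theorem lin_one {C : ℝ} {f f1 f2 f3 : ℝ → ℝ} (hf : CB3 C f f1 f2 f3) :
    ∃ D : ℝ, ∀ (K K' Y : Type) [Fintype K] [Fintype K'] [Fintype Y] [DecidableEq K]
      [DecidableEq K'] (w : Y → ℝ) (φ : Y → K → ℝ) (ψ : Y → K' → ℝ), (∀ y, 0 < w y) →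
      Nonempty Y → (∀ y, ∑ i, φ y i ^ 2 = 1) → (∀ y, ∑ i, ψ y i ^ 2 = 1) →
      ∀ δ : ℝ, 0 ≤ δ → δ ≤ 1 →
      |(∫ g : (K → ℝ) × (K' → ℝ), Real.log (∑ y, w y * Real.exp (f (√(1 - δ) * lin φ g.1 y +
          √δ * lin ψ g.2 y))) ∂((gM K).prod (gM K'))) -
        ∫ g : (K → ℝ) × (K' → ℝ), Real.log (∑ y, w y * Real.exp (linE δ f f1 f2 (lin φ g.1 y)
          (lin ψ g.2 y))) ∂((gM K).prod (gM K'))| ≤ D * (δ * √δ) := by
  refine ⟨2 * DD C, ?_⟩
  intro K K' Y _ _ _ _ _ w φ ψ hw hY hφ hψ δ h0 h1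
  have hC := C_nonneg hf
  set W := ∑ y, w y with hW
  have hW0 : 0 < W := sum_pos' hw
  set p : Y → ℝ := fun y => w y / W with hp
  have hp0 : ∀ y, 0 < p y := fun y => div_pos (hw y) hW0
  have hp1 : ∑ y, p y = 1 := by
    rw [hp, ← Finset.sum_div, div_self hW0.ne']
  set X : (K → ℝ) × (K' → ℝ) → Y → ℝ := fun g y =>
    f (√(1 - δ) * lin φ g.1 y + √δ * lin ψ g.2 y) with hX
  set Z : (K → ℝ) × (K' → ℝ) → Y → ℝ := fun g y =>
    linE δ f f1 f2 (lin φ g.1 y) (lin ψ g.2 y) with hZ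
  set Qf : (K → ℝ) × (K' → ℝ) → Y → ℝ := fun g y =>
    Real.exp (cc C * (1 + |lin φ g.1 y| + |lin ψ g.2 y|)) with hQf
  set B : (K → ℝ) → ℝ := fun s => ∑ y, p y * Real.exp (f (lin φ s y)) with hB
  set Mn : (K → ℝ) × (K' → ℝ) → ℝ := fun g => (∑ y, p y * (Real.exp (f (lin φ g.1 y)) *
    (δ / 2 * (f2 (lin φ g.1 y) * ((lin ψ g.2 y) ^ 2 - 1))))) / B g.1 with hMn
  have hcc : 0 ≤ cc C := by unfold cc; (clear * - hC; positivity)
  -- the pointwise bound
  have hpt : ∀ g, |Real.log (∑ y, w y * Real.exp (X g y)) - Real.log (∑ y, w y * Real.exp (Z g y))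
      - Mn g| ≤ 2 * √δ ^ 3 * ∑ y, p y * Qf g y ^ 4 := by
    intro g
    have hd := det_bound (p := p) (fun y => (hp0 y).le) hp1 (r := √δ) (Real.sqrt_nonneg _)
      (Q := Qf g) (F := fun y => f (lin φ g.1 y)) (X := X g) (Z := Z g)
      (m := fun y => δ / 2 * (f2 (lin φ g.1 y) * ((lin ψ g.2 y) ^ 2 - 1)))
      (fun y => Real.one_le_exp (by (clear * - hcc; positivity)))
      (fun y => bds hf h0 h1 (lin φ g.1 y) (lin ψ g.2 y))
    have hlog : ∀ E : Y → ℝ, Real.log (∑ y, w y * Real.exp (E y))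
        = Real.log W + Real.log (∑ y, p y * Real.exp (E y)) := by
      intro E
      have hpos : 0 < ∑ y, p y * Real.exp (E y) :=
        sum_pos' fun y => mul_pos (hp0 y) (Real.exp_pos _)
      rw [← Real.log_mul hW0.ne' hpos.ne', Finset.mul_sum]
      congr 1
      refine Finset.sum_congr rfl fun y _ => ?_
      rw [hp]
      field_simp
    rw [hlog, hlog]
    have e : Real.log W + Real.log (∑ y, p y * Real.exp (X g y))
        - (Real.log W + Real.log (∑ y, p y * Real.exp (Z g y))) - Mn g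
        = Real.log (∑ y, p y * Real.exp (X g y)) - Real.log (∑ y, p y * Real.exp (Z g y))
          - Mn g := by ring
    rw [e]
    exact hd
  -- integrability
  have hiX := integrable_logsum (μ := (gM K).prod (gM K')) hw (E := X)
    (fun y => integrable_xE hf δ φ ψ y)
  have hiZ := integrable_logsum (μ := (gM K).prod (gM K')) hw (E := Z)
    (fun y => integrable_zE hf h0 h1 hφ hψ y)
  have hmQ : Measurable fun q : ℝ × ℝ => Real.exp (cc C * (1 + |q.1| + |q.2|)) ^ 4 := by fun_prop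
  have hiQ : ∀ y, Integrable (fun g => p y * Qf g y ^ 4) ((gM K).prod (gM K')) := fun y =>
    (integrable_pair hφ hψ y (G := fun q => Real.exp (cc C * (1 + |q.1| + |q.2|)) ^ 4) hmQ
      (integrable_DD C)).const_mul _
  have hQint : ∀ y, ∫ g, p y * Qf g y ^ 4 ∂((gM K).prod (gM K')) = p y * DD C := by
    intro y
    rw [integral_const_mul]
    congr 1
    exact integral_pair hφ hψ y (G := fun q => Real.exp (cc C * (1 + |q.1| + |q.2|)) ^ 4) hmQ
  -- the main term
  have hBm : Measurable B := Finset.measurable_sum _ fun y _ =>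
    (Real.measurable_exp.comp ((continuous_f hf).measurable.comp (measurable_lin' φ y))).const_mul _
  have hBpos : ∀ s, 0 < B s := fun s => sum_pos' fun y => mul_pos (hp0 y) (Real.exp_pos _)
  have hBlow : ∀ s, Real.exp (-C) ≤ B s := by
    intro s
    calc Real.exp (-C) = ∑ y, p y * Real.exp (-C) := by rw [← Finset.sum_mul, hp1, one_mul]
      _ ≤ B s := Finset.sum_le_sum fun y _ => mul_le_mul_of_nonneg_left
          (Real.exp_le_exp.2 (abs_le.1 (hf.b0 _)).1) (hp0 y).le
  set u : Y → (K → ℝ) → ℝ := fun y s => p y * (Real.exp (f (lin φ s y)) *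
    (δ / 2 * f2 (lin φ s y))) / B s with hu
  have hum : ∀ y, Measurable (u y) := by
    intro y
    have m0 := (continuous_f hf).measurable.comp (measurable_lin' φ y)
    have m2 := (continuous_f2 hf).measurable.comp (measurable_lin' φ y)
    exact (((Real.measurable_exp.comp m0).mul (m2.const_mul _)).const_mul _).div hBm
  have hub : ∀ y s, |u y s| ≤ p y * (Real.exp C * (δ / 2 * C)) * Real.exp C := by
    intro y s
    have hp0' := (hp0 y).le
    have e1 : (B s)⁻¹ ≤ Real.exp C := by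
      rw [← neg_neg C, Real.exp_neg (-C)]
      exact inv_anti₀ (Real.exp_pos _) (hBlow s)
    rw [hu]
    simp only
    rw [div_eq_mul_inv, abs_mul, abs_mul, abs_mul, abs_mul, abs_of_pos (hp0 y),
      Real.abs_exp, abs_of_nonneg (by positivity : 0 ≤ δ / 2), abs_of_pos (inv_pos.2 (hBpos s))]
    have e2 := Real.exp_le_exp.2 (abs_le.1 (hf.b0 (lin φ s y))).2
    have e3 := hf.b2 (lin φ s y)
    have hi0 := (inv_pos.2 (hBpos s)).le
    gcongr
  have hui : ∀ y, Integrable (u y) (gM K) := fun y =>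
    Integrable.mono' (integrable_const _) (hum y).aestronglyMeasurable
      (Filter.Eventually.of_forall fun s => hub y s)
  have hvi : ∀ y, Integrable (fun t : K' → ℝ => (lin ψ t y) ^ 2 - 1) (gM K') := by
    intro y
    have h1 : Integrable (fun x : ℝ => x ^ 2 - 1) (gaussianReal 0 1) :=
      ((memLp_id_gaussianReal (μ := 0) (v := 1) 2).integrable_sq).sub (integrable_const _)
    rw [← law_lin ψ y (hψ y)] at h1
    exact (integrable_map_measure (by fun_prop) (measurable_lin' ψ y).aemeasurable).1 h1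
  have hv0 : ∀ y, ∫ t : K' → ℝ, ((lin ψ t y) ^ 2 - 1) ∂(gM K') = 0 := by
    intro y
    have h1 := integral_sq_sub_one
    rw [← law_lin ψ y (hψ y), integral_map (measurable_lin' ψ y).aemeasurable
      (by fun_prop)] at h1
    exact h1
  have hMe : ∀ g, Mn g = ∑ y, u y g.1 * ((lin ψ g.2 y) ^ 2 - 1) := by
    intro g
    rw [hMn]
    simp only
    rw [Finset.sum_div]
    refine Finset.sum_congr rfl fun y _ => ?_
    rw [hu]
    simp only
    ring
  have hMi : Integrable Mn ((gM K).prod (gM K')) := by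
    have : Mn = fun g => ∑ y, u y g.1 * ((lin ψ g.2 y) ^ 2 - 1) := funext hMe
    rw [this]
    exact integrable_finsetSum _ fun y _ => (hui y).mul_prod (hvi y)
  have hM0 : ∫ g, Mn g ∂((gM K).prod (gM K')) = 0 := by
    have : Mn = fun g => ∑ y, u y g.1 * ((lin ψ g.2 y) ^ 2 - 1) := funext hMe
    rw [this, integral_finsetSum _ fun y _ => (hui y).mul_prod (hvi y)]
    refine Finset.sum_eq_zero fun y _ => ?_
    rw [integral_prod_mul (u y) (fun t : K' → ℝ => (lin ψ t y) ^ 2 - 1), hv0 y, mul_zero]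
  -- conclusion
  have hr3 : √δ ^ 3 = δ * √δ := by
    calc √δ ^ 3 = √δ ^ 2 * √δ := by ring
      _ = δ * √δ := by rw [Real.sq_sqrt h0]
  rw [← integral_sub hiX hiZ]
  have e1 : ∫ g, (Real.log (∑ y, w y * Real.exp (X g y)) - Real.log (∑ y, w y * Real.exp (Z g y)))
        ∂((gM K).prod (gM K'))
      = ∫ g, (Real.log (∑ y, w y * Real.exp (X g y)) - Real.log (∑ y, w y * Real.exp (Z g y))
        - Mn g) ∂((gM K).prod (gM K')) := by
    have e2 := integral_sub (hiX.sub hiZ) hMi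
    rw [hM0, sub_zero] at e2
    exact e2.symm
  rw [e1, ← Real.norm_eq_abs]
  refine (norm_integral_le_of_norm_le (g := fun g => 2 * √δ ^ 3 * ∑ y, p y * Qf g y ^ 4) ?_
    (Filter.Eventually.of_forall fun g => hpt g)).trans ?_
  · exact (integrable_finsetSum _ fun y _ => hiQ y).const_mul _
  · rw [integral_const_mul, integral_finsetSum _ fun y _ => hiQ y]
    simp_rw [hQint]
    rw [← Finset.sum_mul, hp1, one_mul, hr3]
    apply le_of_eq
    ring

open Lin in
/-- Many patterns (Lindeberg). -/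
theorem lin_many {C : ℝ} {f f1 f2 f3 : ℝ → ℝ} (hf : CB3 C f f1 f2 f3) :
    ∃ D : ℝ, ∀ (M : ℕ) (K K' Y : Type) [Fintype K] [Fintype K'] [Fintype Y] [DecidableEq K]
      [DecidableEq K'] (w : Y → ℝ) (φ : Y → K → ℝ) (ψ : Y → K' → ℝ), (∀ y, 0 < w y) →
      Nonempty Y → (∀ y, ∑ i, φ y i ^ 2 = 1) → (∀ y, ∑ i, ψ y i ^ 2 = 1) →
      ∀ δ : ℝ, 0 ≤ δ → δ ≤ 1 →
      |(∫ g : Fin M → (K → ℝ) × (K' → ℝ), Real.log (∑ y, w y * Real.exp (∑ a,
          f (√(1 - δ) * lin φ (g a).1 y + √δ * lin ψ (g a).2 y)))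
          ∂(Measure.pi fun _ => (gM K).prod (gM K'))) -
        ∫ g : Fin M → (K → ℝ) × (K' → ℝ), Real.log (∑ y, w y * Real.exp (∑ a,
          linE δ f f1 f2 (lin φ (g a).1 y) (lin ψ (g a).2 y)))
          ∂(Measure.pi fun _ => (gM K).prod (gM K'))| ≤ D * (M * (δ * √δ)) := by
  obtain ⟨D, hD⟩ := lin_one hf
  refine ⟨D, ?_⟩
  intro M K K' Y _ _ _ _ _ w φ ψ hw hY hφ hψ δ h0 h1
  have h := replace_many ((gM K).prod (gM K'))
    (x := fun g y => f (√(1 - δ) * lin φ g.1 y + √δ * lin ψ g.2 y))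
    (z := fun g y => linE δ f f1 f2 (lin φ g.1 y) (lin ψ g.2 y))
    (fun y => integrable_xE hf δ φ ψ y) (fun y => integrable_zE hf h0 h1 hφ hψ y)
    (ε := D * (δ * √δ)) (fun w' hw' => hD K K' Y w' φ ψ hw' hY hφ hψ δ h0 h1) M w hw
  calc _ ≤ (M : ℝ) * (D * (δ * √δ)) := h
    _ = _ := by ring

end Vale.Agent.P157.Par
end

section

open MeasureTheory ProbabilityTheory Filter Topology Finset

namespace Vale.Agent.P157.Par

set_option linter.unusedSectionVars false

open Vale.Agent.P367.GT (gM)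

variable {k : ℕ} {J K : Type} [Fintype J] [DecidableEq J] [Fintype K] [DecidableEq K]

/-- The Gaussian family `U` with an independent noise of variance `τ` for every index. -/
noncomputable def noisy (τ : ℝ) (U : J → K → ℝ) : J → K ⊕ J → ℝ :=
  fun a => Sum.elim (U a) fun b => if b = a then √τ else 0

lemma gram_noisy {τ : ℝ} (hτ : 0 ≤ τ) (U : J → K → ℝ) (a b : J) :
    gram (noisy τ U) (noisy τ U) a b = gram U U a b + if a = b then τ else 0 := by
  unfold gram noisy
  rw [Fintype.sum_sum_type]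
  congr 1
  simp only [Sum.elim_inr, ite_mul, mul_ite, zero_mul, mul_zero]
  by_cases h : a = b
  · subst h
    simp [Real.mul_self_sqrt hτ]
  · rw [if_neg h]
    apply Finset.sum_eq_zero
    intro c _
    by_cases h1 : c = a
    · subst h1
      rw [if_pos rfl, if_neg h]
    · simp [h1]

/-- The noise can be integrated out. -/
lemma gE_noisy (τ : ℝ) (U : J → K → ℝ) {f : J → ℝ → ℝ} (hf : ∀ a, BM (f a)) :
    gE (noisy τ U) f = gE U fun a => heat τ (f a) := by
  obtain ⟨C, hC0, hC⟩ := exists_bound hf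
  have mp := measurePreserving_sumPiEquivProdPi (X := fun _ : K ⊕ J => ℝ)
    (fun _ : K ⊕ J => gaussianReal 0 1)
  have e1 : ∀ ξ : K ⊕ J → ℝ, ∏ a, f a (lin (noisy τ U) ξ a) =
      (fun p : (K → ℝ) × (J → ℝ) => ∏ a, f a (lin U p.1 a + √τ * p.2 a))
        (MeasurableEquiv.sumPiEquivProdPi (fun _ : K ⊕ J => ℝ) ξ) := by
    intro ξ
    apply Finset.prod_congr rfl
    intro a _
    congr 1
    unfold lin noisy
    rw [Fintype.sum_sum_type]
    simp only [Sum.elim_inl, Sum.elim_inr, ite_mul, zero_mul, Finset.sum_ite_eq',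
      Finset.mem_univ, if_true]
    rfl
  unfold gE
  simp_rw [e1]
  rw [mp.integral_comp' (g := fun p : (K → ℝ) × (J → ℝ) =>
    ∏ a, f a (lin U p.1 a + √τ * p.2 a))]
  have hmeas : Measurable fun p : (K → ℝ) × (J → ℝ) =>
      ∏ a, f a (lin U p.1 a + √τ * p.2 a) := by
    apply Finset.measurable_prod
    intro a _
    apply (hf a).meas.comp
    unfold lin
    fun_prop
  have hint : Integrable (fun p : (K → ℝ) × (J → ℝ) =>
      ∏ a, f a (lin U p.1 a + √τ * p.2 a)) ((gM K).prod (gM J)) :=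
    Integrable.of_bound hmeas.aestronglyMeasurable (C ^ (univ : Finset J).card)
      (Eventually.of_forall fun p => by
        rw [Real.norm_eq_abs]
        exact abs_prod_le fun a _ => hC a _)
  have h2 := integral_prod _ hint
  refine Eq.trans h2 ?_
  congr 1
  funext ξ
  exact integral_fintype_prod_eq_prod (𝕜 := ℝ) (μ := fun _ : J => gaussianReal 0 1)
    (fun a z => f a (lin U ξ a + √τ * z))

/-- The Gram matrix of the tree field with noise. -/
lemma gram_noisy_UL {c : Fin (k + 1) → ℝ} (hc : ∀ l, 0 ≤ c l) {τ : ℝ} (hτ : 0 ≤ τ)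
    {L : LM k J} (hL : Ultra L) (a b : J) :
    gram (noisy τ (UL c L)) (noisy τ (UL c L)) a b =
      (∑ l, if l ≤ L a b then c l else 0) + if a = b then τ else 0 := by
  rw [gram_noisy hτ, gram_UL hc hL]

end Vale.Agent.P157.Par
end
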