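import Mathlib
import Vale.Agent.P157.Defs

set_option linter.all false

section

namespace Vale.Agent.P157

/-- The cube point coded by a Boolean vector. -/
def spin {N : ℕ} (σ : Fin N → Bool) : Fin N → ℝ := fun i => if σ i then 1 else -1

/-- The overlap of two cube points. -/
noncomputable def ovl {N : ℕ} (σ τ : Fin N → Bool) : ℝ := (∑ i, spin σ i * spin τ i) / N

end Vale.Agent.P157
end

section

open MeasureTheory ProbabilityTheory

namespace Vale.Agent.P157

/-- `E φ(G) φ(G')` for two standard Gaussian variables `G`, `G'` of correlation `ρ`. -/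
noncomputable def pairInt (φ : ℝ → ℝ) (ρ : ℝ) : ℝ :=
  ∫ z, φ z.1 * φ (ρ * z.1 + √(1 - ρ ^ 2) * z.2) ∂((gaussianReal 0 1).prod (gaussianReal 0 1))

/-- The values `(log 2 + α log E exp(m f(G))) / m - log 2` for `0 < m ≤ 1`. -/
noncomputable def remValues (α : ℝ) (f : ℝ → ℝ) : Set ℝ :=
  (fun m : ℝ => (Real.log 2 + α * Real.log (∫ x, Real.exp (m * f x) ∂(gaussianReal 0 1))) / m -
    Real.log 2) '' Set.Ioc 0 1

/-- The log-density `f - log E exp(f(G))` of the tilted law. -/
noncomputable def tilt (f : ℝ → ℝ) (x : ℝ) : ℝ :=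
  f x - Real.log (∫ y, Real.exp (f y) ∂(gaussianReal 0 1))

/-- The relative entropy of the tilted law with respect to the standard Gaussian law. -/
noncomputable def relEnt (f : ℝ → ℝ) : ℝ :=
  ∫ x, tilt f x * Real.exp (tilt f x) ∂(gaussianReal 0 1)

end Vale.Agent.P157
end

section

open MeasureTheory ProbabilityTheory

namespace Vale.Agent.P157

/-- Standard Gaussian vector in `ℝ^N`. -/
noncomputable def gvec (N : ℕ) : Measure (Fin N → ℝ) := Measure.pi fun _ => gaussianReal 0 1

instance (N : ℕ) : IsProbabilityMeasure (gvec N) := by unfold gvec; infer_instance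

lemma patterns_eq (M N : ℕ) : patterns M N = Measure.pi fun _ : Fin M => gvec N := rfl

instance (M N : ℕ) : IsProbabilityMeasure (patterns M N) := by
  rw [patterns_eq]; infer_instance

lemma spin_sq {N : ℕ} (σ : Fin N → Bool) (i : Fin N) : spin σ i * spin σ i = 1 := by
  unfold spin; split_ifs <;> norm_num

lemma coin_eq : ((1 / 2 : ENNReal) • (Measure.dirac (1 : ℝ) + Measure.dirac (-1 : ℝ))) =
    ∑ b : Bool, (1 / 2 : ENNReal) • Measure.dirac (if b then (1 : ℝ) else -1) := by
  simp [smul_add]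

instance : IsProbabilityMeasure
    ((1 / 2 : ENNReal) • (Measure.dirac (1 : ℝ) + Measure.dirac (-1 : ℝ))) := by
  constructor
  simp only [Measure.smul_apply, Measure.add_apply, measure_univ, smul_eq_mul, one_div]
  rw [one_add_one_eq_two]
  exact ENNReal.inv_mul_cancel (by norm_num) (by norm_num)

instance (N : ℕ) : IsProbabilityMeasure (cube N) := by unfold cube; infer_instance

lemma cube_eq (N : ℕ) :
    cube N = ∑ σ : Fin N → Bool, ((1 / 2 : ENNReal) ^ N) • Measure.dirac (spin σ) := by
  unfold cube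
  refine Measure.pi_eq fun s hs => ?_
  rw [Measure.finsetSum_apply]
  have h1 : ∀ i : Fin N,
      ((1 / 2 : ENNReal) • (Measure.dirac (1 : ℝ) + Measure.dirac (-1 : ℝ))) (s i) =
      ∑ b : Bool, (1 / 2 : ENNReal) * (s i).indicator 1 (if b then (1 : ℝ) else -1) := by
    intro i
    rw [coin_eq, Measure.finsetSum_apply]
    refine Finset.sum_congr rfl fun b _ => ?_
    rw [Measure.smul_apply, Measure.dirac_apply' _ (hs i), smul_eq_mul]
  simp_rw [h1]
  rw [Finset.prod_univ_sum]
  rw [Fintype.piFinset_univ]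
  refine Finset.sum_congr rfl fun σ _ => ?_
  rw [Measure.smul_apply, Measure.dirac_apply' _ (MeasurableSet.univ_pi hs), smul_eq_mul,
    Finset.prod_mul_distrib, Finset.prod_const, Finset.card_univ, Fintype.card_fin]
  congr 1
  by_cases h : spin σ ∈ Set.univ.pi s
  · rw [Set.indicator_of_mem h]
    symm
    apply Finset.prod_eq_one
    intro i _
    exact Set.indicator_of_mem (h i (Set.mem_univ i)) _
  · rw [Set.indicator_of_notMem h]
    simp only [Set.mem_pi, Set.mem_univ, forall_true_left, not_forall] at h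
    obtain ⟨i, hi⟩ := h
    symm
    apply Finset.prod_eq_zero (Finset.mem_univ i)
    exact Set.indicator_of_notMem hi _

/-- Integrals over the cube are averages over Boolean vectors. -/
lemma integral_cube {N : ℕ} (F : (Fin N → ℝ) → ℝ) :
    ∫ x, F x ∂(cube N) = (1 / 2 : ℝ) ^ N * ∑ σ : Fin N → Bool, F (spin σ) := by
  rw [cube_eq, integral_finset_sum_measure]
  · rw [Finset.mul_sum]
    refine Finset.sum_congr rfl fun σ _ => ?_
    rw [integral_smul_measure, integral_dirac]
    simp
  · intro σ _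
    refine Integrable.smul_measure ?_ (by simp)
    exact integrable_dirac (by simp)

end Vale.Agent.P157
end

section

open MeasureTheory ProbabilityTheory Complex

namespace Vale.Agent.P157

lemma integral_cexp_gaussian (t : ℝ) :
    ∫ x : ℝ, Complex.exp ((t * x : ℝ) * I) ∂(gaussianReal 0 1) = Complex.exp (-(t ^ 2 / 2 : ℝ)) := by
  have h := charFun_gaussianReal (μ := 0) (v := 1) t
  rw [charFun_apply_real] at h
  simp only [ofReal_mul] at *
  rw [h]
  congr 1
  push_cast
  ring

lemma integral_cexp_gvec {N : ℕ} (c : Fin N → ℝ) :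
    ∫ g, Complex.exp (((∑ i, c i * g i : ℝ) : ℂ) * I) ∂(gvec N) =
      Complex.exp (-((∑ i, c i ^ 2) / 2 : ℝ)) := by
  have h1 : ∀ g : Fin N → ℝ, Complex.exp (((∑ i, c i * g i : ℝ) : ℂ) * I) =
      ∏ i, Complex.exp (((c i * g i : ℝ) : ℂ) * I) := by
    intro g
    rw [← Complex.exp_sum, ofReal_sum, Finset.sum_mul]
  simp_rw [h1]
  unfold gvec
  rw [integral_fintype_prod_eq_prod (f := fun i (x : ℝ) => Complex.exp (((c i * x : ℝ) : ℂ) * I))]
  simp_rw [integral_cexp_gaussian]
  rw [← Complex.exp_sum]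
  congr 1
  rw [Finset.sum_div]
  push_cast
  rw [Finset.sum_neg_distrib]

/-- Joint law of two Gaussian projections. -/
lemma map_pair_gvec {N : ℕ} (a b : Fin N → ℝ) (ρ : ℝ) (ha : ∑ i, a i ^ 2 = 1)
    (hb : ∑ i, b i ^ 2 = 1) (hab : ∑ i, a i * b i = ρ) :
    (gvec N).map (fun g => (∑ i, g i * a i, ∑ i, g i * b i)) =
      ((gaussianReal 0 1).prod (gaussianReal 0 1)).map
        (fun z => (z.1, ρ * z.1 + √(1 - ρ ^ 2) * z.2)) := by
  have hρ : ρ ^ 2 ≤ 1 := by
    have h := Finset.sum_mul_sq_le_sq_mul_sq Finset.univ a b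
    rw [hab, ha, hb] at h
    simpa using h
  have hm1 : Measurable (fun g : Fin N → ℝ => (∑ i, g i * a i, ∑ i, g i * b i)) := by fun_prop
  have hm2 : Measurable (fun z : ℝ × ℝ => (z.1, ρ * z.1 + √(1 - ρ ^ 2) * z.2)) := by fun_prop
  have : IsFiniteMeasure ((gvec N).map (fun g => (∑ i, g i * a i, ∑ i, g i * b i))) :=
    Measure.isFiniteMeasure_map _ _
  have : IsFiniteMeasure (((gaussianReal 0 1).prod (gaussianReal 0 1)).map
        (fun z : ℝ × ℝ => (z.1, ρ * z.1 + √(1 - ρ ^ 2) * z.2))) :=
    Measure.isFiniteMeasure_map _ _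
  apply Measure.ext_of_charFunDual
  ext L
  have hL : ∀ u v : ℝ, L (u, v) = u * L (1, 0) + v * L (0, 1) := by
    intro u v
    have : ((u, v) : ℝ × ℝ) = u • (1, 0) + v • (0, 1) := by simp
    rw [this, map_add, map_smul, map_smul]
    simp
  set α := L (1, 0) with hα
  set β := L (0, 1) with hβ
  rw [charFunDual_apply, charFunDual_apply, integral_map hm1.aemeasurable,
    integral_map hm2.aemeasurable]
  · simp_rw [hL]
    have e1 : ∀ g : Fin N → ℝ, ((∑ i, g i * a i) * α + (∑ i, g i * b i) * β) =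
        ∑ i, (a i * α + b i * β) * g i := by
      intro g
      rw [Finset.sum_mul, Finset.sum_mul, ← Finset.sum_add_distrib]
      refine Finset.sum_congr rfl fun i _ => by ring
    simp_rw [e1]
    rw [integral_cexp_gvec]
    have e2 : ∑ i, (a i * α + b i * β) ^ 2 = α ^ 2 + 2 * α * β * ρ + β ^ 2 := by
      have : ∀ i, (a i * α + b i * β) ^ 2 =
          α ^ 2 * a i ^ 2 + (2 * α * β) * (a i * b i) + β ^ 2 * b i ^ 2 := by intro i; ring
      simp_rw [this]
      rw [Finset.sum_add_distrib, Finset.sum_add_distrib, ← Finset.mul_sum, ← Finset.mul_sum,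
        ← Finset.mul_sum, ha, hb, hab]
      ring
    rw [e2]
    have e3 : ∀ z : ℝ × ℝ, Complex.exp (((z.1 * α + (ρ * z.1 + √(1 - ρ ^ 2) * z.2) * β : ℝ) : ℂ) * I)
        = Complex.exp ((((α + ρ * β) * z.1 : ℝ) : ℂ) * I) *
          Complex.exp ((((√(1 - ρ ^ 2) * β) * z.2 : ℝ) : ℂ) * I) := by
      intro z
      rw [← Complex.exp_add]
      congr 1
      push_cast
      ring
    simp_rw [e3]
    rw [integral_prod_mul (fun x : ℝ => Complex.exp ((((α + ρ * β) * x : ℝ) : ℂ) * I))
      (fun x : ℝ => Complex.exp ((((√(1 - ρ ^ 2) * β) * x : ℝ) : ℂ) * I)),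
      integral_cexp_gaussian, integral_cexp_gaussian, ← Complex.exp_add]
    congr 1
    have hs : √(1 - ρ ^ 2) ^ 2 = 1 - ρ ^ 2 := Real.sq_sqrt (by linarith)
    rw [← Complex.ofReal_neg, ← Complex.ofReal_neg, ← Complex.ofReal_neg, ← Complex.ofReal_add]
    congr 1
    rw [mul_pow, hs]
    ring
  · exact (Continuous.aestronglyMeasurable (by fun_prop))
  · exact (Continuous.aestronglyMeasurable (by fun_prop))

end Vale.Agent.P157
end

section

open MeasureTheory ProbabilityTheory

namespace Vale.Agent.P157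

lemma spin_mul {N : ℕ} (σ τ : Fin N → Bool) (i : Fin N) :
    spin σ i * spin τ i = 2 * (if σ i = τ i then (1 : ℝ) else 0) - 1 := by
  unfold spin
  cases σ i <;> cases τ i <;> norm_num

/-- number of agreements -/
def agree {N : ℕ} (σ τ : Fin N → Bool) : ℕ := (Finset.univ.filter fun i => σ i = τ i).card

lemma agree_le {N : ℕ} (σ τ : Fin N → Bool) : agree σ τ ≤ N := by
  unfold agree
  exact (Finset.card_filter_le _ _).trans (by simp)

lemma half_ovl {N : ℕ} (hN : 0 < N) (σ τ : Fin N → Bool) :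
    (1 + ovl σ τ) / 2 = (agree σ τ : ℝ) / N := by
  have hN' : (N : ℝ) ≠ 0 := by positivity
  unfold ovl agree
  simp_rw [spin_mul]
  rw [Finset.sum_sub_distrib, ← Finset.mul_sum, Finset.sum_boole]
  simp only [Finset.sum_const, Finset.card_univ, Fintype.card_fin, nsmul_eq_mul, mul_one]
  field_simp
  ring

lemma ovl_mem {N : ℕ} (hN : 0 < N) (σ τ : Fin N → Bool) : ovl σ τ ∈ Set.Icc (-1 : ℝ) 1 := by
  have h := half_ovl hN σ τ
  have h1 : (0 : ℝ) ≤ (agree σ τ : ℝ) / N := by positivity
  have h2 : (agree σ τ : ℝ) / N ≤ 1 := by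
    rw [div_le_one (by positivity)]
    exact_mod_cast agree_le σ τ
  constructor <;> linarith

/-- product Bernoulli weight -/
noncomputable def bw {N : ℕ} (x : ℝ) (σ τ : Fin N → Bool) : ℝ :=
  ∏ i, (if σ i = τ i then x else 1 - x)

lemma bw_nonneg {N : ℕ} {x : ℝ} (h0 : 0 ≤ x) (h1 : x ≤ 1) (σ τ : Fin N → Bool) :
    0 ≤ bw x σ τ := by
  unfold bw
  refine Finset.prod_nonneg fun i _ => ?_
  split_ifs <;> linarith

lemma bw_eq {N : ℕ} (x : ℝ) (σ τ : Fin N → Bool) :
    bw x σ τ = x ^ (agree σ τ) * (1 - x) ^ (N - agree σ τ) := by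
  unfold bw agree
  rw [Finset.prod_ite, Finset.prod_const, Finset.prod_const]
  congr 2
  have h := Finset.card_filter_add_card_filter_not (s := (Finset.univ : Finset (Fin N)))
    (p := fun i => σ i = τ i)
  simp only [Finset.card_univ, Fintype.card_fin] at h
  omega

lemma sum_bw {N : ℕ} (x : ℝ) (σ : Fin N → Bool) : ∑ τ : Fin N → Bool, bw x σ τ = 1 := by
  unfold bw
  have h := Finset.prod_univ_sum (t := fun _ : Fin N => (Finset.univ : Finset Bool))
    (f := fun i b => if σ i = b then x else 1 - x)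
  rw [Fintype.piFinset_univ] at h
  rw [← h]
  apply Finset.prod_eq_one
  intro i _
  cases σ i <;> simp

lemma exp_neg_binEntropy {N k : ℕ} (hN : 0 < N) (hk : k ≤ N) :
    Real.exp (-(N * Real.binEntropy ((k : ℝ) / N))) =
      ((k : ℝ) / N) ^ k * (1 - (k : ℝ) / N) ^ (N - k) := by
  have hN' : (0 : ℝ) < N := by positivity
  have key : ∀ (x : ℝ) (j : ℕ), 0 ≤ x → (x = 0 → j = 0) → Real.exp (j * Real.log x) = x ^ j := by
    intro x j hx h
    rcases eq_or_lt_of_le hx with h0 | h0
    · rw [h h0.symm]; simp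
    · rw [mul_comm, Real.exp_mul, Real.exp_log h0, Real.rpow_natCast]
  have e1 : -((N : ℝ) * Real.binEntropy ((k : ℝ) / N)) =
      k * Real.log ((k : ℝ) / N) + ((N - k : ℕ) : ℝ) * Real.log (1 - (k : ℝ) / N) := by
    rw [Real.binEntropy, Real.log_inv, Real.log_inv, Nat.cast_sub hk]
    field_simp
    ring
  rw [e1, Real.exp_add, key, key]
  · rw [sub_nonneg, div_le_one hN']; exact_mod_cast hk
  · intro h
    have : (k : ℝ) = N := by
      have : (k : ℝ) / N = 1 := by linarith
      rwa [div_eq_one_iff_eq hN'.ne'] at this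
    have : k = N := by exact_mod_cast this
    omega
  · positivity
  · intro h
    rw [div_eq_zero_iff] at h
    rcases h with h | h
    · exact_mod_cast h
    · exact absurd h hN'.ne'

/-- The entropy sum over one row of the overlap table. -/
lemma sum_exp_neg_entropy_le {N : ℕ} (hN : 0 < N) (σ : Fin N → Bool) :
    ∑ τ : Fin N → Bool, Real.exp (-(N * Real.binEntropy ((1 + ovl σ τ) / 2))) ≤ N + 1 := by
  have hN' : (0 : ℝ) < N := by positivity
  have h1 : ∀ τ : Fin N → Bool, Real.exp (-(N * Real.binEntropy ((1 + ovl σ τ) / 2))) ≤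
      ∑ j ∈ Finset.range (N + 1), bw ((j : ℝ) / N) σ τ := by
    intro τ
    rw [half_ovl hN, exp_neg_binEntropy hN (agree_le σ τ), ← bw_eq]
    refine Finset.single_le_sum (f := fun j : ℕ => bw ((j : ℝ) / N) σ τ) ?_ ?_
    · intro j hj
      have hj' : j ≤ N := by simpa [Nat.lt_succ_iff] using hj
      apply bw_nonneg
      · positivity
      · rw [div_le_one hN']; exact_mod_cast hj'
    · simpa [Nat.lt_succ_iff] using agree_le σ τ
  calc ∑ τ : Fin N → Bool, Real.exp (-(N * Real.binEntropy ((1 + ovl σ τ) / 2)))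
      ≤ ∑ τ : Fin N → Bool, ∑ j ∈ Finset.range (N + 1), bw ((j : ℝ) / N) σ τ :=
        Finset.sum_le_sum fun τ _ => h1 τ
    _ = ∑ j ∈ Finset.range (N + 1), ∑ τ : Fin N → Bool, bw ((j : ℝ) / N) σ τ :=
        Finset.sum_comm
    _ = N + 1 := by
        simp_rw [sum_bw]
        simp

end Vale.Agent.P157
end

section

open MeasureTheory ProbabilityTheory

namespace Vale.Agent.P157

/-- `(g · x)/√N` -/
noncomputable def proj {N : ℕ} (x g : Fin N → ℝ) : ℝ := (∑ i, g i * x i) / √(N : ℝ)

@[fun_prop]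
lemma measurable_proj {N : ℕ} (x : Fin N → ℝ) : Measurable (proj x) := by
  unfold proj; fun_prop

lemma map_proj_pair {N : ℕ} (hN : 0 < N) (σ τ : Fin N → Bool) :
    (gvec N).map (fun g => (proj (spin σ) g, proj (spin τ) g)) =
      ((gaussianReal 0 1).prod (gaussianReal 0 1)).map
        (fun z => (z.1, ovl σ τ * z.1 + √(1 - ovl σ τ ^ 2) * z.2)) := by
  have hN' : (0 : ℝ) < N := by positivity
  have hs : √(N : ℝ) * √(N : ℝ) = N := Real.mul_self_sqrt hN'.le
  have hs0 : √(N : ℝ) ≠ 0 := (Real.sqrt_pos.2 hN').ne'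
  have h := map_pair_gvec (fun i => spin σ i / √(N : ℝ)) (fun i => spin τ i / √(N : ℝ))
    (ovl σ τ) ?_ ?_ ?_
  · have e : (fun g : Fin N → ℝ => (proj (spin σ) g, proj (spin τ) g)) =
        fun g => (∑ i, g i * (spin σ i / √(N : ℝ)), ∑ i, g i * (spin τ i / √(N : ℝ))) := by
      funext g
      unfold proj
      rw [Finset.sum_div, Finset.sum_div]
      congr 1 <;> exact Finset.sum_congr rfl fun i _ => by ring
    rw [e]
    exact h
  · have : ∀ i, (spin σ i / √(N : ℝ)) ^ 2 = 1 / N := by
      intro i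
      rw [div_pow, pow_two, pow_two, spin_sq, hs]
    simp_rw [this]
    simp [hN'.ne']
  · have : ∀ i, (spin τ i / √(N : ℝ)) ^ 2 = 1 / N := by
      intro i
      rw [div_pow, pow_two, pow_two, spin_sq, hs]
    simp_rw [this]
    simp [hN'.ne']
  · unfold ovl
    rw [Finset.sum_div]
    refine Finset.sum_congr rfl fun i _ => ?_
    rw [div_mul_div_comm, hs]

lemma map_proj {N : ℕ} (hN : 0 < N) (σ : Fin N → Bool) :
    (gvec N).map (proj (spin σ)) = gaussianReal 0 1 := by
  have h := congrArg (fun μ => Measure.map (Prod.fst : ℝ × ℝ → ℝ) μ) (map_proj_pair hN σ σ)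
  beta_reduce at h
  rw [Measure.map_map (by fun_prop) (by fun_prop), Measure.map_map (by fun_prop) (by fun_prop)] at h
  have e1 : (Prod.fst ∘ fun g => (proj (spin σ) g, proj (spin σ) g)) = proj (spin σ) := rfl
  have e2 : (Prod.fst ∘ fun z : ℝ × ℝ => (z.1, ovl σ σ * z.1 + √(1 - ovl σ σ ^ 2) * z.2)) =
    Prod.fst := rfl
  rw [e1, e2] at h
  rw [h]
  have := Measure.map_fst_prod (μ := gaussianReal 0 1) (ν := gaussianReal 0 1)
  rw [this]
  simp

/-- Law of the vector of local fields at one cube point. -/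
lemma map_patterns {N : ℕ} (hN : 0 < N) (M : ℕ) (σ : Fin N → Bool) :
    (patterns M N).map (fun g a => proj (spin σ) (g a)) =
      Measure.pi fun _ : Fin M => gaussianReal 0 1 := by
  rw [patterns_eq]
  have := Measure.pi_map_pi (μ := fun _ : Fin M => gvec N) (f := fun _ => proj (spin σ))
    (hf := fun _ => (measurable_proj _).aemeasurable)
  rw [this]
  simp_rw [map_proj hN]

lemma integral_gvec_pair {N : ℕ} (hN : 0 < N) (σ τ : Fin N → Bool) {φ : ℝ → ℝ}
    (hφ : Measurable φ) :
    ∫ g, φ (proj (spin σ) g) * φ (proj (spin τ) g) ∂(gvec N) = pairInt φ (ovl σ τ) := by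
  have h1 : ∫ g, φ (proj (spin σ) g) * φ (proj (spin τ) g) ∂(gvec N) =
      ∫ w, φ w.1 * φ w.2 ∂((gvec N).map (fun g => (proj (spin σ) g, proj (spin τ) g))) := by
    rw [integral_map (by exact Measurable.aemeasurable (by fun_prop))]
    exact (by fun_prop : Measurable fun w : ℝ × ℝ => φ w.1 * φ w.2).aestronglyMeasurable
  rw [h1, map_proj_pair hN, integral_map (by fun_prop)]
  · rfl
  · exact (by fun_prop : Measurable fun w : ℝ × ℝ => φ w.1 * φ w.2).aestronglyMeasurable

lemma integral_patterns_pair {N : ℕ} (hN : 0 < N) (M : ℕ) (σ τ : Fin N → Bool) {φ : ℝ → ℝ}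
    (hφ : Measurable φ) :
    ∫ g, ∏ a, (φ (proj (spin σ) (g a)) * φ (proj (spin τ) (g a))) ∂(patterns M N) =
      (pairInt φ (ovl σ τ)) ^ M := by
  rw [patterns_eq, integral_fintype_prod_eq_pow
    (f := fun g : Fin N → ℝ => φ (proj (spin σ) g) * φ (proj (spin τ) g)),
    integral_gvec_pair hN σ τ hφ, Fintype.card_fin]

lemma integral_patterns_one {N : ℕ} (hN : 0 < N) (M : ℕ) (σ : Fin N → Bool)
    {Φ : (Fin M → ℝ) → ℝ} (hΦ : Measurable Φ) :
    ∫ g, Φ (fun a => proj (spin σ) (g a)) ∂(patterns M N) =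
      ∫ s, Φ s ∂(Measure.pi fun _ : Fin M => gaussianReal 0 1) := by
  rw [← map_patterns hN M σ, integral_map]
  · exact (measurable_pi_lambda _ fun a =>
      (measurable_proj _).comp (measurable_pi_apply a)).aemeasurable
  · exact hΦ.aestronglyMeasurable

end Vale.Agent.P157
end

section

open MeasureTheory ProbabilityTheory

namespace Vale.Agent.P157

section
variable {E : Type*} [MeasurableSpace E] (μ : Measure E) [IsProbabilityMeasure μ]

lemma integrable_of_bdd {Ω : Type*} [MeasurableSpace Ω] {P : Measure Ω} [IsFiniteMeasure P]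
    {F : Ω → ℝ} (hF : Measurable F) {C : ℝ} (hC : ∀ x, |F x| ≤ C) : Integrable F P :=
  Integrable.of_bound hF.aestronglyMeasurable C (Filter.Eventually.of_forall fun x => by
    simpa [Real.norm_eq_abs] using hC x)

lemma sum_sq_exp (M : ℕ) {l : E → ℝ} (hl : Measurable l) {B : ℝ} (hB : ∀ x, |l x| ≤ B)
    (h1 : ∫ x, Real.exp (l x) ∂μ = 1) {K : ℝ} (hK : ∫ x, l x * Real.exp (l x) ∂μ = K) :
    ∫ s, (∑ a, (l (s a) - K)) ^ 2 * Real.exp (∑ a, l (s a)) ∂(Measure.pi fun _ : Fin M => μ) =
      M * ∫ x, (l x - K) ^ 2 * Real.exp (l x) ∂μ := by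
  classical
  have hexp : ∀ x, |Real.exp (l x)| ≤ Real.exp B := fun x => by
    rw [abs_of_pos (Real.exp_pos _)]
    exact Real.exp_le_exp.2 ((le_abs_self _).trans (hB x))
  have hY : ∀ x, |l x - K| ≤ B + |K| := fun x =>
    (abs_sub _ _).trans (add_le_add (hB x) le_rfl)
  have hint1 : Integrable (fun x => Real.exp (l x)) μ :=
    integrable_of_bdd (by fun_prop) hexp
  have hint2 : Integrable (fun x => l x * Real.exp (l x)) μ := by
    refine integrable_of_bdd (C := B * Real.exp B) (by fun_prop) fun x => ?_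
    rw [abs_mul]
    exact mul_le_mul (hB x) (hexp x) (abs_nonneg _) ((abs_nonneg _).trans (hB x))
  have hY0 : ∫ x, Real.exp (l x) * (l x - K) ∂μ = 0 := by
    have : ∀ x, Real.exp (l x) * (l x - K) = l x * Real.exp (l x) - K * Real.exp (l x) := by
      intro x; ring
    simp_rw [this]
    rw [integral_sub hint2 (hint1.const_mul K), hK, integral_const_mul, h1]
    ring
  have e1 : ∀ s : Fin M → E, (∑ a, (l (s a) - K)) ^ 2 * Real.exp (∑ a, l (s a)) =
      ∑ a, ∑ b, ∏ c, (Real.exp (l (s c)) * (if c = a then l (s c) - K else 1) *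
        (if c = b then l (s c) - K else 1)) := by
    intro s
    rw [pow_two, Finset.sum_mul_sum, Finset.sum_mul]
    refine Finset.sum_congr rfl fun a _ => ?_
    rw [Finset.sum_mul]
    refine Finset.sum_congr rfl fun b _ => ?_
    rw [Finset.prod_mul_distrib, Finset.prod_mul_distrib, ← Real.exp_sum,
      Finset.prod_ite_eq' Finset.univ a, Finset.prod_ite_eq' Finset.univ b]
    simp only [Finset.mem_univ, if_true]
    ring
  simp_rw [e1]
  have hmeas : ∀ a b : Fin M, Measurable fun s : Fin M → E =>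
      ∏ c, (Real.exp (l (s c)) * (if c = a then l (s c) - K else 1) *
        (if c = b then l (s c) - K else 1)) := by
    intro a b
    refine Finset.measurable_prod _ fun c _ => ?_
    have hc : Measurable fun s : Fin M → E => l (s c) := hl.comp (measurable_pi_apply c)
    refine Measurable.mul (Measurable.mul (Real.measurable_exp.comp hc) ?_) ?_
    · by_cases h : c = a
      · simp only [h, if_true]; rw [← h]; exact hc.sub_const _
      · simp only [h, if_false]; exact measurable_const
    · by_cases h : c = b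
      · simp only [h, if_true]; rw [← h]; exact hc.sub_const _
      · simp only [h, if_false]; exact measurable_const
  have hif : ∀ (c a : Fin M) (x : E), |(if c = a then l x - K else 1)| ≤ B + |K| + 1 := by
    intro c a x
    have h0 : 0 ≤ B + |K| := (abs_nonneg _).trans (hY x)
    split_ifs
    · exact (hY x).trans (by linarith)
    · rw [abs_one]; linarith
  have hint : ∀ a b : Fin M, Integrable (fun s : Fin M → E =>
      ∏ c, (Real.exp (l (s c)) * (if c = a then l (s c) - K else 1) *
        (if c = b then l (s c) - K else 1))) (Measure.pi fun _ : Fin M => μ) := by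
    intro a b
    refine integrable_of_bdd (hmeas a b) (C := ∏ _c : Fin M,
      (Real.exp B * (B + |K| + 1) * (B + |K| + 1))) fun s => ?_
    rw [Finset.abs_prod]
    refine Finset.prod_le_prod (fun c _ => abs_nonneg _) fun c _ => ?_
    rw [abs_mul, abs_mul]
    have h0 : 0 ≤ B + |K| + 1 := (abs_nonneg _).trans (hif c a (s c))
    exact mul_le_mul (mul_le_mul (hexp _) (hif c a _) (abs_nonneg _) (Real.exp_pos _).le)
      (hif c b _) (abs_nonneg _) (by (clear * - h0; positivity))
  rw [integral_finsetSum]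
  · have e2 : ∀ a : Fin M, ∫ s, ∑ b, ∏ c, (Real.exp (l (s c)) *
        (if c = a then l (s c) - K else 1) * (if c = b then l (s c) - K else 1))
          ∂(Measure.pi fun _ : Fin M => μ) = ∫ x, (l x - K) ^ 2 * Real.exp (l x) ∂μ := by
      intro a
      rw [integral_finsetSum _ fun b _ => hint a b]
      have e3 : ∀ b : Fin M, ∫ s : Fin M → E, ∏ c, (Real.exp (l (s c)) *
          (if c = a then l (s c) - K else 1) * (if c = b then l (s c) - K else 1))
            ∂(Measure.pi fun _ : Fin M => μ) =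
          ∏ c : Fin M, ∫ x, (Real.exp (l x) *
          (if c = a then l x - K else 1) * (if c = b then l x - K else 1)) ∂μ := by
        intro b
        exact integral_fintype_prod_eq_prod (f := fun c x => (Real.exp (l x) *
          (if c = a then l x - K else 1) * (if c = b then l x - K else 1)))
      simp_rw [e3]
      rw [Finset.sum_eq_single a]
      · rw [Finset.prod_eq_single a]
        · simp only [if_true]
          refine integral_congr_ae (Filter.Eventually.of_forall fun x => ?_)
          simp only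
          ring
        · intro c _ hc
          simp only [hc, if_false, mul_one]
          exact h1
        · intro h; exact absurd (Finset.mem_univ _) h
      · intro b _ hb
        apply Finset.prod_eq_zero (Finset.mem_univ a)
        have : ¬ (a = b) := fun h => hb h.symm
        simp only [if_true, this, if_false, mul_one]
        exact hY0
      · intro h; exact absurd (Finset.mem_univ _) h
    simp_rw [e2]
    simp
  · intro a _
    exact integrable_finsetSum _ fun b _ => hint a b

/-- Law of large numbers for the tilted product measure. -/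
lemma tilted_mass {M : ℕ} (hM : 0 < M) {l : E → ℝ} (hl : Measurable l) {B : ℝ}
    (hB : ∀ x, |l x| ≤ B)
    (h1 : ∫ x, Real.exp (l x) ∂μ = 1) {K : ℝ} (hK : ∫ x, l x * Real.exp (l x) ∂μ = K)
    {δ : ℝ} (hδ : 0 < δ) :
    1 - (∫ x, (l x - K) ^ 2 * Real.exp (l x) ∂μ) / (δ ^ 2 * M) ≤
      ∫ s, (if |∑ a, l (s a) - M * K| ≤ δ * M then Real.exp (∑ a, l (s a)) else 0)
        ∂(Measure.pi fun _ : Fin M => μ) := by
  have hM' : (0 : ℝ) < M := by positivity
  have hmS : Measurable fun s : Fin M → E => ∑ a, l (s a) :=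
    Finset.measurable_sum _ fun a _ => hl.comp (measurable_pi_apply a)
  have hmS2 : Measurable fun s : Fin M → E => ∑ a, (l (s a) - K) :=
    Finset.measurable_sum _ fun a _ => (hl.comp (measurable_pi_apply a)).sub_const _
  have hbS : ∀ s : Fin M → E, |∑ a, l (s a)| ≤ M * B := fun s => by
    refine (Finset.abs_sum_le_sum_abs _ _).trans ?_
    calc ∑ a, |l (s a)| ≤ ∑ _a : Fin M, B := Finset.sum_le_sum fun a _ => hB _
      _ = M * B := by simp
  have hbE : ∀ s : Fin M → E, Real.exp (∑ a, l (s a)) ≤ Real.exp (M * B) := fun s =>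
    Real.exp_le_exp.2 ((le_abs_self _).trans (hbS s))
  have hbS2 : ∀ s : Fin M → E, |∑ a, (l (s a) - K)| ≤ M * (B + |K|) := fun s => by
    refine (Finset.abs_sum_le_sum_abs _ _).trans ?_
    calc ∑ a, |l (s a) - K| ≤ ∑ _a : Fin M, (B + |K|) :=
          Finset.sum_le_sum fun a _ => (abs_sub _ _).trans (add_le_add (hB _) le_rfl)
      _ = M * (B + |K|) := by simp; ring
  have hi1 : Integrable (fun s : Fin M → E => Real.exp (∑ a, l (s a)))
      (Measure.pi fun _ : Fin M => μ) :=
    integrable_of_bdd (by fun_prop) fun s => by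
      rw [abs_of_pos (Real.exp_pos _)]; exact hbE s
  have hi2 : Integrable (fun s : Fin M → E => (∑ a, (l (s a) - K)) ^ 2 *
      Real.exp (∑ a, l (s a))) (Measure.pi fun _ : Fin M => μ) :=
    integrable_of_bdd (C := (M * (B + |K|)) ^ 2 * Real.exp (M * B)) (by fun_prop) fun s => by
      rw [abs_mul, abs_of_pos (Real.exp_pos _), abs_pow]
      exact mul_le_mul (pow_le_pow_left₀ (abs_nonneg _) (hbS2 s) 2) (hbE s)
        (Real.exp_pos _).le (by (clear * -; positivity))
  have hE1 : ∫ s, Real.exp (∑ a, l (s a)) ∂(Measure.pi fun _ : Fin M => μ) = 1 := by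
    simp_rw [Real.exp_sum]
    rw [integral_fintype_prod_eq_pow (f := fun x => Real.exp (l x)), h1, one_pow]
  have hE2 := sum_sq_exp μ M hl hB h1 hK
  set C := ∫ x, (l x - K) ^ 2 * Real.exp (l x) ∂μ with hC
  have hlow : 1 - C / (δ ^ 2 * M) =
      ∫ s, (Real.exp (∑ a, l (s a)) - (1 / (δ * M) ^ 2) * ((∑ a, (l (s a) - K)) ^ 2 *
        Real.exp (∑ a, l (s a)))) ∂(Measure.pi fun _ : Fin M => μ) := by
    rw [integral_sub hi1 (hi2.const_mul _), hE1, integral_const_mul, hE2]
    field_simp
  rw [hlow]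
  refine integral_mono (hi1.sub (hi2.const_mul _)) ?_ fun s => ?_
  · refine integrable_of_bdd (C := Real.exp (M * B)) ?_ fun s => ?_
    · refine Measurable.ite ?_ (by fun_prop) measurable_const
      exact measurableSet_le (by fun_prop) measurable_const
    · split_ifs
      · rw [abs_of_pos (Real.exp_pos _)]; exact hbE s
      · rw [abs_zero]; exact (Real.exp_pos _).le
  · simp only
    have hs : ∑ a, (l (s a) - K) = ∑ a, l (s a) - M * K := by
      rw [Finset.sum_sub_distrib]; simp
    split_ifs with h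
    · have : 0 ≤ (1 / (δ * M) ^ 2) * ((∑ a, (l (s a) - K)) ^ 2 * Real.exp (∑ a, l (s a))) := by
        (clear * - hδ hM; positivity)
      linarith only [this]
    · rw [not_le] at h
      have h2 : (δ * M) ^ 2 ≤ (∑ a, (l (s a) - K)) ^ 2 := by
        rw [hs, ← sq_abs (∑ a, l (s a) - M * K)]
        exact pow_le_pow_left₀ (by positivity) h.le 2
      have h3 : 1 ≤ (1 / (δ * M) ^ 2) * (∑ a, (l (s a) - K)) ^ 2 := by
        rw [one_div, inv_mul_eq_div, le_div_iff₀ (by positivity)]
        linarith only [h2]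
      have h4 : Real.exp (∑ a, l (s a)) ≤
          (1 / (δ * M) ^ 2) * ((∑ a, (l (s a) - K)) ^ 2 * Real.exp (∑ a, l (s a))) := by
        rw [← mul_assoc]
        exact le_mul_of_one_le_left (Real.exp_pos _).le h3
      linarith only [h4]
end

end Vale.Agent.P157
end

section

open MeasureTheory ProbabilityTheory

namespace Vale.Agent.P157

/-- truncated exponential weight -/
noncomputable def tw (M : ℕ) (l : ℝ → ℝ) (K δ : ℝ) (s : Fin M → ℝ) : ℝ :=
  if |∑ a, l (s a) - M * K| ≤ δ * M then Real.exp (∑ a, l (s a)) else 0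

/-- truncated partition function -/
noncomputable def trZ (M N : ℕ) (l : ℝ → ℝ) (K δ : ℝ) (g : Fin M → Fin N → ℝ) : ℝ :=
  (1 / 2 : ℝ) ^ N * ∑ σ : Fin N → Bool, tw M l K δ (fun a => proj (spin σ) (g a))

lemma measurable_tw (M : ℕ) {l : ℝ → ℝ} (hl : Measurable l) (K δ : ℝ) :
    Measurable (tw M l K δ) := by
  unfold tw
  have hmS : Measurable fun s : Fin M → ℝ => ∑ a, l (s a) :=
    Finset.measurable_sum _ fun a _ => hl.comp (measurable_pi_apply a)
  refine Measurable.ite ?_ (by fun_prop) measurable_const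
  exact measurableSet_le (by fun_prop) measurable_const

lemma tw_nonneg (M : ℕ) (l : ℝ → ℝ) (K δ : ℝ) (s : Fin M → ℝ) : 0 ≤ tw M l K δ s := by
  unfold tw; split_ifs
  · exact (Real.exp_pos _).le
  · exact le_rfl

lemma abs_sum_le {M : ℕ} {l : ℝ → ℝ} {B : ℝ} (hB : ∀ x, |l x| ≤ B) (s : Fin M → ℝ) :
    |∑ a, l (s a)| ≤ M * B := by
  refine (Finset.abs_sum_le_sum_abs _ _).trans ?_
  calc ∑ a, |l (s a)| ≤ ∑ _a : Fin M, B := Finset.sum_le_sum fun a _ => hB _
    _ = M * B := by simp

lemma tw_le {M : ℕ} {l : ℝ → ℝ} {B : ℝ} (hB : ∀ x, |l x| ≤ B) (K δ : ℝ) (s : Fin M → ℝ) :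
    tw M l K δ s ≤ Real.exp (M * B) := by
  unfold tw; split_ifs
  · exact Real.exp_le_exp.2 ((le_abs_self _).trans (abs_sum_le hB s))
  · exact (Real.exp_pos _).le

lemma measurable_field {M N : ℕ} (x : Fin N → ℝ) :
    Measurable fun (g : Fin M → Fin N → ℝ) (a : Fin M) => proj x (g a) :=
  measurable_pi_lambda _ fun a => (measurable_proj _).comp (measurable_pi_apply a)

lemma measurable_trZ (M N : ℕ) {l : ℝ → ℝ} (hl : Measurable l) (K δ : ℝ) :
    Measurable (trZ M N l K δ) := by
  unfold trZ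
  refine Measurable.const_mul (Finset.measurable_sum _ fun σ _ => ?_) _
  exact (measurable_tw M hl K δ).comp (measurable_field _)

lemma trZ_nonneg (M N : ℕ) (l : ℝ → ℝ) (K δ : ℝ) (g : Fin M → Fin N → ℝ) :
    0 ≤ trZ M N l K δ g := by
  unfold trZ
  exact mul_nonneg (by positivity) (Finset.sum_nonneg fun σ _ => tw_nonneg _ _ _ _ _)

lemma trZ_le {M N : ℕ} {l : ℝ → ℝ} {B : ℝ} (hB : ∀ x, |l x| ≤ B) (K δ : ℝ)
    (g : Fin M → Fin N → ℝ) : trZ M N l K δ g ≤ Real.exp (M * B) := by
  unfold trZ
  calc (1 / 2 : ℝ) ^ N * ∑ σ : Fin N → Bool, tw M l K δ (fun a => proj (spin σ) (g a))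
      ≤ (1 / 2 : ℝ) ^ N * ∑ _σ : Fin N → Bool, Real.exp (M * B) := by
        refine mul_le_mul_of_nonneg_left (Finset.sum_le_sum fun σ _ => tw_le hB _ _ _)
          (by positivity)
    _ = Real.exp (M * B) := by
        simp only [Finset.sum_const, Finset.card_univ, Fintype.card_fun, Fintype.card_bool,
          Fintype.card_fin, nsmul_eq_mul]
        push_cast
        rw [← mul_assoc, ← mul_pow]
        norm_num

lemma trZ_mean {M N : ℕ} (hM : 0 < M) (hN : 0 < N) {l : ℝ → ℝ} (hl : Measurable l) {B : ℝ}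
    (hB : ∀ x, |l x| ≤ B)
    (h1 : ∫ x, Real.exp (l x) ∂(gaussianReal 0 1) = 1) {K : ℝ}
    (hK : ∫ x, l x * Real.exp (l x) ∂(gaussianReal 0 1) = K) {δ : ℝ} (hδ : 0 < δ) :
    1 - (∫ x, (l x - K) ^ 2 * Real.exp (l x) ∂(gaussianReal 0 1)) / (δ ^ 2 * M) ≤
      ∫ g, trZ M N l K δ g ∂(patterns M N) := by
  unfold trZ
  rw [integral_const_mul, integral_finsetSum]
  · have h2 : ∀ σ : Fin N → Bool, ∫ g, tw M l K δ (fun a => proj (spin σ) (g a)) ∂(patterns M N) =
        ∫ s, tw M l K δ s ∂(Measure.pi fun _ : Fin M => gaussianReal 0 1) := fun σ =>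
      integral_patterns_one hN M σ (measurable_tw M hl K δ)
    simp_rw [h2]
    simp only [Finset.sum_const, Finset.card_univ, Fintype.card_fun, Fintype.card_bool,
          Fintype.card_fin, nsmul_eq_mul]
    push_cast
    rw [← mul_assoc, ← mul_pow, one_div, inv_mul_cancel₀ (by norm_num : (2 : ℝ) ≠ 0), one_pow,
      one_mul]
    exact tilted_mass (gaussianReal 0 1) hM hl hB h1 hK hδ
  · intro σ _
    refine integrable_of_bdd (C := Real.exp (M * B))
      ((measurable_tw M hl K δ).comp (measurable_field _)) fun g => ?_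
    rw [abs_of_nonneg (tw_nonneg _ _ _ _ _)]
    exact tw_le hB _ _ _

lemma tw_mul_le {M : ℕ} {l : ℝ → ℝ} {K δ s : ℝ} (hs1 : s ≤ 1)
    (u v : Fin M → ℝ) :
    tw M l K δ u * tw M l K δ v ≤ Real.exp (2 * (1 - s) * ((K + δ) * M)) *
      ∏ a, (Real.exp (s * l (u a)) * Real.exp (s * l (v a))) := by
  have hr : 0 ≤ Real.exp (2 * (1 - s) * ((K + δ) * M)) *
      ∏ a, (Real.exp (s * l (u a)) * Real.exp (s * l (v a))) := by
    refine mul_nonneg (Real.exp_pos _).le (Finset.prod_nonneg fun a _ => by positivity)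
  unfold tw
  split_ifs with h1 h2
  · have e : ∏ a, (Real.exp (s * l (u a)) * Real.exp (s * l (v a))) =
        Real.exp (s * (∑ a, l (u a) + ∑ a, l (v a))) := by
      rw [mul_add, Finset.mul_sum, Finset.mul_sum, Real.exp_add, Real.exp_sum, Real.exp_sum,
        ← Finset.prod_mul_distrib]
    rw [e, ← Real.exp_add, ← Real.exp_add]
    apply Real.exp_le_exp.2
    have h1' := (abs_le.1 h1).2
    have h2' := (abs_le.1 h2).2
    linarith only [mul_nonneg (sub_nonneg.2 hs1) (sub_nonneg.2 h2'), mul_nonneg (sub_nonneg.2 hs1) (sub_nonneg.2 h1')]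
  · rw [mul_zero]; exact hr
  · rw [zero_mul]; exact hr
  · rw [zero_mul]; exact hr

lemma trZ_second {M N : ℕ} (hN : 0 < N) {l : ℝ → ℝ} (hl : Measurable l) {B : ℝ}
    (hB : ∀ x, |l x| ≤ B) {K δ : ℝ} (hδ : 0 ≤ δ)
    (hpair : ∀ ρ ∈ Set.Icc (-1 : ℝ) 1, ∃ s ∈ Set.Icc (0 : ℝ) 1,
      M * (2 * (1 - s) * K + Real.log (pairInt (fun x => Real.exp (s * l x)) ρ)) ≤
        N * (Real.log 2 - Real.binEntropy ((1 + ρ) / 2))) :
    ∫ g, (trZ M N l K δ g) ^ 2 ∂(patterns M N) ≤ (N + 1) * Real.exp (2 * δ * M) := by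
  have hB0 : 0 ≤ B := (abs_nonneg _).trans (hB 0)
  have hm : ∀ σ : Fin N → Bool, Measurable fun g : Fin M → Fin N → ℝ =>
      tw M l K δ (fun a => proj (spin σ) (g a)) := fun σ =>
    (measurable_tw M hl K δ).comp (measurable_field _)
  have hb : ∀ (σ : Fin N → Bool) (g : Fin M → Fin N → ℝ),
      |tw M l K δ (fun a => proj (spin σ) (g a))| ≤ Real.exp (M * B) := fun σ g => by
    rw [abs_of_nonneg (tw_nonneg _ _ _ _ _)]; exact tw_le hB _ _ _
  have e1 : ∀ g : Fin M → Fin N → ℝ, (trZ M N l K δ g) ^ 2 =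
      ((1 / 2 : ℝ) ^ N * (1 / 2 : ℝ) ^ N) * ∑ σ : Fin N → Bool, ∑ τ : Fin N → Bool,
        tw M l K δ (fun a => proj (spin σ) (g a)) * tw M l K δ (fun a => proj (spin τ) (g a)) := by
    intro g
    unfold trZ
    rw [← Finset.sum_mul_sum]
    ring
  have hpw : ∀ σ τ : Fin N → Bool,
      ∫ g, tw M l K δ (fun a => proj (spin σ) (g a)) *
        tw M l K δ (fun a => proj (spin τ) (g a)) ∂(patterns M N) ≤
      Real.exp (2 * δ * M) * (2 ^ N *
        Real.exp (-(N * Real.binEntropy ((1 + ovl σ τ) / 2)))) := by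
    intro σ τ
    obtain ⟨s, ⟨hs0, hs1⟩, hs⟩ := hpair (ovl σ τ) (ovl_mem hN σ τ)
    set φ : ℝ → ℝ := fun x => Real.exp (s * l x) with hφ
    have hφm : Measurable φ := by fun_prop
    have hφb : ∀ x, |φ x| ≤ Real.exp B := fun x => by
      rw [hφ, abs_of_pos (Real.exp_pos _)]
      apply Real.exp_le_exp.2
      calc s * l x ≤ |s * l x| := le_abs_self _
        _ = s * |l x| := by rw [abs_mul, abs_of_nonneg hs0]
        _ ≤ 1 * B := mul_le_mul hs1 (hB x) (abs_nonneg _) zero_le_one
        _ = B := one_mul B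
    have hstep : ∫ g, tw M l K δ (fun a => proj (spin σ) (g a)) *
        tw M l K δ (fun a => proj (spin τ) (g a)) ∂(patterns M N) ≤
        ∫ g, Real.exp (2 * (1 - s) * ((K + δ) * M)) *
          ∏ a, (φ (proj (spin σ) (g a)) * φ (proj (spin τ) (g a))) ∂(patterns M N) := by
      refine integral_mono ?_ ?_ fun g => tw_mul_le hs1 _ _
      · refine integrable_of_bdd (C := Real.exp (M * B) * Real.exp (M * B))
          ((hm σ).mul (hm τ)) fun g => ?_
        rw [abs_mul]
        exact mul_le_mul (hb σ g) (hb τ g) (abs_nonneg _) (Real.exp_pos _).le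
      · refine Integrable.const_mul ?_ _
        refine integrable_of_bdd (C := ∏ _a : Fin M, (Real.exp B * Real.exp B)) ?_ fun g => ?_
        · refine Finset.measurable_prod _ fun a _ => ?_
          exact ((hφm.comp ((measurable_proj _).comp (measurable_pi_apply a)))).mul
            (hφm.comp ((measurable_proj _).comp (measurable_pi_apply a)))
        · rw [Finset.abs_prod]
          refine Finset.prod_le_prod (fun a _ => abs_nonneg _) fun a _ => ?_
          rw [abs_mul]
          exact mul_le_mul (hφb _) (hφb _) (abs_nonneg _) (Real.exp_pos _).le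
    rw [integral_const_mul, integral_patterns_pair hN M σ τ hφm] at hstep
    refine hstep.trans ?_
    have hpos : 0 < pairInt φ (ovl σ τ) := by
      unfold pairInt
      simp only [hφ, ← Real.exp_add]
      apply integral_exp_pos
      simp only [Real.exp_add]
      refine integrable_of_bdd (C := Real.exp B * Real.exp B) (by fun_prop) fun z => ?_
      rw [abs_mul]
      exact mul_le_mul (hφb _) (hφb _) (abs_nonneg _) (Real.exp_pos _).le
    have e2 : (pairInt φ (ovl σ τ)) ^ M = Real.exp (M * Real.log (pairInt φ (ovl σ τ))) := by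
      rw [mul_comm, Real.exp_mul, Real.exp_log hpos, Real.rpow_natCast]
    have e3 : (2 : ℝ) ^ N = Real.exp (N * Real.log 2) := by
      rw [mul_comm, Real.exp_mul, Real.exp_log (by norm_num), Real.rpow_natCast]
    rw [e2, e3, ← Real.exp_add, ← Real.exp_add, ← Real.exp_add]
    apply Real.exp_le_exp.2
    have hM0 : (0 : ℝ) ≤ M := by positivity
    have h5 : 2 * (1 - s) * (δ * M) ≤ 2 * δ * M := by
      have : 0 ≤ s * (δ * M) := mul_nonneg hs0 (mul_nonneg hδ hM0)
      linarith only [this]
    have h6 : 2 * (1 - s) * ((K + δ) * M) = M * (2 * (1 - s) * K) + 2 * (1 - s) * (δ * M) := by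
      ring
    rw [h6]
    have h7 := hs
    rw [mul_add] at h7
    linarith only [h7, h5]
  simp_rw [e1]
  rw [integral_const_mul, integral_finsetSum]
  · have hsum : ∑ σ : Fin N → Bool, ∫ g, ∑ τ : Fin N → Bool,
        tw M l K δ (fun a => proj (spin σ) (g a)) *
          tw M l K δ (fun a => proj (spin τ) (g a)) ∂(patterns M N) ≤
        ∑ _σ : Fin N → Bool, Real.exp (2 * δ * M) * (2 ^ N * (N + 1)) := by
      refine Finset.sum_le_sum fun σ _ => ?_
      rw [integral_finsetSum]
      · calc ∑ τ : Fin N → Bool, ∫ g, tw M l K δ (fun a => proj (spin σ) (g a)) *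
              tw M l K δ (fun a => proj (spin τ) (g a)) ∂(patterns M N)
            ≤ ∑ τ : Fin N → Bool, Real.exp (2 * δ * M) * (2 ^ N *
              Real.exp (-(N * Real.binEntropy ((1 + ovl σ τ) / 2)))) :=
              Finset.sum_le_sum fun τ _ => hpw σ τ
          _ = Real.exp (2 * δ * M) * (2 ^ N * ∑ τ : Fin N → Bool,
              Real.exp (-(N * Real.binEntropy ((1 + ovl σ τ) / 2)))) := by
              rw [Finset.mul_sum, Finset.mul_sum]
          _ ≤ Real.exp (2 * δ * M) * (2 ^ N * (N + 1)) := by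
              refine mul_le_mul_of_nonneg_left ?_ (Real.exp_pos _).le
              exact mul_le_mul_of_nonneg_left (sum_exp_neg_entropy_le hN σ) (by positivity)
      · intro τ _
        refine integrable_of_bdd (C := Real.exp (M * B) * Real.exp (M * B))
          ((hm σ).mul (hm τ)) fun g => ?_
        rw [abs_mul]
        exact mul_le_mul (hb σ g) (hb τ g) (abs_nonneg _) (Real.exp_pos _).le
    refine (mul_le_mul_of_nonneg_left hsum (by positivity)).trans (le_of_eq ?_)
    simp only [Finset.sum_const, Finset.card_univ, Fintype.card_fun, Fintype.card_bool,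
          Fintype.card_fin, nsmul_eq_mul]
    push_cast
    have : ((1 / 2 : ℝ) ^ N) * (2 : ℝ) ^ N = 1 := by rw [← mul_pow]; norm_num
    calc (1 / 2 : ℝ) ^ N * (1 / 2 : ℝ) ^ N * (2 ^ N * (Real.exp (2 * δ * M) * (2 ^ N * (N + 1))))
        = ((1 / 2 : ℝ) ^ N * 2 ^ N) * ((1 / 2 : ℝ) ^ N * 2 ^ N) *
          ((N + 1) * Real.exp (2 * δ * M)) := by ring
      _ = (N + 1) * Real.exp (2 * δ * M) := by rw [this]; ring
  · intro σ _
    refine integrable_finsetSum _ fun τ _ => ?_
    refine integrable_of_bdd (C := Real.exp (M * B) * Real.exp (M * B))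
      ((hm σ).mul (hm τ)) fun g => ?_
    rw [abs_mul]
    exact mul_le_mul (hb σ g) (hb τ g) (abs_nonneg _) (Real.exp_pos _).le

end Vale.Agent.P157
end

section

open MeasureTheory ProbabilityTheory

namespace Vale.Agent.P157

section
variable {E : Type*} [MeasurableSpace E] (μ : Measure E) [IsProbabilityMeasure μ]

lemma integral_pi_cons (M : ℕ) (G : (Fin (M + 1) → E) → ℝ) :
    ∫ x, G x ∂(Measure.pi fun _ : Fin (M + 1) => μ) =
      ∫ z : E × (Fin M → E), G (Fin.cons z.1 z.2) ∂(μ.prod (Measure.pi fun _ : Fin M => μ)) := by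
  have h := ((measurePreserving_piFinSuccAbove (fun _ : Fin (M + 1) => μ) 0).symm).integral_comp'
    (g := G)
  rw [← h]
  refine integral_congr_ae (Filter.Eventually.of_forall fun z => ?_)
  simp only [MeasurableEquiv.piFinSuccAbove_symm_apply, Fin.insertNthEquiv]
  congr 1
  simp

/-- Exponential-moment form of the bounded differences inequality. -/
theorem mgf_bounded_differences (M : ℕ) (F : (Fin M → E) → ℝ) (hF : Measurable F) {B c : ℝ}
    (hB : ∀ x, |F x| ≤ B) (hc0 : 0 ≤ c)
    (hc : ∀ x a e, |F (Function.update x a e) - F x| ≤ c) (t : ℝ) :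
    ∫ x, Real.exp (t * (F x - ∫ y, F y ∂(Measure.pi fun _ : Fin M => μ)))
      ∂(Measure.pi fun _ : Fin M => μ) ≤ Real.exp (M * c ^ 2 * t ^ 2 / 2) := by
  induction M with
  | zero =>
    have h : ∀ x : Fin 0 → E, F x = ∫ y, F y ∂(Measure.pi fun _ : Fin 0 => μ) := by
      intro x
      have h2 : ∀ y : Fin 0 → E, F y = F x := fun y => by congr 1; exact Subsingleton.elim _ _
      rw [integral_congr_ae (Filter.Eventually.of_forall h2)]
      simp
    have h3 : ∀ x : Fin 0 → E, Real.exp (t * (F x - ∫ y, F y ∂(Measure.pi fun _ : Fin 0 => μ)))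
        = 1 := by
      intro x
      rw [← h x]; simp
    simp_rw [h3]
    simp
  | succ M ih =>
    have hB0 : ∀ x, F x ≤ B := fun x => (le_abs_self _).trans (hB x)
    set π := (Measure.pi fun _ : Fin M => μ) with hπ
    have hcons : Measurable fun z : E × (Fin M → E) => F (Fin.cons z.1 z.2) := by
      refine hF.comp ?_
      have h := (MeasurableEquiv.piFinSuccAbove (fun _ : Fin (M + 1) => E) 0).symm.measurable
      convert h using 1
      funext z
      simp only [MeasurableEquiv.piFinSuccAbove_symm_apply, Fin.insertNthEquiv]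
      simp
    set G : (Fin M → E) → ℝ := fun y => ∫ x, F (Fin.cons x y) ∂μ with hG
    have hcy : ∀ y : Fin M → E, Measurable fun x : E => F (Fin.cons x y) := fun y =>
      hcons.comp (measurable_id.prodMk measurable_const)
    have hGm : Measurable G := by
      exact (hcons.stronglyMeasurable.integral_prod_left' (μ := μ)).measurable
    have hintF : ∀ y, Integrable (fun x => F (Fin.cons x y)) μ := fun y =>
      Integrable.of_bound (hcy y).aestronglyMeasurable B
        (Filter.Eventually.of_forall fun x => by simpa [Real.norm_eq_abs] using hB _)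
    have hGB : ∀ y, |G y| ≤ B := by
      intro y
      have := norm_integral_le_of_norm_le_const (μ := μ) (f := fun x => F (Fin.cons x y)) (C := B)
        (Filter.Eventually.of_forall fun x => by simpa [Real.norm_eq_abs] using hB _)
      simpa [Real.norm_eq_abs] using this
    have hGc : ∀ y a e, |G (Function.update y a e) - G y| ≤ c := by
      intro y a e
      rw [hG]
      simp only
      rw [← integral_sub (hintF _) (hintF _)]
      have := norm_integral_le_of_norm_le_const (μ := μ)
        (f := fun x => F (Fin.cons x (Function.update y a e)) - F (Fin.cons x y)) (C := c)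
        (Filter.Eventually.of_forall fun x => by
          rw [Real.norm_eq_abs]
          have h := hc (Fin.cons x y : Fin (M + 1) → E) a.succ e
          rwa [Fin.cons_update])
      simpa [Real.norm_eq_abs] using this
    have ihG := ih G hGm hGB hGc
    have hmean : ∫ y, G y ∂π = ∫ y, F y ∂(Measure.pi fun _ : Fin (M + 1) => μ) := by
      rw [integral_pi_cons, integral_prod_symm]
      exact Integrable.of_bound hcons.aestronglyMeasurable B
        (Filter.Eventually.of_forall fun x => by simpa [Real.norm_eq_abs] using hB _)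
    set m := ∫ y, F y ∂(Measure.pi fun _ : Fin (M + 1) => μ) with hm
    have hmB : |m| ≤ B := by
      have := norm_integral_le_of_norm_le_const (μ := Measure.pi fun _ : Fin (M + 1) => μ)
        (f := F) (C := B)
        (Filter.Eventually.of_forall fun x => by simpa [Real.norm_eq_abs] using hB _)
      simpa [Real.norm_eq_abs] using this
    have hmm : Measurable fun z : E × (Fin M → E) =>
        Real.exp (t * (F (Fin.cons z.1 z.2) - m)) :=
      Real.measurable_exp.comp ((hcons.sub_const m).const_mul t)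
    rw [integral_pi_cons, integral_prod_symm]
    · have hinner : ∀ y : Fin M → E, ∫ x, Real.exp (t * (F (Fin.cons x y) - m)) ∂μ ≤
          Real.exp (c ^ 2 * t ^ 2 / 2) * Real.exp (t * (G y - m)) := by
        intro y
        have hbd : ∀ᵐ x ∂μ, (fun x => F (Fin.cons x y) - G y) x ∈ Set.Icc (-c) c := by
          refine Filter.Eventually.of_forall fun x => ?_
          have hx : ∀ x', |F (Fin.cons x y) - F (Fin.cons x' y)| ≤ c := by
            intro x'
            have h := hc (Fin.cons x' y : Fin (M + 1) → E) 0 x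
            rwa [Fin.update_cons_zero] at h
          have h1 : F (Fin.cons x y) - G y = ∫ x', (F (Fin.cons x y) - F (Fin.cons x' y)) ∂μ := by
            rw [integral_sub (integrable_const _) (hintF y)]
            simp [hG]
          have h2 : |F (Fin.cons x y) - G y| ≤ c := by
            rw [h1]
            have := norm_integral_le_of_norm_le_const (μ := μ)
              (f := fun x' => F (Fin.cons x y) - F (Fin.cons x' y)) (C := c)
              (Filter.Eventually.of_forall fun x' => by
                rw [Real.norm_eq_abs]; exact hx x')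
            simpa [Real.norm_eq_abs] using this
          exact abs_le.1 h2
        have hmz : ∫ x, (fun x => F (Fin.cons x y) - G y) x ∂μ = 0 := by
          simp only
          rw [integral_sub (hintF y) (integrable_const _)]
          simp [hG]
        have hs := hasSubgaussianMGF_of_mem_Icc_of_integral_eq_zero
          (((hcy y).sub_const _).aemeasurable) hbd hmz
        have h3 := hs.mgf_le t
        have h4 : ((‖c - -c‖₊ / 2 : NNReal) ^ 2 : NNReal) = (c ^ 2 : ℝ) := by
          push_cast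
          rw [Real.norm_eq_abs, abs_of_nonneg (by linarith)]
          ring
        rw [h4] at h3
        have h5 : ∀ x, Real.exp (t * (F (Fin.cons x y) - m)) =
            Real.exp (t * (F (Fin.cons x y) - G y)) * Real.exp (t * (G y - m)) := by
          intro x
          rw [← Real.exp_add]; congr 1; ring
        simp_rw [h5]
        rw [integral_mul_const]
        exact mul_le_mul_of_nonneg_right h3 (Real.exp_pos _).le
      have hbE : ∀ u : ℝ, |u| ≤ B → Real.exp (t * (u - m)) ≤ Real.exp (|t| * (B + B)) := by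
        intro u hu
        apply Real.exp_le_exp.2
        refine (le_abs_self _).trans ?_
        rw [abs_mul]
        exact mul_le_mul_of_nonneg_left ((abs_sub _ _).trans (add_le_add hu hmB)) (abs_nonneg _)
      calc ∫ y, ∫ x, Real.exp (t * (F (Fin.cons x y) - m)) ∂μ ∂π
          ≤ ∫ y, Real.exp (c ^ 2 * t ^ 2 / 2) * Real.exp (t * (G y - m)) ∂π := by
            refine integral_mono ?_ ?_ hinner
            · refine Integrable.of_bound (C := Real.exp (|t| * (B + B))) ?_ ?_
              · exact (hmm.stronglyMeasurable.integral_prod_left' (μ := μ)).aestronglyMeasurable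
              · refine Filter.Eventually.of_forall fun y => ?_
                have := norm_integral_le_of_norm_le_const (μ := μ)
                  (f := fun x => Real.exp (t * (F (Fin.cons x y) - m)))
                  (C := Real.exp (|t| * (B + B)))
                  (Filter.Eventually.of_forall fun x => by
                    rw [Real.norm_eq_abs, abs_of_pos (Real.exp_pos _)]; exact hbE _ (hB _))
                simpa using this
            · refine Integrable.const_mul ?_ _
              refine Integrable.of_bound (C := Real.exp (|t| * (B + B))) ?_ ?_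
              · exact (by fun_prop : Measurable fun y => Real.exp (t * (G y - m))).aestronglyMeasurable
              · refine Filter.Eventually.of_forall fun y => ?_
                rw [Real.norm_eq_abs, abs_of_pos (Real.exp_pos _)]; exact hbE _ (hGB _)
        _ = Real.exp (c ^ 2 * t ^ 2 / 2) * ∫ y, Real.exp (t * (G y - ∫ y, G y ∂π)) ∂π := by
            rw [integral_const_mul, hmean]
        _ ≤ Real.exp (c ^ 2 * t ^ 2 / 2) * Real.exp (M * c ^ 2 * t ^ 2 / 2) :=
            mul_le_mul_of_nonneg_left ihG (Real.exp_pos _).le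
        _ = Real.exp ((M + 1 : ℕ) * c ^ 2 * t ^ 2 / 2) := by
            rw [← Real.exp_add]; congr 1; push_cast; ring
    · refine Integrable.of_bound (C := Real.exp (|t| * (B + B)))
        hmm.aestronglyMeasurable ?_
      refine Filter.Eventually.of_forall fun z => ?_
      rw [Real.norm_eq_abs, abs_of_pos (Real.exp_pos _)]
      apply Real.exp_le_exp.2
      refine (le_abs_self _).trans ?_
      rw [abs_mul]
      exact mul_le_mul_of_nonneg_left ((abs_sub _ _).trans (add_le_add (hB _) hmB)) (abs_nonneg _)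
end

end Vale.Agent.P157
end

section

open MeasureTheory ProbabilityTheory

namespace Vale.Agent.P157

/-- unnormalized pressure on the cube -/
noncomputable def logZ {M N : ℕ} (f : ℝ → ℝ) (g : Fin M → Fin N → ℝ) : ℝ :=
  Real.log ((1 / 2 : ℝ) ^ N * ∑ σ : Fin N → Bool, Real.exp (∑ a, f (proj (spin σ) (g a))))

lemma pressure_cube {M N : ℕ} (f : ℝ → ℝ) (g : Fin M → Fin N → ℝ) :
    pressure (cube N) f g = 1 / N * logZ f g := by
  unfold pressure logZ
  rw [integral_cube]
  rfl

lemma half_pow_mul_sum_const (N : ℕ) (c : ℝ) :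
    (1 / 2 : ℝ) ^ N * ∑ _σ : Fin N → Bool, c = c := by
  simp only [Finset.sum_const, Finset.card_univ, Fintype.card_fun, Fintype.card_bool,
    Fintype.card_fin, nsmul_eq_mul]
  push_cast
  rw [← mul_assoc, ← mul_pow]
  norm_num

lemma Z_pos {M N : ℕ} (f : ℝ → ℝ) (g : Fin M → Fin N → ℝ) :
    0 < (1 / 2 : ℝ) ^ N * ∑ σ : Fin N → Bool, Real.exp (∑ a, f (proj (spin σ) (g a))) := by
  refine mul_pos (by positivity) (Finset.sum_pos (fun σ _ => Real.exp_pos _) ?_)
  exact Finset.univ_nonempty

lemma measurable_logZ {M N : ℕ} {f : ℝ → ℝ} (hf : Measurable f) :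
    Measurable (logZ (M := M) (N := N) f) := by
  unfold logZ
  refine Real.measurable_log.comp (Measurable.const_mul ?_ _)
  refine Finset.measurable_sum _ fun σ _ => Real.measurable_exp.comp ?_
  refine Finset.measurable_sum _ fun a _ => hf.comp ?_
  exact (measurable_proj _).comp (measurable_pi_apply a)

lemma logZ_bdd {M N : ℕ} {f : ℝ → ℝ} {D : ℝ} (hD : ∀ x, |f x| ≤ D) (g : Fin M → Fin N → ℝ) :
    |logZ f g| ≤ M * D := by
  have hs : ∀ σ : Fin N → Bool, |∑ a, f (proj (spin σ) (g a))| ≤ M * D := fun σ =>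
    abs_sum_le hD _
  rw [abs_le]
  unfold logZ
  constructor
  · rw [← Real.log_exp (-(M * D))]
    refine Real.log_le_log (Real.exp_pos _) ?_
    calc Real.exp (-(M * D)) = (1 / 2 : ℝ) ^ N * ∑ _σ : Fin N → Bool, Real.exp (-(M * D)) :=
          (half_pow_mul_sum_const N _).symm
      _ ≤ _ := mul_le_mul_of_nonneg_left (Finset.sum_le_sum fun σ _ =>
          Real.exp_le_exp.2 (abs_le.1 (hs σ)).1) (by positivity)
  · rw [← Real.log_exp (M * D)]
    refine Real.log_le_log (Z_pos f g) ?_
    calc _ ≤ (1 / 2 : ℝ) ^ N * ∑ _σ : Fin N → Bool, Real.exp (M * D) :=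
          mul_le_mul_of_nonneg_left (Finset.sum_le_sum fun σ _ =>
          Real.exp_le_exp.2 (abs_le.1 (hs σ)).2) (by positivity)
      _ = Real.exp (M * D) := half_pow_mul_sum_const N _

lemma logZ_diff_le {M N : ℕ} {f : ℝ → ℝ} {D : ℝ} (hD : ∀ x, |f x| ≤ D)
    (g g' : Fin M → Fin N → ℝ) (a : Fin M) (hg : ∀ b, b ≠ a → g' b = g b) :
    logZ f g' ≤ logZ f g + 2 * D := by
  unfold logZ
  rw [← Real.log_exp (2 * D), ← Real.log_mul (Z_pos f g).ne' (Real.exp_pos _).ne']
  refine Real.log_le_log (Z_pos f g') ?_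
  rw [mul_assoc, Finset.sum_mul]
  refine mul_le_mul_of_nonneg_left (Finset.sum_le_sum fun σ _ => ?_) (by positivity)
  rw [← Real.exp_add]
  apply Real.exp_le_exp.2
  have h : ∑ b, f (proj (spin σ) (g' b)) - ∑ b, f (proj (spin σ) (g b)) =
      f (proj (spin σ) (g' a)) - f (proj (spin σ) (g a)) := by
    rw [← Finset.sum_sub_distrib, Finset.sum_eq_single a]
    · intro b _ hb
      rw [hg b hb, sub_self]
    · intro h; exact absurd (Finset.mem_univ _) h
  have h1 := (abs_le.1 (hD (proj (spin σ) (g' a)))).2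
  have h2 := (abs_le.1 (hD (proj (spin σ) (g a)))).1
  linarith

lemma logZ_bounded_diff {M N : ℕ} {f : ℝ → ℝ} {D : ℝ} (hD : ∀ x, |f x| ≤ D)
    (g : Fin M → Fin N → ℝ) (a : Fin M) (e : Fin N → ℝ) :
    |logZ f (Function.update g a e) - logZ f g| ≤ 2 * D := by
  rw [abs_le]
  have h1 := logZ_diff_le hD g (Function.update g a e) a
    (fun b hb => Function.update_of_ne hb _ _)
  have h2 := logZ_diff_le hD (Function.update g a e) g a
    (fun b hb => (Function.update_of_ne hb _ _).symm)
  constructor <;> linarith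

/-- Non-asymptotic lower bound for the mean of `logZ` on the cube. -/
theorem logZ_lower {M N : ℕ} (hM : 0 < M) (hN : 0 < N) {f : ℝ → ℝ} (hf : Measurable f) {D : ℝ}
    (hD : ∀ x, |f x| ≤ D) {m : ℝ} (hm0 : 0 < m) (hm1 : m ≤ 1) {Λ K : ℝ}
    (hΛ : Real.exp Λ = ∫ x, Real.exp (m * f x) ∂(gaussianReal 0 1))
    (hK : K = ∫ x, (m * f x - Λ) * Real.exp (m * f x - Λ) ∂(gaussianReal 0 1))
    {δ : ℝ} (hδ : 0 < δ)
    (hvar : (∫ x, ((m * f x - Λ) - K) ^ 2 * Real.exp (m * f x - Λ) ∂(gaussianReal 0 1)) /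
      (δ ^ 2 * M) ≤ 1 / 2)
    (hpair : ∀ ρ ∈ Set.Icc (-1 : ℝ) 1, ∃ s ∈ Set.Icc (0 : ℝ) 1,
      M * (2 * (1 - s) * K +
        Real.log (pairInt (fun x => Real.exp (s * (m * f x - Λ))) ρ)) ≤
        N * (Real.log 2 - Real.binEntropy ((1 + ρ) / 2)))
    {t : ℝ} (ht : 0 < t) :
    M * ((1 / m - 1) * (K - δ) + Λ / m) - Real.log 4 -
      (Real.log (16 * (N + 1)) + 2 * δ * M) / t - M * (2 * D) ^ 2 * t / 2 ≤
      ∫ g, logZ f g ∂(patterns M N) := by
  set l : ℝ → ℝ := fun x => m * f x - Λ with hl
  have hlm : Measurable l := by fun_prop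
  have hlB : ∀ x, |l x| ≤ D + |Λ| := fun x => by
    refine (abs_sub _ _).trans (add_le_add ?_ le_rfl)
    rw [abs_mul, abs_of_pos hm0]
    calc m * |f x| ≤ 1 * D := mul_le_mul hm1 (hD x) (abs_nonneg _) zero_le_one
      _ = D := one_mul D
  have h1 : ∫ x, Real.exp (l x) ∂(gaussianReal 0 1) = 1 := by
    simp only [hl, Real.exp_sub]
    rw [integral_div, ← hΛ]
    exact div_self (Real.exp_pos _).ne'
  have hmean := trZ_mean (N := N) hM hN hlm hlB h1 hK.symm hδ
  have hsec := trZ_second (M := M) hN hlm hlB (K := K) hδ.le hpair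
  set X : (Fin M → Fin N → ℝ) → ℝ := trZ M N l K δ with hX
  set F : (Fin M → Fin N → ℝ) → ℝ := logZ f with hF
  set EF := ∫ g, F g ∂(patterns M N) with hEF
  set b : ℝ := M * ((1 / m - 1) * (K - δ) + Λ / m) - Real.log 4 with hb
  have hMpos : (0 : ℝ) < M := by positivity
  -- key pointwise comparison
  have hZX : ∀ g, X g * Real.exp (M * ((1 / m - 1) * (K - δ) + Λ / m)) ≤ Real.exp (F g) := by
    intro g
    rw [hF]; unfold logZ
    rw [Real.exp_log (Z_pos f g), hX]
    unfold trZ
    rw [mul_assoc, Finset.sum_mul]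
    refine mul_le_mul_of_nonneg_left (Finset.sum_le_sum fun σ _ => ?_) (by positivity)
    unfold tw
    split_ifs with hc
    · rw [← Real.exp_add]
      apply Real.exp_le_exp.2
      have hc' := (abs_le.1 hc).1
      have hs : ∑ a, l (proj (spin σ) (g a)) = m * ∑ a, f (proj (spin σ) (g a)) - M * Λ := by
        simp only [hl]
        rw [Finset.sum_sub_distrib, ← Finset.mul_sum]
        simp
      have hs2 : ∑ a, f (proj (spin σ) (g a)) =
          (∑ a, l (proj (spin σ) (g a))) / m + M * Λ / m := by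
        rw [hs]; field_simp; ring
      rw [hs2]
      have hmi : 0 ≤ 1 / m - 1 := by
        rw [sub_nonneg, le_div_iff₀ hm0]; linarith only [hm1]
      have : (1 / m - 1) * (M * (K - δ)) ≤ (1 / m - 1) * ∑ a, l (proj (spin σ) (g a)) :=
        mul_le_mul_of_nonneg_left (by linarith only [hc']) hmi
      have e1 : (∑ a, l (proj (spin σ) (g a))) / m =
          (1 / m - 1) * (∑ a, l (proj (spin σ) (g a))) + ∑ a, l (proj (spin σ) (g a)) := by
        ring
      rw [e1]
      have e2 : (M : ℝ) * ((1 / m - 1) * (K - δ) + Λ / m) =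
        (1 / m - 1) * (M * (K - δ)) + M * Λ / m := by ring
      rw [e2]
      linarith only [this]
    · rw [zero_mul]; exact (Real.exp_pos _).le
  have hpt : ∀ g, X g ≤ 1 / 4 + X g * Real.exp (t / 2 * (F g - b)) := by
    intro g
    have hX0 : 0 ≤ X g := trZ_nonneg _ _ _ _ _ _
    rcases le_or_gt (1 / 4) (X g) with h | h
    · have h2 : b ≤ F g := by
        have h3 := hZX g
        have h4 : Real.exp b ≤ Real.exp (F g) := by
          refine le_trans ?_ h3
          rw [hb, Real.exp_sub, Real.exp_log (by norm_num : (0 : ℝ) < 4), div_eq_inv_mul]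
          refine mul_le_mul_of_nonneg_right ?_ (Real.exp_pos _).le
          rw [← one_div]; exact h
        exact Real.exp_le_exp.1 h4
      have h5 : 1 ≤ Real.exp (t / 2 * (F g - b)) := by
        apply Real.one_le_exp
        have : 0 ≤ F g - b := by linarith only [h2]
        (clear * - ht h2; positivity)
      have := le_mul_of_one_le_right hX0 h5
      linarith only [this]
    · have : 0 ≤ X g * Real.exp (t / 2 * (F g - b)) := mul_nonneg hX0 (Real.exp_pos _).le
      linarith only [this, h]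
  set A : ℝ := (N + 1) * Real.exp (2 * δ * M) with hA
  have hApos : 0 < A := by positivity
  have hXm : Measurable X := measurable_trZ M N hlm K δ
  have hFm : Measurable F := measurable_logZ hf
  have hXb : ∀ g, |X g| ≤ Real.exp (M * (D + |Λ|)) := fun g => by
    rw [abs_of_nonneg (trZ_nonneg _ _ _ _ _ _)]; exact trZ_le hlB K δ g
  have hFb : ∀ g, |F g| ≤ M * D := fun g => logZ_bdd hD g
  have hexpb : ∀ g, |Real.exp (t * (F g - b))| ≤ Real.exp (t * (M * D - b)) := fun g => by
    rw [abs_of_pos (Real.exp_pos _)]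
    apply Real.exp_le_exp.2
    exact mul_le_mul_of_nonneg_left (by linarith only [hFb, (abs_le.1 (hFb g)).2]) ht.le
  have hi1 : Integrable (fun g => X g ^ 2) (patterns M N) :=
    integrable_of_bdd (C := Real.exp (M * (D + |Λ|)) ^ 2) (hXm.pow_const 2) fun g => by
      rw [abs_pow]; exact pow_le_pow_left₀ (abs_nonneg _) (hXb g) 2
  have hi2 : Integrable (fun g => Real.exp (t * (F g - b))) (patterns M N) :=
    integrable_of_bdd (by fun_prop) hexpb
  have hi0 : Integrable X (patterns M N) := integrable_of_bdd hXm hXb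
  have hmgf := mgf_bounded_differences (gvec N) M F hFm hFb
    (c := 2 * D) (by have := (abs_nonneg _).trans (hD 0); linarith only [this])
    (fun g a e => logZ_bounded_diff hD g a e) t
  rw [← patterns_eq, ← hEF] at hmgf
  -- integrate
  have hXY : ∀ g, X g ≤ 1 / 4 + (X g ^ 2 / (8 * A) + 2 * A * Real.exp (t * (F g - b))) := by
    intro g
    refine (hpt g).trans (add_le_add le_rfl ?_)
    set Y := Real.exp (t / 2 * (F g - b)) with hY
    have hY2 : Real.exp (t * (F g - b)) = Y ^ 2 := by
      rw [hY, ← Real.exp_nat_mul]; congr 1; push_cast; ring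
    rw [hY2]
    have : 0 ≤ (X g - 4 * A * Y) ^ 2 / (8 * A) := by (clear * - hN; positivity)
    have e : (X g - 4 * A * Y) ^ 2 / (8 * A) = X g ^ 2 / (8 * A) + 2 * A * Y ^ 2 - X g * Y := by
      field_simp; ring
    linarith only [this, e]
  have hint := integral_mono hi0
    ((integrable_const (1 / 4 : ℝ)).add ((hi1.div_const (8 * A)).add (hi2.const_mul (2 * A)))) hXY
  have e1 : ∫ g, (1 / 4 + (X g ^ 2 / (8 * A) + 2 * A * Real.exp (t * (F g - b))))
      ∂(patterns M N) =
      1 / 4 + ((∫ g, X g ^ 2 ∂(patterns M N)) / (8 * A) +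
        2 * A * ∫ g, Real.exp (t * (F g - b)) ∂(patterns M N)) := by
    have hi12 : Integrable (fun g => X g ^ 2 / (8 * A) + 2 * A * Real.exp (t * (F g - b)))
        (patterns M N) := (hi1.div_const (8 * A)).add (hi2.const_mul (2 * A))
    rw [integral_add (integrable_const _) hi12,
      integral_add (hi1.div_const (8 * A)) (hi2.const_mul (2 * A)),
      integral_const_mul]
    have e0 : ∫ g, X g ^ 2 / (8 * A) ∂(patterns M N) =
        (∫ g, X g ^ 2 ∂(patterns M N)) / (8 * A) :=
      integral_div (8 * A) fun g => X g ^ 2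
    rw [e0]
    simp
  have hint' : ∫ g, X g ∂(patterns M N) ≤ 1 / 4 + ((∫ g, X g ^ 2 ∂(patterns M N)) / (8 * A) +
        2 * A * ∫ g, Real.exp (t * (F g - b)) ∂(patterns M N)) := by
    rw [← e1]; exact hint
  have hexpE : ∫ g, Real.exp (t * (F g - b)) ∂(patterns M N) ≤
      Real.exp (t * (EF - b)) * Real.exp (M * (2 * D) ^ 2 * t ^ 2 / 2) := by
    have : ∀ g, Real.exp (t * (F g - b)) = Real.exp (t * (EF - b)) * Real.exp (t * (F g - EF)) := by
      intro g; rw [← Real.exp_add]; congr 1; ring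
    simp_rw [this]
    rw [integral_const_mul]
    exact mul_le_mul_of_nonneg_left hmgf (Real.exp_pos _).le
  have hmean2 : (1 / 2 : ℝ) ≤ ∫ g, X g ∂(patterns M N) := by linarith only [hvar, hmean]
  have hsec2 : (∫ g, X g ^ 2 ∂(patterns M N)) / (8 * A) ≤ 1 / 8 := by
    rw [div_le_iff₀ (by positivity)]; linarith only [hsec]
  have hkey : 1 / 16 ≤ A * (Real.exp (t * (EF - b)) * Real.exp (M * (2 * D) ^ 2 * t ^ 2 / 2)) := by
    have h8 : 2 * A * ∫ g, Real.exp (t * (F g - b)) ∂(patterns M N) ≤
      2 * A * (Real.exp (t * (EF - b)) * Real.exp (M * (2 * D) ^ 2 * t ^ 2 / 2)) :=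
      mul_le_mul_of_nonneg_left hexpE (by positivity)
    linarith only [hvar, hmean, hint', hsec2, h8]
  have hlog := Real.log_le_log (by norm_num : (0 : ℝ) < 1 / 16) hkey
  rw [Real.log_mul hApos.ne' (by positivity), ← Real.exp_add, Real.log_exp, hA,
    Real.log_mul (by positivity) (Real.exp_pos _).ne', Real.log_exp, one_div, Real.log_inv] at hlog
  have h16 : Real.log (16 * (N + 1)) = Real.log 16 + Real.log (N + 1) :=
    Real.log_mul (by norm_num) (by positivity)
  have hfin : t * (b - (Real.log (16 * (N + 1)) + 2 * δ * M) / t - M * (2 * D) ^ 2 * t / 2) ≤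
      t * EF := by
    have e2 : t * (b - (Real.log (16 * (N + 1)) + 2 * δ * M) / t - M * (2 * D) ^ 2 * t / 2) =
      t * b - (Real.log (16 * (N + 1)) + 2 * δ * M) - M * (2 * D) ^ 2 * t ^ 2 / 2 := by
      field_simp
    rw [e2, h16]
    linarith only [hlog]
  exact le_of_mul_le_mul_left hfin ht

end Vale.Agent.P157
end

section

open MeasureTheory ProbabilityTheory

namespace Vale.Agent.P157

lemma integral_exp_sum_one {M N : ℕ} (hN : 0 < N) {h : ℝ → ℝ} (hh : Measurable h)
    (σ : Fin N → Bool) :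
    ∫ g, Real.exp (∑ a, h (proj (spin σ) (g a))) ∂(patterns M N) =
      (∫ x, Real.exp (h x) ∂(gaussianReal 0 1)) ^ M := by
  have h1 := integral_patterns_one hN M σ (Φ := fun s => Real.exp (∑ a, h (s a))) (by fun_prop)
  rw [h1]
  simp_rw [Real.exp_sum]
  rw [integral_fintype_prod_eq_pow (f := fun x => Real.exp (h x)), Fintype.card_fin]

lemma rpow_sum_le {ι : Type*} (s : Finset ι) (a : ι → ℝ) (ha : ∀ i ∈ s, 0 < a i)
    (hs : s.Nonempty) {m : ℝ} (hm1 : m ≤ 1) :
    (∑ i ∈ s, a i) ^ m ≤ ∑ i ∈ s, (a i) ^ m := by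
  set S := ∑ i ∈ s, a i with hS
  have hSpos : 0 < S := Finset.sum_pos ha hs
  have h1 : ∀ i ∈ s, S ^ m * (a i / S) ≤ (a i) ^ m := by
    intro i hi
    have hle : a i / S ≤ 1 := by
      rw [div_le_one hSpos]
      exact Finset.single_le_sum (f := a) (fun j hj => (ha j hj).le) hi
    have hpos : 0 < a i / S := div_pos (ha i hi) hSpos
    have h2 : a i / S ≤ (a i / S) ^ m := by
      calc a i / S = (a i / S) ^ (1 : ℝ) := (Real.rpow_one _).symm
        _ ≤ (a i / S) ^ m := Real.rpow_le_rpow_of_exponent_ge hpos hle hm1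
    calc S ^ m * (a i / S) ≤ S ^ m * (a i / S) ^ m :=
          mul_le_mul_of_nonneg_left h2 (Real.rpow_nonneg hSpos.le _)
      _ = (S * (a i / S)) ^ m := (Real.mul_rpow hSpos.le hpos.le).symm
      _ = (a i) ^ m := by rw [mul_div_cancel₀ _ hSpos.ne']
  calc S ^ m = ∑ i ∈ s, S ^ m * (a i / S) := by
        rw [← Finset.mul_sum, ← Finset.sum_div, div_self hSpos.ne', mul_one]
    _ ≤ _ := Finset.sum_le_sum h1

/-- Fractional moment upper bound. -/
theorem logZ_upper {M N : ℕ} (hN : 0 < N) {f : ℝ → ℝ} (hf : Measurable f) {D : ℝ}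
    (hD : ∀ x, |f x| ≤ D) {m : ℝ} (hm0 : 0 < m) (hm1 : m ≤ 1) {Λ : ℝ}
    (hΛ : Real.exp Λ = ∫ x, Real.exp (m * f x) ∂(gaussianReal 0 1)) :
    ∫ g, logZ f g ∂(patterns M N) ≤ N * ((1 / m - 1) * Real.log 2) + M * (Λ / m) := by
  set W : (Fin M → Fin N → ℝ) → ℝ := fun g =>
    Real.exp (-(N * (m * Real.log 2))) *
      ∑ σ : Fin N → Bool, Real.exp (∑ a, m * f (proj (spin σ) (g a))) with hW
  have hWpos : ∀ g, 0 < W g := fun g =>
    mul_pos (Real.exp_pos _) (Finset.sum_pos (fun σ _ => Real.exp_pos _) Finset.univ_nonempty)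
  have hfb : ∀ x, |m * f x| ≤ D := fun x => by
    rw [abs_mul, abs_of_pos hm0]
    calc m * |f x| ≤ 1 * D := mul_le_mul hm1 (hD x) (abs_nonneg _) zero_le_one
      _ = D := one_mul D
  have hmeas : ∀ σ : Fin N → Bool, Measurable fun g : Fin M → Fin N → ℝ =>
      Real.exp (∑ a, m * f (proj (spin σ) (g a))) := fun σ => by
    refine Real.measurable_exp.comp (Finset.measurable_sum _ fun a _ => ?_)
    exact (hf.comp ((measurable_proj _).comp (measurable_pi_apply a))).const_mul m
  have hbd : ∀ (σ : Fin N → Bool) (g : Fin M → Fin N → ℝ),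
      |Real.exp (∑ a, m * f (proj (spin σ) (g a)))| ≤ Real.exp (M * D) := fun σ g => by
    rw [abs_of_pos (Real.exp_pos _)]
    exact Real.exp_le_exp.2 ((le_abs_self _).trans
      (abs_sum_le (l := fun x => m * f x) hfb (fun a => proj (spin σ) (g a))))
  have hint : ∀ σ : Fin N → Bool, Integrable (fun g : Fin M → Fin N → ℝ =>
      Real.exp (∑ a, m * f (proj (spin σ) (g a)))) (patterns M N) := fun σ =>
    integrable_of_bdd (hmeas σ) (hbd σ)
  have hWint : Integrable W (patterns M N) :=
    (integrable_finsetSum _ fun σ _ => hint σ).const_mul _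
  have hEW : ∫ g, W g ∂(patterns M N) =
      Real.exp (-(N * (m * Real.log 2)) + N * Real.log 2 + M * Λ) := by
    rw [hW]
    simp only
    rw [integral_const_mul, integral_finsetSum _ fun σ _ => hint σ]
    have h1 : ∀ σ : Fin N → Bool, ∫ g, Real.exp (∑ a, m * f (proj (spin σ) (g a)))
        ∂(patterns M N) = (Real.exp Λ) ^ M := fun σ => by
      rw [integral_exp_sum_one hN (h := fun x => m * f x) (by fun_prop), ← hΛ]
    simp_rw [h1]
    simp only [Finset.sum_const, Finset.card_univ, Fintype.card_fun, Fintype.card_bool,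
      Fintype.card_fin, nsmul_eq_mul]
    push_cast
    have h2 : (2 : ℝ) ^ N = Real.exp (N * Real.log 2) := by
      rw [mul_comm, Real.exp_mul, Real.exp_log (by norm_num), Real.rpow_natCast]
    rw [h2, ← Real.exp_nat_mul, ← Real.exp_add, ← Real.exp_add]
    congr 1; ring
  have hpt : ∀ g, m * logZ f g ≤ Real.log (W g) := by
    intro g
    unfold logZ
    rw [← Real.log_rpow (Z_pos f g)]
    refine Real.log_le_log (Real.rpow_pos_of_pos (Z_pos f g) _) ?_
    rw [Real.mul_rpow (by positivity) (Finset.sum_nonneg fun σ _ => (Real.exp_pos _).le)]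
    have h1 : ((1 / 2 : ℝ) ^ N) ^ m = Real.exp (-(N * (m * Real.log 2))) := by
      rw [← Real.rpow_natCast, ← Real.rpow_mul (by norm_num), Real.rpow_def_of_pos (by norm_num),
        one_div, Real.log_inv]
      congr 1; ring
    rw [h1]
    refine mul_le_mul_of_nonneg_left ?_ (Real.exp_pos _).le
    refine (rpow_sum_le _ _ (fun σ _ => Real.exp_pos _) Finset.univ_nonempty hm1).trans
      (le_of_eq ?_)
    refine Finset.sum_congr rfl fun σ _ => ?_
    rw [← Real.exp_mul, mul_comm, Finset.mul_sum]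
  set c := -(N * (m * Real.log 2)) + N * Real.log 2 + M * Λ with hc
  have hpt2 : ∀ g, m * logZ f g ≤ W g * Real.exp (-c) - 1 + c := by
    intro g
    refine (hpt g).trans ?_
    have h1 : Real.log (W g * Real.exp (-c)) ≤ W g * Real.exp (-c) - 1 :=
      Real.log_le_sub_one_of_pos (mul_pos (hWpos g) (Real.exp_pos _))
    rw [Real.log_mul (hWpos g).ne' (Real.exp_pos _).ne', Real.log_exp] at h1
    linarith
  have hi : Integrable (fun g => m * logZ f g) (patterns M N) :=
    (integrable_of_bdd (measurable_logZ hf) (logZ_bdd hD)).const_mul m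
  have hmono := integral_mono hi
    (((hWint.mul_const (Real.exp (-c))).sub (integrable_const 1)).add (integrable_const c)) hpt2
  have e1 : ∫ g, (W g * Real.exp (-c) - 1 + c) ∂(patterns M N) = c := by
    have hi2 : Integrable (fun g => W g * Real.exp (-c) - 1) (patterns M N) :=
      (hWint.mul_const (Real.exp (-c))).sub (integrable_const 1)
    rw [integral_add hi2 (integrable_const c),
      integral_sub (hWint.mul_const (Real.exp (-c))) (integrable_const 1), integral_mul_const,
      hEW, ← Real.exp_add]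
    simp [hc]
  have hmono' : ∫ g, m * logZ f g ∂(patterns M N) ≤ c := by
    rw [← e1]; exact hmono
  rw [integral_const_mul] at hmono'
  have h5 : ∫ g, logZ f g ∂(patterns M N) ≤ c / m := by
    rw [le_div_iff₀ hm0]; linarith
  refine h5.trans (le_of_eq ?_)
  rw [hc]; field_simp; ring

end Vale.Agent.P157
end

section

open MeasureTheory ProbabilityTheory Filter Topology

namespace Vale.Agent.P157

lemma meanPressure_cube (α : ℝ) (f : ℝ → ℝ) (N : ℕ) :
    meanPressure cube α f N = 1 / N * ∫ g, logZ f g ∂(patterns ⌊α * N⌋₊ N) := by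
  unfold meanPressure
  simp_rw [pressure_cube]
  rw [integral_const_mul]

lemma tendsto_floor_div {α : ℝ} (hα : 0 < α) :
    Tendsto (fun N : ℕ => ((⌊α * N⌋₊ : ℕ) : ℝ) / N) atTop (𝓝 α) := by
  have h := (tendsto_nat_floor_mul_div_atTop hα.le).comp
    (tendsto_natCast_atTop_atTop (R := ℝ))
  exact h

lemma tendsto_log_div : Tendsto (fun N : ℕ => Real.log (16 * ((N : ℝ) + 1)) / N) atTop (𝓝 0) := by
  have h1 : Tendsto (fun x : ℝ => Real.log x / x) atTop (𝓝 0) := by
    have := Real.isLittleO_log_id_atTop.tendsto_div_nhds_zero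
    simpa using this
  have h2 : Tendsto (fun N : ℕ => 16 * ((N : ℝ) + 1)) atTop atTop :=
    ((tendsto_natCast_atTop_atTop (R := ℝ)).atTop_add tendsto_const_nhds).const_mul_atTop
      (by norm_num)
  have h3 := h1.comp h2
  have h4 : Tendsto (fun N : ℕ => 16 * ((N : ℝ) + 1) / N) atTop (𝓝 16) := by
    have h5 : Tendsto (fun N : ℕ => 16 + 16 * (1 / (N : ℝ))) atTop (𝓝 (16 + 16 * 0)) :=
      tendsto_const_nhds.add (tendsto_one_div_atTop_nhds_zero_nat.const_mul 16)
    rw [mul_zero, add_zero] at h5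
    refine h5.congr' ?_
    filter_upwards [eventually_gt_atTop 0] with N hN
    have : (N : ℝ) ≠ 0 := by positivity
    field_simp
  have h6 := h3.mul h4
  rw [zero_mul] at h6
  refine h6.congr' ?_
  filter_upwards [eventually_gt_atTop 0] with N hN
  have : (N : ℝ) ≠ 0 := by positivity
  simp only [Function.comp]
  field_simp

/-- The general criterion: explicit limit of the mean pressure on the Ising cube. -/
theorem rem_limit {f : ℝ → ℝ} (hf : Measurable f) {D : ℝ} (hD : ∀ x, |f x| ≤ D) {α : ℝ}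
    (hα : 0 < α) {m : ℝ} (hm0 : 0 < m) (hm1 : m ≤ 1) {Λ K : ℝ}
    (hΛ : Real.exp Λ = ∫ x, Real.exp (m * f x) ∂(gaussianReal 0 1))
    (hK : K = ∫ x, (m * f x - Λ) * Real.exp (m * f x - Λ) ∂(gaussianReal 0 1))
    (hph : m < 1 → α * K = Real.log 2)
    (hpair : ∀ ρ ∈ Set.Icc (-1 : ℝ) 1, ∃ s ∈ Set.Icc (0 : ℝ) 1,
      α * (2 * (1 - s) * K +
        Real.log (pairInt (fun x => Real.exp (s * (m * f x - Λ))) ρ)) ≤
        Real.log 2 - Real.binEntropy ((1 + ρ) / 2)) :
    Tendsto (meanPressure cube α f) atTop (𝓝 ((Real.log 2 + α * Λ) / m - Real.log 2)) := by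
  set L := (Real.log 2 + α * Λ) / m - Real.log 2 with hL
  set C := ∫ x, ((m * f x - Λ) - K) ^ 2 * Real.exp (m * f x - Λ) ∂(gaussianReal 0 1) with hC
  have hfl := tendsto_floor_div hα
  have hMinf : Tendsto (fun N : ℕ => ((⌊α * N⌋₊ : ℕ) : ℝ)) atTop atTop := by
    have h1 : Tendsto (fun N : ℕ => α * (N : ℝ)) atTop atTop :=
      (tendsto_natCast_atTop_atTop (R := ℝ)).const_mul_atTop hα
    exact tendsto_natCast_atTop_atTop.comp (tendsto_nat_floor_atTop.comp h1)
  rw [tendsto_order]
  constructor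
  · intro a ha
    -- choose t and δ
    obtain ⟨t, ht0, ht⟩ : ∃ t : ℝ, 0 < t ∧ α * (2 * D) ^ 2 * t / 2 < (L - a) / 4 := by
      refine ⟨(L - a) / (2 * (α * (2 * D) ^ 2 + 1)) / 2, ?_, ?_⟩
      · have : 0 < L - a := by linarith
        (clear * - ha hα; positivity)
      · have h1 : 0 < L - a := by linarith
        have h2 : 0 ≤ α * (2 * D) ^ 2 := by (clear * - hα; positivity)
        have h3 : α * (2 * D) ^ 2 * ((L - a) / (2 * (α * (2 * D) ^ 2 + 1)) / 2) / 2 =
          (L - a) / 8 * (α * (2 * D) ^ 2 / (α * (2 * D) ^ 2 + 1)) := by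
          field_simp; ring
        rw [h3]
        have h4 : α * (2 * D) ^ 2 / (α * (2 * D) ^ 2 + 1) ≤ 1 := by
          rw [div_le_one (by (clear * - hα; positivity))]; linarith only []
        (by_contra nlg; linarith only [nlg, mul_nonneg (le_of_lt (sub_pos.2 h1)) (sub_nonneg.2 h4), mul_nonneg (sub_nonneg.2 hm1) (le_of_lt (sub_pos.2 h1)), mul_pos (sub_pos.2 hm0) (sub_pos.2 h1), mul_nonneg (sub_nonneg.2 (not_lt.1 nlg)) (sub_nonneg.2 hm1), mul_nonneg (sub_nonneg.2 (not_lt.1 nlg)) (le_of_lt (sub_pos.2 hm0))])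
    obtain ⟨δ, hδ0, hδ⟩ : ∃ δ : ℝ, 0 < δ ∧
        α * ((1 / m - 1) * δ) + 2 * δ * α / t < (L - a) / 4 := by
      have h1 : 0 < L - a := by linarith
      have hc : 0 ≤ α * (1 / m - 1) + 2 * α / t := by
        have : 0 ≤ 1 / m - 1 := by rw [sub_nonneg, le_div_iff₀ hm0]; linarith
        positivity
      refine ⟨(L - a) / (8 * (α * (1 / m - 1) + 2 * α / t + 1)), by positivity, ?_⟩
      set q := α * (1 / m - 1) + 2 * α / t with hq
      have h2 : α * ((1 / m - 1) * ((L - a) / (8 * (q + 1)))) +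
          2 * ((L - a) / (8 * (q + 1))) * α / t = (L - a) / 8 * (q / (q + 1)) := by
        have : q = α * (1 / m - 1) + 2 * α / t := hq
        have e : α * ((1 / m - 1) * ((L - a) / (8 * (q + 1)))) +
          2 * ((L - a) / (8 * (q + 1))) * α / t =
          (α * (1 / m - 1) + 2 * α / t) * ((L - a) / (8 * (q + 1))) := by ring
        rw [e, ← this]
        field_simp
      rw [h2]
      have h4 : q / (q + 1) ≤ 1 := by
        rw [div_le_one (by positivity)]; linarith only []
      (by_contra nlg; linarith only [nlg, mul_nonneg (le_of_lt (sub_pos.2 h1)) (sub_nonneg.2 h4), mul_nonneg (sub_nonneg.2 hm1) (le_of_lt (sub_pos.2 h1)), mul_pos (sub_pos.2 hm0) (sub_pos.2 h1), mul_nonneg (sub_nonneg.2 (not_lt.1 nlg)) (sub_nonneg.2 hm1), mul_nonneg (sub_nonneg.2 (not_lt.1 nlg)) (le_of_lt (sub_pos.2 hm0))])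
    -- the lower sequence
    have hlim : Tendsto (fun N : ℕ =>
        ((⌊α * N⌋₊ : ℕ) : ℝ) / N * ((1 / m - 1) * (K - δ) + Λ / m) - Real.log 4 * (1 / N) -
        (Real.log (16 * ((N : ℝ) + 1)) / N + 2 * δ * (((⌊α * N⌋₊ : ℕ) : ℝ) / N)) / t -
        ((⌊α * N⌋₊ : ℕ) : ℝ) / N * (2 * D) ^ 2 * t / 2) atTop
        (𝓝 (α * ((1 / m - 1) * (K - δ) + Λ / m) - Real.log 4 * 0 -
        (0 + 2 * δ * α) / t - α * (2 * D) ^ 2 * t / 2)) := by
      refine Tendsto.sub (Tendsto.sub (Tendsto.sub ?_ ?_) ?_) ?_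
      · exact hfl.mul_const _
      · exact tendsto_one_div_atTop_nhds_zero_nat.const_mul _
      · exact (tendsto_log_div.add (hfl.const_mul _)).div_const _
      · exact ((hfl.mul_const _).mul_const _).div_const _
    have hval : a < α * ((1 / m - 1) * (K - δ) + Λ / m) - Real.log 4 * 0 -
        (0 + 2 * δ * α) / t - α * (2 * D) ^ 2 * t / 2 := by
      have hmain : α * ((1 / m - 1) * K + Λ / m) = L := by
        rcases lt_or_eq_of_le hm1 with h | h
        · have h1 := hph h
          rw [hL]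
          have e : α * ((1 / m - 1) * K + Λ / m) = (1 / m - 1) * (α * K) + α * Λ / m := by ring
          rw [e, h1]; field_simp; ring
        · rw [hL, h]; ring
      have e : α * ((1 / m - 1) * (K - δ) + Λ / m) =
        α * ((1 / m - 1) * K + Λ / m) - α * ((1 / m - 1) * δ) := by ring
      rw [e, hmain, zero_add, mul_zero, sub_zero]
      linarith only [hδ, ht, ha]
    have hev := (tendsto_order.1 hlim).1 a hval
    have hMbig : ∀ᶠ N : ℕ in atTop, C / (δ ^ 2 * ((⌊α * N⌋₊ : ℕ) : ℝ)) ≤ 1 / 2 := by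
      have h1 : Tendsto (fun N : ℕ => C / (δ ^ 2 * ((⌊α * N⌋₊ : ℕ) : ℝ))) atTop (𝓝 0) :=
        tendsto_const_nhds.div_atTop (hMinf.const_mul_atTop (by positivity))
      exact ((tendsto_order.1 h1).2 (1 / 2) (by norm_num)).mono fun N hN => hN.le
    have hMpos : ∀ᶠ N : ℕ in atTop, 0 < ⌊α * N⌋₊ := by
      have := (tendsto_atTop.1 hMinf 1)
      filter_upwards [this] with N hN
      have : (0 : ℝ) < ((⌊α * N⌋₊ : ℕ) : ℝ) := by linarith only [hN]
      exact_mod_cast this
    filter_upwards [hev, hMbig, hMpos, eventually_gt_atTop 0] with N h1 h2 h3 h4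
    have hN' : (0 : ℝ) < N := by positivity
    refine lt_of_lt_of_le h1 ?_
    rw [meanPressure_cube]
    have hlow := logZ_lower (M := ⌊α * N⌋₊) (N := N) h3 h4 hf hD hm0 hm1 hΛ hK hδ0 h2 ?_ ht0
    · rw [one_div_mul_eq_div, le_div_iff₀ hN']
      refine le_trans (le_of_eq ?_) hlow
      field_simp
    · intro ρ hρ
      obtain ⟨s, hs, hs2⟩ := hpair ρ hρ
      refine ⟨s, hs, ?_⟩
      set Bq := 2 * (1 - s) * K +
        Real.log (pairInt (fun x => Real.exp (s * (m * f x - Λ))) ρ) with hBq
      have hMN : ((⌊α * N⌋₊ : ℕ) : ℝ) ≤ α * N := Nat.floor_le (by positivity)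
      rcases le_or_gt 0 Bq with h | h
      · calc ((⌊α * N⌋₊ : ℕ) : ℝ) * Bq ≤ α * N * Bq := mul_le_mul_of_nonneg_right hMN h
          _ = N * (α * Bq) := by ring
          _ ≤ N * (Real.log 2 - Real.binEntropy ((1 + ρ) / 2)) :=
            mul_le_mul_of_nonneg_left hs2 hN'.le
      · have h5 : ((⌊α * N⌋₊ : ℕ) : ℝ) * Bq ≤ 0 :=
          mul_nonpos_of_nonneg_of_nonpos (by positivity) h.le
        have h6 : 0 ≤ (N : ℝ) * (Real.log 2 - Real.binEntropy ((1 + ρ) / 2)) := by
          have := Real.binEntropy_le_log_two (p := (1 + ρ) / 2)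
          exact mul_nonneg hN'.le (by linarith only [this])
        linarith only [h6, h5]
  · intro a ha
    have hlim : Tendsto (fun N : ℕ => (1 / m - 1) * Real.log 2 +
        ((⌊α * N⌋₊ : ℕ) : ℝ) / N * (Λ / m)) atTop
        (𝓝 ((1 / m - 1) * Real.log 2 + α * (Λ / m))) :=
      tendsto_const_nhds.add (hfl.mul_const _)
    have hval : (1 / m - 1) * Real.log 2 + α * (Λ / m) < a := by
      refine lt_of_eq_of_lt ?_ ha
      rw [hL]; ring
    have hev := (tendsto_order.1 hlim).2 a hval
    filter_upwards [hev, eventually_gt_atTop 0] with N h1 h4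
    have hN' : (0 : ℝ) < N := by positivity
    refine lt_of_le_of_lt ?_ h1
    rw [meanPressure_cube]
    have hup := logZ_upper (M := ⌊α * N⌋₊) (N := N) h4 hf hD hm0 hm1 hΛ
    rw [one_div, inv_mul_eq_div, div_le_iff₀ hN']
    refine hup.trans (le_of_eq ?_)
    field_simp

/-- The fractional moment bound at every `m`. -/
theorem limit_le {f : ℝ → ℝ} (hf : Measurable f) {D : ℝ} (hD : ∀ x, |f x| ≤ D) {α : ℝ}
    (hα : 0 < α) {L : ℝ} (hL : Tendsto (meanPressure cube α f) atTop (𝓝 L))
    {m : ℝ} (hm0 : 0 < m) (hm1 : m ≤ 1) {Λ : ℝ}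
    (hΛ : Real.exp Λ = ∫ x, Real.exp (m * f x) ∂(gaussianReal 0 1)) :
    L ≤ (Real.log 2 + α * Λ) / m - Real.log 2 := by
  have hfl := tendsto_floor_div hα
  have hlim : Tendsto (fun N : ℕ => (1 / m - 1) * Real.log 2 +
        ((⌊α * N⌋₊ : ℕ) : ℝ) / N * (Λ / m)) atTop
        (𝓝 ((1 / m - 1) * Real.log 2 + α * (Λ / m))) :=
      tendsto_const_nhds.add (hfl.mul_const _)
  have e : (Real.log 2 + α * Λ) / m - Real.log 2 = (1 / m - 1) * Real.log 2 + α * (Λ / m) := by
    ring
  rw [e]
  refine le_of_tendsto_of_tendsto hL hlim ?_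
  filter_upwards [eventually_gt_atTop 0] with N h4
  have hN' : (0 : ℝ) < N := by positivity
  rw [meanPressure_cube]
  have hup := logZ_upper (M := ⌊α * N⌋₊) (N := N) h4 hf hD hm0 hm1 hΛ
  rw [one_div, inv_mul_eq_div, div_le_iff₀ hN']
  refine hup.trans (le_of_eq ?_)
  field_simp

end Vale.Agent.P157
end
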