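import Mathlib.NumberTheory.Harmonic.Bounds
import Vale.Agent.P146.Bdl.B2
import Vale.Agent.P146.Bdl.B1
import Vale.Agent.P146.Bdl.B4
import Vale.Agent.P146.Bdl.B5

set_option linter.all false

section

/-!
Trigonometric interpolation between two Gaussian fields with disjoint sets of coordinates, and the
step from the pattern field to the tree field.
-/

open MeasureTheory ProbabilityTheory Filter Topology

namespace Vale.Agent.P157.Lv

set_option linter.unusedSectionVars false

open Par (incr Path)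

/-- Potentials with bounded first and second derivatives. -/
structure Pot (f f' f'' : ℝ → ℝ) (C₁ C₂ : ℝ) : Prop where
  d1 : ∀ x, HasDerivAt f (f' x) x
  d2 : ∀ x, HasDerivAt f' (f'' x) x
  b1 : ∀ x, |f' x| ≤ C₁
  b2 : ∀ x, |f'' x| ≤ C₂

variable {ι X : Type} [Fintype ι] [DecidableEq ι] [Fintype X] [DecidableEq X] [Nonempty X]
  {S : Sy ι X} {D : ι → (ι → ℝ) → X → ℝ} {f f' f'' : ℝ → ℝ} {C₁ C₂ : ℝ} {α β : X → ι → ℝ}

/-- The linear field with the coefficients `a`. -/
def lin (a : ι → ℝ) (z : ι → ℝ) : ℝ := ∑ e, a e * z e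

/-- The interpolated field. -/
noncomputable def itU (α β : X → ι → ℝ) (θ : ℝ) (z : ι → ℝ) (x : X) : ℝ :=
  Real.sin θ * lin (α x) z + Real.cos θ * lin (β x) z

/-- The interpolated energy. -/
noncomputable def it (H : (ι → ℝ) → X → ℝ) (f : ℝ → ℝ) (α β : X → ι → ℝ) (θ : ℝ) :
    (ι → ℝ) → X → ℝ := fun z x => H z x + f (itU α β θ z x)

/-- The partial derivatives of the interpolated energy. -/
noncomputable def itD (D : ι → (ι → ℝ) → X → ℝ) (f' : ℝ → ℝ) (α β : X → ι → ℝ) (θ : ℝ) :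
    ι → (ι → ℝ) → X → ℝ := fun e z x =>
  D e z x + f' (itU α β θ z x) * (Real.sin θ * α x e + Real.cos θ * β x e)

/-- The two fields use disjoint sets of coordinates, and the energy does not depend on these. -/
structure Sep (D : ι → (ι → ℝ) → X → ℝ) (α β : X → ι → ℝ) : Prop where
  disj : ∀ e x x', α x e * β x' e = 0
  indep : ∀ e x, (α x e ≠ 0 ∨ β x e ≠ 0) → ∀ z y, D e z y = 0

/-- The bracket of the derivative of the free energy. -/
noncomputable def brk (S : Sy ι X) (f f' f'' : ℝ → ℝ) (α β : X → ι → ℝ) (θ : ℝ) : ℝ :=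
  (S.wH (it S.H f α β θ)).Ex (fun z x => (f'' (itU α β θ z x) + f' (itU α β θ z x) ^ 2) *
    (∑ e, α x e ^ 2 - ∑ e, β x e ^ 2)) -
  ∑ l ∈ Finset.range (S.K + 1), S.p l * ∑ e, if S.lev e ≤ l then
    ((S.wH (it S.H f α β θ)).Ex (fun z _ =>
        (S.wH (it S.H f α β θ)).T l (fun z x => f' (itU α β θ z x) * α x e) z ^ 2) -
      (S.wH (it S.H f α β θ)).Ex (fun z _ =>
        (S.wH (it S.H f α β θ)).T l (fun z x => f' (itU α β θ z x) * β x e) z ^ 2)) else 0

open Sy

lemma Pot.measurable (hf : Pot f f' f'' C₁ C₂) : Measurable f ∧ Measurable f' ∧ Measurable f'' := by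
  have h1 : Continuous f := continuous_iff_continuousAt.2 fun x => (hf.d1 x).continuousAt
  have h2 : Continuous f' := continuous_iff_continuousAt.2 fun x => (hf.d2 x).continuousAt
  have h3 : f'' = deriv f' := funext fun x => (hf.d2 x).deriv.symm
  refine ⟨h1.measurable, h2.measurable, ?_⟩
  rw [h3]
  exact measurable_deriv f'

lemma Pot.lip (hf : Pot f f' f'' C₁ C₂) (x y : ℝ) : |f x - f y| ≤ C₁ * |x - y| := by
  have h := Convex.norm_image_sub_le_of_norm_hasDerivWithin_le (s := Set.univ) (f := f) (f' := f')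
    (C := C₁) (x := y) (y := x) (fun t _ => (hf.d1 t).hasDerivWithinAt)
    (fun t _ => by rw [Real.norm_eq_abs]; exact hf.b1 t) convex_univ (Set.mem_univ _)
    (Set.mem_univ _)
  simpa only [Real.norm_eq_abs] using h

lemma Pot.lip' (hf : Pot f f' f'' C₁ C₂) (x y : ℝ) : |f' x - f' y| ≤ C₂ * |x - y| := by
  have h := Convex.norm_image_sub_le_of_norm_hasDerivWithin_le (s := Set.univ) (f := f')
    (f' := f'') (C := C₂) (x := y) (y := x) (fun t _ => (hf.d2 t).hasDerivWithinAt)
    (fun t _ => by rw [Real.norm_eq_abs]; exact hf.b2 t) convex_univ (Set.mem_univ _)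
    (Set.mem_univ _)
  simpa only [Real.norm_eq_abs] using h

lemma Pot.C1_nonneg (hf : Pot f f' f'' C₁ C₂) : 0 ≤ C₁ := (abs_nonneg _).trans (hf.b1 0)

lemma itU_lip (α β : X → ι → ℝ) (θ : ℝ) (x : X) : Lip fun z => itU α β θ z x := by
  have h1 : ∀ a : ι → ℝ, Lip fun z => lin a z := fun a =>
    Lip.sum Finset.univ fun e _ => (Lip.coord e).const_mul (a e)
  exact ((h1 (α x)).const_mul _).add ((h1 (β x)).const_mul _)

lemma itU_measurable (α β : X → ι → ℝ) (θ : ℝ) (x : X) : Measurable fun z => itU α β θ z x :=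
  (itU_lip α β θ x).measurable

lemma lin_pd (a : ι → ℝ) (e : ι) : PD e (fun z => lin a z) (fun _ => a e) := by
  have h1 : PD e (fun z : ι → ℝ => ∑ e', a e' * z e')
      (fun _ => ∑ e', a e' * (if e' = e then 1 else 0)) :=
    PD.sum Finset.univ fun e' _ => (PD.coord e').const_mul (a e')
  refine h1.congr fun _ => ?_
  simp

lemma itU_pd (α β : X → ι → ℝ) (θ : ℝ) (x : X) (e : ι) :
    PD e (fun z => itU α β θ z x) (fun _ => Real.sin θ * α x e + Real.cos θ * β x e) :=
  ((lin_pd (α x) e).const_mul _).add ((lin_pd (β x) e).const_mul _)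

lemma Pot.eg1 (hf : Pot f f' f'' C₁ C₂) (α β : X → ι → ℝ) (θ : ℝ) :
    Nh fun z x => f' (itU α β θ z x) := fun x =>
  EG.of_bdd (hf.measurable.2.1.comp (itU_measurable α β θ x)) fun _ => hf.b1 _

lemma Pot.eg2 (hf : Pot f f' f'' C₁ C₂) (α β : X → ι → ℝ) (θ : ℝ) :
    Nh fun z x => f'' (itU α β θ z x) := fun x =>
  EG.of_bdd (hf.measurable.2.2.comp (itU_measurable α β θ x)) fun _ => hf.b2 _

theorem regD_it (hS : S.RegD D) (hf : Pot f f' f'' C₁ C₂) (θ : ℝ) :
    (S.wH (it S.H f α β θ)).RegD (itD D f' α β θ) := by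
  refine { m0 := hS.m0, mK := hS.mK, mono := hS.mono, pos := hS.pos, lev := hS.lev, lip := ?_,
           pd := ?_, md := ?_, bd := ?_ }
  · intro x
    exact (hS.lip x).add ((itU_lip α β θ x).comp hf.C1_nonneg hf.lip)
  · intro e x
    exact (hS.pd e x).add ((itU_pd α β θ x e).comp hf.d1)
  · intro e x
    exact (hS.md e x).add ((hf.measurable.2.1.comp (itU_measurable α β θ x)).mul_const _)
  · obtain ⟨C, hC⟩ := hS.bd
    refine ⟨C + C₁ * ∑ x, ∑ e, (|α x e| + |β x e|), fun e z x => ?_⟩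
    refine (abs_add_le _ _).trans (add_le_add (hC e z x) ?_)
    rw [abs_mul]
    refine mul_le_mul (hf.b1 _) ?_ (abs_nonneg _) hf.C1_nonneg
    have h1 : |Real.sin θ * α x e + Real.cos θ * β x e| ≤ |α x e| + |β x e| := by
      refine (abs_add_le _ _).trans (add_le_add ?_ ?_)
      · rw [abs_mul]
        exact mul_le_of_le_one_left (abs_nonneg _) (Real.abs_sin_le_one θ)
      · rw [abs_mul]
        exact mul_le_of_le_one_left (abs_nonneg _) (Real.abs_cos_le_one θ)
    refine h1.trans ?_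
    have h2 : |α x e| + |β x e| ≤ ∑ e, (|α x e| + |β x e|) :=
      Finset.single_le_sum (f := fun e => |α x e| + |β x e|)
        (fun e _ => add_nonneg (abs_nonneg _) (abs_nonneg _)) (Finset.mem_univ e)
    exact h2.trans (Finset.single_le_sum (f := fun x => ∑ e, (|α x e| + |β x e|))
      (fun x _ => Finset.sum_nonneg fun e _ => add_nonneg (abs_nonneg _) (abs_nonneg _))
      (Finset.mem_univ x))

/-- The term of the coordinate `e` and the level `l`. -/
lemma lvi_level {R : Sy ι X} (hR : R.Reg) {l : ℕ} (hl : l ≤ R.K) {A B : (ι → ℝ) → X → ℝ}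
    (hA : Nh A) (hB : Nh B) (s c : ℝ) (h0 : (∀ z x, A z x = 0) ∨ ∀ z x, B z x = 0) :
    R.Ex (fun z x => (c * A z x - s * B z x) * R.T l (fun z x => s * A z x + c * B z x) z) =
      s * c * (R.Ex (fun z _ => R.T l A z ^ 2) - R.Ex (fun z _ => R.T l B z ^ 2)) := by
  have hN1 : Nh fun z x => c * A z x - s * B z x := Nh.sub (Nh.const_mul c hA) (Nh.const_mul s hB)
  have hN2 : Nh fun z x => s * A z x + c * B z x := Nh.add (Nh.const_mul s hA) (Nh.const_mul c hB)
  have e1 : R.Ex (fun z x => (c * A z x - s * B z x) *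
      R.T l (fun z x => s * A z x + c * B z x) z) =
      R.Ex (fun z _ => R.T l (fun z x => s * A z x + c * B z x) z *
        R.T l (fun z x => c * A z x - s * B z x) z) := by
    rw [hR.Ex_mul_T hl (R.dep_T l _) (hR.eg_T hl hN2) hN1]
    congr 1
    funext z x
    ring
  have e2 : ∀ z, R.T l (fun z x => s * A z x + c * B z x) z = s * R.T l A z + c * R.T l B z := by
    intro z
    rw [hR.T_add hl (Nh.const_mul s hA) (Nh.const_mul c hB), R.T_const_mul, R.T_const_mul]
  have e3 : ∀ z, R.T l (fun z x => c * A z x - s * B z x) z = c * R.T l A z - s * R.T l B z := by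
    intro z
    rw [hR.T_sub hl (Nh.const_mul c hA) (Nh.const_mul s hB), R.T_const_mul, R.T_const_mul]
  have e4 : ∀ z, R.T l A z * R.T l B z = 0 := by
    intro z
    rcases h0 with h | h
    · have : A = fun _ _ => (0 : ℝ) := by
        funext z x
        exact h z x
      rw [this, hR.T_const hl, zero_mul]
    · have : B = fun _ _ => (0 : ℝ) := by
        funext z x
        exact h z x
      rw [this, hR.T_const hl, mul_zero]
  rw [e1, ← hR.Ex_sub (Nh.pow (Nh.fst (hR.eg_T hl hA)) 2) (Nh.pow (Nh.fst (hR.eg_T hl hB)) 2),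
    ← R.Ex_const_mul]
  congr 1
  funext z _
  rw [e2, e3]
  linear_combination (c ^ 2 - s ^ 2) * e4 z

/-- The term of the coordinate `e`. -/
lemma lvi_coord (hS : S.RegD D) (hf : Pot f f' f'' C₁ C₂) (hs : Sep D α β) (θ : ℝ) (e : ι) :
    (S.wH (it S.H f α β θ)).Ex (fun z x => z e * (f' (itU α β θ z x) *
      (Real.cos θ * α x e - Real.sin θ * β x e))) =
    Real.sin θ * Real.cos θ * ((S.wH (it S.H f α β θ)).Ex (fun z x =>
      (f'' (itU α β θ z x) + f' (itU α β θ z x) ^ 2) * (α x e ^ 2 - β x e ^ 2)) -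
      ∑ l ∈ Finset.range (S.K + 1), S.p l * (if S.lev e ≤ l then
        ((S.wH (it S.H f α β θ)).Ex (fun z _ =>
            (S.wH (it S.H f α β θ)).T l (fun z x => f' (itU α β θ z x) * α x e) z ^ 2) -
          (S.wH (it S.H f α β θ)).Ex (fun z _ =>
            (S.wH (it S.H f α β θ)).T l (fun z x => f' (itU α β θ z x) * β x e) z ^ 2))
        else 0)) := by
  obtain ⟨R, hRdef⟩ : ∃ R, R = S.wH (it S.H f α β θ) := ⟨_, rfl⟩
  have hR : R.RegD (itD D f' α β θ) := by rw [hRdef]; exact regD_it hS hf θ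
  have hRK : R.K = S.K := by rw [hRdef]; rfl
  have hRp : R.p = S.p := by rw [hRdef]; rfl
  have hRlev : R.lev = S.lev := by rw [hRdef]; rfl
  rw [← hRdef]
  obtain ⟨s, hsd⟩ : ∃ s, s = Real.sin θ := ⟨_, rfl⟩
  obtain ⟨c, hcd⟩ : ∃ c, c = Real.cos θ := ⟨_, rfl⟩
  rw [← hsd, ← hcd]
  have hN1 := hf.eg1 α β θ
  have hN2 := hf.eg2 α β θ
  have hNα : Nh fun z x => f' (itU α β θ z x) * α x e := Nh.mul hN1 (Nh.snd fun x => α x e)
  have hNβ : Nh fun z x => f' (itU α β θ z x) * β x e := Nh.mul hN1 (Nh.snd fun x => β x e)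
  have hz : (∀ x, α x e = 0) ∨ ∀ x, β x e = 0 := by
    by_contra hcon
    push Not at hcon
    obtain ⟨⟨x, hx⟩, x', hx'⟩ := hcon
    exact mul_ne_zero hx hx' (hs.disj e x x')
  have h0 : (∀ (z : ι → ℝ) x, f' (itU α β θ z x) * α x e = 0) ∨
      ∀ (z : ι → ℝ) x, f' (itU α β θ z x) * β x e = 0 := by
    rcases hz with h | h
    · left
      intro z x
      rw [h x, mul_zero]
    · right
      intro z x
      rw [h x, mul_zero]
  have hxy : ∀ x, α x e * β x e = 0 := fun x => hs.disj e x x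
  -- the observable and its derivative
  have hh : Nh fun z x => f' (itU α β θ z x) * (c * α x e - s * β x e) :=
    Nh.mul hN1 (Nh.snd fun x => c * α x e - s * β x e)
  have hh' : Nh fun z x => f'' (itU α β θ z x) * (s * α x e + c * β x e) *
      (c * α x e - s * β x e) :=
    Nh.mul (Nh.mul hN2 (Nh.snd fun x => s * α x e + c * β x e))
      (Nh.snd fun x => c * α x e - s * β x e)
  have hd : ∀ x, PD e (fun z => f' (itU α β θ z x) * (c * α x e - s * β x e))
      (fun z => f'' (itU α β θ z x) * (s * α x e + c * β x e) * (c * α x e - s * β x e)) := by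
    intro x
    have h1 := ((itU_pd α β θ x e).comp hf.d2).mul (PD.const (c * α x e - s * β x e))
    refine h1.congr fun z => ?_
    rw [hsd, hcd]
    ring
  rw [hR.ibp e hd hh hh']
  -- the derivatives of the energy at the level `l`
  have hsupp : (∀ x, α x e = 0 ∧ β x e = 0) ∨ ∀ z y, D e z y = 0 := by
    by_cases h : ∃ x, α x e ≠ 0 ∨ β x e ≠ 0
    · right
      obtain ⟨x, hx⟩ := h
      exact hs.indep e x hx
    · left
      push Not at h
      exact h
  have hlev : ∀ l ≤ R.K, R.Ex (fun z x => f' (itU α β θ z x) * (c * α x e - s * β x e) *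
      R.T l (itD D f' α β θ e) z) =
      s * c * (R.Ex (fun z _ => R.T l (fun z x => f' (itU α β θ z x) * α x e) z ^ 2) -
        R.Ex (fun z _ => R.T l (fun z x => f' (itU α β θ z x) * β x e) z ^ 2)) := by
    intro l hl
    rcases hsupp with h | h
    · have e1 : (fun (z : ι → ℝ) (x : X) => f' (itU α β θ z x) * (c * α x e - s * β x e) *
          R.T l (itD D f' α β θ e) z) = fun _ _ => 0 := by
        funext z x
        rw [(h x).1, (h x).2]
        ring
      have e2 : (fun (z : ι → ℝ) (x : X) => f' (itU α β θ z x) * α x e) = fun _ _ => 0 := by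
        funext z x
        rw [(h x).1, mul_zero]
      have e3 : (fun (z : ι → ℝ) (x : X) => f' (itU α β θ z x) * β x e) = fun _ _ => 0 := by
        funext z x
        rw [(h x).2, mul_zero]
      rw [e1, e2, e3, hR.toReg.Ex_const]
      ring
    · rw [← lvi_level hR.toReg hl hNα hNβ s c h0]
      have e1 : itD D f' α β θ e = fun z x => s * (f' (itU α β θ z x) * α x e) +
          c * (f' (itU α β θ z x) * β x e) := by
        funext z x
        simp only [itD]
        rw [h z x, hsd, hcd]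
        ring
      rw [e1]
      congr 1
      funext z x
      ring
  have hNT : ∀ l ∈ Finset.Ico (R.lev e) (R.K + 1), Nh fun z x =>
      R.p l * (f' (itU α β θ z x) * (c * α x e - s * β x e) * R.T l (itD D f' α β θ e) z) := by
    intro l hl
    have hl' := (Finset.mem_Ico.1 hl).2
    exact Nh.const_mul _ (Nh.mul hh (Nh.fst (hR.toReg.eg_T (by omega) (hR.nh e))))
  have hNm : Nh fun z x => s * c * ((f'' (itU α β θ z x) + f' (itU α β θ z x) ^ 2) *
      (α x e ^ 2 - β x e ^ 2)) :=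
    Nh.const_mul _ (Nh.mul (Nh.add hN2 (Nh.pow hN1 2)) (Nh.snd fun x => α x e ^ 2 - β x e ^ 2))
  have e1 : (fun (z : ι → ℝ) (x : X) => f'' (itU α β θ z x) * (s * α x e + c * β x e) *
      (c * α x e - s * β x e) + f' (itU α β θ z x) * (c * α x e - s * β x e) *
        (itD D f' α β θ e z x - ∑ l ∈ Finset.Ico (R.lev e) (R.K + 1), R.p l *
          R.T l (itD D f' α β θ e) z)) =
      fun z x => s * c * ((f'' (itU α β θ z x) + f' (itU α β θ z x) ^ 2) *
        (α x e ^ 2 - β x e ^ 2)) -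
        ∑ l ∈ Finset.Ico (R.lev e) (R.K + 1), R.p l * (f' (itU α β θ z x) *
          (c * α x e - s * β x e) * R.T l (itD D f' α β θ e) z) := by
    funext z x
    have h1 : f' (itU α β θ z x) * (c * α x e - s * β x e) * D e z x = 0 := by
      rcases hsupp with h | h
      · rw [(h x).1, (h x).2]
        ring
      · rw [h z x, mul_zero]
    have h2 : ∑ l ∈ Finset.Ico (R.lev e) (R.K + 1), R.p l * (f' (itU α β θ z x) *
          (c * α x e - s * β x e) * R.T l (itD D f' α β θ e) z) =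
        f' (itU α β θ z x) * (c * α x e - s * β x e) *
          ∑ l ∈ Finset.Ico (R.lev e) (R.K + 1), R.p l * R.T l (itD D f' α β θ e) z := by
      rw [Finset.mul_sum]
      refine Finset.sum_congr rfl fun l _ => ?_
      ring
    have h3 := hxy x
    rw [h2]
    have h4 : itD D f' α β θ e z x = D e z x + f' (itU α β θ z x) * (s * α x e + c * β x e) := by
      rw [hsd, hcd]
      rfl
    rw [h4]
    linear_combination h1 + (f'' (itU α β θ z x) + f' (itU α β θ z x) ^ 2) *
      (c ^ 2 - s ^ 2) * h3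
  rw [e1, hR.toReg.Ex_sub hNm (Nh.sum _ hNT), R.Ex_const_mul, hR.toReg.Ex_sum _ hNT, mul_sub]
  congr 1
  have e2 : ∀ l ∈ Finset.Ico (R.lev e) (R.K + 1), R.Ex (fun z x => R.p l *
      (f' (itU α β θ z x) * (c * α x e - s * β x e) * R.T l (itD D f' α β θ e) z)) =
      s * c * (R.p l * (R.Ex (fun z _ => R.T l (fun z x => f' (itU α β θ z x) * α x e) z ^ 2) -
        R.Ex (fun z _ => R.T l (fun z x => f' (itU α β θ z x) * β x e) z ^ 2))) := by
    intro l hl
    have hl' := (Finset.mem_Ico.1 hl).2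
    rw [R.Ex_const_mul, hlev l (by omega)]
    ring
  rw [Finset.sum_congr rfl e2, ← Finset.mul_sum]
  congr 1
  have e3 : Finset.Ico (R.lev e) (R.K + 1) =
      (Finset.range (S.K + 1)).filter fun l => S.lev e ≤ l := by
    ext l
    simp only [Finset.mem_Ico, Finset.mem_filter, Finset.mem_range, hRK, hRlev]
    omega
  rw [e3, Finset.sum_filter]
  refine Finset.sum_congr rfl fun l _ => ?_
  rw [hRp]
  split_ifs
  · rfl
  · rw [mul_zero]

/-- The derivative in the angle, integrated by parts (`RegD.ibp` for each coordinate `e`, the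
observable `f'(u) (cos θ α_e - sin θ β_e)`). -/
theorem ex_deriv (hS : S.RegD D) (hf : Pot f f' f'' C₁ C₂) (hs : Sep D α β) (θ : ℝ) :
    (S.wH (it S.H f α β θ)).Ex (fun z x => f' (itU α β θ z x) *
      (Real.cos θ * lin (α x) z - Real.sin θ * lin (β x) z)) =
    Real.sin θ * Real.cos θ * brk S f f' f'' α β θ := by
  have hR := (regD_it (α := α) (β := β) hS hf θ).toReg
  have hN1 := hf.eg1 α β θ
  have hN2 := hf.eg2 α β θ
  have e1 : (fun (z : ι → ℝ) (x : X) => f' (itU α β θ z x) *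
      (Real.cos θ * lin (α x) z - Real.sin θ * lin (β x) z)) =
      fun z x => ∑ e, z e * (f' (itU α β θ z x) *
        (Real.cos θ * α x e - Real.sin θ * β x e)) := by
    funext z x
    simp only [lin, Finset.mul_sum]
    rw [← Finset.sum_sub_distrib, Finset.mul_sum]
    refine Finset.sum_congr rfl fun e _ => ?_
    ring
  have hNe : ∀ e ∈ (Finset.univ : Finset ι), Nh fun z x => z e * (f' (itU α β θ z x) *
      (Real.cos θ * α x e - Real.sin θ * β x e)) := fun e _ =>
    Nh.mul (Nh.fst (EG.coord e)) (Nh.mul hN1 (Nh.snd fun x =>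
      Real.cos θ * α x e - Real.sin θ * β x e))
  rw [e1, hR.Ex_sum _ hNe, Finset.sum_congr rfl fun e _ => lvi_coord hS hf hs θ e,
    ← Finset.mul_sum, Finset.sum_sub_distrib]
  unfold brk
  congr 2
  · have hNq : ∀ e ∈ (Finset.univ : Finset ι), Nh fun z x =>
        (f'' (itU α β θ z x) + f' (itU α β θ z x) ^ 2) * (α x e ^ 2 - β x e ^ 2) := fun e _ =>
      Nh.mul (Nh.add hN2 (Nh.pow hN1 2)) (Nh.snd fun x => α x e ^ 2 - β x e ^ 2)
    rw [← hR.Ex_sum _ hNq]
    congr 1
    funext z x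
    rw [← Finset.sum_sub_distrib, Finset.mul_sum]
  · rw [Finset.sum_comm]
    refine Finset.sum_congr rfl fun l _ => ?_
    rw [Finset.mul_sum]

end Vale.Agent.P157.Lv
end

section

/-!
The interpolation inequality.
-/

open MeasureTheory ProbabilityTheory Filter Topology

namespace Vale.Agent.P157.Lv

set_option linter.unusedSectionVars false

open Par (incr Path)

section unif

variable {ι X : Type} [Fintype ι] [Fintype X] [Nonempty X] {S : Sy ι X}

lemma li2_top {L : ℝ} (hL : ∀ x z z', |S.H z x - S.H z' x| ≤ L * ‖z - z'‖) (y y' : ι → ℝ) :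
    |S.top y - S.top y'| ≤ L * ‖y - y'‖ := by
  have key : ∀ y y', S.top y - S.top y' ≤ L * ‖y - y'‖ := by
    intro y y'
    refine Sy.lc_log_le (Sy.sum_exp_pos y) (Sy.sum_exp_pos y') ?_
    rw [Finset.mul_sum]
    refine Finset.sum_le_sum fun x _ => ?_
    rw [← Real.exp_add]
    apply Real.exp_le_exp.2
    have h1 := (abs_le.1 (hL x y y')).2
    linarith
  rw [abs_le]
  have h1 := key y y'
  have h2 := key y' y
  rw [norm_sub_rev] at h2
  exact ⟨by linarith, h1⟩

lemma li2_stp {F : (ι → ℝ) → ℝ} (hF : Lip F) {L : ℝ} (hL0 : 0 ≤ L)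
    (hL : ∀ y y', |F y - F y'| ≤ L * ‖y - y'‖) {l : ℕ} (hm : 0 < S.m (l + 1)) (y y' : ι → ℝ) :
    |S.stp l F y - S.stp l F y'| ≤ L * ‖y - y'‖ := by
  have heg := hF.exp_eg (S.m (l + 1))
  have hpos : ∀ z, 0 < J S.lev l (fun z => Real.exp (S.m (l + 1) * F z)) z :=
    fun z => J_pos heg (fun _ => Real.exp_pos _) z
  have key : ∀ y y', S.stp l F y - S.stp l F y' ≤ L * ‖y - y'‖ := by
    intro y y'
    have h1 : J S.lev l (fun z => Real.exp (S.m (l + 1) * F z)) y ≤
        Real.exp (S.m (l + 1) * (L * ‖y - y'‖)) *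
          J S.lev l (fun z => Real.exp (S.m (l + 1) * F z)) y' := by
      unfold J
      rw [← integral_const_mul]
      refine integral_mono (heg.mix y) ((heg.mix y').const_mul _) fun w => ?_
      simp only
      rw [← Real.exp_add]
      apply Real.exp_le_exp.2
      have h2 := (abs_le.1 (hL (mix S.lev l y w) (mix S.lev l y' w))).2
      have h3 : L * ‖mix S.lev l y w - mix S.lev l y' w‖ ≤ L * ‖y - y'‖ :=
        mul_le_mul_of_nonneg_left (Sy.lc_norm_mix _ _ _ _ _) hL0
      have h4 : F (mix S.lev l y w) ≤ L * ‖y - y'‖ + F (mix S.lev l y' w) := by linarith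
      calc S.m (l + 1) * F (mix S.lev l y w)
          ≤ S.m (l + 1) * (L * ‖y - y'‖ + F (mix S.lev l y' w)) :=
            mul_le_mul_of_nonneg_left h4 hm.le
        _ = _ := by ring
    have h5 := Sy.lc_log_le (hpos y) (hpos y') h1
    unfold Sy.stp
    rw [← mul_sub, one_div, inv_mul_le_iff₀ hm]
    exact h5
  rw [abs_le]
  have h1 := key y y'
  have h2 := key y' y
  rw [norm_sub_rev] at h2
  exact ⟨by linarith, h1⟩

lemma li2_lg (hS : S.Reg) {L : ℝ} (hL0 : 0 ≤ L)
    (hL : ∀ x z z', |S.H z x - S.H z' x| ≤ L * ‖z - z'‖) :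
    ∀ l ≤ S.K, ∀ y y', |S.lg l y - S.lg l y'| ≤ L * ‖y - y'‖ := by
  refine Sy.down_ind ?_ ?_
  · intro y y'
    rw [Sy.lg_top]
    exact li2_top hL y y'
  · intro l hl ih y y'
    rw [Sy.lg_step S hl]
    exact li2_stp (hS.lip_lg hl) hL0 ih (hS.m_pos (Nat.succ_le_succ (Nat.zero_le l)) (by omega)) y y'

omit [Fintype X] [Nonempty X] in
lemma li2_norm_mix (lev : ι → ℕ) (l : ℕ) (z w : ι → ℝ) : ‖z - mix lev l z w‖ ≤ ‖z‖ + ‖w‖ := by
  rw [pi_norm_le_iff_of_nonneg (by positivity)]
  intro i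
  rw [Pi.sub_apply]
  unfold mix
  split_ifs
  · rw [sub_self, norm_zero]; positivity
  · calc ‖z i - w i‖ ≤ ‖z i‖ + ‖w i‖ := norm_sub_le _ _
      _ ≤ ‖z‖ + ‖w‖ := add_le_add (norm_le_pi_norm z i) (norm_le_pi_norm w i)

/-- the constant of one level -/
noncomputable def li2c (ι : Type) [Fintype ι] (a : ℝ) : ℝ :=
  -Real.log (∫ w, Real.exp (-a * ‖w‖) ∂(gI ι))

lemma li2_diff (hS : S.Reg) {L : ℝ} (hL0 : 0 ≤ L)
    (hL : ∀ x z z', |S.H z x - S.H z' x| ≤ L * ‖z - z'‖) {l : ℕ} (hl : l < S.K) (z : ι → ℝ) :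
    S.m (l + 1) * (S.lg (l + 1) z - S.lg l z) ≤
      S.m (l + 1) * L * ‖z‖ + li2c ι (S.m (l + 1) * L) := by
  have hm : 0 < S.m (l + 1) := hS.m_pos (Nat.succ_le_succ (Nat.zero_le l)) (by omega)
  have h1 := hS.J_exp_lg hl z
  have hint : Integrable (fun w : ι → ℝ => Real.exp (-(S.m (l + 1) * L) * ‖w‖)) (gI ι) :=
    integrable_exp_norm _
  have hI : 0 < ∫ w, Real.exp (-(S.m (l + 1) * L) * ‖w‖) ∂(gI ι) :=
    integral_exp_pos hint
  have h2 : Real.exp (S.m (l + 1) * S.lg (l + 1) z - S.m (l + 1) * L * ‖z‖) *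
      ∫ w, Real.exp (-(S.m (l + 1) * L) * ‖w‖) ∂(gI ι) ≤ Real.exp (S.m (l + 1) * S.lg l z) := by
    rw [← h1]
    unfold J
    rw [← integral_const_mul]
    refine integral_mono (hint.const_mul _) (((hS.lip_lg hl).exp_eg _).mix z) fun w => ?_
    simp only
    rw [← Real.exp_add]
    apply Real.exp_le_exp.2
    have h3 := (abs_le.1 (li2_lg hS hL0 hL (l + 1) hl z (mix S.lev l z w))).2
    have h4 : L * ‖z - mix S.lev l z w‖ ≤ L * (‖z‖ + ‖w‖) :=
      mul_le_mul_of_nonneg_left (li2_norm_mix _ _ _ _) hL0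
    have h5 : S.lg (l + 1) z - L * (‖z‖ + ‖w‖) ≤ S.lg (l + 1) (mix S.lev l z w) := by linarith
    calc S.m (l + 1) * S.lg (l + 1) z - S.m (l + 1) * L * ‖z‖ + -(S.m (l + 1) * L) * ‖w‖
        = S.m (l + 1) * (S.lg (l + 1) z - L * (‖z‖ + ‖w‖)) := by ring
      _ ≤ _ := mul_le_mul_of_nonneg_left h5 hm.le
  have h6 := Real.log_le_log (mul_pos (Real.exp_pos _) hI) h2
  rw [Real.log_mul (Real.exp_pos _).ne' hI.ne', Real.log_exp, Real.log_exp] at h6
  unfold li2c
  linarith

end unif

variable {ι X : Type} [Fintype ι] [DecidableEq ι] [Fintype X] [DecidableEq X] [Nonempty X]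
  {S : Sy ι X} {D : ι → (ι → ℝ) → X → ℝ} {f f' f'' : ℝ → ℝ} {C₁ C₂ : ℝ} {α β : X → ι → ℝ}

/-- The densities grow at most exponentially, uniformly over the energies which are Lipschitz
with the same constant. -/
theorem dn_unif (S : Sy ι X) (hS : S.Reg) (L : ℝ) : ∃ C a : ℝ, 0 ≤ C ∧ 0 ≤ a ∧
    ∀ H' : (ι → ℝ) → X → ℝ, (S.wH H').Reg →
      (∀ x z z', |H' z x - H' z' x| ≤ L * ‖z - z'‖) → ∀ l ≤ S.K, ∀ z,
        (S.wH H').dn l z ≤ C * Real.exp (a * ‖z‖) := by
  have hm0 : ∀ i < S.K, 0 ≤ S.m (i + 1) := fun i hi =>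
    (hS.m_pos (Nat.succ_le_succ (Nat.zero_le i)) (by omega)).le
  refine ⟨Real.exp (∑ i ∈ Finset.range S.K, |li2c ι (S.m (i + 1) * |L|)|),
    ∑ i ∈ Finset.range S.K, S.m (i + 1) * |L|, (Real.exp_pos _).le,
    Finset.sum_nonneg fun i hi => mul_nonneg (hm0 i (Finset.mem_range.1 hi)) (abs_nonneg _), ?_⟩
  intro H' hR hL l hl z
  have hL' : ∀ x z z', |(S.wH H').H z x - (S.wH H').H z' x| ≤ |L| * ‖z - z'‖ := fun x z z' =>
    (hL x z z').trans (mul_le_mul_of_nonneg_right (le_abs_self L) (norm_nonneg _))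
  unfold Sy.dn
  rw [← Real.exp_add]
  apply Real.exp_le_exp.2
  have hK : (S.wH H').K = S.K := rfl
  have hmm : (S.wH H').m = S.m := rfl
  rw [hK, hmm]
  calc ∑ i ∈ Finset.Ico l S.K, S.m (i + 1) * ((S.wH H').lg (i + 1) z - (S.wH H').lg i z)
      ≤ ∑ i ∈ Finset.Ico l S.K, (S.m (i + 1) * |L| * ‖z‖ + |li2c ι (S.m (i + 1) * |L|)|) := by
        refine Finset.sum_le_sum fun i hi => ?_
        have hi' : i < S.K := (Finset.mem_Ico.1 hi).2
        have h1 := li2_diff hR (abs_nonneg L) hL' (l := i) hi' z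
        rw [hmm] at h1
        exact h1.trans (add_le_add_right (le_abs_self _) _)
    _ ≤ ∑ i ∈ Finset.range S.K, (S.m (i + 1) * |L| * ‖z‖ + |li2c ι (S.m (i + 1) * |L|)|) := by
        refine Finset.sum_le_sum_of_subset_of_nonneg ?_ ?_
        · intro i hi
          exact Finset.mem_range.2 (Finset.mem_Ico.1 hi).2
        · intro i hi _
          have := hm0 i (Finset.mem_range.1 hi)
          (clear * - this; positivity)
    _ = _ := by
        rw [Finset.sum_add_distrib, Finset.sum_mul, add_comm]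

section taylor

lemma li2_sin (a b : ℝ) : |Real.sin a - Real.sin b| ≤ |a - b| := by
  have := Real.lipschitzWith_sin.dist_le_mul a b
  simpa [Real.dist_eq] using this

lemma li2_cos (a b : ℝ) : |Real.cos a - Real.cos b| ≤ |a - b| := by
  have := Real.lipschitzWith_cos.dist_le_mul a b
  simpa [Real.dist_eq] using this

lemma li2_C1 (hf : Pot f f' f'' C₁ C₂) : 0 ≤ C₁ := (abs_nonneg _).trans (hf.b1 0)

lemma li2_C2 (hf : Pot f f' f'' C₁ C₂) : 0 ≤ C₂ := (abs_nonneg _).trans (hf.b2 0)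

/-- second order Taylor estimate along the rotation -/
lemma li2_taylor (hf : Pot f f' f'' C₁ C₂) {t t' A B r : ℝ} (htt : t ≤ t') (hAB : |A| + |B| ≤ r) :
    f (Real.sin t' * A + Real.cos t' * B) - f (Real.sin t * A + Real.cos t * B) ≤
      (t' - t) * (f' (Real.sin t' * A + Real.cos t' * B) * (Real.cos t' * A - Real.sin t' * B)) +
      (t' - t) ^ 2 * (C₂ * r ^ 2 + C₁ * r) := by
  have hr : 0 ≤ r := (by positivity : 0 ≤ |A| + |B|).trans hAB
  have hC1 := li2_C1 hf
  have hC2 := li2_C2 hf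
  rcases htt.eq_or_lt with h | h
  · subst h; simp
  · have hd : ∀ s, HasDerivAt (fun s => f (Real.sin s * A + Real.cos s * B))
        (f' (Real.sin s * A + Real.cos s * B) * (Real.cos s * A - Real.sin s * B)) s := by
      intro s
      have h1 : HasDerivAt (fun s => Real.sin s * A + Real.cos s * B)
          (Real.cos s * A - Real.sin s * B) s := by
        have h2 := ((Real.hasDerivAt_sin s).mul_const A).add ((Real.hasDerivAt_cos s).mul_const B)
        have h3 : Real.cos s * A - Real.sin s * B = Real.cos s * A + -Real.sin s * B := by ring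
        rw [h3]
        exact h2
      exact (hf.d1 _).comp s h1
    obtain ⟨ξ, hξ, hξ2⟩ := exists_hasDerivAt_eq_slope _ _ h
      (fun s _ => (hd s).continuousAt.continuousWithinAt) (fun s _ => hd s)
    rw [eq_div_iff (by linarith)] at hξ2
    rw [← hξ2]
    have hv : ∀ s, |Real.cos s * A - Real.sin s * B| ≤ r := by
      intro s
      calc |Real.cos s * A - Real.sin s * B| ≤ |Real.cos s * A| + |Real.sin s * B| := abs_sub _ _
        _ = |Real.cos s| * |A| + |Real.sin s| * |B| := by rw [abs_mul, abs_mul]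
        _ ≤ 1 * |A| + 1 * |B| := by
            gcongr
            · exact Real.abs_cos_le_one s
            · exact Real.abs_sin_le_one s
        _ ≤ r := by linarith
    have hξt : |ξ - t'| ≤ t' - t := by
      rw [abs_le]; constructor <;> linarith [hξ.1, hξ.2]
    have hu : |(Real.sin ξ * A + Real.cos ξ * B) - (Real.sin t' * A + Real.cos t' * B)| ≤
        (t' - t) * r := by
      calc |(Real.sin ξ * A + Real.cos ξ * B) - (Real.sin t' * A + Real.cos t' * B)|
          = |(Real.sin ξ - Real.sin t') * A + (Real.cos ξ - Real.cos t') * B| := by ring_nf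
        _ ≤ |(Real.sin ξ - Real.sin t') * A| + |(Real.cos ξ - Real.cos t') * B| := abs_add_le _ _
        _ = |Real.sin ξ - Real.sin t'| * |A| + |Real.cos ξ - Real.cos t'| * |B| := by
            rw [abs_mul, abs_mul]
        _ ≤ (t' - t) * |A| + (t' - t) * |B| := by
            gcongr
            · exact (li2_sin _ _).trans hξt
            · exact (li2_cos _ _).trans hξt
        _ ≤ (t' - t) * r := by
            rw [← mul_add]
            exact mul_le_mul_of_nonneg_left hAB (by linarith)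
    have hvv : |(Real.cos ξ * A - Real.sin ξ * B) - (Real.cos t' * A - Real.sin t' * B)| ≤
        (t' - t) * r := by
      calc |(Real.cos ξ * A - Real.sin ξ * B) - (Real.cos t' * A - Real.sin t' * B)|
          = |(Real.cos ξ - Real.cos t') * A - (Real.sin ξ - Real.sin t') * B| := by ring_nf
        _ ≤ |(Real.cos ξ - Real.cos t') * A| + |(Real.sin ξ - Real.sin t') * B| := abs_sub _ _
        _ = |Real.cos ξ - Real.cos t'| * |A| + |Real.sin ξ - Real.sin t'| * |B| := by
            rw [abs_mul, abs_mul]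
        _ ≤ (t' - t) * |A| + (t' - t) * |B| := by
            gcongr
            · exact (li2_cos _ _).trans hξt
            · exact (li2_sin _ _).trans hξt
        _ ≤ (t' - t) * r := by
            rw [← mul_add]
            exact mul_le_mul_of_nonneg_left hAB (by linarith)
    have hff := hf.lip' (Real.sin ξ * A + Real.cos ξ * B) (Real.sin t' * A + Real.cos t' * B)
    have key : |f' (Real.sin ξ * A + Real.cos ξ * B) * (Real.cos ξ * A - Real.sin ξ * B) -
        f' (Real.sin t' * A + Real.cos t' * B) * (Real.cos t' * A - Real.sin t' * B)| ≤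
        (t' - t) * (C₂ * r ^ 2 + C₁ * r) := by
      set p := f' (Real.sin ξ * A + Real.cos ξ * B)
      set q := f' (Real.sin t' * A + Real.cos t' * B)
      set v := Real.cos ξ * A - Real.sin ξ * B
      set v' := Real.cos t' * A - Real.sin t' * B
      have hq : |q| ≤ C₁ := hf.b1 _
      calc |p * v - q * v'| = |(p - q) * v + q * (v - v')| := by ring_nf
        _ ≤ |(p - q) * v| + |q * (v - v')| := abs_add_le _ _
        _ = |p - q| * |v| + |q| * |v - v'| := by rw [abs_mul, abs_mul]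
        _ ≤ (C₂ * ((t' - t) * r)) * r + C₁ * ((t' - t) * r) := by
            have htr : 0 ≤ (t' - t) * r := mul_nonneg (by linarith) hr
            have h1 : |p - q| ≤ C₂ * ((t' - t) * r) :=
              hff.trans (mul_le_mul_of_nonneg_left hu hC2)
            gcongr
            exact hv ξ
        _ = (t' - t) * (C₂ * r ^ 2 + C₁ * r) := by ring
    have := (abs_le.1 key).2
    (by_contra nlg; linarith only [nlg, mul_pos (sub_pos.2 (not_le.1 nlg)) (sub_pos.2 h), mul_nonneg (sq_nonneg (t' - t : ℝ)) (sub_nonneg.2 this)])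

end taylor

/-- total size of the coefficients -/
def li2R (α β : X → ι → ℝ) : ℝ := ∑ x, ∑ e, (|α x e| + |β x e|)

lemma li2_lin (a : ι → ℝ) (z : ι → ℝ) : |lin a z| ≤ (∑ e, |a e|) * ‖z‖ := by
  unfold lin
  refine (Finset.abs_sum_le_sum_abs _ _).trans ?_
  rw [Finset.sum_mul]
  refine Finset.sum_le_sum fun e _ => ?_
  rw [abs_mul]
  exact mul_le_mul_of_nonneg_left (norm_le_pi_norm z e) (abs_nonneg _)

lemma li2_lin_sub (a : ι → ℝ) (z z' : ι → ℝ) : lin a z - lin a z' = lin a (z - z') := by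
  unfold lin
  rw [← Finset.sum_sub_distrib]
  exact Finset.sum_congr rfl fun e _ => by rw [Pi.sub_apply]; ring

lemma li2_R (α β : X → ι → ℝ) (x : X) (z : ι → ℝ) :
    |lin (α x) z| + |lin (β x) z| ≤ li2R α β * ‖z‖ := by
  have h1 := li2_lin (α x) z
  have h2 := li2_lin (β x) z
  have h3 : (∑ e, |α x e|) + ∑ e, |β x e| ≤ li2R α β := by
    rw [← Finset.sum_add_distrib]
    exact Finset.single_le_sum (f := fun x => ∑ e, (|α x e| + |β x e|))
      (fun x _ => Finset.sum_nonneg fun e _ => by positivity) (Finset.mem_univ x)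
  calc |lin (α x) z| + |lin (β x) z| ≤ ((∑ e, |α x e|) + ∑ e, |β x e|) * ‖z‖ := by
        rw [add_mul]; exact add_le_add h1 h2
    _ ≤ _ := mul_le_mul_of_nonneg_right h3 (norm_nonneg _)

lemma li2_R0 (α β : X → ι → ℝ) : 0 ≤ li2R α β :=
  Finset.sum_nonneg fun x _ => Finset.sum_nonneg fun e _ => by positivity

lemma li2_eg_norm : EG (fun z : ι → ℝ => ‖z‖) :=
  (show Lip (fun z : ι → ℝ => ‖z‖) from
    ⟨1, zero_le_one, fun y y' => by rw [one_mul]; exact abs_norm_sub_norm_le y y'⟩).eg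

lemma li2_eg_lin (a : ι → ℝ) : EG (fun z : ι → ℝ => lin a z) := by
  unfold lin
  exact EG.sum _ fun e _ => (EG.coord e).const_mul (a e)

/-- uniform Lipschitz constant of the interpolated energies -/
lemma li2_itlip (hS : S.RegD D) (hf : Pot f f' f'' C₁ C₂) (α β : X → ι → ℝ) :
    ∃ L : ℝ, ∀ θ x z z', |it S.H f α β θ z x - it S.H f α β θ z' x| ≤ L * ‖z - z'‖ := by
  choose L hL0 hL using hS.lip
  refine ⟨∑ x, L x + C₁ * li2R α β, fun θ x z z' => ?_⟩
  have hC1 := li2_C1 hf
  have h1 := hL x z z'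
  have h2 : L x ≤ ∑ x, L x := Finset.single_le_sum (fun x _ => hL0 x) (Finset.mem_univ x)
  have h3 := hf.lip (itU α β θ z x) (itU α β θ z' x)
  have h4 : |itU α β θ z x - itU α β θ z' x| ≤ li2R α β * ‖z - z'‖ := by
    have e1 : itU α β θ z x - itU α β θ z' x =
        Real.sin θ * lin (α x) (z - z') + Real.cos θ * lin (β x) (z - z') := by
      unfold itU
      rw [← li2_lin_sub, ← li2_lin_sub]
      ring
    rw [e1]
    calc |Real.sin θ * lin (α x) (z - z') + Real.cos θ * lin (β x) (z - z')|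
        ≤ |Real.sin θ * lin (α x) (z - z')| + |Real.cos θ * lin (β x) (z - z')| := abs_add_le _ _
      _ = |Real.sin θ| * |lin (α x) (z - z')| + |Real.cos θ| * |lin (β x) (z - z')| := by
          rw [abs_mul, abs_mul]
      _ ≤ 1 * |lin (α x) (z - z')| + 1 * |lin (β x) (z - z')| := by
          gcongr
          · exact Real.abs_sin_le_one θ
          · exact Real.abs_cos_le_one θ
      _ ≤ _ := by rw [one_mul, one_mul]; exact li2_R α β x (z - z')
  unfold it
  calc |S.H z x + f (itU α β θ z x) - (S.H z' x + f (itU α β θ z' x))|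
      = |(S.H z x - S.H z' x) + (f (itU α β θ z x) - f (itU α β θ z' x))| := by ring_nf
    _ ≤ |S.H z x - S.H z' x| + |f (itU α β θ z x) - f (itU α β θ z' x)| := abs_add_le _ _
    _ ≤ (∑ x, L x) * ‖z - z'‖ + C₁ * (li2R α β * ‖z - z'‖) := by
        refine add_le_add ?_ (h3.trans (mul_le_mul_of_nonneg_left h4 hC1))
        exact h1.trans (mul_le_mul_of_nonneg_right h2 (norm_nonneg _))
    _ = _ := by ring

/-- the quadratic remainder -/
noncomputable def li2M (C₁ C₂ : ℝ) (α β : X → ι → ℝ) (z : ι → ℝ) : ℝ :=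
  C₂ * (li2R α β * ‖z‖) ^ 2 + C₁ * (li2R α β * ‖z‖)

lemma li2_eg_M (C₁ C₂ : ℝ) (α β : X → ι → ℝ) : EG (li2M C₁ C₂ α β) :=
  (((li2_eg_norm.const_mul (li2R α β)).pow 2).const_mul C₂).add
    ((li2_eg_norm.const_mul (li2R α β)).const_mul C₁)

lemma li2_M0 (hf : Pot f f' f'' C₁ C₂) (α β : X → ι → ℝ) (z : ι → ℝ) :
    0 ≤ li2M C₁ C₂ α β z := by
  have h1 := li2_C1 hf
  have h2 := li2_C2 hf
  have h3 := li2_R0 α β
  unfold li2M
  positivity

/-- the remainder is uniformly bounded -/
lemma li2_ExM (hS : S.RegD D) (hf : Pot f f' f'' C₁ C₂) (α β : X → ι → ℝ) :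
    ∃ M₀ : ℝ, 0 ≤ M₀ ∧ ∀ θ, (S.wH (it S.H f α β θ)).Ex (fun z _ => li2M C₁ C₂ α β z) ≤ M₀ := by
  obtain ⟨L, hL⟩ := li2_itlip hS hf α β
  obtain ⟨C, a, hC, ha, hdn⟩ := dn_unif S hS.toReg L
  have heg := li2_eg_M C₁ C₂ α β
  have hexp : EG (fun z : ι → ℝ => C * Real.exp (a * ‖z‖)) := by
    refine EG.const_mul C ⟨by fun_prop, 1, a, zero_le_one, ha, fun y => ?_⟩
    rw [abs_of_pos (Real.exp_pos _), one_mul]
  refine ⟨∫ z, C * Real.exp (a * ‖z‖) * li2M C₁ C₂ α β z ∂(gI ι), ?_, fun θ => ?_⟩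
  · exact integral_nonneg fun z => mul_nonneg (by positivity) (li2_M0 hf α β z)
  · have hR := (regD_it (α := α) (β := β) hS hf θ).toReg
    unfold Sy.Ex
    have hav : ∀ z, (S.wH (it S.H f α β θ)).av (fun z _ => li2M C₁ C₂ α β z) z =
        li2M C₁ C₂ α β z := fun z => Sy.av_fst _ _ z
    simp only [hav]
    refine integral_mono ((hR.eg_dn (Nat.zero_le _)).mul heg).integrable
      (hexp.mul heg).integrable fun z => ?_
    exact mul_le_mul_of_nonneg_right (hdn _ hR (fun x z z' => hL θ x z z') 0 (Nat.zero_le _) z)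
      (li2_M0 hf α β z)

/-- one step of the interpolation -/
lemma li2_step (hS : S.RegD D) (hf : Pot f f' f'' C₁ C₂) (hs : Sep D α β) {M₀ : ℝ}
    (hM : ∀ θ, (S.wH (it S.H f α β θ)).Ex (fun z _ => li2M C₁ C₂ α β z) ≤ M₀) {t t' : ℝ}
    (htt : t ≤ t') :
    (S.wH (it S.H f α β t')).fe - (S.wH (it S.H f α β t)).fe ≤
      (t' - t) * (Real.sin t' * Real.cos t' * brk S f f' f'' α β t') + (t' - t) ^ 2 * M₀ := by
  have hR' := (regD_it (α := α) (β := β) hS hf t').toReg
  have hR := (regD_it (α := α) (β := β) hS hf t).toReg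
  have hRw : ((S.wH (it S.H f α β t')).wH (it S.H f α β t)).Reg := hR
  have h1 := hR'.jensen hRw
  have e1 : ((S.wH (it S.H f α β t')).wH (it S.H f α β t)).fe = (S.wH (it S.H f α β t)).fe := rfl
  rw [e1] at h1
  have hf'm := hf.measurable.2.1
  have hnF : Nh (fun z x => f' (itU α β t' z x) *
      (Real.cos t' * lin (α x) z - Real.sin t' * lin (β x) z)) := by
    intro x
    refine EG.mul ?_ (((li2_eg_lin (α x)).const_mul _).sub ((li2_eg_lin (β x)).const_mul _))
    refine EG.of_bdd (hf'm.comp ?_) (fun y => hf.b1 _)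
    unfold itU
    exact (((li2_eg_lin (α x)).const_mul _).add ((li2_eg_lin (β x)).const_mul _)).meas
  have hnM : Nh (fun (z : ι → ℝ) (_ : X) => li2M C₁ C₂ α β z) :=
    Sy.Nh.fst (li2_eg_M C₁ C₂ α β)
  have hnd := hR'.nh_diff hRw
  have h2 : (S.wH (it S.H f α β t')).Ex (fun z x => -((t' - t) * (f' (itU α β t' z x) *
      (Real.cos t' * lin (α x) z - Real.sin t' * lin (β x) z)) +
      (t' - t) ^ 2 * li2M C₁ C₂ α β z)) ≤
      (S.wH (it S.H f α β t')).Ex
        (fun z x => it S.H f α β t z x - (S.wH (it S.H f α β t')).H z x) := by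
    refine hR'.Ex_mono ?_ hnd ?_
    · have := Sy.Nh.const_mul (-1) (Sy.Nh.add (Sy.Nh.const_mul (t' - t) hnF)
        (Sy.Nh.const_mul ((t' - t) ^ 2) hnM))
      intro x
      have hx := this x
      simpa using hx
    · intro z x
      have h3 := li2_taylor hf (A := lin (α x) z) (B := lin (β x) z) htt (li2_R α β x z)
      have h4 : it S.H f α β t z x - (S.wH (it S.H f α β t')).H z x =
          -(f (Real.sin t' * lin (α x) z + Real.cos t' * lin (β x) z) -
            f (Real.sin t * lin (α x) z + Real.cos t * lin (β x) z)) := by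
        show it S.H f α β t z x - it S.H f α β t' z x = _
        unfold it itU
        ring
      rw [h4]
      have h5 : f' (itU α β t' z x) *
          (Real.cos t' * lin (α x) z - Real.sin t' * lin (β x) z) =
          f' (Real.sin t' * lin (α x) z + Real.cos t' * lin (β x) z) *
          (Real.cos t' * lin (α x) z - Real.sin t' * lin (β x) z) := rfl
      rw [h5]
      unfold li2M
      linarith
  have h6 : (S.wH (it S.H f α β t')).Ex (fun z x => -((t' - t) * (f' (itU α β t' z x) *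
      (Real.cos t' * lin (α x) z - Real.sin t' * lin (β x) z)) +
      (t' - t) ^ 2 * li2M C₁ C₂ α β z)) =
      -((t' - t) * (Real.sin t' * Real.cos t' * brk S f f' f'' α β t') + (t' - t) ^ 2 *
        (S.wH (it S.H f α β t')).Ex (fun z _ => li2M C₁ C₂ α β z)) := by
    have e2 : (fun (z : ι → ℝ) (x : X) => -((t' - t) * (f' (itU α β t' z x) *
      (Real.cos t' * lin (α x) z - Real.sin t' * lin (β x) z)) +
      (t' - t) ^ 2 * li2M C₁ C₂ α β z)) = fun z x => (-1) * ((t' - t) * (f' (itU α β t' z x) *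
      (Real.cos t' * lin (α x) z - Real.sin t' * lin (β x) z)) +
      (t' - t) ^ 2 * li2M C₁ C₂ α β z) := by funext z x; ring
    rw [e2, Sy.Ex_const_mul, hR'.Ex_add (Sy.Nh.const_mul _ hnF)
      (Sy.Nh.const_mul _ hnM), Sy.Ex_const_mul,
      Sy.Ex_const_mul, ex_deriv hS hf hs t']
    ring
  rw [h6] at h2
  have h7 := mul_le_mul_of_nonneg_left (hM t') (sq_nonneg (t' - t))
  linarith

/-- **Interpolation.** Proof: `fe θ' - fe θ ≤ Ex_θ' (H_θ' - H_θ)` by `Reg.jensen`, Taylor
(`|∂²_θ H| ≤ C (1 + ‖z‖²)`, uniform in `θ` by `dn_unif`), Riemann sums. -/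
theorem int_le (hS : S.RegD D) (hf : Pot f f' f'' C₁ C₂) (hs : Sep D α β) {b : ℝ}
    (hb : ∀ θ, 0 ≤ θ → θ ≤ Real.pi / 2 → brk S f f' f'' α β θ ≤ b) :
    (S.wH (it S.H f α β (Real.pi / 2))).fe - (S.wH (it S.H f α β 0)).fe ≤ b / 2 := by
  obtain ⟨M₀, hM0, hM⟩ := li2_ExM hS hf α β
  set g : ℝ → ℝ := fun t => (S.wH (it S.H f α β t)).fe with hg
  set h : ℝ → ℝ := fun t => g t - b / 2 * Real.sin t ^ 2 with hh
  have hpi := Real.pi_pos
  -- one step
  have step : ∀ t t', 0 ≤ t → t ≤ t' → t' ≤ Real.pi / 2 →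
      h t' - h t ≤ (M₀ + |b|) * (t' - t) ^ 2 := by
    intro t t' h0 htt h1
    have e1 := li2_step hS hf hs hM htt
    have hsc : 0 ≤ Real.sin t' * Real.cos t' :=
      mul_nonneg (Real.sin_nonneg_of_nonneg_of_le_pi (by linarith) (by linarith))
        (Real.cos_nonneg_of_mem_Icc ⟨by linarith, h1⟩)
    have e2 : (t' - t) * (Real.sin t' * Real.cos t' * brk S f f' f'' α β t') ≤
        (t' - t) * (Real.sin t' * Real.cos t' * b) :=
      mul_le_mul_of_nonneg_left
        (mul_le_mul_of_nonneg_left (hb t' (by linarith) h1) hsc) (by linarith)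
    -- the square of the sine
    have e3 : |(t' - t) * (Real.sin t' * Real.cos t') -
        1 / 2 * (Real.sin t' ^ 2 - Real.sin t ^ 2)| ≤ (t' - t) ^ 2 := by
      rcases htt.eq_or_lt with hlt | hlt
      · subst hlt; simp
      · have hd : ∀ s, HasDerivAt (fun s => 1 / 2 * Real.sin s ^ 2)
            (Real.sin s * Real.cos s) s := by
          intro s
          have h2 := ((Real.hasDerivAt_sin s).pow 2).const_mul (1 / 2)
          have h3 : Real.sin s * Real.cos s =
              1 / 2 * (((2 : ℕ) : ℝ) * Real.sin s ^ (2 - 1) * Real.cos s) := by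
            norm_num
            ring
          rw [h3]
          exact h2
        obtain ⟨ξ, hξ, hξ2⟩ := exists_hasDerivAt_eq_slope _ _ hlt
          (fun s _ => (hd s).continuousAt.continuousWithinAt) (fun s _ => hd s)
        rw [eq_div_iff (by linarith)] at hξ2
        have e4 : 1 / 2 * (Real.sin t' ^ 2 - Real.sin t ^ 2) =
            Real.sin ξ * Real.cos ξ * (t' - t) := by rw [hξ2]; ring
        rw [e4]
        have e5 : (t' - t) * (Real.sin t' * Real.cos t') - Real.sin ξ * Real.cos ξ * (t' - t) =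
            (t' - t) * (1 / 2 * (Real.sin (2 * t') - Real.sin (2 * ξ))) := by
          rw [Real.sin_two_mul, Real.sin_two_mul]; ring
        rw [e5, abs_mul, abs_of_nonneg (by linarith only [hlt] : 0 ≤ t' - t), sq]
        refine mul_le_mul_of_nonneg_left ?_ (by linarith only [hlt])
        rw [abs_mul, abs_of_pos (by norm_num : (0 : ℝ) < 1 / 2)]
        have e6 := li2_sin (2 * t') (2 * ξ)
        have e7 : |2 * t' - 2 * ξ| = 2 * (t' - ξ) := by
          rw [abs_of_nonneg (by linarith only [hξ.2])]; ring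
        rw [e7] at e6
        linarith only [hξ.1, e6]
    have e8 : b * ((t' - t) * (Real.sin t' * Real.cos t') -
        1 / 2 * (Real.sin t' ^ 2 - Real.sin t ^ 2)) ≤ |b| * (t' - t) ^ 2 := by
      refine (le_abs_self _).trans ?_
      rw [abs_mul]
      exact mul_le_mul_of_nonneg_left e3 (abs_nonneg _)
    simp only [hh, hg]
    linarith only [e8, e2, e1]
  -- Riemann sums
  have key : ∀ n : ℕ, 0 < n → h (Real.pi / 2) - h 0 ≤ (M₀ + |b|) * (Real.pi / 2) ^ 2 / n := by
    intro n hn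
    have hn' : (0 : ℝ) < n := by exact_mod_cast hn
    set δ := Real.pi / 2 / n with hδ
    have hδ0 : 0 ≤ δ := by positivity
    have hnδ : n * δ = Real.pi / 2 := by rw [hδ]; field_simp
    have ind : ∀ k : ℕ, k ≤ n → h (k * δ) - h 0 ≤ k * ((M₀ + |b|) * δ ^ 2) := by
      intro k
      induction k with
      | zero => intro _; simp
      | succ k ih =>
        intro hk
        have h1 := ih (by omega)
        have hk' : ((k + 1 : ℕ) : ℝ) ≤ n := by exact_mod_cast hk
        have h2 := step (k * δ) ((k + 1 : ℕ) * δ) (by positivity)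
          (by push_cast; linarith only [hδ0]) (by
            rw [← hnδ]; exact mul_le_mul_of_nonneg_right hk' hδ0)
        have h3 : ((k + 1 : ℕ) : ℝ) * δ - k * δ = δ := by push_cast; ring
        rw [h3] at h2
        push_cast at h2 ⊢
        linarith only [h2, h1]
    have h4 := ind n le_rfl
    rw [hnδ] at h4
    refine h4.trans (le_of_eq ?_)
    rw [hδ]
    field_simp
  have hle : h (Real.pi / 2) - h 0 ≤ 0 := by
    have hlim : Tendsto (fun n : ℕ => (M₀ + |b|) * (Real.pi / 2) ^ 2 / (n : ℝ)) atTop (𝓝 0) :=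
      tendsto_const_div_atTop_nhds_zero_nat _
    refine ge_of_tendsto hlim ?_
    filter_upwards [eventually_gt_atTop 0] with n hn
    exact key n hn
  simp only [hh, hg, Real.sin_pi_div_two, Real.sin_zero] at hle
  linarith

end Vale.Agent.P157.Lv
end

section

/-!
The step from the field of a pattern to a tree field.
-/

open MeasureTheory ProbabilityTheory Filter Topology

namespace Vale.Agent.P157.Lv

set_option linter.unusedSectionVars false

open Par (incr Path)

open Sy

variable {ι X : Type} [Fintype ι] [DecidableEq ι] [Fintype X] [DecidableEq X] [Nonempty X]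
  {S : Sy ι X} {D : ι → (ι → ℝ) → X → ℝ} {f f' f'' : ℝ → ℝ} {C₁ C₂ : ℝ} {α β : X → ι → ℝ}

/-! ### One pattern -/

variable {N : ℕ}

/-- The field of a pattern. -/
noncomputable def pf (φ : X → Fin N → ℝ) (g : Fin N → ι) (z : ι → ℝ) (x : X) : ℝ :=
  1 / √(N : ℝ) * ∑ i, φ x i * z (g i)

/-- The tree field with the path `R`. -/
noncomputable def tf (y : ℕ → ι) (K : ℕ) (R : ℕ → ℝ) (z : ι → ℝ) : ℝ :=
  ∑ l ∈ Finset.range (K + 1), √(incr R l) * z (y l)

/-- New coordinates for a pattern and for a tree field. -/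
structure NewC (S : Sy ι X) (D : ι → (ι → ℝ) → X → ℝ) (g : Fin N → ι) (y : ℕ → ι) : Prop where
  inj : Function.Injective g
  gl : ∀ i, S.lev (g i) = 0
  yl : ∀ l ≤ S.K, S.lev (y l) = l
  ne : ∀ i, ∀ l ≤ S.K, g i ≠ y l
  Dg : ∀ i z x, D (g i) z x = 0
  Dy : ∀ l ≤ S.K, ∀ z x, D (y l) z x = 0

theorem Sy.Reg.pairEx_pert_le (hS : S.Reg) {H' : (ι → ℝ) → X → ℝ} (hS' : (S.wH H').Reg) {B : ℝ}
    (hB : ∀ z x, |H' z x - S.H z x| ≤ B) {l : ℕ} (hl : l ≤ S.K) {ψ : X → X → ℝ}
    (h0 : ∀ x x', 0 ≤ ψ x x') :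
    (S.wH H').pairEx l ψ ≤ Real.exp (6 * B) * S.pairEx l ψ := by
  have hl' : l ≤ (S.wH H').K := hl
  have hpr : ∀ z x, (S.wH H').pr l z x ≤ Real.exp (2 * B) * S.pr l z x := by
    intro z x
    refine hS.T_pert_le hS' hB hl (Nh.snd fun y => if y = x then (1 : ℝ) else 0) ?_ z
    intro z y
    split_ifs <;> norm_num
  have h1 : (S.wH H').pairEx l ψ ≤
      (S.wH H').Ex (fun z _ => Real.exp (4 * B) *
        ∑ x, ∑ x', S.pr l z x * S.pr l z x' * ψ x x') := by
    refine hS'.Ex_mono (Nh.fst (hS'.nh_pair hl' ψ)) (Nh.fst ((hS.nh_pair hl ψ).const_mul _))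
      fun z _ => ?_
    rw [Finset.mul_sum]
    refine Finset.sum_le_sum fun x _ => ?_
    rw [Finset.mul_sum]
    refine Finset.sum_le_sum fun x' _ => ?_
    have e : Real.exp (4 * B) * (S.pr l z x * S.pr l z x' * ψ x x') =
        (Real.exp (2 * B) * S.pr l z x) * (Real.exp (2 * B) * S.pr l z x') * ψ x x' := by
      rw [show (4 : ℝ) * B = 2 * B + 2 * B by ring, Real.exp_add]
      ring
    rw [e]
    refine mul_le_mul_of_nonneg_right ?_ (h0 x x')
    exact mul_le_mul (hpr z x) (hpr z x') (hS'.pr_nonneg hl' z x')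
      (mul_nonneg (Real.exp_pos _).le (hS.pr_nonneg hl z x))
  refine h1.trans ?_
  have h2 := hS.Ex_pert_le hS' hB (h := fun z _ => Real.exp (4 * B) *
        ∑ x, ∑ x', S.pr l z x * S.pr l z x' * ψ x x') (Nh.fst ((hS.nh_pair hl ψ).const_mul _))
      (fun z _ => mul_nonneg (Real.exp_pos _).le (Finset.sum_nonneg fun x _ =>
        Finset.sum_nonneg fun x' _ => mul_nonneg (mul_nonneg (hS.pr_nonneg hl z x)
          (hS.pr_nonneg hl z x')) (h0 x x')))
  refine h2.trans (le_of_eq ?_)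
  rw [Sy.Ex_const_mul, Sy.pairEx, ← mul_assoc, ← Real.exp_add]
  congr 2
  ring

/-! ### The coefficients -/

/-- The coefficients of the field of the pattern. -/
noncomputable def li3a (φ : X → Fin N → ℝ) (g : Fin N → ι) (x : X) (e : ι) : ℝ :=
  ∑ i, if g i = e then φ x i / √(N : ℝ) else 0

/-- The coefficients of the tree field. -/
noncomputable def li3b (y : ℕ → ι) (K : ℕ) (R : ℕ → ℝ) (_ : X) (e : ι) : ℝ :=
  ∑ l ∈ Finset.range (K + 1), if y l = e then √(incr R l) else 0

lemma li3_lin_a (φ : X → Fin N → ℝ) (g : Fin N → ι) (x : X) (z : ι → ℝ) :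
    lin (li3a φ g x) z = pf φ g z x := by
  unfold lin li3a pf
  simp_rw [Finset.sum_mul]
  rw [Finset.sum_comm, Finset.mul_sum]
  refine Finset.sum_congr rfl fun i _ => ?_
  rw [Finset.sum_eq_single (g i)]
  · rw [if_pos rfl]
    ring
  · intro e _ he
    rw [if_neg (Ne.symm he), zero_mul]
  · intro h
    exact absurd (Finset.mem_univ _) h

lemma li3_lin_b (y : ℕ → ι) (K : ℕ) (R : ℕ → ℝ) (x : X) (z : ι → ℝ) :
    lin (li3b y K R x) z = tf y K R z := by
  unfold lin li3b tf
  simp_rw [Finset.sum_mul]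
  rw [Finset.sum_comm]
  refine Finset.sum_congr rfl fun l _ => ?_
  rw [Finset.sum_eq_single (y l)]
  · rw [if_pos rfl]
  · intro e _ he
    rw [if_neg (Ne.symm he), zero_mul]
  · intro h
    exact absurd (Finset.mem_univ _) h

lemma li3a_g {φ : X → Fin N → ℝ} {g : Fin N → ι} (hg : Function.Injective g) (x : X)
    (i : Fin N) : li3a φ g x (g i) = φ x i / √(N : ℝ) := by
  unfold li3a
  rw [Finset.sum_eq_single i]
  · rw [if_pos rfl]
  · intro j _ hj
    rw [if_neg fun h => hj (hg h)]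
  · intro h
    exact absurd (Finset.mem_univ _) h

lemma li3a_ne {φ : X → Fin N → ℝ} {g : Fin N → ι} {x : X} {e : ι} (h : li3a φ g x e ≠ 0) :
    ∃ i, g i = e := by
  by_contra hc
  push Not at hc
  apply h
  unfold li3a
  exact Finset.sum_eq_zero fun i _ => if_neg (hc i)

lemma li3b_y {y : ℕ → ι} {K : ℕ} (hy : ∀ l ≤ K, ∀ l' ≤ K, y l = y l' → l = l') (R : ℕ → ℝ)
    (x : X) {l : ℕ} (hl : l ≤ K) : li3b y K R x (y l) = √(incr R l) := by
  unfold li3b
  rw [Finset.sum_eq_single l]
  · rw [if_pos rfl]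
  · intro j hj hne
    rw [if_neg fun h => hne (hy j (by simpa [Nat.lt_succ_iff] using hj) l hl h)]
  · intro h
    exact absurd (Finset.mem_range.2 (Nat.lt_succ_of_le hl)) h

lemma li3b_ne {y : ℕ → ι} {K : ℕ} {R : ℕ → ℝ} {x : X} {e : ι} (h : li3b y K R x e ≠ 0) :
    ∃ l ≤ K, y l = e := by
  by_contra hc
  push Not at hc
  apply h
  unfold li3b
  refine Finset.sum_eq_zero fun l hl => if_neg (hc l ?_)
  simpa [Nat.lt_succ_iff] using hl

/-- Sums over the new coordinates of the pattern. -/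
lemma li3_sum_a {φ : X → Fin N → ℝ} {g : Fin N → ι} (hg : Function.Injective g)
    {Q : (X → ℝ) → ℝ} (hQ : Q (fun _ => 0) = 0) {P : ι → Prop} [DecidablePred P]
    (hP : ∀ i, P (g i)) :
    ∑ e, (if P e then Q (fun x => li3a φ g x e) else 0) =
      ∑ i, Q (fun x => φ x i / √(N : ℝ)) := by
  have h1 : ∑ i, Q (fun x => φ x i / √(N : ℝ)) =
      ∑ i, (fun e => if P e then Q (fun x => li3a φ g x e) else 0) (g i) := by
    refine Finset.sum_congr rfl fun i _ => ?_
    simp only [hP i, if_true, li3a_g hg]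
  rw [h1]
  symm
  have h2 := Finset.sum_image (s := (Finset.univ : Finset (Fin N))) (g := g)
    (f := fun e => if P e then Q (fun x => li3a φ g x e) else 0) (fun i _ j _ h => hg h)
  rw [← h2]
  refine Finset.sum_subset (Finset.subset_univ _) fun e _ he => ?_
  have h3 : (fun x => li3a φ g x e) = fun _ => 0 := by
    funext x
    by_contra hc
    obtain ⟨i, hi⟩ := li3a_ne hc
    exact he (Finset.mem_image.2 ⟨i, Finset.mem_univ _, hi⟩)
  rw [h3, hQ, ite_self]

/-- Sums over the new coordinates of the tree field. -/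
lemma li3_sum_b {y : ℕ → ι} {K : ℕ} (hy : ∀ l ≤ K, ∀ l' ≤ K, y l = y l' → l = l') (R : ℕ → ℝ)
    {Q : (X → ℝ) → ℝ} (hQ : Q (fun _ => 0) = 0) {P : ι → Prop} [DecidablePred P] {k : ℕ}
    (hk : k ≤ K) (hP : ∀ l ≤ K, (P (y l) ↔ l ≤ k)) :
    ∑ e, (if P e then Q (fun x => li3b y K R x e) else 0) =
      ∑ l ∈ Finset.range (k + 1), Q (fun _ => √(incr R l)) := by
  have h1 : ∑ l ∈ Finset.range (k + 1), Q (fun _ : X => √(incr R l)) =
      ∑ l ∈ Finset.range (k + 1), (fun e => if P e then Q (fun x => li3b y K R x e) else 0)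
        (y l) := by
    refine Finset.sum_congr rfl fun l hl => ?_
    have hl1 : l ≤ k := by simpa [Nat.lt_succ_iff] using hl
    have hl2 : l ≤ K := hl1.trans hk
    simp only [(hP l hl2).2 hl1, if_true, li3b_y hy R _ hl2]
  rw [h1]
  symm
  have h2 := Finset.sum_image (s := Finset.range (k + 1)) (g := y)
    (f := fun e => if P e then Q (fun x => li3b y K R x e) else 0) (fun i hi j hj h => by
      have hi1 : i ≤ k := by simpa [Nat.lt_succ_iff] using hi
      have hj1 : j ≤ k := by simpa [Nat.lt_succ_iff] using hj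
      exact hy i (hi1.trans hk) j (hj1.trans hk) h)
  rw [← h2]
  refine Finset.sum_subset (Finset.subset_univ _) fun e _ he => ?_
  by_cases hPe : P e
  · have h3 : (fun x : X => li3b y K R x e) = fun _ => 0 := by
      funext x
      by_contra hc
      obtain ⟨l, hl, hi⟩ := li3b_ne hc
      refine he (Finset.mem_image.2 ⟨l, ?_, hi⟩)
      rw [← hi] at hPe
      exact Finset.mem_range.2 (Nat.lt_succ_of_le ((hP l hl).1 hPe))
    rw [h3, hQ, ite_self]
  · rw [if_neg hPe]

lemma li3_sum_incr (R : ℕ → ℝ) (k : ℕ) : ∑ l ∈ Finset.range (k + 1), incr R l = R k := by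
  induction k with
  | zero => simp [Par.incr_zero_def]
  | succ k ih => rw [Finset.sum_range_succ, ih, Par.incr_succ_def]; ring

lemma li3_incr_nonneg {K : ℕ} {R : ℕ → ℝ} (hR : Path K R) {l : ℕ} (hl : l ≤ K) :
    0 ≤ incr R l := by
  cases l with
  | zero => exact hR.1
  | succ l => exact sub_nonneg.2 (hR.2 l hl)

/-- The tilted average of an observable in terms of the averages of its restrictions to the
points. -/
lemma li3_T {S : Sy ι X} (hS : S.Reg) {l : ℕ} (hl : l ≤ S.K) {h : (ι → ℝ) → X → ℝ} (hh : Nh h)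
    (a : X → ℝ) (z : ι → ℝ) :
    S.T l (fun z x => h z x * a x) z =
      ∑ y, S.T l (fun z x => h z x * (if x = y then 1 else 0)) z * a y := by
  have e : (fun (z : ι → ℝ) (x : X) => h z x * a x) =
      fun z x => ∑ y, a y * (h z x * (if x = y then 1 else 0)) := by
    funext z x
    rw [Finset.sum_eq_single x]
    · rw [if_pos rfl]
      ring
    · intro y _ hy
      rw [if_neg (Ne.symm hy)]
      ring
    · intro h
      exact absurd (Finset.mem_univ _) h
  have hn : ∀ y : X, Nh fun (z : ι → ℝ) (x : X) => h z x * (if x = y then 1 else 0) :=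
    fun y => Nh.mul hh (Nh.snd fun x => if x = y then (1 : ℝ) else 0)
  rw [e, hS.T_sum hl _ fun y _ => Nh.const_mul _ (hn y)]
  refine Finset.sum_congr rfl fun y _ => ?_
  rw [Sy.T_const_mul, mul_comm]

/-- The bound of the bracket at one level. -/
lemma li3_level {S : Sy ι X} (hS : S.Reg) {l : ℕ} (hl : l ≤ S.K) {h : (ι → ℝ) → X → ℝ}
    (hh : Nh h) {C : ℝ} (hC : ∀ z x, |h z x| ≤ C) {φ : X → Fin N → ℝ} (hN : 0 < N)
    {R : ℕ → ℝ} (hR : Path S.K R) :
    ∑ k ∈ Finset.range (l + 1), S.Ex (fun z _ => S.T l (fun z x => h z x * √(incr R k)) z ^ 2) -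
      ∑ i, S.Ex (fun z _ => S.T l (fun z x => h z x * (φ x i / √(N : ℝ))) z ^ 2) ≤
      C ^ 2 * S.pairEx l (fun x x' => |Rov φ x x' - R l|) := by
  set c : (ι → ℝ) → X → ℝ := fun z y => S.T l (fun z x => h z x * (if x = y then 1 else 0)) z
    with hc
  have hC0 : 0 ≤ C := (abs_nonneg _).trans (hC 0 (Classical.arbitrary X))
  have hn : ∀ y : X, Nh fun (z : ι → ℝ) (x : X) => h z x * (if x = y then 1 else 0) :=
    fun y => Nh.mul hh (Nh.snd fun x => if x = y then (1 : ℝ) else 0)
  have hcE : ∀ y, EG fun z => c z y := fun y => hS.eg_T hl (hn y)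
  have hcb : ∀ z y, |c z y| ≤ C * S.pr l z y := by
    intro z y
    have hb : ∀ (z : ι → ℝ) (x : X), |h z x * (if x = y then 1 else 0)| ≤
        C * (if x = y then 1 else 0) := by
      intro z x
      split_ifs
      · simpa using hC z x
      · simp
    have hn1 : Nh fun (_ : ι → ℝ) (x : X) => C * (if x = y then (1 : ℝ) else 0) :=
      Nh.snd fun x => C * (if x = y then (1 : ℝ) else 0)
    have e1 : S.T l (fun _ x => C * (if x = y then (1 : ℝ) else 0)) z = C * S.pr l z y :=
      Sy.T_const_mul S l C _ z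
    rw [abs_le, ← e1]
    constructor
    · have h2 := hS.T_mono hl (f := fun _ x => (-1) * (C * (if x = y then (1 : ℝ) else 0)))
        (g := fun z x => h z x * (if x = y then 1 else 0)) (Nh.const_mul (-1) hn1) (hn y)
        (fun z x => by
          have := (abs_le.1 (hb z x)).1
          linarith) z
      rw [Sy.T_const_mul] at h2
      linarith
    · exact hS.T_mono hl (hn y) hn1 (fun z x => (abs_le.1 (hb z x)).2) z
  have hT : ∀ (a : X → ℝ) z, S.T l (fun z x => h z x * a x) z = ∑ y, c z y * a y :=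
    fun a z => li3_T hS hl hh a z
  have hTE : ∀ (a : X → ℝ), Nh (X := X) fun z _ => S.T l (fun z x => h z x * a x) z ^ 2 :=
    fun a => Nh.pow (Nh.fst (hS.eg_T hl (Nh.mul hh (Nh.snd a)))) 2
  rw [← hS.Ex_sum _ (fun k _ => hTE fun _ => √(incr R k)),
    ← hS.Ex_sum _ (fun i _ => hTE fun x => φ x i / √(N : ℝ)),
    ← hS.Ex_sub (Nh.sum _ fun k _ => hTE fun _ => √(incr R k))
      (Nh.sum _ fun i _ => hTE fun x => φ x i / √(N : ℝ))]
  have hpE := (hS.nh_pair hl (fun x x' => |Rov φ x x' - R l|)).const_mul (C ^ 2)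
  rw [Sy.pairEx, ← Sy.Ex_const_mul]
  refine hS.Ex_mono (Nh.sub (Nh.sum _ fun k _ => hTE fun _ => √(incr R k))
      (Nh.sum _ fun i _ => hTE fun x => φ x i / √(N : ℝ))) (Nh.fst hpE) fun z _ => ?_
  have hNpos : (0 : ℝ) < N := by exact_mod_cast hN
  have e2 : ∑ k ∈ Finset.range (l + 1), S.T l (fun z x => h z x * √(incr R k)) z ^ 2 =
      ∑ x, ∑ x', c z x * c z x' * R l := by
    have e3 : ∀ k ∈ Finset.range (l + 1), S.T l (fun z x => h z x * √(incr R k)) z ^ 2 =
        incr R k * (∑ x, ∑ x', c z x * c z x') := by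
      intro k hk
      have hk1 : k ≤ l := by simpa [Nat.lt_succ_iff] using hk
      rw [hT (fun _ => √(incr R k)) z, ← Finset.sum_mul, mul_pow,
        Real.sq_sqrt (li3_incr_nonneg hR (hk1.trans hl)), sq, Finset.sum_mul_sum]
      ring
    rw [Finset.sum_congr rfl e3, ← Finset.sum_mul, li3_sum_incr, Finset.mul_sum]
    refine Finset.sum_congr rfl fun x _ => ?_
    rw [Finset.mul_sum]
    refine Finset.sum_congr rfl fun x' _ => ?_
    ring
  have e4 : ∑ i, S.T l (fun z x => h z x * (φ x i / √(N : ℝ))) z ^ 2 =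
      ∑ x, ∑ x', c z x * c z x' * Rov φ x x' := by
    have e5 : ∀ i : Fin N, S.T l (fun z x => h z x * (φ x i / √(N : ℝ))) z ^ 2 =
        ∑ x, ∑ x', c z x * c z x' * (1 / N * (φ x i * φ x' i)) := by
      intro i
      rw [hT (fun x => φ x i / √(N : ℝ)) z, sq, Finset.sum_mul_sum]
      refine Finset.sum_congr rfl fun x _ => Finset.sum_congr rfl fun x' _ => ?_
      have h3 : √(N : ℝ) * √(N : ℝ) = N := Real.mul_self_sqrt hNpos.le
      have h4 : √(N : ℝ) ≠ 0 := (Real.sqrt_pos.2 hNpos).ne'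
      field_simp
      rw [sq, h3]
      ring
    simp_rw [e5]
    rw [Finset.sum_comm]
    refine Finset.sum_congr rfl fun x _ => ?_
    rw [Finset.sum_comm]
    refine Finset.sum_congr rfl fun x' _ => ?_
    unfold Rov
    rw [← Finset.mul_sum, ← Finset.mul_sum]
  rw [e2, e4, ← Finset.sum_sub_distrib, Finset.mul_sum]
  refine Finset.sum_le_sum fun x _ => ?_
  rw [← Finset.sum_sub_distrib, Finset.mul_sum]
  refine Finset.sum_le_sum fun x' _ => ?_
  have h5 : c z x * c z x' * R l - c z x * c z x' * Rov φ x x' =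
      -(c z x * c z x' * (Rov φ x x' - R l)) := by ring
  rw [h5]
  refine (neg_le_abs _).trans ?_
  rw [abs_mul, abs_mul]
  have h6 : |c z x| * |c z x'| ≤ (C * S.pr l z x) * (C * S.pr l z x') :=
    mul_le_mul (hcb z x) (hcb z x') (abs_nonneg _)
      (mul_nonneg hC0 (hS.pr_nonneg hl z x))
  refine (mul_le_mul_of_nonneg_right h6 (abs_nonneg _)).trans (le_of_eq ?_)
  ring

/-- **One pattern.** Proof: `int_le` with `α x e = φ x i / √N` if `e = g i` and
`β x e = √(incr R l)` if `e = y l`; both have square sum `1`; with `c_x = T_l (f'(u) 1_x)`,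
`|c_x| ≤ C₁ pr l x`, the bracket is `-∑_l p_l Ex_θ ∑_{x,x'} c_x c_{x'} (Rov x x' - R l)`. -/
theorem pattern_step {φ : X → Fin N → ℝ} {zc : ℕ → Fin N → ι} {s : ℕ → ℝ}
    (F : Fld S D φ zc s) {g : Fin N → ι} {y : ℕ → ι} (hn : NewC S D g y)
    (hf : Pot f f' f'' C₁ C₂) {B : ℝ} (hB : ∀ x, |f x| ≤ B) {R : ℕ → ℝ} (hR : Path S.K R)
    (hR1 : R S.K = 1) :
    (S.wH fun z x => S.H z x + f (pf φ g z x)).fe -
      (S.wH fun z x => S.H z x + f (tf y S.K R z)).fe ≤
      1 / 2 * C₁ ^ 2 * Real.exp (6 * B) *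
        ∑ l ∈ Finset.range (S.K + 1), S.p l * S.pairEx l (fun x x' => |Rov φ x x' - R l|) := by
  have hS := F.hreg
  have hNpos := F.N_pos
  have hyi : ∀ l ≤ S.K, ∀ l' ≤ S.K, y l = y l' → l = l' := by
    intro l hl l' hl' h
    rw [← hn.yl l hl, ← hn.yl l' hl', h]
  have hP : ∀ l ≤ S.K, 0 ≤ S.p l := fun l hl => sub_nonneg.2 (hS.mono l hl)
  -- the square sums
  have ha : ∀ x, ∑ e, li3a φ g x e ^ 2 = 1 := by
    intro x
    have h := li3_sum_a (φ := φ) (g := g) hn.inj (Q := fun a : X → ℝ => a x ^ 2) (by simp)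
      (P := fun _ => True) (fun _ => trivial)
    simp only [if_true] at h
    rw [h]
    simp_rw [div_pow, Real.sq_sqrt hNpos.le]
    rw [← Finset.sum_div, F.norm x]
    exact div_self hNpos.ne'
  have hb : ∀ x : X, ∑ e, li3b y S.K R x e ^ 2 = 1 := by
    intro x
    have h := li3_sum_b (y := y) (K := S.K) hyi R (Q := fun a : X → ℝ => a x ^ 2) (by simp)
      (P := fun _ => True) (le_refl S.K) (fun l hl => ⟨fun _ => hl, fun _ => trivial⟩)
    simp only [if_true] at h
    rw [h]
    have e : ∀ l ∈ Finset.range (S.K + 1), √(incr R l) ^ 2 = incr R l := fun l hl =>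
      Real.sq_sqrt (li3_incr_nonneg hR (by simpa [Nat.lt_succ_iff] using hl))
    rw [Finset.sum_congr rfl e, li3_sum_incr, hR1]
  -- separation
  have hs : Sep D (li3a φ g) (li3b (X := X) y S.K R) := by
    constructor
    · intro e x x'
      by_contra hc
      obtain ⟨i, hi⟩ := li3a_ne (left_ne_zero_of_mul hc)
      obtain ⟨l, hl, hl'⟩ := li3b_ne (right_ne_zero_of_mul hc)
      exact hn.ne i l hl (hi.trans hl'.symm)
    · intro e x hx z x'
      rcases hx with hx | hx
      · obtain ⟨i, hi⟩ := li3a_ne hx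
        rw [← hi]
        exact hn.Dg i z x'
      · obtain ⟨l, hl, hl'⟩ := li3b_ne hx
        rw [← hl']
        exact hn.Dy l hl z x'
  set b : ℝ := C₁ ^ 2 * Real.exp (6 * B) *
        ∑ l ∈ Finset.range (S.K + 1), S.p l * S.pairEx l (fun x x' => |Rov φ x x' - R l|)
    with hbdef
  have key : ∀ θ, 0 ≤ θ → θ ≤ Real.pi / 2 →
      brk S f f' f'' (li3a φ g) (li3b (X := X) y S.K R) θ ≤ b := by
    intro θ _ _
    obtain ⟨H', hH'⟩ : ∃ H', H' = it S.H f (li3a φ g) (li3b (X := X) y S.K R) θ := ⟨_, rfl⟩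
    have hS' : (S.wH H').Reg := by
      rw [hH']
      exact (regD_it F.reg hf θ).toReg
    have hH'B : ∀ z x, |H' z x - S.H z x| ≤ B := by
      intro z x
      rw [hH', it, add_sub_cancel_left]
      exact hB _
    have hmu : ∀ x, Measurable fun z => itU (li3a φ g) (li3b (X := X) y S.K R) θ z x := by
      intro x
      unfold itU lin
      exact ((Finset.measurable_sum _ fun e _ =>
        (measurable_pi_apply e).const_mul _).const_mul _).add
        ((Finset.measurable_sum _ fun e _ => (measurable_pi_apply e).const_mul _).const_mul _)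
    have hh : Nh fun z x => f' (itU (li3a φ g) (li3b (X := X) y S.K R) θ z x) := fun x =>
      EG.of_bdd (hf.measurable.2.1.comp (hmu x)) fun z => hf.b1 _
    unfold brk
    rw [← hH']
    have z1 : (S.wH H').Ex (fun z x => (f'' (itU (li3a φ g) (li3b (X := X) y S.K R) θ z x) +
        f' (itU (li3a φ g) (li3b (X := X) y S.K R) θ z x) ^ 2) *
        (∑ e, li3a φ g x e ^ 2 - ∑ e, li3b (X := X) y S.K R x e ^ 2)) = 0 := by
      have e : (fun (z : ι → ℝ) (x : X) =>
          (f'' (itU (li3a φ g) (li3b (X := X) y S.K R) θ z x) +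
            f' (itU (li3a φ g) (li3b (X := X) y S.K R) θ z x) ^ 2) *
          (∑ e, li3a φ g x e ^ 2 - ∑ e, li3b (X := X) y S.K R x e ^ 2)) = fun _ _ => 0 := by
        funext z x
        rw [ha, hb, sub_self, mul_zero]
      rw [e, hS'.Ex_const]
    rw [z1, zero_sub, ← Finset.sum_neg_distrib, hbdef, Finset.mul_sum]
    refine Finset.sum_le_sum fun l hl => ?_
    have hl1 : l ≤ S.K := by simpa [Nat.lt_succ_iff] using hl
    have hl2 : l ≤ (S.wH H').K := hl1
    set h : (ι → ℝ) → X → ℝ := fun z x => f' (itU (li3a φ g) (li3b (X := X) y S.K R) θ z x)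
      with hhdef
    have s1 := li3_sum_a (φ := φ) (g := g) hn.inj
      (Q := fun a : X → ℝ => (S.wH H').Ex (fun z _ => (S.wH H').T l (fun z x => h z x * a x) z ^ 2))
      (by
        have e : (fun (z : ι → ℝ) (_ : X) =>
            (S.wH H').T l (fun z x => h z x * (fun _ => (0 : ℝ)) x) z ^ 2) = fun _ _ => 0 := by
          funext z _
          simp only [mul_zero]
          rw [hS'.T_const hl2]
          norm_num
        rw [e, hS'.Ex_const])
      (P := fun e => S.lev e ≤ l) (fun i => by rw [hn.gl i]; exact Nat.zero_le _)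
    have s2 := li3_sum_b (y := y) (K := S.K) hyi R
      (Q := fun a : X → ℝ => (S.wH H').Ex (fun z _ => (S.wH H').T l (fun z x => h z x * a x) z ^ 2))
      (by
        have e : (fun (z : ι → ℝ) (_ : X) =>
            (S.wH H').T l (fun z x => h z x * (fun _ => (0 : ℝ)) x) z ^ 2) = fun _ _ => 0 := by
          funext z _
          simp only [mul_zero]
          rw [hS'.T_const hl2]
          norm_num
        rw [e, hS'.Ex_const])
      (P := fun e => S.lev e ≤ l) hl1 (fun k hk => by rw [hn.yl k hk])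
    have s3 : (∑ e, if S.lev e ≤ l then
        ((S.wH H').Ex (fun z _ => (S.wH H').T l (fun z x => h z x * li3a φ g x e) z ^ 2) -
        (S.wH H').Ex (fun z _ => (S.wH H').T l (fun z x => h z x * li3b (X := X) y S.K R x e) z ^ 2))
        else 0) =
        ∑ i, (S.wH H').Ex (fun z _ => (S.wH H').T l (fun z x => h z x * (φ x i / √(N : ℝ))) z ^ 2) -
        ∑ k ∈ Finset.range (l + 1),
          (S.wH H').Ex (fun z _ => (S.wH H').T l (fun z x => h z x * √(incr R k)) z ^ 2) := by
      rw [← s1, ← s2, ← Finset.sum_sub_distrib]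
      refine Finset.sum_congr rfl fun e _ => ?_
      split_ifs
      · rfl
      · rw [sub_zero]
    have s4 := li3_level hS' hl2 hh (fun z x => hf.b1 _) (φ := φ) F.N0
      (R := R) (show Path (S.wH H').K R from hR)
    have s5 := hS.pairEx_pert_le hS' hH'B hl1 (ψ := fun x x' => |Rov φ x x' - R l|)
      (fun x x' => abs_nonneg _)
    have s6 : -(S.p l * ∑ e, if S.lev e ≤ l then
        ((S.wH H').Ex (fun z _ => (S.wH H').T l (fun z x => h z x * li3a φ g x e) z ^ 2) -
        (S.wH H').Ex (fun z _ => (S.wH H').T l (fun z x => h z x * li3b (X := X) y S.K R x e) z ^ 2))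
        else 0) ≤ S.p l * (C₁ ^ 2 * (Real.exp (6 * B) *
          S.pairEx l (fun x x' => |Rov φ x x' - R l|))) := by
      rw [s3, ← mul_neg, neg_sub]
      refine mul_le_mul_of_nonneg_left ?_ (hP l hl1)
      refine s4.trans ?_
      exact mul_le_mul_of_nonneg_left s5 (sq_nonneg _)
    refine s6.trans (le_of_eq ?_)
    ring
  have hfin := int_le F.reg hf hs key
  have e1 : it S.H f (li3a φ g) (li3b (X := X) y S.K R) (Real.pi / 2) =
      fun z x => S.H z x + f (pf φ g z x) := by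
    funext z x
    rw [it, itU, Real.sin_pi_div_two, Real.cos_pi_div_two, one_mul, zero_mul, add_zero,
      li3_lin_a]
  have e2 : it S.H f (li3a φ g) (li3b (X := X) y S.K R) 0 =
      fun z x => S.H z x + f (tf y S.K R z) := by
    funext z x
    rw [it, itU, Real.sin_zero, Real.cos_zero, one_mul, zero_mul, zero_add, li3_lin_b]
  rw [e1, e2] at hfin
  refine hfin.trans (le_of_eq ?_)
  rw [hbdef]
  ring

end Vale.Agent.P157.Lv
end

section

/-!
Tensorization of the spin cascade (module U of the Parisi plan).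
-/

open MeasureTheory ProbabilityTheory Filter Topology

namespace Vale.Agent.P157.Par

variable {N : ℕ}

/-- Lipschitz functions of one real variable. -/
def Lip1 (F : ℝ → ℝ) : Prop := ∃ L : ℝ, 0 ≤ L ∧ ∀ x x', |F x - F x'| ≤ L * |x - x'|

lemma Lip1.continuous {F : ℝ → ℝ} (h : Lip1 F) : Continuous F := by
  obtain ⟨L, hL, h⟩ := h
  refine (LipschitzWith.of_dist_le_mul (K := ⟨L, hL⟩) fun y y' => ?_).continuous
  rw [Real.dist_eq, Real.dist_eq]; exact h y y'

lemma integrable_exp_abs (a : ℝ) :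
    Integrable (fun x : ℝ => Real.exp (a * |x|)) (gaussianReal 0 1) :=
  ProbabilityTheory.integrable_exp_mul_abs (X := fun x => x) (t := a)
    (by simpa using integrable_exp_mul_gaussianReal (μ := 0) (v := 1) a)
    (by simpa using integrable_exp_mul_gaussianReal (μ := 0) (v := 1) (-a))

lemma Lip1.abs_le {F : ℝ → ℝ} {L : ℝ} (_hL : 0 ≤ L) (h : ∀ x x', |F x - F x'| ≤ L * |x - x'|)
    (x s z : ℝ) : |F (x + s * z)| ≤ |F x| + L * |s| * |z| := by
  have h1 := h (x + s * z) x
  rw [add_sub_cancel_left, abs_mul] at h1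
  calc |F (x + s * z)| = |(F (x + s * z) - F x) + F x| := by ring_nf
    _ ≤ |F (x + s * z) - F x| + |F x| := abs_add_le _ _
    _ ≤ _ := by linarith

lemma Lip1.integrable {F : ℝ → ℝ} (h : Lip1 F) (x s : ℝ) :
    Integrable (fun z => F (x + s * z)) (gaussianReal 0 1) := by
  obtain ⟨L, hL, hl⟩ := id h
  have hz : Integrable (fun z : ℝ => z) (gaussianReal 0 1) :=
    (memLp_id_gaussianReal 1).integrable le_rfl
  refine ((integrable_const |F x|).add (hz.abs.const_mul (L * |s|))).mono'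
    (h.continuous.comp (by fun_prop)).aestronglyMeasurable (Filter.Eventually.of_forall fun z => ?_)
  rw [Real.norm_eq_abs]
  exact Lip1.abs_le hL hl x s z

lemma Lip1.integrable_exp {F : ℝ → ℝ} (h : Lip1 F) (m x s : ℝ) :
    Integrable (fun z => Real.exp (m * F (x + s * z))) (gaussianReal 0 1) := by
  obtain ⟨L, hL, hl⟩ := id h
  refine ((integrable_exp_abs (|m| * (L * |s|))).const_mul (Real.exp (|m| * |F x|))).mono'
    ((Real.continuous_exp.comp (continuous_const.mul
      (h.continuous.comp (by fun_prop)))).aestronglyMeasurable)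
    (Filter.Eventually.of_forall fun z => ?_)
  rw [Real.norm_eq_abs, abs_of_pos (Real.exp_pos _), ← Real.exp_add, Real.exp_le_exp]
  have h1 := Lip1.abs_le hL hl x s z
  calc m * F (x + s * z) ≤ |m * F (x + s * z)| := le_abs_self _
    _ = |m| * |F (x + s * z)| := abs_mul _ _
    _ ≤ |m| * (|F x| + L * |s| * |z|) := mul_le_mul_of_nonneg_left h1 (abs_nonneg m)
    _ = _ := by ring

lemma Lip1.int_exp_pos {F : ℝ → ℝ} (h : Lip1 F) (m x s : ℝ) :
    0 < ∫ z, Real.exp (m * F (x + s * z)) ∂(gaussianReal 0 1) :=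
  integral_exp_pos (h.integrable_exp m x s)

lemma Lip1.gstep {F : ℝ → ℝ} (h : Lip1 F) {m : ℝ} (hm : 0 < m) (v : ℝ) : Lip1 (gstep m v F) := by
  obtain ⟨L, hL, hl⟩ := id h
  have key : ∀ y y', Par.gstep m v F y ≤ Par.gstep m v F y' + L * |y - y'| := by
    intro y y'
    unfold Par.gstep
    have h1 : ∫ z, Real.exp (m * F (y + √v * z)) ∂(gaussianReal 0 1) ≤
        Real.exp (m * (L * |y - y'|)) * ∫ z, Real.exp (m * F (y' + √v * z)) ∂(gaussianReal 0 1) := by
      rw [← integral_const_mul]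
      refine integral_mono (h.integrable_exp m y (√v))
        ((h.integrable_exp m y' (√v)).const_mul _) fun z => ?_
      dsimp only
      rw [← Real.exp_add, Real.exp_le_exp, ← mul_add]
      refine mul_le_mul_of_nonneg_left ?_ hm.le
      have := (_root_.abs_le.1 (hl (y + √v * z) (y' + √v * z))).2
      rw [add_sub_add_right_eq_sub] at this
      linarith
    have h2 := Real.log_le_log (h.int_exp_pos m y (√v)) h1
    rw [Real.log_mul (Real.exp_pos _).ne' (h.int_exp_pos m y' (√v)).ne', Real.log_exp] at h2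
    calc 1 / m * Real.log (∫ z, Real.exp (m * F (y + √v * z)) ∂(gaussianReal 0 1)) ≤
        1 / m * (m * (L * |y - y'|) +
          Real.log (∫ z, Real.exp (m * F (y' + √v * z)) ∂(gaussianReal 0 1))) :=
          mul_le_mul_of_nonneg_left h2 (by positivity)
      _ = _ := by field_simp; ring
  refine ⟨L, hL, fun y y' => _root_.abs_le.2 ⟨?_, ?_⟩⟩
  · have := key y' y
    rw [abs_sub_comm] at this
    linarith
  · have := key y y'
    linarith

/-- One cascade step of a sum of functions of the coordinates. -/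
lemma gstepN_sum {F : ℝ → ℝ} (hF : Lip1 F) (m v : ℝ) :
    gstepN (N := N) m v (fun y => ∑ i, F (y i)) = fun y => ∑ i, gstep m v F (y i) := by
  funext y
  unfold gstepN gstep
  have h1 : ∀ z : Fin N → ℝ, Real.exp (m * ∑ i, F ((y + √v • z) i)) =
      ∏ i, Real.exp (m * F (y i + √v * z i)) := by
    intro z
    rw [← Real.exp_sum, Finset.mul_sum]
    simp
  simp only [h1]
  rw [integral_fintype_prod_eq_prod (fun (i : Fin N) (x : ℝ) => Real.exp (m * F (y i + √v * x))),
    Real.log_prod (fun i _ => (hF.int_exp_pos m (y i) (√v)).ne'), Finset.mul_sum]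

lemma topN_sum {m r : ℕ → ℝ} {l : ℕ} (hm : ∀ j < l, 0 < m (j + 1)) {F : ℝ → ℝ} (hF : Lip1 F) :
    topN (N := N) m r l (fun y => ∑ i, F (y i)) =
      N * ∫ z, cascade m r l F (√(r 0) * z) ∂(gaussianReal 0 1) := by
  induction l generalizing F with
  | zero =>
    unfold topN cascade
    have h0 : Integrable (fun x => F (√(r 0) * x)) (gaussianReal 0 1) := by
      simpa using hF.integrable 0 (√(r 0))
    have hi : ∀ i : Fin N, ∫ z : Fin N → ℝ, F (√(r 0) * z i) ∂(gN N) =
        ∫ x, F (√(r 0) * x) ∂(gaussianReal 0 1) := fun i =>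
      integral_comp_eval (μ := fun _ : Fin N => gaussianReal 0 1) (i := i)
        (f := fun x => F (√(r 0) * x)) h0.aestronglyMeasurable
    simp only [Pi.smul_apply, smul_eq_mul]
    rw [integral_finsetSum _ (fun i _ => integrable_comp_eval
      (μ := fun _ : Fin N => gaussianReal 0 1) (i := i) (f := fun x => F (√(r 0) * x)) h0)]
    simp only [hi]
    simp
  | succ l ih =>
    unfold topN cascade
    rw [gstepN_sum hF]
    exact ih (fun j hj => hm j (by omega)) (hF.gstep (hm l (by omega)) _)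

/-- `log cosh` is Lipschitz. -/
lemma lip1_log_cosh : Lip1 (fun x => Real.log (Real.cosh x)) := by
  have key : ∀ x x' : ℝ, Real.log (Real.cosh x) ≤ Real.log (Real.cosh x') + |x - x'| := by
    intro x x'
    rw [← Real.log_exp |x - x'|, ← Real.log_mul (Real.cosh_pos x').ne' (Real.exp_pos _).ne']
    refine Real.log_le_log (Real.cosh_pos x) ?_
    rw [Real.cosh_eq, Real.cosh_eq]
    have h1 : Real.exp x ≤ Real.exp x' * Real.exp |x - x'| := by
      rw [← Real.exp_add, Real.exp_le_exp]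
      linarith [le_abs_self (x - x')]
    have h2 : Real.exp (-x) ≤ Real.exp (-x') * Real.exp |x - x'| := by
      rw [← Real.exp_add, Real.exp_le_exp]
      linarith [neg_abs_le (x - x')]
    calc (Real.exp x + Real.exp (-x)) / 2 ≤
        (Real.exp x' * Real.exp |x - x'| + Real.exp (-x') * Real.exp |x - x'|) / 2 := by linarith
      _ = _ := by ring
  refine ⟨1, zero_le_one, fun x x' => _root_.abs_le.2 ⟨?_, ?_⟩⟩
  · have := key x' x
    rw [abs_sub_comm] at this
    linarith
  · have := key x x'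
    linarith

lemma lw_spin (y : Fin N → ℝ) :
    lw (X := Fin N → Bool) spin 1 (fun _ => -(N * Real.log 2)) y =
      ∑ i, Real.log (Real.cosh (y i)) := by
  unfold lw
  have h1 : ∀ x : Fin N → Bool, Real.exp (-(N * Real.log 2) + 1 * ∑ i, y i * spin x i) =
      ∏ i, (Real.exp (y i * (if x i then 1 else -1)) / 2) := by
    intro x
    rw [Real.exp_add, one_mul, Real.exp_sum, Finset.prod_div_distrib, Real.exp_neg]
    have : Real.exp (N * Real.log 2) = ∏ _i : Fin N, (2 : ℝ) := by
      rw [Finset.prod_const, Finset.card_univ, Fintype.card_fin, Real.exp_nat_mul,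
        Real.exp_log (by norm_num)]
    rw [this]
    unfold spin
    field_simp
  simp only [h1]
  have h2 := Finset.prod_univ_sum (fun _ : Fin N => (Finset.univ : Finset Bool))
    (fun (i : Fin N) (b : Bool) => Real.exp (y i * (if b then 1 else -1)) / 2)
  rw [Fintype.piFinset_univ] at h2
  rw [← h2, Real.log_prod]
  · refine Finset.sum_congr rfl fun i _ => ?_
    congr 1
    rw [Real.cosh_eq, Fintype.sum_bool]
    simp
    ring
  · intro i _
    refine (Finset.sum_pos (fun b _ => by positivity) Finset.univ_nonempty).ne'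

lemma Exponents.pos {k : ℕ} {m : ℕ → ℝ} (hm : Exponents k m) : ∀ j ≤ k, 0 < m (j + 1) := by
  intro j hj
  induction j with
  | zero => have := hm.2.2 0 hj; rw [hm.1] at this; exact this
  | succ j ih => exact (ih (by omega)).trans (hm.2.2 (j + 1) hj)

theorem topN_spin {k : ℕ} {m r : ℕ → ℝ} (hm : Exponents k m) (N : ℕ) :
    topN m r k (lw (X := Fin N → Bool) spin 1 (fun _ => -(N * Real.log 2))) =
      N * (spinPart k m r + r k / 2) := by
  rw [funext (lw_spin (N := N)), topN_sum (fun j hj => hm.pos j hj.le) lip1_log_cosh]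
  unfold spinPart
  ring

lemma gstepN_const {m : ℝ} (hm : m ≠ 0) (v c : ℝ) :
    gstepN (N := N) m v (fun _ => c) = fun _ => c := by
  funext y
  unfold gstepN
  simp
  field_simp

lemma topN_const {m r : ℕ → ℝ} {l : ℕ} (hm : ∀ j < l, 0 < m (j + 1)) (c : ℝ) :
    topN (N := N) m r l (fun _ => c) = c := by
  induction l with
  | zero => simp [topN]
  | succ l ih =>
    unfold topN
    rw [gstepN_const (hm l (by omega)).ne']
    exact ih fun j hj => hm j (by omega)

theorem topN_zero {k : ℕ} {m r : ℕ → ℝ} (hm : Exponents k m) {X : Type} [Fintype X]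
    (φ : X → Fin N → ℝ) (u : X → ℝ) :
    topN m r k (lw φ 0 u) = Real.log (∑ x, Real.exp (u x)) := by
  have h : lw φ 0 u = fun _ => Real.log (∑ x, Real.exp (u x)) := by
    funext y
    unfold lw
    simp
  rw [h, topN_const fun j hj => hm.pos j hj.le]

end Vale.Agent.P157.Par
end

section

/-!
Telescoping and assembly of the Guerra upper bound (module U of the Parisi plan).
-/

open MeasureTheory ProbabilityTheory Filter Topology

namespace Vale.Agent.P157.Par

variable {N : ℕ}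

/-! ### Bounds on the pattern part -/

lemma gstep_bdd {F : ℝ → ℝ} (hF : Measurable F) {K : ℝ} (hK : ∀ x, |F x| ≤ K) {m : ℝ}
    (hm : 0 < m) (v : ℝ) : Measurable (gstep m v F) ∧ ∀ x, |gstep m v F x| ≤ K := by
  have hmeas : Measurable (Function.uncurry fun (x z : ℝ) => Real.exp (m * F (x + √v * z))) :=
    Real.measurable_exp.comp ((hF.comp (by fun_prop)).const_mul m)
  constructor
  · unfold gstep
    refine Measurable.const_mul (Real.measurable_log.comp ?_) _
    exact (hmeas.stronglyMeasurable.integral_prod_right).measurable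
  · intro x
    have hb : ∀ z, Real.exp (-(m * K)) ≤ Real.exp (m * F (x + √v * z)) ∧
        Real.exp (m * F (x + √v * z)) ≤ Real.exp (m * K) := by
      intro z
      have h1 := abs_le.1 (hK (x + √v * z))
      rw [Real.exp_le_exp, Real.exp_le_exp]
      constructor <;> nlinarith only [hm, h1]
    have hint : Integrable (fun z => Real.exp (m * F (x + √v * z))) (gaussianReal 0 1) := by
      refine (integrable_const (Real.exp (m * K))).mono'
        (Real.measurable_exp.comp ((hF.comp (by fun_prop)).const_mul m)).aestronglyMeasurable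
        (Filter.Eventually.of_forall fun z => ?_)
      rw [Real.norm_eq_abs, abs_of_pos (Real.exp_pos _)]
      exact (hb z).2
    have h1 : Real.exp (-(m * K)) ≤ ∫ z, Real.exp (m * F (x + √v * z)) ∂(gaussianReal 0 1) := by
      calc _ = ∫ _z, Real.exp (-(m * K)) ∂(gaussianReal 0 1) := by simp
        _ ≤ _ := integral_mono (integrable_const _) hint fun z => (hb z).1
    have h2 : ∫ z, Real.exp (m * F (x + √v * z)) ∂(gaussianReal 0 1) ≤ Real.exp (m * K) := by
      calc _ ≤ ∫ _z, Real.exp (m * K) ∂(gaussianReal 0 1) :=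
            integral_mono hint (integrable_const _) fun z => (hb z).2
        _ = _ := by simp
    have h3 := Real.log_le_log (Real.exp_pos _) h1
    have h4 := Real.log_le_log (lt_of_lt_of_le (Real.exp_pos _) h1) h2
    rw [Real.log_exp] at h3 h4
    unfold gstep
    rw [abs_le]
    constructor
    · rw [one_div, ← div_eq_inv_mul, le_div_iff₀ hm]; linarith
    · rw [one_div, ← div_eq_inv_mul, div_le_iff₀ hm]; linarith

lemma cascade_bdd {m q : ℕ → ℝ} {l : ℕ} (hm : ∀ j < l, 0 < m (j + 1)) {F : ℝ → ℝ}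
    (hF : Measurable F) {K : ℝ} (hK : ∀ x, |F x| ≤ K) (x : ℝ) : |cascade m q l F x| ≤ K := by
  induction l generalizing F with
  | zero => exact hK x
  | succ l ih =>
    have h := gstep_bdd hF hK (hm l (by omega)) (q (l + 1) - q l)
    exact ih (fun j hj => hm j (by omega)) h.1 h.2

lemma abs_patternPart_le {f : ℝ → ℝ} (hf : Measurable f) {K : ℝ} (hK : ∀ x, |f x| ≤ K) {k : ℕ}
    {m : ℕ → ℝ} (hm : Exponents k m) (q : ℕ → ℝ) : |patternPart f k m q| ≤ K := by
  have h0 : (fun x => Real.log (∫ y, Real.exp (f (x + √(1 - q k) * y)) ∂(gaussianReal 0 1))) =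
      gstep 1 (1 - q k) f := by
    funext x
    unfold gstep
    simp
  have h1 := gstep_bdd hf hK one_pos (1 - q k)
  unfold patternPart
  rw [h0, ← Real.norm_eq_abs]
  refine (norm_integral_le_of_norm_le_const (C := K) (Filter.Eventually.of_forall fun z => ?_)).trans
    ?_
  · rw [Real.norm_eq_abs]
    exact cascade_bdd (fun j hj => hm.pos j hj.le) h1.1 h1.2 _
  · simp

/-! ### The interpolation -/

/-- The energies of a configuration of patterns, with the normalization of the cube. -/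
noncomputable def enU (f : ℝ → ℝ) {M : ℕ} (g : Fin M → Fin N → ℝ) (x : Fin N → Bool) : ℝ :=
  -(N * Real.log 2) + ∑ a, f ((∑ i, g a i * spin x i) / √(N : ℝ))

lemma enU_cons (f : ℝ → ℝ) {M : ℕ} (z : Fin N → ℝ) (g : Fin M → Fin N → ℝ) (x : Fin N → Bool) :
    enU f (Fin.cons z g : Fin (M + 1) → Fin N → ℝ) x =
      enU f g x + f ((∑ i, z i * spin x i) / √(N : ℝ)) := by
  unfold enU
  rw [Fin.sum_univ_succ]
  simp only [Fin.cons_zero, Fin.cons_succ]
  ring

lemma measurable_enU {f : ℝ → ℝ} (hf : Measurable f) {M : ℕ} :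
    Measurable fun g : Fin M → Fin N → ℝ => enU f g := by
  refine measurable_pi_lambda _ fun x => ?_
  unfold enU
  refine Measurable.const_add (Finset.measurable_sum _ fun a _ => hf.comp ?_) _
  fun_prop

lemma abs_enU_sub_le {f : ℝ → ℝ} {K : ℝ} (hK : ∀ x, |f x| ≤ K) {M : ℕ} (g : Fin M → Fin N → ℝ)
    (x : Fin N → Bool) : |enU f g x - -(N * Real.log 2)| ≤ M * K := by
  unfold enU
  rw [add_sub_cancel_left]
  calc _ ≤ ∑ a : Fin M, |f ((∑ i, g a i * spin x i) / √(N : ℝ))| := Finset.abs_sum_le_sum_abs _ _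
    _ ≤ ∑ _a : Fin M, K := Finset.sum_le_sum fun a _ => hK _
    _ = _ := by simp

section

variable {k : ℕ} {m r : ℕ → ℝ} {f : ℝ → ℝ} {K : ℝ}

lemma measurable_topU (hm : Exponents k m) (hf : Measurable f) (c : ℝ) (M : ℕ) :
    Measurable fun g : Fin M → Fin N → ℝ => topN m r k (lw spin c (enU f g)) :=
  (continuous_topN_lw (fun j hj => hm.pos j hj.le) spin c).measurable.comp (measurable_enU hf)

lemma abs_topU_le (hm : Exponents k m) (hK : ∀ x, |f x| ≤ K) (c : ℝ) {M : ℕ}
    (g : Fin M → Fin N → ℝ) : |topN m r k (lw spin c (enU f g))| ≤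
      |topN m r k (lw (X := Fin N → Bool) spin c fun _ => -(N * Real.log 2))| + M * K := by
  have h := abs_topN_lw_sub_le (m := m) (r := r) (l := k) (fun j hj => hm.pos j hj.le) spin c
    (u := enU f g) (u' := fun _ => -(N * Real.log 2)) (C := M * K) (abs_enU_sub_le hK g)
  have h2 := abs_sub_abs_le_abs_sub (topN m r k (lw spin c (enU f g)))
    (topN m r k (lw (X := Fin N → Bool) spin c fun _ => -(N * Real.log 2)))
  linarith

lemma integrable_topU (hm : Exponents k m) (hf : Measurable f) (hK : ∀ x, |f x| ≤ K) (c : ℝ)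
    (M : ℕ) : Integrable (fun g : Fin M → Fin N → ℝ => topN m r k (lw spin c (enU f g)))
      (patterns M N) := by
  refine (integrable_const (|topN m r k (lw (X := Fin N → Bool) spin c
    fun _ => -(N * Real.log 2))| + M * K)).mono' (measurable_topU hm hf c M).aestronglyMeasurable
    (Filter.Eventually.of_forall fun g => ?_)
  rw [Real.norm_eq_abs]
  exact abs_topU_le hm hK c g

/-- One step of the interpolation. -/
lemma tele_step (hm : Exponents k m) (hf : Measurable f) (hK : ∀ x, |f x| ≤ K)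
    (hfield : ∀ (u : (Fin N → Bool) → ℝ) (c c' : ℝ), topN m r k (lw spin c u) +
      (c' - c) * (c * N * (r k - ∑ l ∈ Finset.range (k + 1), (m (l + 1) - m l) * r l *
        Rs m r k (lw spin c u) (bw spin c u) l)) ≤ topN m r k (lw spin c' u))
    (hpat : ∀ (u : (Fin N → Bool) → ℝ) (c : ℝ),
      ∫ g, topN m r k (lw spin c (fun x => u x + f ((∑ i, g i * spin x i) / √(N : ℝ)))) ∂(gN N) ≤
        topN m r k (lw spin c u) + patternPart f k m (Rs m r k (lw spin c u) (bw spin c u)))
    (hRs : ∀ (u : (Fin N → Bool) → ℝ) (c : ℝ), Path k (Rs m r k (lw spin c u) (bw spin c u)) ∧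
      Rs m r k (lw spin c u) (bw spin c u) k ≤ 1)
    (j : ℕ) (c c' B : ℝ)
    (hB : ∀ q, Path k q → q k ≤ 1 → patternPart f k m q - (c' - c) * (c * N * (r k -
      ∑ l ∈ Finset.range (k + 1), (m (l + 1) - m l) * r l * q l)) ≤ B) :
    ∫ g, topN m r k (lw spin c (enU f g)) ∂(patterns (j + 1) N) ≤
      ∫ g, topN m r k (lw spin c' (enU f g)) ∂(patterns j N) + B := by
  have hmeas : Measurable fun z : (Fin N → ℝ) × (Fin j → Fin N → ℝ) =>
      topN m r k (lw spin c (enU f (Fin.cons z.1 z.2 : Fin (j + 1) → Fin N → ℝ))) := by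
    refine (measurable_topU hm hf c (j + 1)).comp ?_
    refine measurable_pi_lambda _ fun a => ?_
    refine Fin.cases ?_ (fun b => ?_) a
    · simpa using measurable_fst
    · simp only [Fin.cons_succ]
      exact (measurable_pi_apply b).comp measurable_snd
  have hint : Integrable (fun z : (Fin N → ℝ) × (Fin j → Fin N → ℝ) =>
      topN m r k (lw spin c (enU f (Fin.cons z.1 z.2 : Fin (j + 1) → Fin N → ℝ))))
      ((gN N).prod (Measure.pi fun _ : Fin j => gN N)) := by
    refine (integrable_const (|topN m r k (lw (X := Fin N → Bool) spin c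
      fun _ => -(N * Real.log 2))| + (j + 1 : ℕ) * K)).mono' hmeas.aestronglyMeasurable
      (Filter.Eventually.of_forall fun z => ?_)
    rw [Real.norm_eq_abs]
    exact abs_topU_le hm hK c _
  have e1 : ∫ g, topN m r k (lw spin c (enU f g)) ∂(patterns (j + 1) N) =
      ∫ g : Fin j → Fin N → ℝ, (∫ z, topN m r k (lw spin c
        (fun x => enU f g x + f ((∑ i, z i * spin x i) / √(N : ℝ)))) ∂(gN N)) ∂(patterns j N) := by
    unfold patterns
    rw [integral_pi_cons, integral_prod_symm _ hint]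
    refine integral_congr_ae (Filter.Eventually.of_forall fun g => ?_)
    dsimp only
    refine integral_congr_ae (Filter.Eventually.of_forall fun z => ?_)
    dsimp only
    rw [funext (enU_cons f z g)]
  have hint2 : Integrable (fun g : Fin j → Fin N → ℝ => ∫ z, topN m r k (lw spin c
        (fun x => enU f g x + f ((∑ i, z i * spin x i) / √(N : ℝ)))) ∂(gN N)) (patterns j N) := by
    have h := hint.integral_prod_right
    refine h.congr (Filter.Eventually.of_forall fun g => ?_)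
    dsimp only
    refine integral_congr_ae (Filter.Eventually.of_forall fun z => ?_)
    dsimp only
    rw [funext (enU_cons f z g)]
  rw [e1]
  have hi := integrable_topU (N := N) (r := r) hm hf hK c' j
  calc _ ≤ ∫ g, (topN m r k (lw spin c' (enU f g)) + B) ∂(patterns j N) := by
        refine integral_mono hint2 (hi.add (integrable_const B)) fun g => ?_
        have a1 := hpat (enU f g) c
        have a2 := hfield (enU f g) c c'
        have a3 := hB _ (hRs (enU f g) c).1 (hRs (enU f g) c).2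
        dsimp only
        linarith only [a1, a2, a3]
    _ = _ := by
        rw [integral_add hi (integrable_const B)]
        simp

end

/-! ### Sums -/

lemma sqrt_sub_sq_le {a b : ℝ} (ha : 0 < a) (hb : 0 ≤ b) (hab : b ≤ a) :
    (√a - √b) ^ 2 ≤ (a - b) ^ 2 / a := by
  have h1 : 0 < √a := Real.sqrt_pos.2 ha
  have h2 : 0 ≤ √b := Real.sqrt_nonneg b
  have h3 : a - b = (√a - √b) * (√a + √b) := by
    have e1 := Real.sq_sqrt ha.le
    have e2 := Real.sq_sqrt hb
    linarith only [e1, e2]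
  rw [le_div_iff₀ ha, h3, mul_pow]
  refine mul_le_mul_of_nonneg_left ?_ (sq_nonneg _)
  calc a = √a ^ 2 := (Real.sq_sqrt ha.le).symm
    _ ≤ (√a + √b) ^ 2 := by
        have _ := hab
        exact pow_le_pow_left₀ h1.le (by linarith) 2

lemma sum_sqrt_le {M : ℕ} (hM : 0 < M) :
    ∑ j ∈ Finset.range M, (√(1 - (j : ℝ) / M) - √(1 - ((j + 1 : ℕ) : ℝ) / M)) ^ 2 ≤
      (1 + Real.log M) / M := by
  have hM' : (0 : ℝ) < M := by exact_mod_cast hM
  have h1 : ∀ j ∈ Finset.range M,
      (√(1 - (j : ℝ) / M) - √(1 - ((j + 1 : ℕ) : ℝ) / M)) ^ 2 ≤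
        1 / M * (1 / ((M : ℝ) - j)) := by
    intro j hj
    have hj' : j < M := Finset.mem_range.1 hj
    have hj1 : (j : ℝ) + 1 ≤ M := by exact_mod_cast hj'
    have hpos : (0 : ℝ) < (M : ℝ) - j := by linarith only [hj1]
    have ha : 0 < 1 - (j : ℝ) / M := by
      rw [sub_pos, div_lt_one hM']; linarith only [hpos]
    have hb : 0 ≤ 1 - ((j + 1 : ℕ) : ℝ) / M := by
      rw [sub_nonneg, div_le_one hM']; push_cast; exact hj1
    have hab : 1 - ((j + 1 : ℕ) : ℝ) / M ≤ 1 - (j : ℝ) / M := by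
      push_cast
      have : (j : ℝ) / M ≤ ((j : ℝ) + 1) / M := by gcongr; linarith only []
      linarith only [this]
    refine (sqrt_sub_sq_le ha hb hab).trans (le_of_eq ?_)
    push_cast
    have e1 : 1 - (j : ℝ) / M = ((M : ℝ) - j) / M := by field_simp
    rw [e1]
    field_simp
    ring
  refine (Finset.sum_le_sum h1).trans ?_
  rw [← Finset.mul_sum]
  have h2 : ∑ j ∈ Finset.range M, 1 / ((M : ℝ) - j) = ((harmonic M : ℚ) : ℝ) := by
    rw [← Finset.sum_range_reflect]
    unfold harmonic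
    push_cast
    refine Finset.sum_congr rfl fun j hj => ?_
    have hj' : j < M := Finset.mem_range.1 hj
    have : ((M - 1 - j : ℕ) : ℝ) = M - 1 - j := by
      rw [Nat.sub_sub, Nat.cast_sub (by omega)]
      push_cast
      ring
    rw [this, one_div]
    congr 1
    ring
  rw [h2]
  have h3 := harmonic_le_one_add_log M
  calc 1 / (M : ℝ) * ((harmonic M : ℚ) : ℝ) ≤ 1 / (M : ℝ) * (1 + Real.log M) :=
        mul_le_mul_of_nonneg_left h3 (by positivity)
    _ = _ := by ring

lemma Path.nonneg {k : ℕ} {r : ℕ → ℝ} (hr : Path k r) : ∀ l ≤ k, 0 ≤ r l := by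
  intro l hl
  induction l with
  | zero => exact hr.1
  | succ l ih => exact (ih (by omega)).trans (hr.2 l (by omega))

lemma sum_path_nonneg {k : ℕ} {m r q : ℕ → ℝ} (hm : Exponents k m) (hr : Path k r)
    (hq : Path k q) : 0 ≤ ∑ l ∈ Finset.range (k + 1), (m (l + 1) - m l) * r l * q l := by
  refine Finset.sum_nonneg fun l hl => ?_
  have hl' : l ≤ k := by
    have := Finset.mem_range.1 hl
    omega
  have h1 := hm.2.2 l hl'
  have h2 := hr.nonneg l hl'
  have h3 := hq.nonneg l hl'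
  have : 0 ≤ m (l + 1) - m l := by linarith
  (clear * - h1 h2 h3; positivity)

/-! ### The upper bound -/

/-- Guerra's upper bound at finite `N`. -/
theorem guerra_finite {k : ℕ} {m r : ℕ → ℝ} {f : ℝ → ℝ} {K : ℝ} (hN : 0 < N)
    (hm : Exponents k m) (hr : Path k r) (hf : Measurable f) (hK : ∀ x, |f x| ≤ K)
    (hfield : ∀ (u : (Fin N → Bool) → ℝ) (c c' : ℝ), topN m r k (lw spin c u) +
      (c' - c) * (c * N * (r k - ∑ l ∈ Finset.range (k + 1), (m (l + 1) - m l) * r l *
        Rs m r k (lw spin c u) (bw spin c u) l)) ≤ topN m r k (lw spin c' u))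
    (hpat : ∀ (u : (Fin N → Bool) → ℝ) (c : ℝ),
      ∫ g, topN m r k (lw spin c (fun x => u x + f ((∑ i, g i * spin x i) / √(N : ℝ)))) ∂(gN N) ≤
        topN m r k (lw spin c u) + patternPart f k m (Rs m r k (lw spin c u) (bw spin c u)))
    (hRs : ∀ (u : (Fin N → Bool) → ℝ) (c : ℝ), Path k (Rs m r k (lw spin c u) (bw spin c u)) ∧
      Rs m r k (lw spin c u) (bw spin c u) k ≤ 1)
    {α : ℝ} (hM : 0 < ⌊α * N⌋₊) {C : ℝ}
    (hC : ∀ q, Path k q → q k ≤ 1 → (⌊α * N⌋₊ : ℝ) / N * patternPart f k m q +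
      1 / 2 * ∑ l ∈ Finset.range (k + 1), (m (l + 1) - m l) * r l * q l ≤ C) :
    meanPressure cube α f N ≤ C + spinPart k m r +
      r k / 2 * ((1 + Real.log (⌊α * N⌋₊ : ℝ)) / (⌊α * N⌋₊ : ℝ)) := by
  set M : ℕ := ⌊α * N⌋₊ with hMdef
  have hM' : (0 : ℝ) < M := by exact_mod_cast hM
  have hN' : (0 : ℝ) < N := by exact_mod_cast hN
  have hrk : 0 ≤ r k := hr.nonneg k le_rfl
  set lam : ℕ → ℝ := fun j => √(1 - (j : ℝ) / M) with hlam
  set B : ℕ → ℝ := fun j => N / M * C - N * r k / (2 * M) +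
    N * r k / 2 * (lam j - lam (j + 1)) ^ 2 with hBdef
  have hstep : ∀ j < M, ∫ g, topN m r k (lw spin (lam (j + 1)) (enU f g)) ∂(patterns (j + 1) N) ≤
      ∫ g, topN m r k (lw spin (lam j) (enU f g)) ∂(patterns j N) + B j := by
    intro j hj
    refine tele_step hm hf hK hfield hpat hRs j (lam (j + 1)) (lam j) (B j) fun q hq hq1 => ?_
    have hj1 : (j : ℝ) + 1 ≤ M := by exact_mod_cast hj
    have s1 : lam j ^ 2 = 1 - (j : ℝ) / M := by
      refine Real.sq_sqrt ?_
      rw [sub_nonneg, div_le_one hM']; linarith only [hj1]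
    have s2 : lam (j + 1) ^ 2 = 1 - (j : ℝ) / M - 1 / M := by
      have : lam (j + 1) ^ 2 = 1 - ((j + 1 : ℕ) : ℝ) / M := by
        refine Real.sq_sqrt ?_
        rw [sub_nonneg, div_le_one hM']; push_cast; exact hj1
      rw [this]
      push_cast
      ring
    have hS := sum_path_nonneg hm hr hq
    set S := ∑ l ∈ Finset.range (k + 1), (m (l + 1) - m l) * r l * q l with hSdef
    have hD : (lam j - lam (j + 1)) * lam (j + 1) =
        1 / (2 * M) - (lam j - lam (j + 1)) ^ 2 / 2 := by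
      have : (lam j - lam (j + 1)) * lam (j + 1) =
        (lam j ^ 2 - lam (j + 1) ^ 2) / 2 - (lam j - lam (j + 1)) ^ 2 / 2 := by ring
      rw [this, s1, s2]
      field_simp
      ring
    have e1 : patternPart f k m q - (lam j - lam (j + 1)) * (lam (j + 1) * N * (r k - S)) =
        patternPart f k m q + (1 / (2 * M) - (lam j - lam (j + 1)) ^ 2 / 2) * N * S -
          (1 / (2 * M) - (lam j - lam (j + 1)) ^ 2 / 2) * N * r k := by
      rw [← hD]; ring
    rw [e1]
    have e2 : (1 / (2 * M) - (lam j - lam (j + 1)) ^ 2 / 2) * N * S ≤ 1 / (2 * M) * N * S := by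
      refine mul_le_mul_of_nonneg_right (mul_le_mul_of_nonneg_right ?_ hN'.le) hS
      linarith only [sq_nonneg (lam j - lam (j + 1))]
    have e3 : patternPart f k m q + 1 / (2 * M) * N * S ≤ N / M * C := by
      have h1 := mul_le_mul_of_nonneg_left (hC q hq hq1) (by positivity : (0 : ℝ) ≤ N / M)
      rw [← hSdef] at h1
      refine le_trans (le_of_eq ?_) h1
      field_simp
    rw [hBdef]
    dsimp only
    have e4 : (1 / (2 * M) - (lam j - lam (j + 1)) ^ 2 / 2) * N * r k =
        N * r k / (2 * M) - N * r k / 2 * (lam j - lam (j + 1)) ^ 2 := by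
      field_simp
    rw [e4]
    linarith only [e2, e3]
  have htele : ∀ j ≤ M, ∫ g, topN m r k (lw spin (lam j) (enU f g)) ∂(patterns j N) ≤
      ∫ g, topN m r k (lw spin (lam 0) (enU f g)) ∂(patterns 0 N) +
        ∑ i ∈ Finset.range j, B i := by
    intro j hj
    induction j with
    | zero => simp
    | succ j ih =>
      rw [Finset.sum_range_succ]
      have := hstep j (by omega)
      have := ih (by omega)
      linarith
  have hfin := htele M le_rfl
  -- the start
  have h0 : ∫ g, topN m r k (lw spin (lam 0) (enU f g)) ∂(patterns 0 N) =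
      N * (spinPart k m r + r k / 2) := by
    have hl0 : lam 0 = 1 := by simp [hlam]
    have he : ∀ g : Fin 0 → Fin N → ℝ, enU (N := N) f g = fun _ => -(N * Real.log 2) := by
      intro g
      funext x
      simp [enU]
    simp only [he, hl0]
    rw [topN_spin hm]
    simp
  -- the end
  have h1 : ∫ g, topN m r k (lw spin (lam M) (enU f g)) ∂(patterns M N) =
      N * meanPressure cube α f N := by
    have hlM : lam M = 0 := by simp [hlam, hM'.ne']
    rw [meanPressure_cube, ← mul_assoc, mul_one_div_cancel hN'.ne', one_mul]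
    refine integral_congr_ae (Filter.Eventually.of_forall fun g => ?_)
    dsimp only
    rw [hlM, topN_zero hm]
    unfold logZ
    congr 1
    rw [Finset.mul_sum]
    refine Finset.sum_congr rfl fun x _ => ?_
    unfold enU
    rw [Real.exp_add, Real.exp_neg, Real.exp_nat_mul, Real.exp_log (by norm_num), one_div, inv_pow]
    rfl
  rw [h0, h1] at hfin
  have hsum : ∑ i ∈ Finset.range M, B i ≤ N * C - N * r k / 2 +
      N * r k / 2 * ((1 + Real.log M) / M) := by
    rw [hBdef]
    rw [Finset.sum_add_distrib, ← Finset.mul_sum, Finset.sum_const, Finset.card_range,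
      nsmul_eq_mul]
    have e1 : (M : ℝ) * (N / M * C - N * r k / (2 * M)) = N * C - N * r k / 2 := by
      field_simp
    rw [e1]
    have := mul_le_mul_of_nonneg_left (sum_sqrt_le hM) (by positivity : 0 ≤ N * r k / 2)
    have e2 : ∑ i ∈ Finset.range M, (lam i - lam (i + 1)) ^ 2 =
        ∑ j ∈ Finset.range M, (√(1 - (j : ℝ) / M) - √(1 - ((j + 1 : ℕ) : ℝ) / M)) ^ 2 := rfl
    rw [e2]
    linarith only [this]
  have hall : N * meanPressure cube α f N ≤ N * (C + spinPart k m r +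
      r k / 2 * ((1 + Real.log M) / M)) := by
    calc _ ≤ N * (spinPart k m r + r k / 2) + ∑ i ∈ Finset.range M, B i := hfin
      _ ≤ N * (spinPart k m r + r k / 2) + (N * C - N * r k / 2 +
          N * r k / 2 * ((1 + Real.log M) / M)) := by linarith only [hsum]
      _ = _ := by ring
  exact le_of_mul_le_mul_left hall hN'

/-- Guerra's upper bound in the limit. -/
theorem guerra_limit {k : ℕ} {m r : ℕ → ℝ} {f : ℝ → ℝ} {K : ℝ}
    (hm : Exponents k m) (hr : Path k r) (hf : Measurable f) (hK : ∀ x, |f x| ≤ K)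
    (hfield : ∀ (N : ℕ), 0 < N → ∀ (u : (Fin N → Bool) → ℝ) (c c' : ℝ),
      topN m r k (lw spin c u) +
      (c' - c) * (c * N * (r k - ∑ l ∈ Finset.range (k + 1), (m (l + 1) - m l) * r l *
        Rs m r k (lw spin c u) (bw spin c u) l)) ≤ topN m r k (lw spin c' u))
    (hpat : ∀ (N : ℕ), 0 < N → ∀ (u : (Fin N → Bool) → ℝ) (c : ℝ),
      ∫ g, topN m r k (lw spin c (fun x => u x + f ((∑ i, g i * spin x i) / √(N : ℝ)))) ∂(gN N) ≤
        topN m r k (lw spin c u) + patternPart f k m (Rs m r k (lw spin c u) (bw spin c u)))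
    (hRs : ∀ (N : ℕ), 0 < N → ∀ (u : (Fin N → Bool) → ℝ) (c : ℝ),
      Path k (Rs m r k (lw spin c u) (bw spin c u)) ∧
      Rs m r k (lw spin c u) (bw spin c u) k ≤ 1)
    {α : ℝ} (hα : 0 < α) {C : ℝ} (hC : ∀ q, Path k q → q k ≤ 1 → parisi α f k m q r ≤ C)
    {ε : ℝ} (hε : 0 < ε) : ∀ᶠ N : ℕ in atTop, meanPressure cube α f N ≤ C + ε := by
  have hK0 : 0 ≤ K := (abs_nonneg _).trans (hK 0)
  have hrk : 0 ≤ r k := hr.nonneg k le_rfl
  have hfloor := tendsto_floor_div hα
  have hMinf : Tendsto (fun N : ℕ => ⌊α * N⌋₊) atTop atTop := by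
    refine tendsto_nat_floor_atTop.comp ?_
    exact (tendsto_natCast_atTop_atTop (R := ℝ)).const_mul_atTop hα
  have hlog : Tendsto (fun N : ℕ => (1 + Real.log (⌊α * N⌋₊ : ℝ)) / (⌊α * N⌋₊ : ℝ)) atTop
      (𝓝 0) := by
    have h1 : Tendsto (fun x : ℝ => (1 + Real.log x) / x) atTop (𝓝 (0 + 0)) := by
      have e1 : Tendsto (fun x : ℝ => Real.log x / x) atTop (𝓝 0) := by
        have := Real.isLittleO_log_id_atTop.tendsto_div_nhds_zero
        simpa using this
      have e2 : Tendsto (fun x : ℝ => 1 / x) atTop (𝓝 0) := by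
        simpa using tendsto_inv_atTop_zero (𝕜 := ℝ)
      refine (e2.add e1).congr fun x => ?_
      ring
    rw [add_zero] at h1
    exact h1.comp ((tendsto_natCast_atTop_atTop (R := ℝ)).comp hMinf)
  have htot : Tendsto (fun N : ℕ => |(⌊α * N⌋₊ : ℝ) / N - α| * K +
      r k / 2 * ((1 + Real.log (⌊α * N⌋₊ : ℝ)) / (⌊α * N⌋₊ : ℝ))) atTop
      (𝓝 (|α - α| * K + r k / 2 * 0)) :=
    (((hfloor.sub_const α).abs).mul_const K).add (hlog.const_mul _)
  rw [sub_self, abs_zero, zero_mul, mul_zero, add_zero] at htot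
  filter_upwards [htot.eventually_lt_const hε, hMinf.eventually_gt_atTop 0,
    eventually_gt_atTop 0] with N h1 h2 h3
  have h4 := guerra_finite (N := N) h3 hm hr hf hK (hfield N h3) (hpat N h3) (hRs N h3) (α := α) h2
    (C := C - spinPart k m r + |(⌊α * N⌋₊ : ℝ) / N - α| * K) (fun q hq hq1 => by
      have h5 := hC q hq hq1
      unfold parisi at h5
      have h6 : ((⌊α * N⌋₊ : ℝ) / N - α) * patternPart f k m q ≤
          |(⌊α * N⌋₊ : ℝ) / N - α| * K := by
        refine (le_abs_self _).trans ?_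
        rw [abs_mul]
        exact mul_le_mul_of_nonneg_left (abs_patternPart_le hf hK hm q) (abs_nonneg _)
      linarith only [h5, h6])
  linarith only [h4, h1]

end Vale.Agent.P157.Par
end

section

/-!
Free energies of tree fields and of the fields of the spins, in terms of the cascades.
-/

open MeasureTheory ProbabilityTheory Filter Topology

namespace Vale.Agent.P157.Lv

set_option linter.unusedSectionVars false

open Par (incr Path Exponents cascade gstep patternPart spinPart topN lw)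

variable {ι X : Type} [Fintype ι] [DecidableEq ι] [Fintype X] [Nonempty X]
  {S : Sy ι X} {D : ι → (ι → ℝ) → X → ℝ}

/-! ### Independence of a coordinate -/

/-- The function `h` does not depend on the coordinate `e`. -/
def brIndep (e : ι) (h : (ι → ℝ) → ℝ) : Prop := ∀ z t, h (Function.update z e t) = h z

lemma brIndep_of_pd {e : ι} {H : (ι → ℝ) → ℝ} {H' : (ι → ℝ) → ℝ} (hd : PD e H H')
    (h0 : ∀ z, H' z = 0) : brIndep e H := by
  intro z t
  have h1 : ∀ s, HasDerivAt (fun t => H (Function.update z e t)) 0 s := by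
    intro s
    have := hd z s
    rwa [h0] at this
  have h2 := is_const_of_deriv_eq_zero (f := fun t => H (Function.update z e t))
    (fun s => (h1 s).differentiableAt) (fun s => (h1 s).deriv) t (z e)
  simpa using h2

lemma br_mix_update_of_lt {lev : ι → ℕ} {l : ℕ} {e : ι} (he : l < lev e) (z w : ι → ℝ) (t : ℝ) :
    mix lev l (Function.update z e t) w = mix lev l z w := by
  funext j
  unfold mix
  by_cases hj : lev j ≤ l
  · rw [if_pos hj, if_pos hj, Function.update_of_ne]
    rintro rfl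
    omega
  · rw [if_neg hj, if_neg hj]

lemma br_mix_update_right {lev : ι → ℕ} {l : ℕ} {e : ι} (he : l < lev e) (z w : ι → ℝ) (t : ℝ) :
    mix lev l z (Function.update w e t) = Function.update (mix lev l z w) e t := by
  funext j
  unfold mix
  by_cases hj : j = e
  · subst hj
    rw [Function.update_self, if_neg (by omega), Function.update_self]
  · rw [Function.update_of_ne hj, Function.update_of_ne hj]

lemma brIndep.J {e : ι} {h : (ι → ℝ) → ℝ} (hh : brIndep e h) (lev : ι → ℕ) (l : ℕ) :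
    brIndep e (Lv.J lev l h) := by
  intro z t
  unfold Lv.J
  by_cases he : lev e ≤ l
  · simp only [mix_update he, hh _ _]
  · simp only [br_mix_update_of_lt (not_le.1 he)]

lemma brIndep_top {e : ι} (h : ∀ x, brIndep e fun z => S.H z x) : brIndep e S.top := by
  intro z t
  unfold Sy.top
  have h1 : ∀ x, S.H (Function.update z e t) x = S.H z x := fun x => h x z t
  simp only [h1]

lemma brIndep_lg {e : ι} (h : ∀ x, brIndep e fun z => S.H z x) {l : ℕ} (hl : l ≤ S.K) :
    brIndep e (S.lg l) := by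
  refine Sy.down_ind (P := fun l => brIndep e (S.lg l)) ?_ ?_ l hl
  · rw [Sy.lg_top]
    exact brIndep_top h
  · intro l hl ih
    rw [Sy.lg_step S hl]
    have h1 : brIndep e (fun z => Real.exp (S.m (l + 1) * S.lg (l + 1) z)) := by
      intro z t
      simp only [ih z t]
    intro z t
    unfold Sy.stp
    rw [h1.J S.lev l z t]

/-- The coordinate `e` is independent of the others. -/
lemma br_integral_mul {e : ι} {h : (ι → ℝ) → ℝ} (hh : brIndep e h) (hm : Measurable h)
    {g : ℝ → ℝ} (hg : Measurable g) :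
    ∫ w, h w * g (w e) ∂(gI ι) = (∫ w, h w ∂(gI ι)) * ∫ x, g x ∂(gaussianReal 0 1) := by
  have hupd : ((gI ι).prod (gaussianReal 0 1)).map
      (fun q : (ι → ℝ) × ℝ => Function.update q.1 e q.2) = gI ι := Vale.Agent.P367.GT.map_update e
  have hmu := Vale.Agent.P367.GT.measurable_upd (ι := ι) e
  have hmeas : Measurable fun w : ι → ℝ => h w * g (w e) :=
    hm.mul (hg.comp (measurable_pi_apply e))
  conv_lhs => rw [← hupd]
  rw [integral_map hmu.aemeasurable hmeas.aestronglyMeasurable]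
  have h1 : ∀ q : (ι → ℝ) × ℝ, h (Function.update q.1 e q.2) * g (Function.update q.1 e q.2 e) =
      h q.1 * g q.2 := by
    intro q
    rw [hh q.1 q.2, Function.update_self]
  simp only [h1]
  exact integral_prod_mul h g

/-! ### The tree field -/

/-- The tree field up to the level `l`. -/
noncomputable def brU (y : ℕ → ι) (R : ℕ → ℝ) (l : ℕ) (z : ι → ℝ) : ℝ :=
  ∑ j ∈ Finset.range (l + 1), √(incr R j) * z (y j)

lemma br_gstep_pos {m v : ℝ} {G : ℝ → ℝ} (hG : Par.Lip1 G) (hm : 0 < m) (x : ℝ) :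
    ∫ t, Real.exp (m * G (x + √v * t)) ∂(gaussianReal 0 1) = Real.exp (m * gstep m v G x) := by
  unfold gstep
  rw [← mul_assoc, mul_one_div_cancel hm.ne', one_mul, Real.exp_log (hG.int_exp_pos m x (√v))]

/-- The potential of a tree field: if the energy does not depend on the coordinates `y l`, then
adding a Lipschitz function of the tree field adds the value of the cascade. (For measurable `F`
bounded and for `F` Lipschitz; here Lipschitz. The coordinates `y l` are independent of the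
others, by downward induction `lg' l z = lg l z + (cascade of level l)(∑_{j ≤ l} √incr z (y j))`.) -/
theorem fe_add_tree (hS : S.RegD D) {y : ℕ → ι} (hy : ∀ l ≤ S.K, S.lev (y l) = l)
    (hD : ∀ l ≤ S.K, ∀ z x, D (y l) z x = 0) {R : ℕ → ℝ} (hR : Path S.K R) {F : ℝ → ℝ} {L : ℝ}
    (hF : ∀ x x', |F x - F x'| ≤ L * |x - x'|) :
    (S.wH fun z x => S.H z x + F (tf y S.K R z)).fe =
      S.fe + ∫ x, cascade S.m R S.K F (√(R 0) * x) ∂(gaussianReal 0 1) := by
  have hL : 0 ≤ L := by
    have := hF 1 0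
    rw [sub_zero, abs_one, mul_one] at this
    exact (abs_nonneg _).trans this
  have hF1 : Par.Lip1 F := ⟨L, hL, hF⟩
  set S' : Sy ι X := S.wH fun z x => S.H z x + F (tf y S.K R z) with hS'
  have hind : ∀ l ≤ S.K, ∀ x, brIndep (y l) fun z => S.H z x := fun l hl x =>
    brIndep_of_pd (hS.pd (y l) x) fun z => hD l hl z x
  have key : ∀ l ≤ S.K, ∃ G : ℝ → ℝ, Par.Lip1 G ∧
      (∀ z, S'.lg l z = S.lg l z + G (brU y R l z)) ∧
      cascade S.m R S.K F = cascade S.m R l G := by
    refine Sy.down_ind ?_ ?_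
    · refine ⟨F, hF1, fun z => ?_, rfl⟩
      have e1 : S'.lg S.K = S'.top := Sy.lg_top S'
      rw [e1, Sy.lg_top S]
      unfold Sy.top
      have e2 : ∀ x, Real.exp (S'.H z x) = Real.exp (S.H z x) * Real.exp (F (brU y R S.K z)) := by
        intro x
        rw [← Real.exp_add]
        rfl
      simp only [e2]
      rw [← Finset.sum_mul, Real.log_mul (Sy.sum_exp_pos z).ne' (Real.exp_pos _).ne', Real.log_exp]
    · rintro l hl ⟨G, hG, h1, h2⟩
      have hm : 0 < S.m (l + 1) := hS.m_pos (by omega) (by omega)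
      refine ⟨gstep (S.m (l + 1)) (R (l + 1) - R l) G, hG.gstep hm _, fun z => ?_, ?_⟩
      · have hl' : l < S'.K := hl
        rw [Sy.lg_step S' hl', Sy.lg_step S hl]
        unfold Sy.stp
        have e0 : S'.m = S.m := rfl
        have e0' : S'.lev = S.lev := rfl
        rw [e0, e0']
        have heg : EG fun z => Real.exp (S.m (l + 1) * S.lg (l + 1) z) :=
          (hS.lip_lg (l := l + 1) hl).exp_eg (S.m (l + 1))
        have e3 : J S.lev l (fun z => Real.exp (S.m (l + 1) * S'.lg (l + 1) z)) z =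
            J S.lev l (fun z => Real.exp (S.m (l + 1) * S.lg (l + 1) z)) z *
              Real.exp (S.m (l + 1) * gstep (S.m (l + 1)) (R (l + 1) - R l) G (brU y R l z)) := by
          unfold J
          rw [← br_gstep_pos hG hm]
          have hli : brIndep (y (l + 1)) fun w =>
              Real.exp (S.m (l + 1) * S.lg (l + 1) (mix S.lev l z w)) := by
            intro w t
            simp only
            rw [br_mix_update_right (by rw [hy (l + 1) hl]; omega),
              brIndep_lg (hind (l + 1) hl) hl]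
          have hgm : Measurable fun t : ℝ =>
              Real.exp (S.m (l + 1) * G (brU y R l z + √(R (l + 1) - R l) * t)) :=
            Real.measurable_exp.comp ((hG.continuous.measurable.comp (by fun_prop)).const_mul _)
          rw [← br_integral_mul hli (heg.meas.comp (measurable_mix_right S.lev l z)) hgm]
          refine integral_congr_ae (Filter.Eventually.of_forall fun w => ?_)
          simp only
          rw [h1, ← Real.exp_add, ← mul_add]
          congr 4
          unfold brU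
          rw [Finset.sum_range_succ]
          congr 1
          · refine Finset.sum_congr rfl fun j hj => ?_
            rw [Finset.mem_range] at hj
            congr 1
            unfold mix
            rw [if_pos]
            rw [hy j (by omega)]
            omega
          · have e4 : incr R (l + 1) = R (l + 1) - R l := rfl
            rw [e4]
            congr 1
            unfold mix
            rw [if_neg]
            rw [hy (l + 1) hl]
            omega
        rw [e3, Real.log_mul (J_pos heg (fun _ => Real.exp_pos _) z).ne' (Real.exp_pos _).ne',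
          Real.log_exp]
        field_simp
      · rw [h2, Par.cascade_succ_def]
  obtain ⟨G, hG, h1, h2⟩ := key 0 (Nat.zero_le _)
  have e5 : cascade S.m R 0 G = G := rfl
  unfold Sy.fe
  have e6 : ∀ x : ι → ℝ, brU y R 0 x = √(R 0) * x (y 0) := by
    intro x
    unfold brU
    simp [Par.incr_zero_def]
  simp only [h1, h2, e5, e6]
  have h0 : Integrable (fun x => G (√(R 0) * x)) (gaussianReal 0 1) := by
    simpa using hG.integrable 0 (√(R 0))
  have h3 : Integrable (fun z : ι → ℝ => G (√(R 0) * z (y 0))) (gI ι) :=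
    integrable_comp_eval (μ := fun _ : ι => gaussianReal 0 1) (i := y 0)
      (f := fun x => G (√(R 0) * x)) h0
  rw [integral_add (hS.integrable_lg (Nat.zero_le _)) h3]
  congr 1
  exact integral_comp_eval (μ := fun _ : ι => gaussianReal 0 1) (i := y 0)
      (f := fun x => G (√(R 0) * x)) h0.aestronglyMeasurable

/-- The path followed by the value `1` at the level `k + 1`. -/
noncomputable def ext1 (k : ℕ) (q : ℕ → ℝ) : ℕ → ℝ := fun l => if l ≤ k then q l else 1

lemma br_cascade_congr {m q q' : ℕ → ℝ} {l : ℕ} (h : ∀ j ≤ l, q j = q' j) (F : ℝ → ℝ) :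
    cascade m q l F = cascade m q' l F := by
  induction l generalizing F with
  | zero => rfl
  | succ l ih =>
    rw [Par.cascade_succ_def, Par.cascade_succ_def, h (l + 1) le_rfl, h l (Nat.le_succ l)]
    exact ih (fun j hj => h j (by omega)) _

/-- The pattern part as a cascade with `k + 1` steps, the last one with the exponent `1`. -/
theorem patternPart_eq_cascade {k : ℕ} {m q : ℕ → ℝ} (hm : Exponents k m) (f : ℝ → ℝ) :
    patternPart f k m q =
      ∫ x, cascade m (ext1 k q) (k + 1) f (√(q 0) * x) ∂(gaussianReal 0 1) := by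
  have h1 : ext1 k q (k + 1) = 1 := by simp [ext1]
  have h2 : ext1 k q k = q k := by simp [ext1]
  have h3 : gstep 1 (1 - q k) f =
      fun x => Real.log (∫ y, Real.exp (f (x + √(1 - q k) * y)) ∂(gaussianReal 0 1)) := by
    funext x
    unfold gstep
    simp
  rw [Par.cascade_succ_def, h1, h2, hm.2.1, h3,
    br_cascade_congr (q := ext1 k q) (q' := q) (fun j hj => by simp [ext1, hj])]
  rfl

/-- If the last overlap is one there is no noise. -/
theorem patternPart_eq_of_one {k : ℕ} {m q : ℕ → ℝ} (hq : q k = 1) (f : ℝ → ℝ) :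
    patternPart f k m q = ∫ x, cascade m q k f (√(q 0) * x) ∂(gaussianReal 0 1) := by
  unfold patternPart
  have h1 : (fun x => Real.log (∫ y, Real.exp (f (x + √(1 - q k) * y)) ∂(gaussianReal 0 1))) =
      f := by
    funext x
    rw [hq]
    simp
  rw [h1]

end Vale.Agent.P157.Lv
end

section

/-!
The free energy of the fields alone, and of energies of the level zero.
-/

open MeasureTheory ProbabilityTheory Filter Topology

namespace Vale.Agent.P157.Lv

set_option linter.unusedSectionVars false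

open Par (Path Exponents cascade gstep patternPart spinPart topN lw)

variable {ι X : Type} [Fintype ι] [DecidableEq ι] [Fintype X] [Nonempty X]
  {S : Sy ι X} {D : ι → (ι → ℝ) → X → ℝ}

/-- The coordinates at distinct places are independent standard Gaussian. -/
lemma lf_map {N : ℕ} {c : Fin N → ι} (hc : Function.Injective c) :
    MeasurePreserving (fun (z : ι → ℝ) (i : Fin N) => z (c i)) (gI ι) (Par.gN N) := by
  have hm : Measurable (fun (z : ι → ℝ) (i : Fin N) => z (c i)) :=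
    measurable_pi_iff.2 fun i => measurable_pi_apply (c i)
  refine ⟨hm, ?_⟩
  have h : iIndepFun (fun (i : ι) (z : ι → ℝ) => z i) (gI ι) :=
    iIndepFun_pi (μ := fun _ : ι => gaussianReal 0 1) (X := fun _ x => x) fun _ => aemeasurable_id
  have h2 : iIndepFun (fun (i : Fin N) (z : ι → ℝ) => z (c i)) (gI ι) := h.precomp hc
  have h3 := (iIndepFun_iff_map_fun_eq_pi_map
    (fun i => (measurable_pi_apply (c i)).aemeasurable)).1 h2
  rw [h3]
  unfold Par.gN
  congr 1
  funext i
  exact (measurePreserving_eval (fun _ : ι => gaussianReal 0 1) (c i)).map_eq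

/-- The field at the level `l`. -/
def lfY {N : ℕ} (zc : ℕ → Fin N → ι) (s : ℕ → ℝ) (l : ℕ) (z : ι → ℝ) : Fin N → ℝ :=
  fun i => ∑ j ∈ Finset.range (l + 1), s j * z (zc j i)

lemma lf_measurable_gstepN {N : ℕ} (m v : ℝ) {G : (Fin N → ℝ) → ℝ} (hG : Measurable G) :
    Measurable (Par.gstepN m v G) := by
  unfold Par.gstepN
  have h : StronglyMeasurable (fun p : (Fin N → ℝ) × (Fin N → ℝ) =>
      Real.exp (m * G (p.1 + √v • p.2))) := by
    apply Measurable.stronglyMeasurable
    exact Real.measurable_exp.comp ((hG.comp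
      (measurable_fst.add (measurable_snd.const_smul (√v)))).const_mul m)
  have h2 : StronglyMeasurable fun y : Fin N → ℝ =>
      ∫ z, Real.exp (m * G (y + √v • z)) ∂(Par.gN N) :=
    h.integral_prod_right' (ν := Par.gN N)
  exact (Real.measurable_log.comp h2.measurable).const_mul _

/-- The values of the recursion are the iterated steps of `topN`. -/
lemma lf_key {N : ℕ} {φ : X → Fin N → ℝ} {u : X → ℝ} {zc : ℕ → Fin N → ι}
    (hz : ∀ l ≤ S.K, ∀ i, S.lev (zc l i) = l) (hi : ∀ l ≤ S.K, Function.Injective (zc l))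
    {s : ℕ → ℝ} (hs : ∀ l ≤ S.K, 0 ≤ s l)
    (hH : ∀ z x, S.H z x = u x + ∑ l ∈ Finset.range (S.K + 1), s l * ∑ i, z (zc l i) * φ x i)
    {l : ℕ} (hl : l ≤ S.K) :
    ∃ G : (Fin N → ℝ) → ℝ, Measurable G ∧ (∀ z, S.lg l z = G (lfY zc s l z)) ∧
      topN S.m (fun l => ∑ j ∈ Finset.range (l + 1), s j ^ 2) S.K (lw φ 1 u) =
        topN S.m (fun l => ∑ j ∈ Finset.range (l + 1), s j ^ 2) l G := by
  refine Sy.down_ind (P := fun l => ∃ G : (Fin N → ℝ) → ℝ, Measurable G ∧
      (∀ z, S.lg l z = G (lfY zc s l z)) ∧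
      topN S.m (fun l => ∑ j ∈ Finset.range (l + 1), s j ^ 2) S.K (lw φ 1 u) =
        topN S.m (fun l => ∑ j ∈ Finset.range (l + 1), s j ^ 2) l G) ?_ ?_ l hl
  · refine ⟨lw φ 1 u, ?_, fun z => ?_, rfl⟩
    · unfold lw
      refine Real.measurable_log.comp (Finset.measurable_sum _ fun x _ => ?_)
      refine Real.measurable_exp.comp (measurable_const.add (Measurable.const_mul ?_ _))
      exact Finset.measurable_sum _ fun i _ => (measurable_pi_apply i).mul_const _
    · rw [Sy.lg_top]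
      unfold Sy.top lw
      congr 1
      refine Finset.sum_congr rfl fun x _ => ?_
      rw [hH]
      congr 2
      rw [one_mul]
      simp only [lfY, Finset.sum_mul, Finset.mul_sum]
      rw [Finset.sum_comm]
      refine Finset.sum_congr rfl fun i _ => Finset.sum_congr rfl fun j _ => ?_
      ring
  · rintro l hl ⟨G, hG, hG1, hG2⟩
    have hv : (∑ j ∈ Finset.range (l + 1 + 1), s j ^ 2) - ∑ j ∈ Finset.range (l + 1), s j ^ 2 =
        s (l + 1) ^ 2 := by
      rw [Finset.sum_range_succ _ (l + 1)]; ring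
    refine ⟨Par.gstepN (S.m (l + 1)) (s (l + 1) ^ 2) G, lf_measurable_gstepN _ _ hG,
      fun z => ?_, ?_⟩
    · rw [Sy.lg_step S hl]
      unfold Sy.stp Par.gstepN J
      congr 2
      rw [Real.sqrt_sq (hs _ (by omega)), ← (lf_map (hi (l + 1) (by omega))).map_eq,
        integral_map (lf_map (hi (l + 1) (by omega))).measurable.aemeasurable]
      · refine integral_congr_ae (Filter.Eventually.of_forall fun w => ?_)
        simp only
        rw [hG1]
        congr 3
        funext i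
        simp only [lfY, Pi.add_apply, Pi.smul_apply, smul_eq_mul]
        rw [Finset.sum_range_succ]
        congr 1
        · refine Finset.sum_congr rfl fun j hj => ?_
          have hj' : j < l + 1 := Finset.mem_range.1 hj
          simp only [mix]
          rw [if_pos (by rw [hz j (by omega)]; omega)]
        · simp only [mix]
          rw [if_neg (by rw [hz (l + 1) (by omega)]; omega)]
      · apply Measurable.aestronglyMeasurable
        exact Real.measurable_exp.comp ((hG.comp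
          (measurable_const.add (measurable_id.const_smul (s (l + 1))))).const_mul _)
    · rw [hG2, Par.topN_succ_def, hv]

/-- The free energy of the fields alone. Proof: downward induction, `lg l z` is the iterated
`gstepN` of `lw φ 1 u` at the point `∑_{j ≤ l} s_j z_j` (the coordinates `zc l i` of the level `l`
are independent standard Gaussian). -/
theorem fe_field {N : ℕ} (hS : S.RegD D) {φ : X → Fin N → ℝ} {u : X → ℝ} {zc : ℕ → Fin N → ι}
    (hz : ∀ l ≤ S.K, ∀ i, S.lev (zc l i) = l) (hi : ∀ l ≤ S.K, Function.Injective (zc l))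
    {s : ℕ → ℝ} (hs : ∀ l ≤ S.K, 0 ≤ s l)
    (hH : ∀ z x, S.H z x = u x + ∑ l ∈ Finset.range (S.K + 1), s l * ∑ i, z (zc l i) * φ x i) :
    S.fe = topN S.m (fun l => ∑ j ∈ Finset.range (l + 1), s j ^ 2) S.K (lw φ 1 u) := by
  obtain ⟨G, hG, hG1, hG2⟩ := lf_key hz hi hs hH (Nat.zero_le S.K)
  rw [hG2]
  unfold Sy.fe topN
  rw [show (∑ j ∈ Finset.range (0 + 1), s j ^ 2) = s 0 ^ 2 by simp,
    Real.sqrt_sq (hs 0 (Nat.zero_le _)), ← (lf_map (hi 0 (Nat.zero_le _))).map_eq,
    integral_map (lf_map (hi 0 (Nat.zero_le _))).measurable.aemeasurable]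
  · refine integral_congr_ae (Filter.Eventually.of_forall fun z => ?_)
    simp only
    rw [hG1]
    congr 1
    funext i
    simp [lfY]
  · apply Measurable.aestronglyMeasurable
    exact hG.comp (measurable_id.const_smul (s 0))

/-- If the energy depends only on the coordinates of level zero, the levels disappear. -/
theorem fe_level_zero (hS : S.Reg) (h : ∀ x, Dep S.lev 0 fun z => S.H z x) :
    S.fe = ∫ z, S.top z ∂(gI ι) := by
  have key : S.lg 0 = S.top := by
    refine Sy.down_ind (P := fun l => S.lg l = S.top) (Sy.lg_top S) (fun l hl ih => ?_) 0 (Nat.zero_le _)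
    rw [Sy.lg_step S hl, ih]
    funext z
    have hd : Dep S.lev l (fun z => Real.exp (S.m (l + 1) * S.top z)) := by
      intro z w
      simp only
      congr 2
      unfold Sy.top
      congr 1
      refine Finset.sum_congr rfl fun x _ => ?_
      exact congrArg Real.exp ((h x).mono (Nat.zero_le l) z w)
    have hm : S.m (l + 1) ≠ 0 := (hS.m_pos (by omega) (by omega)).ne'
    unfold Sy.stp
    rw [hd.J_eq, Real.log_exp]
    field_simp
  unfold Sy.fe
  rw [key]

end Vale.Agent.P157.Lv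
end

section

/-!
The model: `A` possible patterns of which the first `a` are active, fields of the levels
`0, …, K` with the strengths `s`, and spare coordinates for a tree field.
-/

open MeasureTheory ProbabilityTheory Filter Topology

namespace Vale.Agent.P157.Lv

set_option linter.unusedSectionVars false

open Par (incr Path Exponents cascade gstep patternPart spinPart topN lw)

/-- The coordinates: patterns, fields, tree. -/
abbrev Ix (A N K : ℕ) : Type := (Fin A × Fin N) ⊕ ((Fin (K + 1) × Fin N) ⊕ Fin (K + 1))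

/-- The levels. -/
def lvl {A N K : ℕ} : Ix A N K → ℕ
  | Sum.inl _ => 0
  | Sum.inr (Sum.inl p) => p.1
  | Sum.inr (Sum.inr l) => l

/-- The coordinates of the field of the level `l`. -/
def zco {A N K : ℕ} (l : ℕ) (i : Fin N) : Ix A N K := Sum.inr (Sum.inl (Fin.ofNat (K + 1) l, i))

/-- The coordinates of the tree field. -/
def yco {A N K : ℕ} (l : ℕ) : Ix A N K := Sum.inr (Sum.inr (Fin.ofNat (K + 1) l))

/-- The coordinates of the pattern `b`. -/
def gco {A N K : ℕ} (b : Fin A) (i : Fin N) : Ix A N K := Sum.inl (b, i)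

variable {X : Type} {A N K : ℕ}

/-- The energy with the first `a` patterns. -/
noncomputable def en (f : ℝ → ℝ) (u : X → ℝ) (φ : X → Fin N → ℝ) (s : ℕ → ℝ) (a : ℕ) :
    (Ix A N K → ℝ) → X → ℝ := fun z x =>
  u x + ∑ b : Fin A, (if (b : ℕ) < a then f (pf φ (gco b) z x) else 0) +
    ∑ l ∈ Finset.range (K + 1), s l * ∑ i, z (zco l i) * φ x i

/-- The partial derivatives of the energy. -/
noncomputable def enD (f' : ℝ → ℝ) (φ : X → Fin N → ℝ) (s : ℕ → ℝ) (a : ℕ) :
    Ix A N K → (Ix A N K → ℝ) → X → ℝ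
  | Sum.inl p, z, x => if (p.1 : ℕ) < a then f' (pf φ (gco p.1) z x) * (1 / √(N : ℝ) * φ x p.2) else 0
  | Sum.inr (Sum.inl p), _, x => s p.1 * φ x p.2
  | Sum.inr (Sum.inr _), _, _ => 0

/-- The model. -/
noncomputable def mdl (A : ℕ) (K : ℕ) (m : ℕ → ℝ) (f : ℝ → ℝ) (u : X → ℝ) (φ : X → Fin N → ℝ)
    (s : ℕ → ℝ) (a : ℕ) : Sy (Ix A N K) X := ⟨lvl, K, m, en f u φ s a⟩

/-- The extensive field of the level `j`. -/
noncomputable def hx (φ : X → Fin N → ℝ) (j : ℕ) : (Ix A N K → ℝ) → X → ℝ :=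
  fun z x => ∑ i, z (zco j i) * φ x i

variable [Fintype X] [DecidableEq X] [Nonempty X]

/-- Standing hypotheses on the model. -/
structure MD (K : ℕ) (m : ℕ → ℝ) (f f' f'' : ℝ → ℝ) (B C₁ C₂ : ℝ) (u : X → ℝ)
    (φ : X → Fin N → ℝ) : Prop where
  hm : Exponents K m
  hf : Pot f f' f'' C₁ C₂
  hB : ∀ x, |f x| ≤ B
  N0 : 0 < N
  norm : ∀ x, ∑ i, φ x i ^ 2 = N

variable {m : ℕ → ℝ} {f f' f'' : ℝ → ℝ} {B C₁ C₂ : ℝ} {u : X → ℝ} {φ : X → Fin N → ℝ}
  {s : ℕ → ℝ} {a : ℕ}

/-! ### Preparations -/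

lemma lm_lvl_zco {l : ℕ} (hl : l ≤ K) (i : Fin N) : lvl (zco l i : Ix A N K) = l := by
  show (Fin.ofNat (K + 1) l : ℕ) = l
  simp [Fin.ofNat, Nat.mod_eq_of_lt (Nat.lt_succ_of_le hl)]

lemma lm_lvl_yco {l : ℕ} (hl : l ≤ K) : lvl (yco l : Ix A N K) = l := by
  show (Fin.ofNat (K + 1) l : ℕ) = l
  simp [Fin.ofNat, Nat.mod_eq_of_lt (Nat.lt_succ_of_le hl)]

lemma lm_val {l : ℕ} (hl : l ≤ K) : (Fin.ofNat (K + 1) l : ℕ) = l := by
  simp [Fin.ofNat, Nat.mod_eq_of_lt (Nat.lt_succ_of_le hl)]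

lemma lm_Npos (h : MD K m f f' f'' B C₁ C₂ u φ) : (0 : ℝ) < N := by exact_mod_cast h.N0

lemma lm_B0 (h : MD K m f f' f'' B C₁ C₂ u φ) : 0 ≤ B := (abs_nonneg _).trans (h.hB 0)

lemma lm_C0 (h : MD K m f f' f'' B C₁ C₂ u φ) : 0 ≤ C₁ := (abs_nonneg _).trans (h.hf.b1 0)

lemma lm_f_lip (h : MD K m f f' f'' B C₁ C₂ u φ) (x y : ℝ) : |f x - f y| ≤ C₁ * |x - y| := by
  have h1 := Convex.norm_image_sub_le_of_norm_hasDerivWithin_le (f := f) (f' := f') (C := C₁)
    (s := Set.univ) (fun x _ => (h.hf.d1 x).hasDerivWithinAt) (fun x _ => h.hf.b1 x)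
    convex_univ (Set.mem_univ y) (Set.mem_univ x)
  simpa [Real.norm_eq_abs] using h1

lemma lm_f'_meas (h : MD K m f f' f'' B C₁ C₂ u φ) : Measurable f' :=
  (continuous_iff_continuousAt.2 fun x => (h.hf.d2 x).continuousAt).measurable

lemma lm_lip_pf {ι : Type} [Fintype ι] (φ : X → Fin N → ℝ) (g : Fin N → ι) (x : X) :
    Lip fun z => pf φ g z x :=
  (Lip.sum _ fun i _ => (Lip.coord (g i)).const_mul (φ x i)).const_mul _

lemma lm_pd_pf {ι : Type} [Fintype ι] [DecidableEq ι] (φ : X → Fin N → ℝ) (g : Fin N → ι) (x : X)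
    (e : ι) : PD e (fun z => pf φ g z x)
      (fun _ => 1 / √(N : ℝ) * ∑ i, φ x i * (if g i = e then 1 else 0)) :=
  (PD.sum Finset.univ fun i _ => (PD.coord (e := e) (g i)).const_mul (φ x i)).const_mul _

lemma lm_lip_en (h : MD K m f f' f'' B C₁ C₂ u φ) (x : X) :
    Lip fun z : Ix A N K → ℝ => en f u φ s a z x := by
  refine ((Lip.const (u x)).add (Lip.sum _ fun b _ => ?_)).add (Lip.sum _ fun l _ =>
    (Lip.sum _ fun i _ => ?_).const_mul (s l))
  · by_cases hb : (b : ℕ) < a
    · simp only [if_pos hb]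
      exact (lm_lip_pf φ (gco b) x).comp (lm_C0 h) (lm_f_lip h)
    · simp only [if_neg hb]
      exact Lip.const 0
  · have h1 := (Lip.coord (zco l i : Ix A N K)).const_mul (φ x i)
    simpa only [mul_comm] using h1

lemma lm_pd_en (h : MD K m f f' f'' B C₁ C₂ u φ) (e : Ix A N K) (x : X) :
    PD e (fun z => en f u φ s a z x) (fun z => enD f' φ s a e z x) := by
  have h1 : PD e (fun z => en f u φ s a z x) (fun z => 0 +
      ∑ b : Fin A, (if (b : ℕ) < a then f' (pf φ (gco b) z x) *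
        (1 / √(N : ℝ) * ∑ i, φ x i * (if (gco b i : Ix A N K) = e then 1 else 0)) else 0) +
      ∑ l ∈ Finset.range (K + 1), s l * ∑ i, (φ x i * (if (zco l i : Ix A N K) = e then 1 else 0))) := by
    refine ((PD.const (u x)).add (PD.sum _ fun b _ => ?_)).add (PD.sum _ fun l _ =>
      (PD.sum _ fun i _ => ?_).const_mul (s l))
    · by_cases hb : (b : ℕ) < a
      · simp only [if_pos hb]
        exact (lm_pd_pf φ (gco b) x e).comp h.hf.d1
      · simp only [if_neg hb]
        exact PD.const 0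
    · have h1 := (PD.coord (e := e) (zco l i : Ix A N K)).const_mul (φ x i)
      simpa only [mul_comm] using h1
  refine h1.congr fun z => ?_
  rw [zero_add]
  rcases e with ⟨b, i⟩ | ⟨l, i⟩ | l
  · have e2 : ∀ (l : ℕ) (j : Fin N), (zco l j : Ix A N K) ≠ Sum.inl (b, i) := by
      intro l j hh
      exact absurd hh (by simp [zco])
    simp only [e2, if_false, mul_zero, Finset.sum_const_zero, add_zero]
    rw [Finset.sum_eq_single b]
    · simp only [enD]
      congr 2
      rw [Finset.sum_eq_single i]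
      · simp [gco]
      · intro j _ hj
        simp [gco, hj]
      · intro hh
        exact absurd (Finset.mem_univ _) hh
    · intro b' _ hb'
      have e3 : ∀ j : Fin N, (gco b' j : Ix A N K) ≠ Sum.inl (b, i) := by
        intro j hh
        simp only [gco, Sum.inl.injEq, Prod.mk.injEq] at hh
        exact hb' hh.1
      simp [e3]
    · intro hh
      exact absurd (Finset.mem_univ _) hh
  · have e2 : ∀ (b : Fin A) (j : Fin N), (gco b j : Ix A N K) ≠ Sum.inr (Sum.inl (l, i)) := by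
      intro b j hh
      exact absurd hh (by simp [gco])
    simp only [e2, if_false, mul_zero, Finset.sum_const_zero, ite_self, zero_add]
    have hl : (l : ℕ) ∈ Finset.range (K + 1) := Finset.mem_range.2 l.2
    rw [Finset.sum_eq_single_of_mem (l : ℕ) hl]
    · simp only [enD]
      congr 1
      rw [Finset.sum_eq_single i]
      · simp [zco]
      · intro j _ hj
        simp [zco, hj]
      · intro hh
        exact absurd (Finset.mem_univ _) hh
    · intro l' hl' hne
      have e3 : ∀ j : Fin N, (zco l' j : Ix A N K) ≠ Sum.inr (Sum.inl (l, i)) := by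
        intro j hh
        simp only [zco, Sum.inr.injEq, Sum.inl.injEq, Prod.mk.injEq] at hh
        apply hne
        have := congrArg Fin.val hh.1
        rw [lm_val (Nat.lt_succ_iff.1 (Finset.mem_range.1 hl'))] at this
        exact this
      simp [e3]
  · have e2 : ∀ (b : Fin A) (j : Fin N), (gco b j : Ix A N K) ≠ Sum.inr (Sum.inr l) := by
      intro b j hh
      exact absurd hh (by simp [gco])
    have e3 : ∀ (l' : ℕ) (j : Fin N), (zco l' j : Ix A N K) ≠ Sum.inr (Sum.inr l) := by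
      intro l' j hh
      exact absurd hh (by simp [zco])
    simp [e2, e3, enD]

lemma lm_meas_enD (h : MD K m f f' f'' B C₁ C₂ u φ) (e : Ix A N K) (x : X) :
    Measurable fun z => enD f' φ s a e z x := by
  rcases e with ⟨b, i⟩ | ⟨l, i⟩ | l
  · by_cases hb : (b : ℕ) < a
    · simp only [enD, if_pos hb]
      exact ((lm_f'_meas h).comp (lm_lip_pf φ (gco b) x).measurable).mul_const _
    · simp only [enD, if_neg hb]
      exact measurable_const
  · exact measurable_const
  · exact measurable_const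

lemma lm_bd_enD (h : MD K m f f' f'' B C₁ C₂ u φ) :
    ∃ C : ℝ, ∀ (e : Ix A N K) (z : Ix A N K → ℝ) (x : X), |enD f' φ s a e z x| ≤ C := by
  refine ⟨∑ x : X, ∑ i : Fin N, C₁ * |1 / √(N : ℝ) * φ x i| +
    ∑ l : Fin (K + 1), ∑ x : X, ∑ i : Fin N, |s l * φ x i|, ?_⟩
  have hC0 := lm_C0 h
  have h1 : 0 ≤ ∑ x : X, ∑ i : Fin N, C₁ * |1 / √(N : ℝ) * φ x i| :=
    Finset.sum_nonneg fun _ _ => Finset.sum_nonneg fun _ _ => by positivity
  have h2 : 0 ≤ ∑ l : Fin (K + 1), ∑ x : X, ∑ i : Fin N, |s l * φ x i| :=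
    Finset.sum_nonneg fun _ _ => Finset.sum_nonneg fun _ _ => Finset.sum_nonneg fun _ _ => by
      positivity
  intro e z x
  rcases e with ⟨b, i⟩ | ⟨l, i⟩ | l
  · by_cases hb : (b : ℕ) < a
    · simp only [enD, if_pos hb]
      rw [abs_mul]
      have h3 : |f' (pf φ (gco b) z x)| * |1 / √(N : ℝ) * φ x i| ≤
          C₁ * |1 / √(N : ℝ) * φ x i| :=
        mul_le_mul_of_nonneg_right (h.hf.b1 _) (abs_nonneg _)
      have h4 : C₁ * |1 / √(N : ℝ) * φ x i| ≤ ∑ i : Fin N, C₁ * |1 / √(N : ℝ) * φ x i| :=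
        Finset.single_le_sum (f := fun i => C₁ * |1 / √(N : ℝ) * φ x i|)
          (fun _ _ => by (clear * - hC0; positivity)) (Finset.mem_univ i)
      have h5 : ∑ i : Fin N, C₁ * |1 / √(N : ℝ) * φ x i| ≤
          ∑ x : X, ∑ i : Fin N, C₁ * |1 / √(N : ℝ) * φ x i| :=
        Finset.single_le_sum (f := fun x => ∑ i : Fin N, C₁ * |1 / √(N : ℝ) * φ x i|)
          (fun _ _ => Finset.sum_nonneg fun _ _ => by positivity) (Finset.mem_univ x)
      linarith only [h2, h3, h4, h5]
    · simp only [enD, if_neg hb, abs_zero]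
      linarith only [h2, h1]
  · simp only [enD]
    have h3 : |s l * φ x i| ≤ ∑ i : Fin N, |s l * φ x i| :=
      Finset.single_le_sum (f := fun i => |s l * φ x i|) (fun _ _ => abs_nonneg _)
        (Finset.mem_univ i)
    have h4 : ∑ i : Fin N, |s l * φ x i| ≤ ∑ x : X, ∑ i : Fin N, |s l * φ x i| :=
      Finset.single_le_sum (f := fun x => ∑ i : Fin N, |s l * φ x i|)
        (fun _ _ => Finset.sum_nonneg fun _ _ => abs_nonneg _) (Finset.mem_univ x)
    have h5 : ∑ x : X, ∑ i : Fin N, |s l * φ x i| ≤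
        ∑ l : Fin (K + 1), ∑ x : X, ∑ i : Fin N, |s l * φ x i| :=
      Finset.single_le_sum (f := fun l : Fin (K + 1) => ∑ x : X, ∑ i : Fin N, |s l * φ x i|)
        (fun _ _ => Finset.sum_nonneg fun _ _ => Finset.sum_nonneg fun _ _ => abs_nonneg _)
        (Finset.mem_univ l)
    linarith
  · simp only [enD, abs_zero]
    linarith

theorem mdl_regD (h : MD K m f f' f'' B C₁ C₂ u φ) :
    (mdl A K m f u φ s a).RegD (enD f' φ s a) where
  m0 := h.hm.1
  mK := h.hm.2.1
  mono := fun l hl => (h.hm.2.2 l hl).le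
  pos := by
    have h1 := h.hm.2.2 0 (Nat.zero_le _)
    rw [h.hm.1] at h1
    exact h1
  lev := by
    intro e
    show lvl e ≤ K
    rcases e with ⟨b, i⟩ | ⟨l, i⟩ | l
    · exact Nat.zero_le _
    · exact Nat.lt_succ_iff.1 l.2
    · exact Nat.lt_succ_iff.1 l.2
  lip := fun x => lm_lip_en h x
  pd := fun e x => lm_pd_en h e x
  md := fun e x => lm_meas_enD h e x
  bd := lm_bd_enD h

theorem mdl_fld (h : MD K m f f' f'' B C₁ C₂ u φ) (hs : ∀ l ≤ K, 0 ≤ s l) :
    Fld (mdl A K m f u φ s a) (enD f' φ s a) φ zco s where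
  reg := mdl_regD h
  N0 := h.N0
  norm := h.norm
  lev := fun _ hl i => lm_lvl_zco (A := A) (K := K) hl i
  D := by
    intro l hl i z x
    have hl' : l ≤ K := hl
    show s (Fin.ofNat (K + 1) l : ℕ) * φ x i = s l * φ x i
    rw [lm_val hl']
  pos := hs

theorem mdl_new (h : MD K m f f' f'' B C₁ C₂ u φ) (ha : a < A) :
    NewC (mdl A K m f u φ s a) (enD f' φ s a) (gco ⟨a, ha⟩) yco where
  inj := by
    intro i j hij
    simp only [gco, Sum.inl.injEq, Prod.mk.injEq] at hij
    exact hij.2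
  gl := fun _ => rfl
  yl := fun _ hl => lm_lvl_yco (A := A) (N := N) (K := K) hl
  ne := by
    intro i l _ hh
    exact absurd hh (by simp [gco, yco])
  Dg := by
    intro i z x
    show (if a < a then _ else (0 : ℝ)) = 0
    rw [if_neg (lt_irrefl a)]
  Dy := fun _ _ _ _ => rfl

/-- Adding a pattern. -/
theorem en_succ (ha : a < A) (z : Ix A N K → ℝ) (x : X) :
    en f u φ s (a + 1) z x = en f u φ s a z x + f (pf φ (gco (⟨a, ha⟩ : Fin A)) z x) := by
  unfold en
  have h1 : ∑ b : Fin A, (if (b : ℕ) < a + 1 then f (pf φ (gco b) z x) else 0) =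
      ∑ b : Fin A, (if (b : ℕ) < a then f (pf φ (gco b) z x) else 0) +
        f (pf φ (gco (⟨a, ha⟩ : Fin A)) z x) := by
    have h2 : ∀ b : Fin A, (if (b : ℕ) < a + 1 then f (pf φ (gco b) z x) else 0) =
        (if (b : ℕ) < a then f (pf φ (gco b) z x) else 0) +
          (if b = ⟨a, ha⟩ then f (pf φ (gco b) z x) else 0) := by
      intro b
      by_cases hb : b = ⟨a, ha⟩
      · rw [if_pos hb, hb]
        simp
      · have hb' : (b : ℕ) ≠ a := fun hh => hb (Fin.ext hh)
        rw [if_neg hb, add_zero]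
        by_cases hb2 : (b : ℕ) < a
        · rw [if_pos hb2, if_pos (by omega)]
        · rw [if_neg hb2, if_neg (by omega)]
    rw [Finset.sum_congr rfl fun b _ => h2 b, Finset.sum_add_distrib]
    congr 1
    rw [Finset.sum_ite_eq' Finset.univ (⟨a, ha⟩ : Fin A)]
    simp
  rw [h1]
  ring

theorem mdl_succ (ha : a < A) : mdl A K m f u φ s (a + 1) = (mdl A K m f u φ s a).wH
    (fun z x => (mdl A K m f u φ s a).H z x + f (pf φ (gco (⟨a, ha⟩ : Fin A)) z x)) := by
  have h1 : en f u φ s (a + 1) = fun (z : Ix A N K → ℝ) x =>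
      en f u φ s a z x + f (pf φ (gco (⟨a, ha⟩ : Fin A)) z x) := by
    funext z x
    exact en_succ ha z x
  unfold mdl Sy.wH
  rw [h1]

/-- Changing the strength of the level `j`. -/
theorem mdl_pt {j : ℕ} (hj : j ≤ K) (t : ℝ) :
    mdl A K m f u φ (Function.update s j (s j + t)) a = (mdl A K m f u φ s a).pt (hx φ j) t := by
  have h1 : en f u φ (Function.update s j (s j + t)) a = fun (z : Ix A N K → ℝ) x =>
      en f u φ s a z x + t * hx φ j z x := by
    funext z x
    unfold en hx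
    have hj' : j ∈ Finset.range (K + 1) := Finset.mem_range.2 (Nat.lt_succ_of_le hj)
    rw [← Finset.add_sum_erase _ _ hj', ← Finset.add_sum_erase _ _ hj', Function.update_self]
    have h2 : ∑ l ∈ (Finset.range (K + 1)).erase j, Function.update s j (s j + t) l *
        ∑ i, z (zco l i) * φ x i = ∑ l ∈ (Finset.range (K + 1)).erase j, s l *
        ∑ i, z (zco l i) * φ x i := by
      refine Finset.sum_congr rfl fun l hl => ?_
      rw [Function.update_of_ne (Finset.ne_of_mem_erase hl)]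
    rw [h2]
    ring
  unfold mdl Sy.pt Sy.wH
  rw [h1]

/-- The level zero derivatives. -/
theorem sum_enD_le (h : MD K m f f' f'' B C₁ C₂ u φ) (z : Ix A N K → ℝ) (x : X) :
    ∑ e : Ix A N K, (if lvl e = 0 then enD f' φ s a e z x ^ 2 else 0) ≤
      A * C₁ ^ 2 + N * s 0 ^ 2 := by
  have hN := lm_Npos h
  rw [Fintype.sum_sum_type, Fintype.sum_sum_type]
  have h1 : ∑ p : Fin A × Fin N, (if lvl (Sum.inl p : Ix A N K) = 0 then
      enD f' φ s a (Sum.inl p) z x ^ 2 else 0) ≤ A * C₁ ^ 2 := by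
    rw [Fintype.sum_prod_type]
    have h2 : ∀ b : Fin A, ∑ i : Fin N, (if lvl (Sum.inl (b, i) : Ix A N K) = 0 then
        enD f' φ s a (Sum.inl (b, i)) z x ^ 2 else 0) ≤ C₁ ^ 2 := by
      intro b
      have h3 : ∀ i : Fin N, (if lvl (Sum.inl (b, i) : Ix A N K) = 0 then
          enD f' φ s a (Sum.inl (b, i)) z x ^ 2 else 0) ≤ C₁ ^ 2 * (1 / N) * φ x i ^ 2 := by
        intro i
        rw [if_pos (show lvl (Sum.inl (b, i) : Ix A N K) = 0 from rfl)]
        simp only [enD]
        by_cases hb : (b : ℕ) < a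
        · rw [if_pos hb]
          have h4 : f' (pf φ (gco b) z x) ^ 2 ≤ C₁ ^ 2 :=
            sq_le_sq' (abs_le.1 (h.hf.b1 _)).1 (abs_le.1 (h.hf.b1 _)).2
          have h5 : (f' (pf φ (gco b) z x) * (1 / √(N : ℝ) * φ x i)) ^ 2 =
              f' (pf φ (gco b) z x) ^ 2 * ((1 / N) * φ x i ^ 2) := by
            rw [mul_pow, mul_pow, div_pow, one_pow, Real.sq_sqrt hN.le]
          rw [h5, mul_assoc]
          exact mul_le_mul_of_nonneg_right h4 (by positivity)
        · rw [if_neg hb, zero_pow two_ne_zero]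
          positivity
      refine (Finset.sum_le_sum fun i _ => h3 i).trans (le_of_eq ?_)
      rw [← Finset.mul_sum, h.norm, mul_assoc, one_div_mul_cancel hN.ne', mul_one]
    refine (Finset.sum_le_sum fun b _ => h2 b).trans (le_of_eq ?_)
    simp
  have h2 : ∑ p : Fin (K + 1) × Fin N, (if lvl (Sum.inr (Sum.inl p) : Ix A N K) = 0 then
      enD f' φ s a (Sum.inr (Sum.inl p)) z x ^ 2 else 0) = N * s 0 ^ 2 := by
    rw [Fintype.sum_prod_type, Finset.sum_eq_single (0 : Fin (K + 1))]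
    · have h3 : ∀ i : Fin N, (if lvl (Sum.inr (Sum.inl ((0 : Fin (K + 1)), i)) : Ix A N K) = 0 then
          enD f' φ s a (Sum.inr (Sum.inl ((0 : Fin (K + 1)), i))) z x ^ 2 else 0) =
          s 0 ^ 2 * φ x i ^ 2 := by
        intro i
        rw [if_pos (by simp [lvl])]
        simp [enD, mul_pow]
      rw [Finset.sum_congr rfl fun i _ => h3 i, ← Finset.mul_sum, h.norm, mul_comm]
    · intro l _ hl
      refine Finset.sum_eq_zero fun i _ => if_neg ?_
      simp only [lvl]
      intro hh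
      exact hl (Fin.ext hh)
    · intro hh
      exact absurd (Finset.mem_univ _) hh
  have h3 : ∑ l : Fin (K + 1), (if lvl (Sum.inr (Sum.inr l) : Ix A N K) = 0 then
      enD f' φ s a (Sum.inr (Sum.inr l)) z x ^ 2 else 0) = 0 := by
    refine Finset.sum_eq_zero fun l _ => ?_
    simp [enD]
  rw [h2, h3]
  linarith

/-- The free energy per spin. -/
noncomputable def Fe (A K : ℕ) (m : ℕ → ℝ) (f : ℝ → ℝ) (u : X → ℝ) (φ : X → Fin N → ℝ) (a : ℕ)
    (s : ℕ → ℝ) : ℝ := 1 / N * (mdl A K m f u φ s a).fe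

lemma lm_hx_eq (h : MD K m f f' f'' B C₁ C₂ u φ) (l : ℕ) (z : Ix A N K → ℝ) (x : X) :
    ∑ i, z (zco l i) * φ x i = N * hz φ zco l z x := by
  unfold hz
  rw [← mul_assoc, mul_one_div_cancel (lm_Npos h).ne', one_mul]

lemma lm_nh_hz (φ : X → Fin N → ℝ) (l : ℕ) : Nh (hz φ (zco : ℕ → Fin N → Ix A N K) l) :=
  Sy.Nh.const_mul _ (Sy.Nh.sum _ fun i _ => Sy.Nh.mul (Sy.Nh.fst (EG.coord (zco l i))) (Sy.Nh.snd fun x => φ x i))

lemma lm_wH (s s' : ℕ → ℝ) (a a' : ℕ) : (mdl A K m f u φ s a).wH (en f u φ s' a') =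
    mdl A K m f u φ s' a' := rfl

/-- The tangent inequality in the strengths. -/
theorem Fe_tangent (h : MD K m f f' f'' B C₁ C₂ u φ) (s s' : ℕ → ℝ) :
    ∑ l ∈ Finset.range (K + 1), (s' l - s l) *
      (mdl A K m f u φ s a).Ex (hz φ zco l) ≤ Fe A K m f u φ a s' - Fe A K m f u φ a s := by
  have hN := lm_Npos h
  have hR : (mdl A K m f u φ s a).Reg := (mdl_regD h).toReg
  have hR' : ((mdl A K m f u φ s a).wH (en f u φ s' a)).Reg := (mdl_regD (s := s') h).toReg
  have h1 := hR.jensen hR'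
  rw [lm_wH] at h1
  have h2 : (mdl A K m f u φ s a).Ex (fun z x => en f u φ s' a z x - (mdl A K m f u φ s a).H z x) =
      N * ∑ l ∈ Finset.range (K + 1), (s' l - s l) * (mdl A K m f u φ s a).Ex (hz φ zco l) := by
    have h3 : (fun (z : Ix A N K → ℝ) x => en f u φ s' a z x - (mdl A K m f u φ s a).H z x) =
        fun z x => ∑ l ∈ Finset.range (K + 1), (N * (s' l - s l)) * hz φ zco l z x := by
      funext z x
      show en f u φ s' a z x - en f u φ s a z x = _
      unfold en
      rw [add_sub_add_left_eq_sub, ← Finset.sum_sub_distrib]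
      refine Finset.sum_congr rfl fun l _ => ?_
      rw [lm_hx_eq h]
      ring
    rw [h3, hR.Ex_sum _ fun l _ => Sy.Nh.const_mul _ (lm_nh_hz φ l), Finset.mul_sum]
    refine Finset.sum_congr rfl fun l _ => ?_
    rw [Sy.Ex_const_mul]
    ring
  rw [h2] at h1
  unfold Fe
  rw [← mul_sub, one_div, le_inv_mul_iff₀ hN]
  exact h1

/-- The fields increase the free energy. -/
theorem Fe_zero_le (h : MD K m f f' f'' B C₁ C₂ u φ) (s : ℕ → ℝ) :
    Fe A K m f u φ a (fun _ => 0) ≤ Fe A K m f u φ a s := by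
  have h1 := Fe_tangent (A := A) (a := a) h (fun _ => 0) s
  have F := mdl_fld (A := A) (a := a) (s := fun _ => 0) h (fun _ _ => le_rfl)
  have h2 : ∑ l ∈ Finset.range (K + 1), (s l - (fun _ => (0 : ℝ)) l) *
      (mdl A K m f u φ (fun _ => 0) a).Ex (hz φ zco l) = 0 := by
    refine Finset.sum_eq_zero fun l hl => ?_
    rw [F.Ex_hz (Nat.lt_succ_iff.1 (Finset.mem_range.1 hl)), zero_mul, mul_zero]
  rw [h2] at h1
  linarith

/-- The first `a` patterns change the free energy by at most `a B`. -/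
theorem abs_Fe_sub_le (h : MD K m f f' f'' B C₁ C₂ u φ) (s : ℕ → ℝ) (ha : a ≤ A) :
    |Fe A K m f u φ a s - Fe A K m f u φ 0 s| ≤ a * B / N := by
  have hN := lm_Npos h
  have hB := lm_B0 h
  have hR : (mdl A K m f u φ s 0).Reg := (mdl_regD h).toReg
  have hR' : ((mdl A K m f u φ s 0).wH (en f u φ s a)).Reg := (mdl_regD (a := a) h).toReg
  have h1 : ∀ (z : Ix A N K → ℝ) (x : X),
      |en f u φ s a z x - (mdl A K m f u φ s 0).H z x| ≤ a * B := by
    intro z x
    show |en f u φ s a z x - en f u φ s 0 z x| ≤ a * B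
    have h2 : en f u φ s a z x - en f u φ s 0 z x =
        ∑ b : Fin A, (if (b : ℕ) < a then f (pf φ (gco b) z x) else 0) := by
      unfold en
      simp only [Nat.not_lt_zero, if_false, Finset.sum_const_zero]
      ring
    rw [h2]
    refine (Finset.abs_sum_le_sum_abs _ _).trans ?_
    have h3 : ∀ b : Fin A, |(if (b : ℕ) < a then f (pf φ (gco b) z x) else 0)| ≤
        if (b : ℕ) < a then B else 0 := by
      intro b
      by_cases hb : (b : ℕ) < a
      · rw [if_pos hb, if_pos hb]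
        exact h.hB _
      · rw [if_neg hb, if_neg hb, abs_zero]
    refine (Finset.sum_le_sum fun b _ => h3 b).trans ?_
    rw [← Finset.sum_filter, Finset.sum_const, nsmul_eq_mul]
    refine mul_le_mul_of_nonneg_right ?_ hB
    have h4 : (Finset.univ.filter fun b : Fin A => (b : ℕ) < a).card ≤ a := by
      have h5 : (Finset.univ.filter fun b : Fin A => (b : ℕ) < a).card ≤
          (Finset.range a).card := by
        refine Finset.card_le_card_of_injOn (fun b : Fin A => (b : ℕ)) ?_ ?_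
        · intro b hb
          simp only [Finset.coe_filter, Finset.mem_univ, true_and, Set.mem_ofPred_eq] at hb
          simpa using hb
        · intro b _ b' _ hbb
          exact Fin.ext hbb
      rwa [Finset.card_range] at h5
    exact_mod_cast h4
  have h2 := hR.fe_sub_le hR' h1
  rw [lm_wH] at h2
  unfold Fe
  rw [← mul_sub, abs_mul, abs_of_pos (by positivity : (0 : ℝ) < 1 / N), one_div,
    inv_mul_le_iff₀ hN, mul_div_cancel₀ _ hN.ne']
  exact h2

/-- The coordinates of the patterns. -/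
lemma lm_map_inl (α β : Type) [Fintype α] [Fintype β] :
    (gI (α ⊕ β)).map (fun z p => z (Sum.inl p)) = gI α := by
  symm
  apply Measure.pi_eq
  intro s hs
  have hm : Measurable fun (z : α ⊕ β → ℝ) (p : α) => z (Sum.inl p) := by
    rw [measurable_pi_iff]
    intro p
    exact measurable_pi_apply _
  rw [Measure.map_apply hm (MeasurableSet.univ_pi hs)]
  have h1 : (fun (z : α ⊕ β → ℝ) (p : α) => z (Sum.inl p)) ⁻¹' (Set.univ.pi s) =
      Set.univ.pi (Sum.elim s fun _ => Set.univ) := by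
    ext z
    simp only [Set.mem_preimage, Set.mem_pi, Set.mem_univ, forall_true_left]
    constructor
    · intro h e
      rcases e with p | q
      · exact h p
      · exact Set.mem_univ _
    · intro h p
      exact h (Sum.inl p)
  rw [h1, Measure.pi_pi, Fintype.prod_sum_type]
  simp

/-- Currying. -/
lemma lm_map_curry (A N : ℕ) : (gI (Fin A × Fin N)).map (MeasurableEquiv.curry (Fin A) (Fin N) ℝ) =
    Measure.pi fun _ => Measure.pi fun _ => gaussianReal 0 1 := by
  have h := Measure.infinitePi_map_curry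
    (fun (_ : Fin A) (_ : Fin N) => gaussianReal 0 1)
  simp_rw [Measure.infinitePi_eq_pi] at h
  exact h

/-- Without fields. -/
theorem Fe_no_field (h : MD K m f f' f'' B C₁ C₂ u φ) :
    Fe A K m f u φ A (fun _ => 0) = 1 / N * ∫ g : Fin A → Fin N → ℝ,
      Real.log (∑ x, Real.exp (u x + ∑ b, f (1 / √(N : ℝ) * ∑ i, φ x i * g b i)))
        ∂(Measure.pi fun _ => Measure.pi fun _ => gaussianReal 0 1) := by
  have hR : (mdl A K m f u φ (fun _ => 0) A).Reg := (mdl_regD h).toReg
  have hen : ∀ (z : Ix A N K → ℝ) (x : X), en f u φ (fun _ => 0) A z x =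
      u x + ∑ b : Fin A, f (1 / √(N : ℝ) * ∑ i, φ x i * z (Sum.inl (b, i))) := by
    intro z x
    unfold en
    simp only [zero_mul, Finset.sum_const_zero, add_zero, Fin.is_lt, if_true]
    rfl
  unfold Fe
  congr 1
  rw [fe_level_zero hR]
  · have hfc : Continuous f := continuous_iff_continuousAt.2 fun x => (h.hf.d1 x).continuousAt
    have hG : Continuous fun g : Fin A → Fin N → ℝ =>
        Real.log (∑ x, Real.exp (u x + ∑ b, f (1 / √(N : ℝ) * ∑ i, φ x i * g b i))) := by
      refine Continuous.log ?_ fun g => ?_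
      · fun_prop
      · exact (Finset.sum_pos (fun _ _ => Real.exp_pos _) Finset.univ_nonempty).ne'
    have hm : Measurable fun (z : Ix A N K → ℝ) (p : Fin A × Fin N) => z (Sum.inl p) := by
      rw [measurable_pi_iff]
      intro p
      exact measurable_pi_apply _
    rw [← lm_map_curry A N, integral_map
      (MeasurableEquiv.curry (Fin A) (Fin N) ℝ).measurable.aemeasurable
      hG.aestronglyMeasurable, ← lm_map_inl (Fin A × Fin N) ((Fin (K + 1) × Fin N) ⊕ Fin (K + 1)),
      integral_map hm.aemeasurable]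
    · refine integral_congr_ae (Filter.Eventually.of_forall fun z => ?_)
      show Real.log (∑ x, Real.exp (en f u φ (fun _ => 0) A z x)) = _
      simp only [hen]
      rfl
    · exact (hG.measurable.comp
        (MeasurableEquiv.curry (Fin A) (Fin N) ℝ).measurable).aestronglyMeasurable
  · intro x z w
    show en f u φ (fun _ => 0) A (mix lvl 0 z w) x = en f u φ (fun _ => 0) A z x
    rw [hen, hen]
    rfl

/-- Without patterns. -/
theorem Fe_no_pattern (h : MD K m f f' f'' B C₁ C₂ u φ) (hs : ∀ l ≤ K, 0 ≤ s l) :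
    Fe A K m f u φ 0 s =
      1 / N * topN m (fun l => ∑ j ∈ Finset.range (l + 1), s j ^ 2) K (lw φ 1 u) := by
  unfold Fe
  congr 1
  have h1 := fe_field (S := mdl A K m f u φ s 0) (mdl_regD h) (φ := φ) (u := u) (zc := zco)
    (s := s) (fun l hl i => lm_lvl_zco (A := A) (K := K) hl i) (fun l hl i j hij => by
      simp only [zco, Sum.inr.injEq, Sum.inl.injEq, Prod.mk.injEq] at hij
      exact hij.2) hs (fun z x => by
      show en f u φ s 0 z x = _
      unfold en
      simp only [Nat.not_lt_zero, if_false, Finset.sum_const_zero, add_zero]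
      rfl)
  exact h1

/-- Without patterns and fields. -/
theorem Fe_zero_zero (h : MD K m f f' f'' B C₁ C₂ u φ) :
    Fe A K m f u φ 0 (fun _ => 0) = 1 / N * Real.log (∑ x, Real.exp (u x)) := by
  have hR : (mdl A K m f u φ (fun _ => 0) 0).Reg := (mdl_regD h).toReg
  have hen : ∀ (z : Ix A N K → ℝ) (x : X), en f u φ (fun _ => 0) 0 z x = u x := by
    intro z x
    unfold en
    simp
  unfold Fe
  congr 1
  rw [fe_level_zero hR]
  · have h1 : (mdl A K m f u φ (fun _ => 0) 0).top = fun _ => Real.log (∑ x, Real.exp (u x)) := by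
      funext z
      show Real.log (∑ x, Real.exp (en f u φ (fun _ => 0) 0 z x)) = _
      simp only [hen]
    rw [h1]
    simp
  · intro x z w
    show en f u φ (fun _ => 0) 0 (mix lvl 0 z w) x = en f u φ (fun _ => 0) 0 z x
    rw [hen, hen]

/-- The mean of the field of the level zero is at most one (the level zero is not tilted). -/
theorem Ex_hz_zero_le (h : MD K m f f' f'' B C₁ C₂ u φ) :
    (mdl A K m f u φ s a).Ex (hz φ zco 0) ≤ 1 := by
  have hN := lm_Npos h
  have hR : (mdl A K m f u φ s a).Reg := (mdl_regD h).toReg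
  have hn := lm_nh_hz (A := A) (K := K) φ 0
  have h1 := hR.Ex_cs hn (g := fun _ _ => 1) (Sy.Nh.snd fun _ => 1)
  simp only [mul_one, one_pow, hR.Ex_const] at h1
  set F : (Ix A N K → ℝ) → ℝ := fun z => 1 / N * ∑ i, z (zco 0 i) ^ 2 with hF
  have hFe : EG F := EG.const_mul _ (EG.sum _ fun i _ => (EG.coord (zco 0 i)).pow 2)
  have h2 : (mdl A K m f u φ s a).Ex (fun z x => hz φ zco 0 z x ^ 2) ≤
      (mdl A K m f u φ s a).Ex (fun z _ => F z) := by
    refine hR.Ex_mono (Sy.Nh.pow hn 2) (Sy.Nh.fst hFe) fun z x => ?_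
    have h3 := Finset.sum_mul_sq_le_sq_mul_sq Finset.univ (fun i => z (zco 0 i)) (φ x)
    rw [h.norm] at h3
    show (1 / N * ∑ i, z (zco 0 i) * φ x i) ^ 2 ≤ 1 / N * ∑ i, z (zco 0 i) ^ 2
    rw [mul_pow]
    calc (1 / (N : ℝ)) ^ 2 * (∑ i, z (zco 0 i) * φ x i) ^ 2 ≤
        (1 / (N : ℝ)) ^ 2 * ((∑ i, z (zco 0 i) ^ 2) * N) :=
          mul_le_mul_of_nonneg_left h3 (by positivity)
      _ = _ := by field_simp
  have h3 : (mdl A K m f u φ s a).Ex (fun z _ => F z) = ∫ z, F z ∂(gI _) := by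
    refine hR.Ex_dep ?_ hFe
    intro z w
    show 1 / (N : ℝ) * ∑ i, mix lvl 0 z w (zco 0 i) ^ 2 = 1 / N * ∑ i, z (zco 0 i) ^ 2
    have h4 : ∀ i : Fin N, mix lvl 0 z w (zco 0 i) = z (zco 0 i) := by
      intro i
      unfold mix
      rw [if_pos (lm_lvl_zco (Nat.zero_le _) i).le]
    simp only [h4]
  have h4 : ∫ z, F z ∂(gI (Ix A N K)) = 1 := by
    have h5 : ∀ e : Ix A N K, ∫ z : Ix A N K → ℝ, z e ^ 2 ∂(gI _) = 1 := by
      intro e
      have h6 := PD.stein (PD.coord (e := e) e) (EG.coord e) (EG.of_bdd (C := 1)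
        measurable_const fun y => by simp)
      have h7 : (fun z : Ix A N K → ℝ => z e ^ 2) = fun z => z e * z e := by
        funext z
        ring
      rw [h7, h6]
      simp
    rw [hF, integral_const_mul, integral_finsetSum _ fun i _ =>
      ((EG.coord (zco 0 i)).pow 2).integrable]
    simp only [h5]
    rw [Finset.sum_const, Finset.card_univ, Fintype.card_fin, nsmul_eq_mul, mul_one,
      one_div_mul_cancel hN.ne']
  rw [h3, h4] at h2
  have h5 : (mdl A K m f u φ s a).Ex (hz φ zco 0) ^ 2 ≤ 1 := h1.trans h2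
  exact (le_abs_self _).trans (abs_le_one_iff_mul_self_le_one.2 (by linarith [sq ((mdl A K m f u φ s a).Ex (hz φ zco 0))]))

end Vale.Agent.P157.Lv
end

section

/-!
The optimal strengths of the fields: existence, bounds, first and second order conditions,
concentration of the fields.
-/

open MeasureTheory ProbabilityTheory Filter Topology

namespace Vale.Agent.P157.Lv

set_option linter.unusedSectionVars false

open Par (incr Path Exponents cascade gstep patternPart spinPart topN lw)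

/-- The coefficients `a_j = 1 - ∑_{l ≥ j} p_l q_l`. -/
noncomputable def aco (K : ℕ) (m q : ℕ → ℝ) (j : ℕ) : ℝ :=
  1 - ∑ l ∈ Finset.Ico j (K + 1), (m (l + 1) - m l) * q l

/-- The penalty. -/
noncomputable def Pen (K : ℕ) (m q : ℕ → ℝ) (η : ℝ) (s : ℕ → ℝ) : ℝ :=
  ∑ j ∈ Finset.range (K + 1), (1 / 2 * (aco K m q j + η) * s j ^ 2 + η / s j)

lemma o8_m_nonneg {K : ℕ} {m : ℕ → ℝ} (hm : Exponents K m) : ∀ j ≤ K + 1, 0 ≤ m j := by
  intro j
  induction j with
  | zero => intro _; rw [hm.1]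
  | succ j ih => intro hj; exact (ih (by omega)).trans (hm.2.2 j (by omega)).le

lemma o8_q_le {K : ℕ} {q : ℕ → ℝ} (hq : Path K q) (hq1 : q K ≤ 1) :
    ∀ l ≤ K, 0 ≤ q l ∧ q l ≤ 1 := by
  have h0 : ∀ l ≤ K, 0 ≤ q l := by
    intro l
    induction l with
    | zero => intro _; exact hq.1
    | succ l ih => intro hl; exact (ih (by omega)).trans (hq.2 l (by omega))
  have h1 : ∀ d l, l + d = K → q l ≤ q K := by
    intro d
    induction d with
    | zero => intro l hl; rw [← hl]; simp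
    | succ d ih => intro l hl; exact (hq.2 l (by omega)).trans (ih (l + 1) (by omega))
  intro l hl
  exact ⟨h0 l hl, (h1 (K - l) l (by omega)).trans hq1⟩

lemma aco_nonneg {K : ℕ} {m q : ℕ → ℝ} (hm : Exponents K m) (hq : Path K q) (hq1 : q K ≤ 1)
    {j : ℕ} (hj : j ≤ K) : 0 ≤ aco K m q j := by
  have h1 : ∑ l ∈ Finset.Ico j (K + 1), (m (l + 1) - m l) * q l ≤
      ∑ l ∈ Finset.Ico j (K + 1), (m (l + 1) - m l) := by
    refine Finset.sum_le_sum fun l hl => ?_
    rw [Finset.mem_Ico] at hl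
    have h2 := o8_q_le hq hq1 l (by omega)
    have h3 := hm.2.2 l (by omega)
    linarith only [mul_nonneg (le_of_lt (sub_pos.2 h3)) (sub_nonneg.2 h2.2)]
  rw [Finset.sum_Ico_sub _ (by omega : j ≤ K + 1), hm.2.1] at h1
  have h2 := o8_m_nonneg hm j (by omega)
  unfold aco
  linarith

lemma aco_le_one {K : ℕ} {m q : ℕ → ℝ} (hm : Exponents K m) (hq : Path K q)
    {j : ℕ} (hj : j ≤ K) : aco K m q j ≤ 1 := by
  have h0 : ∀ l ≤ K, 0 ≤ q l := by
    intro l
    induction l with
    | zero => intro _; exact hq.1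
    | succ l ih => intro hl; exact (ih (by omega)).trans (hq.2 l (by omega))
  have h1 : 0 ≤ ∑ l ∈ Finset.Ico j (K + 1), (m (l + 1) - m l) * q l := by
    refine Finset.sum_nonneg fun l hl => ?_
    rw [Finset.mem_Ico] at hl
    have h3 := hm.2.2 l (by omega)
    exact mul_nonneg (by linarith) (h0 l (by omega))
  unfold aco
  linarith

/-- Summation by parts: the quadratic part of the penalty in terms of the path `r`. -/
lemma sum_aco (K : ℕ) (m q s : ℕ → ℝ) :
    1 / 2 * ∑ j ∈ Finset.range (K + 1), aco K m q j * s j ^ 2 =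
      1 / 2 * ∑ j ∈ Finset.range (K + 1), s j ^ 2 - 1 / 2 * ∑ l ∈ Finset.range (K + 1),
        (m (l + 1) - m l) * (∑ j ∈ Finset.range (l + 1), s j ^ 2) * q l := by
  have h1 : ∑ j ∈ Finset.range (K + 1), aco K m q j * s j ^ 2 =
      ∑ j ∈ Finset.range (K + 1), s j ^ 2 - ∑ j ∈ Finset.range (K + 1),
        ∑ l ∈ Finset.Ico j (K + 1), (m (l + 1) - m l) * q l * s j ^ 2 := by
    rw [← Finset.sum_sub_distrib]
    refine Finset.sum_congr rfl fun j _ => ?_
    unfold aco
    rw [sub_mul, one_mul, Finset.sum_mul]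
  have h2 : ∑ j ∈ Finset.range (K + 1),
      ∑ l ∈ Finset.Ico j (K + 1), (m (l + 1) - m l) * q l * s j ^ 2 =
      ∑ l ∈ Finset.range (K + 1), ∑ j ∈ Finset.range (l + 1),
        (m (l + 1) - m l) * q l * s j ^ 2 := by
    refine Finset.sum_comm' fun j l => ?_
    simp only [Finset.mem_range, Finset.mem_Ico]
    omega
  have h3 : ∑ l ∈ Finset.range (K + 1), ∑ j ∈ Finset.range (l + 1),
        (m (l + 1) - m l) * q l * s j ^ 2 = ∑ l ∈ Finset.range (K + 1),
        (m (l + 1) - m l) * (∑ j ∈ Finset.range (l + 1), s j ^ 2) * q l := by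
    refine Finset.sum_congr rfl fun l _ => ?_
    rw [← Finset.mul_sum]
    ring
  rw [h1, h2, h3]
  ring

variable {X : Type} [Fintype X] [DecidableEq X] [Nonempty X] {A N K : ℕ}
  {m q : ℕ → ℝ} {f f' f'' : ℝ → ℝ} {B C₁ C₂ : ℝ} {u : X → ℝ} {φ : X → Fin N → ℝ}
  {s : ℕ → ℝ} {a : ℕ} {η : ℝ}

/-- The objective. -/
noncomputable def Ob (A K : ℕ) (m q : ℕ → ℝ) (η : ℝ) (f : ℝ → ℝ) (u : X → ℝ)
    (φ : X → Fin N → ℝ) (a : ℕ) (s : ℕ → ℝ) : ℝ := Fe A K m f u φ a s - Pen K m q η s

/-- Optimal strengths. -/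
structure IsOpt (A K : ℕ) (m q : ℕ → ℝ) (η : ℝ) (f : ℝ → ℝ) (u : X → ℝ)
    (φ : X → Fin N → ℝ) (a : ℕ) (s : ℕ → ℝ) : Prop where
  pos : ∀ j ≤ K, 0 < s j
  max : ∀ s' : ℕ → ℝ, (∀ j ≤ K, 0 < s' j) → Ob A K m q η f u φ a s' ≤ Ob A K m q η f u φ a s

/-- The objective depends only on the strengths of the levels `0, …, K`. -/
lemma o8_mdl_congr {s s' : ℕ → ℝ} (hs : ∀ j ≤ K, s j = s' j) :
    mdl A K m f u φ s a = mdl A K m f u φ s' a := by
  unfold mdl
  congr 1
  funext z x
  unfold en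
  congr 1
  refine Finset.sum_congr rfl fun l hl => ?_
  rw [Finset.mem_range] at hl
  rw [hs l (by omega)]

lemma o8_Fe_congr {s s' : ℕ → ℝ} (hs : ∀ j ≤ K, s j = s' j) :
    Fe A K m f u φ a s = Fe A K m f u φ a s' := by
  unfold Fe
  rw [o8_mdl_congr hs]

lemma o8_Pen_congr {s s' : ℕ → ℝ} (hs : ∀ j ≤ K, s j = s' j) :
    Pen K m q η s = Pen K m q η s' := by
  unfold Pen
  refine Finset.sum_congr rfl fun l hl => ?_
  rw [Finset.mem_range] at hl
  rw [hs l (by omega)]

lemma o8_Ob_congr {s s' : ℕ → ℝ} (hs : ∀ j ≤ K, s j = s' j) :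
    Ob A K m q η f u φ a s = Ob A K m q η f u φ a s' := by
  unfold Ob
  rw [o8_Fe_congr hs, o8_Pen_congr hs]

/-- Strengths from a vector. -/
def o8_ext (v : Fin (K + 1) → ℝ) (j : ℕ) : ℝ := if h : j < K + 1 then v ⟨j, h⟩ else 0

lemma o8_ext_apply (v : Fin (K + 1) → ℝ) {j : ℕ} (hj : j ≤ K) :
    o8_ext v j = v ⟨j, Nat.lt_succ_of_le hj⟩ := dif_pos _

lemma o8_ext_res (s : ℕ → ℝ) : ∀ j ≤ K, s j = o8_ext (fun i : Fin (K + 1) => s i) j := by
  intro j hj
  rw [o8_ext_apply _ hj]

/-- The upper bound of the objective. -/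
lemma o8_Ob_le (h : MD K m f f' f'' B C₁ C₂ u φ) (hη : 0 < η) (ha : a ≤ A) {C : ℝ}
    (hC : ∀ s : ℕ → ℝ, (∀ j ≤ K, 0 ≤ s j) → Fe A K m f u φ 0 s -
      1 / 2 * ∑ j ∈ Finset.range (K + 1), aco K m q j * s j ^ 2 ≤ C) (hs : ∀ j ≤ K, 0 < s j)
    {j : ℕ} (hj : j ≤ K) :
    η / 2 * s j ^ 2 + η / s j ≤ C + a * B / N - Ob A K m q η f u φ a s := by
  have h1 := hC s fun j hj => (hs j hj).le
  have h2 := (abs_le.1 (abs_Fe_sub_le (A := A) h s ha)).2
  have h3 : Pen K m q η s = 1 / 2 * ∑ j ∈ Finset.range (K + 1), aco K m q j * s j ^ 2 +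
      ∑ j ∈ Finset.range (K + 1), (η / 2 * s j ^ 2 + η / s j) := by
    unfold Pen
    rw [Finset.mul_sum, ← Finset.sum_add_distrib]
    refine Finset.sum_congr rfl fun l _ => ?_
    ring
  have h4 : η / 2 * s j ^ 2 + η / s j ≤
      ∑ j ∈ Finset.range (K + 1), (η / 2 * s j ^ 2 + η / s j) := by
    refine Finset.single_le_sum (f := fun j => η / 2 * s j ^ 2 + η / s j) (fun l hl => ?_)
      (Finset.mem_range.2 (by omega : j < K + 1))
    rw [Finset.mem_range] at hl
    have := hs l (by omega)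
    positivity
  unfold Ob
  linarith only [h1, h2, h3, h4]

/-- The free energy is convex in the strengths. -/
lemma o8_convex (h : MD K m f f' f'' B C₁ C₂ u φ) :
    ConvexOn ℝ Set.univ fun v : Fin (K + 1) → ℝ => Fe A K m f u φ a (o8_ext v) := by
  refine ⟨convex_univ, fun x _ y _ α β hα hβ hαβ => ?_⟩
  have h1 := Fe_tangent (A := A) (a := a) h (o8_ext (α • x + β • y)) (o8_ext x)
  have h2 := Fe_tangent (A := A) (a := a) h (o8_ext (α • x + β • y)) (o8_ext y)
  have h3 : α * (∑ l ∈ Finset.range (K + 1), (o8_ext x l - o8_ext (α • x + β • y) l) *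
      (mdl A K m f u φ (o8_ext (α • x + β • y)) a).Ex (hz φ zco l)) +
      β * (∑ l ∈ Finset.range (K + 1), (o8_ext y l - o8_ext (α • x + β • y) l) *
      (mdl A K m f u φ (o8_ext (α • x + β • y)) a).Ex (hz φ zco l)) = 0 := by
    rw [Finset.mul_sum, Finset.mul_sum, ← Finset.sum_add_distrib]
    refine Finset.sum_eq_zero fun l hl => ?_
    rw [Finset.mem_range] at hl
    have hl' : l ≤ K := by omega
    rw [o8_ext_apply _ hl', o8_ext_apply _ hl', o8_ext_apply _ hl']
    simp only [Pi.add_apply, Pi.smul_apply, smul_eq_mul]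
    generalize (mdl A K m f u φ (o8_ext (α • x + β • y)) a).Ex (hz φ zco l) = E
    have h4 : β = 1 - α := by linarith only [hαβ]
    subst h4
    ring
  have h4 := mul_le_mul_of_nonneg_left h1 hα
  have h5 := mul_le_mul_of_nonneg_left h2 hβ
  have h6 : Fe A K m f u φ a (o8_ext (α • x + β • y)) =
      α * Fe A K m f u φ a (o8_ext (α • x + β • y)) +
      β * Fe A K m f u φ a (o8_ext (α • x + β • y)) := by
    rw [← add_mul, hαβ, one_mul]
  simp only [smul_eq_mul]
  linarith only [h3, h4, h5, h6]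

/-- Existence. Proof: `Fe 0 s - (1/2) ∑ a_j s_j² ≤ C` and `abs_Fe_sub_le` make the objective tend to
`-∞` at infinity (like `-(η/2) |s|²`) and at the boundary of the orthant (like `-η / s_j`); it is
continuous (`Fe_tangent`). -/
theorem exists_opt (h : MD K m f f' f'' B C₁ C₂ u φ) (hη : 0 < η) (ha : a ≤ A) {C : ℝ}
    (hC : ∀ s : ℕ → ℝ, (∀ j ≤ K, 0 ≤ s j) → Fe A K m f u φ 0 s -
      1 / 2 * ∑ j ∈ Finset.range (K + 1), aco K m q j * s j ^ 2 ≤ C) :
    ∃ s, IsOpt A K m q η f u φ a s := by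
  classical
  obtain ⟨V, hV⟩ : ∃ V, V = Ob A K m q η f u φ a (fun _ => 1) := ⟨_, rfl⟩
  obtain ⟨M, hM⟩ : ∃ M, M = C + a * B / N - V := ⟨_, rfl⟩
  have hM0 : η / 2 + η ≤ M := by
    have := o8_Ob_le (q := q) (s := fun _ => (1 : ℝ)) h hη ha hC (fun _ _ => one_pos)
      (Nat.zero_le K)
    rw [hM, hV]
    simpa using this
  have hMpos : 0 < M := by linarith only [hη, hM0]
  -- strengths with a large value lie in a box
  have hbox : ∀ s : ℕ → ℝ, (∀ j ≤ K, 0 < s j) → V ≤ Ob A K m q η f u φ a s →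
      ∀ j ≤ K, η / M ≤ s j ∧ s j ≤ 1 + 2 * M / η := by
    intro s hs hVs j hj
    have h1 := o8_Ob_le h hη ha hC hs hj
    have hsj := hs j hj
    have h2 : 0 ≤ η / 2 * s j ^ 2 := by positivity
    have h3 : 0 ≤ η / s j := by positivity
    constructor
    · have h4 : η / s j ≤ M := by linarith only [h2, h1, hVs, hM]
      rw [div_le_iff₀ hsj] at h4
      rw [div_le_iff₀ hMpos]
      linarith only [h4]
    · have h4 : η / 2 * s j ^ 2 ≤ M := by linarith only [hM, hVs, h1, h3]
      have h5 : s j ^ 2 ≤ 2 * M / η := by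
        rw [le_div_iff₀ hη]
        linarith only [hM, hVs, h1, h3]
      linarith only [hsj, h5, sq_nonneg (s j - 1)]
  -- the maximum over the box
  obtain ⟨Kb, hKb⟩ : ∃ Kb : Set (Fin (K + 1) → ℝ),
      Kb = Set.Icc (fun _ => η / M) (fun _ => 1 + 2 * M / η) := ⟨_, rfl⟩
  have hcomp : IsCompact Kb := by rw [hKb]; exact isCompact_Icc
  have hpos : ∀ v ∈ Kb, ∀ j ≤ K, 0 < o8_ext v j := by
    intro v hv j hj
    rw [hKb] at hv
    rw [o8_ext_apply _ hj]
    exact lt_of_lt_of_le (by positivity) (hv.1 _)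
  have hFc : Continuous fun v : Fin (K + 1) → ℝ => Fe A K m f u φ a (o8_ext v) := by
    rw [← continuousOn_univ]
    exact (o8_convex h).continuousOn isOpen_univ
  have hPc : ContinuousOn (fun v : Fin (K + 1) → ℝ => Pen K m q η (o8_ext v)) Kb := by
    unfold Pen
    refine continuousOn_finsetSum _ fun j hj => ?_
    rw [Finset.mem_range] at hj
    have hj' : j ≤ K := by omega
    have hc : Continuous fun v : Fin (K + 1) → ℝ => o8_ext v j := by
      have : (fun v : Fin (K + 1) → ℝ => o8_ext v j) =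
          fun v => v ⟨j, Nat.lt_succ_of_le hj'⟩ := by
        funext v
        exact o8_ext_apply v hj'
      rw [this]
      exact continuous_apply _
    refine ContinuousOn.add ((hc.pow 2).const_mul _).continuousOn ?_
    exact continuousOn_const.div hc.continuousOn fun v hv => (hpos v hv j hj').ne'
  have hOc : ContinuousOn (fun v : Fin (K + 1) → ℝ => Ob A K m q η f u φ a (o8_ext v)) Kb :=
    hFc.continuousOn.sub hPc
  have h1mem : (fun _ => (1 : ℝ)) ∈ Kb := by
    rw [hKb]
    have h2 := hbox (fun _ => 1) (fun _ _ => one_pos) hV.le 0 (Nat.zero_le _)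
    exact ⟨fun _ => h2.1, fun _ => h2.2⟩
  obtain ⟨v, hv, hmax⟩ := hcomp.exists_isMaxOn ⟨_, h1mem⟩ hOc
  have hVv : V ≤ Ob A K m q η f u φ a (o8_ext v) := by
    have h2 : Ob A K m q η f u φ a (o8_ext (fun _ : Fin (K + 1) => (1 : ℝ))) ≤
      Ob A K m q η f u φ a (o8_ext v) := hmax h1mem
    rw [hV, o8_Ob_congr (o8_ext_res (K := K) fun _ => (1 : ℝ))]
    exact h2
  refine ⟨o8_ext v, hpos v hv, fun s' hs' => ?_⟩
  by_cases hc : V ≤ Ob A K m q η f u φ a s'
  · have h2 := hbox s' hs' hc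
    have h3 : (fun i : Fin (K + 1) => s' i) ∈ Kb := by
      rw [hKb]
      exact ⟨fun i => (h2 i (Nat.le_of_lt_succ i.2)).1, fun i => (h2 i (Nat.le_of_lt_succ i.2)).2⟩
    have h4 : Ob A K m q η f u φ a (o8_ext (fun i : Fin (K + 1) => s' i)) ≤
      Ob A K m q η f u φ a (o8_ext v) := hmax h3
    rw [o8_Ob_congr (o8_ext_res s')]
    exact h4
  · exact (not_le.1 hc).le.trans hVv

/-- The penalty along one coordinate. -/
noncomputable def o8_pj (K : ℕ) (m q : ℕ → ℝ) (η : ℝ) (j : ℕ) (x : ℝ) : ℝ :=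
  1 / 2 * (aco K m q j + η) * x ^ 2 + η / x

lemma o8_Pen_update {j : ℕ} (hj : j ≤ K) (x : ℝ) :
    Pen K m q η (Function.update s j x) - Pen K m q η s =
      o8_pj K m q η j x - o8_pj K m q η j (s j) := by
  unfold Pen
  rw [← Finset.sum_sub_distrib, Finset.sum_eq_single j]
  · rw [Function.update_self]
    rfl
  · intro l _ hl
    rw [Function.update_of_ne hl, sub_self]
  · intro hl
    exact absurd (Finset.mem_range.2 (by omega)) hl

lemma IsOpt.o8_Fe_update (ho : IsOpt A K m q η f u φ a s) {j : ℕ} (hj : j ≤ K) {x : ℝ}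
    (hx : 0 < x) : Fe A K m f u φ a (Function.update s j x) - Fe A K m f u φ a s ≤
      o8_pj K m q η j x - o8_pj K m q η j (s j) := by
  have h1 := ho.max (Function.update s j x) (fun l hl => by
    by_cases hlj : l = j
    · subst hlj
      rw [Function.update_self]
      exact hx
    · rw [Function.update_of_ne hlj]
      exact ho.pos l hl)
  have h2 := o8_Pen_update (m := m) (q := q) (η := η) (s := s) hj x
  unfold Ob at h1
  linarith only [h1, h2]

/-- First order condition. -/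
theorem IsOpt.first (h : MD K m f f' f'' B C₁ C₂ u φ) (ho : IsOpt A K m q η f u φ a s)
    {j : ℕ} (hj : j ≤ K) :
    (mdl A K m f u φ s a).Ex (hz φ zco j) = (aco K m q j + η) * s j - η / s j ^ 2 := by
  have hsj := ho.pos j hj
  obtain ⟨E, hE⟩ : ∃ E, E = (mdl A K m f u φ s a).Ex (hz φ zco j) := ⟨_, rfl⟩
  rw [← hE]
  have hmin : IsLocalMin (fun x => o8_pj K m q η j x - E * x) (s j) := by
    filter_upwards [eventually_gt_nhds hsj] with x hx
    have h1 := ho.o8_Fe_update hj hx
    have h2 := Fe_tangent (A := A) (a := a) h s (Function.update s j x)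
    have h3 : ∑ l ∈ Finset.range (K + 1), (Function.update s j x l - s l) *
        (mdl A K m f u φ s a).Ex (hz φ zco l) = (x - s j) * E := by
      rw [Finset.sum_eq_single j]
      · rw [Function.update_self, hE]
      · intro l _ hl
        rw [Function.update_of_ne hl, sub_self, zero_mul]
      · intro hl
        exact absurd (Finset.mem_range.2 (by omega)) hl
    rw [h3] at h2
    linarith only [h1, h2]
  have hd : HasDerivAt (fun x => o8_pj K m q η j x - E * x)
      ((aco K m q j + η) * s j - η / s j ^ 2 - E) (s j) := by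
    have h1 : HasDerivAt (fun x : ℝ => 1 / 2 * (aco K m q j + η) * x ^ 2)
        (1 / 2 * (aco K m q j + η) * (2 * s j)) (s j) := by
      have := (hasDerivAt_pow 2 (s j)).const_mul (1 / 2 * (aco K m q j + η))
      simpa using this
    have h2 : HasDerivAt (fun x : ℝ => η / x) (-(η / s j ^ 2)) (s j) := by
      have := (hasDerivAt_inv hsj.ne').const_mul η
      refine (this.congr_of_eventuallyEq (Eventually.of_forall fun x => ?_)).congr_deriv ?_
      · exact div_eq_mul_inv _ _
      · ring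
    have h3 := (h1.add h2).sub ((hasDerivAt_id (s j)).const_mul E)
    refine h3.congr_deriv ?_
    ring
  have h0 := hmin.hasDerivAt_eq_zero hd
  linarith only [h0]

/-- The overlaps at the optimum (from `Fld.Ex_hz`). -/
theorem IsOpt.tails (h : MD K m f f' f'' B C₁ C₂ u φ) (ho : IsOpt A K m q η f u φ a s)
    {j : ℕ} (hj : j ≤ K) :
    ∑ l ∈ Finset.Ico j (K + 1), (m (l + 1) - m l) *
      ((mdl A K m f u φ s a).Rl φ l - q l) = η / s j ^ 3 - η := by
  have hsj := ho.pos j hj
  have h1 := ho.first h hj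
  have h2 : (mdl A K m f u φ s a).Ex (hz φ zco j) =
      s j * (1 - ∑ i ∈ Finset.Ico j (K + 1), (m (i + 1) - m i) *
        (mdl A K m f u φ s a).Rl φ i) :=
    (mdl_fld (A := A) (a := a) h fun l hl => (ho.pos l hl).le).Ex_hz (l := j) hj
  rw [h2] at h1
  unfold aco at h1
  have h3 : ∑ l ∈ Finset.Ico j (K + 1), (m (l + 1) - m l) *
      ((mdl A K m f u φ s a).Rl φ l - q l) =
      ∑ l ∈ Finset.Ico j (K + 1), (m (l + 1) - m l) * (mdl A K m f u φ s a).Rl φ l -
      ∑ l ∈ Finset.Ico j (K + 1), (m (l + 1) - m l) * q l := by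
    rw [← Finset.sum_sub_distrib]
    exact Finset.sum_congr rfl fun l _ => by ring
  rw [h3]
  generalize ∑ l ∈ Finset.Ico j (K + 1), (m (l + 1) - m l) *
    (mdl A K m f u φ s a).Rl φ l = P at h1 ⊢
  generalize ∑ l ∈ Finset.Ico j (K + 1), (m (l + 1) - m l) * q l = Q at h1 ⊢
  have h4 : s j * (P - Q) = s j * (η / s j ^ 3 - η) := by
    have h5 : s j * (η / s j ^ 3) = η / s j ^ 2 := by
      field_simp
    rw [mul_sub (s j) (η / s j ^ 3), h5]
    linarith only [h1]
  exact mul_left_cancel₀ hsj.ne' h4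

/-- Second order condition, for the extensive free energy. -/
theorem IsOpt.second (h : MD K m f f' f'' B C₁ C₂ u φ) (ho : IsOpt A K m q η f u φ a s)
    (hη : 0 < η) {j : ℕ} (hj : j ≤ K) {t : ℝ} (ht : 0 < t) (ht' : t ≤ s j / 2) :
    ((mdl A K m f u φ s a).pt (hx φ j) t).fe + ((mdl A K m f u φ s a).pt (hx φ j) (-t)).fe -
      2 * (mdl A K m f u φ s a).fe ≤ N * ((aco K m q j + η + 3 * η / s j ^ 3) * t ^ 2) := by
  have hsj := ho.pos j hj
  have hN : (0 : ℝ) < N := by exact_mod_cast h.N0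
  have h1 := ho.o8_Fe_update hj (x := s j + t) (by linarith only [ht, ht'])
  have h2 := ho.o8_Fe_update hj (x := s j + -t) (by linarith only [ht, ht'])
  rw [← mdl_pt hj t, ← mdl_pt hj (-t)]
  have h3 : o8_pj K m q η j (s j + t) + o8_pj K m q η j (s j + -t) -
      2 * o8_pj K m q η j (s j) ≤ (aco K m q j + η + 3 * η / s j ^ 3) * t ^ 2 := by
    have h4 : η / (s j + t) + η / (s j + -t) - 2 * (η / s j) ≤ 3 * η / s j ^ 3 * t ^ 2 := by
      have hp : 0 < s j + t := by linarith
      have hq : 0 < s j + -t := by linarith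
      have h5 : η / (s j + t) + η / (s j + -t) - 2 * (η / s j) =
          η * (2 * t ^ 2) / (s j * ((s j + t) * (s j + -t))) := by
        field_simp
        ring
      have h6 : 3 * η / s j ^ 3 * t ^ 2 = η * (3 * t ^ 2) / s j ^ 3 := by ring
      rw [h5, h6, div_le_div_iff₀ (by positivity) (by positivity)]
      have h7 : 2 * s j ^ 2 ≤ 3 * ((s j + t) * (s j + -t)) := by nlinarith only [ht, ht']
      have h8 : 0 ≤ η * t ^ 2 * s j := by positivity
      linarith only [mul_le_mul_of_nonneg_left h7 h8]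
    unfold o8_pj
    linarith only [h4]
  have h4 : Fe A K m f u φ a (Function.update s j (s j + t)) +
      Fe A K m f u φ a (Function.update s j (s j + -t)) - 2 * Fe A K m f u φ a s ≤
      (aco K m q j + η + 3 * η / s j ^ 3) * t ^ 2 := by linarith only [h1, h2, h3]
  have h5 := mul_le_mul_of_nonneg_left h4 hN.le
  unfold Fe at h5
  have h6 : ∀ y : ℝ, (N : ℝ) * (1 / N * y) = y := fun y => by field_simp
  have h7 : (N : ℝ) * (1 / N * (mdl A K m f u φ (Function.update s j (s j + t)) a).fe +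
      1 / N * (mdl A K m f u φ (Function.update s j (s j + -t)) a).fe -
      2 * (1 / N * (mdl A K m f u φ s a).fe)) =
      (mdl A K m f u φ (Function.update s j (s j + t)) a).fe +
      (mdl A K m f u φ (Function.update s j (s j + -t)) a).fe -
      2 * (mdl A K m f u φ s a).fe := by
    field_simp
  rw [h7] at h5
  exact h5

/-- The lower bound of the optimal strengths: `∑ η / s_j ≤ C + 2 a B / N + 3 (K + 1)`, by comparison
with the strengths equal to `η^(1/3)`. -/
theorem IsOpt.lower (h : MD K m f f' f'' B C₁ C₂ u φ) (ho : IsOpt A K m q η f u φ a s)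
    (hq : Path K q) (hq1 : q K ≤ 1) (hη : 0 < η) (hη1 : η ≤ 1) (ha : a ≤ A) {C : ℝ}
    (hu : ∑ x, Real.exp (u x) = 1)
    (hC : ∀ s : ℕ → ℝ, (∀ j ≤ K, 0 ≤ s j) → Fe A K m f u φ 0 s -
      1 / 2 * ∑ j ∈ Finset.range (K + 1), aco K m q j * s j ^ 2 ≤ C) {j : ℕ} (hj : j ≤ K) :
    η ≤ s j * (C + 2 * (a * B / N) + 3 * (K + 1)) := by
  have hsj := ho.pos j hj
  have h1 := o8_Ob_le h hη ha hC ho.pos hj
  have h2 := ho.max (fun _ => 1) (fun _ _ => one_pos)
  have h3 := Fe_zero_le (A := A) (a := a) h (fun _ => 1)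
  have h4 := (abs_le.1 (abs_Fe_sub_le (A := A) h (fun _ => 0) ha)).1
  rw [Fe_zero_zero h, hu, Real.log_one, mul_zero] at h4
  have h5 : Pen K m q η (fun _ => 1) ≤ 2 * (K + 1) := by
    have h6 : ∀ l ∈ Finset.range (K + 1),
        1 / 2 * (aco K m q l + η) * (1 : ℝ) ^ 2 + η / 1 ≤ 2 := by
      intro l hl
      rw [Finset.mem_range] at hl
      have := aco_le_one h.hm hq (by omega : l ≤ K)
      linarith only [hη1, this]
    have h7 := Finset.sum_le_sum h6
    rw [Finset.sum_const, Finset.card_range, nsmul_eq_mul] at h7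
    unfold Pen
    push_cast at h7
    linarith only [h7]
  have h6 : 0 ≤ η / 2 * s j ^ 2 := by positivity
  have h7 : η / s j ≤ C + 2 * (a * B / N) + 2 * (K + 1) := by
    have h8 : Ob A K m q η f u φ a (fun _ => 1) =
      Fe A K m f u φ a (fun _ => 1) - Pen K m q η (fun _ => 1) := rfl
    linarith only [h1, h2, h3, h4, h5, h6, h8]
  rw [div_le_iff₀ hsj] at h7
  have hK : (0 : ℝ) ≤ K := Nat.cast_nonneg K
  linarith only [h7, mul_pos hsj (show (0 : ℝ) < K + 1 by linarith only [hK])]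

/-- The upper bound of the strength of the level zero. -/
theorem IsOpt.upper (h : MD K m f f' f'' B C₁ C₂ u φ) (ho : IsOpt A K m q η f u φ a s)
    (hq : Path K q) (hq1 : q K ≤ 1) (hη : 0 < η) {σ : ℝ} (hσ : 0 < σ) (hs : σ ≤ s 0) :
    s 0 ≤ 1 / η + 1 / σ ^ 2 := by
  have hs0 := ho.pos 0 (Nat.zero_le _)
  have h1 := ho.first h (Nat.zero_le K)
  have h2 := Ex_hz_zero_le (A := A) (a := a) (s := s) h
  have h3 := aco_nonneg h.hm hq hq1 (Nat.zero_le K)
  have h4 : η / s 0 ^ 2 ≤ η / σ ^ 2 := by gcongr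
  have h5 : η * s 0 ≤ 1 + η / σ ^ 2 := by
    have := mul_nonneg h3 hs0.le
    linarith only [h1, h2, h4, this]
  have h6 : s 0 ≤ (1 + η / σ ^ 2) / η := by
    rw [le_div_iff₀ hη]
    linarith only [h5]
  refine h6.trans (le_of_eq ?_)
  field_simp

lemma o8_nh_hx (j : ℕ) : Nh (ι := Ix A N K) (hx φ j) := by
  intro x
  unfold hx
  exact EG.sum _ fun i _ => (EG.coord _).mul (EG.const _)

/-- The variance of the free energy near the optimum. -/
lemma o8_var (h : MD K m f f' f'' B C₁ C₂ u φ) (ho : IsOpt A K m q η f u φ a s)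
    {σ S₀ α₀ : ℝ} (hs : ∀ j ≤ K, σ ≤ s j) (hs0 : s 0 ≤ S₀)
    (hA : (A : ℝ) ≤ α₀ * N) {j : ℕ} (hj : j ≤ K) {t : ℝ} (ht1 : |t| ≤ 1) (ht2 : |t| ≤ σ / 2) :
    ∫ z, (((mdl A K m f u φ s a).pt (hx φ j) t).lg 0 z -
      ((mdl A K m f u φ s a).pt (hx φ j) t).fe) ^ 2 ∂(gI (Ix A N K)) ≤
      2 * (N * (α₀ * C₁ ^ 2 + (S₀ + 1) ^ 2)) := by
  have hN : (0 : ℝ) < N := by exact_mod_cast h.N0
  rw [← mdl_pt hj t]
  refine (mdl_regD (A := A) (a := a) (s := Function.update s j (s j + t)) h).var_lg_zero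
    (V := N * (α₀ * C₁ ^ 2 + (S₀ + 1) ^ 2)) fun z x => ?_
  refine (sum_enD_le h z x).trans ?_
  have h0 := ho.pos 0 (Nat.zero_le _)
  have h1 := abs_le.1 ht1
  have h2 := abs_le.1 ht2
  have h3 : |Function.update s j (s j + t) 0| ≤ S₀ + 1 := by
    by_cases hj0 : j = 0
    · subst hj0
      rw [Function.update_self, abs_le]
      have := hs 0 (Nat.zero_le _)
      constructor <;> linarith only [hs0, h0, this, h1.1, h1.2, h2.1, h2.2]
    · rw [Function.update_of_ne (Ne.symm hj0), abs_le]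
      constructor <;> linarith only [hs0, h0]
  have h4 : (Function.update s j (s j + t) 0) ^ 2 ≤ (S₀ + 1) ^ 2 := by
    rw [← sq_abs]
    exact pow_le_pow_left₀ (abs_nonneg _) h3 2
  have h5 : (A : ℝ) * C₁ ^ 2 ≤ α₀ * N * C₁ ^ 2 := mul_le_mul_of_nonneg_right hA (sq_nonneg _)
  linarith only [h5, mul_le_mul_of_nonneg_left h4 hN.le]

/-- **Concentration of the fields at the optimum**, uniformly in the system. The constants: `σ`
bounds the strengths from below, `t ≤ σ / 2`, `t ≤ 1`. Proof: `Reg.conc` for the observable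
`hx φ j`, divided by `N`; variance: `sum_enD_le` with `s 0 + t`. -/
theorem IsOpt.conc (h : MD K m f f' f'' B C₁ C₂ u φ) (ho : IsOpt A K m q η f u φ a s)
    (hq : Path K q) (hq1 : q K ≤ 1) (hη : 0 < η) (hη1 : η ≤ 1) {σ S₀ α₀ : ℝ} (hσ : 0 < σ)
    (hs : ∀ j ≤ K, σ ≤ s j) (hs0 : s 0 ≤ S₀) (hA : (A : ℝ) ≤ α₀ * N) {j : ℕ} (hj : j ≤ K) {t : ℝ}
    (ht : 0 < t) (ht1 : t ≤ 1) (ht2 : t ≤ σ / 2) :
    ∃ c : ℝ, (mdl A K m f u φ s a).Ex (fun z x => |hz φ zco j z x - c|) ≤
      √((2 + 3 / σ ^ 3) / (m 1 * N)) + (2 + 3 / σ ^ 3) * t +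
        4 * √(2 * (α₀ * C₁ ^ 2 + (S₀ + 1) ^ 2) / N) / t := by
  have hN : (0 : ℝ) < N := by exact_mod_cast h.N0
  have hR : (mdl A K m f u φ s a).Reg := (mdl_regD h).toReg
  have hreg : ∀ t, ((mdl A K m f u φ s a).pt (hx φ j) t).Reg := fun t => by
    rw [← mdl_pt hj t]
    exact (mdl_regD h).toReg
  obtain ⟨Q, hQ⟩ : ∃ Q, Q = (N : ℝ) * (2 + 3 / σ ^ 3) := ⟨_, rfl⟩
  obtain ⟨V, hV⟩ : ∃ V, V = 2 * ((N : ℝ) * (α₀ * C₁ ^ 2 + (S₀ + 1) ^ 2)) := ⟨_, rfl⟩
  have hsec : ∀ t', 0 < t' → t' ≤ min 1 (σ / 2) →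
      ((mdl A K m f u φ s a).pt (hx φ j) t').fe + ((mdl A K m f u φ s a).pt (hx φ j) (-t')).fe -
        2 * (mdl A K m f u φ s a).fe ≤ Q * t' ^ 2 := by
    intro t' h1 h2
    have h3 := hs j hj
    refine (ho.second h hη hj h1 ((h2.trans (min_le_right _ _)).trans (by linarith only [h3]))).trans ?_
    have h4 : 3 * η / s j ^ 3 ≤ 3 / σ ^ 3 := by
      have : 3 * η ≤ 3 := by linarith only [hη1]
      gcongr
    have h5 := aco_le_one h.hm hq hj
    have h6 : aco K m q j + η + 3 * η / s j ^ 3 ≤ 2 + 3 / σ ^ 3 := by linarith only [hη1, h4, h5]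
    rw [hQ, mul_assoc]
    gcongr
  obtain ⟨c, hc⟩ := hR.conc (o8_nh_hx j) hreg (Q := Q) (V := V) (t₀ := min 1 (σ / 2))
    (lt_min one_pos (by positivity)) hsec (fun t' ht' => by
      rw [hV]
      exact o8_var h ho hs hs0 hA hj (ht'.trans (min_le_left _ _)) (ht'.trans (min_le_right _ _)))
    ht (le_min ht1 ht2)
  refine ⟨1 / N * c, ?_⟩
  have e1 : (fun (z : Ix A N K → ℝ) x => |hz φ zco j z x - 1 / N * c|) =
      fun z x => 1 / (N : ℝ) * |hx φ j z x - c| := by
    funext z x
    have : hz φ zco j z x - 1 / N * c = 1 / N * (hx φ j z x - c) := by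
      unfold hz hx
      ring
    rw [this, abs_mul, abs_of_pos (by positivity)]
  rw [e1, Sy.Ex_const_mul]
  have h1 := mul_le_mul_of_nonneg_left hc (show 0 ≤ 1 / (N : ℝ) by positivity)
  refine h1.trans (le_of_eq ?_)
  have hsq : ∀ y : ℝ, 1 / (N : ℝ) * √(N * y) = √(y / N) := by
    intro y
    have e2 : y / N = (N * y) / N ^ 2 := by
      field_simp
    rw [e2, Real.sqrt_div' _ (sq_nonneg _), Real.sqrt_sq hN.le]
    ring
  have e3 : √(Q / (mdl A K m f u φ s a).m 1) = √(N * ((2 + 3 / σ ^ 3) / m 1)) := by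
    congr 1
    show Q / m 1 = _
    rw [hQ]
    ring
  have e4 : √V = √(N * (2 * (α₀ * C₁ ^ 2 + (S₀ + 1) ^ 2))) := by
    congr 1
    rw [hV]
    ring
  have e5 : (2 + 3 / σ ^ 3) / (m 1 * N) = (2 + 3 / σ ^ 3) / m 1 / N := by
    rw [div_div]
  rw [e3, e4, e5, ← hsq, ← hsq, hQ]
  field_simp

end Vale.Agent.P157.Lv
end

section

/-!
P146, generic systems: an arbitrary energy `E` of the level zero coordinates `ι₀` together with
fields of the levels `0, …, K` with the strengths `s`.
-/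

open MeasureTheory ProbabilityTheory Filter Topology

namespace Vale.Agent.P146.Sk.Gen

set_option linter.unusedSectionVars false

open Vale.Agent.P157 Vale.Agent.P157.Lv
open Vale.Agent.P157.Par (Path Exponents topN lw)

/-- The coordinates: level zero coordinates `ι₀`, and the fields. -/
abbrev GI (ι₀ : Type) (N K : ℕ) : Type := ι₀ ⊕ (Fin (K + 1) × Fin N)

/-- The levels. -/
def gl {ι₀ : Type} {N K : ℕ} : GI ι₀ N K → ℕ
  | Sum.inl _ => 0
  | Sum.inr p => p.1

/-- The coordinates of the field of the level `l`. -/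
def gz {ι₀ : Type} {N K : ℕ} (l : ℕ) (i : Fin N) : GI ι₀ N K := Sum.inr (Fin.ofNat (K + 1) l, i)

/-- The level zero coordinates. -/
def r0 {ι₀ : Type} {N K : ℕ} (z : GI ι₀ N K → ℝ) : ι₀ → ℝ := fun e => z (Sum.inl e)

variable {ι₀ X : Type} {N K : ℕ}

/-- The energy. -/
noncomputable def gH (E : (ι₀ → ℝ) → X → ℝ) (φ : X → Fin N → ℝ) (s : ℕ → ℝ) :
    (GI ι₀ N K → ℝ) → X → ℝ := fun z x =>
  E (r0 z) x + ∑ l ∈ Finset.range (K + 1), s l * ∑ i, z (gz l i) * φ x i

/-- The partial derivatives of the energy. -/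
noncomputable def gD (D : ι₀ → (ι₀ → ℝ) → X → ℝ) (φ : X → Fin N → ℝ) (s : ℕ → ℝ) :
    GI ι₀ N K → (GI ι₀ N K → ℝ) → X → ℝ
  | Sum.inl e, z, x => D e (r0 z) x
  | Sum.inr p, _, x => s p.1 * φ x p.2

/-- The system. -/
noncomputable def gS (K : ℕ) (m : ℕ → ℝ) (E : (ι₀ → ℝ) → X → ℝ) (φ : X → Fin N → ℝ)
    (s : ℕ → ℝ) : Sy (GI ι₀ N K) X := ⟨gl, K, m, gH E φ s⟩

/-- The extensive field of the level `j`. -/
noncomputable def gx (φ : X → Fin N → ℝ) (j : ℕ) : (GI ι₀ N K → ℝ) → X → ℝ :=
  fun z x => ∑ i, z (gz j i) * φ x i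

variable [Fintype ι₀] [DecidableEq ι₀] [Fintype X] [DecidableEq X] [Nonempty X]

/-- Standing hypotheses. -/
structure GD (K : ℕ) (m : ℕ → ℝ) (E : (ι₀ → ℝ) → X → ℝ) (D : ι₀ → (ι₀ → ℝ) → X → ℝ)
    (φ : X → Fin N → ℝ) : Prop where
  hm : Exponents K m
  lip : ∀ x, Lip fun z => E z x
  pd : ∀ e x, PD e (fun z => E z x) (fun z => D e z x)
  md : ∀ e x, Measurable fun z => D e z x
  bd : ∃ C : ℝ, ∀ e z x, |D e z x| ≤ C
  N0 : 0 < N
  norm : ∀ x, ∑ i, φ x i ^ 2 = N

/-- The free energy per spin. -/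
noncomputable def gF (K : ℕ) (m : ℕ → ℝ) (E : (ι₀ → ℝ) → X → ℝ) (φ : X → Fin N → ℝ)
    (s : ℕ → ℝ) : ℝ := 1 / N * (gS K m E φ s).fe

variable {m : ℕ → ℝ} {E E' : (ι₀ → ℝ) → X → ℝ} {D D' : ι₀ → (ι₀ → ℝ) → X → ℝ}
  {φ : X → Fin N → ℝ} {s : ℕ → ℝ}

omit [Fintype ι₀] [DecidableEq ι₀] in
lemma gl_gz {l : ℕ} (hl : l ≤ K) (i : Fin N) : gl (gz l i : GI ι₀ N K) = l := by
  show ((Fin.ofNat (K + 1) l : Fin (K + 1)) : ℕ) = l
  simp only [Fin.ofNat, Nat.mod_eq_of_lt (Nat.lt_succ_of_le hl)]

omit [Fintype ι₀] [DecidableEq ι₀] in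
lemma gz_eq_iff {l : ℕ} (hl : l ≤ K) (i : Fin N) (p : Fin (K + 1) × Fin N) :
    (gz l i : GI ι₀ N K) = Sum.inr p ↔ l = (p.1 : ℕ) ∧ i = p.2 := by
  unfold gz
  rw [Sum.inr.injEq, Prod.ext_iff, Fin.ext_iff]
  have : ((Fin.ofNat (K + 1) l : Fin (K + 1)) : ℕ) = l := by
    simp only [Fin.ofNat, Nat.mod_eq_of_lt (Nat.lt_succ_of_le hl)]
  simp only [this]

omit [DecidableEq ι₀] [Fintype X] [DecidableEq X] [Nonempty X] in
lemma norm_r0_le (z z' : GI ι₀ N K → ℝ) : ‖r0 z - r0 z'‖ ≤ ‖z - z'‖ := by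
  refine (pi_norm_le_iff_of_nonneg (norm_nonneg _)).2 fun e => ?_
  exact norm_le_pi_norm (z - z') (Sum.inl e)

omit [DecidableEq ι₀] [Fintype X] [DecidableEq X] [Nonempty X] in
lemma Lip.r0 {F : (ι₀ → ℝ) → ℝ} (hF : Lip F) : Lip fun z : GI ι₀ N K → ℝ => F (Gen.r0 z) := by
  obtain ⟨L, hL, h⟩ := hF
  exact ⟨L, hL, fun y y' => (h _ _).trans (mul_le_mul_of_nonneg_left (norm_r0_le y y') hL)⟩

omit [Fintype ι₀] [DecidableEq ι₀] in
lemma measurable_r0 : Measurable (r0 : (GI ι₀ N K → ℝ) → ι₀ → ℝ) :=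
  measurable_pi_lambda _ fun _ => measurable_pi_apply _

omit [DecidableEq ι₀] [Fintype X] [DecidableEq X] [Nonempty X] in
lemma EG.r0 {F : (ι₀ → ℝ) → ℝ} (hF : EG F) : EG fun z : GI ι₀ N K → ℝ => F (Gen.r0 z) := by
  obtain ⟨C, a, hC, ha, hb⟩ := hF.bdd
  refine ⟨hF.meas.comp measurable_r0, C, a, hC, ha, fun y => (hb _).trans ?_⟩
  have h1 : ‖Gen.r0 y‖ ≤ ‖y‖ := by
    have := norm_r0_le y 0
    rw [sub_zero] at this
    refine le_trans (le_of_eq ?_) this
    congr 1
    funext e
    simp [Gen.r0]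
  gcongr

lemma r0_update_inl (z : GI ι₀ N K → ℝ) (e : ι₀) (t : ℝ) :
    r0 (Function.update z (Sum.inl e) t) = Function.update (r0 z) e t := by
  funext e'
  unfold r0
  by_cases h : e' = e
  · subst h
    rw [Function.update_self, Function.update_self]
  · rw [Function.update_of_ne h, Function.update_of_ne (fun hc => h (Sum.inl_injective hc))]

lemma r0_update_inr (z : GI ι₀ N K → ℝ) (p : Fin (K + 1) × Fin N) (t : ℝ) :
    r0 (Function.update z (Sum.inr p) t) = r0 z := by
  funext e'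
  unfold r0
  rw [Function.update_of_ne (fun hc => by cases hc)]

lemma PD.r0 {F F' : (ι₀ → ℝ) → ℝ} {e : ι₀} (hd : PD e F F') :
    PD (Sum.inl e) (fun z : GI ι₀ N K → ℝ => F (Gen.r0 z)) (fun z => F' (Gen.r0 z)) := by
  intro y x
  simp only [r0_update_inl]
  exact hd (Gen.r0 y) x

/-- The fields. -/
lemma pd_fields (φ : X → Fin N → ℝ) (s : ℕ → ℝ) (x : X) (e : GI ι₀ N K) :
    PD e (fun z : GI ι₀ N K → ℝ => ∑ l ∈ Finset.range (K + 1), s l * ∑ i, z (gz l i) * φ x i)
      (fun _ => match e with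
        | Sum.inl _ => 0
        | Sum.inr p => s p.1 * φ x p.2) := by
  have h1 : PD e (fun z : GI ι₀ N K → ℝ =>
      ∑ l ∈ Finset.range (K + 1), s l * ∑ i, z (gz l i) * φ x i)
      (fun _ => ∑ l ∈ Finset.range (K + 1), s l * ∑ i,
        (if (gz l i : GI ι₀ N K) = e then 1 else 0) * φ x i) := by
    refine PD.sum _ fun l _ => PD.const_mul (PD.sum _ fun i _ => ?_) _
    refine ((PD.coord (e := e) (gz l i)).mul (PD.const (φ x i))).congr fun y => ?_
    ring
  refine h1.congr fun y => ?_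
  cases e with
  | inl e =>
    simp [gz]
  | inr p =>
    simp only
    rw [Finset.sum_eq_single (p.1 : ℕ)]
    · rw [Finset.sum_eq_single p.2]
      · rw [if_pos ((gz_eq_iff (Nat.le_of_lt_succ p.1.2) p.2 p).2 ⟨rfl, rfl⟩), one_mul]
      · intro i _ hi
        rw [if_neg fun hc => hi ((gz_eq_iff (Nat.le_of_lt_succ p.1.2) i p).1 hc).2, zero_mul]
      · intro h
        exact absurd (Finset.mem_univ _) h
    · intro l hl hne
      rw [Finset.mem_range] at hl
      rw [Finset.sum_eq_zero, mul_zero]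
      intro i _
      rw [if_neg fun hc => hne ((gz_eq_iff (Nat.le_of_lt_succ hl) i p).1 hc).1, zero_mul]
    · intro h
      exact absurd (Finset.mem_range.2 p.1.2) h

theorem gS_regD (h : GD K m E D φ) (s : ℕ → ℝ) : (gS K m E φ s).RegD (gD D φ s) where
  m0 := h.hm.1
  mK := h.hm.2.1
  mono := fun l hl => (h.hm.2.2 l hl).le
  pos := by
    have := h.hm.2.2 0 (Nat.zero_le _)
    rw [h.hm.1] at this
    exact this
  lev := by
    rintro (e | p)
    · exact Nat.zero_le _
    · exact Nat.le_of_lt_succ p.1.2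
  lip := fun x => by
    refine (Lip.r0 (h.lip x)).add (Lip.sum _ fun l _ => Lip.const_mul (Lip.sum _ fun i _ => ?_) _)
    have := (Lip.coord (gz l i : GI ι₀ N K)).const_mul (φ x i)
    simpa [mul_comm] using this
  pd := fun e x => by
    have h2 := pd_fields (ι₀ := ι₀) (K := K) φ s x e
    cases e with
    | inl e =>
      exact ((PD.r0 (h.pd e x)).add h2).congr fun y => by
        show D e (Gen.r0 y) x + 0 = D e (Gen.r0 y) x
        rw [add_zero]
    | inr p =>
      have h1 : PD (Sum.inr p) (fun z : GI ι₀ N K → ℝ => E (Gen.r0 z) x) (fun _ => 0) :=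
        PD.of_indep fun y t => by rw [r0_update_inr]
      exact (h1.add h2).congr fun y => by
        show 0 + s p.1 * φ x p.2 = s p.1 * φ x p.2
        rw [zero_add]
  md := fun e x => by
    cases e with
    | inl e => exact (h.md e x).comp measurable_r0
    | inr p => exact measurable_const
  bd := by
    obtain ⟨C, hC⟩ := h.bd
    refine ⟨max C (∑ p : (Fin (K + 1) × Fin N) × X, |s p.1.1 * φ p.2 p.1.2|), fun e z x => ?_⟩
    cases e with
    | inl e => exact (hC e (r0 z) x).trans (le_max_left _ _)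
    | inr p =>
      refine le_trans ?_ (le_max_right _ _)
      exact Finset.single_le_sum
        (f := fun p : (Fin (K + 1) × Fin N) × X => |s p.1.1 * φ p.2 p.1.2|)
        (fun _ _ => abs_nonneg _) (Finset.mem_univ (p, x))

theorem gS_reg (h : GD K m E D φ) (s : ℕ → ℝ) : (gS K m E φ s).Reg := (gS_regD h s).toReg

theorem gS_fld (h : GD K m E D φ) (hs : ∀ l ≤ K, 0 ≤ s l) :
    Fld (gS K m E φ s) (gD D φ s) φ gz s where
  reg := gS_regD h s
  N0 := h.N0
  norm := h.norm
  lev := fun l hl i => gl_gz (ι₀ := ι₀) (N := N) (K := K) hl i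
  D := fun l hl i z x => by
    show s ((Fin.ofNat (K + 1) l : Fin (K + 1)) : ℕ) * φ x i = s l * φ x i
    have : ((Fin.ofNat (K + 1) l : Fin (K + 1)) : ℕ) = l := Nat.mod_eq_of_lt (Nat.lt_succ_of_le hl)
    rw [this]
  pos := hs

/-- Changing the strength of the level `j`. -/
theorem gS_pt {j : ℕ} (hj : j ≤ K) (t : ℝ) :
    gS K m E φ (Function.update s j (s j + t)) = (gS K m E φ s).pt (gx φ j) t := by
  unfold gS Sy.pt Sy.wH
  congr 1
  funext z x
  show E (r0 z) x + ∑ l ∈ Finset.range (K + 1), Function.update s j (s j + t) l *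
      ∑ i, z (gz l i) * φ x i =
    (E (r0 z) x + ∑ l ∈ Finset.range (K + 1), s l * ∑ i, z (gz l i) * φ x i) + t * gx φ j z x
  have hj' : j ∈ Finset.range (K + 1) := Finset.mem_range.2 (by omega)
  rw [add_assoc]
  congr 1
  rw [← Finset.add_sum_erase _ _ hj', ← Finset.add_sum_erase _
    (fun l => s l * ∑ i, z (gz l i) * φ x i) hj', Function.update_self]
  have h1 : ∑ l ∈ (Finset.range (K + 1)).erase j, Function.update s j (s j + t) l *
      ∑ i, z (gz l i) * φ x i =
      ∑ l ∈ (Finset.range (K + 1)).erase j, s l * ∑ i, z (gz l i) * φ x i := by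
    refine Finset.sum_congr rfl fun l hl => ?_
    rw [Function.update_of_ne (Finset.ne_of_mem_erase hl)]
  rw [h1]
  unfold gx
  ring

/-- The free energy is above its tangents: general energies. -/
theorem gS_jensen (h : GD K m E D φ) (h' : GD K m E' D' φ) (s s' : ℕ → ℝ) :
    (gS K m E φ s).Ex (fun z x => gH E' φ s' z x - gH E φ s z x) ≤
      (gS K m E' φ s').fe - (gS K m E φ s).fe :=
  Sy.Reg.jensen (S := gS K m E φ s) (H' := gH E' φ s') (gS_reg h s) (gS_reg h' s')

lemma nh_gx (j : ℕ) : Nh (ι := GI ι₀ N K) (gx φ j) := by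
  intro x
  unfold gx
  exact EG.sum _ fun i _ => (EG.coord _).mul (EG.const _)

lemma hz_eq (j : ℕ) (z : GI ι₀ N K → ℝ) (x : X) : hz φ gz j z x = 1 / N * gx φ j z x := rfl

lemma nh_hz (j : ℕ) : Nh (ι := GI ι₀ N K) (hz φ gz j) := Sy.Nh.const_mul _ (nh_gx j)

/-- The tangent inequality in the strengths. -/
theorem gF_tangent (h : GD K m E D φ) (s s' : ℕ → ℝ) :
    ∑ l ∈ Finset.range (K + 1), (s' l - s l) * (gS K m E φ s).Ex (hz φ gz l) ≤
      gF K m E φ s' - gF K m E φ s := by
  have hN : (0 : ℝ) < N := by exact_mod_cast h.N0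
  have h1 := gS_jensen h h s s'
  have h2 : (fun (z : GI ι₀ N K → ℝ) (x : X) => gH E φ s' z x - gH E φ s z x) = fun z x =>
      ∑ l ∈ Finset.range (K + 1), (N * (s' l - s l)) * hz φ gz l z x := by
    funext z x
    unfold gH
    rw [add_sub_add_left_eq_sub, ← Finset.sum_sub_distrib]
    refine Finset.sum_congr rfl fun l _ => ?_
    rw [hz_eq]
    unfold gx
    field_simp
  rw [h2, (gS_reg h s).Ex_sum _ (fun l _ => Sy.Nh.const_mul _ (nh_hz l))] at h1
  simp only [Sy.Ex_const_mul] at h1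
  unfold gF
  rw [← mul_sub]
  have h3 := mul_le_mul_of_nonneg_left h1 (show 0 ≤ 1 / (N : ℝ) by positivity)
  refine le_trans (le_of_eq ?_) h3
  rw [Finset.mul_sum]
  refine Finset.sum_congr rfl fun l _ => ?_
  field_simp

/-- The tangent inequality in the energy. -/
theorem gF_tangentE (h : GD K m E D φ) (h' : GD K m E' D' φ) (s : ℕ → ℝ) :
    1 / N * (gS K m E φ s).Ex (fun z x => E' (r0 z) x - E (r0 z) x) ≤
      gF K m E' φ s - gF K m E φ s := by
  have h1 := gS_jensen h h' s s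
  have h2 : (fun (z : GI ι₀ N K → ℝ) (x : X) => gH E' φ s z x - gH E φ s z x) = fun z x =>
      E' (r0 z) x - E (r0 z) x := by
    funext z x
    unfold gH
    ring
  rw [h2] at h1
  unfold gF
  rw [← mul_sub]
  exact mul_le_mul_of_nonneg_left h1 (by positivity)

/-- The fields increase the free energy. -/
theorem gF_zero_le (h : GD K m E D φ) (s : ℕ → ℝ) :
    gF K m E φ (fun _ => 0) ≤ gF K m E φ s := by
  have h1 := gF_tangent h (fun _ => 0) s
  have h2 : ∑ l ∈ Finset.range (K + 1), (s l - 0) *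
      (gS K m E φ (fun _ => 0)).Ex (hz φ gz l) = 0 := by
    refine Finset.sum_eq_zero fun l hl => ?_
    rw [Finset.mem_range] at hl
    rw [(gS_fld h (s := fun _ => 0) fun _ _ => le_rfl).Ex_hz (l := l) (Nat.le_of_lt_succ hl)]
    ring
  rw [h2] at h1
  linarith

lemma J_dep_zero_int {W : (ι₀ → ℝ) → ℝ} (hW : EG W) :
    ∫ z : GI ι₀ N K → ℝ, W (r0 z) ∂(gI (GI ι₀ N K)) = ∫ y, W y ∂(gI ι₀) := by
  have h1 : MeasurePreserving (MeasurableEquiv.sumPiEquivProdPi fun _ : GI ι₀ N K => ℝ)
      (gI (GI ι₀ N K)) ((gI ι₀).prod (gI (Fin (K + 1) × Fin N))) :=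
    measurePreserving_sumPiEquivProdPi fun _ : GI ι₀ N K => gaussianReal 0 1
  have h2 : MeasurePreserving (r0 : (GI ι₀ N K → ℝ) → ι₀ → ℝ) (gI (GI ι₀ N K)) (gI ι₀) :=
    measurePreserving_fst.comp h1
  rw [← integral_map h2.measurable.aemeasurable
    (by rw [h2.map_eq]; exact hW.meas.aestronglyMeasurable), h2.map_eq]

/-- Functions of the level zero coordinates are not tilted. -/
theorem gS_Ex_zero (h : GD K m E D φ) (s : ℕ → ℝ) {W : (ι₀ → ℝ) → ℝ} (hW : EG W) :
    (gS K m E φ s).Ex (fun z _ => W (r0 z)) = ∫ y, W y ∂(gI ι₀) := by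
  have h1 : Dep (gS K m E φ s).lev 0 fun z : GI ι₀ N K → ℝ => W (r0 z) := by
    intro z w
    have : r0 (mix (gS K m E φ s).lev 0 z w) = r0 z := by
      funext e
      unfold r0 mix
      exact if_pos (le_refl 0)
    show W (r0 (mix (gS K m E φ s).lev 0 z w)) = W (r0 z)
    rw [this]
  rw [(gS_reg h s).Ex_dep h1 (EG.r0 hW), J_dep_zero_int hW]

/-- The mean of the field of the level zero is at most one (the level zero is not tilted). -/
theorem gS_Ex_hz_zero_le (h : GD K m E D φ) (s : ℕ → ℝ) :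
    (gS K m E φ s).Ex (hz φ gz 0) ≤ 1 := by
  have hN : (0 : ℝ) < N := by exact_mod_cast h.N0
  have hR := gS_reg h s
  have e1 : EG fun z : GI ι₀ N K → ℝ => ∑ i : Fin N, z (gz 0 i) ^ 2 :=
    EG.sum _ fun i _ => (EG.coord _).pow 2
  have h1 : (gS K m E φ s).Ex (hz φ gz 0) ≤ (gS K m E φ s).Ex fun z _ =>
      1 / 2 + 1 / (2 * N) * ∑ i : Fin N, z (gz 0 i) ^ 2 := by
    refine hR.Ex_mono (nh_hz 0) (fun _ => (EG.const _).add (e1.const_mul _)) fun z x => ?_
    have h2 : ∑ i : Fin N, z (gz 0 i) * φ x i ≤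
        ∑ i : Fin N, (1 / 2 * z (gz 0 i) ^ 2 + 1 / 2 * φ x i ^ 2) :=
      Finset.sum_le_sum fun i _ => by linarith only [sq_nonneg (z (gz 0 i) - φ x i)]
    rw [Finset.sum_add_distrib, ← Finset.mul_sum, ← Finset.mul_sum, h.norm x] at h2
    rw [hz_eq]
    unfold gx
    have h3 := mul_le_mul_of_nonneg_left h2 (show 0 ≤ 1 / (N : ℝ) by positivity)
    refine h3.trans (le_of_eq ?_)
    field_simp
    ring
  refine h1.trans (le_of_eq ?_)
  have hdep : Dep (gS K m E φ s).lev 0 fun z : GI ι₀ N K → ℝ =>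
      1 / 2 + 1 / (2 * N) * ∑ i : Fin N, z (gz 0 i) ^ 2 := by
    intro z w
    have : ∀ i : Fin N, mix (gS K m E φ s).lev 0 z w (gz 0 i) = z (gz 0 i) := by
      intro i
      unfold mix
      rw [if_pos]
      exact (gl_gz (ι₀ := ι₀) (N := N) (K := K) (Nat.zero_le _) i).le
    simp only [this]
  rw [hR.Ex_dep hdep ((EG.const _).add (e1.const_mul _)),
    integral_add (integrable_const _) (e1.const_mul _).integrable, integral_const_mul,
    integral_finsetSum _ fun i _ => ((EG.coord _).pow 2).integrable]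
  have h4 : ∀ i : Fin N, ∫ z : GI ι₀ N K → ℝ, z (gz 0 i) ^ 2 ∂(gI (GI ι₀ N K)) = 1 := by
    intro i
    have h5 := (measurePreserving_eval (fun _ : GI ι₀ N K => gaussianReal 0 1) (gz 0 i))
    have h6 : ∫ z : GI ι₀ N K → ℝ, z (gz 0 i) ^ 2 ∂(gI (GI ι₀ N K)) =
        ∫ x, x ^ 2 ∂(gaussianReal 0 1) := by
      rw [← h5.map_eq, integral_map h5.measurable.aemeasurable
        (by fun_prop)]
    rw [h6]
    have h7 := variance_id_gaussianReal (μ := 0) (v := 1)
    rw [variance_eq_integral (by fun_prop)] at h7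
    simpa using h7
  simp only [h4, integral_const, probReal_univ, one_smul, Finset.sum_const, Finset.card_univ,
    Fintype.card_fin, nsmul_eq_mul, mul_one]
  field_simp
  norm_num

/-- The variance of the free energy. -/
theorem gS_var (h : GD K m E D φ) (s : ℕ → ℝ) {W : (ι₀ → ℝ) → ℝ} (hW : EG W)
    (hb : ∀ z x, ∑ e, D e z x ^ 2 ≤ W z) {V : ℝ} (hV : ∫ z, W z ∂(gI ι₀) ≤ V) :
    ∫ z, ((gS K m E φ s).lg 0 z - (gS K m E φ s).fe) ^ 2 ∂(gI (GI ι₀ N K)) ≤
      V + N * s 0 ^ 2 := by
  have hS := gS_regD h s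
  have hR := gS_reg h s
  have hz0 : (0 : ℕ) ≤ (gS K m E φ s).K := Nat.zero_le _
  have h1 := cc_var_le_one (F := (gS K m E φ s).lg 0)
    (F' := fun e => if (gS K m E φ s).lev e = 0 then (gS K m E φ s).T 0 (gD D φ s e) else fun _ => 0)
    (hR.lip_lg hz0).eg (fun e => by
      by_cases he : (gS K m E φ s).lev e = 0
      · simp only [he, if_true]
        exact hS.pd_lg hz0 he.le
      · simp only [he, if_false]
        exact (hR.dep_lg hz0).pd (Nat.pos_of_ne_zero he)) (fun e => by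
      by_cases he : (gS K m E φ s).lev e = 0
      · simp only [he, if_true]
        exact hR.eg_T hz0 (hS.nh e)
      · simp only [he, if_false]
        exact EG.const 0)
  refine h1.trans ?_
  have h2 : ∀ e : GI ι₀ N K, ∫ z, (if (gS K m E φ s).lev e = 0 then
      (gS K m E φ s).T 0 (gD D φ s e) else fun _ => 0) z ^ 2 ∂(gI (GI ι₀ N K)) ≤
      (gS K m E φ s).Ex (fun z x => if gl e = 0 then gD D φ s e z x ^ 2 else 0) := by
    intro e
    by_cases he : gl e = 0
    · have he' : (gS K m E φ s).lev e = 0 := he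
      simp only [he, he', if_true]
      rw [hR.Ex_eq_T (Sy.Nh.pow (hS.nh e) 2)]
      exact integral_mono ((hR.eg_T hz0 (hS.nh e)).pow 2).integrable
        (hR.eg_T hz0 (Sy.Nh.pow (hS.nh e) 2)).integrable fun z => hR.sq_T_le hz0 (hS.nh e) z
    · have he' : ¬ (gS K m E φ s).lev e = 0 := he
      simp only [he, he', if_false]
      rw [hR.Ex_const]
      simp
  refine (Finset.sum_le_sum fun e _ => h2 e).trans ?_
  have hn : ∀ e : GI ι₀ N K, Nh (fun z x => if gl e = 0 then gD D φ s e z x ^ 2 else 0) := by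
    intro e
    by_cases he : gl e = 0
    · simp only [he, if_true]
      exact Sy.Nh.pow (hS.nh e) 2
    · simp only [he, if_false]
      exact fun _ => EG.const 0
  rw [← hR.Ex_sum Finset.univ fun e _ => hn e]
  have h3 : (gS K m E φ s).Ex (fun z x => ∑ e, if gl e = 0 then gD D φ s e z x ^ 2 else 0) ≤
      (gS K m E φ s).Ex fun z _ => W (r0 z) + N * s 0 ^ 2 := by
    refine hR.Ex_mono (Sy.Nh.sum _ fun e _ => hn e) (fun _ => (EG.r0 hW).add (EG.const _))
      fun z x => ?_
    rw [Fintype.sum_sum_type]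
    refine add_le_add ?_ ?_
    · refine le_trans (le_of_eq ?_) (hb (r0 z) x)
      exact Finset.sum_congr rfl fun e _ => if_pos rfl
    · rw [Fintype.sum_prod_type]
      have h4 : ∀ l : Fin (K + 1), ∑ i : Fin N, (if gl (Sum.inr (l, i) : GI ι₀ N K) = 0 then
          gD D φ s (Sum.inr (l, i)) z x ^ 2 else 0) =
          if l = 0 then N * s 0 ^ 2 else 0 := by
        intro l
        by_cases hl : l = 0
        · subst hl
          rw [if_pos rfl, ← h.norm x, Finset.sum_mul]
          refine Finset.sum_congr rfl fun i _ => ?_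
          rw [if_pos (show gl (Sum.inr ((0 : Fin (K + 1)), i) : GI ι₀ N K) = 0 from rfl)]
          show (s ((0 : Fin (K + 1)) : ℕ) * φ x i) ^ 2 = φ x i ^ 2 * s 0 ^ 2
          rw [Fin.val_zero]
          ring
        · rw [if_neg hl]
          refine Finset.sum_eq_zero fun i _ => if_neg fun hc => hl ?_
          exact Fin.ext hc
      simp only [h4, Finset.sum_ite_eq', Finset.mem_univ, if_true]
      exact le_rfl
  refine h3.trans ?_
  rw [hR.Ex_add (fun _ => EG.r0 hW) (fun _ => EG.const _), gS_Ex_zero h s hW, hR.Ex_const]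
  linarith

end Vale.Agent.P146.Sk.Gen
end

section

/-!
P146, generic systems: the optimal strengths (existence, first and second order conditions,
bounds, concentration of the fields), and the value as a function of the energy.
-/

open MeasureTheory ProbabilityTheory Filter Topology

namespace Vale.Agent.P146.Sk.Gen

set_option linter.unusedSectionVars false

open Vale.Agent.P157 Vale.Agent.P157.Lv
open Vale.Agent.P157.Par (Path Exponents topN lw)

variable {ι₀ X : Type} [Fintype ι₀] [DecidableEq ι₀] [Fintype X] [DecidableEq X] [Nonempty X]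
  {N K : ℕ} {m q : ℕ → ℝ} {E E' : (ι₀ → ℝ) → X → ℝ} {D D' : ι₀ → (ι₀ → ℝ) → X → ℝ}
  {φ : X → Fin N → ℝ} {s : ℕ → ℝ} {η : ℝ}

/-- The objective. -/
noncomputable def gOb (K : ℕ) (m q : ℕ → ℝ) (η : ℝ) (E : (ι₀ → ℝ) → X → ℝ)
    (φ : X → Fin N → ℝ) (s : ℕ → ℝ) : ℝ := gF K m E φ s - Pen K m q η s

/-- Optimal strengths. -/
structure gIsOpt (K : ℕ) (m q : ℕ → ℝ) (η : ℝ) (E : (ι₀ → ℝ) → X → ℝ)
    (φ : X → Fin N → ℝ) (s : ℕ → ℝ) : Prop where
  pos : ∀ j ≤ K, 0 < s j
  max : ∀ s' : ℕ → ℝ, (∀ j ≤ K, 0 < s' j) → gOb K m q η E φ s' ≤ gOb K m q η E φ s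

/-- The objective depends only on the strengths of the levels `0, …, K`. -/
lemma gS_congr {s s' : ℕ → ℝ} (hs : ∀ j ≤ K, s j = s' j) :
    gS K m E φ s = gS K m E φ s' := by
  unfold gS
  congr 1
  funext z x
  unfold gH
  congr 1
  refine Finset.sum_congr rfl fun l hl => ?_
  rw [Finset.mem_range] at hl
  rw [hs l (by omega)]

lemma gF_congr {s s' : ℕ → ℝ} (hs : ∀ j ≤ K, s j = s' j) :
    gF K m E φ s = gF K m E φ s' := by
  unfold gF
  rw [gS_congr hs]

lemma gOb_congr {s s' : ℕ → ℝ} (hs : ∀ j ≤ K, s j = s' j) :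
    gOb K m q η E φ s = gOb K m q η E φ s' := by
  unfold gOb
  rw [gF_congr hs, o8_Pen_congr hs]

/-- The upper bound of the objective. -/
lemma gOb_add_le (hη : 0 < η) {C : ℝ}
    (hC : ∀ s : ℕ → ℝ, (∀ j ≤ K, 0 ≤ s j) → gF K m E φ s -
      1 / 2 * ∑ j ∈ Finset.range (K + 1), aco K m q j * s j ^ 2 ≤ C) (hs : ∀ j ≤ K, 0 < s j)
    {j : ℕ} (hj : j ≤ K) :
    η / 2 * s j ^ 2 + η / s j ≤ C - gOb K m q η E φ s := by
  have h1 := hC s fun j hj => (hs j hj).le
  have h3 : Pen K m q η s = 1 / 2 * ∑ j ∈ Finset.range (K + 1), aco K m q j * s j ^ 2 +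
      ∑ j ∈ Finset.range (K + 1), (η / 2 * s j ^ 2 + η / s j) := by
    unfold Pen
    rw [Finset.mul_sum, ← Finset.sum_add_distrib]
    refine Finset.sum_congr rfl fun l _ => ?_
    ring
  have h4 : η / 2 * s j ^ 2 + η / s j ≤
      ∑ j ∈ Finset.range (K + 1), (η / 2 * s j ^ 2 + η / s j) := by
    refine Finset.single_le_sum (f := fun j => η / 2 * s j ^ 2 + η / s j) (fun l hl => ?_)
      (Finset.mem_range.2 (by omega : j < K + 1))
    rw [Finset.mem_range] at hl
    have := hs l (by omega)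
    positivity
  unfold gOb
  linarith only [h4, h3, h1]

lemma gOb_le (hη : 0 < η) {C : ℝ}
    (hC : ∀ s : ℕ → ℝ, (∀ j ≤ K, 0 ≤ s j) → gF K m E φ s -
      1 / 2 * ∑ j ∈ Finset.range (K + 1), aco K m q j * s j ^ 2 ≤ C) (hs : ∀ j ≤ K, 0 < s j) :
    gOb K m q η E φ s ≤ C := by
  have h1 := gOb_add_le hη hC hs (Nat.zero_le K)
  have h2 := hs 0 (Nat.zero_le K)
  have h3 : 0 ≤ η / 2 * s 0 ^ 2 + η / s 0 := by positivity
  linarith only [h3, h1]

/-- The free energy is convex in the strengths. -/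
lemma gF_convex (h : GD K m E D φ) :
    ConvexOn ℝ Set.univ fun v : Fin (K + 1) → ℝ => gF K m E φ (o8_ext v) := by
  refine ⟨convex_univ, fun x _ y _ α β hα hβ hαβ => ?_⟩
  have h1 := gF_tangent h (o8_ext (α • x + β • y)) (o8_ext x)
  have h2 := gF_tangent h (o8_ext (α • x + β • y)) (o8_ext y)
  have h3 : α * (∑ l ∈ Finset.range (K + 1), (o8_ext x l - o8_ext (α • x + β • y) l) *
      (gS K m E φ (o8_ext (α • x + β • y))).Ex (hz φ gz l)) +
      β * (∑ l ∈ Finset.range (K + 1), (o8_ext y l - o8_ext (α • x + β • y) l) *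
      (gS K m E φ (o8_ext (α • x + β • y))).Ex (hz φ gz l)) = 0 := by
    rw [Finset.mul_sum, Finset.mul_sum, ← Finset.sum_add_distrib]
    refine Finset.sum_eq_zero fun l hl => ?_
    rw [Finset.mem_range] at hl
    have hl' : l ≤ K := by omega
    rw [o8_ext_apply _ hl', o8_ext_apply _ hl', o8_ext_apply _ hl']
    simp only [Pi.add_apply, Pi.smul_apply, smul_eq_mul]
    generalize (gS K m E φ (o8_ext (α • x + β • y))).Ex (hz φ gz l) = F
    have h4 : β = 1 - α := by linarith
    subst h4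
    ring
  have h4 := mul_le_mul_of_nonneg_left h1 hα
  have h5 := mul_le_mul_of_nonneg_left h2 hβ
  have h6 : gF K m E φ (o8_ext (α • x + β • y)) =
      α * gF K m E φ (o8_ext (α • x + β • y)) +
      β * gF K m E φ (o8_ext (α • x + β • y)) := by
    rw [← add_mul, hαβ, one_mul]
  simp only [smul_eq_mul]
  linarith

/-- Existence of optimal strengths. -/
theorem exists_gIsOpt (h : GD K m E D φ) (hη : 0 < η) {C : ℝ}
    (hC : ∀ s : ℕ → ℝ, (∀ j ≤ K, 0 ≤ s j) → gF K m E φ s -
      1 / 2 * ∑ j ∈ Finset.range (K + 1), aco K m q j * s j ^ 2 ≤ C) :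
    ∃ s, gIsOpt K m q η E φ s := by
  classical
  obtain ⟨V, hV⟩ : ∃ V, V = gOb K m q η E φ (fun _ => 1) := ⟨_, rfl⟩
  obtain ⟨M, hM⟩ : ∃ M, M = C - V := ⟨_, rfl⟩
  have hM0 : η / 2 + η ≤ M := by
    have := gOb_add_le (q := q) (s := fun _ => (1 : ℝ)) hη hC (fun _ _ => one_pos)
      (Nat.zero_le K)
    rw [hM, hV]
    simpa using this
  have hMpos : 0 < M := by linarith only [hM0, hη]
  -- strengths with a large value lie in a box
  have hbox : ∀ s : ℕ → ℝ, (∀ j ≤ K, 0 < s j) → V ≤ gOb K m q η E φ s →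
      ∀ j ≤ K, η / M ≤ s j ∧ s j ≤ 1 + 2 * M / η := by
    intro s hs hVs j hj
    have h1 := gOb_add_le hη hC hs hj
    have hsj := hs j hj
    have h2 : 0 ≤ η / 2 * s j ^ 2 := by positivity
    have h3 : 0 ≤ η / s j := by positivity
    constructor
    · have h4 : η / s j ≤ M := by linarith only [h2, h1, hVs, hM]
      rw [div_le_iff₀ hsj] at h4
      rw [div_le_iff₀ hMpos]
      linarith only [h4]
    · have h4 : η / 2 * s j ^ 2 ≤ M := by linarith only [h3, h1, hVs, hM]
      have h5 : s j ^ 2 ≤ 2 * M / η := by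
        rw [le_div_iff₀ hη]
        linarith only [h4]
      linarith only [sq_nonneg (s j - 1), h5, hsj]
  -- the maximum over the box
  obtain ⟨Kb, hKb⟩ : ∃ Kb : Set (Fin (K + 1) → ℝ),
      Kb = Set.Icc (fun _ => η / M) (fun _ => 1 + 2 * M / η) := ⟨_, rfl⟩
  have hcomp : IsCompact Kb := by rw [hKb]; exact isCompact_Icc
  have hpos : ∀ v ∈ Kb, ∀ j ≤ K, 0 < o8_ext v j := by
    intro v hv j hj
    rw [hKb] at hv
    rw [o8_ext_apply _ hj]
    exact lt_of_lt_of_le (by positivity) (hv.1 _)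
  have hFc : Continuous fun v : Fin (K + 1) → ℝ => gF K m E φ (o8_ext v) := by
    rw [← continuousOn_univ]
    exact (gF_convex h).continuousOn isOpen_univ
  have hPc : ContinuousOn (fun v : Fin (K + 1) → ℝ => Pen K m q η (o8_ext v)) Kb := by
    unfold Pen
    refine continuousOn_finsetSum _ fun j hj => ?_
    rw [Finset.mem_range] at hj
    have hj' : j ≤ K := by omega
    have hc : Continuous fun v : Fin (K + 1) → ℝ => o8_ext v j := by
      have : (fun v : Fin (K + 1) → ℝ => o8_ext v j) =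
          fun v => v ⟨j, Nat.lt_succ_of_le hj'⟩ := by
        funext v
        exact o8_ext_apply v hj'
      rw [this]
      exact continuous_apply _
    refine ContinuousOn.add ((hc.pow 2).const_mul _).continuousOn ?_
    exact continuousOn_const.div hc.continuousOn fun v hv => (hpos v hv j hj').ne'
  have hOc : ContinuousOn (fun v : Fin (K + 1) → ℝ => gOb K m q η E φ (o8_ext v)) Kb :=
    hFc.continuousOn.sub hPc
  have h1mem : (fun _ => (1 : ℝ)) ∈ Kb := by
    rw [hKb]
    have h2 := hbox (fun _ => 1) (fun _ _ => one_pos) hV.le 0 (Nat.zero_le _)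
    exact ⟨fun _ => h2.1, fun _ => h2.2⟩
  obtain ⟨v, hv, hmax⟩ := hcomp.exists_isMaxOn ⟨_, h1mem⟩ hOc
  have hVv : V ≤ gOb K m q η E φ (o8_ext v) := by
    have h2 : gOb K m q η E φ (o8_ext (fun _ : Fin (K + 1) => (1 : ℝ))) ≤
      gOb K m q η E φ (o8_ext v) := hmax h1mem
    rw [hV, gOb_congr (o8_ext_res (K := K) fun _ => (1 : ℝ))]
    exact h2
  refine ⟨o8_ext v, hpos v hv, fun s' hs' => ?_⟩
  by_cases hc : V ≤ gOb K m q η E φ s'
  · have h2 := hbox s' hs' hc
    have h3 : (fun i : Fin (K + 1) => s' i) ∈ Kb := by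
      rw [hKb]
      exact ⟨fun i => (h2 i (Nat.le_of_lt_succ i.2)).1, fun i => (h2 i (Nat.le_of_lt_succ i.2)).2⟩
    have h4 : gOb K m q η E φ (o8_ext (fun i : Fin (K + 1) => s' i)) ≤
      gOb K m q η E φ (o8_ext v) := hmax h3
    rw [gOb_congr (o8_ext_res s')]
    exact h4
  · exact (not_le.1 hc).le.trans hVv

lemma gIsOpt.gF_update (ho : gIsOpt K m q η E φ s) {j : ℕ} (hj : j ≤ K) {x : ℝ}
    (hx : 0 < x) : gF K m E φ (Function.update s j x) - gF K m E φ s ≤
      o8_pj K m q η j x - o8_pj K m q η j (s j) := by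
  have h1 := ho.max (Function.update s j x) (fun l hl => by
    by_cases hlj : l = j
    · subst hlj
      rw [Function.update_self]
      exact hx
    · rw [Function.update_of_ne hlj]
      exact ho.pos l hl)
  have h2 := o8_Pen_update (m := m) (q := q) (η := η) (s := s) hj x
  unfold gOb at h1
  linarith

/-- First order condition. -/
theorem gIsOpt.first (h : GD K m E D φ) (ho : gIsOpt K m q η E φ s) {j : ℕ} (hj : j ≤ K) :
    (gS K m E φ s).Ex (hz φ gz j) = (aco K m q j + η) * s j - η / s j ^ 2 := by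
  have hsj := ho.pos j hj
  obtain ⟨F, hF⟩ : ∃ F, F = (gS K m E φ s).Ex (hz φ gz j) := ⟨_, rfl⟩
  rw [← hF]
  have hmin : IsLocalMin (fun x => o8_pj K m q η j x - F * x) (s j) := by
    filter_upwards [eventually_gt_nhds hsj] with x hx
    have h1 := ho.gF_update hj hx
    have h2 := gF_tangent h s (Function.update s j x)
    have h3 : ∑ l ∈ Finset.range (K + 1), (Function.update s j x l - s l) *
        (gS K m E φ s).Ex (hz φ gz l) = (x - s j) * F := by
      rw [Finset.sum_eq_single j]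
      · rw [Function.update_self, hF]
      · intro l _ hl
        rw [Function.update_of_ne hl, sub_self, zero_mul]
      · intro hl
        exact absurd (Finset.mem_range.2 (by omega)) hl
    rw [h3] at h2
    linarith only [h2, h1]
  have hd : HasDerivAt (fun x => o8_pj K m q η j x - F * x)
      ((aco K m q j + η) * s j - η / s j ^ 2 - F) (s j) := by
    have h1 : HasDerivAt (fun x : ℝ => 1 / 2 * (aco K m q j + η) * x ^ 2)
        (1 / 2 * (aco K m q j + η) * (2 * s j)) (s j) := by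
      have := (hasDerivAt_pow 2 (s j)).const_mul (1 / 2 * (aco K m q j + η))
      simpa using this
    have h2 : HasDerivAt (fun x : ℝ => η / x) (-(η / s j ^ 2)) (s j) := by
      have := (hasDerivAt_inv hsj.ne').const_mul η
      refine (this.congr_of_eventuallyEq (Eventually.of_forall fun x => ?_)).congr_deriv ?_
      · exact div_eq_mul_inv _ _
      · ring
    have h3 := (h1.add h2).sub ((hasDerivAt_id (s j)).const_mul F)
    refine h3.congr_deriv ?_
    ring
  have h0 := hmin.hasDerivAt_eq_zero hd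
  linarith

/-- The overlaps at the optimum. -/
theorem gIsOpt.tails (h : GD K m E D φ) (ho : gIsOpt K m q η E φ s) {j : ℕ} (hj : j ≤ K) :
    ∑ l ∈ Finset.Ico j (K + 1), (m (l + 1) - m l) *
      ((gS K m E φ s).Rl φ l - q l) = η / s j ^ 3 - η := by
  have hsj := ho.pos j hj
  have h1 := ho.first h hj
  have h2 : (gS K m E φ s).Ex (hz φ gz j) =
      s j * (1 - ∑ i ∈ Finset.Ico j (K + 1), (m (i + 1) - m i) *
        (gS K m E φ s).Rl φ i) :=
    (gS_fld h fun l hl => (ho.pos l hl).le).Ex_hz (l := j) hj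
  rw [h2] at h1
  unfold aco at h1
  have h3 : ∑ l ∈ Finset.Ico j (K + 1), (m (l + 1) - m l) *
      ((gS K m E φ s).Rl φ l - q l) =
      ∑ l ∈ Finset.Ico j (K + 1), (m (l + 1) - m l) * (gS K m E φ s).Rl φ l -
      ∑ l ∈ Finset.Ico j (K + 1), (m (l + 1) - m l) * q l := by
    rw [← Finset.sum_sub_distrib]
    exact Finset.sum_congr rfl fun l _ => by ring
  rw [h3]
  generalize ∑ l ∈ Finset.Ico j (K + 1), (m (l + 1) - m l) *
    (gS K m E φ s).Rl φ l = P at h1 ⊢
  generalize ∑ l ∈ Finset.Ico j (K + 1), (m (l + 1) - m l) * q l = Q at h1 ⊢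
  have h4 : s j * (P - Q) = s j * (η / s j ^ 3 - η) := by
    have h5 : s j * (η / s j ^ 3) = η / s j ^ 2 := by
      field_simp
    rw [mul_sub (s j) (η / s j ^ 3), h5]
    linarith
  exact mul_left_cancel₀ hsj.ne' h4

/-- Second order condition, for the extensive free energy. -/
theorem gIsOpt.second (h : GD K m E D φ) (ho : gIsOpt K m q η E φ s)
    (hη : 0 < η) {j : ℕ} (hj : j ≤ K) {t : ℝ} (ht : 0 < t) (ht' : t ≤ s j / 2) :
    ((gS K m E φ s).pt (gx φ j) t).fe + ((gS K m E φ s).pt (gx φ j) (-t)).fe -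
      2 * (gS K m E φ s).fe ≤ N * ((aco K m q j + η + 3 * η / s j ^ 3) * t ^ 2) := by
  have hsj := ho.pos j hj
  have hN : (0 : ℝ) < N := by exact_mod_cast h.N0
  have h1 := ho.gF_update hj (x := s j + t) (by linarith only [ht', ht])
  have h2 := ho.gF_update hj (x := s j + -t) (by linarith)
  rw [← gS_pt hj t, ← gS_pt hj (-t)]
  have h3 : o8_pj K m q η j (s j + t) + o8_pj K m q η j (s j + -t) -
      2 * o8_pj K m q η j (s j) ≤ (aco K m q j + η + 3 * η / s j ^ 3) * t ^ 2 := by
    have h4 : η / (s j + t) + η / (s j + -t) - 2 * (η / s j) ≤ 3 * η / s j ^ 3 * t ^ 2 := by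
      have hp : 0 < s j + t := by linarith
      have hq : 0 < s j + -t := by linarith
      have h5 : η / (s j + t) + η / (s j + -t) - 2 * (η / s j) =
          η * (2 * t ^ 2) / (s j * ((s j + t) * (s j + -t))) := by
        field_simp
        ring
      have h6 : 3 * η / s j ^ 3 * t ^ 2 = η * (3 * t ^ 2) / s j ^ 3 := by ring
      rw [h5, h6, div_le_div_iff₀ (by positivity) (by positivity)]
      have h7 : 2 * s j ^ 2 ≤ 3 * ((s j + t) * (s j + -t)) := by linarith only [mul_nonneg (sub_nonneg.2 ht') (le_of_lt (sub_pos.2 hp)), mul_pos (sub_pos.2 ht) (sub_pos.2 hq)]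
      have h8 : 0 ≤ η * t ^ 2 * s j := by positivity
      linarith only [mul_le_mul_of_nonneg_left h7 h8]
    unfold o8_pj
    linarith
  have h4 : gF K m E φ (Function.update s j (s j + t)) +
      gF K m E φ (Function.update s j (s j + -t)) - 2 * gF K m E φ s ≤
      (aco K m q j + η + 3 * η / s j ^ 3) * t ^ 2 := by linarith
  have h5 := mul_le_mul_of_nonneg_left h4 hN.le
  unfold gF at h5
  have h7 : (N : ℝ) * (1 / N * (gS K m E φ (Function.update s j (s j + t))).fe +
      1 / N * (gS K m E φ (Function.update s j (s j + -t))).fe -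
      2 * (1 / N * (gS K m E φ s).fe)) =
      (gS K m E φ (Function.update s j (s j + t))).fe +
      (gS K m E φ (Function.update s j (s j + -t))).fe -
      2 * (gS K m E φ s).fe := by
    field_simp
  rw [h7] at h5
  exact h5

lemma Pen_one_le (hm : Exponents K m) (hq : Path K q) (hη1 : η ≤ 1) :
    Pen K m q η (fun _ => 1) ≤ 2 * (K + 1) := by
  have h6 : ∀ l ∈ Finset.range (K + 1),
      1 / 2 * (aco K m q l + η) * (1 : ℝ) ^ 2 + η / 1 ≤ 2 := by
    intro l hl
    rw [Finset.mem_range] at hl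
    have := aco_le_one hm hq (by omega : l ≤ K)
    linarith
  have h7 := Finset.sum_le_sum h6
  rw [Finset.sum_const, Finset.card_range, nsmul_eq_mul] at h7
  unfold Pen
  push_cast at h7
  linarith

/-- The lower bound of the optimal strengths. -/
theorem gIsOpt.lower (h : GD K m E D φ) (ho : gIsOpt K m q η E φ s)
    (hq : Path K q) (hη : 0 < η) (hη1 : η ≤ 1) {C : ℝ}
    (hC : ∀ s : ℕ → ℝ, (∀ j ≤ K, 0 ≤ s j) → gF K m E φ s -
      1 / 2 * ∑ j ∈ Finset.range (K + 1), aco K m q j * s j ^ 2 ≤ C) {j : ℕ} (hj : j ≤ K) :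
    η ≤ s j * (C - gF K m E φ (fun _ => 0) + 2 * (K + 1)) := by
  have hsj := ho.pos j hj
  have h1 := gOb_add_le hη hC ho.pos hj
  have h2 := ho.max (fun _ => 1) (fun _ _ => one_pos)
  have h3 := gF_zero_le h (fun _ => 1)
  have h5 := Pen_one_le h.hm hq hη1
  have h6 : 0 ≤ η / 2 * s j ^ 2 := by positivity
  have h7 : η / s j ≤ C - gF K m E φ (fun _ => 0) + 2 * (K + 1) := by
    have h8 : gOb K m q η E φ (fun _ => 1) =
      gF K m E φ (fun _ => 1) - Pen K m q η (fun _ => 1) := rfl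
    linarith only [h8, h6, h5, h3, h2, h1]
  rw [div_le_iff₀ hsj] at h7
  linarith

/-- The upper bound of the strength of the level zero. -/
theorem gIsOpt.upper (h : GD K m E D φ) (ho : gIsOpt K m q η E φ s)
    (hq : Path K q) (hq1 : q K ≤ 1) (hη : 0 < η) {σ : ℝ} (hσ : 0 < σ) (hs : σ ≤ s 0) :
    s 0 ≤ 1 / η + 1 / σ ^ 2 := by
  have hs0 := ho.pos 0 (Nat.zero_le _)
  have h1 := ho.first h (Nat.zero_le K)
  have h2 := gS_Ex_hz_zero_le h s
  have h3 := aco_nonneg h.hm hq hq1 (Nat.zero_le K)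
  have h4 : η / s 0 ^ 2 ≤ η / σ ^ 2 := by gcongr
  have h5 : η * s 0 ≤ 1 + η / σ ^ 2 := by
    have := mul_nonneg h3 hs0.le
    linarith only [this, h4, h2, h1]
  have h6 : s 0 ≤ (1 + η / σ ^ 2) / η := by
    rw [le_div_iff₀ hη]
    linarith only [h5]
  refine h6.trans (le_of_eq ?_)
  field_simp

/-- The variance of the free energy near the optimum. -/
lemma gIsOpt.var (h : GD K m E D φ) (ho : gIsOpt K m q η E φ s)
    {σ S₀ V₀ : ℝ} (hs : ∀ j ≤ K, σ ≤ s j) (hs0 : s 0 ≤ S₀) {W : (ι₀ → ℝ) → ℝ} (hW : EG W)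
    (hb : ∀ z x, ∑ e, D e z x ^ 2 ≤ W z) (hV : ∫ z, W z ∂(gI ι₀) ≤ N * V₀)
    {j : ℕ} (hj : j ≤ K) {t : ℝ} (ht1 : |t| ≤ 1) (ht2 : |t| ≤ σ / 2) :
    ∫ z, (((gS K m E φ s).pt (gx φ j) t).lg 0 z -
      ((gS K m E φ s).pt (gx φ j) t).fe) ^ 2 ∂(gI (GI ι₀ N K)) ≤ N * (V₀ + (S₀ + 1) ^ 2) := by
  have hN : (0 : ℝ) < N := by exact_mod_cast h.N0
  rw [← gS_pt hj t]
  refine (gS_var h (Function.update s j (s j + t)) hW hb hV).trans ?_
  have h0 := ho.pos 0 (Nat.zero_le _)
  have h1 := abs_le.1 ht1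
  have h2 := abs_le.1 ht2
  have h3 : |Function.update s j (s j + t) 0| ≤ S₀ + 1 := by
    by_cases hj0 : j = 0
    · subst hj0
      rw [Function.update_self, abs_le]
      have := hs 0 (Nat.zero_le _)
      constructor <;> linarith [h1.1, h1.2, h2.1, h2.2]
    · rw [Function.update_of_ne (Ne.symm hj0), abs_le]
      constructor <;> linarith
  have h4 : (Function.update s j (s j + t) 0) ^ 2 ≤ (S₀ + 1) ^ 2 := by
    rw [← sq_abs]
    exact pow_le_pow_left₀ (abs_nonneg _) h3 2
  linarith only [mul_le_mul_of_nonneg_left h4 hN.le]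

/-- **Concentration of the fields at the optimum.** -/
theorem gIsOpt.conc (h : GD K m E D φ) (ho : gIsOpt K m q η E φ s)
    (hq : Path K q) (hη : 0 < η) (hη1 : η ≤ 1) {σ S₀ V₀ : ℝ} (hσ : 0 < σ)
    (hs : ∀ j ≤ K, σ ≤ s j) (hs0 : s 0 ≤ S₀) {W : (ι₀ → ℝ) → ℝ} (hW : EG W)
    (hb : ∀ z x, ∑ e, D e z x ^ 2 ≤ W z) (hV : ∫ z, W z ∂(gI ι₀) ≤ N * V₀)
    {j : ℕ} (hj : j ≤ K) {t : ℝ} (ht : 0 < t) (ht1 : t ≤ 1) (ht2 : t ≤ σ / 2) :
    ∃ c : ℝ, (gS K m E φ s).Ex (fun z x => |hz φ gz j z x - c|) ≤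
      √((2 + 3 / σ ^ 3) / (m 1 * N)) + (2 + 3 / σ ^ 3) * t +
        4 * √((V₀ + (S₀ + 1) ^ 2) / N) / t := by
  have hN : (0 : ℝ) < N := by exact_mod_cast h.N0
  have hR : (gS K m E φ s).Reg := gS_reg h s
  have hreg : ∀ t, ((gS K m E φ s).pt (gx φ j) t).Reg := fun t => by
    rw [← gS_pt hj t]
    exact gS_reg h _
  obtain ⟨Q, hQ⟩ : ∃ Q, Q = (N : ℝ) * (2 + 3 / σ ^ 3) := ⟨_, rfl⟩
  obtain ⟨V, hVd⟩ : ∃ V, V = (N : ℝ) * (V₀ + (S₀ + 1) ^ 2) := ⟨_, rfl⟩
  have hsec : ∀ t', 0 < t' → t' ≤ min 1 (σ / 2) →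
      ((gS K m E φ s).pt (gx φ j) t').fe + ((gS K m E φ s).pt (gx φ j) (-t')).fe -
        2 * (gS K m E φ s).fe ≤ Q * t' ^ 2 := by
    intro t' h1 h2
    have h3 := hs j hj
    refine (ho.second h hη hj h1 ((h2.trans (min_le_right _ _)).trans (by linarith only [h3]))).trans ?_
    have h4 : 3 * η / s j ^ 3 ≤ 3 / σ ^ 3 := by
      have : 3 * η ≤ 3 := by linarith only [hη1]
      gcongr
    have h5 := aco_le_one h.hm hq hj
    have h6 : aco K m q j + η + 3 * η / s j ^ 3 ≤ 2 + 3 / σ ^ 3 := by linarith only [h5, h4, hη1]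
    rw [hQ, mul_assoc]
    gcongr
  obtain ⟨c, hc⟩ := hR.conc (nh_gx j) hreg (Q := Q) (V := V) (t₀ := min 1 (σ / 2))
    (lt_min one_pos (by positivity)) hsec (fun t' ht' => by
      rw [hVd]
      exact ho.var h hs hs0 hW hb hV hj (ht'.trans (min_le_left _ _))
        (ht'.trans (min_le_right _ _)))
    ht (le_min ht1 ht2)
  refine ⟨1 / N * c, ?_⟩
  have e1 : (fun (z : GI ι₀ N K → ℝ) x => |hz φ gz j z x - 1 / N * c|) =
      fun z x => 1 / (N : ℝ) * |gx φ j z x - c| := by
    funext z x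
    have : hz φ gz j z x - 1 / N * c = 1 / N * (gx φ j z x - c) := by
      rw [hz_eq]
      ring
    rw [this, abs_mul, abs_of_pos (by positivity)]
  rw [e1, Sy.Ex_const_mul]
  have h1 := mul_le_mul_of_nonneg_left hc (show 0 ≤ 1 / (N : ℝ) by positivity)
  refine h1.trans (le_of_eq ?_)
  have hsq : ∀ y : ℝ, 1 / (N : ℝ) * √(N * y) = √(y / N) := by
    intro y
    have e2 : y / N = (N * y) / N ^ 2 := by
      field_simp
    rw [e2, Real.sqrt_div' _ (sq_nonneg _), Real.sqrt_sq hN.le]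
    ring
  have e3 : √(Q / (gS K m E φ s).m 1) = √(N * ((2 + 3 / σ ^ 3) / m 1)) := by
    congr 1
    show Q / m 1 = _
    rw [hQ]
    ring
  have e5 : (2 + 3 / σ ^ 3) / (m 1 * N) = (2 + 3 / σ ^ 3) / m 1 / N := by
    rw [div_div]
  rw [e3, hVd, e5, ← hsq, ← hsq, hQ]
  field_simp

/-! ### The value -/

/-- The value: the supremum of the objective. -/
noncomputable def gV (K : ℕ) (m q : ℕ → ℝ) (η : ℝ) (E : (ι₀ → ℝ) → X → ℝ)
    (φ : X → Fin N → ℝ) : ℝ :=
  sSup {y | ∃ s : ℕ → ℝ, (∀ j ≤ K, 0 < s j) ∧ y = gOb K m q η E φ s}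

lemma gIsOpt.isGreatest (ho : gIsOpt K m q η E φ s) :
    IsGreatest {y | ∃ s : ℕ → ℝ, (∀ j ≤ K, 0 < s j) ∧ y = gOb K m q η E φ s}
      (gOb K m q η E φ s) := by
  refine ⟨⟨s, ho.pos, rfl⟩, ?_⟩
  rintro y ⟨s', hs', rfl⟩
  exact ho.max s' hs'

theorem gIsOpt.gV_eq (ho : gIsOpt K m q η E φ s) : gV K m q η E φ = gOb K m q η E φ s :=
  ho.isGreatest.csSup_eq

theorem gIsOpt.gOb_le_gV (ho : gIsOpt K m q η E φ s) {s' : ℕ → ℝ} (hs' : ∀ j ≤ K, 0 < s' j) :
    gOb K m q η E φ s' ≤ gV K m q η E φ := by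
  rw [ho.gV_eq]
  exact ho.max s' hs'

/-- The value is below its tangents at the optimum. -/
theorem gV_sub_le (h : GD K m E D φ) (h' : GD K m E' D' φ) {s s' : ℕ → ℝ}
    (ho : gIsOpt K m q η E φ s) (ho' : gIsOpt K m q η E' φ s') :
    gV K m q η E' φ - gV K m q η E φ ≤
      1 / N * (gS K m E' φ s').Ex (fun z x => E' (r0 z) x - E (r0 z) x) := by
  have h1 := ho.gOb_le_gV ho'.pos
  have h2 := gF_tangentE h' h s'
  have h3 : (fun (z : GI ι₀ N K → ℝ) (x : X) => E (r0 z) x - E' (r0 z) x) =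
      fun z x => -1 * (E' (r0 z) x - E (r0 z) x) := by
    funext z x
    ring
  rw [h3, Sy.Ex_const_mul] at h2
  rw [ho'.gV_eq]
  unfold gOb at h1 ⊢
  linarith only [h2, h1]

/-- Small strengths: the value is almost above the free energy without fields. -/
theorem gIsOpt.gF_zero_le_gV (h : GD K m E D φ) (ho : gIsOpt K m q η E φ s) (hq : Path K q)
    {ρ : ℝ} (hρ : 0 < ρ) (hη : η = ρ ^ 3) (hη1 : η ≤ 1) :
    gF K m E φ (fun _ => 0) - 2 * (K + 1) * ρ ^ 2 ≤ gV K m q η E φ := by
  have h1 := ho.gOb_le_gV (s' := fun _ => ρ) (fun _ _ => hρ)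
  have h2 := gF_zero_le h (fun _ => ρ)
  have h3 : Pen K m q η (fun _ => ρ) ≤ 2 * (K + 1) * ρ ^ 2 := by
    have h6 : ∀ l ∈ Finset.range (K + 1),
        1 / 2 * (aco K m q l + η) * ρ ^ 2 + η / ρ ≤ 2 * ρ ^ 2 := by
      intro l hl
      rw [Finset.mem_range] at hl
      have h4 := aco_le_one h.hm hq (by omega : l ≤ K)
      have h5 : η / ρ = ρ ^ 2 := by
        rw [hη]
        field_simp
      rw [h5]
      have h7 : 0 ≤ ρ ^ 2 := sq_nonneg ρ
      linarith only [mul_nonneg (sub_nonneg.2 h4) (sub_nonneg.2 h7), mul_nonneg (sub_nonneg.2 hη1) (sub_nonneg.2 h7)]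
    have h7 := Finset.sum_le_sum h6
    rw [Finset.sum_const, Finset.card_range, nsmul_eq_mul] at h7
    unfold Pen
    push_cast at h7
    linarith
  unfold gOb at h1
  linarith

/-! ### Special energies -/

/-- Without fields. -/
theorem gF_no_field (h : GD K m E D φ) : gF K m E φ (fun _ => 0) =
    1 / N * ∫ y, Real.log (∑ x, Real.exp (E y x)) ∂(gI ι₀) := by
  have hH : ∀ (z : GI ι₀ N K → ℝ) x, gH E φ (fun _ => 0) z x = E (r0 z) x := by
    intro z x
    simp [gH]
  have h1 : ∀ x, Dep (gS K m E φ (fun _ => 0)).lev 0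
      fun z => (gS K m E φ (fun _ => 0)).H z x := by
    intro x z w
    show gH E φ (fun _ => 0) (mix gl 0 z w) x = gH E φ (fun _ => 0) z x
    rw [hH, hH]
    have : r0 (mix gl 0 z w) = r0 z := by
      funext e
      unfold r0 mix
      exact if_pos (le_refl 0)
    rw [this]
  unfold gF
  rw [fe_level_zero (gS_reg h _) h1]
  congr 1
  have h2 : (gS K m E φ (fun _ => 0)).top =
      fun z : GI ι₀ N K → ℝ => Real.log (∑ x, Real.exp (E (r0 z) x)) := by
    funext z
    show Real.log (∑ x, Real.exp (gH E φ (fun _ => 0) z x)) = _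
    simp only [hH]
  rw [h2]
  have h3 : Lip fun y : ι₀ → ℝ => Real.log (∑ x, Real.exp (E y x)) := by
    let S₀ : Sy ι₀ X := ⟨fun _ => 0, 0, fun l => if l = 0 then 0 else 1, E⟩
    have hS₀ : S₀.Reg := ⟨by simp [S₀], by simp [S₀], fun l hl => by
      have : l = 0 := Nat.le_zero.1 hl
      subst this
      simp [S₀], by simp [S₀], fun _ => le_rfl, h.lip⟩
    exact hS₀.lip_top
  exact J_dep_zero_int h3.eg

/-- Energies which do not depend on the disorder. -/
theorem gF_no_disorder {u : X → ℝ} (h : GD K m (fun (_ : ι₀ → ℝ) x => u x) D φ)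
    (hs : ∀ l ≤ K, 0 ≤ s l) : gF K m (fun (_ : ι₀ → ℝ) x => u x) φ s =
      1 / N * topN m (fun l => ∑ j ∈ Finset.range (l + 1), s j ^ 2) K (lw φ 1 u) := by
  unfold gF
  congr 1
  refine fe_field (S := gS K m (fun (_ : ι₀ → ℝ) x => u x) φ s) (gS_regD h s)
    (zc := fun l i => (gz l i : GI ι₀ N K))
    (fun l hl i => gl_gz (ι₀ := ι₀) (N := N) (K := K) hl i) (fun l hl i i' hii => ?_) hs fun z x => rfl
  have h1 := (gz_eq_iff (ι₀ := ι₀) (N := N) (K := K) hl i (Fin.ofNat (K + 1) l, i')).1 hii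
  exact h1.2

end Vale.Agent.P146.Sk.Gen
end

section

/-!
Definitions for the SK system with the energy `(β/2) (a x·Wx - b χ(g) x·U_κ x)`.
-/

open MeasureTheory ProbabilityTheory Matrix Filter Topology
open scoped Matrix.Norms.L2Operator

namespace Vale.Agent.P146.Sk

open Vale.Agent.P157 (spin)
open Vale.Agent.P157.Lv
open Vale.Agent.P157.Par (Path Exponents topN lw spinPart)
open Gen (GI gz gl r0 gS gF gOb gIsOpt GD)

/-- One plus the operator norm of `W`. -/
noncomputable def om (N : ℕ) (g : Ix N → ℝ) : ℝ := 1 + ‖Wm N g‖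

/-- The quadratic form of a matrix. -/
noncomputable def qf {N : ℕ} (A : Matrix (Fin N) (Fin N) ℝ) (x : Fin N → ℝ) : ℝ :=
  ∑ i, ∑ j, x i * A i j * x j

/-- The smooth cutoff: `1` for `|g|² ≤ N³` and `0` for `|g|² ≥ 2 N³`. -/
noncomputable def cut (N : ℕ) (g : Ix N → ℝ) : ℝ :=
  Real.smoothTransition (2 - (∑ p, g p ^ 2) / (N : ℝ) ^ 3)

/-- The free energy `log (2^{-N} ∑_x exp((β/2) x·Wx))`. -/
noncomputable def Ft (β : ℝ) (N : ℕ) (g : Ix N → ℝ) : ℝ :=
  Real.log (∑ x : Fin N → Bool, Real.exp (β / 2 * qf (Wm N g) (spin x) - N * Real.log 2))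

/-- The pressure `(1/N) E log (2^{-N} ∑_x exp((β/2) x·Wx))`. -/
noncomputable def pN (β : ℝ) (N : ℕ) : ℝ := 1 / N * ∫ g, Ft β N g ∂(gI (Ix N))

/-- The Gibbs average. -/
noncomputable def gav (β : ℝ) (N : ℕ) (g : Ix N → ℝ) (h : (Fin N → Bool) → ℝ) : ℝ :=
  (∑ x : Fin N → Bool, Real.exp (β / 2 * qf (Wm N g) (spin x)) * h x) /
    ∑ x : Fin N → Bool, Real.exp (β / 2 * qf (Wm N g) (spin x))

/-- The coefficients `(β/N) E⟨x · U_κ x⟩` (`κ + 1` is the length of the cycle). -/
noncomputable def Ck (β : ℝ) (κ N : ℕ) : ℝ :=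
  β / N * ∫ g, gav β N g (fun x => qf (Um (Wm N g) κ) (spin x)) ∂(gI (Ix N))

/-- The energy with the parameters `a, b`. -/
noncomputable def Esk (N : ℕ) (β a b : ℝ) (κ : ℕ) : (Ix N → ℝ) → (Fin N → Bool) → ℝ := fun g x =>
  β / 2 * (a * qf (Wm N g) (spin x) - b * (cut N g * qf (Um (Wm N g) κ) (spin x))) -
    N * Real.log 2

/-- The system with fields. -/
noncomputable abbrev skf (N K : ℕ) (m : ℕ → ℝ) (β a b : ℝ) (κ : ℕ) (s : ℕ → ℝ) :
    Sy (GI (Ix N) N K) (Fin N → Bool) := gS K m (Esk N β a b κ) spin s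

variable {N K : ℕ}

/-- `(1/N) E m_l · U_p m_l`. -/
noncomputable def Tl (S : Sy (GI (Ix N) N K) (Fin N → Bool)) (p l : ℕ) : ℝ :=
  1 / N * S.Ex (fun z _ => ∑ i, ∑ j, S.mg spin l i z * Um (Wm N (r0 z)) p i j *
    S.mg spin l j z)

/-- `(1/N) E x · U_p x`. -/
noncomputable def Td (S : Sy (GI (Ix N) N K) (Fin N → Bool)) (p : ℕ) : ℝ :=
  1 / N * S.Ex (fun z x => qf (Um (Wm N (r0 z)) p) (spin x))

/-- `(1/N) E χ x · U_p x`. -/
noncomputable def Tc (S : Sy (GI (Ix N) N K) (Fin N → Bool)) (p : ℕ) : ℝ :=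
  1 / N * S.Ex (fun z x => cut N (r0 z) * qf (Um (Wm N (r0 z)) p) (spin x))

/-- The hierarchical matrix of the averages of `x · U_p x'`. -/
noncomputable def TT (S : Sy (GI (Ix N) N K) (Fin N → Bool)) (p : ℕ) : ℝ × (ℕ → ℝ) :=
  (Td S p, Tl S p)

/-- The deviation of the overlaps. -/
noncomputable def dev2 (S : Sy (GI (Ix N) N K) (Fin N → Bool)) (l : ℕ) : ℝ :=
  S.pairEx l (fun x x' => (Rov spin x x' - S.Rl spin l) ^ 2)

end Vale.Agent.P146.Sk
end

section

/-!
Operator norm bounds for the matrices `U_p`, the cutoff.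
-/

open MeasureTheory ProbabilityTheory Matrix Filter Topology
open scoped Matrix.Norms.L2Operator

namespace Vale.Agent.P146.Sk

open Vale.Agent.P157 (spin)
open Vale.Agent.P157.Lv
open Vale.Agent.P157.Par (Path Exponents topN lw spinPart)
open Gen (GI gz gl r0 gS gF gOb gIsOpt GD)

variable {N K : ℕ}

lemma one_le_om (g : Ix N → ℝ) : 1 ≤ om N g := by
  unfold om; linarith [norm_nonneg (Wm N g)]

lemma om_nonneg (g : Ix N → ℝ) : 0 ≤ om N g := zero_le_one.trans (one_le_om g)

lemma norm_one_le : ‖(1 : Matrix (Fin N) (Fin N) ℝ)‖ ≤ 1 := by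
  rcases Nat.eq_zero_or_pos N with h | h
  · subst h
    have : (1 : Matrix (Fin 0) (Fin 0) ℝ) = 0 := Subsingleton.elim _ _
    rw [this, norm_zero]; exact zero_le_one
  · have : Nonempty (Fin N) := ⟨⟨0, h⟩⟩
    exact (CStarRing.norm_one (E := Matrix (Fin N) (Fin N) ℝ)).le

theorem norm_Um_le (g : Ix N → ℝ) (p : ℕ) : ‖Um (Wm N g) p‖ ≤ om N g ^ p := by
  have h1 := one_le_om g
  have h0 := norm_nonneg (Wm N g)
  have key : ∀ p, ‖Um (Wm N g) p‖ ≤ om N g ^ p ∧ ‖Um (Wm N g) (p + 1)‖ ≤ om N g ^ (p + 1) := by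
    intro p
    induction p with
    | zero =>
      refine ⟨by simpa using norm_one_le, ?_⟩
      simp only [zero_add, Um_one, pow_one]
      unfold om; linarith
    | succ p ih =>
      refine ⟨ih.2, ?_⟩
      rw [Um_add_two]
      calc ‖Wm N g * Um (Wm N g) (p + 1) - Um (Wm N g) p‖ ≤
          ‖Wm N g * Um (Wm N g) (p + 1)‖ + ‖Um (Wm N g) p‖ := norm_sub_le _ _
        _ ≤ ‖Wm N g‖ * om N g ^ (p + 1) + om N g ^ p := by
          refine add_le_add ((norm_mul_le _ _).trans ?_) ih.1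
          exact mul_le_mul_of_nonneg_left ih.2 h0
        _ ≤ om N g ^ (p + 1 + 1) := by
          have h2 : om N g ^ p ≤ om N g ^ (p + 1) := pow_le_pow_right₀ h1 (Nat.le_succ p)
          have h3 : om N g ^ (p + 1 + 1) = (1 + ‖Wm N g‖) * om N g ^ (p + 1) := by
            rw [pow_succ, mul_comm]; rfl
          rw [h3]; linarith
  exact (key p).1

/-- The norm of `A y`. -/
theorem sum_mulVec_sq_le (A : Matrix (Fin N) (Fin N) ℝ) (y : Fin N → ℝ) :
    ∑ i, (∑ j, A i j * y j) ^ 2 ≤ ‖A‖ ^ 2 * ∑ i, y i ^ 2 := by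
  have h := Matrix.l2_opNorm_mulVec A (WithLp.toLp 2 y)
  have e1 : ‖(WithLp.toLp 2 (A *ᵥ y) : EuclideanSpace ℝ (Fin N))‖ ^ 2 =
      ∑ i, (∑ j, A i j * y j) ^ 2 := by
    rw [EuclideanSpace.norm_sq_eq]
    refine Finset.sum_congr rfl fun i _ => ?_
    rw [Real.norm_eq_abs, sq_abs]
    rfl
  have e2 : ‖(WithLp.toLp 2 y : EuclideanSpace ℝ (Fin N))‖ ^ 2 = ∑ i, y i ^ 2 := by
    rw [EuclideanSpace.norm_sq_eq]
    refine Finset.sum_congr rfl fun i _ => ?_
    rw [Real.norm_eq_abs, sq_abs]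
  rw [← e1, ← e2, ← mul_pow]
  exact pow_le_pow_left₀ (norm_nonneg _) h 2

/-- The bilinear form is bounded by the operator norm. -/
theorem abs_bil_le (A : Matrix (Fin N) (Fin N) ℝ) (x y : Fin N → ℝ) :
    |∑ i, ∑ j, x i * A i j * y j| ≤ ‖A‖ * (√(∑ i, x i ^ 2) * √(∑ i, y i ^ 2)) := by
  have e : ∑ i, ∑ j, x i * A i j * y j = ∑ i, x i * (∑ j, A i j * y j) := by
    refine Finset.sum_congr rfl fun i _ => ?_
    rw [Finset.mul_sum]
    refine Finset.sum_congr rfl fun j _ => ?_
    ring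
  have h1 := Finset.sum_mul_sq_le_sq_mul_sq Finset.univ x (fun i => ∑ j, A i j * y j)
  have h2 := sum_mulVec_sq_le A y
  rw [e]
  refine abs_le_of_sq_le_sq ?_ (by (clear * -; positivity))
  have hx : 0 ≤ ∑ i, x i ^ 2 := Finset.sum_nonneg fun i _ => sq_nonneg _
  have hy : 0 ≤ ∑ i, y i ^ 2 := Finset.sum_nonneg fun i _ => sq_nonneg _
  calc (∑ i, x i * ∑ j, A i j * y j) ^ 2 ≤ (∑ i, x i ^ 2) * ∑ i, (∑ j, A i j * y j) ^ 2 := h1
    _ ≤ (∑ i, x i ^ 2) * (‖A‖ ^ 2 * ∑ i, y i ^ 2) := mul_le_mul_of_nonneg_left h2 hx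
    _ = (‖A‖ * (√(∑ i, x i ^ 2) * √(∑ i, y i ^ 2))) ^ 2 := by
      rw [mul_pow, mul_pow, Real.sq_sqrt hx, Real.sq_sqrt hy]; ring

lemma sum_spin_sq (x : Fin N → Bool) : ∑ i, spin x i ^ 2 = N := by
  have : ∀ i, spin x i ^ 2 = 1 := fun i => by unfold spin; split_ifs <;> norm_num
  simp [this]

theorem abs_qf_spin_le (A : Matrix (Fin N) (Fin N) ℝ) (x : Fin N → Bool) :
    |qf A (spin x)| ≤ N * ‖A‖ := by
  have h := abs_bil_le A (spin x) (spin x)
  rw [sum_spin_sq, Real.mul_self_sqrt (Nat.cast_nonneg N), mul_comm] at h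
  exact h

theorem abs_qf_Um_le (g : Ix N → ℝ) (p : ℕ) (x : Fin N → Bool) :
    |qf (Um (Wm N g) p) (spin x)| ≤ N * om N g ^ p :=
  (abs_qf_spin_le _ x).trans (mul_le_mul_of_nonneg_left (norm_Um_le g p) (Nat.cast_nonneg N))

lemma continuous_Wm : Continuous (fun g : Ix N → ℝ => Wm N g) := by
  unfold Wm
  refine continuous_matrix fun i j => ?_
  simp only [Matrix.of_apply]
  fun_prop

lemma continuous_om : Continuous (om N) := by
  unfold om
  exact continuous_const.add (continuous_Wm.norm)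

/-- A crude bound for the norm of `W`. -/
lemma norm_Wm_le (g : Ix N → ℝ) : ‖Wm N g‖ ≤ ∑ i, ∑ j, |Wm N g i j| := by
  have h1 : Wm N g = ∑ i, ∑ j, Matrix.single i j (Wm N g i j) := Matrix.matrix_eq_sum_single _
  have h2 : ∀ i j (c : ℝ), ‖(Matrix.single i j c : Matrix (Fin N) (Fin N) ℝ)‖ ≤ |c| := by
    intro i j c
    rw [Matrix.l2_opNorm_def]
    refine ContinuousLinearMap.opNorm_le_bound _ (abs_nonneg c) fun v => ?_
    have h3 : (Matrix.toEuclideanLin.trans LinearMap.toContinuousLinearMap)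
        (Matrix.single i j c) v = WithLp.toLp 2 (Matrix.single i j c *ᵥ v.ofLp) := rfl
    have h4 : ‖(WithLp.toLp 2 (Matrix.single i j c *ᵥ v.ofLp) : EuclideanSpace ℝ (Fin N))‖ =
        |c| * |v j| := by
      rw [Matrix.single_mulVec]
      rw [EuclideanSpace.norm_eq]
      have : ∀ k, ‖(WithLp.toLp 2 (Function.update 0 i (c * v.ofLp j)) :
          EuclideanSpace ℝ (Fin N)) k‖ ^ 2 = if k = i then (c * v j) ^ 2 else 0 := by
        intro k
        by_cases hk : k = i
        · subst hk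
          simp only [Function.update_self, if_true, Real.norm_eq_abs, sq_abs]
        · simp [hk]
      simp only [this]
      rw [Finset.sum_ite_eq' Finset.univ i]
      simp [Real.sqrt_sq_eq_abs, abs_mul]
    rw [h3, h4]
    exact mul_le_mul_of_nonneg_left (by simpa using PiLp.norm_apply_le v j) (abs_nonneg c)
  calc ‖Wm N g‖ = ‖∑ i, ∑ j, Matrix.single i j (Wm N g i j)‖ := by rw [← h1]
    _ ≤ ∑ i, ∑ j, ‖(Matrix.single i j (Wm N g i j) : Matrix (Fin N) (Fin N) ℝ)‖ :=
      (norm_sum_le _ _).trans (Finset.sum_le_sum fun i _ => norm_sum_le _ _)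
    _ ≤ _ := Finset.sum_le_sum fun i _ => Finset.sum_le_sum fun j _ => h2 i j _

lemma eg_om : EG (om N) := by
  have h1 : EG (fun g : Ix N → ℝ => 1 + ∑ i, ∑ j, |Wm N g i j|) :=
    (EG.const 1).add (EG.sum _ fun i _ => EG.sum _ fun j _ => (egm_Wm i j).abs)
  refine h1.mono continuous_om.measurable fun g => ?_
  rw [abs_of_nonneg (om_nonneg g), abs_of_nonneg]
  · exact add_le_add le_rfl (norm_Wm_le g)
  · positivity

lemma cut_nonneg (g : Ix N → ℝ) : 0 ≤ cut N g := Real.smoothTransition.nonneg _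

lemma cut_le_one (g : Ix N → ℝ) : cut N g ≤ 1 := Real.smoothTransition.le_one _

lemma continuous_cut : Continuous (cut N) := by
  unfold cut
  exact Real.smoothTransition.continuous.comp (by fun_prop)

lemma eg_cut : EG (cut N) := by
  refine EG.of_bdd continuous_cut.measurable (C := 1) fun g => ?_
  rw [abs_of_nonneg (cut_nonneg g)]
  exact cut_le_one g

/-- The probability of the region where the cutoff is active. -/
theorem int_one_sub_cut_le (hN : 0 < N) : ∫ g, (1 - cut N g) ∂(gI (Ix N)) ≤ 1 / N := by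
  have hN' : (0 : ℝ) < N := by exact_mod_cast hN
  have h1 : ∀ g : Ix N → ℝ, 1 - cut N g ≤ (∑ p, g p ^ 2) / (N : ℝ) ^ 3 := by
    intro g
    have h0 : 0 ≤ (∑ p, g p ^ 2) / (N : ℝ) ^ 3 := by positivity
    by_cases h : (∑ p, g p ^ 2) / (N : ℝ) ^ 3 ≤ 1
    · have : cut N g = 1 := Real.smoothTransition.one_of_one_le (by linarith only [h])
      rw [this]; linarith
    · push Not at h
      linarith [cut_nonneg g]
  have e2 : ∀ p : Ix N, EG (fun g : Ix N → ℝ => g p ^ 2) := fun p => (EG.coord p).pow 2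
  have h2 : ∫ g, (1 - cut N g) ∂(gI (Ix N)) ≤
      ∫ g, (∑ p, g p ^ 2) / (N : ℝ) ^ 3 ∂(gI (Ix N)) := by
    refine integral_mono ((EG.const 1).sub eg_cut).integrable ?_ h1
    exact ((EG.sum Finset.univ fun p _ => e2 p).integrable).div_const _
  refine h2.trans ?_
  rw [integral_div, integral_finsetSum _ fun p _ => (e2 p).integrable]
  have h3 : ∀ p : Ix N, ∫ g : Ix N → ℝ, g p ^ 2 ∂(gI (Ix N)) = 1 := by
    intro p
    have h4 := integral_comp_eval (μ := fun _ : Ix N => gaussianReal 0 1) (i := p)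
      (f := fun x : ℝ => x ^ 2) (by fun_prop)
    rw [show (∫ g : Ix N → ℝ, g p ^ 2 ∂(gI (Ix N))) =
      ∫ x : ℝ, x ^ 2 ∂(gaussianReal 0 1) from h4]
    have h5 := variance_id_gaussianReal (μ := 0) (v := 1)
    rw [variance_eq_integral (by fun_prop)] at h5
    simpa [integral_id_gaussianReal] using h5
  simp only [h3]
  rw [Finset.sum_const, Finset.card_univ, Fintype.card_prod, Fintype.card_fin, nsmul_eq_mul, mul_one]
  push_cast
  rw [div_le_div_iff₀ (by positivity) hN']
  linarith only []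

/-- Growth of the quadratic forms. -/
lemma eg_qf_Um (p : ℕ) (x : Fin N → ℝ) : EG (fun g : Ix N → ℝ => qf (Um (Wm N g) p) x) := by
  unfold qf
  exact EG.sum _ fun i _ => EG.sum _ fun j _ => ((EG.const (x i)).mul (egm_Um p i j)).mul
    (EG.const (x j))

lemma nh_qf_Um (p : ℕ) : Nh (fun (z : GI (Ix N) N K → ℝ) (x : Fin N → Bool) =>
    qf (Um (Wm N (r0 z)) p) (spin x)) := fun x => Gen.EG.r0 (eg_qf_Um p (spin x))

lemma nh_cut_qf_Um (p : ℕ) : Nh (fun (z : GI (Ix N) N K → ℝ) (x : Fin N → Bool) =>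
    cut N (r0 z) * qf (Um (Wm N (r0 z)) p) (spin x)) := fun x =>
  Gen.EG.r0 (eg_cut.mul (eg_qf_Um p (spin x)))

end Vale.Agent.P146.Sk
end

section

/-!
Schur monotonicity of the pattern part and of the spin part.
-/

open MeasureTheory ProbabilityTheory Filter Topology

namespace Vale.Agent.P157.Lv

set_option linter.unusedSectionVars false

open Par (incr Path Exponents cascade gstep patternPart spinPart topN lw)

variable {ι X : Type} [Fintype ι] [DecidableEq ι] [Fintype X] [Nonempty X]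
  {S : Sy ι X} {D : ι → (ι → ℝ) → X → ℝ}

/-! ### Auxiliary lemmas -/

namespace Sy

lemma Reg.schur_mono (hS : S.Reg) {l l' : ℕ} (hl : l ≤ l') (hl' : l' ≤ S.K)
    {h : (ι → ℝ) → X → ℝ} (hh : Nh h) :
    S.Ex (fun z _ => S.T l h z ^ 2) ≤ S.Ex (fun z _ => S.T l' h z ^ 2) := by
  have h1 : Nh (X := X) (fun z _ => S.T l' h z) := Nh.fst (hS.eg_T hl' hh)
  have h2 : Nh (X := X) (fun z (_ : X) => S.T l' h z ^ 2) := Nh.fst ((hS.eg_T hl' hh).pow 2)
  rw [← hS.Ex_T (hl.trans hl') h2]
  refine hS.Ex_mono (Nh.fst ((hS.eg_T (hl.trans hl') hh).pow 2))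
    (Nh.fst (hS.eg_T (hl.trans hl') h2)) fun z _ => ?_
  rw [← hS.T_T hl hl' hh z]
  exact hS.sq_T_le (hl.trans hl') h1 z

lemma Reg.schur_nonneg (hS : S.Reg) {l : ℕ} (hl : l ≤ S.K) {h : (ι → ℝ) → X → ℝ} (hh : Nh h) :
    0 ≤ S.Ex (fun z _ => S.T l h z ^ 2) := by
  rw [← hS.Ex_const 0]
  exact hS.Ex_mono (Nh.fst (EG.const 0)) (Nh.fst ((hS.eg_T hl hh).pow 2)) fun z _ => sq_nonneg _

lemma Reg.schur_le (hS : S.Reg) {l : ℕ} (hl : l ≤ S.K) {h : (ι → ℝ) → X → ℝ} (hh : Nh h)
    {C : ℝ} (hC : ∀ z x, |h z x| ≤ C) : S.Ex (fun z _ => S.T l h z ^ 2) ≤ C ^ 2 := by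
  rw [← hS.Ex_const (C ^ 2)]
  refine hS.Ex_mono (Nh.fst ((hS.eg_T hl hh).pow 2)) (Nh.fst (EG.const _)) fun z _ => ?_
  exact sq_le_sq' (abs_le.1 (hS.abs_T_le hl hh hC z)).1 (abs_le.1 (hS.abs_T_le hl hh hC z)).2

end Sy

/-- Abel summation against an increasing sequence. -/
lemma schur_abel {k : ℕ} {a E : ℕ → ℝ} {ε : ℝ} (hE0 : 0 ≤ E 0)
    (hE : ∀ l < k, E l ≤ E (l + 1)) (h : ∀ j ≤ k, -ε ≤ ∑ l ∈ Finset.Ico j (k + 1), a l) :
    -ε * E k ≤ ∑ l ∈ Finset.range (k + 1), a l * E l := by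
  have key : ∀ d, ∀ j, j + d = k →
      (∑ l ∈ Finset.Ico j (k + 1), a l) * E j - ε * (E k - E j) ≤
        ∑ l ∈ Finset.Ico j (k + 1), a l * E l := by
    intro d
    induction d with
    | zero =>
      intro j hj
      rw [add_zero] at hj
      subst hj
      simp
    | succ d ih =>
      intro j hj
      have h1 := ih (j + 1) (by omega)
      have h2 := h (j + 1) (by omega)
      have h3 := hE j (by omega)
      rw [Finset.sum_eq_sum_Ico_succ_bot (show j < k + 1 by omega),
        Finset.sum_eq_sum_Ico_succ_bot (show j < k + 1 by omega) fun l => a l * E l]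
      linarith only [h1, mul_nonneg (show 0 ≤ (∑ l ∈ Finset.Ico (j + 1) (k + 1), a l) + ε by linarith)
        (sub_nonneg.2 h3)]
  have h0 := key k 0 (by omega)
  have h1 := h 0 (Nat.zero_le _)
  rw [Finset.range_eq_Ico]
  nlinarith [mul_nonneg (show 0 ≤ (∑ l ∈ Finset.Ico 0 (k + 1), a l) + ε by linarith) hE0]

/-- The cascade depends only on the exponents `m 1, …, m n`. -/
lemma schur_cascade_congr {m m' q : ℕ → ℝ} : ∀ (n : ℕ), (∀ l < n, m (l + 1) = m' (l + 1)) →
    ∀ F x, cascade m q n F x = cascade m' q n F x := by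
  intro n
  induction n with
  | zero => intro _ F x; rfl
  | succ n ih =>
    intro h F x
    rw [Par.cascade_succ_def, Par.cascade_succ_def, h n (Nat.lt_succ_self n)]
    exact ih (fun l hl => h l (by omega)) _ x

/-- The system for the comparison of two paths. -/
def schurSys (K : ℕ) (m : ℕ → ℝ) : Sy (Fin (K + 1) × Bool) Unit where
  lev e := e.1
  K := K
  m := m
  H _ _ := 0

lemma schurSys_regD {K : ℕ} {m : ℕ → ℝ} (h0 : m 0 = 0) (h1 : m (K + 1) = 1)
    (hm : ∀ l ≤ K, m l ≤ m (l + 1)) (hp : 0 < m 1) :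
    (schurSys K m).RegD (fun _ _ _ => 0) where
  m0 := h0
  mK := h1
  mono := hm
  pos := hp
  lev e := Nat.le_of_lt_succ e.1.isLt
  lip _ := Lip.const 0
  pd _ _ := PD.const 0
  md _ _ := measurable_const
  bd := ⟨0, fun _ _ _ => by simp⟩

/-- The coefficients of the field with the path `Q` on the coordinates of the kind `b`. -/
noncomputable def schurC (K : ℕ) (Q : ℕ → ℝ) (b : Bool) (e : Fin (K + 1) × Bool) : ℝ :=
  if e.2 = b then √(incr Q e.1) else 0

/-- The coordinates of the kind `b`. -/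
def schurY (K : ℕ) (b : Bool) (l : ℕ) : Fin (K + 1) × Bool := (Fin.ofNat (K + 1) l, b)

lemma schurY_val (K : ℕ) (b : Bool) (i : Fin (K + 1)) : schurY K b i = (i, b) := by
  unfold schurY
  congr 1
  apply Fin.ext
  change (i : ℕ) % (K + 1) = i
  exact Nat.mod_eq_of_lt i.isLt

lemma schurY_lev {K : ℕ} {m : ℕ → ℝ} (b : Bool) {l : ℕ} (hl : l ≤ K) :
    (schurSys K m).lev (schurY K b l) = l := by
  change ((schurY K b l).1 : ℕ) = l
  simp only [schurY, Fin.ofNat]
  exact Nat.mod_eq_of_lt (Nat.lt_succ_of_le hl)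

lemma schur_lin {K : ℕ} (Q : ℕ → ℝ) (b : Bool) (z : Fin (K + 1) × Bool → ℝ) :
    lin (schurC K Q b) z = tf (schurY K b) K Q z := by
  unfold lin tf
  rw [Fintype.sum_prod_type, Finset.sum_range]
  refine Finset.sum_congr rfl fun i _ => ?_
  rw [schurY_val]
  cases b <;> simp [schurC]

lemma schur_sum {K : ℕ} {Q : ℕ → ℝ} (hQ : Path K Q) (b : Bool) {l : ℕ} (hl : l ≤ K) :
    ∑ e : Fin (K + 1) × Bool, (if (e.1 : ℕ) ≤ l then schurC K Q b e ^ 2 else 0) = Q l := by
  have hinc : ∀ i ≤ K, 0 ≤ incr Q i := by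
    intro i hi
    rcases i with _ | i
    · exact hQ.1
    · exact sub_nonneg.2 (hQ.2 i (by omega))
  have h1 : ∀ i : Fin (K + 1), (∑ b', if ((i, b').1 : ℕ) ≤ l then schurC K Q b (i, b') ^ 2 else 0) =
      if (i : ℕ) ≤ l then incr Q i else 0 := by
    intro i
    have h2 := Real.sq_sqrt (hinc i (Nat.le_of_lt_succ i.isLt))
    by_cases h : (i : ℕ) ≤ l
    · cases b <;> simp [schurC, h, h2]
    · simp [h]
  rw [Fintype.sum_prod_type, Finset.sum_congr rfl fun i _ => h1 i,
    ← Finset.sum_range (fun i => if i ≤ l then incr Q i else 0), ← Finset.sum_filter]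
  have h3 : (Finset.range (K + 1)).filter (fun i => i ≤ l) = Finset.range (l + 1) := by
    ext i
    simp only [Finset.mem_filter, Finset.mem_range]
    omega
  rw [h3]
  clear h3 h1
  induction l with
  | zero => simp [Par.incr_zero_def]
  | succ l ih =>
    rw [Finset.sum_range_succ, ih (by omega)]
    simp [Par.incr_succ_def]

/-- The comparison of two paths. -/
theorem schur_int {K : ℕ} {m : ℕ → ℝ} (h0 : m 0 = 0) (h1 : m (K + 1) = 1)
    (hm : ∀ l ≤ K, m l ≤ m (l + 1)) (hp : 0 < m 1) {Q R : ℕ → ℝ} (hQ : Path K Q) (hR : Path K R)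
    {f f' f'' : ℝ → ℝ} {C₁ C₂ : ℝ} (hf : Pot f f' f'' C₁ C₂) {b : ℝ}
    (hb : ∀ (S' : Sy (Fin (K + 1) × Bool) Unit) (u : (Fin (K + 1) × Bool → ℝ) → Unit → ℝ),
      S'.Reg → S'.K = K → Nh (fun z x => f' (u z x)) →
      (Q K - R K) * S'.Ex (fun z x => f'' (u z x) + f' (u z x) ^ 2) -
        ∑ l ∈ Finset.range (K + 1), (m (l + 1) - m l) * ((Q l - R l) *
          S'.Ex (fun z _ => S'.T l (fun z x => f' (u z x)) z ^ 2)) ≤ b) :
    ∫ x, cascade m Q K f (√(Q 0) * x) ∂(gaussianReal 0 1) -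
      ∫ x, cascade m R K f (√(R 0) * x) ∂(gaussianReal 0 1) ≤ b / 2 := by
  have hreg := schurSys_regD (K := K) h0 h1 hm hp
  have hsep : Sep (fun (_ : Fin (K + 1) × Bool) (_ : (Fin (K + 1) × Bool → ℝ)) (_ : Unit) => (0 : ℝ))
      (fun _ => schurC K Q false) (fun _ => schurC K R true) := by
    refine ⟨fun e _ _ => ?_, fun _ _ _ _ _ => rfl⟩
    rcases e with ⟨i, b'⟩
    cases b' <;> simp [schurC]
  have hlip : ∀ x x', |f x - f x'| ≤ C₁ * |x - x'| := hf.lip
  have e1 : (schurSys K m).wH (it (schurSys K m).H f (fun _ => schurC K Q false)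
      (fun _ => schurC K R true) (Real.pi / 2)) =
      (schurSys K m).wH fun z x => (schurSys K m).H z x +
        f (tf (schurY K false) (schurSys K m).K Q z) := by
    unfold it itU
    simp only [Real.sin_pi_div_two, Real.cos_pi_div_two, one_mul, zero_mul, add_zero, schur_lin]
    rfl
  have e2 : (schurSys K m).wH (it (schurSys K m).H f (fun _ => schurC K Q false)
      (fun _ => schurC K R true) 0) =
      (schurSys K m).wH fun z x => (schurSys K m).H z x +
        f (tf (schurY K true) (schurSys K m).K R z) := by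
    unfold it itU
    simp only [Real.sin_zero, Real.cos_zero, one_mul, zero_mul, zero_add, schur_lin]
    rfl
  have key := int_le hreg hf hsep (b := b) (fun θ _ _ => ?_)
  · rw [e1, e2, fe_add_tree hreg (y := schurY K false) (fun l hl => schurY_lev _ hl)
      (fun _ _ _ _ => rfl) (R := Q) hQ hlip, fe_add_tree hreg (y := schurY K true)
      (fun l hl => schurY_lev _ hl) (fun _ _ _ _ => rfl) (R := R) hR hlip] at key
    have key' : ∫ x, cascade m Q K f (√(Q 0) * x) ∂(gaussianReal 0 1) -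
      ∫ x, cascade m R K f (√(R 0) * x) ∂(gaussianReal 0 1) =
      (schurSys K m).fe + ∫ x, cascade (schurSys K m).m Q (schurSys K m).K f (√(Q 0) * x)
        ∂(gaussianReal 0 1) - ((schurSys K m).fe +
        ∫ x, cascade (schurSys K m).m R (schurSys K m).K f (√(R 0) * x) ∂(gaussianReal 0 1)) := by
      change _ = (schurSys K m).fe + ∫ x, cascade m Q K f (√(Q 0) * x)
        ∂(gaussianReal 0 1) - ((schurSys K m).fe +
        ∫ x, cascade m R K f (√(R 0) * x) ∂(gaussianReal 0 1))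
      ring
    rw [key']
    exact key
  · obtain ⟨S', hS'⟩ : ∃ S', S' = (schurSys K m).wH (it (schurSys K m).H f
      (fun _ => schurC K Q false) (fun _ => schurC K R true) θ) := ⟨_, rfl⟩
    have hregD := regD_it (α := fun _ => schurC K Q false) (β := fun _ => schurC K R true) hreg hf θ
    rw [← hS'] at hregD
    obtain ⟨u, hu⟩ : ∃ u, u = fun z (x : Unit) => itU (fun _ => schurC K Q false)
      (fun _ => schurC K R true) θ z x := ⟨_, rfl⟩
    have hum : ∀ x, Measurable fun z => u z x := by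
      intro x
      rw [hu]
      unfold itU lin
      fun_prop
    have hnh : Nh (fun z x => f' (u z x)) := fun x =>
      EG.of_bdd (hf.measurable.2.1.comp (hum x)) (C := C₁) fun y => hf.b1 _
    have hS'K : S'.K = K := by rw [hS']; rfl
    refine le_trans (le_of_eq ?_) (hb S' u hregD.toReg hS'K hnh)
    unfold brk
    rw [← hS']
    have hαs : ∑ e, schurC K Q false e ^ 2 = Q K := by
      rw [← schur_sum hQ false le_rfl]
      refine Finset.sum_congr rfl fun e _ => ?_
      rw [if_pos (Nat.le_of_lt_succ e.1.isLt)]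
    have hβs : ∑ e, schurC K R true e ^ 2 = R K := by
      rw [← schur_sum hR true le_rfl]
      refine Finset.sum_congr rfl fun e _ => ?_
      rw [if_pos (Nat.le_of_lt_succ e.1.isLt)]
    congr 1
    · rw [← Sy.Ex_const_mul]
      congr 1
      funext z x
      simp only [hu, hαs, hβs]
      ring
    · refine Finset.sum_congr rfl fun l hl => ?_
      have hlK : l ≤ K := Nat.le_of_lt_succ (Finset.mem_range.1 hl)
      congr 1
      have hT : ∀ (c : ℝ), S'.Ex (fun z _ => S'.T l (fun z x => f' (itU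
          (fun _ => schurC K Q false) (fun _ => schurC K R true) θ z x) * c) z ^ 2) =
          c ^ 2 * S'.Ex (fun z _ => S'.T l (fun z x => f' (u z x)) z ^ 2) := by
        intro c
        rw [← Sy.Ex_const_mul]
        congr 1
        funext z _
        rw [← mul_pow, ← Sy.T_const_mul]
        congr 2
        funext z x
        rw [hu]
        ring
      rw [sub_mul, ← schur_sum hQ false hlK, ← schur_sum hR true hlK, Finset.sum_mul,
        Finset.sum_mul, ← Finset.sum_sub_distrib]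
      refine Finset.sum_congr rfl fun e _ => ?_
      change (if (e.1 : ℕ) ≤ l then _ else (0 : ℝ)) = _
      by_cases h : (e.1 : ℕ) ≤ l
      · rw [if_pos h, if_pos h, if_pos h, hT, hT]
      · rw [if_neg h, if_neg h, if_neg h]
        ring

/-- **Schur monotonicity of the pattern part.** Proof: `int_le` for `X = Unit`, `H = 0`, the levels
`0, …, k + 1`, exponents `m 1, …, m k, 1` (and `m (k+2) = 1`), fields with the paths `ext1 k q'` and
`ext1 k q`; the bracket is `-∑_{l ≤ k} p_l (q' l - q l) E_l`, `E_l = Ex_θ (T_l f')²`, with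
`0 ≤ E_0 ≤ … ≤ E_k ≤ C₁²`; Abel summation. -/
theorem pattern_schur {k : ℕ} {m q q' : ℕ → ℝ} (hm : Exponents k m) (hq : Path k q)
    (hq1 : q k ≤ 1) (hq' : Path k q') (hq1' : q' k ≤ 1) {f f' f'' : ℝ → ℝ} {C₁ C₂ : ℝ}
    (hf : Pot f f' f'' C₁ C₂) {ε : ℝ} (hε : 0 ≤ ε)
    (h : ∀ j ≤ k, -ε ≤ ∑ l ∈ Finset.Ico j (k + 1), (m (l + 1) - m l) * (q' l - q l)) :
    patternPart f k m q' ≤ patternPart f k m q + 1 / 2 * C₁ ^ 2 * ε := by
  obtain ⟨mm, hmm⟩ : ∃ mm : ℕ → ℝ, mm = fun l => if l ≤ k + 1 then m l else 1 := ⟨_, rfl⟩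
  have hml : ∀ l ≤ k + 1, mm l = m l := fun l hl => by rw [hmm]; exact if_pos hl
  have hm2 : mm (k + 2) = 1 := by rw [hmm]; exact if_neg (by omega)
  have hext : ∀ {q : ℕ → ℝ}, Path k q → q k ≤ 1 → Path (k + 1) (ext1 k q) := by
    intro q hq hq1
    refine ⟨?_, fun l hl => ?_⟩
    · rw [ext1, if_pos (Nat.zero_le _)]; exact hq.1
    · rcases Nat.lt_or_ge l k with h1 | h1
      · rw [ext1, ext1, if_pos h1.le, if_pos (show l + 1 ≤ k from h1)]; exact hq.2 l h1
      · have : l = k := by omega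
        subst this
        rw [ext1, ext1, if_pos le_rfl, if_neg (by omega)]; exact hq1
  have hcas : ∀ q F x, cascade m (ext1 k q) (k + 1) F x = cascade mm (ext1 k q) (k + 1) F x :=
    fun q F x => schur_cascade_congr (k + 1) (fun l hl => (hml _ (by omega)).symm) F x
  have he0 : ∀ q : ℕ → ℝ, ext1 k q 0 = q 0 := fun q => by rw [ext1, if_pos (Nat.zero_le _)]
  have key := schur_int (K := k + 1) (m := mm) (Q := ext1 k q') (R := ext1 k q)
    (by rw [hml 0 (by omega)]; exact hm.1) hm2 (fun l hl => ?_)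
    (by rw [hml 1 (by omega)]; have := hm.2.2 0 (Nat.zero_le _); rw [hm.1] at this; exact this)
    (hext hq' hq1') (hext hq hq1) hf (b := C₁ ^ 2 * ε) (fun S' u hS' hK hu => ?_)
  · rw [patternPart_eq_cascade hm, patternPart_eq_cascade hm]
    simp only [hcas, he0] at key ⊢
    linarith only [key]
  · rcases Nat.lt_or_ge l (k + 1) with h1 | h1
    · rw [hml l hl, hml (l + 1) h1]; exact (hm.2.2 l (by omega)).le
    · have : l = k + 1 := by omega
      subst this
      rw [hml _ le_rfl, hm.2.1]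
      exact hm2.ge
  · have e1 : ext1 k q' (k + 1) = 1 := by rw [ext1, if_neg (by omega)]
    have e2 : ext1 k q (k + 1) = 1 := by rw [ext1, if_neg (by omega)]
    rw [e1, e2, sub_self, zero_mul, zero_sub, Finset.sum_range_succ, e1, e2, sub_self, zero_mul,
      mul_zero, add_zero]
    have e3 : ∑ l ∈ Finset.range (k + 1), (mm (l + 1) - mm l) * ((ext1 k q' l - ext1 k q l) *
        S'.Ex (fun z _ => S'.T l (fun z x => f' (u z x)) z ^ 2)) =
        ∑ l ∈ Finset.range (k + 1), ((m (l + 1) - m l) * (q' l - q l)) *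
        S'.Ex (fun z _ => S'.T l (fun z x => f' (u z x)) z ^ 2) := by
      refine Finset.sum_congr rfl fun l hl => ?_
      have hl' : l ≤ k := Nat.le_of_lt_succ (Finset.mem_range.1 hl)
      rw [hml l (by omega), hml (l + 1) (by omega), ext1, ext1, if_pos hl', if_pos hl']
      ring
    rw [e3]
    have h1 := schur_abel (k := k) (a := fun l => (m (l + 1) - m l) * (q' l - q l))
      (E := fun l => S'.Ex (fun z _ => S'.T l (fun z x => f' (u z x)) z ^ 2)) (ε := ε)
      (hS'.schur_nonneg (Nat.zero_le _) hu)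
      (fun l hl => hS'.schur_mono (Nat.le_succ l) (by omega) hu) h
    have h2 := hS'.schur_le (l := k) (by omega) hu (fun z x => hf.b1 _)
    have h3 : ε * S'.Ex (fun z _ => S'.T k (fun z x => f' (u z x)) z ^ 2) ≤ C₁ ^ 2 * ε := by
      rw [mul_comm]
      exact mul_le_mul_of_nonneg_right h2 hε
    simp only [neg_mul] at h1
    linarith only [h1, h3]

/-- **Schur monotonicity of the spin part.** Proof: `int_le` for `X = Unit`, `H = 0`, the function
`log cosh` (`f' = tanh`, `f'' + f'² = 1`), paths `r'` and `r`: the bracket is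
`(r' k - r k) - ∑ p_l (r' l - r l) E_l` with `0 ≤ E_0 ≤ … ≤ E_k`. -/
theorem spin_schur {k : ℕ} {m r r' : ℕ → ℝ} (hm : Exponents k m) (hr : Path k r)
    (hr' : Path k r')
    (h : ∀ j ≤ k, 0 ≤ ∑ l ∈ Finset.Ico j (k + 1), (m (l + 1) - m l) * (r' l - r l)) :
    spinPart k m r' ≤ spinPart k m r := by
  have hpot : Pot (fun x => Real.log (Real.cosh x)) Real.tanh (fun x => 1 - Real.tanh x ^ 2) 1 1 := by
    refine ⟨fun x => ?_, fun x => ?_, fun x => (Real.abs_tanh_lt_one x).le, fun x => ?_⟩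
    · have h1 := (Real.hasDerivAt_cosh x).log (Real.cosh_pos x).ne'
      rw [← Real.tanh_eq_sinh_div_cosh] at h1
      exact h1
    · have h1 : Real.tanh = Real.sinh / Real.cosh := by
        funext y
        exact Real.tanh_eq_sinh_div_cosh y
      have h2 := (Real.hasDerivAt_sinh x).div (Real.hasDerivAt_cosh x) (Real.cosh_pos x).ne'
      rw [← h1] at h2
      refine h2.congr_deriv ?_
      rw [Real.tanh_eq_sinh_div_cosh]
      have h3 := (Real.cosh_pos x).ne'
      field_simp
    · have h1 := Real.tanh_sq_lt_one x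
      have h2 := sq_nonneg (Real.tanh x)
      rw [abs_le]
      constructor <;> linarith
  have hm0 := hm.2.2 0 (Nat.zero_le _)
  rw [hm.1] at hm0
  have key := schur_int (K := k) (m := m) (Q := r') (R := r) hm.1 hm.2.1
    (fun l hl => (hm.2.2 l hl).le) hm0 hr' hr hpot (b := r' k - r k) (fun S' u hS' hK hu => ?_)
  · unfold spinPart
    linarith
  · have e0 : (fun z x => 1 - Real.tanh (u z x) ^ 2 + Real.tanh (u z x) ^ 2) =
        fun (_ : Fin (k + 1) × Bool → ℝ) (_ : Unit) => (1 : ℝ) := by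
      funext z x
      ring
    have e1 : (r' k - r k) * S'.Ex (fun z x => 1 - Real.tanh (u z x) ^ 2 +
        Real.tanh (u z x) ^ 2) = r' k - r k := by
      rw [e0, hS'.Ex_const, mul_one]
    simp only [e1]
    have h1 := schur_abel (k := k) (a := fun l => (m (l + 1) - m l) * (r' l - r l))
      (E := fun l => S'.Ex (fun z _ => S'.T l (fun z x => Real.tanh (u z x)) z ^ 2)) (ε := 0)
      (hS'.schur_nonneg (Nat.zero_le _) hu)
      (fun l hl => hS'.schur_mono (Nat.le_succ l) (by omega) hu)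
      (fun j hj => by rw [neg_zero]; exact h j hj)
    simp only [neg_zero, zero_mul, mul_assoc] at h1
    linarith

end Vale.Agent.P157.Lv
end

section

/-! One step of the tilted chain on the line. -/

open MeasureTheory ProbabilityTheory Filter Topology Set

namespace Vale.Agent.P157.Par

theorem Ec.abs_M {F M D : ℝ → ℝ} (h : Ec F M D) (x : ℝ) : |M x| ≤ 1 := by
  have h1 := h.D0 x
  have h2 := h.D1 x
  exact (sq_le_one_iff_abs_le_one (M x)).1 (by linarith)

theorem Ec.sm {F M D : ℝ → ℝ} (h : Ec F M D) : Sm 1 1 F M D :=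
  ⟨h.d1, h.d2, h.cD, h.abs_M, fun x => by
    rw [abs_of_nonneg (h.D0 x)]
    have := h.D1 x
    have := sq_nonneg (M x)
    linarith⟩

theorem Ec.odd {F M D : ℝ → ℝ} (h : Ec F M D) (x : ℝ) : M (-x) = -M x := by
  have h1 : HasDerivAt (fun x => F (-x)) (M (-x) * -1) x :=
    (h.d1 (-x)).comp x (hasDerivAt_neg x)
  have h2 : (fun x => F (-x)) = F := funext h.even
  rw [h2] at h1
  have := h1.unique (h.d1 x)
  linarith

theorem Ec.mono {F M D : ℝ → ℝ} (h : Ec F M D) : Monotone M :=
  monotone_of_hasDerivAt_nonneg h.d2 h.D0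

theorem ec_logcosh : Ec (fun x => Real.log (Real.cosh x)) Real.tanh
    (fun x => 1 - Real.tanh x ^ 2) := by
  have hd : ∀ x, HasDerivAt Real.tanh (1 - Real.tanh x ^ 2) x := by
    intro x
    have h1 := (Real.hasDerivAt_sinh x).div (Real.hasDerivAt_cosh x) (Real.cosh_pos x).ne'
    have h2 : (Real.sinh / Real.cosh : ℝ → ℝ) = Real.tanh := by
      funext y
      rw [Pi.div_apply, Real.tanh_eq_sinh_div_cosh]
    rw [h2] at h1
    refine h1.congr_deriv ?_
    rw [Real.tanh_eq_sinh_div_cosh]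
    have := (Real.cosh_pos x).ne'
    field_simp
  refine ⟨fun x => ?_, hd, ?_, fun x => by rw [Real.cosh_neg], fun x => ?_, fun x => ?_⟩
  · rw [Real.tanh_eq_sinh_div_cosh]
    exact (Real.hasDerivAt_cosh x).log (Real.cosh_pos x).ne'
  · have : Continuous Real.tanh := continuous_iff_continuousAt.2 fun x => (hd x).continuousAt
    fun_prop
  · have := (Real.tanh_sq_lt_one x).le
    linarith
  · linarith

theorem Sm.cont {L B : ℝ} {F M D : ℝ → ℝ} (h : Sm L B F M D) : Continuous F :=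
  continuous_iff_continuousAt.2 fun x => (h.d1 x).continuousAt

theorem Sm.cont1 {L B : ℝ} {F M D : ℝ → ℝ} (h : Sm L B F M D) : Continuous M :=
  continuous_iff_continuousAt.2 fun x => (h.d2 x).continuousAt

lemma Sm.L0 {L B : ℝ} {F M D : ℝ → ℝ} (h : Sm L B F M D) : 0 ≤ L :=
  (abs_nonneg _).trans (h.bM 0)

lemma Sm.lip {L B : ℝ} {F M D : ℝ → ℝ} (h : Sm L B F M D) (x y : ℝ) :
    |F x - F y| ≤ L * |x - y| := by
  have := convex_univ.norm_image_sub_le_of_norm_hasDerivWithin_le (f := F) (f' := M)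
    (s := Set.univ) (fun x _ => (h.d1 x).hasDerivWithinAt) (fun x _ => h.bM x)
    (mem_univ y) (mem_univ x)
  simpa only [Real.norm_eq_abs] using this

lemma Sm.lip1 {L B : ℝ} {F M D : ℝ → ℝ} (h : Sm L B F M D) : Lip1 F := ⟨L, h.L0, h.lip⟩

theorem Sm.integrable_exp {L B : ℝ} {F M D : ℝ → ℝ} (h : Sm L B F M D) (m v x : ℝ) :
    Integrable (fun z => Real.exp (m * F (x + √v * z))) (gaussianReal 0 1) :=
  h.lip1.integrable_exp m x (√v)

theorem Sm.int_exp_pos {L B : ℝ} {F M D : ℝ → ℝ} (h : Sm L B F M D) (m v x : ℝ) :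
    0 < ∫ z, Real.exp (m * F (x + √v * z)) ∂(gaussianReal 0 1) :=
  h.lip1.int_exp_pos m x (√v)

/-- Integrability of bounded functions times the exponential weight. -/
theorem Sm.integrable {L B : ℝ} {F M D : ℝ → ℝ} (h : Sm L B F M D) {g : ℝ → ℝ}
    (hg : Continuous g) {K : ℝ} (hK : ∀ x, |g x| ≤ K) (m v x : ℝ) :
    Integrable (fun z => g (x + √v * z) * Real.exp (m * F (x + √v * z))) (gaussianReal 0 1) := by
  have hF := h.cont
  refine ((h.integrable_exp m v x).const_mul K).mono'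
    (by fun_prop : Continuous fun z => g (x + √v * z) *
      Real.exp (m * F (x + √v * z))).aestronglyMeasurable (ae_of_all _ fun z => ?_)
  rw [norm_mul, Real.norm_eq_abs, Real.norm_eq_abs, abs_of_pos (Real.exp_pos _)]
  exact mul_le_mul_of_nonneg_right (hK _) (Real.exp_pos _).le

theorem Sm.tlt_const {L B : ℝ} {F M D : ℝ → ℝ} (h : Sm L B F M D) (m v c x : ℝ) :
    tlt m v F (fun _ => c) x = c := by
  unfold tlt
  rw [integral_const_mul]
  exact mul_div_cancel_right₀ _ (h.int_exp_pos m v x).ne'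

theorem Sm.tlt_add {L B : ℝ} {F M D : ℝ → ℝ} (h : Sm L B F M D) {g g' : ℝ → ℝ}
    (hg : Continuous g) {K : ℝ} (hK : ∀ x, |g x| ≤ K) (hg' : Continuous g') {K' : ℝ}
    (hK' : ∀ x, |g' x| ≤ K') (m v x : ℝ) :
    tlt m v F (fun y => g y + g' y) x = tlt m v F g x + tlt m v F g' x := by
  unfold tlt
  rw [← add_div, ← integral_add (h.integrable hg hK m v x) (h.integrable hg' hK' m v x)]
  congr 1
  refine integral_congr_ae (ae_of_all _ fun z => ?_)
  simp only []
  ring

theorem tlt_const_mul (m v c : ℝ) (F g : ℝ → ℝ) (x : ℝ) :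
    tlt m v F (fun y => c * g y) x = c * tlt m v F g x := by
  unfold tlt
  rw [← mul_div_assoc, ← integral_const_mul]
  congr 1
  refine integral_congr_ae (ae_of_all _ fun z => ?_)
  simp only []
  ring

theorem Sm.tlt_mono {L B : ℝ} {F M D : ℝ → ℝ} (h : Sm L B F M D) {g g' : ℝ → ℝ}
    (hg : Continuous g) {K : ℝ} (hK : ∀ x, |g x| ≤ K) (hg' : Continuous g') {K' : ℝ}
    (hK' : ∀ x, |g' x| ≤ K') (hle : ∀ x, g x ≤ g' x) (m v x : ℝ) :
    tlt m v F g x ≤ tlt m v F g' x := by
  unfold tlt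
  refine div_le_div_of_nonneg_right (integral_mono (h.integrable hg hK m v x)
    (h.integrable hg' hK' m v x) fun z => ?_) (h.int_exp_pos m v x).le
  exact mul_le_mul_of_nonneg_right (hle _) (Real.exp_pos _).le

theorem Sm.abs_tlt_le {L B : ℝ} {F M D : ℝ → ℝ} (h : Sm L B F M D) {g : ℝ → ℝ}
    (hg : Continuous g) {K : ℝ} (hK : ∀ x, |g x| ≤ K) (m v x : ℝ) :
    |tlt m v F g x| ≤ K := by
  have h1 := h.tlt_mono (g := g) (g' := fun _ => K) hg hK continuous_const
    (K' := |K|) (fun _ => le_rfl) (fun y => (abs_le.1 (hK y)).2) m v x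
  have h2 := h.tlt_mono (g := fun _ => -K) (g' := g) continuous_const
    (K := |K|) (fun _ => by rw [abs_neg]) hg hK (fun y => (abs_le.1 (hK y)).1) m v x
  rw [h.tlt_const] at h1 h2
  exact abs_le.2 ⟨h2, h1⟩

theorem Sm.tlt_sq_le {L B : ℝ} {F M D : ℝ → ℝ} (h : Sm L B F M D) {g : ℝ → ℝ}
    (hg : Continuous g) {K : ℝ} (hK : ∀ x, |g x| ≤ K) (m v x : ℝ) :
    tlt m v F g x ^ 2 ≤ tlt m v F (fun y => g y ^ 2) x := by
  set w := tlt m v F g x with hw
  have hK2 : ∀ y, |g y ^ 2| ≤ K ^ 2 := fun y => by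
    rw [abs_pow]
    exact pow_le_pow_left₀ (abs_nonneg _) (hK y) 2
  have hc : ∀ y, |2 * w * g y + -w ^ 2| ≤ |2 * w| * K + w ^ 2 := fun y => by
    refine (abs_add_le _ _).trans (add_le_add ?_ ?_)
    · rw [abs_mul]
      exact mul_le_mul_of_nonneg_left (hK y) (abs_nonneg _)
    · rw [abs_neg, abs_of_nonneg (sq_nonneg w)]
  have h1 := h.tlt_mono (g := fun y => 2 * w * g y + -w ^ 2) (g' := fun y => g y ^ 2)
    (by fun_prop) hc (by fun_prop) hK2 (fun y => by linarith only [sq_nonneg (g y - w)]) m v x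
  rw [h.tlt_add (g := fun y => 2 * w * g y) (g' := fun _ => -w ^ 2) (by fun_prop)
    (K := |2 * w| * K) (fun y => by
      rw [abs_mul]; exact mul_le_mul_of_nonneg_left (hK y) (abs_nonneg _))
    continuous_const (K' := |-w ^ 2|) (fun _ => le_rfl), tlt_const_mul, h.tlt_const, ← hw] at h1
  linarith only [h1]

/-- Local domination of the exponential weight. -/
lemma Sm.exp_le {L B : ℝ} {F M D : ℝ → ℝ} (h : Sm L B F M D) (m v x : ℝ) {y : ℝ}
    (hy : |y - x| ≤ 1) (z : ℝ) : Real.exp (m * F (y + √v * z)) ≤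
      Real.exp (|m| * (|F x| + L)) * Real.exp (|m| * (L * √v) * |z|) := by
  rw [← Real.exp_add, Real.exp_le_exp]
  have h1 : |F (y + √v * z)| ≤ |F x| + L * (1 + √v * |z|) := by
    have h2 := h.lip (y + √v * z) x
    have h3 : |y + √v * z - x| ≤ 1 + √v * |z| := by
      calc |y + √v * z - x| = |(y - x) + √v * z| := by ring_nf
        _ ≤ |y - x| + |√v * z| := abs_add_le _ _
        _ ≤ 1 + √v * |z| := by
          rw [abs_mul, abs_of_nonneg (Real.sqrt_nonneg v)]
          linarith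
    have h4 := abs_sub_abs_le_abs_sub (F (y + √v * z)) (F x)
    have h5 := mul_le_mul_of_nonneg_left h3 h.L0
    linarith
  calc m * F (y + √v * z) ≤ |m * F (y + √v * z)| := le_abs_self _
    _ = |m| * |F (y + √v * z)| := abs_mul _ _
    _ ≤ |m| * (|F x| + L * (1 + √v * |z|)) := mul_le_mul_of_nonneg_left h1 (abs_nonneg m)
    _ = _ := by ring

lemma Sm.num_cont {L B : ℝ} {F M D : ℝ → ℝ} (h : Sm L B F M D) {g : ℝ → ℝ}
    (hg : Continuous g) {K : ℝ} (hK : ∀ x, |g x| ≤ K) (m v : ℝ) :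
    Continuous fun x => ∫ z, g (x + √v * z) * Real.exp (m * F (x + √v * z))
      ∂(gaussianReal 0 1) := by
  have hF := h.cont
  rw [continuous_iff_continuousAt]
  intro x
  refine continuousAt_of_dominated (bound := fun z => K * (Real.exp (|m| * (|F x| + L)) *
    Real.exp (|m| * (L * √v) * |z|))) (Filter.Eventually.of_forall fun y =>
      (by fun_prop : Continuous fun z => g (y + √v * z) *
        Real.exp (m * F (y + √v * z))).aestronglyMeasurable) ?_ ?_ ?_
  · have hnb : ∀ᶠ y in 𝓝 x, |y - x| ≤ 1 := by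
      filter_upwards [Metric.closedBall_mem_nhds x one_pos] with y hy
      rwa [Metric.mem_closedBall, Real.dist_eq] at hy
    filter_upwards [hnb] with y hy
    refine ae_of_all _ fun z => ?_
    rw [norm_mul, Real.norm_eq_abs, Real.norm_eq_abs, abs_of_pos (Real.exp_pos _)]
    exact mul_le_mul (hK _) (h.exp_le m v x hy z) (Real.exp_pos _).le
      ((abs_nonneg _).trans (hK 0))
  · exact ((integrable_exp_abs _).const_mul _).const_mul K
  · refine ae_of_all _ fun z => ?_
    exact (by fun_prop : Continuous fun y => g (y + √v * z) *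
      Real.exp (m * F (y + √v * z))).continuousAt

theorem Sm.tlt_cont {L B : ℝ} {F M D : ℝ → ℝ} (h : Sm L B F M D) {g : ℝ → ℝ}
    (hg : Continuous g) {K : ℝ} (hK : ∀ x, |g x| ≤ K) (m v : ℝ) :
    Continuous (tlt m v F g) := by
  have h1 := h.num_cont hg hK m v
  have h2 := h.num_cont (g := fun _ => 1) continuous_const (K := 1) (fun _ => by simp) m v
  simp only [one_mul] at h2
  exact h1.div h2 fun x => (h.int_exp_pos m v x).ne'

/-- The derivative of the numerators. -/
lemma Sm.num_deriv {L B : ℝ} {F M D : ℝ → ℝ} (h : Sm L B F M D) {g g' : ℝ → ℝ}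
    (hg : ∀ x, HasDerivAt g (g' x) x) {K : ℝ} (hK : ∀ x, |g x| ≤ K) (hc : Continuous g')
    {K' : ℝ} (hK' : ∀ x, |g' x| ≤ K') (m v x : ℝ) :
    HasDerivAt (fun x => ∫ z, g (x + √v * z) * Real.exp (m * F (x + √v * z))
      ∂(gaussianReal 0 1))
      (∫ z, (fun y => g' y + m * M y * g y) (x + √v * z) * Real.exp (m * F (x + √v * z))
        ∂(gaussianReal 0 1)) x := by
  have hF := h.cont
  have hM := h.cont1
  have hgc : Continuous g := continuous_iff_continuousAt.2 fun x => (hg x).continuousAt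
  have hK0 : 0 ≤ K := (abs_nonneg _).trans (hK 0)
  have hK0' : 0 ≤ K' := (abs_nonneg _).trans (hK' 0)
  have hb : ∀ y, |g' y + m * M y * g y| ≤ K' + |m| * L * K := fun y => by
    refine (abs_add_le _ _).trans (add_le_add (hK' y) ?_)
    rw [abs_mul, abs_mul]
    exact mul_le_mul (mul_le_mul_of_nonneg_left (h.bM y) (abs_nonneg _)) (hK y) (abs_nonneg _)
      (mul_nonneg (abs_nonneg _) h.L0)
  refine (hasDerivAt_integral_of_dominated_loc_of_deriv_le
    (s := Metric.closedBall x 1) (μ := gaussianReal 0 1)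
    (F := fun y z => g (y + √v * z) * Real.exp (m * F (y + √v * z)))
    (F' := fun y z => (g' (y + √v * z) + m * M (y + √v * z) * g (y + √v * z)) *
      Real.exp (m * F (y + √v * z)))
    (bound := fun z => (K' + |m| * L * K) * (Real.exp (|m| * (|F x| + L)) *
      Real.exp (|m| * (L * √v) * |z|)))
    (Metric.closedBall_mem_nhds x one_pos)
    (Filter.Eventually.of_forall fun y => (by fun_prop : Continuous fun z => g (y + √v * z) *
        Real.exp (m * F (y + √v * z))).aestronglyMeasurable)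
    (h.integrable hgc hK m v x)
    (by fun_prop : Continuous fun z => (g' (x + √v * z) + m * M (x + √v * z) *
      g (x + √v * z)) * Real.exp (m * F (x + √v * z))).aestronglyMeasurable
    (ae_of_all _ fun z y hy => ?_)
    (((integrable_exp_abs _).const_mul _).const_mul _)
    (ae_of_all _ fun z y hy => ?_)).2
  · rw [Metric.mem_closedBall, Real.dist_eq] at hy
    rw [norm_mul, Real.norm_eq_abs, Real.norm_eq_abs, abs_of_pos (Real.exp_pos _)]
    exact mul_le_mul (hb _) (h.exp_le m v x hy z) (Real.exp_pos _).le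
      (add_nonneg hK0' (mul_nonneg (mul_nonneg (abs_nonneg _) h.L0) hK0))
  · have h1 : HasDerivAt (fun y => y + √v * z) 1 y := (hasDerivAt_id y).add_const _
    have h2 : HasDerivAt (fun y => g (y + √v * z)) (g' (y + √v * z) * 1) y :=
      (hg (y + √v * z)).comp y h1
    have h3 : HasDerivAt (fun y => F (y + √v * z)) (M (y + √v * z) * 1) y :=
      (h.d1 (y + √v * z)).comp y h1
    refine (h2.fun_mul ((h3.const_mul m).exp)).congr_deriv ?_
    ring

/-- The derivative of the tilted averages. -/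
lemma Sm.tlt_deriv {L B : ℝ} {F M D : ℝ → ℝ} (h : Sm L B F M D) {g g' : ℝ → ℝ}
    (hg : ∀ x, HasDerivAt g (g' x) x) {K : ℝ} (hK : ∀ x, |g x| ≤ K) (hc : Continuous g')
    {K' : ℝ} (hK' : ∀ x, |g' x| ≤ K') (m v x : ℝ) :
    HasDerivAt (tlt m v F g)
      (tlt m v F (fun y => g' y + m * M y * g y) x - tlt m v F g x * (m * tlt m v F M x)) x := by
  have h1 := h.num_deriv hg hK hc hK' m v x
  have h2 := h.num_deriv (g := fun _ => 1) (g' := fun _ => 0) (fun x => hasDerivAt_const x 1)
    (K := 1) (fun _ => by simp) continuous_const (K' := 0) (fun _ => by simp) m v x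
  simp only [one_mul, zero_add, mul_one] at h2
  have hZ := (h.int_exp_pos m v x).ne'
  have h4 : (∫ z, m * M (x + √v * z) * Real.exp (m * F (x + √v * z)) ∂(gaussianReal 0 1)) =
      m * ∫ z, M (x + √v * z) * Real.exp (m * F (x + √v * z)) ∂(gaussianReal 0 1) := by
    rw [← integral_const_mul]
    refine integral_congr_ae (ae_of_all _ fun z => ?_)
    simp only []
    ring
  rw [h4] at h2
  have h3 := h1.fun_div h2 hZ
  refine h3.congr_deriv ?_
  unfold tlt
  field_simp

theorem Sm.step {L B : ℝ} {F M D : ℝ → ℝ} (h : Sm L B F M D) {m : ℝ} (hm : 0 < m) (v : ℝ) :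
    Sm L (B + m * L ^ 2) (gstep m v F) (tlt m v F M)
      (fun x => tlt m v F (fun y => D y + m * M y ^ 2) x - m * tlt m v F M x ^ 2) := by
  have hM := h.cont1
  have hD := h.cD
  have hL := h.L0
  have hM2 : ∀ y, |M y ^ 2| ≤ L ^ 2 := fun y => by
    rw [abs_pow]
    exact pow_le_pow_left₀ (abs_nonneg _) (h.bM y) 2
  have hmM2 : ∀ y, |m * M y ^ 2| ≤ m * L ^ 2 := fun y => by
    rw [abs_mul, abs_of_pos hm]
    exact mul_le_mul_of_nonneg_left (hM2 y) hm.le
  refine ⟨fun x => ?_, fun x => ?_, ?_, h.abs_tlt_le hM h.bM m v, fun x => ?_⟩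
  · have h2 := h.num_deriv (g := fun _ => 1) (g' := fun _ => 0) (fun x => hasDerivAt_const x 1)
      (K := 1) (fun _ => by simp) continuous_const (K' := 0) (fun _ => by simp) m v x
    simp only [one_mul, zero_add, mul_one] at h2
    have h4 : (∫ z, m * M (x + √v * z) * Real.exp (m * F (x + √v * z)) ∂(gaussianReal 0 1)) =
        m * ∫ z, M (x + √v * z) * Real.exp (m * F (x + √v * z)) ∂(gaussianReal 0 1) := by
      rw [← integral_const_mul]
      refine integral_congr_ae (ae_of_all _ fun z => ?_)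
      simp only []
      ring
    rw [h4] at h2
    have h3 := (h2.log (h.int_exp_pos m v x).ne').const_mul (1 / m)
    have hZ := (h.int_exp_pos m v x).ne'
    refine h3.congr_deriv ?_
    unfold tlt
    field_simp
  · refine (h.tlt_deriv h.d2 h.bM hD h.bD m v x).congr_deriv ?_
    have e : (fun y => D y + m * M y ^ 2) = fun y => D y + m * M y * M y := by
      funext y; ring
    rw [e]
    ring
  · have h1 := h.tlt_cont (g := fun y => D y + m * M y ^ 2) (by fun_prop) (K := B + m * L ^ 2)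
      (fun y => (abs_add_le _ _).trans (add_le_add (h.bD y) (hmM2 y))) m v
    have h2 := h.tlt_cont hM h.bM m v
    fun_prop
  · have e : tlt m v F (fun y => D y + m * M y ^ 2) x =
        tlt m v F D x + m * tlt m v F (fun y => M y ^ 2) x := by
      rw [h.tlt_add hD h.bD (g' := fun y => m * M y ^ 2) (by fun_prop) hmM2, tlt_const_mul]
    rw [e]
    have h1 := h.tlt_sq_le hM h.bM m v x
    have h2 := abs_le.1 (h.abs_tlt_le hD h.bD m v x)
    have h3 := abs_le.1 (h.abs_tlt_le (g := fun y => M y ^ 2) (by fun_prop) hM2 m v x)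
    have h4 := sq_nonneg (tlt m v F M x)
    rw [abs_le]
    constructor
    · linarith only [mul_nonneg hm.le (sq_nonneg L), mul_le_mul_of_nonneg_left h1 hm.le, h2.1]
    · linarith only [mul_nonneg hm.le h4, mul_le_mul_of_nonneg_left h3.2 hm.le, h2.2]

lemma integral_gauss_neg (g : ℝ → ℝ) :
    ∫ z, g (-z) ∂(gaussianReal 0 1) = ∫ z, g z ∂(gaussianReal 0 1) := by
  have h : (gaussianReal 0 1).map (fun z : ℝ => -z) = gaussianReal 0 1 := by
    have := gaussianReal_map_neg (μ := 0) (v := 1)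
    simpa using this
  conv_rhs => rw [← h]
  exact (integral_map_equiv (MeasurableEquiv.neg ℝ) g).symm

lemma gstep_even {F : ℝ → ℝ} (hF : ∀ x, F (-x) = F x) (m v x : ℝ) :
    gstep m v F (-x) = gstep m v F x := by
  unfold gstep
  rw [← integral_gauss_neg]
  congr 2
  refine integral_congr_ae (ae_of_all _ fun z => ?_)
  simp only []
  rw [← hF (x + √v * z)]
  congr 3
  ring

theorem Ec.step {F M D : ℝ → ℝ} (h : Ec F M D) {m : ℝ} (hm : 0 < m) (hm1 : m ≤ 1) (v : ℝ) :
    Ec (gstep m v F) (tlt m v F M)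
      (fun x => tlt m v F (fun y => D y + m * M y ^ 2) x - m * tlt m v F M x ^ 2) := by
  have hs := h.sm
  have hst := hs.step hm v
  have hM := hs.cont1
  have hD := h.cD
  have hM2 : ∀ y, |M y ^ 2| ≤ 1 := fun y => by
    rw [abs_pow]
    exact pow_le_one₀ (abs_nonneg _) (h.abs_M y)
  have hmM2 : ∀ y, |m * M y ^ 2| ≤ m * 1 := fun y => by
    rw [abs_mul, abs_of_pos hm]
    exact mul_le_mul_of_nonneg_left (hM2 y) hm.le
  have e : ∀ x, tlt m v F (fun y => D y + m * M y ^ 2) x =
      tlt m v F D x + m * tlt m v F (fun y => M y ^ 2) x := fun x => by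
    rw [hs.tlt_add hD hs.bD (g' := fun y => m * M y ^ 2) (by fun_prop) hmM2, tlt_const_mul]
  have h0 : ∀ x, 0 ≤ tlt m v F D x := fun x => by
    have := hs.tlt_mono (g := fun _ => 0) (g' := D) continuous_const (K := 0) (fun _ => by simp)
      hD hs.bD h.D0 m v x
    rwa [hs.tlt_const] at this
  refine ⟨hst.d1, hst.d2, hst.cD, gstep_even h.even m v, fun x => ?_, fun x => ?_⟩
  · rw [e]
    have h1 := hs.tlt_sq_le hM hs.bM m v x
    have h2 := h0 x
    have h3 := mul_le_mul_of_nonneg_left h1 hm.le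
    linarith
  · rw [e]
    have h1 := hs.tlt_sq_le hM hs.bM m v x
    have h2 : tlt m v F D x + tlt m v F (fun y => M y ^ 2) x ≤ 1 := by
      rw [← hs.tlt_add hD hs.bD (g' := fun y => M y ^ 2) (by fun_prop) hM2]
      have := hs.tlt_mono (g := fun y => D y + M y ^ 2) (g' := fun _ => 1) (by fun_prop) (K := 2)
        (fun y => by
          rw [abs_of_nonneg (add_nonneg (h.D0 y) (sq_nonneg _))]
          linarith [h.D1 y]) continuous_const (K' := 1) (fun _ => by simp) h.D1 m v x
      rwa [hs.tlt_const] at this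
    have h3 := mul_le_mul_of_nonneg_left h1 (sub_nonneg.2 hm1)
    linarith only [h3, h2]

end Vale.Agent.P157.Par
end
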