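import Vale.Agent.P146.Bdl.B2
import Vale.Agent.P146.Bdl.B1
import Vale.Agent.P146.Bdl.B5

set_option linter.all false

section

/-!
# P146, module IBPW: linear algebra of the symmetric product of two vectors
-/

open Finset Matrix

namespace Vale.Agent.P146.Sk

set_option linter.all false

variable {N : ℕ}

/-- The symmetric product of two vectors, normalised as the derivative of `u ⬝ W v`. -/
noncomputable def Me (u v : Fin N → ℝ) (e : Ix N) : ℝ :=
  (u e.1 * v e.2 + u e.2 * v e.1) / √(2 * (N : ℝ))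

/-- The Euclidean norm. -/
noncomputable def nv (v : Fin N → ℝ) : ℝ := ‖(WithLp.toLp 2 v : EuclideanSpace ℝ (Fin N))‖

lemma nv_nonneg (v : Fin N → ℝ) : 0 ≤ nv v := norm_nonneg _

lemma nv_sq (v : Fin N → ℝ) : nv v ^ 2 = ∑ i, v i ^ 2 := by
  unfold nv
  rw [EuclideanSpace.norm_sq_eq]
  simp

lemma dot_self_eq (v : Fin N → ℝ) : v ⬝ᵥ v = nv v ^ 2 := by
  rw [nv_sq, dotProduct]
  exact sum_congr rfl fun i _ => by ring

lemma nv_add_le (u v : Fin N → ℝ) : nv (u + v) ≤ nv u + nv v := by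
  unfold nv
  rw [WithLp.toLp_add]
  exact norm_add_le _ _

lemma nv_sub_le (u v : Fin N → ℝ) : nv (u - v) ≤ nv u + nv v := by
  unfold nv
  rw [WithLp.toLp_sub]
  exact norm_sub_le _ _

lemma abs_dot_le (u v : Fin N → ℝ) : |u ⬝ᵥ v| ≤ nv u * nv v := by
  have h := abs_real_inner_le_norm (WithLp.toLp 2 u : EuclideanSpace ℝ (Fin N)) (WithLp.toLp 2 v)
  have e : inner ℝ (WithLp.toLp 2 u : EuclideanSpace ℝ (Fin N)) (WithLp.toLp 2 v) = u ⬝ᵥ v := by
    rw [EuclideanSpace.inner_toLp_toLp]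
    simp [dotProduct, mul_comm]
  rw [e] at h
  exact h

/-- bounded operators -/
def OpB (A : Matrix (Fin N) (Fin N) ℝ) (c : ℝ) : Prop := ∀ v, nv (A *ᵥ v) ≤ c * nv v

lemma OpB.mono {A : Matrix (Fin N) (Fin N) ℝ} {c d : ℝ} (h : OpB A c) (hc : c ≤ d) : OpB A d :=
  fun v => (h v).trans (mul_le_mul_of_nonneg_right hc (nv_nonneg v))

lemma OpB.mul {A B : Matrix (Fin N) (Fin N) ℝ} {c d : ℝ} (hc : 0 ≤ c) (hA : OpB A c)
    (hB : OpB B d) : OpB (A * B) (c * d) := fun v => by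
  rw [← mulVec_mulVec, mul_assoc]
  exact (hA _).trans (mul_le_mul_of_nonneg_left (hB v) hc)

lemma OpB.sub {A B : Matrix (Fin N) (Fin N) ℝ} {c d : ℝ} (hA : OpB A c)
    (hB : OpB B d) : OpB (A - B) (c + d) := fun v => by
  rw [sub_mulVec, add_mul]
  exact (nv_sub_le _ _).trans (add_le_add (hA v) (hB v))

lemma OpB.one : OpB (1 : Matrix (Fin N) (Fin N) ℝ) 1 := fun v => by
  rw [one_mulVec, one_mul]

lemma OpB.um {W : Matrix (Fin N) (Fin N) ℝ} {w : ℝ} (h0 : 0 ≤ w) (hW : OpB W w) (p : ℕ) :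
    OpB (Um W p) ((1 + w) ^ p) := by
  induction p using Nat.strong_induction_on with
  | _ p ih =>
    match p with
    | 0 => simpa using OpB.one
    | 1 => exact OpB.mono hW (by linarith)
    | p + 2 =>
      rw [Um_add_two]
      have h1 := (hW.mul h0 (ih (p + 1) (by omega))).sub (ih p (by omega))
      refine h1.mono ?_
      have h2 : (1 + w) ^ p ≤ (1 + w) ^ (p + 1) := pow_le_pow_right₀ (by linarith) (by omega)
      calc w * (1 + w) ^ (p + 1) + (1 + w) ^ p ≤ w * (1 + w) ^ (p + 1) + (1 + w) ^ (p + 1) := by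
            linarith
        _ = (1 + w) ^ (p + 2) := by ring

lemma OpB.abs_dot_le {A : Matrix (Fin N) (Fin N) ℝ} {c : ℝ} (hA : OpB A c) (u v : Fin N → ℝ) :
    |u ⬝ᵥ A *ᵥ v| ≤ c * (nv u * nv v) := by
  refine (Sk.abs_dot_le u _).trans ?_
  calc nv u * nv (A *ᵥ v) ≤ nv u * (c * nv v) := mul_le_mul_of_nonneg_left (hA v) (nv_nonneg u)
    _ = _ := by ring

lemma sum_Me_z (z : Ix N → ℝ) (u v : Fin N → ℝ) :
    ∑ e, z e * Me u v e = u ⬝ᵥ Wm N z *ᵥ v := by
  rw [Fintype.sum_prod_type]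
  have h1 : ∀ a b : Fin N, z (a, b) * Me u v (a, b) =
      (z (a, b) * (u a * v b)) / √(2 * (N : ℝ)) + (z (a, b) * (u b * v a)) / √(2 * (N : ℝ)) := by
    intro a b
    simp only [Me]
    ring
  simp only [h1, sum_add_distrib]
  rw [sum_comm (f := fun a b => (z (a, b) * (u b * v a)) / √(2 * (N : ℝ)))]
  rw [← sum_add_distrib]
  simp only [dotProduct, mulVec, Wm, Matrix.of_apply, mul_sum]
  refine sum_congr rfl fun a _ => ?_
  rw [← sum_add_distrib]
  refine sum_congr rfl fun b _ => ?_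
  ring

lemma sqrt_mul_sqrt_two (hN : 0 < N) : √(2 * (N : ℝ)) * √(2 * (N : ℝ)) = 2 * N := by
  have : (0 : ℝ) < N := by exact_mod_cast hN
  exact Real.mul_self_sqrt (by positivity)

lemma sum_prod_dot (u v x y : Fin N → ℝ) :
    ∑ a : Fin N, ∑ b : Fin N, (u a * v b) * (x a * y b) = (u ⬝ᵥ x) * (v ⬝ᵥ y) := by
  simp only [dotProduct]
  rw [sum_mul_sum]
  exact sum_congr rfl fun a _ => sum_congr rfl fun b _ => by ring

lemma sum_Me_mul (hN : 0 < N) (u v x : Fin N → ℝ) :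
    ∑ e : Ix N, Me u v e * (x e.1 * x e.2 / √(2 * (N : ℝ))) =
      1 / N * ((u ⬝ᵥ x) * (v ⬝ᵥ x)) := by
  have hN' : (0 : ℝ) < N := by exact_mod_cast hN
  rw [Fintype.sum_prod_type]
  have h1 : ∀ a b : Fin N, Me u v (a, b) * (x a * x b / √(2 * (N : ℝ))) =
      1 / (2 * N) * ((u a * v b) * (x a * x b)) + 1 / (2 * N) * ((v a * u b) * (x a * x b)) := by
    intro a b
    simp only [Me]
    rw [div_mul_div_comm, sqrt_mul_sqrt_two hN]
    field_simp
  simp only [h1, sum_add_distrib, ← mul_sum, sum_prod_dot]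
  field_simp
  ring

lemma sum_Me_sq (hN : 0 < N) (u v : Fin N → ℝ) :
    ∑ e : Ix N, Me u v e ^ 2 ≤ 2 / N * (nv u ^ 2 * nv v ^ 2) := by
  have hN' : (0 : ℝ) < N := by exact_mod_cast hN
  rw [Fintype.sum_prod_type]
  have h1 : ∀ a b : Fin N, Me u v (a, b) ^ 2 ≤
      1 / N * ((u a * v b) * (u a * v b)) + 1 / N * ((v a * u b) * (v a * u b)) := by
    intro a b
    simp only [Me]
    rw [div_pow, Real.sq_sqrt (by positivity), div_le_iff₀ (by positivity)]
    have e : (1 / (N : ℝ) * ((u a * v b) * (u a * v b)) + 1 / N * ((v a * u b) * (v a * u b))) *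
        (2 * N) = 2 * ((u a * v b) ^ 2 + (v a * u b) ^ 2) := by
      field_simp
    rw [e]
    linarith only [sq_nonneg (u a * v b - v a * u b)]
  refine (sum_le_sum fun a _ => sum_le_sum fun b _ => h1 a b).trans (le_of_eq ?_)
  simp only [sum_add_distrib, ← mul_sum, sum_prod_dot, dot_self_eq]
  ring

lemma sum_Me_DU (hN : 0 < N) {W : Matrix (Fin N) (Fin N) ℝ} (hW : Wᵀ = W) (y : Fin N → ℝ)
    (p : ℕ) : ∑ e : Ix N, Me y (DU W (Em N e) p *ᵥ y) e =
      1 / N * ∑ s ∈ range p, (y ⬝ᵥ (Um W s * Um W (p - 1 - s)) *ᵥ y +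
        (Um W s).trace * (y ⬝ᵥ Um W (p - 1 - s) *ᵥ y)) := by
  have hN' : (0 : ℝ) < N := by exact_mod_cast hN
  -- the symmetrization
  have h1 : ∀ e : Ix N, Me y (DU W (Em N e) p *ᵥ y) e =
      ∑ s ∈ range p, Me y ((Um W s * Em N e * Um W (p - 1 - s)) *ᵥ y) e := by
    intro e
    rw [DU_eq]
    simp only [Me, sum_mulVec, Finset.sum_apply, mul_sum, ← sum_add_distrib, sum_div]
  simp only [h1]
  rw [sum_comm, mul_sum]
  refine sum_congr rfl fun s _ => ?_
  set A := Um W s with hA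
  set B := Um W (p - 1 - s) with hB
  have hAT : Aᵀ = A := Um_transpose hW s
  have h2 : ∀ (e : Ix N) (i : Fin N), ((A * Em N e * B) *ᵥ y) i =
      (A i e.1 * (B *ᵥ y) e.2 + A i e.2 * (B *ᵥ y) e.1) / √(2 * (N : ℝ)) := by
    intro e i
    simp only [mulVec, dotProduct, mul_Em_mul, mul_sum, ← sum_add_distrib, sum_div]
    exact sum_congr rfl fun j _ => by ring
  rw [Fintype.sum_prod_type]
  have h3 : ∀ a b : Fin N, Me y ((A * Em N (a, b) * B) *ᵥ y) (a, b) =
      1 / (2 * N) * (y a * A b a * (B *ᵥ y) b + y a * (B *ᵥ y) a * A b b) +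
      1 / (2 * N) * (y b * A a b * (B *ᵥ y) a + y b * (B *ᵥ y) b * A a a) := by
    intro a b
    simp only [Me, h2]
    rw [mul_div_assoc', mul_div_assoc', ← add_div, div_div, sqrt_mul_sqrt_two hN]
    field_simp
    ring
  simp only [h3, sum_add_distrib, ← mul_sum]
  have h4 : ∑ a : Fin N, ∑ b : Fin N, y a * A b a * (B *ᵥ y) b = y ⬝ᵥ (A * B) *ᵥ y := by
    rw [← mulVec_mulVec]
    simp only [dotProduct, mulVec, mul_sum]
    refine sum_congr rfl fun a _ => sum_congr rfl fun b _ => ?_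
    rw [show A b a = A a b from congrFun (congrFun hAT a) b]
    exact sum_congr rfl fun c _ => by ring
  have h5 : ∑ a : Fin N, y a * (B *ᵥ y) a * ∑ b, A b b = A.trace * (y ⬝ᵥ B *ᵥ y) := by
    rw [← sum_mul, mul_comm]
    rfl
  have h5' : ∑ a : Fin N, ∑ b : Fin N, y a * (B *ᵥ y) a * A b b = A.trace * (y ⬝ᵥ B *ᵥ y) := by
    rw [← h5]
    exact sum_congr rfl fun a _ => (mul_sum _ _ _).symm
  have h6 : ∑ a : Fin N, ∑ b : Fin N, y b * A a b * (B *ᵥ y) a = y ⬝ᵥ (A * B) *ᵥ y := by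
    rw [← h4]
    exact sum_comm
  have h7 : ∑ a : Fin N, ∑ b : Fin N, y b * (B *ᵥ y) b * A a a = A.trace * (y ⬝ᵥ B *ᵥ y) := by
    rw [← h5']
    exact sum_comm
  rw [h4, h5, h6, h7]
  field_simp
  ring

end Vale.Agent.P146.Sk
end

section

/-!
# P146, module IBPW: replica estimates in a general system
-/

open MeasureTheory ProbabilityTheory Finset Matrix

namespace Vale.Agent.P146.Sk.Rec

set_option linter.all false

open Vale.Agent.P157 Vale.Agent.P157.Lv Vale.Agent.P157.Lv.Sy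

variable {ι X : Type} [Fintype ι] [DecidableEq ι] [Fintype X] [DecidableEq X] [Nonempty X]
  {S : Sy ι X} {N : ℕ} {φ : X → Fin N → ℝ} {A : (ι → ℝ) → Matrix (Fin N) (Fin N) ℝ}
  {α : (ι → ℝ) → ℝ}

/-- The magnetization of the level `j`; the configuration if `j > K`. -/
noncomputable def yv (S : Sy ι X) (φ : X → Fin N → ℝ) (j : ℕ) (z : ι → ℝ) (x : X) : Fin N → ℝ :=
  if j ≤ S.K then fun a => S.mg φ j a z else φ x

/-- The overlap of the level `j`. -/
noncomputable def RR (S : Sy ι X) (φ : X → Fin N → ℝ) (j : ℕ) : ℝ :=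
  if j ≤ S.K then S.Rl φ j else 1

/-- The variance of the overlap of the level `j`. -/
noncomputable def vv (S : Sy ι X) (φ : X → Fin N → ℝ) (j : ℕ) : ℝ :=
  if j ≤ S.K then S.pairEx j (fun x x' => (Rov φ x x' - S.Rl φ j) ^ 2) else 0

/-- The average over two replicas which split at the level `i`; the same replica if `i > K`. -/
noncomputable def PE (S : Sy ι X) (i : ℕ) (F : (ι → ℝ) → X → X → ℝ) : ℝ :=
  if i ≤ S.K then S.Ex (fun z x => ∑ x', S.pr i z x' * F z x x') else S.Ex (fun z x => F z x x)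

lemma yv_le {j : ℕ} (hj : j ≤ S.K) (z : ι → ℝ) (x : X) :
    yv S φ j z x = fun a => S.mg φ j a z := if_pos hj

lemma yv_gt {j : ℕ} (hj : S.K < j) (z : ι → ℝ) (x : X) : yv S φ j z x = φ x :=
  if_neg (not_le.2 hj)

lemma nv_phi (hφ : ∀ x, ∑ i, φ x i ^ 2 = N) (x : X) : nv (φ x) ^ 2 = N := by
  rw [nv_sq, hφ]

lemma nv_yv (hS : S.Reg) (hφ : ∀ x, ∑ i, φ x i ^ 2 = N) (j : ℕ) (z : ι → ℝ) (x : X) :
    nv (yv S φ j z x) ^ 2 ≤ N := by
  rcases le_or_gt j S.K with hj | hj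
  · rw [yv_le hj, nv_sq]
    have h1 : ∀ a, S.mg φ j a z ^ 2 ≤ ∑ y, S.pr j z y * φ y a ^ 2 := by
      intro a
      rw [Fld.mg_eq hS hj]
      exact Sy.lvp_sq _ _ (fun y => hS.pr_nonneg hj z y) (hS.sum_pr hj z)
    refine (sum_le_sum fun a _ => h1 a).trans (le_of_eq ?_)
    rw [sum_comm]
    simp only [← mul_sum, hφ, ← sum_mul, hS.sum_pr hj z, one_mul]
  · rw [yv_gt hj, nv_phi hφ]

/-- Observables with values in the vectors. -/
def NhV (u : (ι → ℝ) → X → Fin N → ℝ) : Prop := ∀ a, Nh (fun z x => u z x a)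

lemma nhv_phi : NhV (ι := ι) (fun _ x => φ x) := fun a => Nh.snd fun x => φ x a

lemma nhv_mg (hS : S.Reg) {j : ℕ} (hj : j ≤ S.K) : NhV (X := X) (fun z _ a => S.mg φ j a z) :=
  fun a => Nh.fst (Fld.eg_mg hS hj a)

lemma nhv_yv (hS : S.Reg) (j : ℕ) : NhV (yv S φ j) := by
  rcases le_or_gt j S.K with hj | hj
  · have h := nhv_mg (φ := φ) hS hj
    intro a
    have e : (fun z x => yv S φ j z x a) = fun z x => S.mg φ j a z := by
      funext z x
      rw [yv_le hj]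
    rw [e]
    exact h a
  · intro a
    have e : (fun z x => yv S φ j z x a) = fun z x => φ x a := by
      funext z x
      rw [yv_gt hj]
    rw [e]
    exact nhv_phi a

lemma NhV.dot {u v : (ι → ℝ) → X → Fin N → ℝ} (hu : NhV u) (hv : NhV v) :
    Nh (fun z x => u z x ⬝ᵥ v z x) := by
  simp only [dotProduct]
  exact Nh.sum _ fun a _ => Nh.mul (hu a) (hv a)

lemma NhV.mulVec {u : (ι → ℝ) → X → Fin N → ℝ} (hu : NhV u) (hA : EGM A) :
    NhV (fun z x => A z *ᵥ u z x) := by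
  intro a
  simp only [Matrix.mulVec, dotProduct]
  exact Nh.sum _ fun b _ => Nh.mul (Nh.fst (hA a b)) (hu b)

lemma NhV.me {u v : (ι → ℝ) → X → Fin N → ℝ} (hu : NhV u) (hv : NhV v) (e : Ix N) :
    Nh (fun z x => Me (u z x) (v z x) e) := by
  have h := Nh.const_mul (1 / √(2 * (N : ℝ))) (Nh.add (Nh.mul (hu e.1) (hv e.2))
    (Nh.mul (hu e.2) (hv e.1)))
  have e1 : (fun (z : ι → ℝ) (x : X) => Me (u z x) (v z x) e) = fun z x =>
      1 / √(2 * (N : ℝ)) * (u z x e.1 * v z x e.2 + u z x e.2 * v z x e.1) := by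
    funext z x
    simp only [Me]
    ring
  rw [e1]
  exact h

/-- Conditional averages of functions of lower levels and of the configuration. -/
lemma T_pr' (hS : S.Reg) {i : ℕ} (hi : i ≤ S.K) {F : (ι → ℝ) → X → ℝ}
    (hd : ∀ x, Dep S.lev i (fun z => F z x)) (hn : Nh F) (z : ι → ℝ) :
    S.T i F z = ∑ x, S.pr i z x * F z x := by
  have e : F = fun (z : ι → ℝ) (y : X) => ∑ x, F z x * (fun (_ : ι → ℝ) (y : X) =>
        if y = x then (1 : ℝ) else 0) z y := by
    funext z y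
    simp
  conv_lhs => rw [e]
  rw [hS.T_sum hi Finset.univ (fun x _ => Nh.mul (Nh.fst (hn x))
    (Nh.snd fun y => if y = x then (1 : ℝ) else 0))]
  refine Finset.sum_congr rfl fun x _ => ?_
  rw [Sy.T_mul_left S (hd x), mul_comm]
  rfl

/-- Pulling out functions of lower levels. -/
lemma Ex_dep_mg (hS : S.Reg) {i j : ℕ} (hij : i ≤ j) (hj : j ≤ S.K) {r : (ι → ℝ) → ℝ}
    (hr : Dep S.lev i r) (he : EG r) (a : Fin N) :
    S.Ex (fun z _ => r z * S.mg φ j a z) = S.Ex (fun z x => r z * φ x a) :=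
  hS.Ex_mul_T hj (hr.mono hij) he (Nh.snd fun x => φ x a)

lemma Ex_dep_yv (hS : S.Reg) {i j : ℕ} (hij : i ≤ j) {r : (ι → ℝ) → ℝ}
    (hr : Dep S.lev i r) (he : EG r) (a : Fin N) :
    S.Ex (fun z x => r z * yv S φ j z x a) = S.Ex (fun z x => r z * φ x a) := by
  rcases le_or_gt j S.K with hj | hj
  · have e : (fun z x => r z * yv S φ j z x a) = fun z x => r z * S.mg φ j a z := by
      funext z x
      rw [yv_le hj]
    rw [e]
    exact Ex_dep_mg hS hij hj hr he a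
  · have e : (fun z x => r z * yv S φ j z x a) = fun z x => r z * φ x a := by
      funext z x
      rw [yv_gt hj]
    rw [e]

/-- the vector form -/
lemma Ex_dep_dot (hS : S.Reg) {i j : ℕ} (hij : i ≤ j) {r : (ι → ℝ) → Fin N → ℝ}
    (hr : ∀ a, Dep S.lev i (fun z => r z a)) (he : ∀ a, EG (fun z => r z a)) :
    S.Ex (fun z x => r z ⬝ᵥ yv S φ j z x) = S.Ex (fun z x => r z ⬝ᵥ φ x) := by
  simp only [dotProduct]
  rw [hS.Ex_sum _ fun a _ => Nh.mul (Nh.fst (he a)) (nhv_yv hS j a),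
    hS.Ex_sum _ fun a _ => Nh.mul (Nh.fst (he a)) (nhv_phi a)]
  exact sum_congr rfl fun a _ => Ex_dep_yv hS hij (hr a) (he a) a

/-! ### Averages over two replicas -/

/-- Observables of two replicas. -/
def Nh2 (F : (ι → ℝ) → X → X → ℝ) : Prop := ∀ x', Nh (fun z x => F z x x')

lemma Nh2.diag {F : (ι → ℝ) → X → X → ℝ} (hF : Nh2 F) : Nh (fun z x => F z x x) := fun x => hF x x

lemma Nh2.add {F G : (ι → ℝ) → X → X → ℝ} (hF : Nh2 F) (hG : Nh2 G) :
    Nh2 (fun z x x' => F z x x' + G z x x') := fun x' => Nh.add (hF x') (hG x')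

lemma Nh2.sub {F G : (ι → ℝ) → X → X → ℝ} (hF : Nh2 F) (hG : Nh2 G) :
    Nh2 (fun z x x' => F z x x' - G z x x') := fun x' => Nh.sub (hF x') (hG x')

lemma Nh2.mul {F G : (ι → ℝ) → X → X → ℝ} (hF : Nh2 F) (hG : Nh2 G) :
    Nh2 (fun z x x' => F z x x' * G z x x') := fun x' => Nh.mul (hF x') (hG x')

lemma Nh2.const_mul {F : (ι → ℝ) → X → X → ℝ} (c : ℝ) (hF : Nh2 F) :
    Nh2 (fun z x x' => c * F z x x') := fun x' => Nh.const_mul c (hF x')

lemma Nh2.pow {F : (ι → ℝ) → X → X → ℝ} (hF : Nh2 F) (n : ℕ) :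
    Nh2 (fun z x x' => F z x x' ^ n) := fun x' => Nh.pow (hF x') n

lemma Nh2.const (c : ℝ) : Nh2 (ι := ι) (X := X) (fun _ _ _ => c) := fun x' => Nh.fst (EG.const c)

lemma Nh2.of (f : (ι → ℝ) → X → ℝ) (hf : Nh f) : Nh2 (fun z x _ => f z x) := fun x' => hf

lemma nh_PE (hS : S.Reg) {i : ℕ} (hi : i ≤ S.K) {F : (ι → ℝ) → X → X → ℝ} (hF : Nh2 F) :
    Nh (fun z x => ∑ x', S.pr i z x' * F z x x') :=
  Nh.sum _ fun x' _ => Nh.mul (Nh.fst (hS.eg_pr hi x')) (hF x')

lemma PE_add (hS : S.Reg) (i : ℕ) {F G : (ι → ℝ) → X → X → ℝ} (hF : Nh2 F) (hG : Nh2 G) :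
    PE S i (fun z x x' => F z x x' + G z x x') = PE S i F + PE S i G := by
  unfold PE
  split_ifs with hi
  · rw [← hS.Ex_add (nh_PE hS hi hF) (nh_PE hS hi hG)]
    simp only [mul_add, sum_add_distrib]
  · exact hS.Ex_add hF.diag hG.diag

lemma PE_const_mul (i : ℕ) (c : ℝ) (F : (ι → ℝ) → X → X → ℝ) :
    PE S i (fun z x x' => c * F z x x') = c * PE S i F := by
  unfold PE
  split_ifs with hi
  · rw [← Sy.Ex_const_mul]
    congr 1
    funext z x
    rw [mul_sum]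
    exact sum_congr rfl fun x' _ => by ring
  · exact S.Ex_const_mul c _

lemma PE_sub (hS : S.Reg) (i : ℕ) {F G : (ι → ℝ) → X → X → ℝ} (hF : Nh2 F) (hG : Nh2 G) :
    PE S i (fun z x x' => F z x x' - G z x x') = PE S i F - PE S i G := by
  have h := PE_add (S := S) hS i hF (Nh2.const_mul (-1) hG)
  rw [PE_const_mul] at h
  have e : (fun z x x' => F z x x' - G z x x') = fun z x x' => F z x x' + -1 * G z x x' := by
    funext z x x'
    ring
  rw [e, h]
  ring

lemma PE_mono (hS : S.Reg) (i : ℕ) {F G : (ι → ℝ) → X → X → ℝ} (hF : Nh2 F) (hG : Nh2 G)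
    (h : ∀ z x x', F z x x' ≤ G z x x') : PE S i F ≤ PE S i G := by
  unfold PE
  split_ifs with hi
  · exact hS.Ex_mono (nh_PE hS hi hF) (nh_PE hS hi hG) fun z x => sum_le_sum fun x' _ =>
      mul_le_mul_of_nonneg_left (h z x x') (hS.pr_nonneg hi z x')
  · exact hS.Ex_mono hF.diag hG.diag fun z x => h z x x

/-- Observables of the first replica. -/
lemma PE_fst (hS : S.Reg) (i : ℕ) (f : (ι → ℝ) → X → ℝ) : PE S i (fun z x _ => f z x) = S.Ex f := by
  unfold PE
  split_ifs with hi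
  · congr 1
    funext z x
    rw [← sum_mul, hS.sum_pr hi, one_mul]
  · rfl

lemma abs_le_of_quad {a b c : ℝ} (h : ∀ t : ℝ, 0 ≤ c * (t * t) + (-2 * b) * t + a) (ha : 0 ≤ a) :
    |b| ≤ √a * √c := by
  have h3 := discrim_le_zero h
  unfold discrim at h3
  have h4 : b ^ 2 ≤ a * c := by linarith only [h3]
  rw [← Real.sqrt_mul ha]
  exact Real.abs_le_sqrt h4

/-- Cauchy-Schwarz. -/
lemma PE_cs (hS : S.Reg) (i : ℕ) {F G : (ι → ℝ) → X → X → ℝ} (hF : Nh2 F) (hG : Nh2 G) :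
    |PE S i (fun z x x' => F z x x' * G z x x')| ≤
      √(PE S i (fun z x x' => F z x x' ^ 2)) * √(PE S i (fun z x x' => G z x x' ^ 2)) := by
  have hz : PE S i (fun _ _ _ => (0 : ℝ)) = 0 := by
    rw [PE_fst hS, hS.Ex_const]
  have ha : 0 ≤ PE S i (fun z x x' => F z x x' ^ 2) := by
    rw [← hz]
    exact PE_mono hS i (Nh2.const 0) (hF.pow 2) fun z x x' => sq_nonneg _
  refine abs_le_of_quad (fun t => ?_) ha
  have h2 := PE_mono hS i (Nh2.const 0) ((hF.sub (hG.const_mul t)).pow 2)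
    fun z x x' => sq_nonneg _
  rw [hz] at h2
  have e : (fun (z : ι → ℝ) (x x' : X) => (F z x x' - t * G z x x') ^ 2) =
      fun z x x' => (F z x x' ^ 2 + (-2 * t) * (F z x x' * G z x x')) + t * t * G z x x' ^ 2 := by
    funext z x x'
    ring
  rw [e, PE_add hS i ((hF.pow 2).add ((hF.mul hG).const_mul _)) ((hG.pow 2).const_mul _),
    PE_add hS i (hF.pow 2) ((hF.mul hG).const_mul _), PE_const_mul, PE_const_mul] at h2
  linarith

lemma Ex_abs_cs (hS : S.Reg) {f g : (ι → ℝ) → X → ℝ} (hf : Nh f) (hg : Nh g) :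
    |S.Ex (fun z x => f z x * g z x)| ≤
      √(S.Ex (fun z x => f z x ^ 2)) * √(S.Ex (fun z x => g z x ^ 2)) := by
  have h := PE_cs hS (S.K + 1) (Nh2.of f hf) (Nh2.of g hg)
  rwa [PE_fst hS, PE_fst hS, PE_fst hS] at h

/-! ### The overlap variances -/

/-- the overlap with the magnetization -/
lemma mg_dot_eq (hS : S.Reg) {j : ℕ} (hj : j ≤ S.K) (z : ι → ℝ) (x' : X) :
    1 / N * ((fun a => S.mg φ j a z) ⬝ᵥ φ x') = S.T j (fun _ x => Rov φ x x') z := by
  rw [hS.T_pr hj (fun x => Rov φ x x')]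
  simp only [dotProduct, Fld.mg_eq hS hj, sum_mul, Rov]
  rw [sum_comm, mul_sum]
  refine sum_congr rfl fun x _ => ?_
  rw [mul_sum, mul_sum, mul_sum]
  exact sum_congr rfl fun a _ => by ring

lemma Rov_comm (x x' : X) : Rov φ x x' = Rov φ x' x := by
  unfold Rov
  congr 1
  exact sum_congr rfl fun i _ => mul_comm _ _

lemma pairEx_eq (hS : S.Reg) {i : ℕ} (hi : i ≤ S.K) (ψ : X → X → ℝ) :
    S.Ex (fun z x => ∑ x', S.pr i z x' * ψ x x') = S.pairEx i ψ := by
  rw [← hS.Ex_T hi (nh_PE hS hi (F := fun _ x x' => ψ x x') fun x' => Nh.snd fun x => ψ x x')]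
  unfold Sy.pairEx
  congr 1
  funext z _
  rw [hS.T_sum hi _ fun x' _ => Nh.mul (Nh.fst (hS.eg_pr hi x')) (Nh.snd fun x => ψ x x')]
  rw [sum_comm]
  refine sum_congr rfl fun x' _ => ?_
  rw [Sy.T_mul_left S (φ := fun z => S.pr i z x') (S.dep_T i _) (fun _ x => ψ x x'),
    hS.T_pr hi (fun x => ψ x x'), mul_sum]
  exact sum_congr rfl fun x _ => by ring

/-- the variance of the overlap -/
lemma PE_ov (hS : S.Reg) (hN : 0 < N) (hφ : ∀ x, ∑ i, φ x i ^ 2 = N) {i j : ℕ} (hi : i ≤ S.K + 1)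
    (hj : j ≤ S.K + 1) :
    PE S i (fun z x x' => (1 / N * (yv S φ j z x ⬝ᵥ φ x') - RR S φ (min i j)) ^ 2) ≤
      vv S φ (min i j) := by
  have hN' : (0 : ℝ) < N := by exact_mod_cast hN
  have hself : ∀ x, 1 / (N : ℝ) * (φ x ⬝ᵥ φ x) = 1 := by
    intro x
    rw [dot_self_eq, nv_phi hφ]
    field_simp
  -- the overlap with the magnetization of the level `j ≤ K`
  have key : ∀ j ≤ S.K, ∀ (c : ℝ) (z : ι → ℝ) (x' : X),
      (1 / N * ((fun a => S.mg φ j a z) ⬝ᵥ φ x') - c) ^ 2 ≤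
        S.T j (fun _ x => (Rov φ x x' - c) ^ 2) z := by
    intro j hj c z x'
    rw [mg_dot_eq hS hj]
    have h1 : S.T j (fun _ x => Rov φ x x') z - c = S.T j (fun _ x => Rov φ x x' - c) z := by
      rw [hS.T_sub hj (Nh.snd fun x => Rov φ x x') (Nh.snd fun _ => c), hS.T_const hj]
    rw [h1]
    exact hS.sq_T_le hj (Nh.snd fun x => Rov φ x x' - c) z
  rcases le_or_gt i S.K with hi' | hi'
  · rcases le_or_gt j i with hji | hji
    · -- `j ≤ i ≤ K`
      have hjK : j ≤ S.K := hji.trans hi'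
      rw [min_eq_right hji]
      unfold PE
      rw [if_pos hi']
      have e1 : (fun z x => ∑ x', S.pr i z x' *
          (1 / N * (yv S φ j z x ⬝ᵥ φ x') - RR S φ j) ^ 2) = fun (z : ι → ℝ) (_ : X) =>
          S.T i (fun z x' => (1 / N * ((fun a => S.mg φ j a z) ⬝ᵥ φ x') - RR S φ j) ^ 2) z := by
        funext z x
        rw [T_pr' hS hi']
        · simp only [yv_le hjK]
        · intro x z w
          have h1 : ∀ a, S.mg φ j a (mix S.lev i z w) = S.mg φ j a z := fun a =>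
            ((Fld.dep_mg S φ j a).mono hji) z w
          simp only [h1]
        · exact Nh.pow (Nh.sub (Nh.const_mul _ ((nhv_mg hS hjK).dot nhv_phi))
            (Nh.fst (EG.const _))) 2
      rw [e1, hS.Ex_T hi' (Nh.pow (Nh.sub (Nh.const_mul _ ((nhv_mg hS hjK).dot nhv_phi))
            (Nh.fst (EG.const _))) 2)]
      unfold vv RR
      rw [if_pos hjK, if_pos hjK, ← pairEx_eq hS hjK]
      refine hS.Ex_mono (Nh.pow (Nh.sub (Nh.const_mul _ ((nhv_mg hS hjK).dot nhv_phi))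
            (Nh.fst (EG.const _))) 2) (nh_PE hS hjK (F := fun _ x x' => (Rov φ x x' - S.Rl φ j) ^ 2)
            fun x' => Nh.snd fun x => (Rov φ x x' - S.Rl φ j) ^ 2) fun z x => ?_
      refine (key j hjK _ z x).trans (le_of_eq ?_)
      rw [hS.T_pr hjK (fun x' => (Rov φ x' x - S.Rl φ j) ^ 2)]
      exact sum_congr rfl fun x' _ => by rw [Rov_comm]
    · -- `i < j`, `i ≤ K`
      rw [min_eq_left hji.le]
      unfold PE vv RR
      rw [if_pos hi', if_pos hi', if_pos hi', ← pairEx_eq hS hi']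
      rcases le_or_gt j S.K with hjK | hjK
      · have n1 : ∀ x', Nh (fun (z : ι → ℝ) (x : X) => S.pr i z x' *
            (1 / N * ((fun a => S.mg φ j a z) ⬝ᵥ φ x') - S.Rl φ i) ^ 2) := fun x' =>
          Nh.mul (Nh.fst (hS.eg_pr hi' x')) (Nh.pow (Nh.sub (Nh.const_mul _
            ((nhv_mg hS hjK).dot fun a => Nh.snd fun _ => φ x' a)) (Nh.fst (EG.const _))) 2)
        have e1 : (fun z x => ∑ x', S.pr i z x' *
            (1 / N * (yv S φ j z x ⬝ᵥ φ x') - S.Rl φ i) ^ 2) = fun (z : ι → ℝ) (_ : X) =>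
            ∑ x', S.pr i z x' * (1 / N * ((fun a => S.mg φ j a z) ⬝ᵥ φ x') - S.Rl φ i) ^ 2 := by
          funext z x
          simp only [yv_le hjK]
        rw [e1, hS.Ex_sum _ fun x' _ => n1 x', hS.Ex_sum _ fun x' _ =>
          Nh.mul (Nh.fst (hS.eg_pr hi' x')) (Nh.snd fun x => (Rov φ x x' - S.Rl φ i) ^ 2)]
        refine sum_le_sum fun x' _ => ?_
        have h2 := hS.Ex_mul_T hjK ((S.dep_T i (fun _ y => if y = x' then 1 else 0)).mono hji.le)
          (hS.eg_pr hi' x') (Nh.snd fun x => (Rov φ x x' - S.Rl φ i) ^ 2)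
        refine le_trans ?_ (le_of_eq h2)
        refine hS.Ex_mono (n1 x') (Nh.fst ((hS.eg_pr hi' x').mul
          (hS.eg_T hjK (Nh.snd fun x => (Rov φ x x' - S.Rl φ i) ^ 2)))) fun z x => ?_
        exact mul_le_mul_of_nonneg_left (key j hjK _ z x') (hS.pr_nonneg hi' z x')
      · refine le_of_eq ?_
        congr 1
        funext z x
        refine sum_congr rfl fun x' _ => ?_
        simp only [yv_gt hjK]
        rfl
  · -- `i = K + 1`
    unfold PE
    rw [if_neg (not_le.2 hi')]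
    rcases le_or_gt j S.K with hjK | hjK
    · rw [min_eq_right (by omega)]
      unfold vv RR
      rw [if_pos hjK, if_pos hjK, ← pairEx_eq hS hjK]
      have e1 : (fun z x => (1 / N * (yv S φ j z x ⬝ᵥ φ x) - S.Rl φ j) ^ 2) =
          fun (z : ι → ℝ) (x : X) =>
          (1 / N * ((fun a => S.mg φ j a z) ⬝ᵥ φ x) - S.Rl φ j) ^ 2 := by
        funext z x
        rw [yv_le hjK]
      rw [e1]
      refine hS.Ex_mono (Nh.pow (Nh.sub (Nh.const_mul _ ((nhv_mg hS hjK).dot nhv_phi))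
            (Nh.fst (EG.const _))) 2) (nh_PE hS hjK (F := fun _ x x' => (Rov φ x x' - S.Rl φ j) ^ 2)
            fun x' => Nh.snd fun x => (Rov φ x x' - S.Rl φ j) ^ 2) fun z x => ?_
      refine (key j hjK _ z x).trans (le_of_eq ?_)
      rw [hS.T_pr hjK (fun x' => (Rov φ x' x - S.Rl φ j) ^ 2)]
      exact sum_congr rfl fun x' _ => by rw [Rov_comm]
    · rw [show min i j = S.K + 1 by omega]
      unfold vv RR
      rw [if_neg (by omega), if_neg (by omega)]
      refine le_of_eq ?_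
      have e1 : (fun z x => (1 / N * (yv S φ j z x ⬝ᵥ φ x) - 1) ^ 2) =
          fun (_ : ι → ℝ) (_ : X) => (0 : ℝ) := by
        funext z x
        rw [yv_gt hjK, hself]
        ring
      rw [e1, hS.Ex_const]

end Vale.Agent.P146.Sk.Rec
end

section

/-!
# P146, module IBPW: integration by parts for the disorder matrix
-/

open MeasureTheory ProbabilityTheory Finset Matrix

namespace Vale.Agent.P146.Sk.Rec

set_option linter.all false

open Vale.Agent.P157 Vale.Agent.P157.Lv Vale.Agent.P157.Lv.Sy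

variable {ι X : Type} [Fintype ι] [DecidableEq ι] [Fintype X] [DecidableEq X] [Nonempty X]
  {S : Sy ι X} {N : ℕ} {φ : X → Fin N → ℝ} {A : (ι → ℝ) → Matrix (Fin N) (Fin N) ℝ}
  {α : (ι → ℝ) → ℝ}

/-- Matrices of the level zero with an operator bound. -/
structure LMat (S : Sy ι X) (A : (ι → ℝ) → Matrix (Fin N) (Fin N) ℝ) (α : (ι → ℝ) → ℝ) :
    Prop where
  eg : EGM A
  dep : ∀ a b, Dep S.lev 0 (fun z => A z a b)
  symm : ∀ z, (A z)ᵀ = A z
  op : ∀ z, OpB (A z) (α z)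
  ega : EG α
  nn : ∀ z, 0 ≤ α z

lemma symm_dot {A : Matrix (Fin N) (Fin N) ℝ} (hA : Aᵀ = A) (u v : Fin N → ℝ) :
    (A *ᵥ u) ⬝ᵥ v = (A *ᵥ v) ⬝ᵥ u := by
  rw [dotProduct_comm, dotProduct_mulVec, ← mulVec_transpose, hA]

/-- The quadratic form of `A` at the level `j`. -/
noncomputable def TT (S : Sy ι X) (φ : X → Fin N → ℝ) (A : (ι → ℝ) → Matrix (Fin N) (Fin N) ℝ)
    (j : ℕ) : ℝ := 1 / N * S.Ex (fun z x => (A z *ᵥ yv S φ j z x) ⬝ᵥ yv S φ j z x)

lemma dep_mulVec {i : ℕ} {r : (ι → ℝ) → Fin N → ℝ} (hA : ∀ a b, Dep S.lev 0 (fun z => A z a b))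
    (hr : ∀ a, Dep S.lev i (fun z => r z a)) (a : Fin N) :
    Dep S.lev i (fun z => (A z *ᵥ r z) a) := by
  intro z w
  simp only [Matrix.mulVec, dotProduct]
  refine sum_congr rfl fun b _ => ?_
  have h1 : A (mix S.lev i z w) a b = A z a b := ((hA a b).mono (Nat.zero_le i)) z w
  have h2 : r (mix S.lev i z w) b = r z b := (hr b) z w
  rw [h1, h2]

lemma eg_mulVec {r : (ι → ℝ) → Fin N → ℝ} (hA : EGM A) (hr : ∀ a, EG (fun z => r z a))
    (a : Fin N) : EG (fun z => (A z *ᵥ r z) a) := by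
  simp only [Matrix.mulVec, dotProduct]
  exact EG.sum _ fun b _ => (hA a b).mul (hr b)

lemma dep_mgv (S : Sy ι X) (φ : X → Fin N → ℝ) (j : ℕ) (a : Fin N) :
    Dep S.lev j (fun z => (fun a => S.mg φ j a z) a) := Fld.dep_mg S φ j a

/-- averaging the second replica -/
lemma PE_lin (hS : S.Reg) {i : ℕ} (hi : i ≤ S.K) (c : ℝ) (v : (ι → ℝ) → X → Fin N → ℝ) :
    PE S i (fun z x x' => c * (v z x ⬝ᵥ φ x')) =
      c * S.Ex (fun z x => v z x ⬝ᵥ fun a => S.mg φ i a z) := by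
  rw [PE_const_mul]
  congr 1
  unfold PE
  rw [if_pos hi]
  congr 1
  funext z x
  simp only [dotProduct, Fld.mg_eq hS hi, mul_sum]
  rw [sum_comm]
  exact sum_congr rfl fun a _ => sum_congr rfl fun x' _ => by ring

lemma PE_rem (hS : S.Reg) (hA : LMat S A α) {i j : ℕ} (hi : i ≤ S.K + 1) (hj : j ≤ S.K + 1) :
    PE S i (fun z x x' => 1 / (N : ℝ) * ((A z *ᵥ yv S φ j z x) ⬝ᵥ φ x')) =
      TT S φ A (min i j) := by
  have hmg : ∀ k, ∀ k' ≤ S.K, k ≤ k' → k ≤ S.K → S.Ex (fun z x =>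
      (A z *ᵥ fun a => S.mg φ k a z) ⬝ᵥ fun a => S.mg φ k' a z) =
      S.Ex (fun z x => (A z *ᵥ fun a => S.mg φ k a z) ⬝ᵥ φ x) := by
    intro k k' hk' hkk' hk
    have h := Ex_dep_dot (φ := φ) hS hkk' (r := fun z => A z *ᵥ fun a => S.mg φ k a z)
      (dep_mulVec hA.dep (dep_mgv S φ k)) (eg_mulVec hA.eg fun a => Fld.eg_mg hS hk a)
    rw [← h]
    congr 1
    funext z x
    rw [yv_le hk']
  rcases le_or_gt i S.K with hi' | hi'
  · rw [PE_lin hS hi']
    rcases le_or_gt j i with hji | hji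
    · rw [min_eq_right hji]
      unfold TT
      have hjK := hji.trans hi'
      simp only [yv_le hjK]
      rw [hmg j i hi' hji hjK, hmg j j hjK le_rfl hjK]
    · rw [min_eq_left hji.le]
      unfold TT
      simp only [yv_le hi']
      have e1 : S.Ex (fun z x => (A z *ᵥ yv S φ j z x) ⬝ᵥ fun a => S.mg φ i a z) =
          S.Ex (fun z x => (A z *ᵥ fun a => S.mg φ i a z) ⬝ᵥ yv S φ j z x) := by
        congr 1
        funext z x
        exact symm_dot (hA.symm z) _ _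
      have h := Ex_dep_dot (φ := φ) hS hji.le (r := fun z => A z *ᵥ fun a => S.mg φ i a z)
        (dep_mulVec hA.dep (dep_mgv S φ i)) (eg_mulVec hA.eg fun a => Fld.eg_mg hS hi' a)
      rw [e1, h, hmg i i hi' le_rfl hi']
  · have hiK : i = S.K + 1 := by omega
    subst hiK
    rw [min_eq_right hj]
    unfold PE TT
    rw [if_neg (by omega), Sy.Ex_const_mul]
    congr 1
    rcases le_or_gt j S.K with hjK | hjK
    · simp only [yv_le hjK]
      rw [hmg j j hjK le_rfl hjK]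
    · simp only [yv_gt hjK]

/-- the form is bounded by the operator bound -/
lemma form_sq_le (hS : S.Reg) (hN : 0 < N) (hφ : ∀ x, ∑ i, φ x i ^ 2 = N) (hA : LMat S A α)
    (j : ℕ) (z : ι → ℝ) (x x' : X) :
    (1 / (N : ℝ) * ((A z *ᵥ yv S φ j z x) ⬝ᵥ φ x')) ^ 2 ≤ α z ^ 2 := by
  have hN' : (0 : ℝ) < N := by exact_mod_cast hN
  have h1 : ((A z *ᵥ yv S φ j z x) ⬝ᵥ φ x') ^ 2 ≤
      nv (A z *ᵥ yv S φ j z x) ^ 2 * nv (φ x') ^ 2 := by
    rw [← mul_pow, ← sq_abs]
    exact pow_le_pow_left₀ (abs_nonneg _) (abs_dot_le _ _) 2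
  have h2 : nv (A z *ᵥ yv S φ j z x) ^ 2 ≤ (α z * nv (yv S φ j z x)) ^ 2 :=
    pow_le_pow_left₀ (nv_nonneg _) (hA.op z _) 2
  rw [mul_pow] at h2
  have h3 := nv_yv (φ := φ) hS hφ j z x
  rw [nv_phi hφ] at h1
  rw [mul_pow, one_div, inv_pow, inv_mul_le_iff₀ (by positivity)]
  calc ((A z *ᵥ yv S φ j z x) ⬝ᵥ φ x') ^ 2 ≤ nv (A z *ᵥ yv S φ j z x) ^ 2 * N := h1
    _ ≤ (α z ^ 2 * nv (yv S φ j z x) ^ 2) * N := by gcongr
    _ ≤ (α z ^ 2 * N) * N := by gcongr
    _ = (N : ℝ) ^ 2 * α z ^ 2 := by ring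

lemma PE_main (hS : S.Reg) (hN : 0 < N) (hφ : ∀ x, ∑ i, φ x i ^ 2 = N) (hA : LMat S A α)
    {i j j' : ℕ} (hi : i ≤ S.K + 1) (hj : j ≤ S.K + 1) (hj' : j' ≤ S.K + 1) :
    |PE S i (fun z x x' => (1 / (N : ℝ) * (yv S φ j z x ⬝ᵥ φ x')) *
      (1 / (N : ℝ) * ((A z *ᵥ yv S φ j' z x) ⬝ᵥ φ x'))) - RR S φ (min i j) * TT S φ A (min i j')| ≤
      √(vv S φ (min i j)) * √(S.Ex fun z _ => α z ^ 2) := by
  have n1 : Nh2 (fun (z : ι → ℝ) (x x' : X) => 1 / (N : ℝ) * (yv S φ j z x ⬝ᵥ φ x') -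
      RR S φ (min i j)) := fun x' =>
    Nh.sub (Nh.const_mul _ ((nhv_yv hS j).dot fun a => Nh.snd fun _ => φ x' a))
      (Nh.fst (EG.const _))
  have n2 : Nh2 (fun (z : ι → ℝ) (x x' : X) =>
      1 / (N : ℝ) * ((A z *ᵥ yv S φ j' z x) ⬝ᵥ φ x')) := fun x' =>
    Nh.const_mul _ (((nhv_yv hS j').mulVec hA.eg).dot fun a => Nh.snd fun _ => φ x' a)
  have e1 : (fun (z : ι → ℝ) (x x' : X) => (1 / (N : ℝ) * (yv S φ j z x ⬝ᵥ φ x')) *
      (1 / (N : ℝ) * ((A z *ᵥ yv S φ j' z x) ⬝ᵥ φ x'))) = fun z x x' =>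
      (1 / (N : ℝ) * (yv S φ j z x ⬝ᵥ φ x') - RR S φ (min i j)) *
      (1 / (N : ℝ) * ((A z *ᵥ yv S φ j' z x) ⬝ᵥ φ x')) +
      RR S φ (min i j) * (1 / (N : ℝ) * ((A z *ᵥ yv S φ j' z x) ⬝ᵥ φ x')) := by
    funext z x x'
    ring
  rw [e1, PE_add hS i (n1.mul n2) (n2.const_mul _), PE_const_mul, PE_rem hS hA hi hj',
    add_sub_cancel_right]
  refine (PE_cs hS i n1 n2).trans ?_
  refine mul_le_mul (Real.sqrt_le_sqrt (PE_ov hS hN hφ hi hj)) (Real.sqrt_le_sqrt ?_)
    (Real.sqrt_nonneg _) (Real.sqrt_nonneg _)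
  rw [← PE_fst hS i (fun z _ => α z ^ 2)]
  exact PE_mono hS i (n2.pow 2) (Nh2.of _ (Nh.fst (hA.ega.pow 2)))
    fun z x x' => form_sq_le hS hN hφ hA j' z x x'

/-! ### The perturbation of the derivatives -/

/-- Conditional averages of observables; no averaging if `i > K`. -/
noncomputable def Ti (S : Sy ι X) (i : ℕ) (f : (ι → ℝ) → X → ℝ) : (ι → ℝ) → X → ℝ :=
  if i ≤ S.K then fun z _ => S.T i f z else f

lemma nh_Ti (hS : S.Reg) (i : ℕ) {f : (ι → ℝ) → X → ℝ} (hf : Nh f) : Nh (Ti S i f) := by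
  unfold Ti
  split_ifs with hi
  · exact Nh.fst (hS.eg_T hi hf)
  · exact hf

lemma Ti_add (hS : S.Reg) (i : ℕ) {f g : (ι → ℝ) → X → ℝ} (hf : Nh f) (hg : Nh g) (z : ι → ℝ)
    (x : X) : Ti S i (fun z x => f z x + g z x) z x = Ti S i f z x + Ti S i g z x := by
  unfold Ti
  split_ifs with hi
  · exact hS.T_add hi hf hg z
  · rfl

lemma Ti_const_mul (i : ℕ) (c : ℝ) (f : (ι → ℝ) → X → ℝ) (z : ι → ℝ)
    (x : X) : Ti S i (fun z x => c * f z x) z x = c * Ti S i f z x := by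
  unfold Ti
  split_ifs with hi
  · exact Sy.T_const_mul S i c f z
  · rfl

lemma Ex_Ti_sq_le (hS : S.Reg) (i : ℕ) {f : (ι → ℝ) → X → ℝ} (hf : Nh f) :
    S.Ex (fun z x => Ti S i f z x ^ 2) ≤ S.Ex (fun z x => f z x ^ 2) := by
  unfold Ti
  split_ifs with hi
  · rw [← hS.Ex_T hi (Nh.pow hf 2)]
    exact hS.Ex_mono (Nh.fst ((hS.eg_T hi hf).pow 2)) (Nh.fst (hS.eg_T hi (Nh.pow hf 2)))
      fun z x => hS.sq_T_le hi hf z
  · exact le_rfl

/-- Cauchy-Schwarz for sums. -/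
lemma sum_cs (hS : S.Reg) {κ : Type} [Fintype κ] {f g : κ → (ι → ℝ) → X → ℝ}
    (hf : ∀ e, Nh (f e)) (hg : ∀ e, Nh (g e)) (i : ℕ) :
    |S.Ex (fun z x => ∑ e, f e z x * Ti S i (g e) z x)| ≤
      √(S.Ex (fun z x => ∑ e, f e z x ^ 2)) * √(S.Ex (fun z x => ∑ e, g e z x ^ 2)) := by
  rw [hS.Ex_sum _ fun e _ => Nh.mul (hf e) (nh_Ti hS i (hg e)),
    hS.Ex_sum _ fun e _ => Nh.pow (hf e) 2, hS.Ex_sum _ fun e _ => Nh.pow (hg e) 2]
  have hsq : ∀ (h : (ι → ℝ) → X → ℝ), Nh h → 0 ≤ S.Ex (fun z x => h z x ^ 2) := by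
    intro h hh
    rw [← hS.Ex_const 0]
    exact hS.Ex_mono (Nh.fst (EG.const 0)) (Nh.pow hh 2) fun z x => sq_nonneg _
  refine (abs_sum_le_sum_abs _ _).trans ?_
  have h1 : ∀ e, |S.Ex (fun z x => f e z x * Ti S i (g e) z x)| ≤
      √(S.Ex (fun z x => f e z x ^ 2)) * √(S.Ex (fun z x => g e z x ^ 2)) := by
    intro e
    refine (Ex_abs_cs hS (hf e) (nh_Ti hS i (hg e))).trans ?_
    exact mul_le_mul_of_nonneg_left (Real.sqrt_le_sqrt (Ex_Ti_sq_le hS i (hg e)))
      (Real.sqrt_nonneg _)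
  refine (sum_le_sum fun e _ => h1 e).trans ?_
  exact Real.sum_sqrt_mul_sqrt_le _ (fun e => hsq _ (hf e)) (fun e => hsq _ (hg e))

/-- The standing hypotheses. -/
structure Ctx (S : Sy ι X) (D : ι → (ι → ℝ) → X → ℝ) (g : Ix N → ι) (φ : X → Fin N → ℝ)
    (c : ℝ) (B : Ix N → (ι → ℝ) → X → ℝ) (w : (ι → ℝ) → ℝ) : Prop where
  reg : S.RegD D
  N0 : 0 < N
  norm : ∀ x, ∑ i, φ x i ^ 2 = N
  inj : Function.Injective g
  lev : ∀ e, S.lev (g e) = 0
  dB : ∀ e z x, D (g e) z x = c * (φ x e.1 * φ x e.2 / √(2 * (N : ℝ))) + B e z x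
  nB : ∀ e, Nh (B e)
  bB : ∀ z x, ∑ e, B e z x ^ 2 ≤ N * w z
  ew : EG w

variable {D : ι → (ι → ℝ) → X → ℝ} {g : Ix N → ι} {c : ℝ} {B : Ix N → (ι → ℝ) → X → ℝ}
  {w : (ι → ℝ) → ℝ}

/-- The functional `L`. -/
noncomputable def LL (S : Sy ι X) (D : ι → (ι → ℝ) → X → ℝ) (g : Ix N → ι)
    (φ : X → Fin N → ℝ) (A : (ι → ℝ) → Matrix (Fin N) (Fin N) ℝ) (i j j' : ℕ) : ℝ :=
  1 / N * S.Ex (fun z x => ∑ e, Me (yv S φ j z x) (A z *ᵥ yv S φ j' z x) e *
    Ti S i (D (g e)) z x)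

/-- the main part of the functional -/
lemma LL_main (hC : Ctx S D g φ c B w) (hA : EGM A) (i j j' : ℕ) :
    S.Ex (fun z x => ∑ e, Me (yv S φ j z x) (A z *ᵥ yv S φ j' z x) e *
      Ti S i (fun _ x => φ x e.1 * φ x e.2 / √(2 * (N : ℝ))) z x) =
      N * PE S i (fun z x x' => (1 / (N : ℝ) * (yv S φ j z x ⬝ᵥ φ x')) *
      (1 / (N : ℝ) * ((A z *ᵥ yv S φ j' z x) ⬝ᵥ φ x'))) := by
  have hN' : (0 : ℝ) < N := by exact_mod_cast hC.N0
  rw [← PE_const_mul]
  unfold PE Ti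
  split_ifs with hi
  · congr 1
    funext z x
    have h1 : ∀ e : Ix N, S.T i (fun _ x => φ x e.1 * φ x e.2 / √(2 * (N : ℝ))) z =
        ∑ x', S.pr i z x' * (φ x' e.1 * φ x' e.2 / √(2 * (N : ℝ))) := fun e =>
      hC.reg.toReg.T_pr hi _ z
    simp only [h1, mul_sum]
    rw [sum_comm]
    refine sum_congr rfl fun x' _ => ?_
    have h2 := sum_Me_mul hC.N0 (yv S φ j z x) (A z *ᵥ yv S φ j' z x) (φ x')
    calc ∑ e, Me (yv S φ j z x) (A z *ᵥ yv S φ j' z x) e *
          (S.pr i z x' * (φ x' e.1 * φ x' e.2 / √(2 * (N : ℝ))))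
        = S.pr i z x' * ∑ e, Me (yv S φ j z x) (A z *ᵥ yv S φ j' z x) e *
          (φ x' e.1 * φ x' e.2 / √(2 * (N : ℝ))) := by
          rw [mul_sum]
          exact sum_congr rfl fun e _ => by ring
      _ = _ := by
          rw [h2]
          field_simp
  · congr 1
    funext z x
    rw [sum_Me_mul hC.N0]
    field_simp

/-- the error of the functional -/
noncomputable def er (S : Sy ι X) (φ : X → Fin N → ℝ) (c : ℝ) (α w : (ι → ℝ) → ℝ) (k : ℕ) : ℝ :=
  √(S.Ex fun z _ => α z ^ 2) * (|c| * √(vv S φ k) + √(2 * S.Ex fun z _ => w z))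

lemma LL_le (hC : Ctx S D g φ c B w) (hA : LMat S A α) {i j j' : ℕ} (hi : i ≤ S.K + 1)
    (hj : j ≤ S.K + 1) (hj' : j' ≤ S.K + 1) :
    |LL S D g φ A i j j' - c * (RR S φ (min i j) * TT S φ A (min i j'))| ≤
      er S φ c α w (min i j) := by
  have hS := hC.reg.toReg
  have hN' : (0 : ℝ) < N := by exact_mod_cast hC.N0
  have nM : ∀ e : Ix N, Nh (fun z x => Me (yv S φ j z x) (A z *ᵥ yv S φ j' z x) e) := fun e =>
    (nhv_yv hS j).me ((nhv_yv hS j').mulVec hA.eg) e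
  have nP : ∀ e : Ix N, Nh (ι := ι) (fun _ x => φ x e.1 * φ x e.2 / √(2 * (N : ℝ))) := fun e =>
    Nh.snd fun x => φ x e.1 * φ x e.2 / √(2 * (N : ℝ))
  have hD : ∀ e : Ix N, D (g e) = fun z x =>
      c * (fun (_ : ι → ℝ) (x : X) => φ x e.1 * φ x e.2 / √(2 * (N : ℝ))) z x + B e z x := by
    intro e
    funext z x
    exact hC.dB e z x
  have e1 : (fun z x => ∑ e, Me (yv S φ j z x) (A z *ᵥ yv S φ j' z x) e *
      Ti S i (D (g e)) z x) = fun z x =>
      c * ∑ e, Me (yv S φ j z x) (A z *ᵥ yv S φ j' z x) e *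
        Ti S i (fun _ x => φ x e.1 * φ x e.2 / √(2 * (N : ℝ))) z x +
      ∑ e, Me (yv S φ j z x) (A z *ᵥ yv S φ j' z x) e * Ti S i (B e) z x := by
    funext z x
    rw [mul_sum, ← sum_add_distrib]
    refine sum_congr rfl fun e _ => ?_
    rw [hD e, Ti_add hS i (Nh.const_mul c (nP e)) (hC.nB e), Ti_const_mul]
    ring
  have n1 : Nh (fun z x => ∑ e, Me (yv S φ j z x) (A z *ᵥ yv S φ j' z x) e *
        Ti S i (fun _ x => φ x e.1 * φ x e.2 / √(2 * (N : ℝ))) z x) :=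
    Nh.sum _ fun e _ => Nh.mul (nM e) (nh_Ti hS i (nP e))
  have n2 : Nh (fun z x => ∑ e, Me (yv S φ j z x) (A z *ᵥ yv S φ j' z x) e *
        Ti S i (B e) z x) :=
    Nh.sum _ fun e _ => Nh.mul (nM e) (nh_Ti hS i (hC.nB e))
  unfold LL
  rw [e1, hS.Ex_add (Nh.const_mul c n1) n2, Sy.Ex_const_mul, LL_main hC hA.eg]
  set P := PE S i (fun z x x' => (1 / (N : ℝ) * (yv S φ j z x ⬝ᵥ φ x')) *
      (1 / (N : ℝ) * ((A z *ᵥ yv S φ j' z x) ⬝ᵥ φ x'))) with hP
  set Q := S.Ex (fun z x => ∑ e, Me (yv S φ j z x) (A z *ᵥ yv S φ j' z x) e *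
    Ti S i (B e) z x) with hQ
  have h1 := PE_main hS hC.N0 hC.norm hA hi hj hj'
  rw [← hP] at h1
  have hα : 0 ≤ S.Ex fun z _ => α z ^ 2 := by
    rw [← hS.Ex_const 0]
    exact hS.Ex_mono (Nh.fst (EG.const 0)) (Nh.fst (hA.ega.pow 2)) fun z x => sq_nonneg _
  have h2 : |Q| ≤ N * (√(S.Ex fun z _ => α z ^ 2) * √(2 * S.Ex fun z _ => w z)) := by
    refine (sum_cs hS nM hC.nB i).trans ?_
    have h3 : S.Ex (fun z x => ∑ e, Me (yv S φ j z x) (A z *ᵥ yv S φ j' z x) e ^ 2) ≤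
        2 * N * S.Ex fun z _ => α z ^ 2 := by
      rw [← Sy.Ex_const_mul]
      refine hS.Ex_mono (Nh.sum _ fun e _ => Nh.pow (nM e) 2)
        (Nh.const_mul _ (Nh.fst (hA.ega.pow 2))) fun z x => ?_
      refine (sum_Me_sq hC.N0 _ _).trans ?_
      have h4 : nv (A z *ᵥ yv S φ j' z x) ^ 2 ≤ (α z * nv (yv S φ j' z x)) ^ 2 :=
        pow_le_pow_left₀ (nv_nonneg _) (hA.op z _) 2
      rw [mul_pow] at h4
      have h5 := nv_yv (φ := φ) hS hC.norm j z x
      have h6 := nv_yv (φ := φ) hS hC.norm j' z x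
      have h7 : nv (A z *ᵥ yv S φ j' z x) ^ 2 ≤ α z ^ 2 * N := h4.trans (by gcongr)
      calc 2 / (N : ℝ) * (nv (yv S φ j z x) ^ 2 * nv (A z *ᵥ yv S φ j' z x) ^ 2)
          ≤ 2 / (N : ℝ) * (N * (α z ^ 2 * N)) := by gcongr
        _ = 2 * N * α z ^ 2 := by field_simp
    have h4 : S.Ex (fun z x => ∑ e, B e z x ^ 2) ≤ N * S.Ex fun z _ => w z := by
      rw [← Sy.Ex_const_mul]
      exact hS.Ex_mono (Nh.sum _ fun e _ => Nh.pow (hC.nB e) 2)
        (Nh.const_mul _ (Nh.fst hC.ew)) fun z x => hC.bB z x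
    calc √(S.Ex (fun z x => ∑ e, Me (yv S φ j z x) (A z *ᵥ yv S φ j' z x) e ^ 2)) *
          √(S.Ex (fun z x => ∑ e, B e z x ^ 2))
        ≤ √(2 * N * S.Ex fun z _ => α z ^ 2) * √(N * S.Ex fun z _ => w z) :=
          mul_le_mul (Real.sqrt_le_sqrt h3) (Real.sqrt_le_sqrt h4) (Real.sqrt_nonneg _)
            (Real.sqrt_nonneg _)
      _ = N * (√(S.Ex fun z _ => α z ^ 2) * √(2 * S.Ex fun z _ => w z)) := by
          have hw : 0 ≤ S.Ex fun z _ => w z := by
            have h5 : 0 ≤ (N : ℝ) * S.Ex fun z _ => w z := by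
              refine le_trans ?_ h4
              rw [← hS.Ex_const 0]
              exact hS.Ex_mono (Nh.fst (EG.const 0)) (Nh.sum _ fun e _ => Nh.pow (hC.nB e) 2)
                fun z x => sum_nonneg fun e _ => sq_nonneg _
            exact (mul_nonneg_iff_of_pos_left hN').1 h5
          rw [← Real.sqrt_mul (by (clear * - hN' hα; positivity)), ← Real.sqrt_mul hα,
            show 2 * (N : ℝ) * (S.Ex fun z _ => α z ^ 2) * (N * S.Ex fun z _ => w z) =
              (N : ℝ) ^ 2 * ((S.Ex fun z _ => α z ^ 2) * (2 * S.Ex fun z _ => w z)) by ring,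
            Real.sqrt_mul (by positivity), Real.sqrt_sq hN'.le]
  have e2 : 1 / (N : ℝ) * (c * (N * P) + Q) - c * (RR S φ (min i j) * TT S φ A (min i j')) =
      c * (P - RR S φ (min i j) * TT S φ A (min i j')) + 1 / N * Q := by
    field_simp
    ring
  rw [e2]
  refine (abs_add_le _ _).trans ?_
  rw [abs_mul, abs_mul, abs_of_pos (show (0 : ℝ) < 1 / N by positivity)]
  unfold er
  have h5 : 1 / (N : ℝ) * |Q| ≤ √(S.Ex fun z _ => α z ^ 2) * √(2 * S.Ex fun z _ => w z) := by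
    rw [one_div, inv_mul_le_iff₀ hN']
    exact h2
  have h6 := mul_le_mul_of_nonneg_left h1 (abs_nonneg c)
  calc |c| * |P - RR S φ (min i j) * TT S φ A (min i j')| + 1 / (N : ℝ) * |Q|
      ≤ |c| * (√(vv S φ (min i j)) * √(S.Ex fun z _ => α z ^ 2)) +
        √(S.Ex fun z _ => α z ^ 2) * √(2 * S.Ex fun z _ => w z) := add_le_add h6 h5
    _ = _ := by ring

end Vale.Agent.P146.Sk.Rec
end

section

/-!
# P146, module IBPW: the recursion
-/

open MeasureTheory ProbabilityTheory Finset Matrix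

namespace Vale.Agent.P146.Sk.Rec

set_option linter.all false

open Vale.Agent.P157 Vale.Agent.P157.Lv Vale.Agent.P157.Lv.Sy

variable {ι X : Type} [Fintype ι] [DecidableEq ι] [Fintype X] [DecidableEq X] [Nonempty X]
  {S : Sy ι X} {N : ℕ} {φ : X → Fin N → ℝ} {A : (ι → ℝ) → Matrix (Fin N) (Fin N) ℝ}
  {α : (ι → ℝ) → ℝ} {D : ι → (ι → ℝ) → X → ℝ} {g : Ix N → ι} {c : ℝ}
  {B : Ix N → (ι → ℝ) → X → ℝ} {w : (ι → ℝ) → ℝ}

/-! ### Functions of the disorder -/

lemma eg_g (g : Ix N → ι) {F : (Ix N → ℝ) → ℝ} (hF : EG F) :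
    EG (fun z : ι → ℝ => F (fun e => z (g e))) := by
  obtain ⟨C, a, hC, ha, h⟩ := hF.bdd
  refine ⟨hF.meas.comp (measurable_pi_lambda _ fun e => measurable_pi_apply (g e)), C, a, hC, ha,
    fun y => (h _).trans ?_⟩
  refine mul_le_mul_of_nonneg_left (Real.exp_le_exp.2 (mul_le_mul_of_nonneg_left ?_ ha)) hC
  rw [pi_norm_le_iff_of_nonneg (norm_nonneg _)]
  exact fun e => norm_le_pi_norm y (g e)

lemma update_g (hg : Function.Injective g) (e : Ix N) (z : ι → ℝ) (t : ℝ) :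
    (fun e' => Function.update z (g e) t (g e')) = Function.update (fun e' => z (g e')) e t := by
  funext e'
  by_cases h : e' = e
  · subst h
    simp
  · rw [Function.update_of_ne (fun hc => h (hg hc)), Function.update_of_ne h]

lemma pd_g (hg : Function.Injective g) {e : Ix N} {F F' : (Ix N → ℝ) → ℝ} (hF : PD e F F') :
    PD (g e) (fun z : ι → ℝ => F (fun e => z (g e))) (fun z => F' (fun e => z (g e))) := by
  intro y t
  have h := hF (fun e' => y (g e')) t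
  simp only [update_g hg]
  exact h

lemma dep_g {lev : ι → ℕ} (hl : ∀ e, lev (g e) = 0) (F : (Ix N → ℝ) → ℝ) :
    Dep lev 0 (fun z : ι → ℝ => F (fun e => z (g e))) := by
  intro z w
  simp only
  congr 1
  funext e
  simp [mix, hl e]

/-- The disorder matrix. -/
noncomputable def WW (g : Ix N → ι) (z : ι → ℝ) : Matrix (Fin N) (Fin N) ℝ :=
  Wm N (fun e => z (g e))

/-- The Chebyshev polynomials of the disorder matrix. -/
noncomputable def UU (g : Ix N → ι) (p : ℕ) (z : ι → ℝ) : Matrix (Fin N) (Fin N) ℝ :=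
  Um (WW g z) p

/-- Operator bounds of the disorder matrix. -/
structure OM (g : Ix N → ι) (om : (ι → ℝ) → ℝ) : Prop where
  one : ∀ z, 1 ≤ om z
  op : ∀ z, OpB (WW g z) (om z - 1)
  eg : EG om

lemma egm_UU (g : Ix N → ι) (p : ℕ) : EGM (UU g p) := fun i j => eg_g g (egm_Um p i j)

lemma egm_DUU (g : Ix N → ι) (F : Matrix (Fin N) (Fin N) ℝ) (p : ℕ) :
    EGM (fun z => DU (WW g z) F p) := fun i j => eg_g g (egm_DU F p i j)

lemma pdm_UU (hg : Function.Injective g) (e : Ix N) (p : ℕ) :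
    PDM (g e) (UU g p) (fun z => DU (WW g z) (Em N e) p) := fun i j => pd_g hg (pdm_Um e p i j)

variable {om : (ι → ℝ) → ℝ}

lemma lmat_UU (hl : ∀ e, S.lev (g e) = 0) (ho : OM g om) (p : ℕ) :
    LMat S (UU g p) (fun z => om z ^ p) where
  eg := egm_UU g p
  dep := fun a b => dep_g hl (fun y => Um (Wm N y) p a b)
  symm := fun z => Um_transpose (Wm_transpose _) p
  op := fun z => by
    have h := OpB.um (by linarith [ho.one z]) (ho.op z) p
    rwa [show 1 + (om z - 1) = om z by ring] at h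
  ega := ho.eg.pow p
  nn := fun z => pow_nonneg (by linarith [ho.one z]) p

/-! ### Integration by parts -/

lemma ibp_sum (hC : Ctx S D g φ c B w) {h h' : Ix N → (ι → ℝ) → X → ℝ}
    (hd : ∀ e x, PD (g e) (fun z => h e z x) (fun z => h' e z x)) (hh : ∀ e, Nh (h e))
    (hh' : ∀ e, Nh (h' e)) :
    S.Ex (fun z x => ∑ e, z (g e) * h e z x) = S.Ex (fun z x => ∑ e, h' e z x) +
      (S.Ex (fun z x => ∑ e, h e z x * Ti S (S.K + 1) (D (g e)) z x) -
      ∑ l ∈ Finset.range (S.K + 1), S.p l *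
        S.Ex (fun z x => ∑ e, h e z x * Ti S l (D (g e)) z x)) := by
  have hS := hC.reg.toReg
  have nD : ∀ e, Nh (D (g e)) := fun e => hC.reg.nh (g e)
  have nT : ∀ l ∈ Finset.range (S.K + 1), ∀ e, EG (S.T l (D (g e))) := fun l hl e =>
    hS.eg_T (Nat.lt_succ_iff.1 (Finset.mem_range.1 hl)) (nD e)
  rw [hS.Ex_sum _ fun e _ => Nh.mul (Nh.fst (EG.coord (g e))) (hh e),
    hS.Ex_sum _ fun e _ => hh' e,
    hS.Ex_sum _ fun e _ => Nh.mul (hh e) (nh_Ti hS _ (nD e))]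
  have e1 : ∀ l ∈ Finset.range (S.K + 1), S.p l *
      S.Ex (fun z x => ∑ e, h e z x * Ti S l (D (g e)) z x) =
      ∑ e, S.p l * S.Ex (fun z x => h e z x * Ti S l (D (g e)) z x) := by
    intro l _
    rw [hS.Ex_sum _ fun e _ => Nh.mul (hh e) (nh_Ti hS _ (nD e)), mul_sum]
  rw [sum_congr rfl e1, sum_comm, ← sum_sub_distrib, ← sum_add_distrib]
  refine sum_congr rfl fun e _ => ?_
  rw [hC.reg.ibp (g e) (hd e) (hh e) (hh' e), hC.lev e, ← Finset.range_eq_Ico]
  have e2 : (fun z x => h' e z x + h e z x * (D (g e) z x -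
      ∑ l ∈ Finset.range (S.K + 1), S.p l * S.T l (D (g e)) z)) = fun z x =>
      h' e z x + (h e z x * D (g e) z x -
        ∑ l ∈ Finset.range (S.K + 1), S.p l * (h e z x * S.T l (D (g e)) z)) := by
    funext z x
    rw [mul_sub, mul_sum]
    congr 2
    exact sum_congr rfl fun l _ => by ring
  have nS : Nh (fun z x => ∑ l ∈ Finset.range (S.K + 1),
      S.p l * (h e z x * S.T l (D (g e)) z)) :=
    Nh.sum _ fun l hl => Nh.const_mul _ (Nh.mul (hh e) (Nh.fst (nT l hl e)))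
  rw [e2, hS.Ex_add (hh' e) (Nh.sub (Nh.mul (hh e) (nD e)) nS),
    hS.Ex_sub (Nh.mul (hh e) (nD e)) nS,
    hS.Ex_sum _ fun l hl => Nh.const_mul _ (Nh.mul (hh e) (Nh.fst (nT l hl e)))]
  congr 2
  · unfold Ti
    rw [if_neg (by omega)]
  · refine sum_congr rfl fun l hl => ?_
    rw [Sy.Ex_const_mul]
    unfold Ti
    rw [if_pos (Nat.lt_succ_iff.1 (Finset.mem_range.1 hl))]

lemma pd_me {e' : ι} {u u' v v' : (ι → ℝ) → X → Fin N → ℝ} {x : X}
    (hu : ∀ a, PD e' (fun z => u z x a) (fun z => u' z x a))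
    (hv : ∀ a, PD e' (fun z => v z x a) (fun z => v' z x a)) (e : Ix N) :
    PD e' (fun z => Me (u z x) (v z x) e)
      (fun z => Me (u' z x) (v z x) e + Me (u z x) (v' z x) e) := by
  have h := ((((hu e.1).mul (hv e.2)).add ((hu e.2).mul (hv e.1))).const_mul
    (1 / √(2 * (N : ℝ))))
  have e1 : (fun z => Me (u z x) (v z x) e) = fun z =>
      1 / √(2 * (N : ℝ)) * (u z x e.1 * v z x e.2 + u z x e.2 * v z x e.1) := by
    funext z
    simp only [Me]
    ring
  rw [e1]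
  refine h.congr fun z => ?_
  simp only [Me]
  ring

lemma pd_mulVec {e' : ι} {u u' : (ι → ℝ) → X → Fin N → ℝ} {x : X}
    {A A' : (ι → ℝ) → Matrix (Fin N) (Fin N) ℝ} (hA : PDM e' A A')
    (hu : ∀ a, PD e' (fun z => u z x a) (fun z => u' z x a)) (a : Fin N) :
    PD e' (fun z => (A z *ᵥ u z x) a) (fun z => (A' z *ᵥ u z x + A z *ᵥ u' z x) a) := by
  have h := PD.sum (e := e') Finset.univ (H := fun b z => A z a b * u z x b)
    (H' := fun b z => A' z a b * u z x b + A z a b * u' z x b)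
    fun b _ => (hA a b).mul (hu b)
  refine h.congr fun z => ?_
  simp only [Pi.add_apply, Matrix.mulVec, dotProduct, sum_add_distrib]

/-- moving a conditional average -/
lemma Ex_me_T (hS : S.Reg) {j : ℕ} (hj : j ≤ S.K) {f : (ι → ℝ) → X → Fin N → ℝ} (hf : NhV f)
    {v : (ι → ℝ) → Fin N → ℝ} (hv : ∀ a, Dep S.lev j (fun z => v z a))
    (hve : ∀ a, EG (fun z => v z a)) (e : Ix N) :
    S.Ex (fun z _ => Me (fun a => S.T j (fun z x => f z x a) z) (v z) e) =
      S.Ex (fun z x => Me (f z x) (v z) e) := by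
  have e1 : (fun (z : ι → ℝ) (_ : X) => Me (fun a => S.T j (fun z x => f z x a) z) (v z) e) =
      fun z _ => 1 / √(2 * (N : ℝ)) * (v z e.2 * S.T j (fun z x => f z x e.1) z +
        v z e.1 * S.T j (fun z x => f z x e.2) z) := by
    funext z x
    simp only [Me]
    ring
  have e2 : (fun (z : ι → ℝ) (x : X) => Me (f z x) (v z) e) =
      fun z x => 1 / √(2 * (N : ℝ)) * (v z e.2 * f z x e.1 + v z e.1 * f z x e.2) := by
    funext z x
    simp only [Me]
    ring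
  rw [e1, e2, Sy.Ex_const_mul, Sy.Ex_const_mul,
    hS.Ex_add (Nh.fst ((hve e.2).mul (hS.eg_T hj (hf e.1))))
      (Nh.fst ((hve e.1).mul (hS.eg_T hj (hf e.2)))),
    hS.Ex_add (Nh.mul (Nh.fst (hve e.2)) (hf e.1)) (Nh.mul (Nh.fst (hve e.1)) (hf e.2)),
    hS.Ex_mul_T hj (hv e.2) (hve e.2) (hf e.1), hS.Ex_mul_T hj (hv e.1) (hve e.1) (hf e.2)]

lemma Me_comm (u v : Fin N → ℝ) (e : Ix N) : Me u v e = Me v u e := by
  simp only [Me]
  ring

/-- matrices of the level zero commute with the conditional averages -/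
lemma mulVec_T (hS : S.Reg) {j : ℕ} (hj : j ≤ S.K) (hA : EGM A)
    (hd : ∀ a b, Dep S.lev 0 (fun z => A z a b)) {f : (ι → ℝ) → X → Fin N → ℝ} (hf : NhV f)
    (z : ι → ℝ) : (A z *ᵥ fun b => S.T j (fun z x => f z x b) z) =
      fun a => S.T j (fun z x => (A z *ᵥ f z x) a) z := by
  funext a
  simp only [Matrix.mulVec, dotProduct]
  rw [hS.T_sum hj _ fun b _ => Nh.mul (Nh.fst (hA a b)) (hf b)]
  refine sum_congr rfl fun b _ => ?_
  rw [Sy.T_mul_left S (φ := fun z => A z a b) ((hd a b).mono (Nat.zero_le j))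
    (fun z x => f z x b)]

/-- the derivative of the density at the level `j` -/
noncomputable def GG (S : Sy ι X) (D : ι → (ι → ℝ) → X → ℝ) (g : Ix N → ι) (j : ℕ) (e : Ix N) :
    (ι → ℝ) → X → ℝ := fun z x => D (g e) z x -
      ∑ i ∈ Finset.Ico (j + 1) (S.K + 1), S.p i * S.T i (D (g e)) z -
      S.m (j + 1) * S.T j (D (g e)) z

lemma nh_GG (hC : Ctx S D g φ c B w) {j : ℕ} (hj : j ≤ S.K) (e : Ix N) : Nh (GG S D g j e) := by
  have hS := hC.reg.toReg
  have nD : Nh (D (g e)) := hC.reg.nh (g e)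
  refine Nh.sub (Nh.sub nD (Nh.sum _ fun i hi => Nh.const_mul _ (Nh.fst (hS.eg_T ?_ nD))))
    (Nh.const_mul _ (Nh.fst (hS.eg_T hj nD)))
  have := Finset.mem_Ico.1 hi
  omega

/-- the functional `M` -/
noncomputable def MM (S : Sy ι X) (D : ι → (ι → ℝ) → X → ℝ) (g : Ix N → ι)
    (φ : X → Fin N → ℝ) (A : (ι → ℝ) → Matrix (Fin N) (Fin N) ℝ) (j a b : ℕ) : ℝ :=
  LL S D g φ A (S.K + 1) a b -
    ∑ i ∈ Finset.Ico (j + 1) (S.K + 1), S.p i * LL S D g φ A i a b -
    S.m (j + 1) * LL S D g φ A j a b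

lemma MM_eq (hC : Ctx S D g φ c B w) (hA : EGM A) {j : ℕ} (hj : j ≤ S.K) (a b : ℕ)  :
    1 / (N : ℝ) * S.Ex (fun z x => ∑ e, Me (yv S φ a z x) (A z *ᵥ yv S φ b z x) e *
      GG S D g j e z x) = MM S D g φ A j a b := by
  have hS := hC.reg.toReg
  have nD : ∀ e, Nh (D (g e)) := fun e => hC.reg.nh (g e)
  have nM : ∀ e : Ix N, Nh (fun z x => Me (yv S φ a z x) (A z *ᵥ yv S φ b z x) e) := fun e =>
    (nhv_yv hS a).me ((nhv_yv hS b).mulVec hA) e
  have nL : ∀ i, Nh (fun z x => ∑ e, Me (yv S φ a z x) (A z *ᵥ yv S φ b z x) e *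
      Ti S i (D (g e)) z x) := fun i => Nh.sum _ fun e _ => Nh.mul (nM e) (nh_Ti hS i (nD e))
  have e1 : (fun z x => ∑ e, Me (yv S φ a z x) (A z *ᵥ yv S φ b z x) e *
      GG S D g j e z x) = fun z x =>
      (∑ e, Me (yv S φ a z x) (A z *ᵥ yv S φ b z x) e * Ti S (S.K + 1) (D (g e)) z x -
      ∑ i ∈ Finset.Ico (j + 1) (S.K + 1), S.p i *
        ∑ e, Me (yv S φ a z x) (A z *ᵥ yv S φ b z x) e * Ti S i (D (g e)) z x) -
      S.m (j + 1) * ∑ e, Me (yv S φ a z x) (A z *ᵥ yv S φ b z x) e *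
        Ti S j (D (g e)) z x := by
    funext z x
    have e2 : ∀ i ∈ Finset.Ico (j + 1) (S.K + 1), S.p i *
        ∑ e, Me (yv S φ a z x) (A z *ᵥ yv S φ b z x) e * Ti S i (D (g e)) z x =
        ∑ e, Me (yv S φ a z x) (A z *ᵥ yv S φ b z x) e * (S.p i * S.T i (D (g e)) z) := by
      intro i hi
      have hi' : i ≤ S.K := by
        have := Finset.mem_Ico.1 hi
        omega
      rw [mul_sum]
      refine sum_congr rfl fun e _ => ?_
      unfold Ti
      rw [if_pos hi']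
      ring
    rw [sum_congr rfl e2, sum_comm, mul_sum, ← sum_sub_distrib, ← sum_sub_distrib]
    refine sum_congr rfl fun e _ => ?_
    rw [← mul_sum]
    unfold Ti GG
    rw [if_neg (by omega), if_pos hj]
    ring
  rw [e1, hS.Ex_sub (Nh.sub (nL _) (Nh.sum _ fun i _ => Nh.const_mul _ (nL i)))
    (Nh.const_mul _ (nL j)), hS.Ex_sub (nL _) (Nh.sum _ fun i _ => Nh.const_mul _ (nL i)),
    hS.Ex_sum _ fun i _ => Nh.const_mul _ (nL i), Sy.Ex_const_mul]
  unfold MM LL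
  simp only [Sy.Ex_const_mul]
  rw [mul_sub, mul_sub, mul_sum]
  congr 1
  · congr 1
    exact sum_congr rfl fun i _ => by ring
  · ring

/-- The contribution of the derivatives of the magnetizations. -/
noncomputable def dl (S : Sy ι X) (D : ι → (ι → ℝ) → X → ℝ) (g : Ix N → ι)
    (φ : X → Fin N → ℝ) (A : (ι → ℝ) → Matrix (Fin N) (Fin N) ℝ) (j : ℕ) : ℝ :=
  if j ≤ S.K then MM S D g φ A j (S.K + 1) j + MM S D g φ A j j (S.K + 1) else 0

/-- The exact identity. -/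
theorem exact_id (hC : Ctx S D g φ c B w) (p : ℕ) {j : ℕ} (hj : j ≤ S.K + 1) :
    1 / (N : ℝ) * S.Ex (fun z x => yv S φ j z x ⬝ᵥ WW g z *ᵥ (UU g p z *ᵥ yv S φ j z x)) =
      dl S D g φ (UU g p) j +
      1 / N * S.Ex (fun z x => ∑ e,
        Me (yv S φ j z x) (DU (WW g z) (Em N e) p *ᵥ yv S φ j z x) e) +
      (LL S D g φ (UU g p) (S.K + 1) j j -
        ∑ i ∈ Finset.range (S.K + 1), S.p i * LL S D g φ (UU g p) i j j) := by
  have hS := hC.reg.toReg
  have hA := egm_UU g p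
  have hAd : ∀ a b, Dep S.lev 0 (fun z => UU g p z a b) := fun a b =>
    dep_g hC.lev (fun y => Um (Wm N y) p a b)
  have nM : ∀ e : Ix N, Nh (fun z x => Me (yv S φ j z x) (UU g p z *ᵥ yv S φ j z x) e) :=
    fun e => (nhv_yv hS j).me ((nhv_yv hS j).mulVec hA) e
  have nDU : ∀ e : Ix N, Nh (fun z x =>
      Me (yv S φ j z x) (DU (WW g z) (Em N e) p *ᵥ yv S φ j z x) e) :=
    fun e => (nhv_yv hS j).me ((nhv_yv hS j).mulVec (egm_DUU g _ p)) e
  have e0 : (fun z x => yv S φ j z x ⬝ᵥ WW g z *ᵥ (UU g p z *ᵥ yv S φ j z x)) =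
      fun z x => ∑ e, z (g e) * Me (yv S φ j z x) (UU g p z *ᵥ yv S φ j z x) e := by
    funext z x
    exact (sum_Me_z _ _ _).symm
  rw [e0]
  -- the derivative in the coordinate `e` splits into two parts
  have hLL : ∀ i, LL S D g φ (UU g p) i j j = 1 / N * S.Ex (fun z x =>
      ∑ e, Me (yv S φ j z x) (UU g p z *ᵥ yv S φ j z x) e * Ti S i (D (g e)) z x) :=
    fun i => rfl
  have fin : ∀ (h' : Ix N → (ι → ℝ) → X → ℝ), (∀ e x, PD (g e)
      (fun z => Me (yv S φ j z x) (UU g p z *ᵥ yv S φ j z x) e) (fun z => h' e z x)) →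
      (∀ e, Nh (h' e)) → 1 / (N : ℝ) * S.Ex (fun z x => ∑ e, h' e z x) =
        dl S D g φ (UU g p) j + 1 / N * S.Ex (fun z x => ∑ e,
        Me (yv S φ j z x) (DU (WW g z) (Em N e) p *ᵥ yv S φ j z x) e) →
      1 / (N : ℝ) * S.Ex (fun z x => ∑ e, z (g e) *
        Me (yv S φ j z x) (UU g p z *ᵥ yv S φ j z x) e) =
      dl S D g φ (UU g p) j +
      1 / N * S.Ex (fun z x => ∑ e,
        Me (yv S φ j z x) (DU (WW g z) (Em N e) p *ᵥ yv S φ j z x) e) +
      (LL S D g φ (UU g p) (S.K + 1) j j -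
        ∑ i ∈ Finset.range (S.K + 1), S.p i * LL S D g φ (UU g p) i j j) := by
    intro h' hd hh' hE
    rw [ibp_sum hC hd nM hh', mul_add, hE]
    congr 1
    rw [mul_sub, mul_sum]
    congr 1
    refine sum_congr rfl fun i _ => ?_
    rw [hLL i]
    ring
  rcases le_or_gt j S.K with hjK | hjK
  · -- the magnetization
    set u : (ι → ℝ) → Fin N → ℝ := fun z a => S.mg φ j a z with hu
    have ey : ∀ z x, yv S φ j z x = u z := fun z x => yv_le hjK z x
    have eyd : ∀ z x, yv S φ (S.K + 1) z x = φ x := fun z x => yv_gt (by omega) z x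
    have hud : ∀ a, Dep S.lev j (fun z => u z a) := fun a => Fld.dep_mg S φ j a
    have hue : ∀ a, EG (fun z => u z a) := fun a => Fld.eg_mg hS hjK a
    have nG : ∀ e, Nh (GG S D g j e) := fun e => nh_GG hC hjK e
    -- the derivative of the magnetization
    set f : Ix N → (ι → ℝ) → X → Fin N → ℝ := fun e z x a => φ x a * GG S D g j e z x with hf
    have nf : ∀ e, NhV (f e) := fun e a => Nh.mul (Nh.snd fun x => φ x a) (nG e)
    have hpd : ∀ e a, PD (g e) (fun z => u z a) (fun z => S.T j (fun z x => f e z x a) z) := by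
      intro e a
      have h := hC.reg.pd_T hjK (e := g e) (by rw [hC.lev e]; exact Nat.zero_le _)
        (h := fun _ x => φ x a) (h' := fun _ _ => 0) (fun x => PD.const _)
        (Nh.snd fun x => φ x a) (Nh.fst (EG.const 0))
      have e1 : (fun (z : ι → ℝ) (x : X) => (0 : ℝ) + φ x a * (D (g e) z x -
          ∑ i ∈ Finset.Ico (j + 1) (S.K + 1), S.p i * S.T i (D (g e)) z -
          S.m (j + 1) * S.T j (D (g e)) z)) = fun z x => f e z x a := by
        funext z x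
        simp only [hf, GG, zero_add]
      rw [e1] at h
      exact h
    set u' : Ix N → (ι → ℝ) → Fin N → ℝ := fun e z a => S.T j (fun z x => f e z x a) z with hu'
    have hue' : ∀ e a, EG (fun z => u' e z a) := fun e a => hS.eg_T hjK (nf e a)
    refine fin (fun e z x => Me (u' e z) (UU g p z *ᵥ u z) e +
      Me (u z) (DU (WW g z) (Em N e) p *ᵥ u z + UU g p z *ᵥ u' e z) e) ?_ ?_ ?_
    · intro e x
      have h1 : ∀ a, PD (g e) (fun z => (fun (z : ι → ℝ) (_ : X) => u z) z x a)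
          (fun z => (fun (z : ι → ℝ) (_ : X) => u' e z) z x a) := fun a => hpd e a
      have h2 : ∀ a, PD (g e) (fun z => (fun (z : ι → ℝ) (_ : X) => UU g p z *ᵥ u z) z x a)
          (fun z => (fun (z : ι → ℝ) (_ : X) =>
            DU (WW g z) (Em N e) p *ᵥ u z + UU g p z *ᵥ u' e z) z x a) := fun a =>
        pd_mulVec (x := x) (u := fun z _ => u z) (u' := fun z _ => u' e z)
          (pdm_UU hC.inj e p) h1 a
      have h3 := pd_me (x := x) (u := fun z _ => u z) (u' := fun z _ => u' e z)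
        (v := fun z _ => UU g p z *ᵥ u z)
        (v' := fun z _ => DU (WW g z) (Em N e) p *ᵥ u z + UU g p z *ᵥ u' e z) h1 h2 e
      simp only [ey]
      exact h3
    · intro e
      have n1 : NhV (X := X) (fun z _ => u' e z) := fun a => Nh.fst (hue' e a)
      have n2 : NhV (X := X) (fun z _ => u z) := fun a => Nh.fst (hue a)
      have n3 : NhV (X := X) (fun z _ => DU (WW g z) (Em N e) p *ᵥ u z + UU g p z *ᵥ u' e z) :=
        fun a => Nh.add ((n2.mulVec (egm_DUU g _ p)) a) ((n1.mulVec hA) a)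
      exact Nh.add (n1.me (n2.mulVec hA) e) (n2.me n3 e)
    · -- the evaluation
      unfold dl
      rw [if_pos hjK, ← MM_eq hC hA hjK, ← MM_eq hC hA hjK, ← mul_add, ← mul_add]
      congr 1
      have n1 : ∀ e, NhV (X := X) (fun z _ => u' e z) := fun e a => Nh.fst (hue' e a)
      have n2 : NhV (X := X) (fun z _ => u z) := fun a => Nh.fst (hue a)
      have nA : ∀ e, Nh (X := X) (fun z _ => Me (u' e z) (UU g p z *ᵥ u z) e) := fun e =>
        (n1 e).me (n2.mulVec hA) e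
      have nB : ∀ e, Nh (X := X) (fun z _ => Me (u z) (DU (WW g z) (Em N e) p *ᵥ u z) e) :=
        fun e => n2.me (n2.mulVec (egm_DUU g _ p)) e
      have nC : ∀ e, Nh (X := X) (fun z _ => Me (u z) (UU g p z *ᵥ u' e z) e) := fun e =>
        n2.me ((n1 e).mulVec hA) e
      have e1 : (fun (z : ι → ℝ) (x : X) => ∑ e, (Me (u' e z) (UU g p z *ᵥ u z) e +
          Me (u z) (DU (WW g z) (Em N e) p *ᵥ u z + UU g p z *ᵥ u' e z) e)) = fun z x =>
          (∑ e, Me (u' e z) (UU g p z *ᵥ u z) e + ∑ e, Me (u z) (UU g p z *ᵥ u' e z) e) +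
          ∑ e, Me (u z) (DU (WW g z) (Em N e) p *ᵥ u z) e := by
        funext z x
        rw [← sum_add_distrib, ← sum_add_distrib]
        refine sum_congr rfl fun e _ => ?_
        simp only [Me, Pi.add_apply]
        ring
      rw [e1, hS.Ex_add (Nh.add (Nh.sum _ fun e _ => nA e) (Nh.sum _ fun e _ => nC e))
        (Nh.sum _ fun e _ => nB e), hS.Ex_add (Nh.sum _ fun e _ => nA e)
        (Nh.sum _ fun e _ => nC e)]
      simp only [ey, eyd]
      have hUd : ∀ a, Dep S.lev j (fun z => (UU g p z *ᵥ u z) a) := dep_mulVec hAd hud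
      have hUe : ∀ a, EG (fun z => (UU g p z *ᵥ u z) a) := eg_mulVec hA hue
      congr 2
      · rw [hS.Ex_sum _ fun e _ => nA e, hS.Ex_sum _ fun e _ =>
          Nh.mul (nhv_phi.me (n2.mulVec hA) e) (nG e)]
        refine sum_congr rfl fun e _ => ?_
        have h1 := Ex_me_T hS hjK (nf e) hUd hUe e
        refine h1.trans ?_
        congr 1
        funext z x
        simp only [hf, Me]
        ring
      · rw [hS.Ex_sum _ fun e _ => nC e, hS.Ex_sum _ fun e _ =>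
          Nh.mul (n2.me (nhv_phi.mulVec hA) e) (nG e)]
        refine sum_congr rfl fun e _ => ?_
        have h1 := Ex_me_T hS hjK ((nf e).mulVec hA) hud hue e
        have e2 : (fun (z : ι → ℝ) (_ : X) => Me (u z) (UU g p z *ᵥ u' e z) e) = fun z _ =>
            Me (fun a => S.T j (fun z x => (UU g p z *ᵥ f e z x) a) z) (u z) e := by
          funext z x
          rw [Me_comm]
          congr 1
          exact mulVec_T hS hjK hA hAd (nf e) z
        rw [e2]
        refine h1.trans ?_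
        congr 1
        funext z x
        have e3 : UU g p z *ᵥ f e z x = fun a => GG S D g j e z x * (UU g p z *ᵥ φ x) a := by
          funext a
          simp only [hf, Matrix.mulVec, dotProduct, mul_sum]
          exact sum_congr rfl fun b _ => by ring
        rw [e3, Me_comm]
        simp only [Me]
        ring
  · -- the configuration
    have ey : ∀ z x, yv S φ j z x = φ x := fun z x => yv_gt hjK z x
    refine fin (fun e z x => Me (φ x) (DU (WW g z) (Em N e) p *ᵥ φ x) e) ?_ ?_ ?_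
    · intro e x
      have h1 : ∀ a, PD (g e) (fun z => (fun (_ : ι → ℝ) (x : X) => φ x) z x a)
          (fun z => (fun (_ : ι → ℝ) (_ : X) (_ : Fin N) => (0 : ℝ)) z x a) := fun a => PD.const _
      have h2 : ∀ a, PD (g e) (fun z => (fun (z : ι → ℝ) (x : X) => UU g p z *ᵥ φ x) z x a)
          (fun z => (fun (z : ι → ℝ) (x : X) =>
            DU (WW g z) (Em N e) p *ᵥ φ x + UU g p z *ᵥ (fun _ => (0 : ℝ))) z x a) := fun a =>
        pd_mulVec (x := x) (u := fun _ x => φ x) (u' := fun _ _ _ => (0 : ℝ))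
          (pdm_UU hC.inj e p) h1 a
      have h3 := pd_me (x := x) (u := fun _ x => φ x) (u' := fun _ _ _ => (0 : ℝ))
        (v := fun z x => UU g p z *ᵥ φ x)
        (v' := fun z x => DU (WW g z) (Em N e) p *ᵥ φ x + UU g p z *ᵥ (fun _ => (0 : ℝ)))
        h1 h2 e
      simp only [ey]
      refine h3.congr fun z => ?_
      have e1 : UU g p z *ᵥ (fun _ : Fin N => (0 : ℝ)) = 0 := mulVec_zero _
      simp only [e1, Me, add_zero, zero_mul, zero_div, zero_add]
    · intro e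
      exact nhv_phi.me (nhv_phi.mulVec (egm_DUU g _ p)) e
    · unfold dl
      rw [if_neg (not_le.2 hjK), zero_add]
      simp only [ey]

end Vale.Agent.P146.Sk.Rec
end

section

/-!
# P146, module IBPW: the recursion with errors
-/

open MeasureTheory ProbabilityTheory Finset Matrix

namespace Vale.Agent.P146.Sk.Rec

set_option linter.all false

open Vale.Agent.P157 Vale.Agent.P157.Lv Vale.Agent.P157.Lv.Sy

variable {ι X : Type} [Fintype ι] [DecidableEq ι] [Fintype X] [DecidableEq X] [Nonempty X]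
  {S : Sy ι X} {N : ℕ} {φ : X → Fin N → ℝ} {A : (ι → ℝ) → Matrix (Fin N) (Fin N) ℝ}
  {α : (ι → ℝ) → ℝ} {D : ι → (ι → ℝ) → X → ℝ} {g : Ix N → ι} {c : ℝ}
  {B : Ix N → (ι → ℝ) → X → ℝ} {w : (ι → ℝ) → ℝ} {om : (ι → ℝ) → ℝ}

lemma Ex_nonneg (hS : S.Reg) {f : (ι → ℝ) → X → ℝ} (hf : Nh f) (h : ∀ z x, 0 ≤ f z x) :
    0 ≤ S.Ex f := by
  rw [← hS.Ex_const 0]
  exact hS.Ex_mono (Nh.fst (EG.const 0)) hf h

lemma er_nonneg (c : ℝ) (α w : (ι → ℝ) → ℝ) (k : ℕ) : 0 ≤ er S φ c α w k := by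
  unfold er
  positivity

lemma er_top_le (c : ℝ) (α w : (ι → ℝ) → ℝ) (k : ℕ) :
    er S φ c α w (S.K + 1) ≤ er S φ c α w k := by
  unfold er vv
  rw [if_neg (by omega), Real.sqrt_zero, mul_zero, zero_add]
  refine mul_le_mul_of_nonneg_left ?_ (Real.sqrt_nonneg _)
  have : 0 ≤ |c| * √(if k ≤ S.K then S.pairEx k fun x x' => (Rov φ x x' - S.Rl φ k) ^ 2 else 0) :=
    by positivity
  linarith

lemma p_nonneg (hS : S.Reg) {l : ℕ} (hl : l ≤ S.K) : 0 ≤ S.p l := by
  unfold Sy.p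
  linarith [hS.mono l hl]

lemma sum_p_Ico (S : Sy ι X) {j : ℕ} (hj : j ≤ S.K + 1) :
    ∑ i ∈ Finset.Ico j (S.K + 1), S.p i = S.m (S.K + 1) - S.m j :=
  Finset.sum_Ico_sub S.m hj

lemma sum_p_range (hS : S.Reg) : ∑ i ∈ Finset.range (S.K + 1), S.p i = 1 := by
  rw [Finset.range_eq_Ico, sum_p_Ico S (Nat.zero_le _), hS.mK, hS.m0, sub_zero]

/-- the error of a weighted sum -/
lemma sum_err (hS : S.Reg) {s : Finset ℕ} (hs : ∀ i ∈ s, i ≤ S.K) {f h e : ℕ → ℝ} {c : ℝ}
    (hf : ∀ i ∈ s, |f i - c * h i| ≤ e i) :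
    |∑ i ∈ s, S.p i * f i - c * ∑ i ∈ s, S.p i * h i| ≤ ∑ i ∈ s, S.p i * e i := by
  rw [mul_sum, ← sum_sub_distrib]
  refine (abs_sum_le_sum_abs _ _).trans (sum_le_sum fun i hi => ?_)
  rw [show S.p i * f i - c * (S.p i * h i) = S.p i * (f i - c * h i) by ring, abs_mul,
    abs_of_nonneg (p_nonneg hS (hs i hi))]
  exact mul_le_mul_of_nonneg_left (hf i hi) (p_nonneg hS (hs i hi))

/-- the main part of `MM` -/
noncomputable def Mh (S : Sy ι X) (φ : X → Fin N → ℝ) (A : (ι → ℝ) → Matrix (Fin N) (Fin N) ℝ)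
    (j a b : ℕ) : ℝ :=
  RR S φ (min (S.K + 1) a) * TT S φ A (min (S.K + 1) b) -
    ∑ i ∈ Finset.Ico (j + 1) (S.K + 1), S.p i * (RR S φ (min i a) * TT S φ A (min i b)) -
    S.m (j + 1) * (RR S φ (min j a) * TT S φ A (min j b))

lemma MM_le (hC : Ctx S D g φ c B w) (hA : LMat S A α) {j a b : ℕ} (hj : j ≤ S.K)
    (ha : a ≤ S.K + 1) (hb : b ≤ S.K + 1) :
    |MM S D g φ A j a b - c * Mh S φ A j a b| ≤ er S φ c α w (min (S.K + 1) a) +
      ∑ i ∈ Finset.Ico (j + 1) (S.K + 1), S.p i * er S φ c α w (min i a) +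
      S.m (j + 1) * er S φ c α w (min j a) := by
  have hS := hC.reg.toReg
  have h1 := LL_le hC hA (i := S.K + 1) le_rfl ha hb
  have h2 := LL_le hC hA (i := j) (by omega) ha hb
  have h3 := sum_err hS (s := Finset.Ico (j + 1) (S.K + 1)) (fun i hi => by
    have := Finset.mem_Ico.1 hi
    omega) (f := fun i => LL S D g φ A i a b)
    (h := fun i => RR S φ (min i a) * TT S φ A (min i b))
    (e := fun i => er S φ c α w (min i a)) (c := c) (fun i hi => LL_le hC hA (by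
    have := Finset.mem_Ico.1 hi
    omega) ha hb)
  have hm : 0 ≤ S.m (j + 1) := by
    have := hS.m_pos (l := j + 1) (by omega) (by omega)
    linarith
  have h4 : |S.m (j + 1) * LL S D g φ A j a b -
      c * (S.m (j + 1) * (RR S φ (min j a) * TT S φ A (min j b)))| ≤
      S.m (j + 1) * er S φ c α w (min j a) := by
    rw [show S.m (j + 1) * LL S D g φ A j a b -
      c * (S.m (j + 1) * (RR S φ (min j a) * TT S φ A (min j b))) = S.m (j + 1) *
      (LL S D g φ A j a b - c * (RR S φ (min j a) * TT S φ A (min j b))) by ring, abs_mul,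
      abs_of_nonneg hm]
    exact mul_le_mul_of_nonneg_left h2 hm
  unfold MM Mh
  rw [abs_le] at h1 h3 h4 ⊢
  constructor
  · linarith only [h4.2, h3.2, h1.1]
  · linarith only [h4.1, h3.1, h1.2]

/-- the main part of the contribution of the density -/
noncomputable def Dh (S : Sy ι X) (φ : X → Fin N → ℝ) (A : (ι → ℝ) → Matrix (Fin N) (Fin N) ℝ)
    (j : ℕ) : ℝ :=
  RR S φ (min (S.K + 1) j) * TT S φ A (min (S.K + 1) j) -
    ∑ i ∈ Finset.range (S.K + 1), S.p i * (RR S φ (min i j) * TT S φ A (min i j))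

lemma DD_le (hC : Ctx S D g φ c B w) (hA : LMat S A α) {j : ℕ} (hj : j ≤ S.K + 1) :
    |(LL S D g φ A (S.K + 1) j j -
        ∑ i ∈ Finset.range (S.K + 1), S.p i * LL S D g φ A i j j) - c * Dh S φ A j| ≤
      er S φ c α w (min (S.K + 1) j) +
      ∑ i ∈ Finset.range (S.K + 1), S.p i * er S φ c α w (min i j) := by
  have hS := hC.reg.toReg
  have h1 := LL_le hC hA (i := S.K + 1) le_rfl hj hj
  have h3 := sum_err hS (s := Finset.range (S.K + 1)) (fun i hi => by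
    have := Finset.mem_range.1 hi
    omega) (f := fun i => LL S D g φ A i j j)
    (h := fun i => RR S φ (min i j) * TT S φ A (min i j))
    (e := fun i => er S φ c α w (min i j)) (c := c) (fun i hi => LL_le hC hA (by
    have := Finset.mem_range.1 hi
    omega) hj hj)
  unfold Dh
  rw [abs_le] at h1 h3 ⊢
  constructor
  · linarith only [h3.2, h1.1]
  · linarith only [h3.1, h1.2]

/-- The hierarchical product with the matrix of the overlaps. -/
noncomputable def HH (S : Sy ι X) (φ : X → Fin N → ℝ) (A : (ι → ℝ) → Matrix (Fin N) (Fin N) ℝ)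
    (j : ℕ) : ℝ :=
  if j ≤ S.K then
    RR S φ j * (TT S φ A (S.K + 1) -
      ∑ i ∈ Finset.Ico (j + 1) (S.K + 1), S.p i * TT S φ A i - S.m (j + 1) * TT S φ A j) +
    (1 - ∑ i ∈ Finset.Ico j (S.K + 1), S.p i * RR S φ i) * TT S φ A j -
    ∑ i ∈ Finset.range j, S.p i * (RR S φ i * TT S φ A i)
  else TT S φ A (S.K + 1) - ∑ i ∈ Finset.range (S.K + 1), S.p i * (RR S φ i * TT S φ A i)

lemma RR_top (S : Sy ι X) (φ : X → Fin N → ℝ) : RR S φ (S.K + 1) = 1 := by
  unfold RR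
  rw [if_neg (by omega)]

/-- the error at the level `j` -/
noncomputable def ej (S : Sy ι X) (φ : X → Fin N → ℝ) (c : ℝ) (α w : (ι → ℝ) → ℝ) (j : ℕ) : ℝ :=
  7 * er S φ c α w j + 2 * ∑ i ∈ Finset.range (S.K + 1), S.p i * er S φ c α w i

lemma main_le (hC : Ctx S D g φ c B w) (hA : LMat S A α) {j : ℕ} (hj : j ≤ S.K + 1) :
    |dl S D g φ A j + (LL S D g φ A (S.K + 1) j j -
        ∑ i ∈ Finset.range (S.K + 1), S.p i * LL S D g φ A i j j) - c * HH S φ A j| ≤
      ej S φ c α w j := by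
  have hS := hC.reg.toReg
  have hD := DD_le hC hA hj
  have hsig0 : 0 ≤ ∑ i ∈ Finset.range (S.K + 1), S.p i * er S φ c α w i :=
    sum_nonneg fun i hi => mul_nonneg (p_nonneg hS (Nat.lt_succ_iff.1 (Finset.mem_range.1 hi)))
      (er_nonneg _ _ _ _)
  rcases le_or_gt j S.K with hjK | hjK
  · have h1 := MM_le hC hA (a := S.K + 1) (b := j) hjK le_rfl hj
    have h2 := MM_le hC hA (a := j) (b := S.K + 1) hjK hj le_rfl
    have e1 : Mh S φ A j (S.K + 1) j = TT S φ A j -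
        ∑ i ∈ Finset.Ico (j + 1) (S.K + 1), S.p i * RR S φ i * TT S φ A j -
        S.m (j + 1) * (RR S φ j * TT S φ A j) := by
      unfold Mh
      rw [min_self, min_eq_right hj, RR_top, one_mul, min_eq_left hj, min_self]
      congr 2
      refine sum_congr rfl fun i hi => ?_
      have hi' := Finset.mem_Ico.1 hi
      rw [min_eq_left (by omega), min_eq_right (by omega)]
      ring
    have e2 : Mh S φ A j j (S.K + 1) = RR S φ j * TT S φ A (S.K + 1) -
        RR S φ j * ∑ i ∈ Finset.Ico (j + 1) (S.K + 1), S.p i * TT S φ A i -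
        S.m (j + 1) * (RR S φ j * TT S φ A j) := by
      unfold Mh
      rw [min_self, min_eq_right hj, min_eq_left hj, min_self, mul_sum]
      congr 2
      refine sum_congr rfl fun i hi => ?_
      have hi' := Finset.mem_Ico.1 hi
      rw [min_eq_right (by omega), min_eq_left (by omega)]
      ring
    have e3 : Dh S φ A j = RR S φ j * TT S φ A j -
        (∑ i ∈ Finset.range j, S.p i * (RR S φ i * TT S φ A i) +
          (1 - S.m j) * (RR S φ j * TT S φ A j)) := by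
      unfold Dh
      rw [min_eq_right hj, ← Finset.sum_range_add_sum_Ico _ hj]
      congr 2
      · refine sum_congr rfl fun i hi => ?_
        have hi' := Finset.mem_range.1 hi
        rw [min_eq_left (by omega)]
      · rw [← hS.mK, ← sum_p_Ico S hj, sum_mul]
        refine sum_congr rfl fun i hi => ?_
        have hi' := Finset.mem_Ico.1 hi
        rw [min_eq_right (by omega)]
    have e4 : HH S φ A j = Mh S φ A j (S.K + 1) j + Mh S φ A j j (S.K + 1) + Dh S φ A j := by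
      rw [e1, e2, e3]
      unfold HH
      rw [if_pos hjK, Finset.sum_eq_sum_Ico_succ_bot (by omega : j < S.K + 1), ← sum_mul]
      have : S.p j = S.m (j + 1) - S.m j := rfl
      rw [this]
      ring
    -- the errors
    have b1 : ∑ i ∈ Finset.Ico (j + 1) (S.K + 1), S.p i * er S φ c α w (min i (S.K + 1)) ≤
        ∑ i ∈ Finset.range (S.K + 1), S.p i * er S φ c α w i := by
      have : ∑ i ∈ Finset.Ico (j + 1) (S.K + 1), S.p i * er S φ c α w (min i (S.K + 1)) =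
          ∑ i ∈ Finset.Ico (j + 1) (S.K + 1), S.p i * er S φ c α w i := by
        refine sum_congr rfl fun i hi => ?_
        have hi' := Finset.mem_Ico.1 hi
        rw [min_eq_left (by omega)]
      rw [this]
      refine Finset.sum_le_sum_of_subset_of_nonneg (fun i hi => ?_) fun i hi _ => ?_
      · have hi' := Finset.mem_Ico.1 hi
        exact Finset.mem_range.2 (by omega)
      · exact mul_nonneg (p_nonneg hS (Nat.lt_succ_iff.1 (Finset.mem_range.1 hi)))
          (er_nonneg _ _ _ _)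
    have hm1 : 0 ≤ S.m (j + 1) := (hS.m_pos (l := j + 1) (by omega) (by omega)).le
    have hm2 : S.m (j + 1) ≤ 1 := hS.m_le_one (by omega)
    have hmj0 : 0 ≤ S.m j := by
      rw [← hS.m0]
      exact hS.m_mono (Nat.zero_le _) (by omega)
    have hej := er_nonneg (S := S) (φ := φ) c α w j
    have b2 : ∑ i ∈ Finset.Ico (j + 1) (S.K + 1), S.p i * er S φ c α w (min i j) ≤
        er S φ c α w j := by
      have : ∑ i ∈ Finset.Ico (j + 1) (S.K + 1), S.p i * er S φ c α w (min i j) =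
          (S.m (S.K + 1) - S.m (j + 1)) * er S φ c α w j := by
        rw [← sum_p_Ico S (by omega), sum_mul]
        refine sum_congr rfl fun i hi => ?_
        have hi' := Finset.mem_Ico.1 hi
        rw [min_eq_right (by omega)]
      rw [this, hS.mK]
      linarith only [mul_nonneg (sub_nonneg.2 hm1) (sub_nonneg.2 hej)]
    have b3 : ∑ i ∈ Finset.range (S.K + 1), S.p i * er S φ c α w (min i j) ≤
        ∑ i ∈ Finset.range (S.K + 1), S.p i * er S φ c α w i + er S φ c α w j := by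
      rw [← Finset.sum_range_add_sum_Ico _ hj, ← Finset.sum_range_add_sum_Ico
        (fun i => S.p i * er S φ c α w i) hj]
      have c1 : ∑ i ∈ Finset.range j, S.p i * er S φ c α w (min i j) =
          ∑ i ∈ Finset.range j, S.p i * er S φ c α w i := by
        refine sum_congr rfl fun i hi => ?_
        have hi' := Finset.mem_range.1 hi
        rw [min_eq_left (by omega)]
      have c2 : ∑ i ∈ Finset.Ico j (S.K + 1), S.p i * er S φ c α w (min i j) =
          (S.m (S.K + 1) - S.m j) * er S φ c α w j := by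
        rw [← sum_p_Ico S (by omega), sum_mul]
        refine sum_congr rfl fun i hi => ?_
        have hi' := Finset.mem_Ico.1 hi
        rw [min_eq_right (by omega)]
      have c3 : 0 ≤ ∑ i ∈ Finset.Ico j (S.K + 1), S.p i * er S φ c α w i :=
        sum_nonneg fun i hi => mul_nonneg (p_nonneg hS (by
          have hi' := Finset.mem_Ico.1 hi
          omega)) (er_nonneg _ _ _ _)
      rw [c1, c2, hS.mK]
      linarith only [mul_nonneg (sub_nonneg.2 hmj0) (sub_nonneg.2 hej), mul_nonneg (sub_nonneg.2 hm2) (sub_nonneg.2 c3), mul_nonneg (sub_nonneg.2 hm1) (sub_nonneg.2 c3)]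
    have b4 := er_top_le (S := S) (φ := φ) c α w j
    have b5 : S.m (j + 1) * er S φ c α w j ≤ er S φ c α w j := by linarith only [mul_nonneg (sub_nonneg.2 hm2) (sub_nonneg.2 hej)]
    rw [min_self, min_eq_left hj] at h1
    rw [min_eq_right hj, min_self] at h2
    rw [min_eq_right hj] at hD
    unfold dl ej
    rw [if_pos hjK, e4]
    rw [abs_le] at h1 h2 hD ⊢
    constructor
    · linarith [h1.1, h2.1, hD.1]
    · linarith only [hD.2, h2.2, h1.2, b5, b4, b3, b2, b1]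
  · have hjK' : j = S.K + 1 := by omega
    subst hjK'
    have e1 : Dh S φ A (S.K + 1) = HH S φ A (S.K + 1) := by
      unfold Dh HH
      rw [min_self, RR_top, one_mul, if_neg (by omega)]
      congr 1
      refine sum_congr rfl fun i hi => ?_
      have hi' := Finset.mem_range.1 hi
      rw [min_eq_left (by omega)]
    have e2 : ∑ i ∈ Finset.range (S.K + 1), S.p i * er S φ c α w (min i (S.K + 1)) =
        ∑ i ∈ Finset.range (S.K + 1), S.p i * er S φ c α w i := by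
      refine sum_congr rfl fun i hi => ?_
      have hi' := Finset.mem_range.1 hi
      rw [min_eq_left (by omega)]
    rw [min_self, e1, e2] at hD
    unfold dl ej
    rw [if_neg (by omega), zero_add]
    have := er_nonneg (S := S) (φ := φ) c α w (S.K + 1)
    linarith

/-! ### The trace terms -/

/-- normalised traces -/
noncomputable def tr (g : Ix N → ι) (s : ℕ) (z : ι → ℝ) : ℝ := 1 / N * (UU g s z).trace

/-- the error of the trace terms -/
noncomputable def ge (S : Sy ι X) (g : Ix N → ι) (om : (ι → ℝ) → ℝ) : ℕ → ℝ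
  | 0 => 0
  | p + 1 => (p + 1) / N * S.Ex (fun z _ => om z ^ p) +
      ∑ s ∈ Finset.range p, √(S.Ex fun z _ => tr g (s + 1) z ^ 2) *
        √(S.Ex fun z _ => (om z ^ (p - (s + 1))) ^ 2)

/-- the quadratic form is bounded -/
lemma quad_le (hS : S.Reg) (hN : 0 < N) (hφ : ∀ x, ∑ i, φ x i ^ 2 = N)
    {M : Matrix (Fin N) (Fin N) ℝ} {a : ℝ} (hM : OpB M a) (ha : 0 ≤ a) (j : ℕ) (z : ι → ℝ)
    (x : X) : |1 / (N : ℝ) * (yv S φ j z x ⬝ᵥ M *ᵥ yv S φ j z x)| ≤ a := by
  have hN' : (0 : ℝ) < N := by exact_mod_cast hN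
  rw [abs_mul, abs_of_pos (by positivity), one_div, inv_mul_le_iff₀ hN']
  refine (hM.abs_dot_le _ _).trans ?_
  have := nv_yv (φ := φ) hS hφ j z x
  calc a * (nv (yv S φ j z x) * nv (yv S φ j z x)) = a * nv (yv S φ j z x) ^ 2 := by ring
    _ ≤ a * N := mul_le_mul_of_nonneg_left this ha
    _ = N * a := by ring

lemma goe_le (hC : Ctx S D g φ c B w) (ho : OM g om) (p j : ℕ) :
    |1 / N * S.Ex (fun z x => ∑ e,
        Me (yv S φ j z x) (DU (WW g z) (Em N e) (p + 1) *ᵥ yv S φ j z x) e) -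
      TT S φ (UU g p) j| ≤ ge S g om (p + 1) := by
  have hS := hC.reg.toReg
  have hN' : (0 : ℝ) < N := by exact_mod_cast hC.N0
  have hU : ∀ s, LMat S (UU g s) (fun z => om z ^ s) := lmat_UU hC.lev ho
  have nQ : ∀ {M : (ι → ℝ) → Matrix (Fin N) (Fin N) ℝ}, EGM M →
      Nh (fun z x => yv S φ j z x ⬝ᵥ M z *ᵥ yv S φ j z x) := fun hM =>
    (nhv_yv hS j).dot ((nhv_yv hS j).mulVec hM)
  have eT : ∀ s, EG (tr g s : (ι → ℝ) → ℝ) := fun s => ((egm_UU g s).trace).const_mul _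
  -- the identity
  have e1 : (fun z x => ∑ e,
        Me (yv S φ j z x) (DU (WW g z) (Em N e) (p + 1) *ᵥ yv S φ j z x) e) = fun z x =>
      (∑ s ∈ range (p + 1), 1 / N * (yv S φ j z x ⬝ᵥ (UU g s z * UU g (p - s) z) *ᵥ
        yv S φ j z x) + ∑ s ∈ range p, tr g (s + 1) z *
        (yv S φ j z x ⬝ᵥ UU g (p - (s + 1)) z *ᵥ yv S φ j z x)) +
      yv S φ j z x ⬝ᵥ UU g p z *ᵥ yv S φ j z x := by
    funext z x
    have hT : (WW g z)ᵀ = WW g z := Wm_transpose _
    rw [sum_Me_DU hC.N0 hT]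
    simp only [Nat.add_sub_cancel]
    rw [sum_add_distrib, sum_range_succ' (fun s => (Um (WW g z) s).trace *
      (yv S φ j z x ⬝ᵥ Um (WW g z) (p - s) *ᵥ yv S φ j z x)) p, mul_add, mul_add, mul_sum,
      mul_sum, add_assoc]
    congr 2
    · refine sum_congr rfl fun s _ => ?_
      unfold tr UU
      ring
    · simp only [Um_zero, Matrix.trace_one, Fintype.card_fin, Nat.sub_zero]
      unfold UU
      field_simp
  have n1 : Nh (fun z x => ∑ s ∈ range (p + 1), 1 / N * (yv S φ j z x ⬝ᵥ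
      (UU g s z * UU g (p - s) z) *ᵥ yv S φ j z x)) :=
    Nh.sum _ fun s _ => Nh.const_mul _ (nQ ((egm_UU g s).mul (egm_UU g (p - s))))
  have n2 : ∀ s ∈ range p, Nh (fun z x => tr g (s + 1) z *
      (yv S φ j z x ⬝ᵥ UU g (p - (s + 1)) z *ᵥ yv S φ j z x)) := fun s _ =>
    Nh.mul (Nh.fst (eT _)) (nQ (egm_UU g _))
  have e3 : TT S φ (UU g p) j =
      1 / N * S.Ex (fun z x => yv S φ j z x ⬝ᵥ UU g p z *ᵥ yv S φ j z x) := by
    unfold TT
    congr 2
    funext z x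
    rw [dotProduct_comm]
  rw [e1, hS.Ex_add (Nh.add n1 (Nh.sum _ n2)) (nQ (egm_UU g p)), hS.Ex_add n1 (Nh.sum _ n2), e3,
    mul_add, add_sub_cancel_right, mul_add]
  refine (abs_add_le _ _).trans (add_le_add ?_ ?_)
  · -- the terms without trace
    rw [abs_mul, abs_of_pos (by positivity : (0 : ℝ) < 1 / N)]
    have h1 : |S.Ex (fun z x => ∑ s ∈ range (p + 1), 1 / N * (yv S φ j z x ⬝ᵥ
        (UU g s z * UU g (p - s) z) *ᵥ yv S φ j z x))| ≤
        S.Ex (fun z _ => (p + 1) * om z ^ p) := by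
      refine (hS.abs_Ex_le n1).trans ?_
      refine hS.Ex_mono (Nh.abs n1) (Nh.const_mul _ (Nh.fst (ho.eg.pow p))) fun z x => ?_
      refine (abs_sum_le_sum_abs _ _).trans ?_
      have h2 : ∀ s ∈ range (p + 1), |1 / (N : ℝ) * (yv S φ j z x ⬝ᵥ
          (UU g s z * UU g (p - s) z) *ᵥ yv S φ j z x)| ≤ om z ^ p := by
        intro s hs
        have hs' := Finset.mem_range.1 hs
        have h3 := ((hU s).op z).mul ((hU s).nn z) ((hU (p - s)).op z)
        rw [← pow_add, show s + (p - s) = p by omega] at h3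
        exact quad_le hS hC.N0 hC.norm h3 ((hU p).nn z) j z x
      refine (sum_le_sum h2).trans (le_of_eq ?_)
      rw [sum_const, card_range, nsmul_eq_mul]
      push_cast
      ring
    rw [Sy.Ex_const_mul] at h1
    calc 1 / (N : ℝ) * |S.Ex (fun z x => ∑ s ∈ range (p + 1), 1 / N * (yv S φ j z x ⬝ᵥ
        (UU g s z * UU g (p - s) z) *ᵥ yv S φ j z x))| ≤
        1 / N * ((p + 1) * S.Ex (fun z _ => om z ^ p)) :=
          mul_le_mul_of_nonneg_left h1 (by positivity)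
      _ = _ := by ring
  · rw [hS.Ex_sum _ n2, mul_sum]
    refine (abs_sum_le_sum_abs _ _).trans (sum_le_sum fun s _ => ?_)
    rw [← Sy.Ex_const_mul]
    have e2 : (fun z x => 1 / (N : ℝ) * (tr g (s + 1) z *
        (yv S φ j z x ⬝ᵥ UU g (p - (s + 1)) z *ᵥ yv S φ j z x))) = fun z x =>
        tr g (s + 1) z * (1 / N * (yv S φ j z x ⬝ᵥ UU g (p - (s + 1)) z *ᵥ yv S φ j z x)) := by
      funext z x
      ring
    rw [e2]
    have n3 : Nh (fun z x => 1 / (N : ℝ) * (yv S φ j z x ⬝ᵥ UU g (p - (s + 1)) z *ᵥ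
        yv S φ j z x)) := Nh.const_mul _ (nQ (egm_UU g _))
    refine (Ex_abs_cs hS (Nh.fst (eT _)) n3).trans ?_
    refine mul_le_mul_of_nonneg_left (Real.sqrt_le_sqrt ?_) (Real.sqrt_nonneg _)
    refine hS.Ex_mono (Nh.pow n3 2) (Nh.fst ((hU _).ega.pow 2)) fun z x => ?_
    rw [← sq_abs]
    exact pow_le_pow_left₀ (abs_nonneg _) (quad_le hS hC.N0 hC.norm ((hU _).op z)
      ((hU _).nn z) j z x) 2

/-- **The recursion.** -/
theorem rec_le (hC : Ctx S D g φ c B w) (ho : OM g om) (p : ℕ) {j : ℕ} (hj : j ≤ S.K + 1) :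
    |TT S φ (UU g (p + 1)) j - c * HH S φ (UU g p) j| ≤
      ej S φ c (fun z => om z ^ p) w j + ge S g om p := by
  have hS := hC.reg.toReg
  have nQ : ∀ {M : (ι → ℝ) → Matrix (Fin N) (Fin N) ℝ}, EGM M →
      Nh (fun z x => yv S φ j z x ⬝ᵥ M z *ᵥ yv S φ j z x) := fun hM =>
    (nhv_yv hS j).dot ((nhv_yv hS j).mulVec hM)
  have eTT : ∀ s, TT S φ (UU g s) j =
      1 / N * S.Ex (fun z x => yv S φ j z x ⬝ᵥ UU g s z *ᵥ yv S φ j z x) := by
    intro s
    unfold TT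
    congr 2
    funext z x
    rw [dotProduct_comm]
  have h1 := exact_id hC p hj
  have h2 := main_le hC (lmat_UU hC.lev ho p) hj
  match p with
  | 0 =>
    have e1 : (fun z x => yv S φ j z x ⬝ᵥ WW g z *ᵥ (UU g 0 z *ᵥ yv S φ j z x)) =
        fun z x => yv S φ j z x ⬝ᵥ UU g (0 + 1) z *ᵥ yv S φ j z x := by
      funext z x
      unfold UU
      rw [Um_zero, one_mulVec, zero_add, Um_one]
    have e2 : (fun z x => ∑ e, Me (yv S φ j z x)
        (DU (WW g z) (Em N e) 0 *ᵥ yv S φ j z x) e) = fun (_ : ι → ℝ) (_ : X) => (0 : ℝ) := by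
      funext z x
      refine sum_eq_zero fun e _ => ?_
      simp [DU, Me]
    rw [e1, ← eTT, e2, hS.Ex_const, mul_zero, add_zero] at h1
    rw [h1]
    unfold ge
    rw [add_zero]
    exact h2
  | p + 1 =>
    have e1 : (fun z x => yv S φ j z x ⬝ᵥ WW g z *ᵥ (UU g (p + 1) z *ᵥ yv S φ j z x)) =
        fun z x => yv S φ j z x ⬝ᵥ UU g (p + 1 + 1) z *ᵥ yv S φ j z x +
          yv S φ j z x ⬝ᵥ UU g p z *ᵥ yv S φ j z x := by
      funext z x
      unfold UU
      rw [mulVec_mulVec, mul_Um_succ, add_mulVec, dotProduct_add]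
    rw [e1, hS.Ex_add (nQ (egm_UU g _)) (nQ (egm_UU g _)), mul_add, ← eTT, ← eTT] at h1
    have h3 := goe_le hC ho p j
    rw [abs_le] at h2 h3 ⊢
    constructor
    · linarith only [h3.1, h2.1, h1]
    · linarith only [h3.2, h2.2, h1]

end Vale.Agent.P146.Sk.Rec
end

section

/-!
# P146, module GOE: moments of the operator norm of `W`, uniformly in the dimension
-/

open MeasureTheory ProbabilityTheory Finset Matrix Filter Topology

namespace Vale.Agent.P146.Sk.Opn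

open Vale.Agent.P146.Sk Vale.Agent.P157.Lv

set_option linter.all false

section net

variable (E : Type) [NormedAddCommGroup E] [InnerProductSpace ℝ E] [FiniteDimensional ℝ E]

/-- a `1/2` net of the unit ball -/
lemma exists_net : ∃ s : Finset E, (∀ x ∈ s, ‖x‖ ≤ 1) ∧ s.card ≤ 5 ^ (Module.finrank ℝ E) ∧
    ∀ x : E, ‖x‖ ≤ 1 → ∃ y ∈ s, ‖x - y‖ ≤ 1 / 2 := by
  classical
  let P : Finset E → Prop := fun s => (∀ c ∈ s, ‖c‖ ≤ 2) ∧
    (∀ c ∈ s, ∀ d ∈ s, c ≠ d → 1 ≤ ‖c - d‖)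
  have h0 : ∃ n, ∃ s : Finset E, P s ∧ s.card = n := ⟨0, ∅, ⟨by simp, by simp⟩, rfl⟩
  have hb : ∀ s : Finset E, P s → s.card ≤ 5 ^ (Module.finrank ℝ E) := fun s hs =>
    Besicovitch.card_le_of_separated s hs.1 hs.2
  obtain ⟨s, hs, hmax⟩ : ∃ s : Finset E, P s ∧ ∀ t : Finset E, P t → t.card ≤ s.card := by
    let n := Nat.findGreatest (fun n => ∃ s : Finset E, P s ∧ s.card = n)
      (5 ^ (Module.finrank ℝ E))
    have hn : ∃ s : Finset E, P s ∧ s.card = n :=
      Nat.findGreatest_spec (P := fun n => ∃ s : Finset E, P s ∧ s.card = n) (Nat.zero_le _)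
        ⟨∅, ⟨by simp, by simp⟩, rfl⟩
    obtain ⟨s, hs, hsn⟩ := hn
    refine ⟨s, hs, fun t ht => ?_⟩
    rw [hsn]
    exact Nat.le_findGreatest (hb t ht) ⟨t, ht, rfl⟩
  have key : ∀ x : E, ‖x‖ ≤ 2 → ∃ y ∈ s, ‖x - y‖ < 1 := by
    intro x hx
    by_contra hcon
    push Not at hcon
    have hxs : x ∉ s := fun h => by
      have := hcon x h
      rw [sub_self, norm_zero] at this
      linarith
    have hP : P (insert x s) := by
      refine ⟨?_, ?_⟩
      · intro c hc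
        rcases Finset.mem_insert.1 hc with rfl | hc
        · exact hx
        · exact hs.1 c hc
      · intro c hc d hd hcd
        rcases Finset.mem_insert.1 hc with hc1 | hc1
        · rcases Finset.mem_insert.1 hd with hd1 | hd1
          · exact absurd (hc1.trans hd1.symm) hcd
          · rw [hc1]; exact hcon d hd1
        · rcases Finset.mem_insert.1 hd with hd1 | hd1
          · rw [norm_sub_rev, hd1]; exact hcon c hc1
          · exact hs.2 c hc1 d hd1 hcd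
    have := hmax _ hP
    rw [Finset.card_insert_of_notMem hxs] at this
    omega
  refine ⟨s.image fun x => (1 / 2 : ℝ) • x, ?_, Finset.card_image_le.trans (hb s hs), ?_⟩
  · intro x hx
    obtain ⟨y, hy, rfl⟩ := Finset.mem_image.1 hx
    rw [norm_smul]
    have := hs.1 y hy
    norm_num
    linarith
  · intro x hx
    obtain ⟨y, hy, hxy⟩ := key ((2 : ℝ) • x) (by rw [norm_smul]; norm_num; linarith)
    refine ⟨(1 / 2 : ℝ) • y, Finset.mem_image_of_mem _ hy, ?_⟩
    have : x - (1 / 2 : ℝ) • y = (1 / 2 : ℝ) • ((2 : ℝ) • x - y) := by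
      rw [smul_sub, smul_smul]
      norm_num
    rw [this, norm_smul]
    norm_num
    linarith

variable {E}

lemma norm_le_of_net {s : Finset E} (hs : ∀ x : E, ‖x‖ ≤ 1 → ∃ y ∈ s, ‖x - y‖ ≤ 1 / 2)
    {v : E} {M : ℝ} (hM : ∀ y ∈ s, inner ℝ y v ≤ M) : ‖v‖ ≤ 2 * M := by
  by_cases hv : v = 0
  · subst hv
    obtain ⟨y, hy, -⟩ := hs 0 (by simp)
    have := hM y hy
    rw [inner_zero_right] at this
    rw [norm_zero]
    linarith
  · have hv0 : 0 < ‖v‖ := norm_pos_iff.2 hv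
    obtain ⟨y, hy, hxy⟩ := hs (‖v‖⁻¹ • v) (by rw [norm_smul, norm_inv, norm_norm,
      inv_mul_cancel₀ hv0.ne'])
    have h1 : inner ℝ (‖v‖⁻¹ • v) v = ‖v‖ := by
      rw [real_inner_smul_left, real_inner_self_eq_norm_sq]
      field_simp
    have h2 : inner ℝ (‖v‖⁻¹ • v - y) v ≤ (1 / 2) * ‖v‖ :=
      (real_inner_le_norm _ _).trans (mul_le_mul_of_nonneg_right hxy hv0.le)
    rw [inner_sub_left, h1] at h2
    linarith only [hM y hy, h2]

lemma opNorm_le_of_net {s : Finset E} (hs : ∀ x : E, ‖x‖ ≤ 1 → ∃ y ∈ s, ‖x - y‖ ≤ 1 / 2)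
    (T : E →L[ℝ] E) {M : ℝ} (hM : ∀ x ∈ s, ∀ y ∈ s, inner ℝ x (T y) ≤ M) : ‖T‖ ≤ 4 * M := by
  have h1 : ∀ y ∈ s, ‖T y‖ ≤ 2 * M := fun y hy => norm_le_of_net hs fun x hx => hM x hx y hy
  have hM0 : 0 ≤ 2 * M := by
    obtain ⟨y, hy, -⟩ := hs 0 (by simp)
    exact (norm_nonneg _).trans (h1 y hy)
  have h2 : ‖T‖ ≤ 2 * M + ‖T‖ / 2 := by
    refine T.opNorm_le_of_unit_norm (by positivity) fun x hx => ?_
    obtain ⟨y, hy, hxy⟩ := hs x hx.le
    have h3 : T x = T y + T (x - y) := by rw [map_sub]; abel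
    rw [h3]
    refine (norm_add_le _ _).trans (add_le_add (h1 y hy) ?_)
    refine (T.le_opNorm _).trans ?_
    have := mul_le_mul_of_nonneg_left hxy (norm_nonneg T)
    linarith only [this]
  linarith only [h2]

end net

lemma exp_lin_gI {ι : Type} [Fintype ι] (v : ι → ℝ) :
    Integrable (fun h : ι → ℝ => Real.exp (∑ i, v i * h i)) (gI ι) ∧
      ∫ h, Real.exp (∑ i, v i * h i) ∂(gI ι) = Real.exp ((∑ i, v i ^ 2) / 2) := by
  have e : (fun h : ι → ℝ => Real.exp (∑ i, v i * h i)) =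
      fun h => ∏ i, (fun (i : ι) (y : ℝ) => Real.exp (v i * y)) i (h i) := by
    funext h
    rw [Real.exp_sum]
  rw [e]
  refine ⟨Integrable.fintype_prod (f := fun (i : ι) (y : ℝ) => Real.exp (v i * y))
    fun i => integrable_exp_mul_gaussianReal (v i), ?_⟩
  have h1 := integral_fintype_prod_eq_prod (𝕜 := ℝ) (μ := fun _ : ι => gaussianReal 0 1)
    (fun (i : ι) (y : ℝ) => Real.exp (v i * y))
  have h2 : ∀ i, ∫ y, Real.exp (v i * y) ∂(gaussianReal 0 1) = Real.exp (v i ^ 2 / 2) := by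
    intro i
    have h3 := mgf_gaussianReal (p := gaussianReal 0 1) (X := fun y => y) (μ := 0) (v := 1)
      (by simp) (v i)
    rw [mgf] at h3
    rw [h3]
    simp
  rw [h1]
  simp only [h2]
  rw [← Real.exp_sum, Finset.sum_div]

variable {N : ℕ}

/-- the operator norm of a matrix -/
noncomputable def nm (A : Matrix (Fin N) (Fin N) ℝ) : ℝ := ‖Matrix.toEuclideanCLM (𝕜 := ℝ) A‖

lemma nm_nonneg (A : Matrix (Fin N) (Fin N) ℝ) : 0 ≤ nm A := norm_nonneg _

lemma nm_mul (A B : Matrix (Fin N) (Fin N) ℝ) : nm (A * B) ≤ nm A * nm B := by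
  unfold nm
  rw [map_mul]
  exact norm_mul_le _ _

lemma nm_sub (A B : Matrix (Fin N) (Fin N) ℝ) : nm (A - B) ≤ nm A + nm B := by
  unfold nm
  rw [map_sub]
  exact norm_sub_le _ _

lemma nm_one : nm (1 : Matrix (Fin N) (Fin N) ℝ) ≤ 1 := by
  unfold nm
  rw [map_one]
  exact ContinuousLinearMap.norm_id_le

/-- `1 + ‖W‖` -/
noncomputable def om (N : ℕ) (z : Ix N → ℝ) : ℝ := 1 + nm (Wm N z)

lemma one_le_om (z : Ix N → ℝ) : 1 ≤ om N z := by
  unfold om; linarith [nm_nonneg (Wm N z)]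

lemma nm_Um (z : Ix N → ℝ) (p : ℕ) : nm (Um (Wm N z) p) ≤ om N z ^ p := by
  have h1 := one_le_om z
  have h2 : nm (Wm N z) = om N z - 1 := by unfold om; ring
  have h3 : ∀ p, nm (Um (Wm N z) p) ≤ om N z ^ p ∧ nm (Um (Wm N z) (p + 1)) ≤ om N z ^ (p + 1) := by
    intro p
    induction p with
    | zero =>
      refine ⟨?_, ?_⟩
      · rw [pow_zero]; exact nm_one
      · rw [zero_add, pow_one]
        show nm (Wm N z) ≤ _
        linarith
    | succ p ih =>
      refine ⟨ih.2, ?_⟩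
      rw [Um_add_two]
      refine (nm_sub _ _).trans ?_
      have h4 : nm (Wm N z * Um (Wm N z) (p + 1)) ≤ (om N z - 1) * om N z ^ (p + 1) := by
        refine (nm_mul _ _).trans ?_
        rw [h2]
        exact mul_le_mul_of_nonneg_left ih.2 (by linarith)
      have h5 : om N z ^ p ≤ om N z ^ (p + 1) := pow_le_pow_right₀ h1 (Nat.le_succ p)
      calc _ ≤ (om N z - 1) * om N z ^ (p + 1) + om N z ^ (p + 1) :=
            add_le_add h4 (ih.1.trans h5)
        _ = om N z ^ (p + 1 + 1) := by ring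
  exact (h3 p).1

/-- bilinear forms -/
lemma abs_form_le (A : Matrix (Fin N) (Fin N) ℝ) (u v : Fin N → ℝ) :
    |u ⬝ᵥ (A *ᵥ v)| ≤ nm A * (√(∑ i, u i ^ 2) * √(∑ i, v i ^ 2)) := by
  have h1 := Matrix.inner_toEuclideanCLM A (WithLp.toLp 2 u) (WithLp.toLp 2 v)
  have h2 : ∀ w : Fin N → ℝ, ‖(WithLp.toLp 2 w : EuclideanSpace ℝ (Fin N))‖ = √(∑ i, w i ^ 2) := by
    intro w
    rw [EuclideanSpace.norm_eq]
    simp
  have h3 := abs_real_inner_le_norm (WithLp.toLp 2 u : EuclideanSpace ℝ (Fin N))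
    (Matrix.toEuclideanCLM (𝕜 := ℝ) A (WithLp.toLp 2 v))
  rw [h1] at h3
  refine h3.trans ?_
  have h4 := (Matrix.toEuclideanCLM (𝕜 := ℝ) A).le_opNorm (WithLp.toLp 2 v)
  rw [h2 v] at h4
  rw [h2 u]
  calc √(∑ i, u i ^ 2) * ‖(Matrix.toEuclideanCLM (𝕜 := ℝ) A) (WithLp.toLp 2 v)‖ ≤
      √(∑ i, u i ^ 2) * (‖Matrix.toEuclideanCLM (𝕜 := ℝ) A‖ * √(∑ i, v i ^ 2)) :=
        mul_le_mul_of_nonneg_left h4 (Real.sqrt_nonneg _)
    _ = _ := by unfold nm; ring

/-- bilinear forms of `U_p(W)` -/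
lemma abs_Um_le (z : Ix N → ℝ) (p : ℕ) (u v : Fin N → ℝ) :
    |u ⬝ᵥ (Um (Wm N z) p *ᵥ v)| ≤ om N z ^ p * (√(∑ i, u i ^ 2) * √(∑ i, v i ^ 2)) :=
  (abs_form_le _ _ _).trans (mul_le_mul_of_nonneg_right (nm_Um z p) (by positivity))

/-- the operator of `W` as a linear function of `z` -/
noncomputable def Tz (N : ℕ) : (Ix N → ℝ) →ₗ[ℝ]
    (EuclideanSpace ℝ (Fin N) →L[ℝ] EuclideanSpace ℝ (Fin N)) where
  toFun z := Matrix.toEuclideanCLM (𝕜 := ℝ) (Wm N z)
  map_add' z w := by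
    rw [← map_add]
    congr 1
    ext i j
    simp only [Wm, Matrix.of_apply, Matrix.add_apply, Pi.add_apply]
    ring
  map_smul' c z := by
    rw [RingHom.id_apply, ← map_smul]
    congr 1
    ext i j
    simp only [Wm, Matrix.of_apply, Matrix.smul_apply, Pi.smul_apply, smul_eq_mul]
    ring

lemma lip_om : Lip (om N) := by
  refine ⟨‖LinearMap.toContinuousLinearMap (Tz N)‖, ContinuousLinearMap.opNorm_nonneg _, fun y y' => ?_⟩
  have h1 : om N y - om N y' = ‖Tz N y‖ - ‖Tz N y'‖ := by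
    unfold om nm Tz
    simp
  rw [h1]
  refine (abs_norm_sub_norm_le _ _).trans ?_
  rw [← map_sub]
  exact (LinearMap.toContinuousLinearMap (Tz N)).le_opNorm (y - y')

lemma eg_om : EG (om N) := lip_om.eg

/-- the coefficients of `x·W(z)y` -/
lemma inner_Tz (x y : EuclideanSpace ℝ (Fin N)) (z : Ix N → ℝ) : inner ℝ x (Tz N z y) =
    ∑ e : Ix N, ((x e.1 * y e.2 + x e.2 * y e.1) / √(2 * (N : ℝ))) * z e := by
  have h1 : inner ℝ x (Tz N z y) = (x : Fin N → ℝ) ⬝ᵥ (Wm N z *ᵥ y) :=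
    Matrix.inner_toEuclideanCLM (Wm N z) x y
  rw [h1]
  have h2 : (x : Fin N → ℝ) ⬝ᵥ (Wm N z *ᵥ y) = ∑ e : Ix N,
      (x e.1 * (z (e.1, e.2) / √(2 * (N : ℝ))) * y e.2 +
        x e.1 * (z (e.2, e.1) / √(2 * (N : ℝ))) * y e.2) := by
    rw [Fintype.sum_prod_type]
    simp only [dotProduct, mulVec, mul_sum, Wm, Matrix.of_apply]
    refine sum_congr rfl fun i _ => sum_congr rfl fun j _ => ?_
    ring
  rw [h2, sum_add_distrib]
  have h3 : ∑ e : Ix N, x e.1 * (z (e.2, e.1) / √(2 * (N : ℝ))) * y e.2 =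
      ∑ e : Ix N, x e.2 * (z (e.1, e.2) / √(2 * (N : ℝ))) * y e.1 := by
    rw [Fintype.sum_prod_type, Fintype.sum_prod_type_right]
  rw [h3, ← sum_add_distrib]
  refine sum_congr rfl fun e _ => ?_
  simp only [Prod.mk.eta]
  ring

lemma sum_coef_sq (hN : 0 < N) {x y : EuclideanSpace ℝ (Fin N)} (hx : ‖x‖ ≤ 1) (hy : ‖y‖ ≤ 1) :
    ∑ e : Ix N, ((x e.1 * y e.2 + x e.2 * y e.1) / √(2 * (N : ℝ))) ^ 2 ≤ 2 / N := by
  have hN' : (0 : ℝ) < N := by exact_mod_cast hN
  have hs : √(2 * (N : ℝ)) ^ 2 = 2 * N := Real.sq_sqrt (by positivity)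
  have h1 : ∀ w : EuclideanSpace ℝ (Fin N), ‖w‖ ≤ 1 → ∑ i, w i ^ 2 ≤ 1 := by
    intro w hw
    have := EuclideanSpace.norm_sq_eq w
    simp only [Real.norm_eq_abs, sq_abs] at this
    rw [← this]
    linarith only [mul_nonneg (sub_nonneg.2 hw) (sub_nonneg.2 (norm_nonneg w)), mul_nonneg (sub_nonneg.2 hw) (sub_nonneg.2 hw)]
  have hx' := h1 x hx
  have hy' := h1 y hy
  have hx0 : 0 ≤ ∑ i, x i ^ 2 := sum_nonneg fun _ _ => sq_nonneg _
  have hy0 : 0 ≤ ∑ i, y i ^ 2 := sum_nonneg fun _ _ => sq_nonneg _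
  have h2 : ∑ e : Ix N, ((x e.1 * y e.2 + x e.2 * y e.1) / √(2 * (N : ℝ))) ^ 2 ≤
      ∑ e : Ix N, (1 / (N : ℝ)) * (x e.1 ^ 2 * y e.2 ^ 2 + x e.2 ^ 2 * y e.1 ^ 2) := by
    refine sum_le_sum fun e _ => ?_
    rw [div_pow, hs, div_le_iff₀ (by positivity)]
    have : (1 / (N : ℝ)) * (x e.1 ^ 2 * y e.2 ^ 2 + x e.2 ^ 2 * y e.1 ^ 2) * (2 * N) =
        2 * (x e.1 ^ 2 * y e.2 ^ 2 + x e.2 ^ 2 * y e.1 ^ 2) := by field_simp
    rw [this]
    linarith only [sq_nonneg (x e.1 * y e.2 - x e.2 * y e.1)]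
  refine h2.trans ?_
  rw [← mul_sum, sum_add_distrib]
  have h3 : ∑ e : Ix N, x e.1 ^ 2 * y e.2 ^ 2 = (∑ i, x i ^ 2) * ∑ j, y j ^ 2 := by
    rw [Fintype.sum_prod_type, sum_mul_sum]
  have h4 : ∑ e : Ix N, x e.2 ^ 2 * y e.1 ^ 2 = (∑ i, x i ^ 2) * ∑ j, y j ^ 2 := by
    rw [Fintype.sum_prod_type_right, sum_mul_sum]
  rw [h3, h4]
  have h5 : (∑ i, x i ^ 2) * ∑ j, y j ^ 2 ≤ 1 := mul_le_one₀ hx' hy0 hy'
  rw [div_eq_mul_one_div (2 : ℝ), mul_comm (2 : ℝ)]
  refine mul_le_mul_of_nonneg_left (by linarith) (by positivity)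

/-- exponential moment of the operator norm -/
theorem exp_om (hN : 0 < N) : ∫ z, Real.exp (N / 2 * ‖Tz N z‖) ∂(gI (Ix N)) ≤
    (25 * Real.exp 4) ^ N := by
  have hN' : (0 : ℝ) < N := by exact_mod_cast hN
  obtain ⟨s, hs1, hs2, hs3⟩ := exists_net (EuclideanSpace ℝ (Fin N))
  rw [finrank_euclideanSpace, Fintype.card_fin] at hs2
  set a : EuclideanSpace ℝ (Fin N) → EuclideanSpace ℝ (Fin N) → Ix N → ℝ := fun x y e =>
    2 * N * ((x e.1 * y e.2 + x e.2 * y e.1) / √(2 * (N : ℝ))) with ha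
  have hsum : ∀ (x y : EuclideanSpace ℝ (Fin N)) (z : Ix N → ℝ),
      2 * N * inner ℝ x (Tz N z y) = ∑ e, a x y e * z e := by
    intro x y z
    rw [inner_Tz, mul_sum]
    refine sum_congr rfl fun e _ => ?_
    rw [ha]
    ring
  have h1 : ∀ z : Ix N → ℝ, Real.exp (N / 2 * ‖Tz N z‖) ≤
      ∑ x ∈ s, ∑ y ∈ s, Real.exp (∑ e, a x y e * z e) := by
    intro z
    obtain ⟨x0, hx0, -⟩ := hs3 0 (by simp)
    have hne : (s ×ˢ s).Nonempty := ⟨(x0, x0), Finset.mem_product.2 ⟨hx0, hx0⟩⟩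
    obtain ⟨p, hp, hmax⟩ := Finset.exists_max_image (s ×ˢ s)
      (fun p : EuclideanSpace ℝ (Fin N) × EuclideanSpace ℝ (Fin N) => inner ℝ p.1 (Tz N z p.2)) hne
    have h2 : ‖Tz N z‖ ≤ 4 * inner ℝ p.1 (Tz N z p.2) :=
      opNorm_le_of_net hs3 _ fun x hx y hy => hmax (x, y) (Finset.mem_product.2 ⟨hx, hy⟩)
    obtain ⟨hp1, hp2⟩ := Finset.mem_product.1 hp
    calc Real.exp (N / 2 * ‖Tz N z‖) ≤ Real.exp (∑ e, a p.1 p.2 e * z e) := by
          rw [← hsum]
          refine Real.exp_le_exp.2 ?_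
          linarith only [mul_nonneg (le_of_lt (sub_pos.2 hN')) (sub_nonneg.2 h2)]
      _ ≤ ∑ y ∈ s, Real.exp (∑ e, a p.1 y e * z e) :=
          Finset.single_le_sum (f := fun y => Real.exp (∑ e, a p.1 y e * z e))
            (fun _ _ => (Real.exp_pos _).le) hp2
      _ ≤ _ := Finset.single_le_sum (f := fun x => ∑ y ∈ s, Real.exp (∑ e, a x y e * z e))
            (fun _ _ => sum_nonneg fun _ _ => (Real.exp_pos _).le) hp1
  have h3 : ∀ x ∈ s, ∀ y ∈ s, ∫ z, Real.exp (∑ e, a x y e * z e) ∂(gI (Ix N)) ≤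
      Real.exp 4 ^ N := by
    intro x hx y hy
    rw [(exp_lin_gI (a x y)).2, ← Real.exp_nat_mul]
    refine Real.exp_le_exp.2 ?_
    have h4 : ∑ e, a x y e ^ 2 = (2 * N) ^ 2 * ∑ e : Ix N,
        ((x e.1 * y e.2 + x e.2 * y e.1) / √(2 * (N : ℝ))) ^ 2 := by
      rw [mul_sum]
      refine sum_congr rfl fun e _ => ?_
      rw [ha]
      ring
    rw [h4]
    have h5 := mul_le_mul_of_nonneg_left (sum_coef_sq hN (hs1 x hx) (hs1 y hy))
      (by positivity : (0 : ℝ) ≤ (2 * N) ^ 2)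
    have h6 : (2 * (N : ℝ)) ^ 2 * (2 / N) = 8 * N := by field_simp; norm_num
    rw [h6] at h5
    linarith only [h5]
  have hint : ∀ x y, Integrable (fun z : Ix N → ℝ => Real.exp (∑ e, a x y e * z e))
      (gI (Ix N)) := fun x y => (exp_lin_gI (a x y)).1
  have hint2 : Integrable (fun z : Ix N → ℝ => ∑ x ∈ s, ∑ y ∈ s, Real.exp (∑ e, a x y e * z e))
      (gI (Ix N)) := integrable_finsetSum _ fun x _ => integrable_finsetSum _ fun y _ => hint x y
  have hm : Measurable fun z : Ix N → ℝ => Real.exp (N / 2 * ‖Tz N z‖) := by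
    have : (fun z : Ix N → ℝ => ‖Tz N z‖) = fun z => om N z - 1 := by
      funext z
      unfold om nm Tz
      simp
    have h7 : Measurable (fun z : Ix N → ℝ => ‖Tz N z‖) := by
      rw [this]
      exact lip_om.measurable.sub_const 1
    exact Continuous.measurable (by fun_prop)
  have hi : Integrable (fun z : Ix N → ℝ => Real.exp (N / 2 * ‖Tz N z‖)) (gI (Ix N)) := by
    refine hint2.mono' hm.aestronglyMeasurable (Filter.Eventually.of_forall fun z => ?_)
    rw [Real.norm_eq_abs, abs_of_pos (Real.exp_pos _)]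
    exact h1 z
  calc ∫ z, Real.exp (N / 2 * ‖Tz N z‖) ∂(gI (Ix N)) ≤
      ∫ z, ∑ x ∈ s, ∑ y ∈ s, Real.exp (∑ e, a x y e * z e) ∂(gI (Ix N)) :=
        integral_mono hi hint2 h1
    _ = ∑ x ∈ s, ∑ y ∈ s, ∫ z, Real.exp (∑ e, a x y e * z e) ∂(gI (Ix N)) := by
        rw [integral_finsetSum _ fun x _ => integrable_finsetSum _ fun y _ => hint x y]
        refine sum_congr rfl fun x _ => ?_
        rw [integral_finsetSum _ fun y _ => hint x y]
    _ ≤ ∑ x ∈ s, ∑ y ∈ s, Real.exp 4 ^ N := sum_le_sum fun x hx => sum_le_sum fun y hy => h3 x hx y hy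
    _ = (s.card : ℝ) * ((s.card : ℝ) * Real.exp 4 ^ N) := by
        simp only [sum_const, nsmul_eq_mul]
    _ ≤ (5 ^ N : ℝ) * ((5 ^ N : ℝ) * Real.exp 4 ^ N) := by
        have : (s.card : ℝ) ≤ 5 ^ N := by exact_mod_cast hs2
        gcongr
    _ = (25 * Real.exp 4) ^ N := by
        rw [mul_pow, show (25 : ℝ) = 5 * 5 by norm_num, mul_pow]
        ring

lemma om_eq (z : Ix N → ℝ) : om N z = 1 + ‖Tz N z‖ := rfl

lemma integrable_exp_om (c : ℝ) : Integrable (fun z => Real.exp (c * om N z)) (gI (Ix N)) :=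
  (lip_om.exp_eg c).integrable

/-- exponential moment of the operator norm, uniformly in the dimension -/
theorem exp_om_le (hN : 0 < N) : ∫ z, Real.exp (1 / 2 * om N z) ∂(gI (Ix N)) ≤
    Real.exp (1 / 2) * (2 * (25 * Real.exp 4)) := by
  set K : ℝ := 25 * Real.exp 4 with hK
  have hK0 : 0 < K := by positivity
  have h1 : ∀ z : Ix N → ℝ, Real.exp (1 / 2 * om N z) ≤
      Real.exp (1 / 2) * (K + K / K ^ N * Real.exp (N / 2 * ‖Tz N z‖)) := by
    intro z
    rw [om_eq, mul_add, mul_one, Real.exp_add]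
    refine mul_le_mul_of_nonneg_left ?_ (Real.exp_pos _).le
    set w := Real.exp (1 / 2 * ‖Tz N z‖) with hw
    have hw0 : 0 < w := Real.exp_pos _
    have h2 : Real.exp (N / 2 * ‖Tz N z‖) = w ^ N := by
      rw [hw, ← Real.exp_nat_mul]
      congr 1
      ring
    rw [h2]
    have h3 : w / K ≤ 1 + (w / K) ^ N := by
      rcases le_total (w / K) 1 with h | h
      · have : 0 ≤ (w / K) ^ N := by positivity
        linarith only [this, h]
      · have := le_self_pow₀ h hN.ne'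
        linarith
    have h4 : w = K * (w / K) := by field_simp
    have h5 : K + K / K ^ N * w ^ N = K * (1 + (w / K) ^ N) := by
      rw [div_pow]; ring
    rw [h5]
    calc w = K * (w / K) := h4
      _ ≤ _ := mul_le_mul_of_nonneg_left h3 hK0.le
  have hi : Integrable (fun z : Ix N → ℝ => Real.exp (N / 2 * ‖Tz N z‖)) (gI (Ix N)) := by
    have h2 : (fun z : Ix N → ℝ => Real.exp (N / 2 * ‖Tz N z‖)) =
        fun z => Real.exp (-(N / 2)) * Real.exp (N / 2 * om N z) := by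
      funext z
      rw [om_eq, ← Real.exp_add]
      congr 1
      ring
    rw [h2]
    exact (integrable_exp_om _).const_mul _
  calc ∫ z, Real.exp (1 / 2 * om N z) ∂(gI (Ix N)) ≤
      ∫ z, Real.exp (1 / 2) * (K + K / K ^ N * Real.exp (N / 2 * ‖Tz N z‖)) ∂(gI (Ix N)) :=
        integral_mono (integrable_exp_om _) (((integrable_const K).add
          (hi.const_mul (K / K ^ N))).const_mul _) h1
    _ = Real.exp (1 / 2) * (K + K / K ^ N * ∫ z, Real.exp (N / 2 * ‖Tz N z‖) ∂(gI (Ix N))) := by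
        rw [integral_const_mul, integral_add (integrable_const K) (hi.const_mul _), integral_const,
          integral_const_mul (K / K ^ N)]
        simp only [probReal_univ, one_smul]
    _ ≤ Real.exp (1 / 2) * (K + K / K ^ N * K ^ N) := by
        have := exp_om hN
        rw [← hK] at this
        gcongr
    _ = _ := by
        rw [div_mul_cancel₀ _ (by positivity)]
        ring

/-- moments of the operator norm, uniformly in the dimension -/
theorem moment_om (r : ℕ) : ∃ C : ℝ, 0 ≤ C ∧ ∀ N : ℕ, 0 < N →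
    ∫ z, om N z ^ r ∂(gI (Ix N)) ≤ C := by
  refine ⟨2 ^ r * r.factorial * (Real.exp (1 / 2) * (2 * (25 * Real.exp 4))), by positivity,
    fun N hN => ?_⟩
  have h1 : ∀ z : Ix N → ℝ, om N z ^ r ≤ 2 ^ r * r.factorial * Real.exp (1 / 2 * om N z) := by
    intro z
    have h2 := Real.pow_div_factorial_le_exp (1 / 2 * om N z)
      (by linarith [one_le_om z]) r
    rw [div_le_iff₀ (by positivity)] at h2
    have h3 : om N z ^ r = 2 ^ r * (1 / 2 * om N z) ^ r := by
      rw [← mul_pow]; congr 1; ring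
    rw [h3]
    calc 2 ^ r * (1 / 2 * om N z) ^ r ≤ 2 ^ r * (Real.exp (1 / 2 * om N z) * r.factorial) :=
          mul_le_mul_of_nonneg_left h2 (by positivity)
      _ = _ := by ring
  calc ∫ z, om N z ^ r ∂(gI (Ix N)) ≤
      ∫ z, 2 ^ r * r.factorial * Real.exp (1 / 2 * om N z) ∂(gI (Ix N)) :=
        integral_mono (eg_om.pow r).integrable ((integrable_exp_om _).const_mul _) h1
    _ = 2 ^ r * r.factorial * ∫ z, Real.exp (1 / 2 * om N z) ∂(gI (Ix N)) :=
        integral_const_mul _ _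
    _ ≤ _ := mul_le_mul_of_nonneg_left (exp_om_le hN) (by positivity)

end Vale.Agent.P146.Sk.Opn
end

section

/-!
# P146, lower bound for the SK model: Gaussian linear forms
-/

open MeasureTheory ProbabilityTheory
open Vale.Agent.P157.Lv (gI EG Lip)

namespace Vale.Agent.P146.Sk.Low

variable {K : Type} [Fintype K]

/-- A linear form. -/
def lf (a ξ : K → ℝ) : ℝ := ∑ k, a k * ξ k

lemma lf_lip (a : K → ℝ) : Lip (lf a) := Lip.sum _ fun k _ => (Lip.coord k).const_mul (a k)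

lemma lf_meas (a : K → ℝ) : Measurable (lf a) := (lf_lip a).measurable

lemma lf_integrable (a : K → ℝ) : Integrable (lf a) (gI K) := (lf_lip a).eg.integrable

lemma exp_lf_integrable (a : K → ℝ) : Integrable (fun ξ => Real.exp (lf a ξ)) (gI K) := by
  simpa using ((lf_lip a).exp_eg 1).integrable

lemma lf_smul (c : ℝ) (a ξ : K → ℝ) : lf (fun k => c * a k) ξ = c * lf a ξ := by
  unfold lf
  rw [Finset.mul_sum]
  exact Finset.sum_congr rfl fun k _ => by ring

lemma lf_add (a b ξ : K → ℝ) : lf (fun k => a k + b k) ξ = lf a ξ + lf b ξ := by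
  unfold lf
  rw [← Finset.sum_add_distrib]
  exact Finset.sum_congr rfl fun k _ => by ring

lemma lf_sub (a b ξ : K → ℝ) : lf (fun k => a k - b k) ξ = lf a ξ - lf b ξ := by
  unfold lf
  rw [← Finset.sum_sub_distrib]
  exact Finset.sum_congr rfl fun k _ => by ring

lemma lf_sum {X : Type*} [Fintype X] (w : X → ℝ) (U : X → K → ℝ) (ξ : K → ℝ) :
    lf (fun k => ∑ x, w x * U x k) ξ = ∑ x, w x * lf (U x) ξ := by
  unfold lf
  simp_rw [Finset.sum_mul, Finset.mul_sum]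
  rw [Finset.sum_comm]
  exact Finset.sum_congr rfl fun x _ => Finset.sum_congr rfl fun k _ => by ring

lemma int_exp_lf (a : K → ℝ) :
    ∫ ξ, Real.exp (lf a ξ) ∂(gI K) = Real.exp ((∑ k, a k ^ 2) / 2) := by
  unfold lf
  simp_rw [Real.exp_sum]
  rw [integral_fintype_prod_eq_prod (μ := fun _ : K => gaussianReal 0 1)
    (f := fun k (x : ℝ) => Real.exp (a k * x))]
  have e2 : ∀ t : ℝ, ∫ x : ℝ, Real.exp (t * x) ∂(gaussianReal 0 1) = Real.exp (t ^ 2 / 2) := by
    intro t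
    have h := mgf_id_gaussianReal (μ := 0) (v := 1)
    have h2 := congrFun h t
    simp only [mgf, id_eq] at h2
    rw [h2]
    congr 1
    simp
  simp_rw [e2]
  rw [← Real.exp_sum, Finset.sum_div]

lemma int_cos_lf [DecidableEq K] (a : K → ℝ) :
    ∫ ξ, Real.cos (lf a ξ) ∂(gI K) = Real.exp (-(∑ k, a k ^ 2) / 2) := by
  have h := Vale.Agent.P157.Par.char_lin (J := Unit) (fun _ => a) (fun _ => 1)
  simp only [Finset.univ_unique, Finset.sum_singleton, mul_one, one_mul] at h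
  have h1 : ∀ ξ, Vale.Agent.P157.Par.lin (fun _ : Unit => a) ξ default = lf a ξ := fun ξ => rfl
  have h2 : Vale.Agent.P157.Par.gram (fun _ : Unit => a) (fun _ : Unit => a) default default =
      ∑ k, a k ^ 2 := by
    unfold Vale.Agent.P157.Par.gram
    exact Finset.sum_congr rfl fun k _ => (sq _).symm
  simp only [h1, h2] at h
  have h3 := congrArg Complex.re h
  have hI : Integrable (fun ξ : K → ℝ => Complex.exp ((lf a ξ : ℂ) * Complex.I)) (gI K) := by
    refine Integrable.mono' (integrable_const (1 : ℝ)) ?_ (Filter.Eventually.of_forall fun z => ?_)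
    · exact (Complex.measurable_exp.comp
        ((Complex.measurable_ofReal.comp (lf_meas a)).mul_const _)).aestronglyMeasurable
    · rw [Complex.norm_exp_ofReal_mul_I]
  have h4 := integral_re hI
  simp only [RCLike.re_to_complex, Complex.exp_ofReal_mul_I_re] at h4
  have h5 : (Complex.exp (-((∑ k, a k ^ 2 : ℝ) : ℂ) / 2)).re = Real.exp (-(∑ k, a k ^ 2) / 2) := by
    rw [← Complex.ofReal_neg, ← Complex.ofReal_ofNat, ← Complex.ofReal_div, ← Complex.ofReal_exp,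
      Complex.ofReal_re]
  rw [h4, ← h5]
  exact h3

lemma int_lf (a : K → ℝ) : ∫ ξ, lf a ξ ∂(gI K) = 0 := by
  unfold lf
  rw [integral_finsetSum _ fun k _ => (EG.coord k).integrable.const_mul _]
  refine Finset.sum_eq_zero fun k _ => ?_
  rw [integral_const_mul]
  have : ∫ ξ : K → ℝ, ξ k ∂(gI K) = ∫ x, x ∂(gaussianReal 0 1) :=
    integral_comp_eval (μ := fun _ : K => gaussianReal 0 1) (i := k) (f := fun x : ℝ => x)
      (by fun_prop)
  rw [this, integral_id_gaussianReal, mul_zero]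

end Vale.Agent.P146.Sk.Low
end
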