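import Mathlib
import Vale.Agent.P166.F.AlgDefs
import Vale.Agent.P146.Bdl.B5
import Vale.Agent.P146.Bdl.B2

set_option linter.all false

section

/-! Task F-A1: eigenvalues of hierarchical matrices. -/

open Finset

namespace Vale.Agent.P166.F

variable {K : ℕ} {m : ℕ → ℝ}

theorem Expo.mono_chain (h : Expo K m) {i : ℕ} : ∀ j, i ≤ j → j ≤ K + 1 → m i ≤ m j := by
  intro j hij
  induction j, hij using Nat.le_induction with
  | base => intro _; exact le_rfl
  | succ j hij ih =>
    intro hj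
    exact (ih (by omega)).trans (h.mono j (by omega))

theorem Expo.pos' (h : Expo K m) {l : ℕ} (hl : 1 ≤ l) (hl' : l ≤ K + 1) : 0 < m l :=
  lt_of_lt_of_le h.pos (h.mono_chain l hl hl')

theorem Expo.le_one (h : Expo K m) {l : ℕ} (hl : l ≤ K + 1) : m l ≤ 1 := by
  rw [← h.mK]
  exact h.mono_chain (K + 1) hl le_rfl

theorem Expo.p_nonneg (h : Expo K m) {l : ℕ} (hl : l ≤ K) : 0 ≤ m (l + 1) - m l :=
  sub_nonneg.2 (h.mono l hl)

/-- downward induction on the levels -/
theorem alg1_down_ind {K : ℕ} {Q : ℕ → Prop} (h0 : Q K) (hs : ∀ l < K, Q (l + 1) → Q l) :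
    ∀ l ≤ K, Q l := by
  have key : ∀ i, i ≤ K → Q (K - i) := by
    intro i
    induction i with
    | zero => intro _; simpa using h0
    | succ i ih =>
      intro hi
      apply hs (K - (i + 1)) (by omega)
      have e : K - (i + 1) + 1 = K - i := by omega
      rw [e]
      exact ih (by omega)
  intro l hl
  have e : K - (K - l) = l := by omega
  have := key (K - l) (by omega)
  rwa [e] at this

/-- `λ_l - λ_{l+1} = m_{l+1} (e_{l+1} - e_l)`. -/
theorem Hm.ev_sub (h : Expo K m) (M : Hm) {l : ℕ} (hl : l < K) :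
    Hm.ev K m M l - Hm.ev K m M (l + 1) = m (l + 1) * (M.e (l + 1) - M.e l) := by
  unfold Hm.ev
  rw [Finset.sum_eq_sum_Ico_succ_bot (show l + 1 < K + 1 by omega)]
  ring

theorem Hm.ev_K (h : Expo K m) (M : Hm) : Hm.ev K m M K = M.d - M.e K := by
  unfold Hm.ev
  rw [h.mK, Finset.Ico_self, Finset.sum_empty]
  ring

theorem Hm.sum_split (M N : Hm) (s : Finset ℕ) (c c' : ℝ) :
    ∑ j ∈ s, (m (j + 1) - m j) * (M.e j * c + c' * N.e j) =
      (∑ j ∈ s, (m (j + 1) - m j) * M.e j) * c + c' * ∑ j ∈ s, (m (j + 1) - m j) * N.e j := by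
  rw [Finset.sum_mul, Finset.mul_sum, ← Finset.sum_add_distrib]
  refine Finset.sum_congr rfl fun j _ => ?_
  ring

theorem Hm.mul_e_sub (M N : Hm) {l : ℕ} (hl : l < K) :
    (Hm.mul K m M N).e (l + 1) - (Hm.mul K m M N).e l =
      Hm.ev K m M l * (N.e (l + 1) - N.e l) + Hm.ev K m N (l + 1) * (M.e (l + 1) - M.e l) := by
  simp only [Hm.mul, Hm.ev]
  rw [Hm.sum_split M N, Hm.sum_split M N, Finset.sum_range_succ,
    Finset.sum_eq_sum_Ico_succ_bot (show l + 1 < K + 1 by omega) (fun j => (m (j + 1) - m j) * M.e j),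
    Finset.sum_eq_sum_Ico_succ_bot (show l + 1 < K + 1 by omega) (fun j => (m (j + 1) - m j) * N.e j)]
  ring

/-- The eigenvalues are multiplicative. -/
theorem Hm.ev_mul (h : Expo K m) (M N : Hm) {l : ℕ} (hl : l ≤ K) :
    Hm.ev K m (Hm.mul K m M N) l = Hm.ev K m M l * Hm.ev K m N l := by
  revert l
  apply alg1_down_ind
  · rw [Hm.ev_K h, Hm.ev_K h, Hm.ev_K h]
    simp only [Hm.mul]
    rw [Finset.sum_range_succ, Finset.Ico_self, Finset.sum_empty, h.mK]
    ring
  · intro l hl ih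
    have h1 := Hm.ev_sub h (Hm.mul K m M N) hl
    have h2 := Hm.ev_sub h M hl
    have h3 := Hm.ev_sub h N hl
    rw [Hm.mul_e_sub M N hl, ih] at h1
    linear_combination h1 - Hm.ev K m M l * h3 - Hm.ev K m N (l + 1) * h2

theorem Hm.mul_zero_level (h : Expo K m) (M N : Hm) :
    (Hm.mul K m M N).e 0 = Hm.ev K m M 0 * N.e 0 + M.e 0 * Hm.ev K m N 0 := by
  simp only [Hm.mul, Hm.ev]
  rw [Hm.sum_split M N, Finset.range_zero, Finset.sum_empty, h.m0]
  ring

theorem Hm.ev_ofEv (h : Expo K m) (f : ℕ → ℝ) {l : ℕ} (hl : l ≤ K) :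
    Hm.ev K m (Hm.ofEv K m f) l = f l := by
  revert l
  apply alg1_down_ind
  · rw [Hm.ev_K h]
    simp only [Hm.ofEv]
    ring
  · intro l hl ih
    have h1 := Hm.ev_sub h (Hm.ofEv K m f) hl
    rw [ih] at h1
    simp only [Hm.ofEv, Finset.sum_range_succ] at h1 ⊢
    have hm : m (l + 1) ≠ 0 := (h.pos' (by omega) (by omega)).ne'
    have h2 : m (l + 1) * (∑ x ∈ range l, (f x - f (x + 1)) / m (x + 1) + (f l - f (l + 1)) /
        m (l + 1) - ∑ x ∈ range l, (f x - f (x + 1)) / m (x + 1)) = f l - f (l + 1) := by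
      rw [add_sub_cancel_left]
      field_simp
    rw [h2] at h1
    linarith

/-- A matrix with vanishing entry of level zero is determined by its eigenvalues. -/
theorem Hm.eq_ofEv (h : Expo K m) (M : Hm) (h0 : M.e 0 = 0) :
    M.d = (Hm.ofEv K m (Hm.ev K m M)).d ∧
      ∀ l ≤ K, M.e l = (Hm.ofEv K m (Hm.ev K m M)).e l := by
  have key : ∀ l ≤ K, M.e l = (Hm.ofEv K m (Hm.ev K m M)).e l := by
    intro l
    induction l with
    | zero => intro _; simp [Hm.ofEv, h0]
    | succ l ih =>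
      intro hl
      have h1 := Hm.ev_sub h M (show l < K by omega)
      have hm : m (l + 1) ≠ 0 := (h.pos' (by omega) (by omega)).ne'
      have h2 := ih (by omega)
      simp only [Hm.ofEv, Finset.sum_range_succ] at h2 ⊢
      rw [← h2, h1, mul_div_cancel_left₀ _ hm]
      ring
  refine ⟨?_, key⟩
  have h1 := Hm.ev_K h M
  have h2 := key K le_rfl
  simp only [Hm.ofEv] at h2 ⊢
  rw [← h2, h1]
  ring

theorem Hm.ext_ev (h : Expo K m) (M N : Hm) (hM : M.e 0 = 0) (hN : N.e 0 = 0)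
    (hev : ∀ l ≤ K, Hm.ev K m M l = Hm.ev K m N l) : M.d = N.d ∧ ∀ l ≤ K, M.e l = N.e l := by
  have h1 := Hm.eq_ofEv h M hM
  have h2 := Hm.eq_ofEv h N hN
  have h3 : ∀ l ≤ K, ∑ i ∈ range l, (Hm.ev K m M i - Hm.ev K m M (i + 1)) / m (i + 1) =
      ∑ i ∈ range l, (Hm.ev K m N i - Hm.ev K m N (i + 1)) / m (i + 1) := by
    intro l hl
    refine Finset.sum_congr rfl fun i hi => ?_
    have hi' := Finset.mem_range.1 hi
    rw [hev i (by omega), hev (i + 1) (by omega)]
  constructor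
  · rw [h1.1, h2.1]
    simp only [Hm.ofEv]
    rw [h3 K le_rfl, hev K le_rfl]
  · intro l hl
    rw [h1.2 l hl, h2.2 l hl]
    simp only [Hm.ofEv]
    exact h3 l hl

theorem Hm.abs_mul_d_le (h : Expo K m) (M N : Hm) {C : ℝ} (hd : |M.d| ≤ C)
    (he : ∀ l ≤ K, |M.e l| ≤ C) :
    |(Hm.mul K m M N).d| ≤ C * |N.d| + C * ∑ j ∈ range (K + 1), (m (j + 1) - m j) * |N.e j| := by
  simp only [Hm.mul]
  refine (abs_sub _ _).trans (add_le_add ?_ ?_)
  · rw [abs_mul]
    exact mul_le_mul_of_nonneg_right hd (abs_nonneg _)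
  · rw [Finset.mul_sum]
    refine (Finset.abs_sum_le_sum_abs _ _).trans (Finset.sum_le_sum fun j hj => ?_)
    have hj' := Finset.mem_range.1 hj
    have hp := h.p_nonneg (show j ≤ K by omega)
    rw [abs_mul, abs_mul, abs_of_nonneg hp]
    calc (m (j + 1) - m j) * (|M.e j| * |N.e j|) ≤ (m (j + 1) - m j) * (C * |N.e j|) :=
          mul_le_mul_of_nonneg_left
            (mul_le_mul_of_nonneg_right (he j (by omega)) (abs_nonneg _)) hp
      _ = C * ((m (j + 1) - m j) * |N.e j|) := by ring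

theorem Hm.abs_mul_e_le (h : Expo K m) (M N : Hm) {C : ℝ} (hd : |M.d| ≤ C)
    (he : ∀ l ≤ K, |M.e l| ≤ C) {l : ℕ} (hl : l ≤ K) :
    |(Hm.mul K m M N).e l| ≤ C * |N.d| + 2 * C * |N.e l| +
      C * ∑ j ∈ range (K + 1), (m (j + 1) - m j) * |N.e j| := by
  have hC : 0 ≤ C := (abs_nonneg _).trans hd
  have hp := h.p_nonneg hl
  have h1 : |M.d * N.e l| ≤ C * |N.e l| := by
    rw [abs_mul]
    exact mul_le_mul_of_nonneg_right hd (abs_nonneg _)
  have h2 : |M.e l * N.d| ≤ C * |N.d| := by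
    rw [abs_mul]
    exact mul_le_mul_of_nonneg_right (he l hl) (abs_nonneg _)
  have h3 : |(2 * m (l + 1) - m l) * (M.e l * N.e l)| ≤
      (2 * m (l + 1) - m l) * (C * |N.e l|) := by
    have h0 : 0 ≤ m (l + 1) := (h.pos' (by omega) (by omega)).le
    have h4 : 0 ≤ 2 * m (l + 1) - m l := by linarith
    rw [abs_mul, abs_mul, abs_of_nonneg h4]
    exact mul_le_mul_of_nonneg_left (mul_le_mul_of_nonneg_right (he l hl) (abs_nonneg _)) h4
  have h4 : |∑ j ∈ Ico (l + 1) (K + 1), (m (j + 1) - m j) * (M.e j * N.e l + M.e l * N.e j)| ≤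
      (1 - m (l + 1)) * (C * |N.e l|) +
        C * ∑ j ∈ Ico (l + 1) (K + 1), (m (j + 1) - m j) * |N.e j| := by
    have e1 : ∑ j ∈ Ico (l + 1) (K + 1), (m (j + 1) - m j) = 1 - m (l + 1) := by
      rw [Finset.sum_Ico_sub m (show l + 1 ≤ K + 1 by omega), h.mK]
    rw [← e1, Finset.sum_mul, Finset.mul_sum, ← Finset.sum_add_distrib]
    refine (Finset.abs_sum_le_sum_abs _ _).trans (Finset.sum_le_sum fun j hj => ?_)
    have hj' := Finset.mem_Ico.1 hj
    have hpj := h.p_nonneg (show j ≤ K by omega)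
    rw [abs_mul, abs_of_nonneg hpj]
    have h5 : |M.e j * N.e l + M.e l * N.e j| ≤ C * |N.e l| + C * |N.e j| := by
      refine (abs_add_le _ _).trans (add_le_add ?_ ?_)
      · rw [abs_mul]
        exact mul_le_mul_of_nonneg_right (he j (by omega)) (abs_nonneg _)
      · rw [abs_mul]
        exact mul_le_mul_of_nonneg_right (he l hl) (abs_nonneg _)
    calc (m (j + 1) - m j) * |M.e j * N.e l + M.e l * N.e j| ≤
          (m (j + 1) - m j) * (C * |N.e l| + C * |N.e j|) := mul_le_mul_of_nonneg_left h5 hpj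
      _ = (m (j + 1) - m j) * (C * |N.e l|) + C * ((m (j + 1) - m j) * |N.e j|) := by ring
  have h5 : |∑ j ∈ range l, (m (j + 1) - m j) * (M.e j * N.e j)| ≤
      C * ∑ j ∈ range l, (m (j + 1) - m j) * |N.e j| := by
    rw [Finset.mul_sum]
    refine (Finset.abs_sum_le_sum_abs _ _).trans (Finset.sum_le_sum fun j hj => ?_)
    have hj' := Finset.mem_range.1 hj
    have hpj := h.p_nonneg (show j ≤ K by omega)
    rw [abs_mul, abs_mul, abs_of_nonneg hpj]
    calc (m (j + 1) - m j) * (|M.e j| * |N.e j|) ≤ (m (j + 1) - m j) * (C * |N.e j|) :=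
          mul_le_mul_of_nonneg_left
            (mul_le_mul_of_nonneg_right (he j (by omega)) (abs_nonneg _)) hpj
      _ = C * ((m (j + 1) - m j) * |N.e j|) := by ring
  have h6 : ∑ j ∈ range (K + 1), (m (j + 1) - m j) * |N.e j| =
      ∑ j ∈ range l, (m (j + 1) - m j) * |N.e j| + ((m (l + 1) - m l) * |N.e l| +
        ∑ j ∈ Ico (l + 1) (K + 1), (m (j + 1) - m j) * |N.e j|) := by
    rw [← Finset.sum_range_add_sum_Ico (fun j => (m (j + 1) - m j) * |N.e j|)
      (show l ≤ K + 1 by omega), Finset.sum_eq_sum_Ico_succ_bot (show l < K + 1 by omega)]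
  have h7 : |(Hm.mul K m M N).e l| ≤ |M.d * N.e l| + |M.e l * N.d| +
      |(2 * m (l + 1) - m l) * (M.e l * N.e l)| +
      |∑ j ∈ Ico (l + 1) (K + 1), (m (j + 1) - m j) * (M.e j * N.e l + M.e l * N.e j)| +
      |∑ j ∈ range l, (m (j + 1) - m j) * (M.e j * N.e j)| := by
    simp only [Hm.mul]
    refine (abs_sub _ _).trans (add_le_add ?_ le_rfl)
    refine (abs_sub _ _).trans (add_le_add ?_ le_rfl)
    refine (abs_sub _ _).trans (add_le_add ?_ le_rfl)
    exact abs_add_le _ _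
  refine h7.trans ?_
  rw [h6]
  have h8 : C * |N.e l| + C * |N.d| + (2 * m (l + 1) - m l) * (C * |N.e l|) +
      ((1 - m (l + 1)) * (C * |N.e l|) +
        C * ∑ j ∈ Ico (l + 1) (K + 1), (m (j + 1) - m j) * |N.e j|) +
      C * ∑ j ∈ range l, (m (j + 1) - m j) * |N.e j| =
      C * |N.d| + 2 * C * |N.e l| +
      C * (∑ j ∈ range l, (m (j + 1) - m j) * |N.e j| + ((m (l + 1) - m l) * |N.e l| +
        ∑ j ∈ Ico (l + 1) (K + 1), (m (j + 1) - m j) * |N.e j|)) := by
    ring
  rw [← h8]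
  linarith

/-- `‖M N‖ ≤ 5 C ‖N‖` if the entries of `M` are at most `C`. -/
theorem Hm.nrm_mul_le (h : Expo K m) (M N : Hm) {C : ℝ} (hd : |M.d| ≤ C)
    (he : ∀ l ≤ K, |M.e l| ≤ C) : Hm.nrm K m (Hm.mul K m M N) ≤ 5 * C * Hm.nrm K m N := by
  have hC : 0 ≤ C := (abs_nonneg _).trans hd
  have h1 := Hm.abs_mul_d_le h M N hd he
  obtain ⟨S, hS⟩ : ∃ S, S = ∑ j ∈ range (K + 1), (m (j + 1) - m j) * |N.e j| := ⟨_, rfl⟩
  have hS0 : 0 ≤ S := by
    rw [hS]
    refine Finset.sum_nonneg fun j hj => ?_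
    have hj' := Finset.mem_range.1 hj
    exact mul_nonneg (h.p_nonneg (by omega)) (abs_nonneg _)
  have h2 : ∑ l ∈ range (K + 1), (m (l + 1) - m l) * |(Hm.mul K m M N).e l| ≤
      C * |N.d| + 2 * C * S + C * S := by
    have e1 : ∑ l ∈ range (K + 1), (m (l + 1) - m l) = 1 := by
      rw [Finset.sum_range_sub m, h.mK, h.m0, sub_zero]
    have e2 : C * |N.d| + 2 * C * S + C * S =
        ∑ l ∈ range (K + 1), (m (l + 1) - m l) * (C * |N.d| + 2 * C * |N.e l| + C * S) := by
      have e3 : ∀ l ∈ range (K + 1), (m (l + 1) - m l) * (C * |N.d| + 2 * C * |N.e l| + C * S) =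
          (m (l + 1) - m l) * (C * |N.d| + C * S) + 2 * C * ((m (l + 1) - m l) * |N.e l|) := by
        intro l _
        ring
      rw [Finset.sum_congr rfl e3, Finset.sum_add_distrib, ← Finset.sum_mul, ← Finset.mul_sum, e1,
        ← hS]
      ring
    rw [e2]
    refine Finset.sum_le_sum fun l hl => ?_
    have hl' := Finset.mem_range.1 hl
    have h3 := Hm.abs_mul_e_le h M N hd he (show l ≤ K by omega)
    rw [← hS] at h3
    exact mul_le_mul_of_nonneg_left h3 (h.p_nonneg (by omega))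
  rw [← hS] at h1
  unfold Hm.nrm
  rw [← hS]
  have h4 : 0 ≤ C * |N.d| := mul_nonneg hC (abs_nonneg _)
  have h5 : 0 ≤ C * S := mul_nonneg hC hS0
  have h6 : 5 * C * (|N.d| + S) = 5 * (C * |N.d|) + 5 * (C * S) := by ring
  rw [h6]
  linarith

theorem Hm.abs_ev_le (h : Expo K m) (M : Hm) {C : ℝ} (hd : |M.d| ≤ C)
    (he : ∀ l ≤ K, |M.e l| ≤ C) {l : ℕ} (hl : l ≤ K) : |Hm.ev K m M l| ≤ 2 * C := by
  have hC : 0 ≤ C := (abs_nonneg _).trans hd
  have h0 : 0 ≤ m (l + 1) := (h.pos' (by omega) (by omega)).le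
  have h1 : |m (l + 1) * M.e l| ≤ m (l + 1) * C := by
    rw [abs_mul, abs_of_nonneg h0]
    exact mul_le_mul_of_nonneg_left (he l hl) h0
  have h2 : |∑ j ∈ Ico (l + 1) (K + 1), (m (j + 1) - m j) * M.e j| ≤ (1 - m (l + 1)) * C := by
    have e1 : ∑ j ∈ Ico (l + 1) (K + 1), (m (j + 1) - m j) = 1 - m (l + 1) := by
      rw [Finset.sum_Ico_sub m (show l + 1 ≤ K + 1 by omega), h.mK]
    rw [← e1, Finset.sum_mul]
    refine (Finset.abs_sum_le_sum_abs _ _).trans (Finset.sum_le_sum fun j hj => ?_)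
    have hj' := Finset.mem_Ico.1 hj
    have hpj := h.p_nonneg (show j ≤ K by omega)
    rw [abs_mul, abs_of_nonneg hpj]
    exact mul_le_mul_of_nonneg_left (he j (by omega)) hpj
  unfold Hm.ev
  have h3 := abs_sub (M.d - m (l + 1) * M.e l) (∑ j ∈ Ico (l + 1) (K + 1), (m (j + 1) - m j) * M.e j)
  have h4 := abs_sub M.d (m (l + 1) * M.e l)
  linarith

theorem Hm.ev_lin {B : Type} [Fintype B] (a : B → ℝ) (R : B → Hm) (l : ℕ) :
    Hm.ev K m (Hm.lin a R) l = ∑ b, a b * Hm.ev K m (R b) l := by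
  simp only [Hm.ev, Hm.lin]
  have e1 : ∑ j ∈ Ico (l + 1) (K + 1), (m (j + 1) - m j) * ∑ b, a b * (R b).e j =
      ∑ b, a b * ∑ j ∈ Ico (l + 1) (K + 1), (m (j + 1) - m j) * (R b).e j := by
    simp only [Finset.mul_sum]
    rw [Finset.sum_comm]
    refine Finset.sum_congr rfl fun b _ => Finset.sum_congr rfl fun j _ => ?_
    ring
  rw [e1, Finset.mul_sum, ← Finset.sum_sub_distrib, ← Finset.sum_sub_distrib]
  refine Finset.sum_congr rfl fun b _ => ?_
  ring

end Vale.Agent.P166.F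
end

section

/-! Task F-S: traces as integrals and the Schur inequality. -/

open Finset MeasureTheory

namespace Vale.Agent.P166.F

/-- `Λ_q(s) = 1 - s - ∑ p_l (q_l - s)^+` (the integral from `s` to `1` of the distribution
function of the path). -/
noncomputable def Lam (K : ℕ) (m q : ℕ → ℝ) (s : ℝ) : ℝ :=
  1 - s - ∑ l ∈ range (K + 1), (m (l + 1) - m l) * max (q l - s) 0

/-- An overlap path. -/
structure OPath (K : ℕ) (q : ℕ → ℝ) : Prop where
  nonneg : 0 ≤ q 0
  mono : ∀ l < K, q l ≤ q (l + 1)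
  le : q K ≤ 1

theorem fs_mpos {K : ℕ} {m : ℕ → ℝ} (hm : Expo K m) : ∀ l ≤ K, 0 < m (l + 1) := by
  intro l
  induction l with
  | zero => intro _; exact hm.pos
  | succ l ih => intro hl; exact (ih (by omega)).trans_le (hm.mono (l + 1) hl)

theorem fs_mono {K : ℕ} {q : ℕ → ℝ} (hq : OPath K q) : ∀ i j, i ≤ j → j ≤ K → q i ≤ q j := by
  intro i j hij
  induction j, hij using Nat.le_induction with
  | base => intro _; exact le_rfl
  | succ j _ ih => intro hj; exact (ih (by omega)).trans (hq.mono j (by omega))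

theorem fs_nonneg {K : ℕ} {q : ℕ → ℝ} (hq : OPath K q) {l : ℕ} (hl : l ≤ K) : 0 ≤ q l :=
  hq.nonneg.trans (fs_mono hq 0 l (Nat.zero_le _) hl)

theorem fs_le_one {K : ℕ} {q : ℕ → ℝ} (hq : OPath K q) {l : ℕ} (hl : l ≤ K) : q l ≤ 1 :=
  (fs_mono hq l K hl le_rfl).trans hq.le

theorem fs_tele (m : ℕ → ℝ) {a b : ℕ} (h : a ≤ b) :
    ∑ l ∈ Ico a b, (m (l + 1) - m l) = m b - m a := by
  rw [Finset.sum_Ico_eq_sub _ h, Finset.sum_range_sub, Finset.sum_range_sub]
  ring

/-- one piece of the integral -/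
theorem fs_piece {f f' : ℝ → ℝ} (hf : ContinuousOn f (Set.Icc 0 1))
    (hd : ∀ x ∈ Set.Ioo (0 : ℝ) 1, HasDerivAt f (f' x) x)
    (hi : IntegrableOn f' (Set.Ioo 0 1)) {a b X c : ℝ} (hab : a ≤ b) (hc : 0 < c) (hX : X ≤ 1)
    (hX' : 0 ≤ X - c * (b - a)) :
    IntervalIntegrable (fun s => f' (X - c * (s - a))) volume a b ∧
    ∫ s in a..b, f' (X - c * (s - a)) = (f X - f (X - c * (b - a))) / c := by
  have hle : X - c * (b - a) ≤ X := by nlinarith only [hab, hc]
  have hII : IntervalIntegrable f' volume (X - c * (b - a)) X := by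
    rw [intervalIntegrable_iff_integrableOn_Ioo_of_le hle]
    exact hi.mono_set (Set.Ioo_subset_Ioo hX' hX)
  have hfun : (fun s => f' (X - c * (s - a))) = fun s => f' ((X + c * a) - c * s) := by
    funext s; congr 1; ring
  constructor
  · rw [hfun]
    have h1 := hII.comp_sub_left (X + c * a)
    have h2 := h1.comp_mul_left (c := c)
    have e1 : (X + c * a - (X - c * (b - a))) / c = b := by field_simp; ring
    have e2 : (X + c * a - X) / c = a := by field_simp; ring
    rw [e1, e2] at h2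
    exact h2.symm
  · rw [hfun, intervalIntegral.integral_comp_sub_mul f' hc.ne' (X + c * a)]
    have e1 : X + c * a - c * b = X - c * (b - a) := by ring
    have e2 : X + c * a - c * a = X := by ring
    rw [e1, e2, intervalIntegral.integral_eq_sub_of_hasDerivAt_of_le hle
      (hf.mono (Set.Icc_subset_Icc hX' hX))
      (fun x hx => hd x ⟨hX'.trans_lt hx.1, hx.2.trans_le hX⟩) hII]
    rw [smul_eq_mul]
    (clear * - hc; field_simp)

/-- the affine pieces of `Λ` -/
theorem fs_affine {K : ℕ} {m q : ℕ → ℝ} (hm : Expo K m) (hq : OPath K q) {l : ℕ} (hl : l ≤ K)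
    {s : ℝ} (h1 : q l ≤ s) (h2 : ∀ j, l < j → j ≤ K → s ≤ q j) :
    Lam K m q s = eq' K m q l - m (l + 1) * (s - q l) := by
  have e1 : ∑ j ∈ range (K + 1), (m (j + 1) - m j) * max (q j - s) 0
      = ∑ j ∈ Ico (l + 1) (K + 1), (m (j + 1) - m j) * (q j - s) := by
    rw [Finset.range_eq_Ico, ← Finset.sum_Ico_consecutive _ (Nat.zero_le (l + 1)) (by omega)]
    have z : ∑ j ∈ Ico 0 (l + 1), (m (j + 1) - m j) * max (q j - s) 0 = 0 := by
      refine Finset.sum_eq_zero fun j hj => ?_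
      rw [Finset.mem_Ico] at hj
      rw [max_eq_right, mul_zero]
      have := fs_mono hq j l (by omega) hl
      linarith only [h1, this]
    rw [z, zero_add]
    refine Finset.sum_congr rfl fun j hj => ?_
    rw [Finset.mem_Ico] at hj
    rw [max_eq_left]
    have := h2 j (by omega) (by omega)
    linarith only [this]
  have e2 : ∑ j ∈ Ico (l + 1) (K + 1), (m (j + 1) - m j) * (q j - s)
      = ∑ j ∈ Ico (l + 1) (K + 1), (m (j + 1) - m j) * q j - (1 - m (l + 1)) * s := by
    have : (1 - m (l + 1)) = ∑ j ∈ Ico (l + 1) (K + 1), (m (j + 1) - m j) := by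
      rw [fs_tele m (by omega), hm.mK]
    rw [this, Finset.sum_mul, ← Finset.sum_sub_distrib]
    exact Finset.sum_congr rfl fun j _ => by ring
  unfold Lam eq'
  rw [e1, e2]
  ring

/-- Traces as integrals. -/
theorem trf_eq_integral {K : ℕ} {m q : ℕ → ℝ} (hm : Expo K m) (hq : OPath K q) (h0 : q 0 = 0)
    {f f' : ℝ → ℝ} (hf : ContinuousOn f (Set.Icc 0 1)) (hf0 : f 0 = 0)
    (hd : ∀ x ∈ Set.Ioo (0 : ℝ) 1, HasDerivAt f (f' x) x)
    (hi : IntegrableOn f' (Set.Ioo 0 1)) :
    IntervalIntegrable (fun s => f' (Lam K m q s)) volume 0 1 ∧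
    trf K m f (eq' K m q) = ∫ s in (0 : ℝ)..1, f' (Lam K m q s) := by
  let Q : ℕ → ℝ := fun l => if l ≤ K then q l else 1
  let X : ℕ → ℝ := fun l => if l ≤ K then eq' K m q l else 0
  have Qle : ∀ l ≤ K, Q l = q l := fun l hl => by simp only [Q, if_pos hl]
  have QK : Q (K + 1) = 1 := by simp only [add_le_iff_nonpos_right, nonpos_iff_eq_zero, one_ne_zero, ↓reduceIte, Q]
  have Xle : ∀ l ≤ K, X l = eq' K m q l := fun l hl => by simp only [X, if_pos hl]
  have XK : X (K + 1) = 0 := by simp only [add_le_iff_nonpos_right, nonpos_iff_eq_zero, one_ne_zero, ↓reduceIte, X]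
  have hQm : ∀ l ≤ K, Q l ≤ Q (l + 1) := by
    intro l hl
    rw [Qle l hl]
    rcases Nat.lt_or_eq_of_le hl with h | h
    · rw [Qle (l + 1) (by omega)]; exact hq.mono l h
    · rw [h, QK]; exact hq.le
  have hstep : ∀ l ≤ K, X l - X (l + 1) = m (l + 1) * (Q (l + 1) - Q l) := by
    intro l hl
    rw [Qle l hl, Xle l hl]
    rcases Nat.lt_or_eq_of_le hl with h | h
    · rw [Qle (l + 1) (by omega), Xle (l + 1) (by omega)]
      unfold eq'
      rw [Finset.sum_eq_sum_Ico_succ_bot (show l + 1 < K + 1 by omega)]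
      ring
    · rw [h, QK, XK]
      unfold eq'
      rw [Finset.Ico_self, Finset.sum_empty, hm.mK]
      ring
  have hXanti : ∀ l ≤ K, X (l + 1) ≤ X l := by
    intro l hl
    have h1 := hstep l hl
    have h2 := mul_nonneg (fs_mpos hm l hl).le (sub_nonneg.2 (hQm l hl))
    linarith only [h1, h2]
  have hX0 : X 0 ≤ 1 := by
    rw [Xle 0 (Nat.zero_le _)]
    unfold eq'
    have h1 : 0 ≤ ∑ j ∈ Ico (0 + 1) (K + 1), (m (j + 1) - m j) * q j := by
      refine Finset.sum_nonneg fun j hj => ?_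
      rw [Finset.mem_Ico] at hj
      exact mul_nonneg (sub_nonneg.2 (hm.mono j (by omega))) (fs_nonneg hq (by omega))
    rw [h0]
    linarith only [h1]
  have hXle1 : ∀ l ≤ K + 1, X l ≤ 1 := by
    intro l
    induction l with
    | zero => intro _; exact hX0
    | succ l ih => intro hl; exact (hXanti l (by omega)).trans (ih (by omega))
  have hXnn : ∀ k ≤ K + 1, 0 ≤ X (K + 1 - k) := by
    intro k
    induction k with
    | zero => intro _; simp [XK]
    | succ k ih =>
      intro hk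
      have h1 := ih (by omega)
      have h2 := hXanti (K + 1 - (k + 1)) (by (clear * - hk; omega))
      have h3 : K + 1 - (k + 1) + 1 = K + 1 - k := by (clear * - hk; omega)
      rw [h3] at h2
      exact h1.trans h2
  have hXnn' : ∀ l ≤ K + 1, 0 ≤ X l := by
    intro l hl
    have := hXnn (K + 1 - l) (by omega)
    rwa [show K + 1 - (K + 1 - l) = l by omega] at this
  have hXn : ∀ l ≤ K, X l - m (l + 1) * (Q (l + 1) - Q l) = X (l + 1) := fun l hl => by
    linarith only [hstep l hl]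
  have hLam : ∀ l ≤ K, ∀ s, Q l ≤ s → s ≤ Q (l + 1) →
      Lam K m q s = X l - m (l + 1) * (s - Q l) := by
    intro l hl s hs1 hs2
    rw [Xle l hl, Qle l hl]
    rw [Qle l hl] at hs1
    refine fs_affine hm hq hl hs1 fun j hj1 hj2 => ?_
    rw [Qle (l + 1) (by omega)] at hs2
    exact hs2.trans (fs_mono hq (l + 1) j hj1 hj2)
  have piece : ∀ l < K + 1,
      IntervalIntegrable (fun s => f' (Lam K m q s)) volume (Q l) (Q (l + 1)) ∧
      ∫ s in (Q l)..(Q (l + 1)), f' (Lam K m q s) = (f (X l) - f (X (l + 1))) / m (l + 1) := by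
    intro l hl
    have hl' : l ≤ K := by omega
    obtain ⟨p1, p2⟩ := fs_piece hf hd hi (hQm l hl') (fs_mpos hm l hl') (hXle1 l (by omega))
      (by rw [hXn l hl']; exact hXnn' _ (by omega))
    have hcong : Set.EqOn (fun s => f' (X l - m (l + 1) * (s - Q l)))
        (fun s => f' (Lam K m q s)) (Set.uIcc (Q l) (Q (l + 1))) := by
      intro s hs
      rw [Set.uIcc_of_le (hQm l hl')] at hs
      show f' _ = f' _
      rw [hLam l hl' s hs.1 hs.2]
    refine ⟨p1.congr (hcong.mono Set.uIoc_subset_uIcc), ?_⟩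
    rw [← intervalIntegral.integral_congr hcong, p2, hXn l hl']
  have hQ0 : Q 0 = 0 := by rw [Qle 0 (Nat.zero_le _), h0]
  have hint := IntervalIntegrable.trans_iterate (a := Q) (n := K + 1) (fun k hk => (piece k hk).1)
  have hsum := intervalIntegral.sum_integral_adjacent_intervals (a := Q) (n := K + 1)
    (fun k hk => (piece k hk).1)
  rw [hQ0, QK] at hint hsum
  refine ⟨hint, ?_⟩
  rw [← hsum, Finset.sum_congr rfl (fun k hk => (piece k (Finset.mem_range.1 hk)).2),
    Finset.sum_range_succ]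
  unfold trf
  rw [XK, hf0, hm.mK, Xle K le_rfl, sub_zero, div_one, add_comm]
  congr 1
  refine Finset.sum_congr rfl fun i hi' => ?_
  rw [Finset.mem_range] at hi'
  rw [Xle i (by omega), Xle (i + 1) (by omega)]

theorem Lam_mono {K : ℕ} {m q r : ℕ → ℝ} (hm : Expo K m) (hq : OPath K q) (hr : OPath K r)
    (h : ∀ j ≤ K, 0 ≤ ∑ l ∈ Ico j (K + 1), (m (l + 1) - m l) * (r l - q l)) (s : ℝ) :
    Lam K m r s ≤ Lam K m q s := by
  unfold Lam
  suffices H : ∑ l ∈ range (K + 1), (m (l + 1) - m l) * max (q l - s) 0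
      ≤ ∑ l ∈ range (K + 1), (m (l + 1) - m l) * max (r l - s) 0 by linarith
  have hp : ∀ l ∈ range (K + 1), 0 ≤ m (l + 1) - m l := fun l hl => by
    rw [Finset.mem_range] at hl
    exact sub_nonneg.2 (hm.mono l (by omega))
  by_cases hex : ∃ j, j ≤ K ∧ s < q j
  · classical
    let j := Nat.find hex
    have hj : j ≤ K ∧ s < q j := Nat.find_spec hex
    have hlt : ∀ i < j, q i ≤ s := by
      intro i hi
      by_contra hc
      exact Nat.find_min hex hi ⟨by omega, not_le.1 hc⟩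
    have e1 : ∑ l ∈ range (K + 1), (m (l + 1) - m l) * max (q l - s) 0
        = ∑ l ∈ Ico j (K + 1), (m (l + 1) - m l) * (q l - s) := by
      rw [Finset.range_eq_Ico, ← Finset.sum_Ico_consecutive _ (Nat.zero_le j) (by omega)]
      have z : ∑ l ∈ Ico 0 j, (m (l + 1) - m l) * max (q l - s) 0 = 0 := by
        refine Finset.sum_eq_zero fun i hi => ?_
        rw [Finset.mem_Ico] at hi
        rw [max_eq_right, mul_zero]
        linarith only [hlt i hi.2]
      rw [z, zero_add]
      refine Finset.sum_congr rfl fun i hi => ?_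
      rw [Finset.mem_Ico] at hi
      rw [max_eq_left]
      have := fs_mono hq j i hi.1 (by omega)
      linarith only [hj, this]
    have e2 : ∑ l ∈ Ico j (K + 1), (m (l + 1) - m l) * (q l - s)
        ≤ ∑ l ∈ Ico j (K + 1), (m (l + 1) - m l) * (r l - s) := by
      have h1 := h j hj.1
      have h2 : ∑ l ∈ Ico j (K + 1), (m (l + 1) - m l) * (r l - q l)
          = ∑ l ∈ Ico j (K + 1), (m (l + 1) - m l) * (r l - s)
            - ∑ l ∈ Ico j (K + 1), (m (l + 1) - m l) * (q l - s) := by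
        rw [← Finset.sum_sub_distrib]
        exact Finset.sum_congr rfl fun i _ => by ring
      linarith only [h1, h2]
    have e3 : ∑ l ∈ Ico j (K + 1), (m (l + 1) - m l) * (r l - s)
        ≤ ∑ l ∈ Ico j (K + 1), (m (l + 1) - m l) * max (r l - s) 0 := by
      refine Finset.sum_le_sum fun i hi => ?_
      rw [Finset.mem_Ico] at hi
      exact mul_le_mul_of_nonneg_left (le_max_left _ _) (hp i (Finset.mem_range.2 hi.2))
    have e4 : ∑ l ∈ Ico j (K + 1), (m (l + 1) - m l) * max (r l - s) 0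
        ≤ ∑ l ∈ range (K + 1), (m (l + 1) - m l) * max (r l - s) 0 := by
      refine Finset.sum_le_sum_of_subset_of_nonneg ?_ ?_
      · intro i hi
        rw [Finset.mem_Ico] at hi
        exact Finset.mem_range.2 hi.2
      · intro i hi _
        exact mul_nonneg (hp i hi) (le_max_right _ _)
    rw [e1]
    exact e2.trans (e3.trans e4)
  · have z : ∑ l ∈ range (K + 1), (m (l + 1) - m l) * max (q l - s) 0 = 0 := by
      refine Finset.sum_eq_zero fun i hi => ?_
      rw [Finset.mem_range] at hi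
      have : q i ≤ s := by
        by_contra hc
        exact hex ⟨i, by omega, not_le.1 hc⟩
      rw [max_eq_right (by linarith only [this]), mul_zero]
    rw [z]
    exact Finset.sum_nonneg fun i hi => mul_nonneg (hp i hi) (le_max_right _ _)

theorem Lam_mem {K : ℕ} {m q : ℕ → ℝ} (hm : Expo K m) (hq : OPath K q) (h0 : q 0 = 0) {s : ℝ}
    (hs : s ∈ Set.Ioo (0 : ℝ) 1) : Lam K m q s ∈ Set.Ioo (0 : ℝ) 1 := by
  have hp : ∀ l ∈ range (K + 1), 0 ≤ m (l + 1) - m l := fun l hl => by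
    rw [Finset.mem_range] at hl
    exact sub_nonneg.2 (hm.mono l (by omega))
  have hnn : 0 ≤ ∑ l ∈ range (K + 1), (m (l + 1) - m l) * max (q l - s) 0 :=
    Finset.sum_nonneg fun i hi => mul_nonneg (hp i hi) (le_max_right _ _)
  have hle : ∑ l ∈ range (K + 1), (m (l + 1) - m l) * max (q l - s) 0
      ≤ (1 - m 1) * (1 - s) := by
    rw [Finset.range_eq_Ico, Finset.sum_eq_sum_Ico_succ_bot (Nat.succ_pos K), h0,
      max_eq_right (by linarith only [hs.1]), mul_zero, zero_add]
    have h1 : (1 - m 1) = ∑ j ∈ Ico (0 + 1) (K + 1), (m (j + 1) - m j) := by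
      rw [fs_tele m (by omega), hm.mK]
    rw [h1, Finset.sum_mul]
    refine Finset.sum_le_sum fun i hi => ?_
    rw [Finset.mem_Ico] at hi
    refine mul_le_mul_of_nonneg_left ?_ (hp i (Finset.mem_range.2 hi.2))
    refine max_le ?_ (by linarith only [hs.2])
    linarith only [fs_le_one hq (show i ≤ K by omega)]
  unfold Lam
  constructor
  · have := mul_pos hm.pos (sub_pos.2 hs.2)
    linarith
  · linarith only [hnn, hs.1]

/-- **Schur inequality**: if `∑_{l ≥ j} p_l (r_l - q_l) ≥ 0` for all `j` and `f'` is monotone, then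
`tr f(r) ≤ tr f(q)`. -/
theorem schur {K : ℕ} {m q r : ℕ → ℝ} (hm : Expo K m) (hq : OPath K q) (hr : OPath K r)
    (hq0 : q 0 = 0) (hr0 : r 0 = 0)
    (h : ∀ j ≤ K, 0 ≤ ∑ l ∈ Ico j (K + 1), (m (l + 1) - m l) * (r l - q l))
    {f f' : ℝ → ℝ} (hf : ContinuousOn f (Set.Icc 0 1)) (hf0 : f 0 = 0)
    (hd : ∀ x ∈ Set.Ioo (0 : ℝ) 1, HasDerivAt f (f' x) x)
    (hmono : MonotoneOn f' (Set.Ioo 0 1)) (hb : ∃ C, ∀ x ∈ Set.Ioo (0 : ℝ) 1, |f' x| ≤ C) :
    trf K m f (eq' K m r) ≤ trf K m f (eq' K m q) := by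
  obtain ⟨C, hC⟩ := hb
  have hmeas : AEMeasurable f' (volume.restrict (Set.Ioo (0 : ℝ) 1)) :=
    aemeasurable_restrict_of_monotoneOn measurableSet_Ioo hmono
  have hi : IntegrableOn f' (Set.Ioo (0 : ℝ) 1) := by
    have hfin : IsFiniteMeasure (volume.restrict (Set.Ioo (0 : ℝ) 1)) :=
      ⟨by rw [Measure.restrict_apply_univ]; simp only [Real.volume_Ioo, sub_zero, ENNReal.ofReal_one, ENNReal.one_lt_top]⟩
    refine Integrable.of_bound hmeas.aestronglyMeasurable C ?_
    refine (ae_restrict_iff' measurableSet_Ioo).2 (Filter.Eventually.of_forall fun x hx => ?_)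
    rw [Real.norm_eq_abs]; exact hC x hx
  obtain ⟨i1, e1⟩ := trf_eq_integral hm hq hq0 hf hf0 hd hi
  obtain ⟨i2, e2⟩ := trf_eq_integral hm hr hr0 hf hf0 hd hi
  rw [e1, e2]
  refine intervalIntegral.integral_mono_on_of_le_Ioo zero_le_one i2 i1 fun s hs => ?_
  exact hmono (Lam_mem hm hr hr0 hs) (Lam_mem hm hq hq0 hs) (Lam_mono hm hq hr h s)

end Vale.Agent.P166.F
end

section

/-!
HIER: hierarchical algebra (finite sums, no probability).
-/

open Filter Topology

namespace Vale.Agent.P146.Sk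

open Vale.Agent.P157.Par (Exponents Path)

variable {K : ℕ} {m : ℕ → ℝ}

/-! ### Preliminaries -/

theorem hr_expo (h : Exponents K m) : Vale.Agent.P166.F.Expo K m := by
  obtain ⟨h0, h1, h2⟩ := h
  refine ⟨h0, h1, fun l hl => (h2 l hl).le, ?_⟩
  have := h2 0 (Nat.zero_le _)
  simpa [h0] using this

theorem hr_opath {q : ℕ → ℝ} (hq : Path K q) (hq1 : q K ≤ 1) : Vale.Agent.P166.F.OPath K q :=
  ⟨hq.1, hq.2, hq1⟩

/-- The same matrix in the notation of P166. -/
noncomputable def hr_toHm (T : ℝ × (ℕ → ℝ)) : Vale.Agent.P166.F.Hm := ⟨T.1, T.2⟩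

theorem hr_hm_fst (R T : ℝ × (ℕ → ℝ)) :
    (Vale.Agent.P166.F.Hm.mul K m (hr_toHm R) (hr_toHm T)).d = (hm K m R T).1 := rfl

theorem hr_hm_snd (R T : ℝ × (ℕ → ℝ)) {l : ℕ} (hl : l ≤ K) :
    (Vale.Agent.P166.F.Hm.mul K m (hr_toHm R) (hr_toHm T)).e l = (hm K m R T).2 l := by
  simp only [Vale.Agent.P166.F.Hm.mul, hr_toHm, hm]
  rw [Finset.sum_eq_sum_Ico_succ_bot (show l < K + 1 by omega)]
  have e1 : ∑ j ∈ Finset.Ico (l + 1) (K + 1), (m (j + 1) - m j) * (R.2 j * T.2 l + R.2 l * T.2 j)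
      = (∑ j ∈ Finset.Ico (l + 1) (K + 1), (m (j + 1) - m j) * R.2 j) * T.2 l +
        R.2 l * ∑ j ∈ Finset.Ico (l + 1) (K + 1), (m (j + 1) - m j) * T.2 j := by
    rw [Finset.sum_mul, Finset.mul_sum, ← Finset.sum_add_distrib]
    exact Finset.sum_congr rfl fun j _ => by ring
  rw [e1]
  ring

theorem hr_hN_eq (T : ℝ × (ℕ → ℝ)) : hN K m T = Vale.Agent.P166.F.Hm.nrm K m (hr_toHm T) := rfl

theorem hr_hN_congr {S T : ℝ × (ℕ → ℝ)} (h1 : S.1 = T.1) (h2 : ∀ l ≤ K, S.2 l = T.2 l) :
    hN K m S = hN K m T := by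
  unfold hN
  rw [h1]
  congr 1
  refine Finset.sum_congr rfl fun i hi => ?_
  rw [h2 i (by have := Finset.mem_range.1 hi; omega)]

theorem hN_nonneg (hm' : Exponents K m) (T : ℝ × (ℕ → ℝ)) : 0 ≤ hN K m T := by
  unfold hN
  refine add_nonneg (abs_nonneg _) (Finset.sum_nonneg fun i hi => ?_)
  exact mul_nonneg ((hr_expo hm').p_nonneg (by have := Finset.mem_range.1 hi; omega)) (abs_nonneg _)

/-- Boundedness of the multiplication. -/
theorem hN_hm_le (hm' : Exponents K m) {R T : ℝ × (ℕ → ℝ)} (h1 : |R.1| ≤ 1)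
    (hR : ∀ l ≤ K, |R.2 l| ≤ 1) : hN K m (hm K m R T) ≤ 6 * hN K m T := by
  have h := Vale.Agent.P166.F.Hm.nrm_mul_le (hr_expo hm') (hr_toHm R) (hr_toHm T) (C := 1) h1 hR
  have e1 : hN K m (hm K m R T) =
      Vale.Agent.P166.F.Hm.nrm K m (Vale.Agent.P166.F.Hm.mul K m (hr_toHm R) (hr_toHm T)) := by
    unfold hN Vale.Agent.P166.F.Hm.nrm
    rw [hr_hm_fst]
    congr 1
    refine Finset.sum_congr rfl fun i hi => ?_
    rw [hr_hm_snd R T (show i ≤ K by have := Finset.mem_range.1 hi; omega)]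
  have h0 := hN_nonneg hm' T
  rw [e1]
  refine h.trans ?_
  rw [← hr_hN_eq]
  linarith

theorem hr_hN_add_le (hm' : Exponents K m) (S T : ℝ × (ℕ → ℝ)) :
    hN K m (S + T) ≤ hN K m S + hN K m T := by
  unfold hN
  have h1 : |(S + T).1| ≤ |S.1| + |T.1| := abs_add_le _ _
  have h2 : ∑ i ∈ Finset.range (K + 1), (m (i + 1) - m i) * |(S + T).2 i| ≤
      ∑ i ∈ Finset.range (K + 1), (m (i + 1) - m i) * |S.2 i| +
        ∑ i ∈ Finset.range (K + 1), (m (i + 1) - m i) * |T.2 i| := by
    rw [← Finset.sum_add_distrib]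
    refine Finset.sum_le_sum fun i hi => ?_
    rw [← mul_add]
    exact mul_le_mul_of_nonneg_left (abs_add_le _ _)
      ((hr_expo hm').p_nonneg (by have := Finset.mem_range.1 hi; omega))
  linarith

theorem hr_hN_smul {c : ℝ} (hc : 0 ≤ c) (T : ℝ × (ℕ → ℝ)) : hN K m (c • T) = c * hN K m T := by
  unfold hN
  simp only [Prod.smul_fst, Prod.smul_snd, Pi.smul_apply, smul_eq_mul, abs_mul, abs_of_nonneg hc]
  rw [mul_add, Finset.mul_sum]
  congr 1
  exact Finset.sum_congr rfl fun i _ => by ring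

theorem hr_hm_sub_smul (R S T : ℝ × (ℕ → ℝ)) (c : ℝ) :
    hm K m R (S - c • T) = hm K m R S - c • hm K m R T := by
  have s1 : ∀ s : Finset ℕ, ∑ i ∈ s, (m (i + 1) - m i) * (S.2 i - c * T.2 i) =
      ∑ i ∈ s, (m (i + 1) - m i) * S.2 i - c * ∑ i ∈ s, (m (i + 1) - m i) * T.2 i := by
    intro s
    rw [Finset.mul_sum, ← Finset.sum_sub_distrib]
    exact Finset.sum_congr rfl fun i _ => by ring
  have s2 : ∀ s : Finset ℕ, ∑ i ∈ s, (m (i + 1) - m i) * (R.2 i * (S.2 i - c * T.2 i)) =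
      ∑ i ∈ s, (m (i + 1) - m i) * (R.2 i * S.2 i) -
        c * ∑ i ∈ s, (m (i + 1) - m i) * (R.2 i * T.2 i) := by
    intro s
    rw [Finset.mul_sum, ← Finset.sum_sub_distrib]
    exact Finset.sum_congr rfl fun i _ => by ring
  refine Prod.ext ?_ ?_
  · simp only [hm, Prod.fst_sub, Prod.snd_sub, Prod.smul_fst, Prod.smul_snd, Pi.sub_apply,
      Pi.smul_apply, smul_eq_mul]
    rw [s2]
    ring
  · funext l
    simp only [hm, Prod.fst_sub, Prod.snd_sub, Prod.smul_fst, Prod.smul_snd, Pi.sub_apply,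
      Pi.smul_apply, smul_eq_mul]
    rw [s1, s2]
    ring

theorem hr_hpow_one (R : ℝ × (ℕ → ℝ)) : hpow K m R 1 = (R.1, fun l => R.2 l) := by
  refine Prod.ext ?_ ?_
  · simp [hpow, hm]
  · funext l
    simp [hpow, hm]

/-- Stability of the powers: if `T_{p+1} ≈ c R T_p` and `T_0 = R` then `T_n ≈ c^n R^{n+1}`. -/
theorem hpow_stable (hm' : Exponents K m) {R : ℕ → ℝ} (hR : ∀ l ≤ K, |R l| ≤ 1)
    {T : ℕ → ℝ × (ℕ → ℝ)} (h0 : (T 0).1 = 1) (h0' : ∀ l ≤ K, (T 0).2 l = R l) {c e : ℝ}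
    (hc : 0 ≤ c) {n : ℕ}
    (h : ∀ p < n, hN K m (T (p + 1) - c • hm K m (1, R) (T p)) ≤ e) :
    |(T n).1 - c ^ n * trp K m R (n + 1)| ≤ e * ∑ j ∈ Finset.range n, (6 * c) ^ j := by
  have key : ∀ p ≤ n, hN K m (T p - c ^ p • hpow K m (1, R) (p + 1)) ≤
      e * ∑ j ∈ Finset.range p, (6 * c) ^ j := by
    intro p
    induction p with
    | zero =>
      intro _
      have e1 : hN K m (T 0 - c ^ 0 • hpow K m (1, R) (0 + 1)) = hN K m (0, fun _ => 0) := by
        refine hr_hN_congr ?_ ?_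
        · simp [hr_hpow_one, h0]
        · intro l hl
          simp [hr_hpow_one, h0' l hl]
      rw [e1]
      simp [hN]
    | succ p ih =>
      intro hp
      have ih' := ih (by omega)
      have hp' := h p (by omega)
      have e1 : T (p + 1) - c ^ (p + 1) • hpow K m (1, R) (p + 1 + 1) =
          (T (p + 1) - c • hm K m (1, R) (T p)) +
            c • hm K m (1, R) (T p - c ^ p • hpow K m (1, R) (p + 1)) := by
        rw [hr_hm_sub_smul]
        have e2 : hpow K m (1, R) (p + 1 + 1) = hm K m (1, R) (hpow K m (1, R) (p + 1)) := rfl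
        rw [e2, smul_sub, smul_smul, pow_succ']
        abel
      rw [e1]
      refine (hr_hN_add_le hm' _ _).trans ?_
      rw [hr_hN_smul hc]
      have h3 := hN_hm_le hm' (R := (1, R)) (T := T p - c ^ p • hpow K m (1, R) (p + 1))
        (by simp) hR
      have h4 : c * hN K m (hm K m (1, R) (T p - c ^ p • hpow K m (1, R) (p + 1))) ≤
          c * (6 * (e * ∑ j ∈ Finset.range p, (6 * c) ^ j)) :=
        mul_le_mul_of_nonneg_left (h3.trans (by linarith)) hc
      have h5 : e * ∑ j ∈ Finset.range (p + 1), (6 * c) ^ j =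
          e + c * (6 * (e * ∑ j ∈ Finset.range p, (6 * c) ^ j)) := by
        rw [Finset.sum_range_succ']
        have : ∑ k ∈ Finset.range p, (6 * c) ^ (k + 1) =
            6 * c * ∑ k ∈ Finset.range p, (6 * c) ^ k := by
          rw [Finset.mul_sum]
          exact Finset.sum_congr rfl fun i _ => by ring
        rw [this]
        ring
      rw [h5]
      linarith
  refine le_trans ?_ (key n le_rfl)
  have h6 : (T n - c ^ n • hpow K m (1, R) (n + 1)).1 = (T n).1 - c ^ n * trp K m R (n + 1) := rfl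
  rw [← h6]
  unfold hN
  have h7 : 0 ≤ ∑ i ∈ Finset.range (K + 1), (m (i + 1) - m i) *
      |(T n - c ^ n • hpow K m (1, R) (n + 1)).2 i| := by
    refine Finset.sum_nonneg fun i hi => ?_
    exact mul_nonneg ((hr_expo hm').p_nonneg (by have := Finset.mem_range.1 hi; omega)) (abs_nonneg _)
  linarith

theorem trp_zero (q : ℕ → ℝ) : trp K m q 0 = 1 := rfl

theorem trp_one (q : ℕ → ℝ) : trp K m q 1 = 1 := by
  unfold trp
  rw [hr_hpow_one]

theorem trp_two (q : ℕ → ℝ) :
    trp K m q 2 = 1 - ∑ i ∈ Finset.range (K + 1), (m (i + 1) - m i) * q i ^ 2 := by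
  have e1 : trp K m q 2 = (hm K m (1, q) (hpow K m (1, q) 1)).1 := rfl
  rw [e1, hr_hpow_one]
  simp only [hm]
  rw [mul_one]
  congr 1
  exact Finset.sum_congr rfl fun i _ => by ring

/-- The eigenvalues. -/
noncomputable def lam (K : ℕ) (m q : ℕ → ℝ) (l : ℕ) : ℝ :=
  1 - m (l + 1) * q l - ∑ i ∈ Finset.Ico (l + 1) (K + 1), (m (i + 1) - m i) * q i

theorem hr_ev_congr {M N : Vale.Agent.P166.F.Hm} (h1 : M.d = N.d) (h2 : ∀ l ≤ K, M.e l = N.e l)
    {l : ℕ} (hl : l ≤ K) :
    Vale.Agent.P166.F.Hm.ev K m M l = Vale.Agent.P166.F.Hm.ev K m N l := by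
  unfold Vale.Agent.P166.F.Hm.ev
  rw [h1, h2 l hl]
  congr 1
  refine Finset.sum_congr rfl fun i hi => ?_
  rw [h2 i (by have := Finset.mem_Ico.1 hi; omega)]

theorem hr_ev_hm (hm' : Exponents K m) (R T : ℝ × (ℕ → ℝ)) {l : ℕ} (hl : l ≤ K) :
    Vale.Agent.P166.F.Hm.ev K m (hr_toHm (hm K m R T)) l =
      Vale.Agent.P166.F.Hm.ev K m (hr_toHm R) l * Vale.Agent.P166.F.Hm.ev K m (hr_toHm T) l := by
  rw [← Vale.Agent.P166.F.Hm.ev_mul (hr_expo hm') _ _ hl]
  exact hr_ev_congr (hr_hm_fst R T).symm (fun l hl => (hr_hm_snd R T hl).symm) hl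

theorem hr_ev_hpow (hm' : Exponents K m) (q : ℕ → ℝ) {l : ℕ} (hl : l ≤ K) (k : ℕ) :
    Vale.Agent.P166.F.Hm.ev K m (hr_toHm (hpow K m (1, q) k)) l = lam K m q l ^ k := by
  induction k with
  | zero => simp [hpow, hr_toHm, Vale.Agent.P166.F.Hm.ev]
  | succ k ih =>
    have e1 : hpow K m (1, q) (k + 1) = hm K m (1, q) (hpow K m (1, q) k) := rfl
    rw [e1, hr_ev_hm hm' _ _ hl, ih, pow_succ']
    rfl

theorem hr_hpow_zero_level (hm' : Exponents K m) (q : ℕ → ℝ) (k : ℕ) :
    (hpow K m (1, q) k).2 0 = k * q 0 * lam K m q 0 ^ (k - 1) := by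
  induction k with
  | zero => simp [hpow]
  | succ k ih =>
    have e1 : hpow K m (1, q) (k + 1) = hm K m (1, q) (hpow K m (1, q) k) := rfl
    have e2 := Vale.Agent.P166.F.Hm.mul_zero_level (hr_expo hm') (hr_toHm (1, q))
      (hr_toHm (hpow K m (1, q) k))
    rw [e1, ← hr_hm_snd _ _ (Nat.zero_le K), e2, hr_ev_hpow hm' q (Nat.zero_le K) k]
    have e3 : Vale.Agent.P166.F.Hm.ev K m (hr_toHm (1, q)) 0 = lam K m q 0 := rfl
    have e4 : (hr_toHm (hpow K m (1, q) k)).e 0 = (hpow K m (1, q) k).2 0 := rfl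
    have e5 : (hr_toHm (1, q)).e 0 = q 0 := rfl
    rw [e3, e4, e5, ih]
    rcases Nat.eq_zero_or_pos k with hk | hk
    · subst hk; simp
    · obtain ⟨j, rfl⟩ : ∃ j, k = j + 1 := ⟨k - 1, by omega⟩
      simp only [Nat.add_sub_cancel, Nat.cast_add, Nat.cast_one]
      ring

/-- The spectral formula for the powers. -/
theorem trp_eq (hm' : Exponents K m) (q : ℕ → ℝ) (k : ℕ) :
    trp K m q k = lam K m q K ^ k +
      ∑ l ∈ Finset.Ico 1 (K + 1), (lam K m q (l - 1) ^ k - lam K m q l ^ k) / m l +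
      k * q 0 * lam K m q 0 ^ (k - 1) := by
  have h := hr_expo hm'
  have h1 := Vale.Agent.P166.F.Hm.ev_K h (hr_toHm (hpow K m (1, q) k))
  rw [hr_ev_hpow hm' q le_rfl] at h1
  have h2 : (hr_toHm (hpow K m (1, q) k)).d = trp K m q k := rfl
  have h3 : ∀ j ≤ K, (hpow K m (1, q) k).2 j = (hpow K m (1, q) k).2 0 +
      ∑ l ∈ Finset.Ico 1 (j + 1), (lam K m q (l - 1) ^ k - lam K m q l ^ k) / m l := by
    intro j
    induction j with
    | zero => intro _; simp
    | succ j ih =>
      intro hj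
      have h4 := Vale.Agent.P166.F.Hm.ev_sub h (hr_toHm (hpow K m (1, q) k)) (show j < K by omega)
      rw [hr_ev_hpow hm' q (by omega), hr_ev_hpow hm' q (by omega)] at h4
      have h5 : m (j + 1) ≠ 0 := (h.pos' (by omega) (by omega)).ne'
      rw [Finset.sum_Ico_succ_top (by omega : 1 ≤ j + 1), ← add_assoc, ← ih (by omega)]
      have h6 : (hr_toHm (hpow K m (1, q) k)).e = (hpow K m (1, q) k).2 := rfl
      rw [h6] at h4
      rw [Nat.add_sub_cancel, h4, mul_div_cancel_left₀ _ h5]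
      ring
  have h6 : (hr_toHm (hpow K m (1, q) k)).e = (hpow K m (1, q) k).2 := rfl
  rw [h2, h6, h3 K le_rfl, hr_hpow_zero_level hm'] at h1
  linarith

theorem hr_chi_eq (hm' : Exponents K m) (q : ℕ → ℝ) : chi K m q = lam K m q 0 := by
  unfold chi lam
  rw [Finset.range_eq_Ico, Finset.sum_eq_sum_Ico_succ_bot (Nat.succ_pos K), hm'.1]
  ring

theorem hr_lam_K (hm' : Exponents K m) (q : ℕ → ℝ) : lam K m q K = 1 - q K := by
  unfold lam
  rw [Finset.Ico_self, Finset.sum_empty, hm'.2.1]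
  ring

theorem hr_lam_sub (q : ℕ → ℝ) {l : ℕ} (hl : l < K) :
    lam K m q l - lam K m q (l + 1) = m (l + 1) * (q (l + 1) - q l) := by
  unfold lam
  rw [Finset.sum_eq_sum_Ico_succ_bot (show l + 1 < K + 1 by omega)]
  ring

theorem hr_lam_succ_le (hm' : Exponents K m) {q : ℕ → ℝ} (hq : Path K q) {l : ℕ} (hl : l < K) :
    lam K m q (l + 1) ≤ lam K m q l := by
  have h1 := hr_lam_sub (m := m) q hl
  have h2 := mul_nonneg ((hr_expo hm').pos' (show 1 ≤ l + 1 by omega) (by omega)).le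
    (sub_nonneg.2 (hq.2 l hl))
  linarith

theorem hr_lam_nonneg (hm' : Exponents K m) {q : ℕ → ℝ} (hq : Path K q) (hq1 : q K ≤ 1) :
    ∀ l ≤ K, 0 ≤ lam K m q l := by
  refine Vale.Agent.P166.F.alg1_down_ind ?_ ?_
  · rw [hr_lam_K hm']; linarith
  · intro l hl h
    exact h.trans (hr_lam_succ_le hm' hq hl)

theorem chi_mem (hm' : Exponents K m) {q : ℕ → ℝ} (hq : Path K q) (hq1 : q K ≤ 1) :
    0 ≤ chi K m q ∧ chi K m q ≤ 1 := by
  constructor
  · rw [hr_chi_eq hm']
    exact hr_lam_nonneg hm' hq hq1 0 (Nat.zero_le _)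
  · unfold chi
    have h1 : 0 ≤ ∑ i ∈ Finset.range (K + 1), (m (i + 1) - m i) * q i := by
      refine Finset.sum_nonneg fun i hi => ?_
      have hi' := Finset.mem_range.1 hi
      exact mul_nonneg ((hr_expo hm').p_nonneg (by omega))
        (Vale.Agent.P166.F.fs_nonneg (hr_opath hq hq1) (by omega))
    linarith

/-- The lower bound by the eigenvalue of the level zero. -/
theorem chi_pow_le (hm' : Exponents K m) {q : ℕ → ℝ} (hq : Path K q) (hq1 : q K ≤ 1) (k : ℕ) :
    chi K m q ^ k ≤ trp K m q k := by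
  rw [hr_chi_eq hm', trp_eq hm']
  have h0 := hr_lam_nonneg hm' hq hq1
  have h1 : 0 ≤ (k : ℝ) * q 0 * lam K m q 0 ^ (k - 1) :=
    mul_nonneg (mul_nonneg (Nat.cast_nonneg _) hq.1) (pow_nonneg (h0 0 (Nat.zero_le _)) _)
  have h2 : ∑ l ∈ Finset.Ico 1 (K + 1), (lam K m q (l - 1) ^ k - lam K m q l ^ k) ≤
      ∑ l ∈ Finset.Ico 1 (K + 1), (lam K m q (l - 1) ^ k - lam K m q l ^ k) / m l := by
    refine Finset.sum_le_sum fun l hl => ?_
    have hl' := Finset.mem_Ico.1 hl
    have h3 : 0 < m l := (hr_expo hm').pos' hl'.1 (by omega)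
    have h4 : m l ≤ 1 := (hr_expo hm').le_one (by omega)
    rw [le_div_iff₀ h3]
    have h5 : 0 ≤ lam K m q (l - 1) ^ k - lam K m q l ^ k := by
      have h6 := hr_lam_succ_le hm' hq (show l - 1 < K by omega)
      rw [show l - 1 + 1 = l by omega] at h6
      exact sub_nonneg.2 (pow_le_pow_left₀ (h0 l (by omega)) h6 k)
    (by_contra nlg; linarith only [nlg, mul_nonneg (sub_nonneg.2 h4) (sub_nonneg.2 h5), mul_nonneg (le_of_lt (sub_pos.2 (not_le.1 nlg))) (sub_nonneg.2 h4), mul_pos (sub_pos.2 (not_le.1 nlg)) (sub_pos.2 h3)])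
  have h3 : ∀ j ≤ K, ∑ l ∈ Finset.Ico 1 (j + 1), (lam K m q (l - 1) ^ k - lam K m q l ^ k) =
      lam K m q 0 ^ k - lam K m q j ^ k := by
    intro j
    induction j with
    | zero => intro _; simp
    | succ j ih =>
      intro hj
      rw [Finset.sum_Ico_succ_top (by omega : 1 ≤ j + 1), ih (by omega), Nat.add_sub_cancel]
      ring
  have h4 := h3 K le_rfl
  linarith

theorem trp_nonneg (hm' : Exponents K m) {q : ℕ → ℝ} (hq : Path K q) (hq1 : q K ≤ 1) (k : ℕ) :
    0 ≤ trp K m q k :=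
  (pow_nonneg (chi_mem hm' hq hq1).1 k).trans (chi_pow_le hm' hq hq1 k)

/-! ### The integral representation -/

open Vale.Agent.P166.F (Lam)

theorem hr_Lam_continuous (q : ℕ → ℝ) : Continuous (Lam K m q) := by
  unfold Lam
  fun_prop

theorem hr_Lam_low (hm' : Exponents K m) {q : ℕ → ℝ} (hq : Path K q) (hq1 : q K ≤ 1) {s : ℝ}
    (hs : s ≤ q 0) : Lam K m q s = lam K m q 0 := by
  rw [← hr_chi_eq hm']
  unfold Lam chi
  have h1 : ∑ l ∈ Finset.range (K + 1), (m (l + 1) - m l) * max (q l - s) 0 =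
      ∑ i ∈ Finset.range (K + 1), (m (i + 1) - m i) * q i - s := by
    have h2 : ∑ l ∈ Finset.range (K + 1), (m (l + 1) - m l) = 1 := by
      rw [Finset.sum_range_sub m, hm'.2.1, hm'.1, sub_zero]
    have h3 : s = ∑ l ∈ Finset.range (K + 1), (m (l + 1) - m l) * s := by
      rw [← Finset.sum_mul, h2, one_mul]
    conv_rhs => rw [h3]
    rw [← Finset.sum_sub_distrib]
    refine Finset.sum_congr rfl fun i hi => ?_
    have hi' := Finset.mem_range.1 hi
    have h4 := Vale.Agent.P166.F.fs_mono (hr_opath hq hq1) 0 i (Nat.zero_le _) (by omega)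
    rw [max_eq_left (by linarith)]
    ring
  rw [h1]
  ring

theorem hr_Lam_nonneg (hm' : Exponents K m) {q : ℕ → ℝ} (hq : Path K q) (hq1 : q K ≤ 1) {s : ℝ}
    (hs : s ≤ 1) : 0 ≤ Lam K m q s := by
  unfold Lam
  have h1 : ∑ l ∈ Finset.range (K + 1), (m (l + 1) - m l) * max (q l - s) 0 ≤
      ∑ l ∈ Finset.range (K + 1), (m (l + 1) - m l) * (1 - s) := by
    refine Finset.sum_le_sum fun i hi => ?_
    have hi' := Finset.mem_range.1 hi
    refine mul_le_mul_of_nonneg_left ?_ ((hr_expo hm').p_nonneg (by omega))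
    have := Vale.Agent.P166.F.fs_le_one (hr_opath hq hq1) (show i ≤ K by omega)
    exact max_le (by linarith) (by linarith)
  have h2 : ∑ l ∈ Finset.range (K + 1), (m (l + 1) - m l) = 1 := by
    rw [Finset.sum_range_sub m, hm'.2.1, hm'.1, sub_zero]
  rw [← Finset.sum_mul, h2, one_mul] at h1
  linarith

theorem hr_Lam_le (hm' : Exponents K m) (q : ℕ → ℝ) (s : ℝ) : Lam K m q s ≤ 1 - s := by
  unfold Lam
  have h1 : 0 ≤ ∑ l ∈ Finset.range (K + 1), (m (l + 1) - m l) * max (q l - s) 0 := by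
    refine Finset.sum_nonneg fun i hi => ?_
    have hi' := Finset.mem_range.1 hi
    exact mul_nonneg ((hr_expo hm').p_nonneg (by omega)) (le_max_right _ _)
  linarith

/-- One piece of the integral. -/
theorem hr_piece_int {f f' : ℝ → ℝ} (hd : ∀ x, HasDerivAt f (f' x) x) (hc' : Continuous f')
    {a b X c : ℝ} (hc : 0 < c) :
    ∫ s in a..b, f' (X - c * (s - a)) = (f X - f (X - c * (b - a))) / c := by
  have h1 : ∀ s ∈ Set.uIcc a b, HasDerivAt (fun s => -(f (X - c * (s - a)) / c))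
      (f' (X - c * (s - a))) s := by
    intro s _
    have h2 : HasDerivAt (fun s : ℝ => X - c * (s - a)) (-c) s := by
      have := ((hasDerivAt_id s).sub_const a).const_mul c
      have := this.const_sub X
      simpa using this
    have h3 := (hd (X - c * (s - a))).comp s h2
    have h4 := (h3.div_const c).neg
    have h5 : f' (X - c * (s - a)) = -(f' (X - c * (s - a)) * -c / c) := by
      field_simp
    rw [h5]
    exact h4
  rw [intervalIntegral.integral_eq_sub_of_hasDerivAt h1]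
  · rw [sub_self, mul_zero, sub_zero]
    ring
  · apply Continuous.intervalIntegrable
    fun_prop

/-- The trace of a function as an integral. -/
theorem hr_tr_int (hm' : Exponents K m) {q : ℕ → ℝ} (hq : Path K q) (hq1 : q K ≤ 1)
    {f f' : ℝ → ℝ} (hd : ∀ x, HasDerivAt f (f' x) x) (hc' : Continuous f') :
    ∫ s in (0 : ℝ)..1, f' (Lam K m q s) = q 0 * f' (lam K m q 0) +
      (∑ l ∈ Finset.Ico 1 (K + 1), (f (lam K m q (l - 1)) - f (lam K m q l)) / m l +
        (f (lam K m q K) - f 0)) := by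
  have hcont : Continuous fun s => f' (Lam K m q s) := hc'.comp (hr_Lam_continuous q)
  have hII : ∀ a b : ℝ, IntervalIntegrable (fun s => f' (Lam K m q s)) MeasureTheory.volume a b :=
    fun a b => hcont.intervalIntegrable a b
  have hop := hr_opath hq hq1
  have h := hr_expo hm'
  -- up to `q j`
  have h1 : ∫ s in (0 : ℝ)..(q 0), f' (Lam K m q s) = q 0 * f' (lam K m q 0) := by
    have e1 : ∫ s in (0 : ℝ)..(q 0), f' (Lam K m q s) =
        ∫ s in (0 : ℝ)..(q 0), f' (lam K m q 0) := by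
      refine intervalIntegral.integral_congr fun s hs => ?_
      rw [Set.uIcc_of_le hq.1] at hs
      show f' _ = f' _
      rw [hr_Lam_low hm' hq hq1 hs.2]
    rw [e1, intervalIntegral.integral_const]
    simp
  have h2 : ∀ j ≤ K, ∫ s in (0 : ℝ)..(q j), f' (Lam K m q s) = q 0 * f' (lam K m q 0) +
      ∑ l ∈ Finset.Ico 1 (j + 1), (f (lam K m q (l - 1)) - f (lam K m q l)) / m l := by
    intro j
    induction j with
    | zero => intro _; rw [h1]; simp
    | succ j ih =>
      intro hj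
      rw [Finset.sum_Ico_succ_top (by omega : 1 ≤ j + 1), ← add_assoc, ← ih (by omega),
        ← intervalIntegral.integral_add_adjacent_intervals (hII 0 (q j)) (hII (q j) (q (j + 1)))]
      congr 1
      rw [Nat.add_sub_cancel]
      have h5 : 0 < m (j + 1) := h.pos' (by omega) (by omega)
      have e1 : ∫ s in (q j)..(q (j + 1)), f' (Lam K m q s) =
          ∫ s in (q j)..(q (j + 1)), f' (lam K m q j - m (j + 1) * (s - q j)) := by
        refine intervalIntegral.integral_congr fun s hs => ?_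
        rw [Set.uIcc_of_le (hq.2 j (by omega))] at hs
        show f' _ = f' _
        rw [Vale.Agent.P166.F.fs_affine h hop (show j ≤ K by omega) hs.1
          (fun i hi hi' => hs.2.trans (Vale.Agent.P166.F.fs_mono hop (j + 1) i hi hi'))]
        rfl
      rw [e1, hr_piece_int hd hc' h5]
      have h6 := hr_lam_sub (m := m) q (show j < K by omega)
      have h7 : lam K m q j - m (j + 1) * (q (j + 1) - q j) = lam K m q (j + 1) := by linarith
      rw [h7]
  have h3 : ∫ s in (q K)..1, f' (Lam K m q s) = f (lam K m q K) - f 0 := by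
    have e1 : ∫ s in (q K)..1, f' (Lam K m q s) =
        ∫ s in (q K)..1, f' (lam K m q K - 1 * (s - q K)) := by
      refine intervalIntegral.integral_congr fun s hs => ?_
      rw [Set.uIcc_of_le hq1] at hs
      show f' _ = f' _
      rw [Vale.Agent.P166.F.fs_affine h hop le_rfl hs.1 (fun i hi hi' => by omega), h.mK]
      rfl
    rw [e1, hr_piece_int hd hc' one_pos, hr_lam_K hm']
    ring_nf
  rw [← intervalIntegral.integral_add_adjacent_intervals (hII 0 (q K)) (hII (q K) 1), h2 K le_rfl,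
    h3]
  ring

theorem hr_trp_int (hm' : Exponents K m) {q : ℕ → ℝ} (hq : Path K q) (hq1 : q K ≤ 1) {k : ℕ}
    (hk : 1 ≤ k) : trp K m q k = ∫ s in (0 : ℝ)..1, k * Lam K m q s ^ (k - 1) := by
  have h1 := hr_tr_int hm' hq hq1 (f := fun x => x ^ k) (f' := fun x => k * x ^ (k - 1))
    (fun x => hasDerivAt_pow k x) (by fun_prop)
  rw [h1, trp_eq hm', zero_pow (by omega)]
  ring

theorem hr_Lam_le_add (hm' : Exponents K m) {q R : ℕ → ℝ} (hq : Path K q) (hq1 : q K ≤ 1)
    {η : ℝ} (hη : 0 ≤ η)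
    (h : ∀ j ≤ K, -η ≤ ∑ l ∈ Finset.Ico j (K + 1), (m (l + 1) - m l) * (R l - q l)) (s : ℝ) :
    Lam K m R s ≤ Lam K m q s + η := by
  unfold Lam
  suffices H : ∑ l ∈ Finset.range (K + 1), (m (l + 1) - m l) * max (q l - s) 0
      ≤ ∑ l ∈ Finset.range (K + 1), (m (l + 1) - m l) * max (R l - s) 0 + η by linarith
  have hp : ∀ l ∈ Finset.range (K + 1), 0 ≤ m (l + 1) - m l := fun l hl => by
    rw [Finset.mem_range] at hl
    exact (hr_expo hm').p_nonneg (by omega)
  have hop := hr_opath hq hq1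
  by_cases hex : ∃ j, j ≤ K ∧ s < q j
  · classical
    let j := Nat.find hex
    have hj : j ≤ K ∧ s < q j := Nat.find_spec hex
    have hlt : ∀ i < j, q i ≤ s := by
      intro i hi
      by_contra hc
      exact Nat.find_min hex hi ⟨by omega, not_le.1 hc⟩
    have e1 : ∑ l ∈ Finset.range (K + 1), (m (l + 1) - m l) * max (q l - s) 0
        = ∑ l ∈ Finset.Ico j (K + 1), (m (l + 1) - m l) * (q l - s) := by
      rw [Finset.range_eq_Ico, ← Finset.sum_Ico_consecutive _ (Nat.zero_le j) (by omega)]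
      have z : ∑ l ∈ Finset.Ico 0 j, (m (l + 1) - m l) * max (q l - s) 0 = 0 := by
        refine Finset.sum_eq_zero fun i hi => ?_
        rw [Finset.mem_Ico] at hi
        rw [max_eq_right, mul_zero]
        linarith [hlt i hi.2]
      rw [z, zero_add]
      refine Finset.sum_congr rfl fun i hi => ?_
      rw [Finset.mem_Ico] at hi
      rw [max_eq_left]
      have := Vale.Agent.P166.F.fs_mono hop j i hi.1 (by omega)
      linarith [hj.2]
    have e2 : ∑ l ∈ Finset.Ico j (K + 1), (m (l + 1) - m l) * (q l - s)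
        ≤ ∑ l ∈ Finset.Ico j (K + 1), (m (l + 1) - m l) * (R l - s) + η := by
      have h1 := h j hj.1
      have h2 : ∑ l ∈ Finset.Ico j (K + 1), (m (l + 1) - m l) * (R l - q l)
          = ∑ l ∈ Finset.Ico j (K + 1), (m (l + 1) - m l) * (R l - s)
            - ∑ l ∈ Finset.Ico j (K + 1), (m (l + 1) - m l) * (q l - s) := by
        rw [← Finset.sum_sub_distrib]
        exact Finset.sum_congr rfl fun i _ => by ring
      linarith
    have e3 : ∑ l ∈ Finset.Ico j (K + 1), (m (l + 1) - m l) * (R l - s)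
        ≤ ∑ l ∈ Finset.Ico j (K + 1), (m (l + 1) - m l) * max (R l - s) 0 := by
      refine Finset.sum_le_sum fun i hi => ?_
      rw [Finset.mem_Ico] at hi
      exact mul_le_mul_of_nonneg_left (le_max_left _ _) (hp i (Finset.mem_range.2 hi.2))
    have e4 : ∑ l ∈ Finset.Ico j (K + 1), (m (l + 1) - m l) * max (R l - s) 0
        ≤ ∑ l ∈ Finset.range (K + 1), (m (l + 1) - m l) * max (R l - s) 0 := by
      refine Finset.sum_le_sum_of_subset_of_nonneg ?_ ?_
      · intro i hi
        rw [Finset.mem_Ico] at hi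
        exact Finset.mem_range.2 hi.2
      · intro i hi _
        exact mul_nonneg (hp i hi) (le_max_right _ _)
    rw [e1]
    linarith
  · have z : ∑ l ∈ Finset.range (K + 1), (m (l + 1) - m l) * max (q l - s) 0 = 0 := by
      refine Finset.sum_eq_zero fun i hi => ?_
      rw [Finset.mem_range] at hi
      have : q i ≤ s := by
        by_contra hc
        exact hex ⟨i, by omega, not_le.1 hc⟩
      rw [max_eq_right (by linarith), mul_zero]
    rw [z]
    have h5 : 0 ≤ ∑ l ∈ Finset.range (K + 1), (m (l + 1) - m l) * max (R l - s) 0 :=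
      Finset.sum_nonneg fun i hi => mul_nonneg (hp i hi) (le_max_right _ _)
    linarith

theorem trp_le_one (hm' : Exponents K m) {q : ℕ → ℝ} (hq : Path K q) (hq1 : q K ≤ 1) (k : ℕ) :
    trp K m q k ≤ 1 := by
  rcases Nat.eq_zero_or_pos k with hk | hk
  · subst hk; rw [trp_zero]
  · rw [hr_trp_int hm' hq hq1 hk]
    have h1 : ∫ s in (0 : ℝ)..1, (k : ℝ) * (1 - s) ^ (k - 1) = 1 := by
      have h2 : ∀ s ∈ Set.uIcc (0 : ℝ) 1, HasDerivAt (fun s => -(1 - s) ^ k)
          ((k : ℝ) * (1 - s) ^ (k - 1)) s := by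
        intro s _
        have h3 : HasDerivAt (fun s : ℝ => 1 - s) (-1) s := by
          simpa using (hasDerivAt_id s).const_sub 1
        have h4 := (h3.pow k).neg
        have h5 : (k : ℝ) * (1 - s) ^ (k - 1) = -(k * (1 - s) ^ (k - 1) * -1) := by ring
        rw [h5]
        exact h4
      rw [intervalIntegral.integral_eq_sub_of_hasDerivAt h2]
      · rw [sub_self, zero_pow (by omega)]
        simp
      · apply Continuous.intervalIntegrable
        fun_prop
    refine le_trans ?_ h1.le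
    refine intervalIntegral.integral_mono_on zero_le_one ?_ ?_ fun s hs => ?_
    · apply Continuous.intervalIntegrable
      have := hr_Lam_continuous (K := K) (m := m) q
      fun_prop
    · apply Continuous.intervalIntegrable
      fun_prop
    · exact mul_le_mul_of_nonneg_left
        (pow_le_pow_left₀ (hr_Lam_nonneg hm' hq hq1 hs.2) (hr_Lam_le hm' q s) _) (Nat.cast_nonneg _)

/-- Schur for the square. -/
theorem schur_two (hm' : Exponents K m) {q R : ℕ → ℝ} (hq : Path K q) (hq1 : q K ≤ 1)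
    (hR : Path K R) (hR1 : R K ≤ 1) {η : ℝ} (hη : 0 ≤ η)
    (h : ∀ j ≤ K, -η ≤ ∑ l ∈ Finset.Ico j (K + 1), (m (l + 1) - m l) * (R l - q l)) :
    trp K m R 2 ≤ trp K m q 2 + 2 * η := by
  rw [hr_trp_int hm' hq hq1 one_le_two, hr_trp_int hm' hR hR1 one_le_two]
  have hcq := hr_Lam_continuous (K := K) (m := m) q
  have hcR := hr_Lam_continuous (K := K) (m := m) R
  have h2 : 2 * η = ∫ _s in (0 : ℝ)..1, 2 * η := by
    rw [intervalIntegral.integral_const]; simp
  rw [h2, ← intervalIntegral.integral_add]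
  · refine intervalIntegral.integral_mono_on zero_le_one ?_ ?_ fun s hs => ?_
    · apply Continuous.intervalIntegrable
      fun_prop
    · apply Continuous.intervalIntegrable
      fun_prop
    · have := hr_Lam_le_add hm' hq hq1 hη h s
      norm_num
      linarith
  · apply Continuous.intervalIntegrable
    fun_prop
  · apply Continuous.intervalIntegrable
    fun_prop

theorem hr_pow_sub_le {x y : ℝ} (hx : 0 ≤ x) (hxy : x ≤ y) (hy : y ≤ 1) (n : ℕ) :
    y ^ n - x ^ n ≤ n * (y - x) := by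
  induction n with
  | zero => simp
  | succ n ih =>
    have h1 : y ^ (n + 1) - x ^ (n + 1) = y * (y ^ n - x ^ n) + x ^ n * (y - x) := by ring
    have h2 : 0 ≤ y ^ n - x ^ n := sub_nonneg.2 (pow_le_pow_left₀ hx hxy n)
    have h3 : y * (y ^ n - x ^ n) ≤ y ^ n - x ^ n := by linarith only [mul_nonneg (sub_nonneg.2 hy) (sub_nonneg.2 h2)]
    have h4 : x ^ n ≤ 1 := pow_le_one₀ hx (hxy.trans hy)
    have h5 : x ^ n * (y - x) ≤ y - x := by linarith only [mul_nonneg (sub_nonneg.2 h4) (sub_nonneg.2 (sub_nonneg.2 hxy))]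
    rw [h1]
    push_cast
    linarith

/-- Schur for `C x² - x^k`, `C = k (k - 1) / 2`: the function `φ(x) = C x² - x^k` has `φ' ≥ 0` and
`φ'' ≥ 0` on `[0, 1]`; the derivative of `tr φ` along the segment from `q` to `R` is
`-∑ p_l φ'(R^θ)_l (R_l - q_l)`, with `φ'(R)_l` nonnegative and nondecreasing in `l`, and
`φ'(R)_K ≤ sup φ'' ≤ k (k - 1)`. -/
theorem schur_k (hm' : Exponents K m) {q R : ℕ → ℝ} (hq : Path K q) (hq1 : q K ≤ 1)
    (hR : Path K R) (hR1 : R K ≤ 1) {η : ℝ} (hη : 0 ≤ η)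
    (h : ∀ j ≤ K, -η ≤ ∑ l ∈ Finset.Ico j (K + 1), (m (l + 1) - m l) * (R l - q l))
    {k : ℕ} (hk : 2 ≤ k) :
    trp K m q k - (k * (k - 1) / 2 : ℝ) * (trp K m q 2 - trp K m R 2) - k * (k - 1) * η ≤
      trp K m R k := by
  have hcq := hr_Lam_continuous (K := K) (m := m) q
  have hcR := hr_Lam_continuous (K := K) (m := m) R
  -- the trace of `φ`
  have tr : ∀ r : ℕ → ℝ, Path K r → r K ≤ 1 →
      (k * (k - 1) / 2 : ℝ) * trp K m r 2 - trp K m r k =
        ∫ s in (0 : ℝ)..1, (k * (k - 1) * Lam K m r s - k * Lam K m r s ^ (k - 1)) := by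
    intro r hr hr1
    have hcr := hr_Lam_continuous (K := K) (m := m) r
    rw [hr_trp_int hm' hr hr1 one_le_two, hr_trp_int hm' hr hr1 (show 1 ≤ k by omega),
      ← intervalIntegral.integral_const_mul, ← intervalIntegral.integral_sub]
    · refine intervalIntegral.integral_congr fun s _ => ?_
      norm_num
      ring
    · apply Continuous.intervalIntegrable
      fun_prop
    · apply Continuous.intervalIntegrable
      fun_prop
  have h1 := tr q hq hq1
  have h2 := tr R hR hR1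
  have hk1 : (1 : ℝ) ≤ k := by exact_mod_cast (show 1 ≤ k by omega)
  have hkk : (0 : ℝ) ≤ k * (k - 1) := mul_nonneg (by linarith only [hk1]) (by linarith)
  have h3 : ∫ s in (0 : ℝ)..1, (k * (k - 1) * Lam K m R s - k * Lam K m R s ^ (k - 1)) ≤
      (∫ s in (0 : ℝ)..1, (k * (k - 1) * Lam K m q s - k * Lam K m q s ^ (k - 1))) +
        k * (k - 1) * η := by
    have h4 : k * (k - 1) * η = ∫ _s in (0 : ℝ)..1, k * (k - 1) * η := by
      rw [intervalIntegral.integral_const]; simp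
    rw [h4, ← intervalIntegral.integral_add]
    · refine intervalIntegral.integral_mono_on zero_le_one ?_ ?_ fun s hs => ?_
      · apply Continuous.intervalIntegrable
        fun_prop
      · apply Continuous.intervalIntegrable
        fun_prop
      · have a1 := hr_Lam_le_add hm' hq hq1 hη h s
        have a2 := hr_Lam_nonneg hm' hq hq1 hs.2
        have a3 := hr_Lam_nonneg hm' hR hR1 hs.2
        have a4 : Lam K m q s ≤ 1 := (hr_Lam_le hm' q s).trans (by linarith only [hs.1])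
        have a6 : 0 ≤ k * (k - 1) * η := mul_nonneg hkk hη
        have hcast : ((k - 1 : ℕ) : ℝ) = k - 1 := by
          rw [Nat.cast_sub (by omega)]; simp
        rcases le_total (Lam K m R s) (Lam K m q s) with hle | hle
        · have a5 := hr_pow_sub_le a3 hle a4 (k - 1)
          rw [hcast] at a5
          have a7 : (k : ℝ) * (Lam K m q s ^ (k - 1) - Lam K m R s ^ (k - 1)) ≤
              k * ((k - 1) * (Lam K m q s - Lam K m R s)) :=
            mul_le_mul_of_nonneg_left a5 (by linarith)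
          linarith only [a7, a6]
        · have a5 : Lam K m q s ^ (k - 1) ≤ Lam K m R s ^ (k - 1) := pow_le_pow_left₀ a2 hle _
          have a7 : (k : ℝ) * Lam K m q s ^ (k - 1) ≤ k * Lam K m R s ^ (k - 1) :=
            mul_le_mul_of_nonneg_left a5 (by linarith)
          have a8 : (k : ℝ) * (k - 1) * Lam K m R s ≤ k * (k - 1) * (Lam K m q s + η) :=
            mul_le_mul_of_nonneg_left a1 hkk
          linarith only [a8, a7]
    · apply Continuous.intervalIntegrable
      fun_prop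
    · apply Continuous.intervalIntegrable
      fun_prop
  rw [← h1, ← h2] at h3
  linarith only [h3]

end Vale.Agent.P146.Sk
end

section

/-!
# P146, module GOE: normalized traces of polynomials of `W`
-/

open MeasureTheory ProbabilityTheory Finset Matrix Filter Topology Polynomial

namespace Vale.Agent.P146.Sk

open Vale.Agent.P157.Lv

set_option linter.all false

variable {N : ℕ}

/-- the derivative of the power -/
lemma pdm_pow (e : Ix N) (p : ℕ) : PDM e (fun z => (Wm N z) ^ p)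
    (fun z => ∑ s ∈ range p, (Wm N z) ^ s * Em N e * (Wm N z) ^ (p - 1 - s)) := by
  induction p with
  | zero =>
    simp only [pow_zero, range_zero, sum_empty]
    exact PDM.const 1
  | succ p ih =>
    have h := ih.mul (pdm_Wm e)
    simp only [← pow_succ] at h
    refine h.congr fun z => ?_
    rw [sum_range_succ, sum_mul]
    simp only [Nat.add_sub_cancel, Nat.sub_self, pow_zero, mul_one]
    congr 1
    refine sum_congr rfl fun s hs => ?_
    rw [mem_range] at hs
    rw [mul_assoc, ← pow_succ]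
    congr 2
    omega

lemma egm_pow (p : ℕ) : EGM (fun z => (Wm N z) ^ p) := by
  induction p with
  | zero => simpa using EGM.const (ι := Ix N) (N := N) 1
  | succ p ih => simpa only [pow_succ] using ih.mul egm_Wm

lemma pow_transpose (z : Ix N → ℝ) (p : ℕ) : ((Wm N z) ^ p)ᵀ = (Wm N z) ^ p := by
  rw [Matrix.transpose_pow, Wm_transpose]

lemma sum_Ix_swap (f : Fin N → Fin N → ℝ) :
    ∑ e : Ix N, f e.2 e.1 = ∑ e : Ix N, f e.1 e.2 := by
  rw [Fintype.sum_prod_type, Fintype.sum_prod_type_right]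

lemma trace_mul_eq_sum (A B : Matrix (Fin N) (Fin N) ℝ) :
    (A * B).trace = ∑ e : Ix N, A e.1 e.2 * B e.2 e.1 := by
  rw [Fintype.sum_prod_type]
  simp only [Matrix.trace, Matrix.diag_apply, Matrix.mul_apply]

lemma trace_mul_trace (A B : Matrix (Fin N) (Fin N) ℝ) :
    A.trace * B.trace = ∑ e : Ix N, A e.1 e.1 * B e.2 e.2 := by
  rw [Fintype.sum_prod_type]
  simp only [Matrix.trace, Matrix.diag_apply, sum_mul_sum]

/-- Gaussian integration by parts for `tr (W A)` -/
theorem ibp_trace {A : (Ix N → ℝ) → Matrix (Fin N) (Fin N) ℝ} (hA : EGM A)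
    {p : ℕ} {P Q : ℕ → (Ix N → ℝ) → Matrix (Fin N) (Fin N) ℝ}
    (hP : ∀ s, EGM (P s)) (hQ : ∀ s, EGM (Q s)) (hPt : ∀ s z, (P s z)ᵀ = P s z)
    (hQt : ∀ s z, (Q s z)ᵀ = Q s z)
    (hd : ∀ e, PDM e A (fun z => ∑ s ∈ range p, P s z * Em N e * Q s z)) :
    ∫ z, (Wm N z * A z).trace ∂(gI (Ix N)) = (1 / (N : ℝ)) * ∑ s ∈ range p,
      ∫ z, ((P s z).trace * (Q s z).trace + (P s z * Q s z).trace) ∂(gI (Ix N)) := by
  set c : ℝ := √(2 * (N : ℝ)) with hc
  have hc2 : c * c = 2 * N := Real.mul_self_sqrt (by positivity)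
  have hPs : ∀ s z i j, P s z i j = P s z j i := fun s z i j => by
    conv_lhs => rw [← hPt s z]
    rfl
  have hQs : ∀ s z i j, Q s z i j = Q s z j i := fun s z i j => by
    conv_lhs => rw [← hQt s z]
    rfl
  have hE : ∀ s e, EGM (fun z => P s z * Em N e * Q s z) := fun s e =>
    ((hP s).mul (EGM.const _)).mul (hQ s)
  have hA' : ∀ e i j, EG (fun z => (∑ s ∈ range p, P s z * Em N e * Q s z) i j) := by
    intro e i j
    simp only [Matrix.sum_apply]
    exact EG.sum _ fun s _ => hE s e i j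
  have h1 : ∀ z, (Wm N z * A z).trace = ∑ e : Ix N, (c⁻¹ * (z e * (A z e.2 e.1 + A z e.1 e.2))) := by
    intro z
    rw [trace_mul_eq_sum]
    have h2 : ∀ e : Ix N, Wm N z e.1 e.2 * A z e.2 e.1 =
        c⁻¹ * (z (e.1, e.2) * A z e.2 e.1) + c⁻¹ * (z (e.2, e.1) * A z e.2 e.1) := by
      intro e
      simp only [Wm, Matrix.of_apply, ← hc]
      ring
    simp only [h2]
    rw [sum_add_distrib, sum_Ix_swap (fun i j => c⁻¹ * (z (i, j) * A z i j)), ← sum_add_distrib]
    refine sum_congr rfl fun e _ => ?_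
    ring
  have h3 : ∀ e : Ix N, ∫ z, c⁻¹ * (z e * (A z e.2 e.1 + A z e.1 e.2)) ∂(gI (Ix N)) =
      ∫ z, c⁻¹ * ((∑ s ∈ range p, P s z * Em N e * Q s z) e.2 e.1 +
        (∑ s ∈ range p, P s z * Em N e * Q s z) e.1 e.2) ∂(gI (Ix N)) := by
    intro e
    rw [integral_const_mul, integral_const_mul]
    congr 1
    exact PD.stein ((hd e e.2 e.1).add (hd e e.1 e.2)) ((hA _ _).add (hA _ _))
      ((hA' e _ _).add (hA' e _ _))
  simp only [h1]
  rw [integral_finsetSum _ fun e _ => (((EG.coord e).mul ((hA e.2 e.1).add (hA e.1 e.2))).const_mul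
    c⁻¹).integrable]
  rw [sum_congr rfl fun e _ => h3 e,
    ← integral_finsetSum _ fun e _ => (((hA' e e.2 e.1).add (hA' e e.1 e.2)).const_mul
      c⁻¹).integrable]
  rw [← integral_finsetSum, ← integral_const_mul]
  · congr 1
    funext z
    simp only [Matrix.sum_apply, mul_Em_mul, ← hc]
    have h4 : ∀ e : Ix N, c⁻¹ * (∑ s ∈ range p, (P s z e.2 e.1 * Q s z e.2 e.1 +
        P s z e.2 e.2 * Q s z e.1 e.1) / c + ∑ s ∈ range p,
        (P s z e.1 e.1 * Q s z e.2 e.2 + P s z e.1 e.2 * Q s z e.1 e.2) / c) =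
        ∑ s ∈ range p, (c⁻¹ * c⁻¹) * (P s z e.2 e.1 * Q s z e.1 e.2 +
        P s z e.2 e.2 * Q s z e.1 e.1 + P s z e.1 e.1 * Q s z e.2 e.2 +
          P s z e.1 e.2 * Q s z e.2 e.1) := by
      intro e
      rw [← sum_add_distrib, mul_sum]
      refine sum_congr rfl fun s _ => ?_
      rw [hQs s z e.2 e.1, div_eq_mul_inv, div_eq_mul_inv]
      ring
    simp only [h4]
    rw [sum_comm, mul_sum]
    refine sum_congr rfl fun s _ => ?_
    rw [← mul_sum, sum_add_distrib, sum_add_distrib, sum_add_distrib,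
      sum_Ix_swap (fun i j => P s z i j * Q s z j i), sum_Ix_swap (fun i j => P s z i i * Q s z j j),
      ← trace_mul_eq_sum, ← trace_mul_trace, ← mul_inv, hc2]
    rcases Nat.eq_zero_or_pos N with h0 | h0
    · subst h0
      simp [Matrix.trace]
    · have : (N : ℝ) ≠ 0 := by positivity
      field_simp
      ring
  · intro s _
    exact (((hP s).trace.mul (hQ s).trace).add ((hP s).mul (hQ s)).trace).integrable

/-- traces of powers -/
theorem trace_pow_eigen {A : Matrix (Fin N) (Fin N) ℝ} (hA : A.IsHermitian) (n : ℕ) :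
    (A ^ n).trace = ∑ i, hA.eigenvalues i ^ n := by
  have h1 := hA.spectral_theorem
  have h2 : A ^ n = Unitary.conjStarAlgAut ℝ _ hA.eigenvectorUnitary
      ((diagonal (RCLike.ofReal ∘ hA.eigenvalues)) ^ n) := by
    rw [map_pow, ← h1]
  rw [h2, Unitary.conjStarAlgAut_apply, Matrix.trace_mul_comm, ← mul_assoc,
    Unitary.coe_star_mul_self, one_mul, Matrix.diagonal_pow, Matrix.trace_diagonal]
  rfl

lemma Wm_herm (z : Ix N → ℝ) : (Wm N z).IsHermitian := by
  unfold Matrix.IsHermitian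
  rw [Matrix.conjTranspose_eq_transpose_of_trivial, Wm_transpose]

/-- eigenvalues of `W` -/
noncomputable def ew (N : ℕ) (z : Ix N → ℝ) : Fin N → ℝ := (Wm_herm z).eigenvalues

lemma trace_pow_W (z : Ix N → ℝ) (n : ℕ) : ((Wm N z) ^ n).trace = ∑ i, ew N z i ^ n :=
  trace_pow_eigen (Wm_herm z) n

lemma pow_mul_pow_le {a b : ℝ} {s t k : ℕ} (h : s + t = 2 * k) :
    a ^ s * b ^ t ≤ a ^ (2 * k) + b ^ (2 * k) := by
  have h1 : |a ^ s * b ^ t| ≤ |a| ^ (2 * k) + |b| ^ (2 * k) := by
    rw [abs_mul, abs_pow, abs_pow]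
    rcases le_total |a| |b| with h2 | h2
    · calc |a| ^ s * |b| ^ t ≤ |b| ^ s * |b| ^ t := by gcongr
        _ = |b| ^ (2 * k) := by rw [← pow_add, h]
        _ ≤ _ := le_add_of_nonneg_left (by positivity)
    · calc |a| ^ s * |b| ^ t ≤ |a| ^ s * |a| ^ t := by gcongr
        _ = |a| ^ (2 * k) := by rw [← pow_add, h]
        _ ≤ _ := le_add_of_nonneg_right (by positivity)
  rw [pow_mul, pow_mul, sq_abs, sq_abs, ← pow_mul, ← pow_mul] at h1
  exact (le_abs_self _).trans h1

lemma trace_pow_mul_le (z : Ix N → ℝ) {s t k : ℕ} (h : s + t = 2 * k) :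
    ((Wm N z) ^ s).trace * ((Wm N z) ^ t).trace ≤ 2 * N * ((Wm N z) ^ (2 * k)).trace := by
  simp only [trace_pow_W]
  rw [sum_mul_sum]
  calc ∑ i, ∑ j, ew N z i ^ s * ew N z j ^ t
      ≤ ∑ i : Fin N, ∑ j : Fin N, (ew N z i ^ (2 * k) + ew N z j ^ (2 * k)) :=
        sum_le_sum fun i _ => sum_le_sum fun j _ => pow_mul_pow_le h
    _ = 2 * N * ∑ i, ew N z i ^ (2 * k) := by
        simp only [sum_add_distrib, sum_const, card_univ, Fintype.card_fin, nsmul_eq_mul]
        rw [← mul_sum]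
        ring

lemma trace_even_nonneg (z : Ix N → ℝ) (k : ℕ) : 0 ≤ ((Wm N z) ^ (2 * k)).trace := by
  rw [trace_pow_W]
  exact sum_nonneg fun i _ => (even_two_mul k).pow_nonneg _

/-- constants of the moment bound -/
def Cb : ℕ → ℝ
  | 0 => 1
  | k + 1 => 3 * (2 * k + 1) * Cb k

lemma Cb_nonneg (k : ℕ) : 0 ≤ Cb k := by
  induction k with
  | zero => simp [Cb]
  | succ k ih => rw [Cb]; positivity

theorem moment_bound (hN : 0 < N) (k : ℕ) :
    ∫ z, ((Wm N z) ^ (2 * k)).trace / N ∂(gI (Ix N)) ≤ Cb k := by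
  induction k with
  | zero =>
    have : (N : ℝ) ≠ 0 := by positivity
    simp [Cb, this]
  | succ k ih =>
    have h1 := ibp_trace (N := N) (A := fun z => (Wm N z) ^ (2 * k + 1)) (egm_pow _)
      (p := 2 * k + 1) (P := fun s z => (Wm N z) ^ s)
      (Q := fun s z => (Wm N z) ^ (2 * k + 1 - 1 - s)) (fun s => egm_pow s) (fun s => egm_pow _)
      (fun s z => pow_transpose z s) (fun s z => pow_transpose z _)
      (fun e => pdm_pow e (2 * k + 1))
    have h2 : ∀ z : Ix N → ℝ, Wm N z * (Wm N z) ^ (2 * k + 1) = (Wm N z) ^ (2 * (k + 1)) := by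
      intro z
      rw [← pow_succ']
      congr 1
    simp only [h2] at h1
    have h3 : ∀ s ∈ range (2 * k + 1),
        ∫ z, (((Wm N z) ^ s).trace * ((Wm N z) ^ (2 * k + 1 - 1 - s)).trace +
          ((Wm N z) ^ s * (Wm N z) ^ (2 * k + 1 - 1 - s)).trace) ∂(gI (Ix N)) ≤
        3 * N * ∫ z, ((Wm N z) ^ (2 * k)).trace ∂(gI (Ix N)) := by
      intro s hs
      rw [mem_range] at hs
      rw [← integral_const_mul]
      refine integral_mono
        ((((egm_pow s).trace.mul (egm_pow _).trace).add ((egm_pow s).mul (egm_pow _)).trace)).integrable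
        ((egm_pow _).trace.const_mul _).integrable fun z => ?_
      have h4 : s + (2 * k + 1 - 1 - s) = 2 * k := by omega
      have h5 := trace_pow_mul_le z h4
      have h6 := trace_even_nonneg z k
      have h7 : (1 : ℝ) ≤ N := by exact_mod_cast hN
      simp only [← pow_add, h4]
      linarith only [mul_nonneg (sub_nonneg.2 h6) (sub_nonneg.2 h7), h5]
    have h8 := sum_le_sum h3
    rw [sum_const, card_range, nsmul_eq_mul] at h8
    rw [integral_div] at ih ⊢
    rw [h1, Cb]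
    have hN' : (0 : ℝ) < N := by exact_mod_cast hN
    rw [div_le_iff₀ hN', one_div, inv_mul_le_iff₀ hN']
    rw [div_le_iff₀ hN'] at ih
    refine h8.trans ?_
    push_cast
    calc (2 * (k : ℝ) + 1) * (3 * N * ∫ z, ((Wm N z) ^ (2 * k)).trace ∂(gI (Ix N)))
        ≤ (2 * (k : ℝ) + 1) * (3 * N * (Cb k * N)) := by gcongr
      _ = N * (3 * (2 * k + 1) * Cb k * N) := by ring

end Vale.Agent.P146.Sk
end

section

/-!
# P146, module GOE: convergence of the normalized traces of Chebyshev polynomials of `W`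
-/

open MeasureTheory ProbabilityTheory Finset Matrix Filter Topology Polynomial

namespace Vale.Agent.P146.Sk

open Vale.Agent.P157.Lv

set_option linter.all false

/-- normalized trace of `q(W)` -/
noncomputable def tp (N : ℕ) (q : ℝ[X]) (z : Ix N → ℝ) : ℝ := (aeval (Wm N z) q).trace / N

/-- Chebyshev polynomials of the second kind (on `[-2,2]`) -/
noncomputable def Sp : ℕ → ℝ[X]
  | 0 => 1
  | 1 => X
  | p + 2 => X * Sp (p + 1) - Sp p

variable {N : ℕ}

lemma Um_eq_aeval (W : Matrix (Fin N) (Fin N) ℝ) (p : ℕ) : Um W p = aeval W (Sp p) := by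
  induction p using Nat.strong_induction_on with
  | _ p ih =>
    match p with
    | 0 => simp [Sp]
    | 1 => simp [Sp]
    | p + 2 => rw [Um_add_two, Sp, map_sub, map_mul, aeval_X, ih p (by omega), ih (p + 1) (by omega)]

/-- the product formula -/
theorem Sp_mul (a b : ℕ) (hab : a ≤ b) :
    Sp a * Sp b = ∑ j ∈ range (a + 1), Sp (b - a + 2 * j) := by
  have hX : ∀ p, X * Sp (p + 1) = Sp (p + 2) + Sp p := fun p => by rw [Sp]; ring
  induction a using Nat.strong_induction_on generalizing b with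
  | _ a ih =>
    match a with
    | 0 => simp [Sp]
    | 1 =>
      obtain ⟨c, rfl⟩ : ∃ c, b = c + 1 := ⟨b - 1, by omega⟩
      rw [show Sp 1 = X from rfl, hX, sum_range_succ, sum_range_one, add_comm]
      congr 1
    | a + 2 =>
      have h1 := ih (a + 1) (by omega) b (by omega)
      have h0 := ih a (by omega) b (by omega)
      rw [show Sp (a + 2) = X * Sp (a + 1) - Sp a from rfl, sub_mul, mul_assoc, h1, h0, mul_sum]
      have h2 : ∀ j ∈ range (a + 1 + 1), X * Sp (b - (a + 1) + 2 * j) =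
          Sp (b - a + 2 * j) + Sp (b - (a + 2) + 2 * j) := by
        intro j _
        obtain ⟨c, hc⟩ : ∃ c, b = a + 2 + c := ⟨b - (a + 2), by omega⟩
        have e1 : b - (a + 1) + 2 * j = (c + 2 * j) + 1 := by omega
        have e2 : b - a + 2 * j = (c + 2 * j) + 2 := by omega
        have e3 : b - (a + 2) + 2 * j = c + 2 * j := by omega
        rw [e1, e2, e3, hX]
      rw [sum_congr rfl h2, sum_add_distrib, sum_range_succ (n := a + 1),
        sum_range_succ (fun j => Sp (b - (a + 2) + 2 * j)) (a + 2)]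
      have e4 : b - a + 2 * (a + 1) = b - (a + 2) + 2 * (a + 2) := by omega
      rw [e4]
      abel

lemma tp_eq_sum (q : ℝ[X]) (z : Ix N → ℝ) : tp N q z = (∑ i, q.eval (ew N z i)) / N := by
  unfold tp
  congr 1
  rw [aeval_eq_sum_range, Matrix.trace_sum]
  simp only [Matrix.trace_smul, trace_pow_W, smul_eq_mul, mul_sum]
  rw [sum_comm]
  refine sum_congr rfl fun i _ => ?_
  rw [eval_eq_sum_range]

lemma tp_add (q r : ℝ[X]) (z : Ix N → ℝ) : tp N (q + r) z = tp N q z + tp N r z := by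
  unfold tp
  rw [map_add, Matrix.trace_add, add_div]

lemma tp_sub (q r : ℝ[X]) (z : Ix N → ℝ) : tp N (q - r) z = tp N q z - tp N r z := by
  unfold tp
  rw [map_sub, Matrix.trace_sub, sub_div]

lemma tp_C_mul (c : ℝ) (q : ℝ[X]) (z : Ix N → ℝ) : tp N (C c * q) z = c * tp N q z := by
  unfold tp
  rw [← smul_eq_C_mul, map_smul, Matrix.trace_smul, smul_eq_mul, mul_div_assoc]

lemma tp_sum {κ : Type*} (s : Finset κ) (q : κ → ℝ[X]) (z : Ix N → ℝ) :
    tp N (∑ k ∈ s, q k) z = ∑ k ∈ s, tp N (q k) z := by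
  unfold tp
  rw [map_sum, Matrix.trace_sum, sum_div]

lemma egm_aeval (q : ℝ[X]) : EGM (fun z => aeval (Wm N z) q) := by
  intro i j
  simp only [aeval_eq_sum_range, Matrix.sum_apply, Matrix.smul_apply, smul_eq_mul]
  exact EG.sum _ fun k _ => (egm_pow k i j).const_mul _

lemma eg_tp (q : ℝ[X]) : EG (fun z => tp N q z) := by
  have h := (egm_aeval (N := N) q).trace.const_mul (N : ℝ)⁻¹
  simp only [← div_eq_inv_mul] at h
  exact h

lemma poly_bound (q : ℝ[X]) : ∃ C : ℝ, 0 ≤ C ∧ ∀ x : ℝ, |q.eval x| ≤ C * (1 + x ^ (2 * q.natDegree)) := by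
  refine ⟨∑ k ∈ range (q.natDegree + 1), |q.coeff k|, sum_nonneg fun k _ => abs_nonneg _, fun x => ?_⟩
  rw [eval_eq_sum_range, sum_mul]
  refine (abs_sum_le_sum_abs _ _).trans (sum_le_sum fun k hk => ?_)
  rw [mem_range] at hk
  rw [abs_mul, abs_pow]
  refine mul_le_mul_of_nonneg_left ?_ (abs_nonneg _)
  have h1 : x ^ (2 * q.natDegree) = |x| ^ (2 * q.natDegree) := by
    rw [pow_mul, pow_mul, sq_abs]
  rw [h1]
  rcases le_total |x| 1 with h | h
  · have := pow_le_one₀ (n := k) (abs_nonneg x) h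
    have h2 : 0 ≤ |x| ^ (2 * q.natDegree) := by positivity
    linarith
  · have : |x| ^ k ≤ |x| ^ (2 * q.natDegree) := pow_le_pow_right₀ h (by omega)
    linarith

lemma tp_abs_bound (q : ℝ[X]) : ∃ C : ℝ, 0 ≤ C ∧ ∀ (N : ℕ) (z : Ix N → ℝ), 0 < N →
    |tp N q z| ≤ C * (1 + ((Wm N z) ^ (2 * q.natDegree)).trace / N) := by
  obtain ⟨C, hC, h⟩ := poly_bound q
  refine ⟨C, hC, fun N z hN => ?_⟩
  have hN' : (0 : ℝ) < N := by exact_mod_cast hN
  rw [tp_eq_sum, abs_div, Nat.abs_cast, trace_pow_W, div_le_iff₀ hN']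
  calc |∑ i, q.eval (ew N z i)| ≤ ∑ i, |q.eval (ew N z i)| := abs_sum_le_sum_abs _ _
    _ ≤ ∑ i : Fin N, C * (1 + ew N z i ^ (2 * q.natDegree)) := sum_le_sum fun i _ => h _
    _ = C * (1 + (∑ i, ew N z i ^ (2 * q.natDegree)) / N) * N := by
        rw [← mul_sum, sum_add_distrib, sum_const, card_univ, Fintype.card_fin, nsmul_eq_mul,
          mul_one]
        field_simp

theorem tp_int_bound (q : ℝ[X]) : ∃ C : ℝ, 0 ≤ C ∧ ∀ N : ℕ, 0 < N →
    ∫ z, |tp N q z| ∂(gI (Ix N)) ≤ C := by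
  obtain ⟨C, hC, h⟩ := tp_abs_bound q
  refine ⟨C * (1 + Cb q.natDegree), mul_nonneg hC (add_nonneg zero_le_one (Cb_nonneg _)),
    fun N hN => ?_⟩
  have h1 : ∫ z, |tp N q z| ∂(gI (Ix N)) ≤
      ∫ z, C * (1 + ((Wm N z) ^ (2 * q.natDegree)).trace / N) ∂(gI (Ix N)) := by
    refine integral_mono (eg_tp q).abs.integrable ?_ fun z => h N z hN
    have h2 : EG (fun z : Ix N → ℝ => ((Wm N z) ^ (2 * q.natDegree)).trace / N) := by
      have h3 := (egm_pow (N := N) (2 * q.natDegree)).trace.const_mul (N : ℝ)⁻¹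
      simp only [← div_eq_inv_mul] at h3
      exact h3
    exact (((EG.const 1).add h2).const_mul C).integrable
  refine h1.trans ?_
  rw [integral_const_mul, integral_add (integrable_const _), integral_const, probReal_univ,
    one_smul]
  · exact mul_le_mul_of_nonneg_left (by linarith [moment_bound hN q.natDegree]) hC
  · have h3 := (egm_pow (N := N) (2 * q.natDegree)).trace.const_mul (N : ℝ)⁻¹
    simp only [← div_eq_inv_mul] at h3
    exact h3.integrable

theorem tp_int_bound' (q : ℝ[X]) : ∃ C : ℝ, 0 ≤ C ∧ ∀ N : ℕ, 0 < N →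
    |∫ z, tp N q z ∂(gI (Ix N))| ≤ C := by
  obtain ⟨C, hC, h⟩ := tp_int_bound q
  exact ⟨C, hC, fun N hN => abs_integral_le_integral_abs.trans (h N hN)⟩

/-- the sum of the products of Chebyshev matrices -/
noncomputable def Pp (p : ℕ) : ℝ[X] := ∑ s ∈ range p, Sp (p - 1 - s) * Sp s

lemma trace_DU (W : Matrix (Fin N) (Fin N) ℝ) (hW : Wᵀ = W) (e : Ix N) (p : ℕ) :
    (DU W (Em N e) p).trace = 2 * (aeval W (Pp p)) e.1 e.2 / √(2 * (N : ℝ)) := by
  have hT : ∀ q : ℝ[X], ∀ i j, (aeval W q) i j = (aeval W q) j i := by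
    intro q i j
    rw [aeval_eq_sum_range]
    simp only [Matrix.sum_apply, Matrix.smul_apply]
    refine sum_congr rfl fun k _ => ?_
    have h1 : (W ^ k)ᵀ = W ^ k := by rw [Matrix.transpose_pow, hW]
    conv_lhs => rw [← h1]
    rfl
  rw [DU_eq, Matrix.trace_sum]
  have h1 : ∀ s ∈ range p, (Um W s * Em N e * Um W (p - 1 - s)).trace =
      (1 * Em N e * aeval W (Sp (p - 1 - s) * Sp s)).trace := by
    intro s _
    rw [map_mul, ← Um_eq_aeval, ← Um_eq_aeval, one_mul, Matrix.trace_mul_comm, ← mul_assoc,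
      Matrix.trace_mul_comm]
  rw [sum_congr rfl h1, ← Matrix.trace_sum, ← mul_sum, ← map_sum]
  change (1 * Em N e * aeval W (Pp p)).trace = _
  simp only [Matrix.trace, Matrix.diag_apply, mul_Em_mul, Matrix.one_apply]
  rw [← sum_div, sum_add_distrib]
  simp only [ite_mul, one_mul, zero_mul, sum_ite_eq', mem_univ, if_true]
  rw [hT (Pp p) e.2 e.1]
  ring

lemma pd_tp_Sp (e : Ix N) (p : ℕ) : PD e (fun z => tp N (Sp p) z)
    (fun z => (2 / (N * √(2 * (N : ℝ)))) * (aeval (Wm N z) (Pp p)) e.1 e.2) := by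
  have h := ((pdm_Um e p).trace).const_mul (N : ℝ)⁻¹
  simp only [Um_eq_aeval] at h
  simp only [← div_eq_inv_mul] at h
  refine PD.congr h fun z => ?_
  rw [trace_DU _ (Wm_transpose z)]
  field_simp

lemma sum_sq_aeval (q : ℝ[X]) (z : Ix N → ℝ) :
    ∑ e : Ix N, ((aeval (Wm N z) q) e.1 e.2) ^ 2 = (aeval (Wm N z) (q * q)).trace := by
  rw [map_mul, trace_mul_eq_sum]
  refine sum_congr rfl fun e _ => ?_
  have h2 : (aeval (Wm N z) q) e.2 e.1 = (aeval (Wm N z) q) e.1 e.2 := by
    rw [aeval_eq_sum_range]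
    simp only [Matrix.sum_apply, Matrix.smul_apply]
    refine sum_congr rfl fun k _ => ?_
    have h1 := pow_transpose z k
    conv_lhs => rw [← h1]
    rfl
  rw [h2]
  ring

/-- variance of the normalized traces -/
theorem var_tp (p : ℕ) : ∃ C : ℝ, 0 ≤ C ∧ ∀ N : ℕ, 0 < N →
    ∫ z, (tp N (Sp p) z - ∫ w, tp N (Sp p) w ∂(gI (Ix N))) ^ 2 ∂(gI (Ix N)) ≤ C / (N : ℝ) ^ 2 := by
  obtain ⟨C, hC, h⟩ := tp_int_bound' (Pp p * Pp p)
  refine ⟨2 * C, by positivity, fun N hN => ?_⟩
  have hN' : (0 : ℝ) < N := by exact_mod_cast hN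
  refine (cc_var_le_one (eg_tp (Sp p)) (fun e => pd_tp_Sp e p)
    (fun e => (egm_aeval (Pp p) _ _).const_mul _)).trans ?_
  have h1 : ∀ e : Ix N, ∫ z, ((2 / (N * √(2 * (N : ℝ)))) * (aeval (Wm N z) (Pp p)) e.1 e.2) ^ 2
      ∂(gI (Ix N)) = (2 / (N : ℝ) ^ 3) * ∫ z, ((aeval (Wm N z) (Pp p)) e.1 e.2) ^ 2 ∂(gI (Ix N)) := by
    intro e
    rw [← integral_const_mul]
    congr 1
    funext z
    rw [mul_pow, div_pow, mul_pow, Real.sq_sqrt (by positivity)]
    congr 1
    field_simp
  simp only [h1]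
  rw [← mul_sum, ← integral_finsetSum _ fun e _ => ((egm_aeval (Pp p) _ _).pow 2).integrable]
  simp only [sum_sq_aeval]
  have h2 := le_trans (le_abs_self _) (h N hN)
  unfold tp at h2
  rw [integral_div, div_le_iff₀ hN'] at h2
  calc 2 / (N : ℝ) ^ 3 * ∫ z, (aeval (Wm N z) (Pp p * Pp p)).trace ∂(gI (Ix N))
      ≤ 2 / (N : ℝ) ^ 3 * (C * N) := by gcongr
    _ = 2 * C / (N : ℝ) ^ 2 := by field_simp

end Vale.Agent.P146.Sk
end

section

/-!
# P146, module GOE: `L²` convergence of the normalized traces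
-/

open MeasureTheory ProbabilityTheory Finset Matrix Filter Topology Polynomial

namespace Vale.Agent.P146.Sk

open Vale.Agent.P157.Lv

set_option linter.all false

/-- `L²` convergence to a constant -/
structure L2c (f : ∀ N : ℕ, (Ix N → ℝ) → ℝ) (a : ℝ) : Prop where
  eg : ∀ N, EG (f N)
  lim : Tendsto (fun N => ∫ z, (f N z - a) ^ 2 ∂(gI (Ix N))) atTop (𝓝 0)

variable {f g : ∀ N : ℕ, (Ix N → ℝ) → ℝ} {a b : ℝ}

lemma L2c.add (hf : L2c f a) (hg : L2c g b) : L2c (fun N z => f N z + g N z) (a + b) := by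
  refine ⟨fun N => (hf.eg N).add (hg.eg N), ?_⟩
  have h1 := (hf.lim.const_mul 2).add (hg.lim.const_mul 2)
  simp only [mul_zero, add_zero] at h1
  refine squeeze_zero (fun N => integral_nonneg fun z => sq_nonneg _) (fun N => ?_) h1
  rw [← integral_const_mul, ← integral_const_mul, ← integral_add]
  · refine integral_mono ((((hf.eg N).add (hg.eg N)).sub (EG.const _)).pow 2).integrable
      (((((hf.eg N).sub (EG.const _)).pow 2).const_mul 2).add
        ((((hg.eg N).sub (EG.const _)).pow 2).const_mul 2)).integrable fun z => ?_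
    simp only
    linarith only [sq_nonneg ((f N z - a) - (g N z - b))]
  · exact ((((hf.eg N).sub (EG.const _)).pow 2).const_mul 2).integrable
  · exact ((((hg.eg N).sub (EG.const _)).pow 2).const_mul 2).integrable

lemma L2c.const_mul (hf : L2c f a) (c : ℝ) : L2c (fun N z => c * f N z) (c * a) := by
  refine ⟨fun N => (hf.eg N).const_mul c, ?_⟩
  have h1 := hf.lim.const_mul (c ^ 2)
  rw [mul_zero] at h1
  refine h1.congr fun N => ?_
  rw [← integral_const_mul]
  congr 1
  funext z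
  ring

lemma L2c.const (c : ℝ) : L2c (fun N _ => c) c := by
  refine ⟨fun N => EG.const c, ?_⟩
  simp

lemma L2c.sub (hf : L2c f a) (hg : L2c g b) : L2c (fun N z => f N z - g N z) (a - b) := by
  have h := hf.add (hg.const_mul (-1))
  have e1 : (fun (N : ℕ) (z : Ix N → ℝ) => f N z + -1 * g N z) = fun N z => f N z - g N z := by
    funext N z; ring
  rw [e1] at h
  have e2 : a + -1 * b = a - b := by ring
  rwa [e2] at h

lemma L2c.sum {κ : Type*} (s : Finset κ) {f : κ → ∀ N : ℕ, (Ix N → ℝ) → ℝ} {a : κ → ℝ}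
    (h : ∀ k ∈ s, L2c (f k) (a k)) : L2c (fun N z => ∑ k ∈ s, f k N z) (∑ k ∈ s, a k) := by
  classical
  induction s using Finset.induction_on with
  | empty => simpa using L2c.const 0
  | insert k s hk ih =>
    simp only [Finset.sum_insert hk]
    exact (h k (Finset.mem_insert_self _ _)).add
      (ih fun j hj => h j (Finset.mem_insert_of_mem hj))

/-- expectations of products converge -/
lemma L2c.mul_int (hf : L2c f a) (hg : L2c g b) :
    Tendsto (fun N => ∫ z, f N z * g N z ∂(gI (Ix N))) atTop (𝓝 (a * b)) := by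
  have key : ∀ {f : ∀ N : ℕ, (Ix N → ℝ) → ℝ} {a : ℝ}, L2c f a →
      Tendsto (fun N => ∫ z, |f N z - a| ∂(gI (Ix N))) atTop (𝓝 0) := by
    intro f a hf
    have h1 : Tendsto (fun N => √(∫ z, (f N z - a) ^ 2 ∂(gI (Ix N)))) atTop (𝓝 0) := by
      have := (Real.continuous_sqrt.tendsto 0).comp hf.lim
      rwa [Real.sqrt_zero] at this
    exact squeeze_zero (fun N => integral_nonneg fun z => abs_nonneg _)
      (fun N => Sy.cc_abs_le ((hf.eg N).sub (EG.const a)) le_rfl) h1
  rw [tendsto_iff_norm_sub_tendsto_zero]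
  have h1 : Tendsto (fun N => (∫ z, (f N z - a) ^ 2 ∂(gI (Ix N))) +
      (∫ z, (g N z - b) ^ 2 ∂(gI (Ix N))) + (|b| * (∫ z, |f N z - a| ∂(gI (Ix N))) +
      |a| * ∫ z, |g N z - b| ∂(gI (Ix N)))) atTop (𝓝 0) := by
    have := (hf.lim.add hg.lim).add (((key hf).const_mul |b|).add ((key hg).const_mul |a|))
    simpa using this
  refine squeeze_zero (fun N => norm_nonneg _) (fun N => ?_) h1
  have ef := (hf.eg N).sub (EG.const a)
  have eg := (hg.eg N).sub (EG.const b)
  have h2 : (∫ z, f N z * g N z ∂(gI (Ix N))) - a * b =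
      ∫ z, (f N z * g N z - a * b) ∂(gI (Ix N)) := by
    rw [integral_sub ((hf.eg N).mul (hg.eg N)).integrable (integrable_const _), integral_const,
      probReal_univ, one_smul]
  rw [h2, Real.norm_eq_abs]
  refine abs_integral_le_integral_abs.trans ?_
  have h3 : ∫ z, |f N z * g N z - a * b| ∂(gI (Ix N)) ≤
      ∫ z, (((f N z - a) ^ 2 + (g N z - b) ^ 2) + (|b| * |f N z - a| + |a| * |g N z - b|))
        ∂(gI (Ix N)) := by
    refine integral_mono (((hf.eg N).mul (hg.eg N)).sub (EG.const _)).abs.integrable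
      (((ef.pow 2).add (eg.pow 2)).add ((ef.abs.const_mul _).add (eg.abs.const_mul _))).integrable
      fun z => ?_
    simp only
    have e1 : f N z * g N z - a * b = (f N z - a) * (g N z - b) + (b * (f N z - a) +
      a * (g N z - b)) := by ring
    rw [e1]
    refine (abs_add_le _ _).trans (add_le_add ?_ ((abs_add_le _ _).trans ?_))
    · rw [abs_mul]
      (by_contra nlg; linarith only [nlg, mul_nonneg (sq_nonneg (|f N z - a| - |g N z - b|)) (sq_nonneg (|f N z - a| - |g N z - b|)), mul_eq_zero_of_left (sub_eq_zero.2 (sq_abs (g N z - b))) ((|f N z - a| - |g N z - b|) ^ 2 - (0)), mul_eq_zero_of_left (sub_eq_zero.2 (sq_abs (g N z - b))) (|g N z - b| ^ 2 - ((g N z - b) ^ 2)), mul_eq_zero_of_left (sub_eq_zero.2 (sq_abs (f N z - a))) ((|f N z - a| - |g N z - b|) ^ 2 - (0)), mul_nonneg (le_of_lt (sub_pos.2 (not_le.1 nlg))) (sq_nonneg (|f N z - a| - |g N z - b|)), mul_eq_zero_of_left (sub_eq_zero.2 (sq_abs (g N z - b))) (|f N z - a| * |g N z - b| - ((f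 N z - a) ^ 2 + (g N z - b) ^ 2)), mul_pos (sub_pos.2 (not_le.1 nlg)) (sub_pos.2 (not_le.1 nlg)), mul_nonneg (sq_nonneg (f N z - a : ℝ)) (sq_nonneg (|f N z - a| - |g N z - b|)), mul_eq_zero_of_left (sub_eq_zero.2 (sq_abs (g N z - b))) (0 - (0 - (f N z - a) ^ 2)), mul_nonneg (sq_nonneg (f N z - a : ℝ)) (le_of_lt (sub_pos.2 (not_le.1 nlg))), mul_nonneg (sq_nonneg (f N z - a : ℝ)) (sq_nonneg (f N z - a : ℝ))])
    · rw [abs_mul, abs_mul]
  refine h3.trans (le_of_eq ?_)
  rw [integral_add ((ef.pow 2).add (eg.pow 2)).integrable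
    ((ef.abs.const_mul _).add (eg.abs.const_mul _)).integrable,
    integral_add (ef.pow 2).integrable (eg.pow 2).integrable,
    integral_add (ef.abs.const_mul _).integrable (eg.abs.const_mul _).integrable,
    integral_const_mul, integral_const_mul]

lemma L2c.int (hf : L2c f a) : Tendsto (fun N => ∫ z, f N z ∂(gI (Ix N))) atTop (𝓝 a) := by
  have h := hf.mul_int (L2c.const 1)
  simpa using h

/-- from the convergence of the variance and of the mean -/
lemma L2c.of_mean (he : ∀ N, EG (f N))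
    (hv : Tendsto (fun N => ∫ z, (f N z - ∫ w, f N w ∂(gI (Ix N))) ^ 2 ∂(gI (Ix N))) atTop (𝓝 0))
    (hm : Tendsto (fun N => ∫ z, f N z ∂(gI (Ix N))) atTop (𝓝 a)) : L2c f a := by
  refine ⟨he, ?_⟩
  have h1 : Tendsto (fun N => (∫ z, (f N z - ∫ w, f N w ∂(gI (Ix N))) ^ 2 ∂(gI (Ix N))) +
      ((∫ z, f N z ∂(gI (Ix N))) - a) ^ 2) atTop (𝓝 0) := by
    have := hv.add ((hm.sub_const a).pow 2)
    simpa using this
  refine h1.congr fun N => ?_
  obtain ⟨m, hm⟩ : ∃ m, m = ∫ z, f N z ∂(gI (Ix N)) := ⟨_, rfl⟩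
  rw [← hm]
  have h2 : ∀ z, (f N z - a) ^ 2 = (f N z - m) ^ 2 + (2 * (m - a) * (f N z - m) + (m - a) ^ 2) := by
    intro z; ring
  simp only [h2]
  have e1 := (he N).sub (EG.const m)
  rw [integral_add (e1.pow 2).integrable ((e1.const_mul _).add (EG.const _)).integrable,
    integral_add (e1.const_mul _).integrable (EG.const _).integrable, integral_const_mul,
    integral_sub (he N).integrable (integrable_const _), ← hm]
  simp

theorem tau_conv (p : ℕ) : L2c (fun N => tp N (Sp p)) (if p = 0 then 1 else 0) := by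
  have hv : ∀ p, Tendsto (fun N : ℕ => ∫ z, (tp N (Sp p) z - ∫ w, tp N (Sp p) w ∂(gI (Ix N))) ^ 2
      ∂(gI (Ix N))) atTop (𝓝 0) := by
    intro p
    obtain ⟨C, hC, h⟩ := var_tp p
    have h1 : Tendsto (fun N : ℕ => C / (N : ℝ) ^ 2) atTop (𝓝 0) :=
      tendsto_const_nhds.div_atTop ((tendsto_pow_atTop two_ne_zero).comp
        tendsto_natCast_atTop_atTop)
    refine squeeze_zero' (Eventually.of_forall fun N => integral_nonneg fun z => sq_nonneg _) ?_ h1
    filter_upwards [eventually_gt_atTop 0] with N hN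
    exact h N hN
  have hX : ∀ p, X * Sp (p + 1) = Sp (p + 2) + Sp p := fun p => by rw [Sp]; ring
  induction p using Nat.strong_induction_on with
  | _ p ih =>
    refine L2c.of_mean (fun N => eg_tp _) (hv p) ?_
    match p with
    | 0 =>
      refine tendsto_const_nhds.congr' ?_
      filter_upwards [eventually_gt_atTop 0] with N hN
      have hN' : (N : ℝ) ≠ 0 := by positivity
      simp [tp, Sp, Matrix.trace_one, hN']
    | 1 =>
      refine tendsto_const_nhds.congr' ?_
      filter_upwards with N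
      have h1 : ∀ z : Ix N → ℝ, tp N (Sp 1) z =
          (N : ℝ)⁻¹ * ∑ i : Fin N, (√(2 * (N : ℝ)))⁻¹ * (z (i, i) + z (i, i)) := by
        intro z
        simp only [tp, Sp, aeval_X, Matrix.trace, Matrix.diag_apply, Wm, Matrix.of_apply]
        rw [div_eq_inv_mul]
        congr 1
        refine sum_congr rfl fun i _ => ?_
        rw [div_eq_inv_mul]
      simp only [h1]
      rw [integral_const_mul, integral_finsetSum _ fun i _ =>
        (((EG.coord (i, i)).add (EG.coord (i, i))).const_mul _).integrable]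
      have h2 : ∀ e : Ix N, ∫ z, z e ∂(gI (Ix N)) = 0 := by
        intro e
        have := PD.stein (PD.const (e := e) (1 : ℝ)) (EG.const 1) (EG.const 0)
        simpa using this
      simp [integral_const_mul, integral_add (EG.coord _).integrable (EG.coord _).integrable, h2]
    | p + 2 =>
      have h1 : ∀ N : ℕ, 0 < N → ∫ z, tp N (Sp (p + 2)) z ∂(gI (Ix N)) =
          ∑ s ∈ range (p + 1), (∫ z, tp N (Sp s) z * tp N (Sp (p - s)) z ∂(gI (Ix N)) +
            (1 / (N : ℝ)) * ∫ z, tp N (Sp s * Sp (p - s)) z ∂(gI (Ix N))) -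
            ∫ z, tp N (Sp p) z ∂(gI (Ix N)) := by
        intro N hN
        have hN' : (N : ℝ) ≠ 0 := by positivity
        have h2 := ibp_trace (N := N) (A := fun z => Um (Wm N z) (p + 1)) (egm_Um _)
          (p := p + 1) (P := fun s z => Um (Wm N z) s)
          (Q := fun s z => Um (Wm N z) (p + 1 - 1 - s)) (fun s => egm_Um s) (fun s => egm_Um _)
          (fun s z => Um_transpose (Wm_transpose z) s)
          (fun s z => Um_transpose (Wm_transpose z) _)
          (fun e => (pdm_Um e (p + 1)).congr fun z => DU_eq _ _ _)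
        have h3 : ∀ z, tp N (Sp (p + 2)) z = (N : ℝ)⁻¹ * (Wm N z * Um (Wm N z) (p + 1)).trace -
            tp N (Sp p) z := by
          intro z
          have h4 : Sp (p + 2) = X * Sp (p + 1) - Sp p := rfl
          rw [h4, tp_sub]
          unfold tp
          rw [map_mul, aeval_X, ← Um_eq_aeval, div_eq_inv_mul]
        simp only [h3]
        rw [integral_sub (((egm_Wm.mul (egm_Um _)).trace).const_mul _).integrable
          (eg_tp _).integrable, integral_const_mul, h2, mul_sum, mul_sum]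
        congr 1
        refine sum_congr rfl fun s _ => ?_
        rw [Nat.add_sub_cancel, integral_add ((egm_Um s).trace.mul (egm_Um _).trace).integrable
          ((egm_Um s).mul (egm_Um _)).trace.integrable, mul_add, mul_add]
        simp only [tp, map_mul, ← Um_eq_aeval]
        congr 1
        · rw [← integral_const_mul, ← integral_const_mul]
          congr 1
          funext z
          field_simp
        · rw [integral_div]
          field_simp
      have h5 : Tendsto (fun N : ℕ => ∑ s ∈ range (p + 1),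
          (∫ z, tp N (Sp s) z * tp N (Sp (p - s)) z ∂(gI (Ix N)) +
            (1 / (N : ℝ)) * ∫ z, tp N (Sp s * Sp (p - s)) z ∂(gI (Ix N))) -
            ∫ z, tp N (Sp p) z ∂(gI (Ix N))) atTop
          (𝓝 (∑ s ∈ range (p + 1), ((if s = 0 then 1 else 0) * (if p - s = 0 then 1 else 0) + 0) -
            (if p = 0 then (1 : ℝ) else 0))) := by
        refine Tendsto.sub (tendsto_finsetSum _ fun s hs => ?_) (ih p (by omega)).int
        rw [mem_range] at hs
        refine Tendsto.add ((ih s (by omega)).mul_int (ih (p - s) (by omega))) ?_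
        obtain ⟨C, hC, h⟩ := tp_int_bound' (Sp s * Sp (p - s))
        have h6 : Tendsto (fun N : ℕ => (1 / (N : ℝ)) * C) atTop (𝓝 0) := by
          have := tendsto_one_div_atTop_nhds_zero_nat (𝕜 := ℝ)
          simpa using this.mul_const C
        refine squeeze_zero_norm' ?_ h6
        filter_upwards [eventually_gt_atTop 0] with N hN
        rw [norm_mul, Real.norm_eq_abs, Real.norm_eq_abs, abs_of_nonneg (by positivity)]
        exact mul_le_mul_of_nonneg_left (h N hN) (by positivity)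
      have h7 : (∑ s ∈ range (p + 1), ((if s = 0 then (1 : ℝ) else 0) *
          (if p - s = 0 then 1 else 0) + 0) - (if p = 0 then (1 : ℝ) else 0)) =
          if p + 2 = 0 then 1 else 0 := by
        simp only [add_zero]
        rw [sum_range_succ']
        simp
      rw [h7] at h5
      refine h5.congr' ?_
      filter_upwards [eventually_gt_atTop 0] with N hN
      exact (h1 N hN).symm

/-- orthogonality of the Chebyshev polynomials in the limit -/
theorem tau_conv_mul (a b : ℕ) : L2c (fun N => tp N (Sp a * Sp b)) (if a = b then 1 else 0) := by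
  wlog hab : a ≤ b generalizing a b
  · have h := this b a (by omega)
    rw [mul_comm] at h
    have e : (if b = a then (1 : ℝ) else 0) = if a = b then 1 else 0 := by
      by_cases h : a = b
      · simp [h]
      · simp [h, Ne.symm h]
    rwa [e] at h
  have h := L2c.sum (range (a + 1)) (f := fun j N => tp N (Sp (b - a + 2 * j)))
    (a := fun j => if b - a + 2 * j = 0 then 1 else 0) fun j _ => tau_conv _
  have e1 : (fun (N : ℕ) (z : Ix N → ℝ) => ∑ j ∈ range (a + 1), tp N (Sp (b - a + 2 * j)) z) =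
      fun N => tp N (Sp a * Sp b) := by
    funext N z
    rw [Sp_mul a b hab, tp_sum]
  have e2 : (∑ j ∈ range (a + 1), if b - a + 2 * j = 0 then (1 : ℝ) else 0) =
      if a = b then 1 else 0 := by
    rw [sum_range_succ']
    by_cases h : a = b
    · subst h; simp
    · have h1 : b - a ≠ 0 := by omega
      simp [h, h1]
  rw [e1, e2] at h
  exact h

end Vale.Agent.P146.Sk
end

section

/-!
# P146, module VAR: the limit functional of the normalized traces
-/

open MeasureTheory ProbabilityTheory Finset Matrix Filter Topology Polynomial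

namespace Vale.Agent.P146.Sk

open Vale.Agent.P157.Lv

set_option linter.all false

lemma X_mul_Sp (p : ℕ) : X * Sp (p + 1) = Sp (p + 2) + Sp p := by rw [Sp]; ring

lemma span_Sp_X (q : ℝ[X]) (hq : q ∈ Submodule.span ℝ (Set.range Sp)) :
    X * q ∈ Submodule.span ℝ (Set.range Sp) := by
  induction hq using Submodule.span_induction with
  | mem x hx =>
    obtain ⟨p, rfl⟩ := hx
    match p with
    | 0 =>
      have : X * Sp 0 = Sp 1 := by simp [Sp]
      rw [this]
      exact Submodule.subset_span ⟨1, rfl⟩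
    | p + 1 =>
      rw [X_mul_Sp]
      exact Submodule.add_mem _ (Submodule.subset_span ⟨p + 2, rfl⟩)
        (Submodule.subset_span ⟨p, rfl⟩)
  | zero => simp
  | add x y _ _ hx hy => rw [mul_add]; exact Submodule.add_mem _ hx hy
  | smul c x _ hx => rw [mul_smul_comm]; exact Submodule.smul_mem _ c hx

lemma mem_span_Sp (q : ℝ[X]) : q ∈ Submodule.span ℝ (Set.range Sp) := by
  have hX : ∀ n : ℕ, (X : ℝ[X]) ^ n ∈ Submodule.span ℝ (Set.range Sp) := by
    intro n
    induction n with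
    | zero => exact Submodule.subset_span ⟨0, rfl⟩
    | succ n ih => rw [pow_succ']; exact span_Sp_X _ ih
  induction q using Polynomial.induction_on' with
  | add p q hp hq => exact Submodule.add_mem _ hp hq
  | monomial n a =>
    rw [← C_mul_X_pow_eq_monomial, ← smul_eq_C_mul]
    exact Submodule.smul_mem _ a (hX n)

lemma exists_lim (q : ℝ[X]) : ∃ a : ℝ, L2c (fun N => tp N q) a := by
  have hq := mem_span_Sp q
  induction hq using Submodule.span_induction with
  | mem x hx =>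
    obtain ⟨p, rfl⟩ := hx
    exact ⟨_, tau_conv p⟩
  | zero =>
    refine ⟨0, ?_⟩
    have h : (fun N => tp N 0) = fun (N : ℕ) (_ : Ix N → ℝ) => (0 : ℝ) := by
      funext N z; simp [tp]
    rw [h]
    exact L2c.const 0
  | add x y _ _ hx hy =>
    obtain ⟨a, ha⟩ := hx
    obtain ⟨b, hb⟩ := hy
    refine ⟨a + b, ?_⟩
    have h := ha.add hb
    simp only [← tp_add] at h
    exact h
  | smul c x _ hx =>
    obtain ⟨a, ha⟩ := hx
    refine ⟨c * a, ?_⟩
    have h := ha.const_mul c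
    simp only [← tp_C_mul, ← smul_eq_C_mul] at h
    exact h

/-- the limit of the normalized trace (integration against the semicircle law) -/
noncomputable def Lam (q : ℝ[X]) : ℝ := Classical.choose (exists_lim q)

lemma Lam_spec (q : ℝ[X]) : L2c (fun N => tp N q) (Lam q) := Classical.choose_spec (exists_lim q)

lemma L2c.unique {f : ∀ N : ℕ, (Ix N → ℝ) → ℝ} {a b : ℝ} (h : L2c f a) (h' : L2c f b) : a = b :=
  tendsto_nhds_unique h.int h'.int

lemma Lam_add (q r : ℝ[X]) : Lam (q + r) = Lam q + Lam r := by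
  refine (Lam_spec (q + r)).unique ?_
  have h := (Lam_spec q).add (Lam_spec r)
  simp only [← tp_add] at h
  exact h

lemma Lam_sub (q r : ℝ[X]) : Lam (q - r) = Lam q - Lam r := by
  refine (Lam_spec (q - r)).unique ?_
  have h := (Lam_spec q).sub (Lam_spec r)
  simp only [← tp_sub] at h
  exact h

lemma Lam_C_mul (c : ℝ) (q : ℝ[X]) : Lam (C c * q) = c * Lam q := by
  refine (Lam_spec (C c * q)).unique ?_
  have h := (Lam_spec q).const_mul c
  simp only [← tp_C_mul] at h
  exact h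

lemma Lam_sum {κ : Type*} (s : Finset κ) (q : κ → ℝ[X]) :
    Lam (∑ k ∈ s, q k) = ∑ k ∈ s, Lam (q k) := by
  refine (Lam_spec _).unique ?_
  have h := L2c.sum s (f := fun k N => tp N (q k)) (a := fun k => Lam (q k))
    fun k _ => Lam_spec (q k)
  simp only [← tp_sum] at h
  exact h

lemma Lam_Sp (p : ℕ) : Lam (Sp p) = if p = 0 then 1 else 0 := (Lam_spec _).unique (tau_conv p)

lemma Lam_Sp_mul (a b : ℕ) : Lam (Sp a * Sp b) = if a = b then 1 else 0 :=
  (Lam_spec _).unique (tau_conv_mul a b)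

/-- `(S_{j+2} - S_j)' = (j+2) S_{j+1}` -/
theorem deriv_Sp_sub (j : ℕ) :
    derivative (Sp (j + 2)) - derivative (Sp j) = C ((j : ℝ) + 2) * Sp (j + 1) := by
  induction j using Nat.strong_induction_on with
  | _ j ih =>
    match j with
    | 0 =>
      simp only [Sp, derivative_sub, derivative_mul, derivative_X, derivative_one]
      simp only [mul_one, one_mul, sub_zero, Nat.cast_zero, zero_add]
      rw [show (C (2 : ℝ)) = 2 from rfl]
      ring
    | 1 =>
      simp only [Sp, derivative_sub, derivative_mul, derivative_X, derivative_one]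
      simp only [mul_one, one_mul, sub_zero, Nat.cast_one]
      have h3 : (C ((1 : ℝ) + 2) : ℝ[X]) = 3 := by
        rw [show (1 : ℝ) + 2 = 3 by norm_num]; rfl
      rw [h3]
      ring
    | j + 2 =>
      have h1 := ih (j + 1) (by omega)
      have h0 := ih j (by omega)
      have e1 : Sp (j + 2 + 2) = X * Sp (j + 2 + 1) - Sp (j + 2) := rfl
      have e2 : Sp (j + 2 + 1) = X * Sp (j + 2) - Sp (j + 1) := rfl
      have e3 : Sp (j + 2) = X * Sp (j + 1) - Sp j := rfl
      have h2 : derivative (Sp (j + 2 + 2)) - derivative (Sp (j + 2)) =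
          (Sp (j + 2 + 1) - Sp (j + 1)) + X * (derivative (Sp (j + 1 + 2)) -
            derivative (Sp (j + 1))) - (derivative (Sp (j + 2)) - derivative (Sp j)) := by
        conv_lhs => rw [e1]
        conv_lhs => arg 2; rw [e3]
        rw [derivative_sub, derivative_mul, derivative_X, derivative_sub, derivative_mul,
          derivative_X]
        rw [show j + 1 + 2 = j + 2 + 1 by ring]
        ring
      rw [h2, h1, h0, e2]
      have c1 : (C (((j + 1 : ℕ) : ℝ) + 2) : ℝ[X]) = C ((j : ℝ) + 2) + 1 := by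
        rw [← C_1, ← C_add]; congr 1; push_cast; ring
      have c2 : (C (((j + 2 : ℕ) : ℝ) + 2) : ℝ[X]) = C ((j : ℝ) + 2) + 2 := by
        rw [show (2 : ℝ[X]) = C (2 : ℝ) from rfl, ← C_add]; congr 1; push_cast; ring
      rw [c1, c2]
      have e4 : Sp (j + 1 + 1) = Sp (j + 2) := rfl
      rw [e4]
      ring

end Vale.Agent.P146.Sk
end

section

/-!
# P146: the elementary one-variable conclusion
-/

open MeasureTheory Set

namespace Vale.Agent.P146.Gap

/-- a convex function which is negative at `0` and positive at `τ` is positive after `τ` -/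
theorem real_convex_pos {k : ℝ → ℝ} {s : ℝ} (hk : ConvexOn ℝ (Icc 0 s) k) (h0 : k 0 < 0) {τ σ : ℝ}
    (hτ : 0 ≤ τ) (hτσ : τ ≤ σ) (hσ : σ ≤ s) (hpos : 0 < k τ) : 0 < k σ := by
  have h1 : k τ ≤ max (k 0) (k σ) :=
    hk.le_max_of_mem_Icc ⟨le_rfl, by linarith⟩ ⟨by linarith, hσ⟩ ⟨hτ, hτσ⟩
  rcases le_max_iff.1 h1 with h | h
  · linarith
  · linarith

/-- the sign of `h` -/
theorem real_nonpos {s : ℝ} {h k : ℝ → ℝ} (hs : 0 < s) (hc : ContinuousOn h (Icc 0 s))
    (hd : ∀ τ ∈ Ioo 0 s, HasDerivAt h (k τ) τ) (hk : ConvexOn ℝ (Icc 0 s) k) (h0 : k 0 < 0)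
    (hh0 : h 0 = 0) (hhs : h s ≤ 0) : ∀ t ∈ Icc 0 s, h t ≤ 0 := by
  intro t ht
  by_cases hA : ∀ τ ∈ Ioo 0 t, k τ ≤ 0
  · have h1 : AntitoneOn h (Icc 0 t) := by
      refine antitoneOn_of_deriv_nonpos (convex_Icc 0 t) (hc.mono (Icc_subset_Icc_right ht.2))
        ?_ ?_
      · rw [interior_Icc]
        intro τ hτ
        exact (hd τ ⟨hτ.1, hτ.2.trans_le ht.2⟩).differentiableAt.differentiableWithinAt
      · rw [interior_Icc]
        intro τ hτ
        rw [(hd τ ⟨hτ.1, hτ.2.trans_le ht.2⟩).deriv]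
        exact hA τ hτ
    have := h1 (left_mem_Icc.2 ht.1) (right_mem_Icc.2 ht.1) ht.1
    linarith
  · push Not at hA
    obtain ⟨τ, hτ, hpos⟩ := hA
    have h1 : MonotoneOn h (Icc τ s) := by
      refine monotoneOn_of_deriv_nonneg (convex_Icc τ s) (hc.mono (Icc_subset_Icc_left hτ.1.le))
        ?_ ?_
      · rw [interior_Icc]
        intro σ hσ
        exact (hd σ ⟨hτ.1.trans hσ.1, hσ.2⟩).differentiableAt.differentiableWithinAt
      · rw [interior_Icc]
        intro σ hσ
        rw [(hd σ ⟨hτ.1.trans hσ.1, hσ.2⟩).deriv]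
        exact (real_convex_pos hk h0 hτ.1.le hσ.1.le hσ.2.le hpos).le
    have := h1 ⟨hτ.2.le, ht.2⟩ ⟨(hτ.2.le.trans ht.2), le_rfl⟩ ht.2
    linarith

/-- the decay of `h` near `0` and its integral -/
theorem real_integral {s D e : ℝ} {h k : ℝ → ℝ} (hs : 0 < s) (hD : 0 < D) (he : 0 ≤ e)
    (hc : ContinuousOn h (Icc 0 s)) (hd : ∀ τ ∈ Ioo 0 s, HasDerivAt h (k τ) τ)
    (hk : ∀ τ ∈ Ioo 0 s, τ ≤ D → k τ ≤ -e) (hh0 : h 0 = 0)
    (hneg : ∀ t ∈ Icc 0 s, h t ≤ 0) :
    ∫ τ in (0 : ℝ)..s, h τ ≤ - (e * (min s D) ^ 2 / 2) := by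
  obtain ⟨t0, ht0⟩ : ∃ t0, t0 = min s D := ⟨_, rfl⟩
  have ht0s : t0 ≤ s := by rw [ht0]; exact min_le_left _ _
  have ht0D : t0 ≤ D := by rw [ht0]; exact min_le_right _ _
  have ht0p : 0 < t0 := by rw [ht0]; exact lt_min hs hD
  rw [← ht0]
  have h1 : AntitoneOn (fun t => h t + e * t) (Icc 0 t0) := by
    refine antitoneOn_of_deriv_nonpos (convex_Icc 0 t0) ?_ ?_ ?_
    · exact (hc.mono (Icc_subset_Icc_right ht0s)).add (by fun_prop)
    · rw [interior_Icc]
      intro τ hτ
      have := (hd τ ⟨hτ.1, hτ.2.trans_le ht0s⟩).add ((hasDerivAt_id τ).const_mul e)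
      exact this.differentiableAt.differentiableWithinAt
    · rw [interior_Icc]
      intro τ hτ
      have := (hd τ ⟨hτ.1, hτ.2.trans_le ht0s⟩).add ((hasDerivAt_id τ).const_mul e)
      have e1 : deriv (fun t => h t + e * t) τ = k τ + e * 1 := this.deriv
      rw [e1]
      have := hk τ ⟨hτ.1, hτ.2.trans_le ht0s⟩ (hτ.2.le.trans ht0D)
      linarith
  have h2 : ∀ t ∈ Icc 0 t0, h t ≤ - e * t := by
    intro t ht
    have := h1 (left_mem_Icc.2 ht0p.le) ht ht.1
    simp only [mul_zero, add_zero, hh0] at this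
    linarith
  have i1 : IntervalIntegrable h volume 0 t0 := by
    apply ContinuousOn.intervalIntegrable
    rw [uIcc_of_le ht0p.le]
    exact hc.mono (Icc_subset_Icc_right ht0s)
  have i2 : IntervalIntegrable h volume t0 s := by
    apply ContinuousOn.intervalIntegrable
    rw [uIcc_of_le ht0s]
    exact hc.mono (Icc_subset_Icc_left ht0p.le)
  rw [← intervalIntegral.integral_add_adjacent_intervals i1 i2]
  have h3 : ∫ τ in (0 : ℝ)..t0, h τ ≤ ∫ τ in (0 : ℝ)..t0, - e * τ := by
    refine intervalIntegral.integral_mono_on ht0p.le i1 ?_ h2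
    exact (by fun_prop : Continuous fun τ : ℝ => - e * τ).intervalIntegrable _ _
  have h4 : ∫ τ in t0..s, h τ ≤ 0 := by
    have : ∫ τ in t0..s, h τ ≤ ∫ τ in t0..s, (0 : ℝ) := by
      refine intervalIntegral.integral_mono_on ht0s i2 (by simp) fun t ht => ?_
      exact hneg t ⟨ht0p.le.trans ht.1, ht.2⟩
    simpa using this
  have h5 : ∫ τ in (0 : ℝ)..t0, - e * τ = - (e * t0 ^ 2 / 2) := by
    rw [intervalIntegral.integral_const_mul, integral_id]; ring
  linarith

theorem gap_real {b S C δ : ℝ} (hb : 0 < b) (hC : 0 ≤ C) (hδ : 0 < δ) :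
    ∃ η₀ > 0, ∀ (s₁ : ℝ) (R M M1 M2 : ℝ → ℝ), 0 < s₁ → s₁ ≤ S →
      ContinuousOn R (Icc 0 s₁) → ContinuousOn M (Icc 0 s₁) → ContinuousOn M1 (Icc 0 s₁) →
      (∀ τ ∈ Ioo 0 s₁, HasDerivAt R (M τ) τ) → (∀ τ ∈ Ioo 0 s₁, HasDerivAt M (M1 τ) τ) →
      (∀ τ ∈ Ioo 0 s₁, HasDerivAt M1 (M2 τ) τ) → (∀ τ ∈ Ioo 0 s₁, 0 ≤ M2 τ) →
      (∀ τ ∈ Icc 0 s₁, M1 τ ≤ C) → R 0 = 0 → R s₁ ≤ s₁ / b ^ 2 →
      s₁ ^ 2 / (2 * b ^ 2) - η₀ * s₁ ^ 2 ≤ ∫ τ in (0 : ℝ)..s₁, R τ →
      (1 - δ) / b ^ 2 ≤ M 0 := by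
  obtain ⟨c, hc⟩ : ∃ c : ℝ, c = 1 / b ^ 2 := ⟨_, rfl⟩
  have hc0 : 0 < c := by rw [hc]; positivity
  obtain ⟨D, hD⟩ : ∃ D : ℝ, D = δ * c / (2 * (C + 1)) := ⟨_, rfl⟩
  have hD0 : 0 < D := by rw [hD]; positivity
  refine ⟨min (δ * c / 8) (δ * c * D ^ 2 / (8 * (S ^ 2 + 1))), by positivity, ?_⟩
  intro s R M M1 M2 hs hsS cR cM cM1 dR dM dM1 hM2 hM1 hR0 hRs hint
  by_contra hcon
  push Not at hcon
  have e1 : (1 - δ) / b ^ 2 = c - δ * c := by rw [hc]; ring
  rw [e1] at hcon
  have hM1mono : MonotoneOn M1 (Icc 0 s) := by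
    refine monotoneOn_of_deriv_nonneg (convex_Icc 0 s) cM1 ?_ ?_
    · rw [interior_Icc]
      exact fun τ hτ => (dM1 τ hτ).differentiableAt.differentiableWithinAt
    · rw [interior_Icc]
      intro τ hτ
      rw [(dM1 τ hτ).deriv]; exact hM2 τ hτ
  have hkd : ∀ τ ∈ Ioo 0 s, HasDerivAt (fun t => M t - c) (M1 τ) τ := fun τ hτ =>
    (dM τ hτ).sub_const c
  have hconv : ConvexOn ℝ (Icc 0 s) (fun t => M t - c) := by
    refine MonotoneOn.convexOn_of_deriv (convex_Icc 0 s) (cM.sub continuousOn_const) ?_ ?_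
    · rw [interior_Icc]
      exact fun τ hτ => (hkd τ hτ).differentiableAt.differentiableWithinAt
    · rw [interior_Icc]
      intro x hx y hy hxy
      rw [(hkd x hx).deriv, (hkd y hy).deriv]
      exact hM1mono (Ioo_subset_Icc_self hx) (Ioo_subset_Icc_self hy) hxy
  have hd : ∀ τ ∈ Ioo 0 s, HasDerivAt (fun t => R t - c * t) (M τ - c) τ := by
    intro τ hτ
    have := (dR τ hτ).sub ((hasDerivAt_id τ).const_mul c)
    rw [mul_one] at this
    exact this
  have hcont : ContinuousOn (fun t => R t - c * t) (Icc 0 s) := cR.sub (by fun_prop)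
  have hk0 : M 0 - c < 0 := by
    have : 0 < δ * c := by positivity
    linarith
  have hneg : ∀ t ∈ Icc 0 s, R t - c * t ≤ 0 := by
    refine real_nonpos hs hcont hd hconv hk0 (by simp [hR0]) ?_
    have e2 : s / b ^ 2 = c * s := by rw [hc]; ring
    rw [e2] at hRs
    linarith
  have hkb : ∀ τ ∈ Ioo 0 s, τ ≤ D → M τ - c ≤ -(δ * c / 2) := by
    intro τ hτ hτD
    have h1 : MonotoneOn (fun t => C * t - (M t - c)) (Icc 0 s) := by
      refine monotoneOn_of_deriv_nonneg (convex_Icc 0 s) ?_ ?_ ?_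
      · exact ContinuousOn.sub (by fun_prop) (cM.sub continuousOn_const)
      · rw [interior_Icc]
        intro τ hτ
        exact (((hasDerivAt_id τ).const_mul C).sub (hkd τ hτ)).differentiableAt.differentiableWithinAt
      · rw [interior_Icc]
        intro τ hτ
        have e3 : deriv (fun t => C * t - (M t - c)) τ = C * 1 - M1 τ :=
          (((hasDerivAt_id τ).const_mul C).sub (hkd τ hτ)).deriv
        rw [e3]
        have := hM1 τ (Ioo_subset_Icc_self hτ)
        linarith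
    have h2 := h1 (left_mem_Icc.2 hs.le) (Ioo_subset_Icc_self hτ) hτ.1.le
    simp only [mul_zero] at h2
    have h3 : C * τ ≤ δ * c / 2 := by
      have h4 : C * τ ≤ C * D := mul_le_mul_of_nonneg_left hτD hC
      have h5 : (C + 1) * D = δ * c / 2 := by rw [hD]; field_simp
      linarith only [h5, h4, hD0]
    linarith only [h3, h2, hcon]
  have hI := real_integral hs hD0 (by positivity : 0 ≤ δ * c / 2) hcont hd hkb (by simp [hR0]) hneg
  have hsplit : ∫ τ in (0 : ℝ)..s, (R τ - c * τ) = (∫ τ in (0 : ℝ)..s, R τ) - c * s ^ 2 / 2 := by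
    rw [intervalIntegral.integral_sub, intervalIntegral.integral_const_mul, integral_id]
    · ring
    · apply ContinuousOn.intervalIntegrable
      rw [uIcc_of_le hs.le]
      exact cR
    · exact (by fun_prop : Continuous fun τ : ℝ => c * τ).intervalIntegrable _ _
  rw [hsplit] at hI
  have e4 : s ^ 2 / (2 * b ^ 2) = c * s ^ 2 / 2 := by rw [hc]; ring
  rw [e4] at hint
  have hkey : δ * c / 4 * (min s D) ^ 2 ≤
      min (δ * c / 8) (δ * c * D ^ 2 / (8 * (S ^ 2 + 1))) * s ^ 2 := by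
    linarith only [hI, hint]
  have hs2 : 0 < s ^ 2 := by positivity
  have hδc : 0 < δ * c := by positivity
  rcases le_total s D with h | h
  · rw [min_eq_left h] at hkey
    have h1 : min (δ * c / 8) (δ * c * D ^ 2 / (8 * (S ^ 2 + 1))) * s ^ 2 ≤ δ * c / 8 * s ^ 2 :=
      mul_le_mul_of_nonneg_right (min_le_left _ _) hs2.le
    linarith only [mul_pos (sub_pos.2 hs2) (sub_pos.2 hδc), h1, hkey]
  · rw [min_eq_right h] at hkey
    have h1 : min (δ * c / 8) (δ * c * D ^ 2 / (8 * (S ^ 2 + 1))) * s ^ 2 ≤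
        δ * c * D ^ 2 / (8 * (S ^ 2 + 1)) * (S ^ 2 + 1) := by
      have h2 : s ^ 2 ≤ S ^ 2 + 1 := by linarith only [mul_nonneg (sub_nonneg.2 hsS) (sub_nonneg.2 hsS), mul_nonneg (le_of_lt (sub_pos.2 hs)) (sub_nonneg.2 hsS)]
      exact mul_le_mul (min_le_right _ _) h2 hs2.le (by (clear * - hδ hc0 hD0; positivity))
    have h3 : δ * c * D ^ 2 / (8 * (S ^ 2 + 1)) * (S ^ 2 + 1) = δ * c * D ^ 2 / 8 := by
      field_simp
    rw [h3] at h1
    have h4 : 0 < δ * c * D ^ 2 := by positivity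
    linarith only [h4, h1, hkey]

end Vale.Agent.P146.Gap
end
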