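import Mathlib
import Vale.Agent.P146.Bdl.B6
import Vale.Agent.P146.Bdl.B9
import Vale.Agent.P146.Bdl.B8

set_option linter.all false

section

/-!
# P146, polynomial lower bound of the variance: definitions

`G(z) = (z - W)⁻¹` with `z = 2 + i y`, `G = A - i B`.
-/

open MeasureTheory ProbabilityTheory Matrix Filter Topology

namespace Vale.Agent.P146.Pw2

open Vale.Agent.P157 (spin)
open Vale.Agent.P157.Lv
open Vale.Agent.P157.Par (Path Exponents topN lw spinPart)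
open Vale.Agent.P146.Sk
open Vale.Agent.P166.F (Lam)
open Vale.Agent.P146.Sk.Gen (GI gz gl r0 gS gF gOb gIsOpt GD gV)

variable {N : ℕ}

/-- `H = ((2 - W)² + y²)⁻¹`. -/
noncomputable def Hy (y : ℝ) (W : Matrix (Fin N) (Fin N) ℝ) : Matrix (Fin N) (Fin N) ℝ :=
  (((2 : ℝ) • 1 - W) * ((2 : ℝ) • 1 - W) + (y ^ 2) • 1)⁻¹

/-- The real part of `(2 + i y - W)⁻¹`. -/
noncomputable def Ay (y : ℝ) (W : Matrix (Fin N) (Fin N) ℝ) : Matrix (Fin N) (Fin N) ℝ :=
  ((2 : ℝ) • 1 - W) * Hy y W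

/-- Minus the imaginary part of `(2 + i y - W)⁻¹`. -/
noncomputable def By (y : ℝ) (W : Matrix (Fin N) (Fin N) ℝ) : Matrix (Fin N) (Fin N) ℝ :=
  y • Hy y W

/-- Normalized traces. -/
noncomputable def tA (N : ℕ) (y : ℝ) (g : Ix N → ℝ) : ℝ := 1 / N * (Ay y (Wm N g)).trace

/-- Normalized traces. -/
noncomputable def tB (N : ℕ) (y : ℝ) (g : Ix N → ℝ) : ℝ := 1 / N * (By y (Wm N g)).trace

/-- Their means. -/
noncomputable def mA (N : ℕ) (y : ℝ) : ℝ := ∫ g, tA N y g ∂(gI (Ix N))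

/-- Their means. -/
noncomputable def mB (N : ℕ) (y : ℝ) : ℝ := ∫ g, tB N y g ∂(gI (Ix N))

/-- `ζ = z - E τ`. -/
noncomputable def zt (N : ℕ) (y : ℝ) : ℂ := ⟨2 - mA N y, y + mB N y⟩

/-- The energy with the parameters `a, b`. -/
noncomputable def Ey (N : ℕ) (β y a b : ℝ) : (Ix N → ℝ) → (Fin N → Bool) → ℝ := fun g x =>
  β / 2 * (a * qf (Wm N g) (spin x) - b * qf (By y (Wm N g)) (spin x)) - N * Real.log 2

/-- The system with fields. -/
noncomputable abbrev sy (N K : ℕ) (m : ℕ → ℝ) (β y a b : ℝ) (s : ℕ → ℝ) :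
    Sy (GI (Ix N) N K) (Fin N → Bool) := gS K m (Ey N β y a b) spin s

/-- `(1/N) E x · W x`. -/
noncomputable def Tw {N K : ℕ} (S : Sy (GI (Ix N) N K) (Fin N → Bool)) : ℝ :=
  1 / N * S.Ex (fun z x => qf (Wm N (r0 z)) (spin x))

/-- `(1/N) E x · B x`. -/
noncomputable def Tb {N K : ℕ} (y : ℝ) (S : Sy (GI (Ix N) N K) (Fin N → Bool)) : ℝ :=
  1 / N * S.Ex (fun z x => qf (By y (Wm N (r0 z))) (spin x))

/-- `(1/N) E ⟨x · B x⟩` for the SK model. -/
noncomputable def Jy (β y : ℝ) (N : ℕ) : ℝ :=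
  1 / N * ∫ g, gav β N g (fun x => qf (By y (Wm N g)) (spin x)) ∂(gI (Ix N))

/-- The sum of the deviations of the overlaps. -/
noncomputable def Vd {N K : ℕ} (m : ℕ → ℝ) (S : Sy (GI (Ix N) N K) (Fin N → Bool)) : ℝ :=
  ∑ l ∈ Finset.range (K + 1), (m (l + 1) - m l) * dev2 S l

/-- `φ(λ) = -Im (ζ / (ζ - c λ)²)`. -/
noncomputable def phi (ζ : ℂ) (c lam : ℝ) : ℝ := -(ζ / (ζ - (c : ℂ) * lam) ^ 2).im

/-- `Φ(q) = ∫₀¹ φ(Λ_q(u)) du`. -/
noncomputable def PHI (ζ : ℂ) (c : ℝ) (K : ℕ) (m q : ℕ → ℝ) : ℝ :=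
  ∫ u in (0 : ℝ)..1, phi ζ c (Lam K m q u)

/-- The uniform grid of exponents. -/
noncomputable def gm (n : ℕ) (l : ℕ) : ℝ := (l : ℝ) / (n + 1)

lemma gm_exponents (n : ℕ) : Exponents n (gm n) := by
  refine ⟨by simp [gm], ?_, fun l _ => ?_⟩
  · unfold gm
    push_cast
    exact div_self (by positivity)
  · unfold gm
    push_cast
    gcongr
    linarith

lemma gm_sub (n l : ℕ) : gm n (l + 1) - gm n l = 1 / (n + 1) := by
  unfold gm
  push_cast
  ring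

end Vale.Agent.P146.Pw2
end

section

/-!
# P146 / Pw2, module RES: the resolvent `(2 + i y - W)⁻¹ = A - i B` of a symmetric matrix

Everything is real: `H = ((2 - M)² + y²)⁻¹`, `A = (2 - M) H`, `B = y H`.
-/

open MeasureTheory ProbabilityTheory Matrix Filter Topology Finset
open scoped Matrix.Norms.Operator

namespace Vale.Agent.P146.Pw2

open Vale.Agent.P157.Lv Vale.Agent.P146.Sk
open Vale.Agent.P157 (spin)

set_option linter.all false

variable {N : ℕ}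

/-- `2 - M` -/
noncomputable def Km (M : Matrix (Fin N) (Fin N) ℝ) : Matrix (Fin N) (Fin N) ℝ :=
  (2 : ℝ) • (1 : Matrix (Fin N) (Fin N) ℝ) - M

/-- `(2 - M)² + y²` -/
noncomputable def Pm (y : ℝ) (M : Matrix (Fin N) (Fin N) ℝ) : Matrix (Fin N) (Fin N) ℝ :=
  Km M * Km M + (y ^ 2) • (1 : Matrix (Fin N) (Fin N) ℝ)

lemma Hy_def (y : ℝ) (M : Matrix (Fin N) (Fin N) ℝ) : Hy y M = (Pm y M)⁻¹ := rfl

lemma Ay_def (y : ℝ) (M : Matrix (Fin N) (Fin N) ℝ) : Ay y M = Km M * Hy y M := rfl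

lemma By_def (y : ℝ) (M : Matrix (Fin N) (Fin N) ℝ) : By y M = y • Hy y M := rfl

/-! ### algebra -/

section algebra

variable {M : Matrix (Fin N) (Fin N) ℝ} {y : ℝ}

lemma Km_transpose (hM : Mᵀ = M) : (Km M)ᵀ = Km M := by
  unfold Km
  rw [transpose_sub, transpose_smul, transpose_one, hM]

lemma Pm_transpose (hM : Mᵀ = M) : (Pm y M)ᵀ = Pm y M := by
  unfold Pm
  rw [transpose_add, transpose_mul, Km_transpose hM, transpose_smul, transpose_one]

lemma dot_sq_mulVec {K : Matrix (Fin N) (Fin N) ℝ} (hK : Kᵀ = K) (x : Fin N → ℝ) :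
    x ⬝ᵥ ((K * K) *ᵥ x) = nv (K *ᵥ x) ^ 2 := by
  rw [← dot_self_eq, ← mulVec_mulVec, dotProduct_mulVec, ← mulVec_transpose, hK]

lemma dot_Pm (hM : Mᵀ = M) (x : Fin N → ℝ) :
    x ⬝ᵥ (Pm y M *ᵥ x) = nv (Km M *ᵥ x) ^ 2 + y ^ 2 * nv x ^ 2 := by
  unfold Pm
  rw [add_mulVec, dotProduct_add, dot_sq_mulVec (Km_transpose hM), smul_mulVec, one_mulVec,
    dotProduct_smul, dot_self_eq, smul_eq_mul]

lemma isUnit_Pm (hM : Mᵀ = M) (hy : 0 < y) : IsUnit (Pm y M) := by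
  rw [← mulVec_injective_iff_isUnit]
  intro u v huv
  have h1 : Pm y M *ᵥ (u - v) = 0 := by
    rw [mulVec_sub]
    exact sub_eq_zero.2 huv
  have h2 := dot_Pm (y := y) hM (u - v)
  rw [h1, dotProduct_zero] at h2
  have h3 : nv (u - v) ^ 2 = 0 := by
    have h4 : 0 ≤ nv (Km M *ᵥ (u - v)) ^ 2 := sq_nonneg _
    have h5 : 0 ≤ nv (u - v) ^ 2 := sq_nonneg _
    have h6 : 0 < y ^ 2 := by positivity
    nlinarith
  have h4 : nv (u - v) = 0 := by
    exact pow_eq_zero_iff (two_ne_zero) |>.1 h3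
  rw [nv_sq] at h3
  funext i
  have h5 := (Finset.sum_eq_zero_iff_of_nonneg (fun i _ => sq_nonneg ((u - v) i))).1 h3 i
    (mem_univ i)
  have h6 : (u - v) i = 0 := by
    exact pow_eq_zero_iff (two_ne_zero) |>.1 h5
  exact sub_eq_zero.1 h6

lemma Pm_mul_Hy (hM : Mᵀ = M) (hy : 0 < y) : Pm y M * Hy y M = 1 :=
  mul_nonsing_inv _ ((isUnit_iff_isUnit_det _).1 (isUnit_Pm hM hy))

lemma Hy_mul_Pm (hM : Mᵀ = M) (hy : 0 < y) : Hy y M * Pm y M = 1 :=
  nonsing_inv_mul _ ((isUnit_iff_isUnit_det _).1 (isUnit_Pm hM hy))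

lemma Km_mul_Pm : Km M * Pm y M = Pm y M * Km M := by
  unfold Pm
  rw [mul_add, add_mul, Matrix.mul_smul, Matrix.smul_mul, mul_one, one_mul, mul_assoc]

lemma Km_mul_Hy (hM : Mᵀ = M) (hy : 0 < y) : Km M * Hy y M = Hy y M * Km M := by
  calc Km M * Hy y M = (Hy y M * Pm y M) * (Km M * Hy y M) := by
        rw [Hy_mul_Pm hM hy, one_mul]
    _ = Hy y M * (Pm y M * Km M) * Hy y M := by simp only [mul_assoc]
    _ = Hy y M * (Km M * Pm y M) * Hy y M := by rw [Km_mul_Pm]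
    _ = Hy y M * Km M * (Pm y M * Hy y M) := by simp only [mul_assoc]
    _ = _ := by rw [Pm_mul_Hy hM hy, mul_one]

lemma Hy_transpose (hM : Mᵀ = M) : (Hy y M)ᵀ = Hy y M := by
  rw [Hy_def]
  rw [transpose_nonsing_inv, Pm_transpose hM]

lemma Ay_eq (hM : Mᵀ = M) (hy : 0 < y) : Ay y M = Hy y M * Km M := Km_mul_Hy hM hy

lemma Ay_transpose (hM : Mᵀ = M) (hy : 0 < y) : (Ay y M)ᵀ = Ay y M := by
  rw [Ay_eq hM hy, transpose_mul, Km_transpose hM, Hy_transpose hM]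
  exact Km_mul_Hy hM hy

lemma By_transpose (hM : Mᵀ = M) : (By y M)ᵀ = By y M := by
  rw [By_def]
  rw [transpose_smul, Hy_transpose hM]

lemma Km_sq_Hy (hM : Mᵀ = M) (hy : 0 < y) :
    Km M * (Km M * Hy y M) + y ^ 2 • Hy y M = 1 := by
  have h := Pm_mul_Hy hM hy
  unfold Pm at h
  rw [add_mul, Matrix.smul_mul, one_mul, mul_assoc] at h
  exact h

/-- `(2 - M) A + y B = 1` -/
lemma Km_mul_Ay (hM : Mᵀ = M) (hy : 0 < y) : Km M * Ay y M + y • By y M = 1 := by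
  have h := Km_sq_Hy hM hy
  rw [Ay_def, By_def]
  rw [smul_smul, ← sq]
  exact h

/-- `(2 - M) B = y A` -/
lemma Km_mul_By : Km M * By y M = y • Ay y M := by
  rw [Ay_def, By_def]
  rw [Matrix.mul_smul]

/-- `A² + B² = H` -/
lemma Ay_sq_add (hM : Mᵀ = M) (hy : 0 < y) : Ay y M * Ay y M + By y M * By y M = Hy y M := by
  have h := Km_sq_Hy hM hy
  have h1 : Ay y M * Ay y M = Hy y M * (Km M * (Km M * Hy y M)) := by
    conv_lhs => rw [Ay_eq hM hy]
    rw [← Ay_eq hM hy]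
    conv_lhs => lhs; rw [Ay_eq hM hy]
    rw [Ay_def]
    rw [mul_assoc]
  have h2 : By y M * By y M = Hy y M * (y ^ 2 • Hy y M) := by
    rw [By_def]
    rw [Matrix.smul_mul, Matrix.mul_smul, Matrix.mul_smul, smul_smul, sq]
  rw [h1, h2, ← mul_add, h, mul_one]

lemma Ay_mul_By (hM : Mᵀ = M) (hy : 0 < y) : Ay y M * By y M = By y M * Ay y M := by
  rw [By_def]
  rw [Matrix.mul_smul, Matrix.smul_mul]
  congr 1
  conv_rhs => rw [Ay_def]
  rw [Ay_eq hM hy, mul_assoc]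

/-- `M A = 2 A + y B - 1` -/
lemma mul_Ay (hM : Mᵀ = M) (hy : 0 < y) : M * Ay y M = (2 : ℝ) • Ay y M + y • By y M - 1 := by
  have h := Km_mul_Ay hM hy
  have h2 : Km M * Ay y M = (2 : ℝ) • Ay y M - M * Ay y M := by
    conv_lhs => unfold Km
    rw [sub_mul, Matrix.smul_mul, one_mul]
  rw [h2] at h
  rw [← h]
  abel

/-- `M B = 2 B - y A` -/
lemma mul_By : M * By y M = (2 : ℝ) • By y M - y • Ay y M := by
  have h := Km_mul_By (M := M) (y := y)
  have h2 : Km M * By y M = (2 : ℝ) • By y M - M * By y M := by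
    conv_lhs => unfold Km
    rw [sub_mul, Matrix.smul_mul, one_mul]
  rw [h2] at h
  rw [← h]
  abel

/-- `x · H x = |A x|² + |B x|²` -/
lemma dot_Hy (hM : Mᵀ = M) (hy : 0 < y) (x : Fin N → ℝ) :
    x ⬝ᵥ (Hy y M *ᵥ x) = nv (Ay y M *ᵥ x) ^ 2 + nv (By y M *ᵥ x) ^ 2 := by
  rw [← Ay_sq_add hM hy, add_mulVec, dotProduct_add, dot_sq_mulVec (Ay_transpose hM hy),
    dot_sq_mulVec (By_transpose hM)]

lemma dot_Hy_nonneg (hM : Mᵀ = M) (hy : 0 < y) (x : Fin N → ℝ) : 0 ≤ x ⬝ᵥ (Hy y M *ᵥ x) := by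
  rw [dot_Hy hM hy]
  positivity

lemma Hy_opB (hM : Mᵀ = M) (hy : 0 < y) : OpB (Hy y M) (1 / y ^ 2) := by
  intro x
  set h := Hy y M *ᵥ x with hh
  have h1 : Pm y M *ᵥ h = x := by
    rw [hh, mulVec_mulVec, Pm_mul_Hy hM hy, one_mulVec]
  have h2 := dot_Pm (y := y) hM h
  rw [h1] at h2
  have h3 := abs_dot_le h x
  have h4 := le_abs_self (h ⬝ᵥ x)
  have h5 : 0 ≤ nv (Km M *ᵥ h) ^ 2 := sq_nonneg _
  have h6 : y ^ 2 * nv h ^ 2 ≤ nv h * nv x := by linarith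
  have h7 : 0 < y ^ 2 := by positivity
  rw [div_mul_eq_mul_div, one_mul, le_div_iff₀ h7]
  rcases (nv_nonneg h).eq_or_lt with h8 | h8
  · rw [← h8, zero_mul]; exact nv_nonneg x
  · have h9 : nv h * (nv h * y ^ 2) ≤ nv h * nv x := by linarith only [h6]
    exact le_of_mul_le_mul_left h9 h8

/-- `x · H x ≤ |x|² / y²` -/
lemma dot_Hy_le (hM : Mᵀ = M) (hy : 0 < y) (x : Fin N → ℝ) :
    x ⬝ᵥ (Hy y M *ᵥ x) ≤ nv x ^ 2 / y ^ 2 := by
  refine (le_abs_self _).trans ((abs_dot_le _ _).trans ?_)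
  have h := Hy_opB hM hy x
  calc nv x * nv (Hy y M *ᵥ x) ≤ nv x * (1 / y ^ 2 * nv x) :=
        mul_le_mul_of_nonneg_left h (nv_nonneg x)
    _ = _ := by ring

lemma Ay_opB (hM : Mᵀ = M) (hy : 0 < y) : OpB (Ay y M) (1 / y) := by
  intro x
  have h1 := dot_Hy_le hM hy x
  rw [dot_Hy hM hy] at h1
  have h2 : 0 ≤ nv (By y M *ᵥ x) ^ 2 := sq_nonneg _
  have h3 : nv (Ay y M *ᵥ x) ^ 2 ≤ (1 / y * nv x) ^ 2 := by
    calc nv (Ay y M *ᵥ x) ^ 2 ≤ nv x ^ 2 / y ^ 2 := by linarith only [h2, h1]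
      _ = _ := by ring
  exact (abs_le_of_sq_le_sq' h3 (mul_nonneg (by positivity) (nv_nonneg x))).2

lemma By_opB (hM : Mᵀ = M) (hy : 0 < y) : OpB (By y M) (1 / y) := by
  intro x
  have h1 := dot_Hy_le hM hy x
  rw [dot_Hy hM hy] at h1
  have h2 : 0 ≤ nv (Ay y M *ᵥ x) ^ 2 := sq_nonneg _
  have h3 : nv (By y M *ᵥ x) ^ 2 ≤ (1 / y * nv x) ^ 2 := by
    calc nv (By y M *ᵥ x) ^ 2 ≤ nv x ^ 2 / y ^ 2 := by linarith
      _ = _ := by ring
  exact (abs_le_of_sq_le_sq' h3 (mul_nonneg (by positivity) (nv_nonneg x))).2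

/-! ### traces -/

lemma trace_sq {K : Matrix (Fin N) (Fin N) ℝ} (hK : Kᵀ = K) :
    (K * K).trace = ∑ i, ∑ j, K i j ^ 2 := by
  rw [Matrix.trace]
  refine sum_congr rfl fun i _ => ?_
  rw [diag_apply, Matrix.mul_apply]
  refine sum_congr rfl fun j _ => ?_
  have : K j i = K i j := by
    conv_lhs => rw [← hK]
    rfl
  rw [this, sq]

lemma trace_Hy (hM : Mᵀ = M) (hy : 0 < y) :
    (Hy y M).trace = (∑ i, ∑ j, Ay y M i j ^ 2) + ∑ i, ∑ j, By y M i j ^ 2 := by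
  rw [← trace_sq (Ay_transpose hM hy), ← trace_sq (By_transpose hM), ← trace_add,
    Ay_sq_add hM hy]

lemma entry_eq_dot (K : Matrix (Fin N) (Fin N) ℝ) (i j : Fin N) :
    K i j = Pi.single i 1 ⬝ᵥ (K *ᵥ Pi.single j 1) := by
  rw [single_one_dotProduct, mulVec_single_one]
  rfl

lemma nv_single (i : Fin N) : nv (Pi.single i (1 : ℝ)) = 1 := by
  have h : nv (Pi.single i (1 : ℝ)) ^ 2 = 1 := by
    rw [nv_sq, Finset.sum_eq_single i]
    · simp
    · intro j _ hj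
      simp [Pi.single_eq_of_ne hj]
    · intro h; exact absurd (mem_univ i) h
  have h2 := nv_nonneg (Pi.single i (1 : ℝ) : Fin N → ℝ)
  nlinarith

lemma abs_entry_le {K : Matrix (Fin N) (Fin N) ℝ} {c : ℝ} (hK : OpB K c) (i j : Fin N) :
    |K i j| ≤ c := by
  rw [entry_eq_dot K i j]
  refine (abs_dot_le _ _).trans ?_
  have h := hK (Pi.single j (1 : ℝ))
  rw [nv_single, mul_one] at h
  rw [nv_single, one_mul]
  exact h

lemma Hy_diag_nonneg (hM : Mᵀ = M) (hy : 0 < y) (i : Fin N) : 0 ≤ Hy y M i i := by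
  rw [entry_eq_dot (Hy y M) i i]
  exact dot_Hy_nonneg hM hy _

lemma trace_Hy_nonneg (hM : Mᵀ = M) (hy : 0 < y) : 0 ≤ (Hy y M).trace :=
  Finset.sum_nonneg fun i _ => Hy_diag_nonneg hM hy i

lemma trace_Hy_le (hM : Mᵀ = M) (hy : 0 < y) : (Hy y M).trace ≤ N / y ^ 2 := by
  have h1 : ∀ i : Fin N, Hy y M i i ≤ 1 / y ^ 2 := fun i =>
    (le_abs_self _).trans (abs_entry_le (Hy_opB hM hy) i i)
  calc (Hy y M).trace ≤ ∑ _i : Fin N, 1 / y ^ 2 := Finset.sum_le_sum fun i _ => h1 i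
    _ = _ := by simp [div_eq_mul_inv]

lemma trace_By : (By y M).trace = y * (Hy y M).trace := by
  rw [By_def]
  rw [trace_smul, smul_eq_mul]

end algebra

/-! ### derivatives -/

lemma hd_of_entries {f : ℝ → Matrix (Fin N) (Fin N) ℝ} {f' : Matrix (Fin N) (Fin N) ℝ} {x : ℝ}
    (h : ∀ i j, HasDerivAt (fun t => f t i j) (f' i j) x) : HasDerivAt f f' x := by
  have h1 : HasDerivAt (fun t => (fun i j => f t i j : Fin N → Fin N → ℝ)) (fun i j => f' i j) x :=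
    hasDerivAt_pi.2 fun i => hasDerivAt_pi.2 fun j => h i j
  exact h1

lemma entries_of_hd {f : ℝ → Matrix (Fin N) (Fin N) ℝ} {f' : Matrix (Fin N) (Fin N) ℝ} {x : ℝ}
    (h : HasDerivAt f f' x) (i j : Fin N) : HasDerivAt (fun t => f t i j) (f' i j) x := by
  have h1 : HasDerivAt (fun t => (fun i j => f t i j : Fin N → Fin N → ℝ)) (fun i j => f' i j) x :=
    h
  exact hasDerivAt_pi.1 (hasDerivAt_pi.1 h1 i) j

lemma hd_inv {f : ℝ → Matrix (Fin N) (Fin N) ℝ} {f' : Matrix (Fin N) (Fin N) ℝ} {x : ℝ}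
    (h : HasDerivAt f f' x) (hu : IsUnit (f x)) :
    HasDerivAt (fun t => (f t)⁻¹) (-((f x)⁻¹ * f' * (f x)⁻¹)) x := by
  obtain ⟨u, hu⟩ := hu
  have h1 := hasFDerivAt_ringInverse (𝕜 := ℝ) u
  rw [hu] at h1
  have h2 := h1.comp_hasDerivAt x h
  have e : (fun t => (f t)⁻¹) = Ring.inverse ∘ f := by
    funext t; exact Matrix.nonsing_inv_eq_ringInverse _
  rw [e]
  refine h2.congr_deriv ?_
  have e2 : (f x)⁻¹ = ↑u⁻¹ := by
    rw [← hu]; exact (Matrix.coe_units_inv u).symm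
  rw [e2]
  simp

lemma pdm_inv {ι : Type} [DecidableEq ι] {e : ι} {P P' : (ι → ℝ) → Matrix (Fin N) (Fin N) ℝ}
    (h : PDM e P P') (hu : ∀ z, IsUnit (P z)) :
    PDM e (fun z => (P z)⁻¹) (fun z => -((P z)⁻¹ * P' z * (P z)⁻¹)) := by
  intro i j z x
  exact entries_of_hd (hd_inv (hd_of_entries fun i j => h i j z x) (hu _)) i j

variable {y : ℝ}

lemma pdm_Km (e : Ix N) : PDM e (fun g => Km (Wm N g)) (fun _ => -Em N e) := by
  have h := (PDM.const (e := e) ((2 : ℝ) • (1 : Matrix (Fin N) (Fin N) ℝ))).sub (pdm_Wm e)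
  exact h.congr fun z => by rw [zero_sub]

lemma pdm_Pm (e : Ix N) : PDM e (fun g => Pm y (Wm N g))
    (fun g => -(Em N e * Km (Wm N g) + Km (Wm N g) * Em N e)) := by
  have h := ((pdm_Km e).mul (pdm_Km e)).add
    (PDM.const (e := e) ((y ^ 2) • (1 : Matrix (Fin N) (Fin N) ℝ)))
  exact h.congr fun z => by
    rw [add_zero, neg_mul, mul_neg, neg_add]

lemma pdm_Hy (hy : 0 < y) (e : Ix N) : PDM e (fun g => Hy y (Wm N g))
    (fun g => Hy y (Wm N g) * Em N e * Ay y (Wm N g) +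
      Ay y (Wm N g) * Em N e * Hy y (Wm N g)) := by
  have h := pdm_inv (pdm_Pm (y := y) e) fun g => isUnit_Pm (Wm_transpose g) hy
  refine h.congr fun g => ?_
  have h1 : (Pm y (Wm N g))⁻¹ = Hy y (Wm N g) := rfl
  rw [h1]
  have h2 := Ay_eq (Wm_transpose g) hy
  conv_rhs => rw [show Hy y (Wm N g) * Em N e * Ay y (Wm N g) =
    Hy y (Wm N g) * Em N e * (Km (Wm N g) * Hy y (Wm N g)) from rfl, h2]
  rw [mul_neg, neg_mul, neg_neg]
  simp only [mul_add, add_mul, mul_assoc]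

lemma pdm_By (hy : 0 < y) (e : Ix N) : PDM e (fun g => By y (Wm N g))
    (fun g => By y (Wm N g) * Em N e * Ay y (Wm N g) +
      Ay y (Wm N g) * Em N e * By y (Wm N g)) := by
  intro i j
  have h := (pdm_Hy hy e i j).const_mul y
  have e1 : (fun g : Ix N → ℝ => By y (Wm N g) i j) = fun g => y * Hy y (Wm N g) i j := rfl
  rw [e1]
  refine h.congr fun g => ?_
  show y * (Hy y (Wm N g) * Em N e * Ay y (Wm N g) + Ay y (Wm N g) * Em N e * Hy y (Wm N g)) i j =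
    (By y (Wm N g) * Em N e * Ay y (Wm N g) + Ay y (Wm N g) * Em N e * By y (Wm N g)) i j
  have e2 : By y (Wm N g) * Em N e * Ay y (Wm N g) + Ay y (Wm N g) * Em N e * By y (Wm N g) =
      y • (Hy y (Wm N g) * Em N e * Ay y (Wm N g) + Ay y (Wm N g) * Em N e * Hy y (Wm N g)) := by
    rw [By_def]
    rw [smul_add, Matrix.smul_mul, Matrix.smul_mul, Matrix.mul_smul]
  rw [e2]
  rfl

lemma pdm_Ay (hy : 0 < y) (e : Ix N) : PDM e (fun g => Ay y (Wm N g))
    (fun g => Ay y (Wm N g) * Em N e * Ay y (Wm N g) -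
      By y (Wm N g) * Em N e * By y (Wm N g)) := by
  have h := (pdm_Km e).mul (pdm_Hy hy e)
  refine PDM.congr h fun g => ?_
  have hM := Wm_transpose g
  have h1 := Km_mul_Ay hM hy
  have h2 : Km (Wm N g) * Ay y (Wm N g) = 1 - y • By y (Wm N g) := by
    rw [← h1]; abel
  have h3 : Km (Wm N g) * Hy y (Wm N g) = Ay y (Wm N g) := rfl
  have h4 : By y (Wm N g) * Em N e * By y (Wm N g) =
      y • By y (Wm N g) * Em N e * Hy y (Wm N g) := by
    conv_lhs => rhs; rw [By_def]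
    rw [Matrix.mul_smul, Matrix.smul_mul, Matrix.smul_mul]
  rw [h4]
  have e1 : -Em N e * Hy y (Wm N g) + Km (Wm N g) * (Hy y (Wm N g) * Em N e * Ay y (Wm N g) +
      Ay y (Wm N g) * Em N e * Hy y (Wm N g)) =
      -Em N e * Hy y (Wm N g) + (Km (Wm N g) * Hy y (Wm N g)) * Em N e * Ay y (Wm N g) +
        (Km (Wm N g) * Ay y (Wm N g)) * Em N e * Hy y (Wm N g) := by
    simp only [mul_add, mul_assoc]
    abel
  rw [e1, h2, h3, sub_mul, sub_mul, one_mul, neg_mul]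
  abel

/-! ### continuity and growth -/

lemma continuous_Km : Continuous (fun g : Ix N → ℝ => Km (Wm N g)) := by
  unfold Km
  exact continuous_const.sub continuous_Wm

lemma continuous_Pm : Continuous (fun g : Ix N → ℝ => Pm y (Wm N g)) := by
  unfold Pm
  exact (continuous_Km.matrix_mul continuous_Km).add continuous_const

lemma continuous_Hy (hy : 0 < y) : Continuous (fun g : Ix N → ℝ => Hy y (Wm N g)) := by
  show Continuous (fun g : Ix N → ℝ => (Pm y (Wm N g))⁻¹)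
  rw [continuous_iff_continuousAt]
  intro g
  have hu := isUnit_Pm (Wm_transpose g) hy
  have h1 : ContinuousAt (fun g : Ix N → ℝ => Ring.inverse (Pm y (Wm N g))) g := by
    obtain ⟨u, hu⟩ := hu
    have h2 := NormedRing.inverse_continuousAt u
    rw [hu] at h2
    exact ContinuousAt.comp (g := Ring.inverse) (f := fun g : Ix N → ℝ => Pm y (Wm N g)) h2
      continuous_Pm.continuousAt
  refine h1.congr (Filter.Eventually.of_forall fun g => ?_)
  exact (Matrix.nonsing_inv_eq_ringInverse _).symm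

lemma continuous_Ay (hy : 0 < y) : Continuous (fun g : Ix N → ℝ => Ay y (Wm N g)) :=
  continuous_Km.matrix_mul (continuous_Hy hy)

lemma continuous_By (hy : 0 < y) : Continuous (fun g : Ix N → ℝ => By y (Wm N g)) :=
  (continuous_Hy hy).const_smul y

lemma eg_entry {K : (Ix N → ℝ) → Matrix (Fin N) (Fin N) ℝ} (hc : Continuous K) {c : ℝ}
    (hK : ∀ g, OpB (K g) c) (i j : Fin N) : EG (fun g => K g i j) :=
  EG.of_bdd (hc.matrix_elem i j).measurable fun g => abs_entry_le (hK g) i j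

lemma egm_Ay (hy : 0 < y) : EGM (fun g : Ix N → ℝ => Ay y (Wm N g)) := fun i j =>
  eg_entry (continuous_Ay hy) (fun g => Ay_opB (Wm_transpose g) hy) i j

lemma egm_By (hy : 0 < y) : EGM (fun g : Ix N → ℝ => By y (Wm N g)) := fun i j =>
  eg_entry (continuous_By hy) (fun g => By_opB (Wm_transpose g) hy) i j

lemma egm_Hy (hy : 0 < y) : EGM (fun g : Ix N → ℝ => Hy y (Wm N g)) := fun i j =>
  eg_entry (continuous_Hy hy) (fun g => Hy_opB (Wm_transpose g) hy) i j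

/-! ### the statements of the skeleton -/

section skel

variable {W : Matrix (Fin N) (Fin N) ℝ}

theorem hy_symm (hW : Wᵀ = W) : (Hy y W)ᵀ = Hy y W := Hy_transpose hW

theorem ay_symm (hy : 0 < y) (hW : Wᵀ = W) : (Ay y W)ᵀ = Ay y W := Ay_transpose hW hy

theorem by_symm (hW : Wᵀ = W) : (By y W)ᵀ = By y W := By_transpose hW

/-- real part of `(z - W) G = 1` -/
theorem res_re (hy : 0 < y) (hW : Wᵀ = W) :
    W * Ay y W = (2 : ℝ) • Ay y W + y • By y W - 1 := mul_Ay hW hy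

/-- imaginary part of `(z - W) G = 1` -/
theorem res_im (hy : 0 < y) (hW : Wᵀ = W) :
    W * By y W = (2 : ℝ) • By y W - y • Ay y W := mul_By

theorem ay_sq_add (hy : 0 < y) (hW : Wᵀ = W) :
    Ay y W * Ay y W + By y W * By y W = Hy y W := Ay_sq_add hW hy

lemma qf_eq (A : Matrix (Fin N) (Fin N) ℝ) (x : Fin N → ℝ) : qf A x = x ⬝ᵥ (A *ᵥ x) := by
  unfold qf
  simp only [dotProduct, mulVec, Finset.mul_sum]
  refine Finset.sum_congr rfl fun i _ => Finset.sum_congr rfl fun j _ => ?_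
  ring

lemma qf_by (x : Fin N → ℝ) : qf (By y W) x = y * (x ⬝ᵥ (Hy y W *ᵥ x)) := by
  rw [qf_eq, By_def, smul_mulVec, dotProduct_smul, smul_eq_mul]

theorem by_sq_le (hy : 0 < y) (hW : Wᵀ = W) (x : Fin N → ℝ) :
    qf (By y W * By y W) x ≤ 1 / y * qf (By y W) x := by
  rw [qf_by, qf_eq, dot_sq_mulVec (By_transpose hW), dot_Hy hW hy]
  have h1 : 0 ≤ nv (Ay y W *ᵥ x) ^ 2 := sq_nonneg _
  have h2 : 1 / y * (y * (nv (Ay y W *ᵥ x) ^ 2 + nv (By y W *ᵥ x) ^ 2)) =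
      nv (Ay y W *ᵥ x) ^ 2 + nv (By y W *ᵥ x) ^ 2 := by field_simp
  rw [h2]
  linarith only [h1]

theorem opB_ay (hy : 0 < y) (hW : Wᵀ = W) : OpB (Ay y W) (1 / y) := Ay_opB hW hy

theorem opB_by (hy : 0 < y) (hW : Wᵀ = W) : OpB (By y W) (1 / y) := By_opB hW hy

theorem qf_by_nonneg (hy : 0 < y) (hW : Wᵀ = W) (x : Fin N → ℝ) : 0 ≤ qf (By y W) x := by
  rw [qf_by]
  exact mul_nonneg hy.le (dot_Hy_nonneg hW hy x)

theorem qf_by_le (hy : 0 < y) (hW : Wᵀ = W) (x : Fin N → Bool) :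
    qf (By y W) (spin x) ≤ N / y := by
  rw [qf_by]
  have h1 := dot_Hy_le hW hy (spin x)
  rw [nv_sq, sum_spin_sq] at h1
  calc y * (spin x ⬝ᵥ (Hy y W *ᵥ spin x)) ≤ y * (N / y ^ 2) :=
        mul_le_mul_of_nonneg_left h1 hy.le
    _ = N / y := by field_simp

/-- `∂A = A E A - B E B` -/
theorem pdm_ay (hy : 0 < y) (e : Ix N) : PDM e (fun g : Ix N → ℝ => Ay y (Wm N g))
    (fun g => Ay y (Wm N g) * Em N e * Ay y (Wm N g) -
      By y (Wm N g) * Em N e * By y (Wm N g)) := pdm_Ay hy e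

/-- `∂B = A E B + B E A` -/
theorem pdm_by (hy : 0 < y) (e : Ix N) : PDM e (fun g : Ix N → ℝ => By y (Wm N g))
    (fun g => Ay y (Wm N g) * Em N e * By y (Wm N g) +
      By y (Wm N g) * Em N e * Ay y (Wm N g)) :=
  (pdm_By hy e).congr fun g => add_comm _ _

theorem egm_ay (hy : 0 < y) : EGM (fun g : Ix N → ℝ => Ay y (Wm N g)) := egm_Ay hy

theorem egm_by (hy : 0 < y) : EGM (fun g : Ix N → ℝ => By y (Wm N g)) := egm_By hy

end skel

end Vale.Agent.P146.Pw2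
end

section

/-!
# P146, polynomial lower bound, Parisi side: the recursive inequalities (SEQ)
-/

namespace Vale.Agent.P146.Pw2

theorem seq_mono {n : ℕ} {r : ℕ → ℝ} (hr : ∀ l < n, r l ≤ r (l + 1)) {i j : ℕ} (hij : i ≤ j)
    (hj : j ≤ n) : r i ≤ r j := by
  induction j, hij using Nat.le_induction with
  | base => exact le_rfl
  | succ j hij ih => exact (ih (by omega)).trans (hr j (by omega))

/-- `M l ≥ exp (-2 (r l)) M 0` -/
theorem seq_low {n : ℕ} {r M : ℕ → ℝ} (hr0 : r 0 = 0)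
    (h3 : ∀ l < n, Real.exp (-2 * (r (l + 1) - r l)) * M l ≤ M (l + 1)) :
    ∀ l ≤ n, Real.exp (-2 * r l) * M 0 ≤ M l := by
  intro l
  induction l with
  | zero => intro _; simp [hr0]
  | succ l ih =>
    intro hl
    have h1 := ih (by omega)
    have h2 := h3 l (by omega)
    have e : Real.exp (-2 * r (l + 1)) =
        Real.exp (-2 * (r (l + 1) - r l)) * Real.exp (-2 * r l) := by
      rw [← Real.exp_add]
      congr 1
      ring
    rw [e, mul_assoc]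
    exact (mul_le_mul_of_nonneg_left h1 (Real.exp_pos _).le).trans h2

theorem seq_key {c d M0 Ml rl : ℝ} (hc : 0 < c) (hM : 0.95 * c ≤ M0)
    (hl : Real.exp (-2 * rl) * M0 ≤ Ml) (hrl : rl ≤ 1 / 20) (hd1 : d ≤ 1 / 20) :
    √c ^ 3 ≤ 3 * √c * (1 - 2 * d) * Ml - √c ^ 3 := by
  have h1 : 0.9 ≤ Real.exp (-2 * rl) := by
    have := Real.add_one_le_exp (-2 * rl)
    linarith only [this, hrl]
  have hs : 0 < √c := Real.sqrt_pos.2 hc
  have h2 : √c ^ 2 = c := Real.sq_sqrt hc.le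
  have hMl : 0.85 * c ≤ Ml := by
    refine le_trans ?_ hl
    calc 0.85 * c ≤ 0.9 * (0.95 * c) := by linarith only [hc]
      _ ≤ _ := mul_le_mul h1 hM (by positivity) (Real.exp_pos _).le
  have h3 : √c ^ 3 = √c * c := by rw [pow_succ, h2]; ring
  rw [h3]
  have h4 : 0.9 ≤ 1 - 2 * d := by linarith only [hd1]
  have h5 : 0.9 * (0.85 * c) ≤ (1 - 2 * d) * Ml :=
    mul_le_mul h4 hMl (by positivity) (by linarith only [h4])
  have h6 : 3 * √c * (0.9 * (0.85 * c)) ≤ 3 * √c * ((1 - 2 * d) * Ml) :=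
    mul_le_mul_of_nonneg_left h5 (by positivity)
  have h7 : 0 < √c * c := by positivity
  linarith only [h7, h6]

theorem seq_stepM {K2 M M' M0 R rl d m B c3 mL p mx : ℝ}
    (a2 : M' ≤ M + K2 * (R * d + d ^ 2 / 2) - m * d * B)
    (t1 : m * d * c3 ≤ m * d * B) (t3 : K2 * (R * d + d ^ 2 / 2) ≤ K2 * (rl * d + d ^ 2 / 2))
    (i1 : M ≤ M0 + K2 * rl ^ 2 / 2 - c3 * mL * p) (u1 : c3 * (mL * mx) ≤ c3 * (mL * p + m * d)) :
    M' ≤ M0 + K2 * (rl ^ 2 + 2 * rl * d + d ^ 2) / 2 - c3 * mL * mx := by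
  linarith

theorem seq_stepR {K2 M M0 R R' rl d m B c3 mL p mx : ℝ}
    (a1 : R' ≤ R + d * M + K2 * (R * d ^ 2 / 2 + d ^ 3 / 6) - m * d ^ 2 / 2 * B)
    (t2 : m * d ^ 2 / 2 * c3 ≤ m * d ^ 2 / 2 * B)
    (t4 : K2 * (R * d ^ 2 / 2 + d ^ 3 / 6) ≤ K2 * (rl * d ^ 2 / 2 + d ^ 3 / 6))
    (i2 : R ≤ M0 * rl + K2 * rl ^ 3 / 6 - c3 * mL * p ^ 2 / 2)
    (u1 : c3 * (mL * mx ^ 2 / 2) ≤ c3 * (mL * p ^ 2 / 2 + d * (mL * p) + m * d ^ 2 / 2))
    (u3 : d * M ≤ d * (M0 + K2 * rl ^ 2 / 2 - c3 * mL * p)) :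
    R' ≤ M0 * rl + M0 * d + K2 * (rl ^ 3 + 3 * rl ^ 2 * d + 3 * rl * d ^ 2 + d ^ 3) / 6 -
      c3 * mL * mx ^ 2 / 2 := by
  linarith only [u3, u1, i2, t4, t2, a1]

theorem seq_max1 {rl rl' v d mL m p : ℝ} (er : rl' = rl + d) (hp : p = max (rl - v) 0)
    (hd : 0 ≤ d) (hmL : 0 ≤ mL) (hmm : mL ≤ m) :
    mL * max (rl' - v) 0 ≤ mL * p + m * d ∧
      mL * (max (rl' - v) 0) ^ 2 / 2 ≤ mL * p ^ 2 / 2 + d * (mL * p) + m * d ^ 2 / 2 := by
  have hp0 : 0 ≤ p := hp ▸ le_max_right _ _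
  have h6 : max (rl' - v) 0 ≤ p + d := by
    refine max_le ?_ (by linarith)
    have := le_max_left (rl - v) 0
    rw [← hp] at this
    rw [er]
    linarith
  have h7 : (max (rl' - v) 0) ^ 2 ≤ (p + d) ^ 2 := pow_le_pow_left₀ (le_max_right _ _) h6 2
  have h8 := mul_le_mul_of_nonneg_left h6 hmL
  have h8' := mul_le_mul_of_nonneg_left h7 hmL
  have h9 := mul_le_mul_of_nonneg_right hmm hd
  have h9' := mul_le_mul_of_nonneg_right hmm (sq_nonneg d)
  constructor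
  · linarith
  · have e : mL * (p + d) ^ 2 = mL * p ^ 2 + 2 * (d * (mL * p)) + mL * d ^ 2 := by ring
    rw [e] at h8'
    linarith only [h9', h8']

theorem seq_multi {c K v : ℝ} {n L : ℕ} {m r R M : ℕ → ℝ} (hc : 0 < c)
    (hr0 : r 0 = 0) (hr : ∀ l < n, r l ≤ r (l + 1)) (hm : ∀ l < n, m l ≤ m (l + 1))
    (hm0 : 0 ≤ m 0) (hR : ∀ l ≤ n, R l ≤ r l)
    (h1 : ∀ l < n, R (l + 1) ≤ R l + (r (l + 1) - r l) * M l +
      K ^ 2 * (R l * (r (l + 1) - r l) ^ 2 / 2 + (r (l + 1) - r l) ^ 3 / 6) -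
      m (l + 1) * (r (l + 1) - r l) ^ 2 / 2 *
        (3 * √c * (1 - 2 * (r (l + 1) - r l)) * M l - √c ^ 3))
    (h2 : ∀ l < n, M (l + 1) ≤ M l +
      K ^ 2 * (R l * (r (l + 1) - r l) + (r (l + 1) - r l) ^ 2 / 2) -
      m (l + 1) * (r (l + 1) - r l) * (3 * √c * (1 - 2 * (r (l + 1) - r l)) * M l - √c ^ 3))
    (h3 : ∀ l < n, Real.exp (-2 * (r (l + 1) - r l)) * M l ≤ M (l + 1))
    (hM : 0.95 * c ≤ M 0) (hR0 : R 0 ≤ 0) (hL : L < n) (hLv : r L ≤ v) :
    (∀ l ≤ n, r l ≤ 1 / 20 → M l ≤ M 0 + K ^ 2 * r l ^ 2 / 2) ∧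
    ∀ l ≤ n, L < l → r l ≤ 1 / 20 → R l ≤ M 0 * r l + K ^ 2 * r l ^ 3 / 6 -
      √c ^ 3 * m (L + 1) * (max (r l - v) 0) ^ 2 / 2 := by
  have hlow := seq_low hr0 h3
  have hs : 0 < √c := Real.sqrt_pos.2 hc
  have hr' : ∀ l ≤ n, 0 ≤ r l := fun l hl => hr0 ▸ seq_mono hr (Nat.zero_le l) hl
  have hm' : ∀ l ≤ n, 0 ≤ m l := fun l hl => hm0.trans (seq_mono hm (Nat.zero_le l) hl)
  -- the combined claim
  have key : ∀ l ≤ n, r l ≤ 1 / 20 →
      M l ≤ M 0 + K ^ 2 * r l ^ 2 / 2 - √c ^ 3 * m (L + 1) * max (r l - v) 0 ∧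
      R l ≤ M 0 * r l + K ^ 2 * r l ^ 3 / 6 -
        √c ^ 3 * m (L + 1) * (max (r l - v) 0) ^ 2 / 2 := by
    intro l
    induction l with
    | zero =>
      intro _ _
      have hv : 0 ≤ v := (hr' L hL.le).trans hLv
      rw [hr0, zero_sub, max_eq_right (by linarith only [hv])]
      constructor
      · simp
      · simpa using hR0
    | succ l ih =>
      intro hl hl20
      have hl' : l < n := by omega
      have hrl := hr l hl'
      obtain ⟨i1, i2⟩ := ih hl'.le (hrl.trans hl20)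
      have hd0 : 0 ≤ r (l + 1) - r l := by linarith only [hrl]
      have hrl0 := hr' l hl'.le
      have hd1 : r (l + 1) - r l ≤ 1 / 20 := by linarith only [hrl0, hl20]
      have hk := seq_key (d := r (l + 1) - r l) hc hM (hlow l hl'.le) (hrl.trans hl20) hd1
      have a1 := h1 l hl'
      have a2 := h2 l hl'
      have hRl := hR l hl'.le
      have hml := hm' (l + 1) hl
      set d := r (l + 1) - r l with hd
      set B := 3 * √c * (1 - 2 * d) * M l - √c ^ 3 with hB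
      have er : r (l + 1) = r l + d := by rw [hd]; ring
      have hK : 0 ≤ K ^ 2 := sq_nonneg K
      have hc3 : 0 < √c ^ 3 := by positivity
      -- the term `m (l+1)`
      have t1 : m (l + 1) * d * √c ^ 3 ≤ m (l + 1) * d * B :=
        mul_le_mul_of_nonneg_left hk (by positivity)
      have t2 : m (l + 1) * d ^ 2 / 2 * √c ^ 3 ≤ m (l + 1) * d ^ 2 / 2 * B :=
        mul_le_mul_of_nonneg_left hk (by positivity)
      have t3 : K ^ 2 * (R l * d + d ^ 2 / 2) ≤ K ^ 2 * (r l * d + d ^ 2 / 2) :=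
        mul_le_mul_of_nonneg_left (by linarith only [mul_nonneg (sub_nonneg.2 hRl) (sub_nonneg.2 hd0)]) hK
      have t4 : K ^ 2 * (R l * d ^ 2 / 2 + d ^ 3 / 6) ≤ K ^ 2 * (r l * d ^ 2 / 2 + d ^ 3 / 6) := by
        refine mul_le_mul_of_nonneg_left ?_ hK
        have := mul_le_mul_of_nonneg_right hRl (sq_nonneg d)
        linarith only [this]
      -- the maximum
      set p := max (r l - v) 0 with hp
      have hp0 : 0 ≤ p := le_max_right _ _
      have hmx : m (L + 1) * max (r (l + 1) - v) 0 ≤ m (L + 1) * p + m (l + 1) * d := by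
        have hmL := hm' (L + 1) hL
        rcases Nat.lt_or_ge l L with h | h
        · have : r (l + 1) ≤ r L := seq_mono hr (by omega) hL.le
          rw [max_eq_right (by linarith only [this, hLv])]
          have := mul_nonneg hml hd0
          have := mul_nonneg hmL hp0
          linarith
        · have hmm : m (L + 1) ≤ m (l + 1) := seq_mono hm (by omega) hl
          exact (seq_max1 er hp hd0 hmL hmm).1
      have hmx2 : m (L + 1) * (max (r (l + 1) - v) 0) ^ 2 / 2 ≤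
          m (L + 1) * p ^ 2 / 2 + d * (m (L + 1) * p) + m (l + 1) * d ^ 2 / 2 := by
        have hmL := hm' (L + 1) hL
        rcases Nat.lt_or_ge l L with h | h
        · have : r (l + 1) ≤ r L := seq_mono hr (by omega) hL.le
          rw [max_eq_right (by linarith only [this, hLv])]
          have := mul_nonneg hml (sq_nonneg d)
          have := mul_nonneg hmL (sq_nonneg p)
          have := mul_nonneg hd0 (mul_nonneg hmL hp0)
          simp only [ne_eq, OfNat.ofNat_ne_zero, not_false_eq_true, zero_pow, mul_zero, zero_div]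
          linarith
        · have hmm : m (L + 1) ≤ m (l + 1) := seq_mono hm (by omega) hl
          exact (seq_max1 er hp hd0 hmL hmm).2
      constructor
      · have u1 := mul_le_mul_of_nonneg_left hmx hc3.le
        have u2 : r (l + 1) ^ 2 = r l ^ 2 + 2 * r l * d + d ^ 2 := by rw [er]; ring
        rw [u2]
        exact seq_stepM a2 t1 t3 i1 u1
      · have u1 := mul_le_mul_of_nonneg_left hmx2 hc3.le
        have u2 : r (l + 1) ^ 3 = r l ^ 3 + 3 * r l ^ 2 * d + 3 * r l * d ^ 2 + d ^ 3 := by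
          rw [er]; ring
        have u3 := mul_le_mul_of_nonneg_left i1 hd0
        have u4 : M 0 * r (l + 1) = M 0 * r l + M 0 * d := by rw [er]; ring
        rw [u2, u4]
        exact seq_stepR a1 t2 t4 i2 u1 u3
  have hmL := hm' (L + 1) hL
  refine ⟨fun l hl h => (key l hl h).1.trans ?_, fun l hl _ h => (key l hl h).2⟩
  have : 0 ≤ √c ^ 3 * m (L + 1) * max (r l - v) 0 := by
    have := le_max_right (r l - v) 0
    positivity
  linarith only [this]

end Vale.Agent.P146.Pw2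
end
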