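import Vale.Agent.P146.Bdl.B9
import Vale.Agent.P146.Bdl.B5
import Vale.Agent.P146.Bdl.B6
import Vale.Agent.P146.Bdl.B8

set_option linter.all false

section

/-!
# P146, module VAR: the vector field `v = g(W) / √(2N)` and its divergence
-/

open MeasureTheory ProbabilityTheory Finset Matrix Filter Topology Polynomial

namespace Vale.Agent.P146.Sk

open Vale.Agent.P157.Lv

set_option linter.all false

variable {N : ℕ}

lemma aeval_symm (q : ℝ[X]) (z : Ix N → ℝ) (i j : Fin N) :
    (aeval (Wm N z) q) i j = (aeval (Wm N z) q) j i := by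
  rw [aeval_eq_sum_range]
  simp only [Matrix.sum_apply, Matrix.smul_apply]
  refine sum_congr rfl fun k _ => ?_
  have h1 := pow_transpose z k
  conv_lhs => rw [← h1]
  rfl

lemma trace_Em_mul (B : Matrix (Fin N) (Fin N) ℝ) (e : Ix N) :
    (Em N e * B).trace = (B e.2 e.1 + B e.1 e.2) / √(2 * (N : ℝ)) := by
  have h := mul_Em_mul (1 : Matrix (Fin N) (Fin N) ℝ) B e
  simp only [one_mul] at h
  simp only [Matrix.trace, Matrix.diag_apply, h, Matrix.one_apply]
  rw [← sum_div, sum_add_distrib]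
  simp only [ite_mul, one_mul, zero_mul, sum_ite_eq', mem_univ, if_true]

/-- derivative of the trace of a polynomial of `W` -/
theorem pd_T (e : Ix N) (q : ℝ[X]) : PD e (fun z => (aeval (Wm N z) q).trace)
    (fun z => (2 / √(2 * (N : ℝ))) * (aeval (Wm N z) (derivative q)) e.1 e.2) := by
  induction q using Polynomial.induction_on' with
  | add p q hp hq =>
    have h := hp.add hq
    simp only [← Matrix.trace_add, ← map_add] at h
    refine h.congr fun z => ?_
    rw [derivative_add, map_add, Matrix.add_apply, mul_add]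
  | monomial n a =>
    have h := ((pdm_pow e n).trace).const_mul a
    have e1 : (fun z : Ix N → ℝ => (aeval (Wm N z) (monomial n a)).trace) =
        fun z => a * ((Wm N z) ^ n).trace := by
      funext z
      rw [aeval_monomial, Matrix.trace, Matrix.trace, mul_sum]
      refine sum_congr rfl fun i _ => ?_
      rw [← Algebra.smul_def]
      rfl
    rw [e1]
    refine h.congr fun z => ?_
    rw [derivative_monomial, aeval_monomial, ← Algebra.smul_def, Matrix.smul_apply, smul_eq_mul,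
      Matrix.trace_sum]
    have h2 : ∀ s ∈ range n, ((Wm N z) ^ s * Em N e * (Wm N z) ^ (n - 1 - s)).trace =
        2 * ((Wm N z) ^ (n - 1)) e.1 e.2 / √(2 * (N : ℝ)) := by
      intro s hs
      rw [mem_range] at hs
      rw [mul_assoc, Matrix.trace_mul_comm, mul_assoc, ← pow_add, trace_Em_mul]
      rw [show n - 1 - s + s = n - 1 by omega]
      have h3 : ((Wm N z) ^ (n - 1)) e.2 e.1 = ((Wm N z) ^ (n - 1)) e.1 e.2 := by
        have h1 := pow_transpose z (n - 1)
        conv_lhs => rw [← h1]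
        rfl
      rw [h3]
      ring
    rw [sum_congr rfl h2, sum_const, card_range, nsmul_eq_mul]
    ring

lemma sum_aeval_mul (q r : ℝ[X]) (z : Ix N → ℝ) :
    ∑ e : Ix N, (aeval (Wm N z) q) e.1 e.2 * (aeval (Wm N z) r) e.1 e.2 =
      (aeval (Wm N z) (q * r)).trace := by
  rw [map_mul, trace_mul_eq_sum]
  refine sum_congr rfl fun e _ => ?_
  rw [aeval_symm r z e.2 e.1]

/-- the polynomial `g = ∑ γ_i S_{i+1}` -/
noncomputable def gp (I : Finset ℕ) (γ : ℕ → ℝ) : ℝ[X] := ∑ i ∈ I, C (γ i) * Sp (i + 1)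

/-- the divergence -/
noncomputable def dv (N : ℕ) (I : Finset ℕ) (γ : ℕ → ℝ) (z : Ix N → ℝ) : ℝ :=
  (1 / 2) * ((aeval (Wm N z) (X * gp I γ)).trace - (1 / (N : ℝ)) * ∑ i ∈ I, γ i *
    ∑ s ∈ range (i + 1), ((aeval (Wm N z) (Sp s)).trace * (aeval (Wm N z) (Sp (i - s))).trace +
      (aeval (Wm N z) (Sp s * Sp (i - s))).trace))

variable {I : Finset ℕ} {γ : ℕ → ℝ}

lemma eg_T (q : ℝ[X]) : EG (fun z => (aeval (Wm N z) q).trace) := (egm_aeval q).trace

lemma eg_dv : EG (dv N I γ) := by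
  refine ((eg_T _).sub ((EG.sum _ fun i _ => (EG.sum _ fun s _ =>
    ((eg_T _).mul (eg_T _)).add (eg_T _)).const_mul (γ i)).const_mul _)).const_mul _

/-- the derivative of the entries of `g(W)` -/
noncomputable def DG (N : ℕ) (I : Finset ℕ) (γ : ℕ → ℝ) (e : Ix N) (z : Ix N → ℝ) :
    Matrix (Fin N) (Fin N) ℝ := ∑ i ∈ I, γ i • DU (Wm N z) (Em N e) (i + 1)

lemma pdm_g (e : Ix N) : PDM e (fun z => aeval (Wm N z) (gp I γ)) (DG N I γ e) := by
  intro a b
  have h := PD.sum (e := e) I (H := fun i z => γ i * Um (Wm N z) (i + 1) a b)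
    (H' := fun i z => γ i * DU (Wm N z) (Em N e) (i + 1) a b)
    fun i _ => (pdm_Um e (i + 1) a b).const_mul (γ i)
  have e1 : (fun z : Ix N → ℝ => (aeval (Wm N z) (gp I γ)) a b) =
      fun z => ∑ i ∈ I, γ i * Um (Wm N z) (i + 1) a b := by
    funext z
    rw [gp, map_sum, Matrix.sum_apply]
    refine sum_congr rfl fun i _ => ?_
    rw [← smul_eq_C_mul, map_smul, Matrix.smul_apply, smul_eq_mul, Um_eq_aeval]
  rw [e1]
  refine h.congr fun z => ?_
  rw [DG, Matrix.sum_apply]
  rfl

lemma egm_DG (e : Ix N) : EGM (DG N I γ e) := by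
  intro a b
  simp only [DG, Matrix.sum_apply, Matrix.smul_apply, smul_eq_mul]
  exact EG.sum _ fun i _ => (egm_DU _ _ a b).const_mul _

lemma sum_DU (z : Ix N → ℝ) (p : ℕ) : ∑ e : Ix N, (DU (Wm N z) (Em N e) p) e.1 e.2 =
    (1 / √(2 * (N : ℝ))) * ∑ s ∈ range p, ((aeval (Wm N z) (Sp s)).trace *
      (aeval (Wm N z) (Sp (p - 1 - s))).trace +
      (aeval (Wm N z) (Sp s * Sp (p - 1 - s))).trace) := by
  simp only [DU_eq, Matrix.sum_apply]
  rw [sum_comm, mul_sum]
  refine sum_congr rfl fun s _ => ?_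
  simp only [mul_Em_mul]
  rw [← sum_div, sum_add_distrib, Um_eq_aeval, Um_eq_aeval, sum_aeval_mul, trace_mul_trace]
  have h : ∀ e : Ix N, (aeval (Wm N z) (Sp (p - 1 - s))) e.2 e.2 *
      (aeval (Wm N z) (Sp s)) e.1 e.1 = (aeval (Wm N z) (Sp s)) e.1 e.1 *
      (aeval (Wm N z) (Sp (p - 1 - s))) e.2 e.2 := fun e => mul_comm _ _
  ring

lemma dv_eq (hN : 0 < N) (z : Ix N → ℝ) :
    ∑ e : Ix N, (z e * ((1 / √(2 * (N : ℝ))) * (aeval (Wm N z) (gp I γ)) e.1 e.2) -
      (1 / √(2 * (N : ℝ))) * (DG N I γ e z) e.1 e.2) = dv N I γ z := by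
  have hN' : (0 : ℝ) < N := by exact_mod_cast hN
  set c : ℝ := √(2 * (N : ℝ)) with hc
  have hc0 : 0 < c := Real.sqrt_pos.2 (by positivity)
  have hc2 : c * c = 2 * N := Real.mul_self_sqrt (by positivity)
  rw [sum_sub_distrib, ← mul_sum]
  have h1 : ∑ e : Ix N, (DG N I γ e z) e.1 e.2 = ∑ i ∈ I, γ i *
      ((1 / c) * ∑ s ∈ range (i + 1), ((aeval (Wm N z) (Sp s)).trace *
      (aeval (Wm N z) (Sp (i - s))).trace + (aeval (Wm N z) (Sp s * Sp (i - s))).trace)) := by
    simp only [DG, Matrix.sum_apply, Matrix.smul_apply, smul_eq_mul]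
    rw [sum_comm]
    refine sum_congr rfl fun i _ => ?_
    rw [← mul_sum, sum_DU, ← hc]
    simp only [Nat.add_sub_cancel]
  have h2 : ∑ e : Ix N, z e * (1 / c * (aeval (Wm N z) (gp I γ)) e.1 e.2) =
      (1 / 2) * (aeval (Wm N z) (X * gp I γ)).trace := by
    rw [map_mul, aeval_X, trace_mul_eq_sum]
    have h3 : ∀ e : Ix N, Wm N z e.1 e.2 * (aeval (Wm N z) (gp I γ)) e.2 e.1 =
        (1 / c) * (z (e.1, e.2) * (aeval (Wm N z) (gp I γ)) e.1 e.2) +
        (1 / c) * (z (e.2, e.1) * (aeval (Wm N z) (gp I γ)) e.2 e.1) := by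
      intro e
      rw [aeval_symm (gp I γ) z e.1 e.2]
      simp only [Wm, Matrix.of_apply, ← hc]
      ring
    simp only [h3]
    rw [sum_add_distrib, sum_Ix_swap (fun i j => (1 / c) * (z (i, j) *
      (aeval (Wm N z) (gp I γ)) i j)), ← two_mul, ← mul_assoc]
    norm_num
    refine sum_congr rfl fun e _ => ?_
    ring
  rw [h1, h2, dv, mul_sub]
  congr 1
  rw [mul_sum, mul_sum, mul_sum]
  refine sum_congr rfl fun i _ => ?_
  have h4 : (1 / c) * (1 / c) = (1 / 2) * (1 / (N : ℝ)) := by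
    rw [one_div_mul_one_div, hc2]
    field_simp
  generalize (∑ s ∈ range (i + 1), ((aeval (Wm N z) (Sp s)).trace *
      (aeval (Wm N z) (Sp (i - s))).trace + (aeval (Wm N z) (Sp s * Sp (i - s))).trace)) = Y
  linear_combination (γ i * Y) * h4

/-- integration by parts against the divergence -/
theorem ibp_dv (hN : 0 < N) {F : (Ix N → ℝ) → ℝ} {F' : Ix N → (Ix N → ℝ) → ℝ} (hF : EG F)
    (hFd : ∀ e, PD e F (F' e)) (hF' : ∀ e, EG (F' e)) :
    ∫ z, F z * dv N I γ z ∂(gI (Ix N)) = (1 / √(2 * (N : ℝ))) *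
      ∫ z, ∑ e : Ix N, F' e z * (aeval (Wm N z) (gp I γ)) e.1 e.2 ∂(gI (Ix N)) := by
  set c : ℝ := √(2 * (N : ℝ)) with hc
  have hg : ∀ e : Ix N, EG (fun z => (1 / c) * (aeval (Wm N z) (gp I γ)) e.1 e.2) := fun e =>
    (egm_aeval _ _ _).const_mul _
  have hw : ∀ e : Ix N, EG (fun z => (1 / c) * (DG N I γ e z) e.1 e.2) := fun e =>
    (egm_DG e _ _).const_mul _
  have hs : ∀ e : Ix N, ∫ z, z e * (F z * ((1 / c) * (aeval (Wm N z) (gp I γ)) e.1 e.2))
      ∂(gI (Ix N)) = ∫ z, (F' e z * ((1 / c) * (aeval (Wm N z) (gp I γ)) e.1 e.2) +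
        F z * ((1 / c) * (DG N I γ e z) e.1 e.2)) ∂(gI (Ix N)) := fun e =>
    PD.stein ((hFd e).mul ((pdm_g e e.1 e.2).const_mul _)) (hF.mul (hg e))
      (((hF' e).mul (hg e)).add (hF.mul (hw e)))
  have h1 : ∀ z, F z * dv N I γ z = ∑ e : Ix N, (z e * (F z * ((1 / c) *
      (aeval (Wm N z) (gp I γ)) e.1 e.2)) - F z * ((1 / c) * (DG N I γ e z) e.1 e.2)) := by
    intro z
    rw [← dv_eq hN, mul_sum]
    refine sum_congr rfl fun e _ => ?_
    rw [← hc]
    ring
  simp only [h1]
  rw [integral_finsetSum _ fun e _ => (((EG.coord e).mul (hF.mul (hg e))).sub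
    (hF.mul (hw e))).integrable]
  rw [integral_finsetSum _ fun e _ => ((hF' e).mul (egm_aeval _ _ _)).integrable, mul_sum]
  refine sum_congr rfl fun e _ => ?_
  rw [integral_sub ((EG.coord e).mul (hF.mul (hg e))).integrable (hF.mul (hw e)).integrable, hs e,
    integral_add ((hF' e).mul (hg e)).integrable (hF.mul (hw e)).integrable, add_sub_cancel_right,
    ← integral_const_mul]
  congr 1
  funext z
  ring

/-- the derivative of the divergence in the direction of the vector field -/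
noncomputable def Ddv (N : ℕ) (I : Finset ℕ) (γ : ℕ → ℝ) (z : Ix N → ℝ) : ℝ :=
  (1 / 2) * (tp N (derivative (X * gp I γ) * gp I γ) z - ∑ i ∈ I, γ i *
    ∑ s ∈ range (i + 1), (tp N (derivative (Sp s) * gp I γ) z * tp N (Sp (i - s)) z +
      tp N (Sp s) z * tp N (derivative (Sp (i - s)) * gp I γ) z +
      (1 / (N : ℝ)) * tp N (derivative (Sp s * Sp (i - s)) * gp I γ) z))

/-- the partial derivatives of the divergence -/
noncomputable def pdv (N : ℕ) (I : Finset ℕ) (γ : ℕ → ℝ) (e : Ix N) (z : Ix N → ℝ) : ℝ :=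
  (1 / 2) * ((2 / √(2 * (N : ℝ))) * (aeval (Wm N z) (derivative (X * gp I γ))) e.1 e.2 -
    (1 / (N : ℝ)) * ∑ i ∈ I, γ i *
    ∑ s ∈ range (i + 1), (((2 / √(2 * (N : ℝ))) * (aeval (Wm N z) (derivative (Sp s))) e.1 e.2 *
      (aeval (Wm N z) (Sp (i - s))).trace + (aeval (Wm N z) (Sp s)).trace *
      ((2 / √(2 * (N : ℝ))) * (aeval (Wm N z) (derivative (Sp (i - s)))) e.1 e.2)) +
      (2 / √(2 * (N : ℝ))) * (aeval (Wm N z) (derivative (Sp s * Sp (i - s)))) e.1 e.2))

lemma pd_dv (e : Ix N) : PD e (dv N I γ) (pdv N I γ e) := by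
  refine ((pd_T e _).sub ((PD.sum _ fun i _ => (PD.sum _ fun s _ =>
    ((pd_T e _).mul (pd_T e _)).add (pd_T e _)).const_mul (γ i)).const_mul _)).const_mul _

lemma eg_pdv (e : Ix N) : EG (pdv N I γ e) := by
  refine (((egm_aeval _ _ _).const_mul _).sub ((EG.sum _ fun i _ => (EG.sum _ fun s _ =>
    ((((egm_aeval _ _ _).const_mul _).mul (eg_T _)).add ((eg_T _).mul
      ((egm_aeval _ _ _).const_mul _))).add ((egm_aeval _ _ _).const_mul _)).const_mul
        (γ i)).const_mul _)).const_mul _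

lemma lin_aux (I : Finset ℕ) (γ : ℕ → ℝ) (f f' : ℕ → ℕ → ℝ) (A G k c1 : ℝ)
    (h : ∀ i s, f i s * G = k * f' i s) :
    (1 / 2) * (k * A - c1 * ∑ i ∈ I, γ i * ∑ s ∈ range (i + 1), f i s) * G =
      k * ((1 / 2) * (A * G - c1 * ∑ i ∈ I, γ i * ∑ s ∈ range (i + 1), f' i s)) := by
  have h1 : (∑ i ∈ I, γ i * ∑ s ∈ range (i + 1), f i s) * G =
      k * ∑ i ∈ I, γ i * ∑ s ∈ range (i + 1), f' i s := by
    rw [sum_mul, mul_sum]
    refine sum_congr rfl fun i _ => ?_
    rw [mul_assoc, sum_mul, sum_congr rfl fun s _ => h i s, ← mul_sum]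
    ring
  linear_combination (-(1 / 2) * c1) * h1

lemma sum_pdv (hN : 0 < N) (z : Ix N → ℝ) : (1 / √(2 * (N : ℝ))) *
    ∑ e : Ix N, pdv N I γ e z * (aeval (Wm N z) (gp I γ)) e.1 e.2 = Ddv N I γ z := by
  have hN' : (0 : ℝ) < N := by exact_mod_cast hN
  set c : ℝ := √(2 * (N : ℝ)) with hc
  have hc0 : 0 < c := Real.sqrt_pos.2 (by positivity)
  have hc2 : c * c = 2 * N := Real.mul_self_sqrt (by positivity)
  have h4 : (1 / c) * (2 / c) = 1 / (N : ℝ) := by
    rw [div_mul_div_comm, hc2]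
    field_simp
  have h1 : ∀ e : Ix N, pdv N I γ e z * (aeval (Wm N z) (gp I γ)) e.1 e.2 =
      (2 / c) * ((1 / 2) * ((aeval (Wm N z) (derivative (X * gp I γ))) e.1 e.2 *
        (aeval (Wm N z) (gp I γ)) e.1 e.2 -
      (1 / (N : ℝ)) * ∑ i ∈ I, γ i *
      ∑ s ∈ range (i + 1), ((aeval (Wm N z) (derivative (Sp s))) e.1 e.2 *
        (aeval (Wm N z) (gp I γ)) e.1 e.2 * (aeval (Wm N z) (Sp (i - s))).trace +
        (aeval (Wm N z) (Sp s)).trace * ((aeval (Wm N z) (derivative (Sp (i - s)))) e.1 e.2 *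
        (aeval (Wm N z) (gp I γ)) e.1 e.2) +
        (aeval (Wm N z) (derivative (Sp s * Sp (i - s)))) e.1 e.2 *
        (aeval (Wm N z) (gp I γ)) e.1 e.2))) := by
    intro e
    rw [pdv, ← hc]
    refine lin_aux I γ _ _ _ _ _ _ fun i s => ?_
    ring
  simp only [h1]
  rw [← mul_sum, ← mul_assoc, h4, ← mul_sum, sum_sub_distrib, ← mul_sum, Ddv]
  have h9 : ∑ e : Ix N, ∑ i ∈ I, γ i *
      ∑ s ∈ range (i + 1), ((aeval (Wm N z) (derivative (Sp s))) e.1 e.2 *
        (aeval (Wm N z) (gp I γ)) e.1 e.2 * (aeval (Wm N z) (Sp (i - s))).trace +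
        (aeval (Wm N z) (Sp s)).trace * ((aeval (Wm N z) (derivative (Sp (i - s)))) e.1 e.2 *
        (aeval (Wm N z) (gp I γ)) e.1 e.2) +
        (aeval (Wm N z) (derivative (Sp s * Sp (i - s)))) e.1 e.2 *
        (aeval (Wm N z) (gp I γ)) e.1 e.2) = ∑ i ∈ I, γ i * ∑ s ∈ range (i + 1),
        ((aeval (Wm N z) (derivative (Sp s) * gp I γ)).trace * (aeval (Wm N z) (Sp (i - s))).trace +
        (aeval (Wm N z) (Sp s)).trace * (aeval (Wm N z) (derivative (Sp (i - s)) * gp I γ)).trace +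
        (aeval (Wm N z) (derivative (Sp s * Sp (i - s)) * gp I γ)).trace) := by
    rw [sum_comm]
    refine sum_congr rfl fun i _ => ?_
    rw [← mul_sum, sum_comm]
    congr 1
    refine sum_congr rfl fun s _ => ?_
    rw [sum_add_distrib, sum_add_distrib, ← sum_mul, ← mul_sum, sum_aeval_mul, sum_aeval_mul,
      sum_aeval_mul]
  rw [h9, sum_aeval_mul]
  unfold tp
  rw [mul_left_comm, mul_sub]
  congr 1
  rw [one_div_mul_eq_div]
  congr 1
  rw [mul_sum, mul_sum]
  refine sum_congr rfl fun i _ => ?_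
  rw [mul_left_comm (1 / (N : ℝ)) (γ i), mul_left_comm (1 / (N : ℝ)) (γ i), mul_sum, mul_sum]
  congr 1
  refine sum_congr rfl fun s _ => ?_
  field_simp

/-- second moment of the divergence -/
theorem int_dv_sq (hN : 0 < N) :
    ∫ z, dv N I γ z * dv N I γ z ∂(gI (Ix N)) = ∫ z, Ddv N I γ z ∂(gI (Ix N)) := by
  rw [ibp_dv hN eg_dv (fun e => pd_dv e) (fun e => eg_pdv e), ← integral_const_mul]
  congr 1
  funext z
  exact sum_pdv hN z

lemma Lam_Sp_gp {i : ℕ} (hi : i ∈ I) : Lam (Sp (i + 1) * gp I γ) = γ i := by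
  rw [gp, mul_sum, Lam_sum]
  have h : ∀ j ∈ I, Lam (Sp (i + 1) * (C (γ j) * Sp (j + 1))) = if j = i then γ j else 0 := by
    intro j _
    rw [mul_left_comm, Lam_C_mul, Lam_Sp_mul]
    by_cases h : j = i
    · subst h; simp
    · have : ¬ (i + 1 = j + 1) := by omega
      rw [if_neg this, if_neg h, mul_zero]
  rw [sum_congr rfl h, sum_ite_eq' I i, if_pos hi]

/-- limit of the second moment of the divergence -/
theorem lim_dv_sq : Tendsto (fun N : ℕ => ∫ z, dv N I γ z * dv N I γ z ∂(gI (Ix N))) atTop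
    (𝓝 ((1 / 2) * ∑ i ∈ I, ((i : ℝ) + 2) * γ i ^ 2)) := by
  have h1 : Tendsto (fun N : ℕ => (1 / 2) * (∫ z, tp N (derivative (X * gp I γ) * gp I γ) z
      ∂(gI (Ix N)) - ∑ i ∈ I, γ i * ∑ s ∈ range (i + 1),
      ((∫ z, tp N (derivative (Sp s) * gp I γ) z * tp N (Sp (i - s)) z ∂(gI (Ix N)) +
      ∫ z, tp N (Sp s) z * tp N (derivative (Sp (i - s)) * gp I γ) z ∂(gI (Ix N))) +
      (1 / (N : ℝ)) * ∫ z, tp N (derivative (Sp s * Sp (i - s)) * gp I γ) z ∂(gI (Ix N))))) atTop
      (𝓝 ((1 / 2) * (Lam (derivative (X * gp I γ) * gp I γ) - ∑ i ∈ I, γ i * ∑ s ∈ range (i + 1),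
      ((Lam (derivative (Sp s) * gp I γ) * Lam (Sp (i - s)) +
        Lam (Sp s) * Lam (derivative (Sp (i - s)) * gp I γ)) + 0 *
          Lam (derivative (Sp s * Sp (i - s)) * gp I γ))))) := by
    refine ((Lam_spec _).int.sub (tendsto_finsetSum _ fun i _ => (tendsto_finsetSum _ fun s _ =>
      (((Lam_spec _).mul_int (Lam_spec _)).add ((Lam_spec _).mul_int (Lam_spec _))).add
        ((tendsto_one_div_atTop_nhds_zero_nat (𝕜 := ℝ)).mul (Lam_spec _).int)).const_mul
          _)).const_mul _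
  have h2 : (1 / 2) * (Lam (derivative (X * gp I γ) * gp I γ) - ∑ i ∈ I, γ i *
      ∑ s ∈ range (i + 1), ((Lam (derivative (Sp s) * gp I γ) * Lam (Sp (i - s)) +
        Lam (Sp s) * Lam (derivative (Sp (i - s)) * gp I γ)) + 0 *
          Lam (derivative (Sp s * Sp (i - s)) * gp I γ))) =
      (1 / 2) * ∑ i ∈ I, ((i : ℝ) + 2) * γ i ^ 2 := by
    congr 1
    have h3 : ∀ i, ∑ s ∈ range (i + 1), ((Lam (derivative (Sp s) * gp I γ) * Lam (Sp (i - s)) +
        Lam (Sp s) * Lam (derivative (Sp (i - s)) * gp I γ)) + 0 *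
          Lam (derivative (Sp s * Sp (i - s)) * gp I γ)) =
        2 * Lam (derivative (Sp i) * gp I γ) := by
      intro i
      simp only [zero_mul, add_zero, Lam_Sp]
      rw [sum_add_distrib, two_mul]
      congr 1
      · rw [sum_range_succ]
        have : ∀ s ∈ range i, Lam (derivative (Sp s) * gp I γ) *
            (if i - s = 0 then (1 : ℝ) else 0) = 0 := by
          intro s hs
          rw [mem_range] at hs
          rw [if_neg (by omega), mul_zero]
        rw [sum_eq_zero this]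
        simp
      · rw [sum_range_succ']
        simp
    simp only [h3]
    have h4 : Lam (derivative (X * gp I γ) * gp I γ) = ∑ i ∈ I, γ i *
        (Lam (derivative (Sp (i + 2)) * gp I γ) + Lam (derivative (Sp i) * gp I γ)) := by
      have h5 : X * gp I γ = ∑ i ∈ I, C (γ i) * (Sp (i + 2) + Sp i) := by
        rw [gp, mul_sum]
        refine sum_congr rfl fun i _ => ?_
        rw [← X_mul_Sp]
        ring
      have h6 : derivative (X * gp I γ) * gp I γ = ∑ i ∈ I, C (γ i) *
          (derivative (Sp (i + 2)) * gp I γ + derivative (Sp i) * gp I γ) := by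
        rw [h5, derivative_sum, sum_mul]
        refine sum_congr rfl fun i _ => ?_
        rw [derivative_C_mul, derivative_add]
        ring
      rw [h6, Lam_sum]
      refine sum_congr rfl fun i _ => ?_
      rw [Lam_C_mul, Lam_add]
    rw [h4, ← sum_sub_distrib]
    refine sum_congr rfl fun i hi => ?_
    have h7 : Lam (derivative (Sp (i + 2)) * gp I γ) - Lam (derivative (Sp i) * gp I γ) =
        ((i : ℝ) + 2) * γ i := by
      rw [← Lam_sub, ← sub_mul, deriv_Sp_sub, mul_assoc, Lam_C_mul, Lam_Sp_gp hi]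
    have h8 : γ i * (Lam (derivative (Sp (i + 2)) * gp I γ) + Lam (derivative (Sp i) * gp I γ)) -
        γ i * (2 * Lam (derivative (Sp i) * gp I γ)) = γ i *
        (Lam (derivative (Sp (i + 2)) * gp I γ) - Lam (derivative (Sp i) * gp I γ)) := by ring
    rw [h8, h7]
    ring
  rw [h2] at h1
  refine h1.congr' ?_
  filter_upwards [eventually_gt_atTop 0] with N hN
  rw [int_dv_sq hN]
  unfold Ddv
  rw [integral_const_mul, integral_sub (eg_tp _).integrable (EG.sum _ fun i _ => (EG.sum _ fun s _ =>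
    (((eg_tp _).mul (eg_tp _)).add ((eg_tp _).mul (eg_tp _))).add
      ((eg_tp _).const_mul _)).const_mul _).integrable,
    integral_finsetSum _ fun i _ => ((EG.sum _ fun s _ =>
    (((eg_tp _).mul (eg_tp _)).add ((eg_tp _).mul (eg_tp _))).add
      ((eg_tp _).const_mul _)).const_mul _).integrable]
  congr 2
  refine sum_congr rfl fun i _ => ?_
  rw [integral_const_mul, integral_finsetSum _ fun s _ =>
    ((((eg_tp _).mul (eg_tp _)).add ((eg_tp _).mul (eg_tp _))).add
      ((eg_tp _).const_mul _)).integrable]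
  congr 1
  refine sum_congr rfl fun s _ => ?_
  rw [integral_add (((eg_tp _).mul (eg_tp _)).add ((eg_tp _).mul (eg_tp _))).integrable
    ((eg_tp _).const_mul _).integrable, integral_add ((eg_tp _).mul (eg_tp _)).integrable
    ((eg_tp _).mul (eg_tp _)).integrable, integral_const_mul]

end Vale.Agent.P146.Sk
end

section

/-! COMP: refinement of the exponents of a competitor. -/

set_option linter.all false

open MeasureTheory ProbabilityTheory Filter Topology Set

namespace Vale.Agent.P146.Gap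

open Vale.Agent.P157.Par

/-! ### Refinement of the exponents -/

/-- The refined exponents: every gap is divided into `N` equal pieces. -/
noncomputable def comp_m (N : ℕ) (m : ℕ → ℝ) (l : ℕ) : ℝ :=
  m (l / N) + ((l % N : ℕ) : ℝ) / N * (m (l / N + 1) - m (l / N))

theorem comp_div {N : ℕ} (i : ℕ) {j : ℕ} (hj : j < N) : (i * N + j) / N = i := by
  rw [Nat.add_comm, Nat.add_mul_div_right _ _ (by omega), Nat.div_eq_of_lt hj, Nat.zero_add]

theorem comp_m_eq {N : ℕ} (hN : 0 < N) (m : ℕ → ℝ) (i : ℕ) {j : ℕ} (hj : j ≤ N) :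
    comp_m N m (i * N + j) = m i + (j : ℝ) / N * (m (i + 1) - m i) := by
  rcases hj.lt_or_eq with h | rfl
  · unfold comp_m
    have h2 : (i * N + j) % N = j := by
      rw [Nat.add_comm, Nat.add_mul_mod_self_right, Nat.mod_eq_of_lt h]
    rw [comp_div i h, h2]
  · unfold comp_m
    have h1 : (i * j + j) / j = i + 1 := by
      rw [← Nat.succ_mul, Nat.mul_div_cancel _ hN]
    have h2 : (i * j + j) % j = 0 := by
      rw [← Nat.succ_mul, Nat.mul_mod_left]
    have hj0 : (j : ℝ) ≠ 0 := by positivity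
    rw [h1, h2]
    simp only [Nat.cast_zero, zero_div, zero_mul, add_zero, div_self hj0, one_mul]
    ring

theorem comp_gstep_zero {g : ℝ} (hg : g ≠ 0) (F : ℝ → ℝ) : gstep g 0 F = F := by
  funext x
  simp only [gstep, Real.sqrt_zero, zero_mul, add_zero, integral_const, probReal_univ,
    one_smul, Real.log_exp]
  field_simp

theorem comp_block {N : ℕ} {m r : ℕ → ℝ} (i : ℕ) (F : ℝ → ℝ)
    (hp : ∀ l, 1 ≤ l → l < (i + 1) * N → comp_m N m l ≠ 0) : ∀ j, j < N →
    cascade (comp_m N m) (fun l => r (l / N)) (i * N + j) F =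
      cascade (comp_m N m) (fun l => r (l / N)) (i * N) F := by
  intro j
  induction j with
  | zero => intro _; rfl
  | succ j ih =>
    intro hj
    rw [← Nat.add_assoc, cascade_succ_def, comp_div i (by omega : j < N), Nat.add_assoc,
      comp_div i hj, sub_self, comp_gstep_zero, ih (by omega)]
    refine hp _ (by omega) ?_
    rw [Nat.succ_mul]
    omega

theorem comp_casc {N : ℕ} (hN : 0 < N) {m r : ℕ → ℝ} : ∀ (i : ℕ) (F : ℝ → ℝ),
    (∀ l, 1 ≤ l → l < (i + 1) * N → comp_m N m l ≠ 0) →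
    cascade (comp_m N m) (fun l => r (l / N)) (i * N) F = cascade m r i F := by
  intro i
  induction i with
  | zero => intro F _; rw [Nat.zero_mul]; rfl
  | succ i ih =>
    intro F hp
    have e : (i + 1) * N = i * N + (N - 1) + 1 := by rw [Nat.succ_mul]; omega
    have hp' : ∀ l, 1 ≤ l → l < (i + 1) * N → comp_m N m l ≠ 0 := fun l hl1 hl =>
      hp l hl1 (by rw [Nat.succ_mul (i + 1)]; omega)
    rw [e, cascade_succ_def, comp_block i _ hp' (N - 1) (by omega), ih _ hp', cascade_succ_def]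
    have h1 : i * N + (N - 1) + 1 = i * N + N := by omega
    have h2 : (i * N + N) / N = i + 1 := by rw [← Nat.succ_mul, Nat.mul_div_cancel _ hN]
    have hN0 : (N : ℝ) ≠ 0 := by positivity
    rw [h1, h2, comp_div i (by omega : N - 1 < N), comp_m_eq hN m i le_rfl, div_self hN0, one_mul]
    congr 2
    ring

theorem comp_sum {N : ℕ} (hN : 0 < N) (m f : ℕ → ℝ) (n : ℕ) :
    ∑ l ∈ Finset.range (n * N), (comp_m N m (l + 1) - comp_m N m l) * f (l / N) =
      ∑ i ∈ Finset.range n, (m (i + 1) - m i) * f i := by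
  induction n with
  | zero => simp
  | succ n ih =>
    rw [Nat.succ_mul, Finset.sum_range_add, ih, Finset.sum_range_succ]
    congr 1
    have h1 : ∀ j ∈ Finset.range N, (comp_m N m (n * N + j + 1) - comp_m N m (n * N + j)) *
        f ((n * N + j) / N) = 1 / N * ((m (n + 1) - m n) * f n) := by
      intro j hj
      have hj' := Finset.mem_range.1 hj
      rw [comp_div n hj', Nat.add_assoc, comp_m_eq hN m n (by omega), comp_m_eq hN m n hj'.le]
      push_cast
      ring
    rw [Finset.sum_congr rfl h1, Finset.sum_const, Finset.card_range, nsmul_eq_mul]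
    have hN0 : (N : ℝ) ≠ 0 := by positivity
    field_simp

theorem comp_m_mono {k : ℕ} {m : ℕ → ℝ} (hm : Exponents k m) : ∀ l ≤ k + 1, 0 ≤ m l ∧ m l ≤ 1 := by
  have h1 : ∀ l ≤ k + 1, 0 ≤ m l := by
    intro l
    induction l with
    | zero => intro _; rw [hm.1]
    | succ l ih => intro hl; exact (ih (by omega)).trans (hm.2.2 l (by omega)).le
  have h2 : ∀ j, j ≤ k + 1 → m (k + 1 - j) ≤ 1 := by
    intro j
    induction j with
    | zero => intro _; rw [Nat.sub_zero, hm.2.1]
    | succ j ih =>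
      intro hj
      have := hm.2.2 (k + 1 - (j + 1)) (by omega)
      rw [show k + 1 - (j + 1) + 1 = k + 1 - j by omega] at this
      exact this.le.trans (ih (by omega))
  intro l hl
  refine ⟨h1 l hl, ?_⟩
  have := h2 (k + 1 - l) (by omega)
  rwa [show k + 1 - (k + 1 - l) = l by omega] at this

theorem refine_exp {b : ℝ} {k : ℕ} {m q : ℕ → ℝ} (hm : Exponents k m) (hq : Path k q)
    (hq1 : q k ≤ 1) {η : ℝ} (hη : 0 < η) :
    ∃ (k' : ℕ) (m' q' : ℕ → ℝ), Exponents k' m' ∧ (∀ l ≤ k', m' (l + 1) - m' l ≤ η) ∧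
      Path k' q' ∧ q' k' ≤ 1 ∧ SKpar b k' m' q' = SKpar b k m q := by
  obtain ⟨N, hNη⟩ := exists_nat_gt (1 / η)
  have hN0 : (0 : ℝ) < N := (by positivity : (0:ℝ) < 1 / η).trans hNη
  have hN : 0 < N := by exact_mod_cast hN0
  have hk1 : k * N + (N - 1) + 1 = (k + 1) * N := by rw [Nat.succ_mul]; omega
  have hstep : ∀ l ≤ k * N + (N - 1), l / N ≤ k ∧ comp_m N m (l + 1) - comp_m N m l =
      (m (l / N + 1) - m (l / N)) / N := by
    intro l hl
    have hd : l / N < k + 1 := by
      rw [Nat.div_lt_iff_lt_mul hN]; omega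
    have hmod : l % N < N := Nat.mod_lt _ hN
    refine ⟨by omega, ?_⟩
    have e := Nat.div_add_mod' l N
    have h1 : comp_m N m (l + 1) = m (l / N) + ((l % N + 1 : ℕ) : ℝ) / N *
        (m (l / N + 1) - m (l / N)) := by
      rw [← comp_m_eq hN m (l / N) (by omega : l % N + 1 ≤ N), ← Nat.add_assoc, e]
    rw [h1]
    unfold comp_m
    push_cast
    field_simp
    ring
  have hpos : ∀ l, 1 ≤ l → l ≤ (k + 1) * N → 0 < comp_m N m l := by
    intro l
    induction l with
    | zero => intro h; omega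
    | succ l ih =>
      intro _ hl
      obtain ⟨h1, h2⟩ := hstep l (by omega)
      have h3 : 0 < (m (l / N + 1) - m (l / N)) / N :=
        div_pos (sub_pos.2 (hm.2.2 _ h1)) hN0
      rcases Nat.eq_zero_or_pos l with h0 | h0
      · have h4 : comp_m N m l = 0 := by
          rw [h0]; simp [comp_m, hm.1]
        linarith only [h4, h3, h2]
      · have := ih h0 (by omega)
        linarith only [this, h3, h2]
  refine ⟨k * N + (N - 1), comp_m N m, fun l => q (l / N), ⟨?_, ?_, fun l hl => ?_⟩,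
    fun l hl => ?_, ⟨?_, fun l hl => ?_⟩, ?_, ?_⟩
  · simp [comp_m, hm.1]
  · rw [hk1, Nat.succ_mul, comp_m_eq hN m k le_rfl, div_self hN0.ne', one_mul, hm.2.1]
    ring
  · obtain ⟨h1, h2⟩ := hstep l hl
    have h3 : 0 < (m (l / N + 1) - m (l / N)) / N :=
        div_pos (sub_pos.2 (hm.2.2 _ h1)) hN0
    linarith only [h3, h2]
  · obtain ⟨h1, h2⟩ := hstep l hl
    rw [h2, div_le_iff₀ hN0]
    have h3 := (comp_m_mono hm (l / N) (by omega)).1
    have h4 := (comp_m_mono hm (l / N + 1) (by omega)).2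
    have h5 : 1 < η * N := by
      rw [div_lt_iff₀ hη] at hNη
      linarith only [hNη]
    linarith only [h5, h4, h3]
  · simpa using hq.1
  · obtain ⟨h1, -⟩ := hstep (l + 1) (by omega)
    simp only
    rcases (by rw [Nat.succ_div]; split_ifs <;> simp : (l + 1) / N = l / N ∨
      (l + 1) / N = l / N + 1) with h | h
    · rw [h]
    · rw [h]
      exact hq.2 _ (by omega)
  · simp only
    rw [comp_div k (by omega)]
    exact hq1
  · unfold SKpar spinPart
    have hc := fun F => comp_casc hN (m := m) (r := fun l => b ^ 2 * q l) k F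
      (fun l hl1 hl => (hpos l hl1 hl.le).ne')
    have hb := fun F => comp_block (N := N) (m := m) (r := fun l => b ^ 2 * q l) k F
      (fun l hl1 hl => (hpos l hl1 hl.le).ne') (N - 1) (by omega)
    simp only at hc hb ⊢
    rw [hk1, comp_sum hN m (fun l => q l ^ 2) (k + 1), hb, hc, comp_div k (by omega),
      Nat.zero_div]

/-! ### Lipschitz functions -/

theorem comp_int {F : ℝ → ℝ} {L : NNReal} (hF : LipschitzWith L F) (m v x : ℝ) :
    Integrable (fun z => Real.exp (m * F (x + √v * z))) (gaussianReal 0 1) := by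
  have hF0 : ∀ y, |F y| ≤ |F 0| + L * |y| := by
    intro y
    have h := hF.dist_le_mul y 0
    rw [Real.dist_eq, Real.dist_eq, sub_zero] at h
    have := abs_sub_abs_le_abs_sub (F y) (F 0)
    linarith
  set c : ℝ := |m| * L * √v with hc
  have hc0 : 0 ≤ c := by positivity
  have hint : Integrable (fun z : ℝ => Real.exp (|m| * (|F 0| + L * |x|)) *
      (Real.exp (c * z) + Real.exp (-c * z))) (gaussianReal 0 1) :=
    ((integrable_exp_mul_gaussianReal c).add (integrable_exp_mul_gaussianReal (-c))).const_mul _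
  refine hint.mono' ?_ (Filter.Eventually.of_forall fun z => ?_)
  · have := hF.continuous
    exact (by fun_prop : Continuous fun z : ℝ =>
      Real.exp (m * F (x + √v * z))).aestronglyMeasurable
  · rw [Real.norm_eq_abs, Real.abs_exp]
    have h1 : m * F (x + √v * z) ≤ |m| * (|F 0| + L * |x|) + c * |z| := by
      calc m * F (x + √v * z) ≤ |m * F (x + √v * z)| := le_abs_self _
        _ = |m| * |F (x + √v * z)| := abs_mul _ _
        _ ≤ |m| * (|F 0| + L * (|x| + √v * |z|)) := by
            have h2 := hF0 (x + √v * z)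
            have h3 : |x + √v * z| ≤ |x| + √v * |z| := by
              refine (abs_add_le _ _).trans ?_
              rw [abs_mul, abs_of_nonneg (Real.sqrt_nonneg v)]
            have h4 : (L : ℝ) * |x + √v * z| ≤ L * (|x| + √v * |z|) :=
              mul_le_mul_of_nonneg_left h3 L.2
            exact mul_le_mul_of_nonneg_left (by linarith) (abs_nonneg m)
        _ = _ := by rw [hc]; ring
    refine (Real.exp_le_exp.2 h1).trans ?_
    rw [Real.exp_add]
    refine mul_le_mul_of_nonneg_left ?_ (Real.exp_pos _).le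
    rcases le_total 0 z with hz | hz
    · rw [abs_of_nonneg hz]
      linarith [Real.exp_pos (-c * z)]
    · rw [abs_of_nonpos hz]
      have : c * -z = -c * z := by ring
      rw [this]
      linarith [Real.exp_pos (c * z)]

theorem comp_pos {F : ℝ → ℝ} {L : NNReal} (hF : LipschitzWith L F) (m v x : ℝ) :
    0 < ∫ z, Real.exp (m * F (x + √v * z)) ∂(gaussianReal 0 1) :=
  integral_exp_pos (comp_int hF m v x)

theorem comp_lip {m v : ℝ} (hm : 0 < m) {F : ℝ → ℝ} {L : NNReal} (hF : LipschitzWith L F) :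
    LipschitzWith L (gstep m v F) := by
  have key : ∀ x y, gstep m v F x ≤ gstep m v F y + L * |x - y| := by
    intro x y
    unfold gstep
    have h1 : ∫ z, Real.exp (m * F (x + √v * z)) ∂(gaussianReal 0 1) ≤
        Real.exp (m * (L * |x - y|)) * ∫ z, Real.exp (m * F (y + √v * z)) ∂(gaussianReal 0 1) := by
      rw [← integral_const_mul]
      refine integral_mono (comp_int hF m v x)
        ((comp_int hF m v y).const_mul _) fun z => ?_
      simp only
      rw [← Real.exp_add, Real.exp_le_exp, ← mul_add]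
      refine mul_le_mul_of_nonneg_left ?_ hm.le
      have h := hF.dist_le_mul (x + √v * z) (y + √v * z)
      rw [Real.dist_eq, Real.dist_eq] at h
      have e : x + √v * z - (y + √v * z) = x - y := by ring
      rw [e] at h
      have := le_abs_self (F (x + √v * z) - F (y + √v * z))
      linarith
    have h2 := Real.log_le_log (comp_pos hF m v x) h1
    rw [Real.log_mul (Real.exp_pos _).ne' (comp_pos hF m v y).ne', Real.log_exp] at h2
    have h3 := mul_le_mul_of_nonneg_left h2 (by positivity : 0 ≤ 1 / m)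
    rw [mul_add] at h3
    have h4 : 1 / m * (m * (L * |x - y|)) = L * |x - y| := by field_simp
    linarith
  refine LipschitzWith.of_dist_le_mul fun x y => ?_
  rw [Real.dist_eq, Real.dist_eq, abs_le]
  have h1 := key x y
  have h2 := key y x
  rw [abs_sub_comm y x] at h2
  constructor <;> linarith

theorem comp_casc_lip {F : ℝ → ℝ} {L : NNReal} {m r : ℕ → ℝ} : ∀ (k : ℕ) (F : ℝ → ℝ),
    LipschitzWith L F → (∀ l, 1 ≤ l → l ≤ k → 0 < m l) → LipschitzWith L (cascade m r k F) := by
  intro k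
  induction k with
  | zero => intro F hF _; exact hF
  | succ k ih =>
    intro F hF hm
    rw [cascade_succ_def]
    exact ih _ (comp_lip (hm _ (by omega) le_rfl) hF) fun l h1 h2 => hm l h1 (by omega)

/-- The first level of a cascade. -/
theorem comp_shift {m r : ℕ → ℝ} : ∀ (k : ℕ) (F : ℝ → ℝ), cascade m r (k + 1) F =
    gstep (m 1) (r 1 - r 0) (cascade (fun l => m (l + 1)) (fun l => r (l + 1)) k F) := by
  intro k
  induction k with
  | zero => intro F; rw [cascade_succ_def]; rfl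
  | succ k ih =>
    intro F
    rw [cascade_succ_def, ih, cascade_succ_def]

theorem comp_lc : LipschitzWith 1 (fun x : ℝ => Real.log (Real.cosh x)) := by
  have key : ∀ x y : ℝ, Real.log (Real.cosh x) ≤ Real.log (Real.cosh y) + |x - y| := by
    intro x y
    have h1 : Real.cosh x ≤ Real.cosh y * Real.exp |x - y| := by
      have e : x = y + (x - y) := by ring
      have h2 : Real.cosh x = Real.cosh y * Real.cosh (x - y) + Real.sinh y * Real.sinh (x - y) := by
        rw [← Real.cosh_add]; congr 1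
      have h3 : Real.sinh y * Real.sinh (x - y) ≤ Real.cosh y * |Real.sinh (x - y)| := by
        refine (le_abs_self _).trans ?_
        rw [abs_mul]
        refine mul_le_mul_of_nonneg_right ?_ (abs_nonneg _)
        rw [abs_le]
        rw [Real.sinh_eq, Real.cosh_eq]
        have := Real.exp_pos y
        have := Real.exp_pos (-y)
        constructor <;> linarith
      have h4 : Real.cosh (x - y) + |Real.sinh (x - y)| = Real.exp |x - y| := by
        rw [← Real.cosh_abs, Real.abs_sinh, Real.cosh_add_sinh]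
      rw [h2, ← h4, mul_add]
      linarith
    have h5 := Real.log_le_log (Real.cosh_pos x) h1
    rwa [Real.log_mul (Real.cosh_pos y).ne' (Real.exp_pos _).ne', Real.log_exp] at h5
  refine LipschitzWith.of_dist_le_mul fun x y => ?_
  rw [Real.dist_eq, Real.dist_eq, abs_le]
  have h1 := key x y
  have h2 := key y x
  rw [abs_sub_comm y x] at h2
  simp only [NNReal.coe_one, one_mul]
  constructor <;> linarith

/-- The sum of two independent Gaussian variables. -/
theorem comp_conv {h : ℝ → ℝ} (hh : Measurable h) {a v : ℝ} (ha : 0 ≤ a) (hv : 0 ≤ v)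
    (hi : Integrable (fun z => h (√(a + v) * z)) (gaussianReal 0 1)) :
    ∫ z, ∫ w, h (√a * z + √v * w) ∂(gaussianReal 0 1) ∂(gaussianReal 0 1) =
      ∫ z, h (√(a + v) * z) ∂(gaussianReal 0 1) := by
  have e : ∀ b : ℝ, ∀ hb : 0 ≤ b, (gaussianReal 0 1).map (fun z => √b * z) =
      gaussianReal 0 ⟨b, hb⟩ := by
    intro b hb
    rw [gaussianReal_map_const_mul]
    simp only [mul_zero, mul_one]
    congr 1
    apply NNReal.eq
    simp [Real.sq_sqrt hb]
    rfl
  have e2 : ((gaussianReal 0 1).prod (gaussianReal 0 1)).map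
      (fun p : ℝ × ℝ => √a * p.1 + √v * p.2) =
      (gaussianReal 0 1).map (fun z => √(a + v) * z) := by
    rw [e (a + v) (by positivity)]
    have h1 : ((gaussianReal 0 1).prod (gaussianReal 0 1)).map
        (fun p : ℝ × ℝ => √a * p.1 + √v * p.2) =
        (((gaussianReal 0 1).map (fun z => √a * z)).prod
          ((gaussianReal 0 1).map (fun z => √v * z))).map (fun p : ℝ × ℝ => p.1 + p.2) := by
      rw [Measure.map_prod_map _ _ (by fun_prop) (by fun_prop),
        Measure.map_map (by fun_prop) (by fun_prop)]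
      rfl
    rw [h1, e a ha, e v hv]
    have h2 := gaussianReal_conv_gaussianReal (m₁ := 0) (m₂ := 0) (v₁ := ⟨a, ha⟩) (v₂ := ⟨v, hv⟩)
    unfold Measure.conv at h2
    rw [h2, add_zero]
    rfl
  have hm : Measurable (fun p : ℝ × ℝ => √a * p.1 + √v * p.2) := by fun_prop
  have hm2 : Measurable (fun z : ℝ => √(a + v) * z) := by fun_prop
  have h3 : ∫ z, h (√(a + v) * z) ∂(gaussianReal 0 1) =
      ∫ p : ℝ × ℝ, h (√a * p.1 + √v * p.2) ∂((gaussianReal 0 1).prod (gaussianReal 0 1)) := by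
    rw [← integral_map (φ := fun z => √(a + v) * z) hm2.aemeasurable hh.aestronglyMeasurable, ← e2,
      integral_map hm.aemeasurable hh.aestronglyMeasurable]
  rw [h3, integral_prod]
  have h4 : Integrable h ((gaussianReal 0 1).map (fun z => √(a + v) * z)) :=
    (integrable_map_measure hh.aestronglyMeasurable hm2.aemeasurable).2 hi
  rw [← e2] at h4
  exact (integrable_map_measure hh.aestronglyMeasurable hm.aemeasurable).1 h4

theorem comp_exp {m v : ℝ} (hm : 0 < m) {F : ℝ → ℝ} {L : NNReal} (hF : LipschitzWith L F)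
    (x : ℝ) : Real.exp (m * gstep m v F x) =
      ∫ z, Real.exp (m * F (x + √v * z)) ∂(gaussianReal 0 1) := by
  unfold gstep
  rw [← mul_assoc, mul_one_div_cancel hm.ne', one_mul, Real.exp_log (comp_pos hF m v x)]

/-- The semigroup property. -/
theorem comp_add {g v v' : ℝ} (hg : 0 < g) (hv : 0 ≤ v) (hv' : 0 ≤ v') {F : ℝ → ℝ} {L : NNReal}
    (hF : LipschitzWith L F) : gstep g v (gstep g v' F) = gstep g (v + v') F := by
  funext x
  have h1 : gstep g v (gstep g v' F) x = 1 / g * Real.log (∫ z, Real.exp (g *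
      gstep g v' F (x + √v * z)) ∂(gaussianReal 0 1)) := rfl
  rw [h1]
  have h2 : ∀ z, Real.exp (g * gstep g v' F (x + √v * z)) =
      ∫ w, Real.exp (g * F (x + (√v * z + √v' * w))) ∂(gaussianReal 0 1) := by
    intro z
    rw [comp_exp hg hF]
    simp only [add_assoc]
  simp only [h2]
  have h3 := comp_conv (h := fun u => Real.exp (g * F (x + u)))
    (by have := hF.continuous; exact Continuous.measurable (by fun_prop)) hv hv' (comp_int hF g (v + v') x)
  rw [h3]
  rfl

/-- A Lipschitz function is integrable. -/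
theorem comp_int_lip {F : ℝ → ℝ} {L : NNReal} (hF : LipschitzWith L F) (v : ℝ) :
    Integrable (fun z => F (√v * z)) (gaussianReal 0 1) := by
  have h1 := comp_int hF 1 v 0
  have h2 := comp_int hF (-1) v 0
  simp only [zero_add] at h1 h2
  refine (h1.add h2).mono' ?_ (Filter.Eventually.of_forall fun z => ?_)
  · have := hF.continuous
    exact (by fun_prop : Continuous fun z : ℝ => F (√v * z)).aestronglyMeasurable
  · rw [Real.norm_eq_abs]
    simp only [Pi.add_apply, one_mul, neg_mul]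
    have h3 := Real.add_one_le_exp (F (√v * z))
    have h4 := Real.add_one_le_exp (-F (√v * z))
    have h5 := Real.exp_pos (F (√v * z))
    have h6 := Real.exp_pos (-F (√v * z))
    rcases abs_cases (F (√v * z)) with h | h <;> linarith

theorem comp_mgf (t : ℝ) :
    ∫ z, Real.exp (t * z) ∂(gaussianReal 0 1) = Real.exp (t ^ 2 / 2) := by
  have h := congrFun (mgf_id_gaussianReal (μ := 0) (v := 1)) t
  simp only [mgf, id, NNReal.coe_one, zero_mul, zero_add, one_mul] at h
  exact h

/-- The step is bounded by the average. -/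
theorem comp_mean {g v : ℝ} (hg : 0 < g) (hv : 0 ≤ v) {F : ℝ → ℝ} (hF : LipschitzWith 1 F) :
    gstep g v F 0 ≤ ∫ z, F (√v * z) ∂(gaussianReal 0 1) + g * v := by
  set A : ℝ → ℝ := fun z => F (√v * z) with hA
  set E : ℝ := ∫ z, A z ∂(gaussianReal 0 1) with hE
  have hi : Integrable A (gaussianReal 0 1) := comp_int_lip hF v
  have i1 : Integrable (fun z => Real.exp (g * A z)) (gaussianReal 0 1) := by
    have := comp_int hF g v 0
    simpa only [zero_add] using this
  have i2 : Integrable (fun z => Real.exp (-g * A z)) (gaussianReal 0 1) := by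
    have := comp_int hF (-g) v 0
    simpa only [zero_add] using this
  set P : ℝ := ∫ z, Real.exp (g * A z) ∂(gaussianReal 0 1) with hP
  set M : ℝ := ∫ z, Real.exp (-g * A z) ∂(gaussianReal 0 1) with hM
  have hP0 : 0 < P := integral_exp_pos i1
  have hM1 : Real.exp (-(g * E)) ≤ M := by
    have h1 : ∀ z, Real.exp (-(g * E)) * (1 + (g * E - g * A z)) ≤ Real.exp (-g * A z) := by
      intro z
      have h2 := mul_le_mul_of_nonneg_left (Real.add_one_le_exp (g * E - g * A z))
        (Real.exp_pos (-(g * E))).le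
      rw [← Real.exp_add, show -(g * E) + (g * E - g * A z) = -g * A z by ring] at h2
      linarith
    have i3 : Integrable (fun z => g * E - g * A z) (gaussianReal 0 1) :=
      (integrable_const _).sub (hi.const_mul g)
    have i4 : Integrable (fun z => 1 + (g * E - g * A z)) (gaussianReal 0 1) :=
      (integrable_const _).add i3
    have h3 := integral_mono (i4.const_mul (Real.exp (-(g * E)))) i2 h1
    have h4 : ∫ z, Real.exp (-(g * E)) * (1 + (g * E - g * A z)) ∂(gaussianReal 0 1) =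
        Real.exp (-(g * E)) := by
      rw [integral_const_mul, integral_add (integrable_const _) i3,
        integral_sub (integrable_const _) (hi.const_mul g), integral_const_mul,
        integral_const_mul, ← hE]
      simp
    rw [h4] at h3
    exact h3
  set c : ℝ := g * √v with hc
  have hc2 : c ^ 2 = g ^ 2 * v := by rw [hc, mul_pow, Real.sq_sqrt hv]
  have hPM : P * M ≤ Real.exp (g ^ 2 * v) := by
    have j1 := i1.mul_prod i2
    have j2 := i2.mul_prod i1
    have k1 := (integrable_exp_mul_gaussianReal (μ := 0) (v := 1) c).mul_prod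
      (integrable_exp_mul_gaussianReal (μ := 0) (v := 1) (-c))
    have k2 := (integrable_exp_mul_gaussianReal (μ := 0) (v := 1) (-c)).mul_prod
      (integrable_exp_mul_gaussianReal (μ := 0) (v := 1) c)
    have hle : ∀ p : ℝ × ℝ, Real.exp (g * A p.1) * Real.exp (-g * A p.2) +
        Real.exp (-g * A p.1) * Real.exp (g * A p.2) ≤
        Real.exp (c * p.1) * Real.exp (-c * p.2) + Real.exp (-c * p.1) * Real.exp (c * p.2) := by
      intro p
      have e1 : ∀ s t u : ℝ, Real.exp (s * t) * Real.exp (-s * u) +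
          Real.exp (-s * t) * Real.exp (s * u) = 2 * Real.cosh (s * (t - u)) := by
        intro s t u
        rw [← Real.exp_add, ← Real.exp_add, Real.cosh_eq]
        rw [show s * t + -s * u = s * (t - u) by ring, show -s * t + s * u = -(s * (t - u)) by ring]
        ring
      rw [e1, e1]
      refine mul_le_mul_of_nonneg_left (Real.cosh_le_cosh.2 ?_) (by norm_num)
      rw [hc, abs_mul, abs_mul, abs_mul, abs_of_pos hg, mul_assoc]
      refine mul_le_mul_of_nonneg_left ?_ hg.le
      have h := hF.dist_le_mul (√v * p.1) (√v * p.2)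
      rw [Real.dist_eq, Real.dist_eq, ← mul_sub, abs_mul] at h
      simpa using h
    have h5 := integral_mono (j1.add j2) (k1.add k2) hle
    have h6 : ∫ p : ℝ × ℝ, (Real.exp (g * A p.1) * Real.exp (-g * A p.2) +
        Real.exp (-g * A p.1) * Real.exp (g * A p.2))
        ∂((gaussianReal 0 1).prod (gaussianReal 0 1)) = P * M + M * P := by
      rw [integral_add j1 j2]
      congr 1
      · exact integral_prod_mul (fun z => Real.exp (g * A z)) (fun z => Real.exp (-g * A z))
      · exact integral_prod_mul (fun z => Real.exp (-g * A z)) (fun z => Real.exp (g * A z))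
    have h7 : ∫ p : ℝ × ℝ, (Real.exp (c * p.1) * Real.exp (-c * p.2) +
        Real.exp (-c * p.1) * Real.exp (c * p.2))
        ∂((gaussianReal 0 1).prod (gaussianReal 0 1)) =
        Real.exp (g ^ 2 * v) + Real.exp (g ^ 2 * v) := by
      rw [integral_add k1 k2]
      have e3 : Real.exp (c ^ 2 / 2) * Real.exp ((-c) ^ 2 / 2) = Real.exp (g ^ 2 * v) := by
        rw [← Real.exp_add, neg_sq, ← hc2]; congr 1; ring
      congr 1
      · rw [← e3, ← comp_mgf c, ← comp_mgf (-c)]
        exact integral_prod_mul (fun z => Real.exp (c * z)) (fun z => Real.exp (-c * z))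
      · rw [← e3, mul_comm, ← comp_mgf c, ← comp_mgf (-c)]
        exact integral_prod_mul (fun z => Real.exp (-c * z)) (fun z => Real.exp (c * z))
    have h8 : P * M + M * P ≤ Real.exp (g ^ 2 * v) + Real.exp (g ^ 2 * v) := by
      rw [← h6, ← h7]; exact h5
    linarith [mul_comm P M]
  have h9 : P ≤ Real.exp (g * E + g ^ 2 * v) := by
    have h10 : P * Real.exp (-(g * E)) ≤ Real.exp (g ^ 2 * v) :=
      (mul_le_mul_of_nonneg_left hM1 hP0.le).trans hPM
    have h11 := mul_le_mul_of_nonneg_right h10 (Real.exp_pos (g * E)).le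
    rw [mul_assoc, ← Real.exp_add, neg_add_cancel, Real.exp_zero, mul_one, ← Real.exp_add,
      add_comm] at h11
    exact h11
  have h12 := Real.log_le_log hP0 h9
  rw [Real.log_exp] at h12
  have h13 : gstep g v F 0 = 1 / g * Real.log P := by
    unfold gstep
    simp only [zero_add, hP, hA]
  rw [h13, one_div, ← div_eq_inv_mul, div_le_iff₀ hg]
  calc Real.log P ≤ g * E + g ^ 2 * v := h12
    _ = (E + g * v) * g := by ring

/-- Replacing the first value of the path by `0`; the conjunction in the brackets is `BPath b k r`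
of the file `Minb.lean`, unfolded. -/
theorem zero_start {b : ℝ} (hb : 0 < b) {k : ℕ} {m q : ℕ → ℝ} (hm : Exponents k m)
    (hq : Path k q) (hq1 : q k ≤ 1) :
    ∃ r : ℕ → ℝ, (r 0 = 0 ∧ Path k r ∧ r k ≤ b ^ 2) ∧
      SKr b k m r ≤ SKpar b k m q + m 1 * b ^ 2 := by
  have hmpos : ∀ l ≤ k, 0 < m (l + 1) := fun l hl =>
    ((comp_m_mono hm l (by omega)).1).trans_lt (hm.2.2 l hl)
  have hqle : ∀ l ≤ k, 0 ≤ q l ∧ q l ≤ q k := by
    have h1 : ∀ l, l ≤ k → 0 ≤ q l := by
      intro l
      induction l with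
      | zero => intro _; exact hq.1
      | succ l ih => intro hl; exact (ih (by omega)).trans (hq.2 l (by omega))
    have h2 : ∀ j, j ≤ k → q (k - j) ≤ q k := by
      intro j
      induction j with
      | zero => intro _; exact le_rfl
      | succ j ih =>
        intro hj
        have := hq.2 (k - (j + 1)) (by omega)
        rw [show k - (j + 1) + 1 = k - j by omega] at this
        exact this.trans (ih (by omega))
    intro l hl
    have := h2 (k - l) (by omega)
    rw [show k - (k - l) = l by omega] at this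
    exact ⟨h1 l hl, this⟩
  have hb2 : 0 < b ^ 2 := by positivity
  set r : ℕ → ℝ := fun l => if l = 0 then 0 else b ^ 2 * q l with hr
  have hr0 : r 0 = 0 := by simp [hr]
  have hrl : ∀ l, r (l + 1) = b ^ 2 * q (l + 1) := fun l => by simp [hr]
  have hq01 := hqle 0 (by omega)
  refine ⟨r, ⟨hr0, ⟨hr0.ge, fun l hl => ?_⟩, ?_⟩, ?_⟩
  · rcases Nat.eq_zero_or_pos l with rfl | h0
    · rw [hr0, hrl]
      exact mul_nonneg hb2.le (hqle _ (by omega)).1
    · obtain ⟨l', rfl⟩ : ∃ l', l = l' + 1 := ⟨l - 1, by omega⟩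
      rw [hrl, hrl]
      exact mul_le_mul_of_nonneg_left (hq.2 _ hl) hb2.le
  · rcases Nat.eq_zero_or_pos k with rfl | h0
    · rw [hr0]; exact hb2.le
    · obtain ⟨l', rfl⟩ : ∃ l', k = l' + 1 := ⟨k - 1, by omega⟩
      rw [hrl]
      linarith only [mul_nonneg (le_of_lt (sub_pos.2 hb2)) (sub_nonneg.2 hq1)]
  have hsum : (∑ l ∈ Finset.range (k + 1), (m (l + 1) - m l) * r l ^ 2) / (4 * b ^ 2) ≤
      b ^ 2 / 4 * ∑ l ∈ Finset.range (k + 1), (m (l + 1) - m l) * q l ^ 2 := by
    rw [div_le_iff₀ (by positivity)]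
    have e : b ^ 2 / 4 * (∑ l ∈ Finset.range (k + 1), (m (l + 1) - m l) * q l ^ 2) *
        (4 * b ^ 2) = ∑ l ∈ Finset.range (k + 1), (m (l + 1) - m l) * (b ^ 2 * q l) ^ 2 := by
      rw [mul_assoc, Finset.sum_mul, Finset.mul_sum]
      refine Finset.sum_congr rfl fun l _ => ?_
      ring
    rw [e]
    refine Finset.sum_le_sum fun l hl => ?_
    have hl' := Finset.mem_range.1 hl
    refine mul_le_mul_of_nonneg_left ?_ (sub_nonneg.2 (hm.2.2 l (by omega)).le)
    rcases Nat.eq_zero_or_pos l with rfl | h0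
    · rw [hr0, zero_pow two_ne_zero]
      exact sq_nonneg _
    · obtain ⟨l', rfl⟩ : ∃ l', l = l' + 1 := ⟨l - 1, by omega⟩
      rw [hrl]
  have hspin : spinPart k m r ≤ spinPart k m (fun l => b ^ 2 * q l) + m 1 * b ^ 2 := by
    unfold spinPart
    rw [hr0]
    simp only [Real.sqrt_zero, zero_mul, integral_const, probReal_univ, one_smul]
    rcases Nat.eq_zero_or_pos k with rfl | h0
    · have e0 : ∀ F x, cascade m r 0 F x = F x := fun _ _ => rfl
      have e1 : ∀ F x, cascade m (fun l => b ^ 2 * q l) 0 F x = F x := fun _ _ => rfl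
      simp only [e0, e1, Real.cosh_zero, Real.log_one, hr0]
      have h1 : 0 ≤ ∫ z, Real.log (Real.cosh (√(b ^ 2 * q 0) * z)) ∂(gaussianReal 0 1) :=
        integral_nonneg fun z => Real.log_nonneg (Real.one_le_cosh _)
      have h2 : m 1 = 1 := hm.2.1
      rw [h2]
      nlinarith [hq01.1, hq1]
    · obtain ⟨k', rfl⟩ : ∃ k', k = k' + 1 := ⟨k - 1, by omega⟩
      rw [hrl]
      set F₁ : ℝ → ℝ := cascade (fun l => m (l + 1)) (fun l => r (l + 1)) k'
        (fun x => Real.log (Real.cosh x)) with hF₁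
      have hF₁' : cascade (fun l => m (l + 1)) (fun l => b ^ 2 * q (l + 1)) k'
        (fun x => Real.log (Real.cosh x)) = F₁ := by
        rw [hF₁]
        congr 1
      have hL : LipschitzWith 1 F₁ := comp_casc_lip (F := F₁) k' _ comp_lc
        fun l h1 h2 => hmpos l (by omega)
      have hm1 : 0 < m 1 := hmpos 0 (by omega)
      have hq10 : 0 ≤ b ^ 2 * q 1 - b ^ 2 * q 0 := by
        have := mul_le_mul_of_nonneg_left (hq.2 0 (by omega)) hb2.le
        simp only [zero_add] at this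
        linarith
      have hq0 : 0 ≤ b ^ 2 * q 0 := mul_nonneg hb2.le hq01.1
      rw [comp_shift, comp_shift, hF₁', hr0, sub_zero]
      have e1 : r 1 = b ^ 2 * q 0 + (b ^ 2 * q 1 - b ^ 2 * q 0) := by
        rw [show r 1 = b ^ 2 * q 1 from hrl 0]; ring
      rw [e1, ← comp_add hm1 hq0 hq10 hL]
      have h2 := comp_mean hm1 hq0 (comp_lip (v := b ^ 2 * q 1 - b ^ 2 * q 0) hm1 hL)
      have h3 : m 1 * (b ^ 2 * q 0) ≤ m 1 * b ^ 2 := by
        refine mul_le_mul_of_nonneg_left ?_ hm1.le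
        linarith only [mul_nonneg (le_of_lt (sub_pos.2 hb2)) (sub_nonneg.2 hq01.2), mul_nonneg (le_of_lt (sub_pos.2 hb2)) (sub_nonneg.2 hq1)]
      linarith only [h3, h2]
  unfold SKr SKpar
  linarith

end Vale.Agent.P146.Gap
end

section

/-! The integrated certificate (one integration by parts, `ε → 0`). -/

open MeasureTheory ProbabilityTheory Filter Topology Set

namespace Vale.Agent.P146.Gap

open Vale.Agent.P157.Par

theorem cint_hasDerivAt {F : ℝ → ℝ} (h : ContDiff ℝ (⊤ : ℕ∞) F) (j : ℕ) (x : ℝ) :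
    HasDerivAt (iteratedDeriv j F) (iteratedDeriv (j + 1) F x) x := by
  rw [iteratedDeriv_succ]
  exact ((h.differentiable_iteratedDeriv j (by exact_mod_cast ENat.natCast_lt_top j)) x).hasDerivAt

theorem cint_rho_deriv {e K B x : ℝ} {P D W A bb : ℝ → ℝ} (he : 0 < e) (hb : 0 ≤ bb x)
    (hP : HasDerivAt P (A x) x) (hD : HasDerivAt D (bb x / 2) x) (hW : HasDerivAt W K x)
    (hA : HasDerivAt A (-2 * (P x + D x) * A x) x) (hbb : HasDerivAt bb B x) :
    HasDerivAt (fun y => rho e (P y) (D y) (W y) (A y) K (bb y))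
      (rhop e (P x) (D x) (W x) (A x) K (bb x) B) x := by
  have hΔ : (D x ^ 2 + bb x / 4 + e) ≠ 0 := by positivity
  have h1 := (((hP.pow 3).const_mul (21 / 4 : ℝ)).add (((hP.pow 2).const_mul (68 / 5 : ℝ)).mul hD)).add
    ((hP.const_mul (153 / 10 : ℝ)).mul (hD.pow 2))
  have h2 := (((hP.pow 2).const_mul (47 / 20 : ℝ)).mul hW)
  have h3 := ((hP.const_mul (67 / 20 : ℝ)).mul hD).mul hW
  have h4 := (hP.const_mul (9 / 10 : ℝ)).mul_const K
  have h5 := (hA.const_mul (9 / 10 : ℝ)).mul hW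
  have h6 := (hA.const_mul (173 / 20 : ℝ)).mul hD
  have h7 := (hA.const_mul (97 / 10 : ℝ)).mul hP
  have h8 := (hbb.const_mul (9 / 20 : ℝ)).mul hP
  have h9 := ((((hbb.pow 2).mul hD).div (((hD.pow 2).add (hbb.div_const 4)).add_const e) hΔ).const_mul
    (1 / 8 : ℝ))
  have h := ((((((((h1.sub h2).sub h3).sub h4).add h5).sub h6).sub h7).sub h8).sub h9)
  refine (h.congr_deriv ?_)
  unfold rhop
  simp only [Pi.pow_apply, Pi.mul_apply, Pi.add_apply]
  generalize hΔd : (D x ^ 2 + bb x / 4 + e) = Δ at hΔ ⊢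
  field_simp
  ring

section Comp

variable (g τ e : ℝ) (F : ℝ → ℝ)

/-- `D`. -/
noncomputable def cintD (x : ℝ) : ℝ :=
  -(iteratedDeriv 3 F x / iteratedDeriv 2 F x) / 2 - g * iteratedDeriv 1 F x

/-- The weight. -/
noncomputable def cintW (x : ℝ) : ℝ :=
  Real.exp (g * F x - x ^ 2 / (2 * τ)) * iteratedDeriv 2 F x ^ 2

/-- The square bracket. -/
noncomputable def cintJ (x : ℝ) : ℝ :=
  (4 * (g * iteratedDeriv 1 F x + cintD g F x) ^ 2 - 2 * (g * iteratedDeriv 2 F x) - bet g F x) ^ 2
    - 48 * (g * iteratedDeriv 2 F x) * (g * iteratedDeriv 1 F x + cintD g F x) ^ 2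
    + 6 * (g * iteratedDeriv 2 F x) ^ 2

/-- The primitive. -/
noncomputable def cintK (x : ℝ) : ℝ :=
  cintW g τ F x * rho e (g * iteratedDeriv 1 F x) (cintD g F x) (x / τ)
    (g * iteratedDeriv 2 F x) (1 / τ) (bet g F x)

end Comp

variable {g C τ e x : ℝ} {F : ℝ → ℝ}

theorem cintD_deriv (h : ContDiff ℝ (⊤ : ℕ∞) F) (h2 : iteratedDeriv 2 F x ≠ 0) :
    HasDerivAt (cintD g F) (bet g F x / 2) x := by
  have h' := ((((cint_hasDerivAt h 3 x).div (cint_hasDerivAt h 2 x) h2).neg).div_const 2).sub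
    ((cint_hasDerivAt h 1 x).const_mul g)
  refine h'.congr_deriv ?_
  unfold bet
  norm_num
  field_simp
  ring

theorem cint_bet_deriv (h : ContDiff ℝ (⊤ : ℕ∞) F) (h2 : iteratedDeriv 2 F x ≠ 0) :
    HasDerivAt (bet g F) (betp g F x) x := by
  have h' := (((((cint_hasDerivAt h 3 x).div (cint_hasDerivAt h 2 x) h2).pow 2).sub
    ((cint_hasDerivAt h 4 x).div (cint_hasDerivAt h 2 x) h2))).sub
    ((cint_hasDerivAt h 2 x).const_mul (2 * g))
  refine h'.congr_deriv ?_
  unfold betp
  simp only [Pi.div_apply]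
  norm_num
  field_simp
  ring

theorem cint_PD (h2 : iteratedDeriv 2 F x ≠ 0) :
    -2 * (g * iteratedDeriv 1 F x + cintD g F x) * (g * iteratedDeriv 2 F x) =
      g * iteratedDeriv 3 F x := by
  unfold cintD
  field_simp
  ring

theorem cintW_deriv (h : ContDiff ℝ (⊤ : ℕ∞) F) (h2 : iteratedDeriv 2 F x ≠ 0) (hτ : 0 < τ) :
    HasDerivAt (cintW g τ F) (-(3 * (g * iteratedDeriv 1 F x) + 4 * cintD g F x + x / τ)
      * cintW g τ F x) x := by
  have h0 : HasDerivAt F (iteratedDeriv 1 F x) x := by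
    have := cint_hasDerivAt h 0 x
    rwa [iteratedDeriv_zero] at this
  have h' := (((h0.const_mul g).sub (((hasDerivAt_id x).pow 2).div_const (2 * τ))).exp).mul
    ((cint_hasDerivAt h 2 x).pow 2)
  refine h'.congr_deriv ?_
  unfold cintW cintD
  simp only [Pi.pow_apply, Pi.sub_apply, id]
  norm_num
  field_simp
  ring

theorem cintK_deriv (h : ContDiff ℝ (⊤ : ℕ∞) F) (h2 : iteratedDeriv 2 F x ≠ 0) (hτ : 0 < τ)
    (he : 0 < e) (hb : 0 ≤ bet g F x) :
    HasDerivAt (cintK g τ e F) (cintW g τ F x *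
      (rhop e (g * iteratedDeriv 1 F x) (cintD g F x) (x / τ)
        (g * iteratedDeriv 2 F x) (1 / τ) (bet g F x) (betp g F x)
      - (3 * (g * iteratedDeriv 1 F x) + 4 * cintD g F x + x / τ)
        * rho e (g * iteratedDeriv 1 F x) (cintD g F x) (x / τ)
        (g * iteratedDeriv 2 F x) (1 / τ) (bet g F x))) x := by
  have hA : HasDerivAt (fun y => g * iteratedDeriv 2 F y)
      (-2 * (g * iteratedDeriv 1 F x + cintD g F x) * (g * iteratedDeriv 2 F x)) x := by
    rw [cint_PD h2]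
    exact (cint_hasDerivAt h 2 x).const_mul g
  have h' := (cintW_deriv h h2 hτ (g := g)).mul (cint_rho_deriv
    (P := fun y => g * iteratedDeriv 1 F y) (A := fun y => g * iteratedDeriv 2 F y) he hb
    ((cint_hasDerivAt h 1 x).const_mul g) (cintD_deriv h h2) ((hasDerivAt_id x).div_const τ) hA
    (cint_bet_deriv h h2))
  refine h'.congr_deriv ?_
  simp only [id]
  ring

/-- The differential inequality on the half line. -/
theorem cint_ineq (h : Good g C F) (hg : 0 < g) (hτ : 0 < τ) (he : 0 < e) (hx : 0 ≤ x) :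
    0 ≤ cintW g τ F x * (cintJ g F x + 3 * e * bet g F x) + cintW g τ F x *
      (rhop e (g * iteratedDeriv 1 F x) (cintD g F x) (x / τ)
        (g * iteratedDeriv 2 F x) (1 / τ) (bet g F x) (betp g F x)
      - (3 * (g * iteratedDeriv 1 F x) + 4 * cintD g F x + x / τ)
        * rho e (g * iteratedDeriv 1 F x) (cintD g F x) (x / τ)
        (g * iteratedDeriv 2 F x) (1 / τ) (bet g F x)) := by
  have h2 := h.adm.pos x
  have h1 := h.d1_nonneg hx
  have hD := h.D_nonneg hx
  have hc := cert (e := e) (P := g * iteratedDeriv 1 F x) (D := cintD g F x) (W := x / τ)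
    (A := g * iteratedDeriv 2 F x) (K := 1 / τ) (b := bet g F x) (B := betp g F x) he
    (by positivity) hD (by positivity) (by positivity) (h.bet_nonneg x)
    (by
      have := h.x_mul_d2_le hg hx
      rw [show g * iteratedDeriv 2 F x * (x / τ) = (g / τ) * (x * iteratedDeriv 2 F x) by ring,
        show 1 / τ * (g * iteratedDeriv 1 F x) = (g / τ) * iteratedDeriv 1 F x by ring]
      exact mul_le_mul_of_nonneg_left this (by positivity))
    (by
      refine (h.betp_le x hx).trans (le_of_eq ?_)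
      unfold Yf cintD
      ring)
  have hw : 0 ≤ cintW g τ F x := by unfold cintW; positivity
  rw [← mul_add]
  refine mul_nonneg hw ?_
  unfold cintJ
  linarith

/-- The integrand of the claim. -/
theorem cint_integrand (h2 : iteratedDeriv 2 F x ≠ 0) :
    cintW g τ F x * cintJ g F x = Real.exp (g * F x - x ^ 2 / (2 * τ)) *
      (iteratedDeriv 4 F x ^ 2 - 12 * g * iteratedDeriv 2 F x * iteratedDeriv 3 F x ^ 2
      + 6 * g ^ 2 * iteratedDeriv 2 F x ^ 4) := by
  unfold cintW cintJ cintD bet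
  rw [mul_assoc]
  congr 1
  field_simp
  ring

/-! ### Bounds -/

/-- Bounded functions. -/
def CintBd (f : ℝ → ℝ) : Prop := ∃ M, ∀ x, |f x| ≤ M

theorem CintBd.const (c : ℝ) : CintBd (fun _ => c) := ⟨|c|, fun _ => le_rfl⟩

theorem CintBd.add {f k : ℝ → ℝ} (hf : CintBd f) (hk : CintBd k) : CintBd (fun x => f x + k x) := by
  obtain ⟨M, hM⟩ := hf
  obtain ⟨N, hN⟩ := hk
  exact ⟨M + N, fun x => (abs_add_le _ _).trans (add_le_add (hM x) (hN x))⟩

theorem CintBd.neg {f : ℝ → ℝ} (hf : CintBd f) : CintBd (fun x => -f x) := by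
  obtain ⟨M, hM⟩ := hf
  exact ⟨M, fun x => by rw [abs_neg]; exact hM x⟩

theorem CintBd.sub {f k : ℝ → ℝ} (hf : CintBd f) (hk : CintBd k) :
    CintBd (fun x => f x - k x) := by
  simpa only [sub_eq_add_neg] using hf.add hk.neg

theorem CintBd.mul {f k : ℝ → ℝ} (hf : CintBd f) (hk : CintBd k) : CintBd (fun x => f x * k x) := by
  obtain ⟨M, hM⟩ := hf
  obtain ⟨N, hN⟩ := hk
  exact ⟨M * N, fun x => by
    rw [abs_mul]
    exact mul_le_mul (hM x) (hN x) (abs_nonneg _) ((abs_nonneg _).trans (hM x))⟩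

theorem CintBd.pow {f : ℝ → ℝ} (hf : CintBd f) (n : ℕ) : CintBd (fun x => f x ^ n) := by
  induction n with
  | zero => simpa using CintBd.const 1
  | succ n ih => simpa only [pow_succ] using ih.mul hf

theorem cint_bd1 (h : Adm C F) : CintBd (iteratedDeriv 1 F) := h.smb.bd 0

theorem cint_bd2 (h : Adm C F) : CintBd (iteratedDeriv 2 F) := h.smb.bd 1

theorem cint_bdZ (h : Adm C F) : CintBd (fun x => iteratedDeriv 3 F x / iteratedDeriv 2 F x) :=
  ⟨C, fun x => by
    rw [abs_div, abs_of_pos (h.pos x), div_le_iff₀ (h.pos x)]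
    exact h.r3 x⟩

theorem cint_bd4 (h : Adm C F) : CintBd (fun x => iteratedDeriv 4 F x / iteratedDeriv 2 F x) := by
  obtain ⟨C', hC'⟩ := h.r4
  exact ⟨C', fun x => by
    rw [abs_div, abs_of_pos (h.pos x), div_le_iff₀ (h.pos x)]
    exact hC' x⟩

theorem cint_bdD (h : Adm C F) (g : ℝ) : CintBd (cintD g F) := by
  have h1 := ((cint_bdZ h).neg.mul (CintBd.const (1 / 2))).sub
    ((CintBd.const g).mul (cint_bd1 h))
  have h2 : cintD g F = fun x => -(iteratedDeriv 3 F x / iteratedDeriv 2 F x) * (1 / 2)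
      - g * iteratedDeriv 1 F x := by
    funext x
    unfold cintD
    ring
  rw [h2]
  exact h1

theorem cint_bdb (h : Adm C F) (g : ℝ) : CintBd (bet g F) :=
  (((cint_bdZ h).pow 2).sub (cint_bd4 h)).sub ((CintBd.const (2 * g)).mul (cint_bd2 h))

theorem cint_bdJ (h : Adm C F) (g : ℝ) : CintBd (cintJ g F) := by
  have hP := (CintBd.const g).mul (cint_bd1 h)
  have hA := (CintBd.const g).mul (cint_bd2 h)
  have hD := cint_bdD h g
  have hb := cint_bdb h g
  exact ((((((CintBd.const 4).mul ((hP.add hD).pow 2)).sub ((CintBd.const 2).mul hA)).sub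
    hb).pow 2).sub (((CintBd.const 48).mul hA).mul ((hP.add hD).pow 2))).add
    ((CintBd.const 6).mul (hA.pow 2))

theorem cint_rho_bd (h : Adm C F) (g τ : ℝ) {e : ℝ} (he : 0 < e) (hb0 : ∀ x, 0 ≤ bet g F x) :
    ∃ M N : ℝ, ∀ x, |rho e (g * iteratedDeriv 1 F x) (cintD g F x) (x / τ)
      (g * iteratedDeriv 2 F x) (1 / τ) (bet g F x)| ≤ M + N * |x| := by
  have hP := (CintBd.const g).mul (cint_bd1 h)
  have hA := (CintBd.const g).mul (cint_bd2 h)
  have hD := cint_bdD h g
  have hb := cint_bdb h g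
  have hq : CintBd (fun x => bet g F x / (cintD g F x ^ 2 + bet g F x / 4 + e)) := by
    refine ⟨4, fun x => ?_⟩
    have := hb0 x
    have hΔ : 0 < cintD g F x ^ 2 + bet g F x / 4 + e := by positivity
    rw [abs_of_nonneg (by positivity), div_le_iff₀ hΔ]
    linarith only [sq_nonneg (cintD g F x), he]
  have h0 : CintBd (fun x => 21 / 4 * (g * iteratedDeriv 1 F x) ^ 3
      + 68 / 5 * (g * iteratedDeriv 1 F x) ^ 2 * cintD g F x
      + 153 / 10 * (g * iteratedDeriv 1 F x) * cintD g F x ^ 2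
      - 9 / 10 * (g * iteratedDeriv 1 F x) * (1 / τ)
      - 173 / 20 * (g * iteratedDeriv 2 F x) * cintD g F x
      - 97 / 10 * (g * iteratedDeriv 2 F x) * (g * iteratedDeriv 1 F x)
      - 9 / 20 * bet g F x * (g * iteratedDeriv 1 F x)
      - 1 / 8 * (bet g F x * cintD g F x
        * (bet g F x / (cintD g F x ^ 2 + bet g F x / 4 + e)))) :=
    ((((((((CintBd.const _).mul (hP.pow 3)).add (((CintBd.const _).mul (hP.pow 2)).mul hD)).add
      (((CintBd.const _).mul hP).mul (hD.pow 2))).sub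
      (((CintBd.const _).mul hP).mul (CintBd.const _))).sub
      (((CintBd.const _).mul hA).mul hD)).sub
      (((CintBd.const _).mul hA).mul hP)).sub
      (((CintBd.const _).mul hb).mul hP)).sub
      ((CintBd.const _).mul ((hb.mul hD).mul hq))
  have h1 : CintBd (fun x => (9 / 10 * (g * iteratedDeriv 2 F x)
      - 47 / 20 * (g * iteratedDeriv 1 F x) ^ 2
      - 67 / 20 * (g * iteratedDeriv 1 F x) * cintD g F x) * (1 / τ)) :=
    ((((CintBd.const _).mul hA).sub ((CintBd.const _).mul (hP.pow 2))).sub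
      (((CintBd.const _).mul hP).mul hD)).mul (CintBd.const _)
  obtain ⟨M, hM⟩ := h0
  obtain ⟨N, hN⟩ := h1
  refine ⟨M, N, fun x => ?_⟩
  have h2 : rho e (g * iteratedDeriv 1 F x) (cintD g F x) (x / τ)
      (g * iteratedDeriv 2 F x) (1 / τ) (bet g F x) =
      (21 / 4 * (g * iteratedDeriv 1 F x) ^ 3
      + 68 / 5 * (g * iteratedDeriv 1 F x) ^ 2 * cintD g F x
      + 153 / 10 * (g * iteratedDeriv 1 F x) * cintD g F x ^ 2
      - 9 / 10 * (g * iteratedDeriv 1 F x) * (1 / τ)
      - 173 / 20 * (g * iteratedDeriv 2 F x) * cintD g F x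
      - 97 / 10 * (g * iteratedDeriv 2 F x) * (g * iteratedDeriv 1 F x)
      - 9 / 20 * bet g F x * (g * iteratedDeriv 1 F x)
      - 1 / 8 * (bet g F x * cintD g F x
        * (bet g F x / (cintD g F x ^ 2 + bet g F x / 4 + e))))
      + (9 / 10 * (g * iteratedDeriv 2 F x)
      - 47 / 20 * (g * iteratedDeriv 1 F x) ^ 2
      - 67 / 20 * (g * iteratedDeriv 1 F x) * cintD g F x) * (1 / τ) * x := by
    unfold rho
    ring
  rw [h2]
  refine (abs_add_le _ _).trans (add_le_add (hM x) ?_)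
  rw [abs_mul]
  exact mul_le_mul_of_nonneg_right (hN x) (abs_nonneg x)

theorem cint_lip (h : Adm C F) (x : ℝ) : |F x| ≤ |F 0| + |x| := by
  have h1 : ∀ y, ‖iteratedDeriv 1 F y‖ ≤ 1 := by
    intro y
    have h1 := h.le1 y
    have h2 := h.pos y
    rw [Real.norm_eq_abs, abs_le_one_iff_mul_self_le_one]
    linarith only [h2, h1]
  have h2 := Convex.norm_image_sub_le_of_norm_hasDerivWithin_le (f := F)
    (f' := iteratedDeriv 1 F) (s := univ) (C := 1) (x := 0) (y := x)
    (fun y _ => (by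
      have := cint_hasDerivAt h.smb.smooth 0 y
      rw [iteratedDeriv_zero] at this
      exact this.hasDerivWithinAt)) (fun y _ => h1 y) convex_univ (mem_univ _) (mem_univ _)
  rw [Real.norm_eq_abs, Real.norm_eq_abs, one_mul, sub_zero] at h2
  have h3 := abs_sub_abs_le_abs_sub (F x) (F 0)
  linarith

theorem cint_exp_le (h : Adm C F) (hg : 0 < g) (hg1 : g ≤ 1) (hτ : 0 < τ) (x : ℝ) :
    Real.exp (g * F x - x ^ 2 / (2 * τ)) ≤
      Real.exp (|F 0| + τ) * Real.exp (-(1 / (4 * τ)) * x ^ 2) := by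
  rw [← Real.exp_add]
  apply Real.exp_le_exp.mpr
  have h1 : g * F x ≤ |F 0| + |x| := by
    calc g * F x ≤ g * |F x| := mul_le_mul_of_nonneg_left (le_abs_self _) hg.le
      _ ≤ 1 * |F x| := mul_le_mul_of_nonneg_right hg1 (abs_nonneg _)
      _ ≤ |F 0| + |x| := by rw [one_mul]; exact cint_lip h x
  have h2 : |x| ≤ x ^ 2 / (4 * τ) + τ := by
    have h3 : 0 ≤ (|x| - 2 * τ) ^ 2 / (4 * τ) := by positivity
    have h4 : (|x| - 2 * τ) ^ 2 / (4 * τ) = x ^ 2 / (4 * τ) + τ - |x| := by
      field_simp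
      rw [← sq_abs x]
      ring
    linarith
  have h5 : x ^ 2 / (2 * τ) = 2 * (x ^ 2 / (4 * τ)) := by
    field_simp
    norm_num
  have h6 : -(1 / (4 * τ)) * x ^ 2 = -(x ^ 2 / (4 * τ)) := by ring
  linarith

theorem cintW_le (h : Adm C F) (hg : 0 < g) (hg1 : g ≤ 1) (hτ : 0 < τ) (x : ℝ) :
    |cintW g τ F x| ≤ Real.exp (|F 0| + τ) * Real.exp (-(1 / (4 * τ)) * x ^ 2) := by
  have h2 := h.pos x
  have h1 : iteratedDeriv 2 F x ≤ 1 := by
    have := h.le1 x
    linarith only [sq_nonneg (iteratedDeriv 1 F x), this]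
  have h3 : iteratedDeriv 2 F x ^ 2 ≤ 1 := pow_le_one₀ h2.le h1
  unfold cintW
  rw [abs_of_nonneg (by positivity)]
  calc _ ≤ Real.exp (g * F x - x ^ 2 / (2 * τ)) * 1 :=
        mul_le_mul_of_nonneg_left h3 (Real.exp_pos _).le
    _ ≤ _ := by rw [mul_one]; exact cint_exp_le h hg hg1 hτ x

theorem cint_cont (h : Adm C F) (j : ℕ) : Continuous (iteratedDeriv j F) :=
  continuous_iff_continuousAt.mpr fun x => (cint_hasDerivAt h.smb.smooth j x).continuousAt

theorem cintW_cont (h : Adm C F) : Continuous (cintW g τ F) := by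
  have h0 := cint_cont h 0
  rw [iteratedDeriv_zero] at h0
  exact (((h0.const_mul g).sub ((continuous_pow 2).div_const _)).rexp).mul ((cint_cont h 2).pow 2)

theorem cintD_cont (h : Adm C F) : Continuous (cintD g F) :=
  ((((cint_cont h 3).div (cint_cont h 2) fun x => (h.pos x).ne').neg).div_const 2).sub
    ((cint_cont h 1).const_mul g)

theorem cintb_cont (h : Adm C F) : Continuous (bet g F) :=
  ((((cint_cont h 3).div (cint_cont h 2) fun x => (h.pos x).ne').pow 2).sub
    ((cint_cont h 4).div (cint_cont h 2) fun x => (h.pos x).ne')).sub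
    ((cint_cont h 2).const_mul (2 * g))

theorem cintJ_cont (h : Adm C F) : Continuous (cintJ g F) := by
  have hP := (cint_cont h 1).const_mul g
  have hA := (cint_cont h 2).const_mul g
  have hD := cintD_cont h (g := g)
  have hb := cintb_cont h (g := g)
  unfold cintJ
  continuity

theorem cint_integrable (h : Adm C F) (hg : 0 < g) (hg1 : g ≤ 1) (hτ : 0 < τ) {f : ℝ → ℝ}
    (hf : Continuous f) (hb : CintBd f) : Integrable (fun x => cintW g τ F x * f x) := by
  obtain ⟨M, hM⟩ := hb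
  refine Integrable.mono' (g := fun x => Real.exp (|F 0| + τ)
    * Real.exp (-(1 / (4 * τ)) * x ^ 2) * M) ?_
    ((cintW_cont h).mul hf).aestronglyMeasurable (ae_of_all _ fun x => ?_)
  · exact ((integrable_exp_neg_mul_sq (by positivity)).const_mul _).mul_const _
  · rw [Real.norm_eq_abs, abs_mul]
    exact mul_le_mul (cintW_le h hg hg1 hτ x) (hM x) (abs_nonneg _) (by positivity)

theorem cintK_tendsto (h : Good g C F) (hg : 0 < g) (hg1 : g ≤ 1) (hτ : 0 < τ) (he : 0 < e) :
    Tendsto (cintK g τ e F) atTop (𝓝 0) := by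
  obtain ⟨M, N, hMN⟩ := cint_rho_bd h.adm g τ he h.bet_nonneg
  have h1 := (tendsto_rpow_abs_mul_exp_neg_mul_sq_cocompact (a := 1 / (4 * τ))
    (by positivity) 0).mono_left atTop_le_cocompact
  have h2 := (tendsto_rpow_abs_mul_exp_neg_mul_sq_cocompact (a := 1 / (4 * τ))
    (by positivity) 1).mono_left atTop_le_cocompact
  have h3 := ((h1.const_mul (M * Real.exp (|F 0| + τ))).add
    (h2.const_mul (N * Real.exp (|F 0| + τ))))
  rw [mul_zero, mul_zero, add_zero] at h3
  refine squeeze_zero_norm (fun x => ?_) h3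
  unfold cintK
  rw [Real.norm_eq_abs, abs_mul, Real.rpow_zero, Real.rpow_one]
  calc _ ≤ (Real.exp (|F 0| + τ) * Real.exp (-(1 / (4 * τ)) * x ^ 2)) * (M + N * |x|) :=
        mul_le_mul (cintW_le h.adm hg hg1 hτ x) (hMN x) (abs_nonneg _) (by positivity)
    _ = _ := by ring

theorem cint_parity (h : Adm C F) (j : ℕ) (x : ℝ) :
    iteratedDeriv j F (-x) = (-1) ^ j * iteratedDeriv j F x := by
  have h1 := iteratedDeriv_comp_neg j F x
  have h2 : (fun x => F (-x)) = F := funext h.even
  rw [h2, smul_eq_mul] at h1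
  rw [h1, ← mul_assoc, ← mul_pow]
  norm_num

theorem cint_odd_zero (h : Adm C F) : iteratedDeriv 1 F 0 = 0 ∧ iteratedDeriv 3 F 0 = 0 := by
  have h1 := cint_parity h 1 0
  have h3 := cint_parity h 3 0
  rw [neg_zero] at h1 h3
  constructor <;> linarith

theorem cintK_zero (h : Adm C F) : cintK g τ e F 0 = 0 := by
  obtain ⟨h1, h3⟩ := cint_odd_zero h
  unfold cintK rho cintD
  rw [h1, h3]
  norm_num

theorem cintW_even (h : Adm C F) (x : ℝ) : cintW g τ F (-x) = cintW g τ F x := by
  unfold cintW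
  rw [cint_parity h, h.even]
  norm_num

theorem cintD_odd (h : Adm C F) (x : ℝ) : cintD g F (-x) = -cintD g F x := by
  unfold cintD
  rw [cint_parity h, cint_parity h, cint_parity h]
  norm_num
  ring

theorem cintb_even (h : Adm C F) (x : ℝ) : bet g F (-x) = bet g F x := by
  unfold bet
  rw [cint_parity h, cint_parity h, cint_parity h]
  norm_num
  ring

theorem cintJ_even (h : Adm C F) (x : ℝ) : cintJ g F (-x) = cintJ g F x := by
  unfold cintJ
  rw [cintD_odd h, cintb_even h, cint_parity h, cint_parity h]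
  norm_num
  ring

theorem cint_half (h : Good g C F) (hg : 0 < g) (hg1 : g ≤ 1) (hτ : 0 < τ) (he : 0 < e) :
    0 ≤ ∫ x in Ioi (0 : ℝ), cintW g τ F x * (cintJ g F x + 3 * e * bet g F x) := by
  have hb : CintBd (fun x => cintJ g F x + 3 * e * bet g F x) :=
    (cint_bdJ h.adm g).add ((CintBd.const _).mul (cint_bdb h.adm g))
  have hc : Continuous (fun x => cintJ g F x + 3 * e * bet g F x) :=
    (cintJ_cont h.adm).add ((cintb_cont h.adm).const_mul _)
  have hint := cint_integrable h.adm hg hg1 hτ hc hb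
  have h1 := intervalIntegral_tendsto_integral_Ioi 0 hint.integrableOn tendsto_id
  have h2 : Tendsto (fun R => -cintK g τ e F R) atTop (𝓝 0) := by
    simpa using (cintK_tendsto h hg hg1 hτ he).neg
  refine le_of_tendsto_of_tendsto h2 h1 ?_
  filter_upwards [eventually_ge_atTop 0] with R hR
  have hd : ∀ x, HasDerivAt (cintK g τ e F) _ x := fun x =>
    cintK_deriv h.adm.smb.smooth (h.adm.pos x).ne' hτ he (h.bet_nonneg x)
  have h3 := intervalIntegral.sub_le_integral_of_hasDeriv_right_of_le hR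
    (g := fun x => -cintK g τ e F x)
    (fun x _ => (hd x).continuousAt.neg.continuousWithinAt)
    (fun x _ => (hd x).neg.hasDerivWithinAt) hint.integrableOn
    (fun x hx => by
      have := cint_ineq h hg hτ he (x := x) hx.1.le
      linarith)
  rw [cintK_zero h.adm, neg_zero, sub_zero] at h3
  exact h3

theorem cint_full (h : Good g C F) (hg : 0 < g) (hg1 : g ≤ 1) (hτ : 0 < τ) :
    0 ≤ ∫ x, cintW g τ F x * cintJ g F x := by
  have hintJ := cint_integrable h.adm hg hg1 hτ (cintJ_cont h.adm) (cint_bdJ h.adm g)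
  have hintb := cint_integrable h.adm hg hg1 hτ (cintb_cont h.adm) (cint_bdb h.adm g)
  have key : ∀ e : ℝ, 0 < e →
      0 ≤ (∫ x, cintW g τ F x * cintJ g F x) + 3 * e * ∫ x, cintW g τ F x * bet g F x := by
    intro e he
    have h1 := cint_half h hg hg1 hτ he
    have h2 : (∫ x, cintW g τ F x * (cintJ g F x + 3 * e * bet g F x)) =
        2 * ∫ x in Ioi (0 : ℝ), cintW g τ F x * (cintJ g F x + 3 * e * bet g F x) := by
      rw [← integral_comp_abs (f := fun x => cintW g τ F x * (cintJ g F x + 3 * e * bet g F x))]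
      congr 1
      funext x
      rcases abs_choice x with hx | hx <;> rw [hx]
      rw [cintW_even h.adm, cintJ_even h.adm, cintb_even h.adm]
    have h3 : (∫ x, cintW g τ F x * (cintJ g F x + 3 * e * bet g F x)) =
        (∫ x, cintW g τ F x * cintJ g F x) + 3 * e * ∫ x, cintW g τ F x * bet g F x := by
      rw [← integral_const_mul, ← integral_add hintJ (hintb.const_mul _)]
      congr 1
      funext x
      ring
    rw [← h3, h2]
    (clear * - h1; positivity)
  set I := ∫ x, cintW g τ F x * cintJ g F x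
  set B := ∫ x, cintW g τ F x * bet g F x
  by_contra hneg
  push Not at hneg
  have h1 := key (-I / (6 * (|B| + 1))) (by
    have := abs_nonneg B
    exact div_pos (by linarith) (by positivity))
  have h2 : 3 * (-I / (6 * (|B| + 1))) * B ≤ -I / 2 := by
    have h3 : B ≤ |B| + 1 := by linarith only [le_abs_self B]
    have h4 : 0 < |B| + 1 := by positivity
    have h5 : 0 ≤ 3 * (-I / (6 * (|B| + 1))) := by
      have : 0 < -I := by linarith
      positivity
    calc 3 * (-I / (6 * (|B| + 1))) * B ≤ 3 * (-I / (6 * (|B| + 1))) * (|B| + 1) :=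
          mul_le_mul_of_nonneg_left h3 h5
      _ = -I / 2 := by
        field_simp
        ring
  linarith only [h2, h1, hneg]

theorem cert_int {g C τ : ℝ} {F : ℝ → ℝ} (h : Good g C F) (hg : 0 < g) (hg1 : g ≤ 1)
    (hτ : 0 < τ) :
    0 ≤ ∫ z, Real.exp (g * F (√τ * z)) * (iteratedDeriv 4 F (√τ * z) ^ 2
      - 12 * g * iteratedDeriv 2 F (√τ * z) * iteratedDeriv 3 F (√τ * z) ^ 2
      + 6 * g ^ 2 * iteratedDeriv 2 F (√τ * z) ^ 4) ∂(gaussianReal 0 1) := by
  have hs : 0 < √τ := Real.sqrt_pos.mpr hτ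
  have h0 := cint_full h hg hg1 hτ
  rw [integral_gaussianReal_eq_integral_smul one_ne_zero]
  have h1 : ∀ z : ℝ, gaussianPDFReal 0 1 z • (Real.exp (g * F (√τ * z)) *
      (iteratedDeriv 4 F (√τ * z) ^ 2
      - 12 * g * iteratedDeriv 2 F (√τ * z) * iteratedDeriv 3 F (√τ * z) ^ 2
      + 6 * g ^ 2 * iteratedDeriv 2 F (√τ * z) ^ 4)) =
      (fun x => (√(2 * Real.pi))⁻¹ * (cintW g τ F x * cintJ g F x)) (√τ * z) := by
    intro z
    simp only []
    rw [cint_integrand (h.adm.pos _).ne', Real.exp_sub, gaussianPDFReal, smul_eq_mul]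
    have h2 : Real.exp (-(z - 0) ^ 2 / (2 * ((1 : NNReal) : ℝ))) =
        (Real.exp ((√τ * z) ^ 2 / (2 * τ)))⁻¹ := by
      rw [← Real.exp_neg]
      congr 1
      rw [mul_pow, Real.sq_sqrt hτ.le, NNReal.coe_one]
      field_simp
      ring
    rw [h2, NNReal.coe_one, mul_one]
    ring
  simp_rw [h1]
  rw [Measure.integral_comp_mul_left (fun x => (√(2 * Real.pi))⁻¹ * (cintW g τ F x * cintJ g F x)),
    integral_const_mul, smul_eq_mul]
  (clear * - hτ h0; positivity)

end Vale.Agent.P146.Gap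
end

section

/-!
Bounds for the overlaps of the spin chain: nonnegativity, monotonicity in the level, strict bound
by one and the Lipschitz bound for the increments.
-/

open MeasureTheory ProbabilityTheory Filter Topology Set

namespace Vale.Agent.P157.Par

/-- Continuous bounded observables. -/
def Sp7Cb (g : ℝ → ℝ) : Prop := Continuous g ∧ ∃ K, ∀ x, |g x| ≤ K

theorem sp7_cb_const (c : ℝ) : Sp7Cb (fun _ => c) := ⟨continuous_const, |c|, fun _ => le_rfl⟩

theorem sp7_cb_tlt {F M D : ℝ → ℝ} (h : Ec F M D) {g : ℝ → ℝ} (hg : Sp7Cb g) (m v : ℝ) :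
    Sp7Cb (tlt m v F g) := by
  obtain ⟨hc, K, hK⟩ := hg
  exact ⟨h.sm.tlt_cont hc hK m v, K, fun x => h.sm.abs_tlt_le hc hK m v x⟩

theorem sp7_cb_M {F M D : ℝ → ℝ} (h : Ec F M D) : Sp7Cb M :=
  ⟨h.sm.cont1, 1, h.abs_M⟩

theorem sp7_cb_sq {g : ℝ → ℝ} (hg : Sp7Cb g) : Sp7Cb (fun x => g x ^ 2) := by
  obtain ⟨hc, K, hK⟩ := hg
  refine ⟨hc.pow 2, K ^ 2, fun x => ?_⟩
  rw [abs_pow]
  exact pow_le_pow_left₀ (abs_nonneg _) (hK x) 2

theorem sp7_cb_add {g g' : ℝ → ℝ} (hg : Sp7Cb g) (hg' : Sp7Cb g') :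
    Sp7Cb (fun x => g x + g' x) := by
  obtain ⟨hc, K, hK⟩ := hg
  obtain ⟨hc', K', hK'⟩ := hg'
  exact ⟨hc.add hc', K + K', fun x => (abs_add_le _ _).trans (add_le_add (hK x) (hK' x))⟩

theorem sp7_cb_neg {g : ℝ → ℝ} (hg : Sp7Cb g) : Sp7Cb (fun x => -g x) := by
  obtain ⟨hc, K, hK⟩ := hg
  exact ⟨hc.neg, K, fun x => by rw [abs_neg]; exact hK x⟩

theorem sp7_cb_int {g : ℝ → ℝ} (hg : Sp7Cb g) (a : ℝ) :
    Integrable (fun z => g (a * z)) (gaussianReal 0 1) := by
  obtain ⟨hc, K, hK⟩ := hg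
  refine Integrable.of_bound (C := K) ?_ (ae_of_all _ fun z => ?_)
  · exact (hc.comp (continuous_const.mul continuous_id)).aestronglyMeasurable
  · rw [Real.norm_eq_abs]; exact hK _

/-- The exponents used by the chain of height `l`. -/
def Sp7Exp (m : ℕ → ℝ) (l : ℕ) : Prop := ∀ i < l, 0 < m (i + 1) ∧ m (i + 1) ≤ 1

theorem sp7_exp_of {k : ℕ} {m : ℕ → ℝ} (hm : Exponents k m) : Sp7Exp m k := by
  obtain ⟨h0, h1, hlt⟩ := hm
  have hpos : ∀ i ≤ k, 0 < m (i + 1) := by
    intro i
    induction i with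
    | zero => intro hi; rw [← h0]; exact hlt 0 hi
    | succ i ih => intro hi; exact (ih (by omega)).trans (hlt (i + 1) hi)
  have hle : ∀ n ≤ k + 1, m (k + 1 - n) ≤ 1 := by
    intro n
    induction n with
    | zero => intro _; rw [Nat.sub_zero, h1]
    | succ n ih =>
      intro hn
      have h2 := hlt (k + 1 - (n + 1)) (by omega)
      have h3 : k + 1 - (n + 1) + 1 = k + 1 - n := by omega
      rw [h3] at h2
      exact h2.le.trans (ih (by omega))
  intro i hi
  refine ⟨hpos i hi.le, ?_⟩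
  have h4 := hle (k - i) (by omega)
  have h5 : k + 1 - (k - i) = i + 1 := by omega
  rwa [h5] at h4

theorem sp7_exp_down {m : ℕ → ℝ} {l : ℕ} (h : Sp7Exp m (l + 1)) : Sp7Exp m l :=
  fun i hi => h i (by omega)

theorem sp7_chn_mono (m r : ℕ → ℝ) (l : ℕ) (hm : Sp7Exp m l) {F M D : ℝ → ℝ} (h : Ec F M D)
    {g g' : ℝ → ℝ} (hg : Sp7Cb g) (hg' : Sp7Cb g') (hle : ∀ x, g x ≤ g' x) :
    chn m r l F g ≤ chn m r l F g' := by
  induction l generalizing F M D g g' with
  | zero =>
    rw [chn_zero_def, chn_zero_def]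
    exact integral_mono (sp7_cb_int hg _) (sp7_cb_int hg' _) (fun z => hle _)
  | succ l ih =>
    rw [chn_succ_def, chn_succ_def]
    obtain ⟨hm0, hm1⟩ := hm l (Nat.lt_succ_self l)
    refine ih (sp7_exp_down hm) (h.step hm0 hm1 _) (sp7_cb_tlt h hg _ _) (sp7_cb_tlt h hg' _ _) ?_
    intro x
    obtain ⟨hc, K, hK⟩ := hg
    obtain ⟨hc', K', hK'⟩ := hg'
    exact h.sm.tlt_mono hc hK hc' hK' hle _ _ x

theorem sp7_chn_const (m r : ℕ → ℝ) (l : ℕ) (hm : Sp7Exp m l) {F M D : ℝ → ℝ} (h : Ec F M D)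
    (c : ℝ) : chn m r l F (fun _ => c) = c := by
  induction l generalizing F M D with
  | zero => rw [chn_zero_def]; simp
  | succ l ih =>
    rw [chn_succ_def]
    obtain ⟨hm0, hm1⟩ := hm l (Nat.lt_succ_self l)
    have h1 : tlt (m (l + 1)) (r (l + 1) - r l) F (fun _ => c) = fun _ => c := by
      funext x
      exact h.sm.tlt_const _ _ _ x
    rw [h1]
    exact ih (sp7_exp_down hm) (h.step hm0 hm1 _)

theorem sp7_chn_add (m r : ℕ → ℝ) (l : ℕ) (hm : Sp7Exp m l) {F M D : ℝ → ℝ} (h : Ec F M D)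
    {g g' : ℝ → ℝ} (hg : Sp7Cb g) (hg' : Sp7Cb g') :
    chn m r l F (fun x => g x + g' x) = chn m r l F g + chn m r l F g' := by
  induction l generalizing F M D g g' with
  | zero =>
    rw [chn_zero_def, chn_zero_def, chn_zero_def]
    exact integral_add (sp7_cb_int hg _) (sp7_cb_int hg' _)
  | succ l ih =>
    rw [chn_succ_def, chn_succ_def, chn_succ_def]
    obtain ⟨hm0, hm1⟩ := hm l (Nat.lt_succ_self l)
    have h1 : tlt (m (l + 1)) (r (l + 1) - r l) F (fun x => g x + g' x) =
        fun x => tlt (m (l + 1)) (r (l + 1) - r l) F g x +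
          tlt (m (l + 1)) (r (l + 1) - r l) F g' x := by
      funext x
      obtain ⟨hc, K, hK⟩ := hg
      obtain ⟨hc', K', hK'⟩ := hg'
      exact h.sm.tlt_add hc hK hc' hK' _ _ x
    rw [h1]
    exact ih (sp7_exp_down hm) (h.step hm0 hm1 _) (sp7_cb_tlt h hg _ _) (sp7_cb_tlt h hg' _ _)

/-- Strict positivity of one tilted average. -/
theorem sp7_tlt_pos {F M D : ℝ → ℝ} (h : Ec F M D) {g : ℝ → ℝ} (hg : Sp7Cb g)
    (hpos : ∀ x, 0 < g x) (m v x : ℝ) : 0 < tlt m v F g x := by
  obtain ⟨hc, K, hK⟩ := hg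
  have hden := h.sm.int_exp_pos m v x
  have hint := h.sm.integrable hc hK m v x
  unfold tlt
  refine div_pos ?_ hden
  rw [integral_pos_iff_support_of_nonneg (fun z => (mul_pos (hpos _) (Real.exp_pos _)).le) hint]
  have hs : Function.support (fun z => g (x + √v * z) * Real.exp (m * F (x + √v * z))) =
      Set.univ := by
    ext z
    simp only [Function.mem_support, Set.mem_univ, iff_true]
    exact (mul_pos (hpos _) (Real.exp_pos _)).ne'
  rw [hs]
  simp

theorem sp7_chn_pos (m r : ℕ → ℝ) (l : ℕ) (hm : Sp7Exp m l) {F M D : ℝ → ℝ} (h : Ec F M D)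
    {g : ℝ → ℝ} (hg : Sp7Cb g) (hpos : ∀ x, 0 < g x) : 0 < chn m r l F g := by
  induction l generalizing F M D g with
  | zero =>
    rw [chn_zero_def]
    rw [integral_pos_iff_support_of_nonneg (fun z => (hpos _).le) (sp7_cb_int hg _)]
    have hs : Function.support (fun z => g (√(r 0) * z)) = Set.univ := by
      ext z
      simp only [Function.mem_support, Set.mem_univ, iff_true]
      exact (hpos _).ne'
    rw [hs]
    simp
  | succ l ih =>
    rw [chn_succ_def]
    obtain ⟨hm0, hm1⟩ := hm l (Nat.lt_succ_self l)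
    exact ih (sp7_exp_down hm) (h.step hm0 hm1 _) (sp7_cb_tlt h hg _ _)
      (fun x => sp7_tlt_pos h hg hpos _ _ x)

theorem sp7_Rc_nonneg (m r : ℕ → ℝ) (l : ℕ) (hm : Sp7Exp m l) {F M D : ℝ → ℝ} (h : Ec F M D)
    {j : ℕ} (hj : j ≤ l) : 0 ≤ Rc m r l F M j := by
  induction l generalizing F M D with
  | zero =>
    have hj0 : j = 0 := by omega
    subst hj0
    rw [Rc_self]
    have h1 := sp7_chn_mono m r 0 hm h (sp7_cb_const 0) (sp7_cb_sq (sp7_cb_M h))
      (fun x => sq_nonneg _)
    rwa [sp7_chn_const m r 0 hm h] at h1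
  | succ l ih =>
    rcases Nat.lt_or_ge l j with hlj | hlj
    · have hj0 : j = l + 1 := by omega
      subst hj0
      rw [Rc_self]
      have h1 := sp7_chn_mono m r (l + 1) hm h (sp7_cb_const 0) (sp7_cb_sq (sp7_cb_M h))
        (fun x => sq_nonneg _)
      rwa [sp7_chn_const m r (l + 1) hm h] at h1
    · rw [Rc_succ_le m r l F M hlj]
      obtain ⟨hm0, hm1⟩ := hm l (Nat.lt_succ_self l)
      exact ih (sp7_exp_down hm) (h.step hm0 hm1 _) hlj

/-- The increments of the overlaps are bounded by any bound of the one step variances. -/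
theorem sp7_Rc_incr (m r : ℕ → ℝ) (l : ℕ) (hm : Sp7Exp m l) {C : ℝ}
    {F M D : ℝ → ℝ} (h : Ec F M D) {j : ℕ} (hj : j < l)
    (hC : ∀ F M D : ℝ → ℝ, Ec F M D → ∀ x,
      tlt (m (j + 1)) (r (j + 1) - r j) F (fun y => M y ^ 2) x ≤
        tlt (m (j + 1)) (r (j + 1) - r j) F M x ^ 2 + C) :
    Rc m r l F M (j + 1) ≤ Rc m r l F M j + C := by
  induction l generalizing F M D with
  | zero => omega
  | succ l ih =>
    obtain ⟨hm0, hm1⟩ := hm l (Nat.lt_succ_self l)
    rcases Nat.lt_or_ge j l with hlj | hlj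
    · rw [Rc_succ_le m r l F M (show j + 1 ≤ l from hlj), Rc_succ_le m r l F M hlj.le]
      exact ih (sp7_exp_down hm) (h.step hm0 hm1 _) hlj
    · have hj0 : j = l := by omega
      subst hj0
      have hs := h.step hm0 hm1 (r (j + 1) - r j)
      rw [Rc_self, Rc_succ_le m r j F M le_rfl, Rc_self, chn_succ_def]
      have h2 := sp7_chn_mono m r j (sp7_exp_down hm) hs
        (sp7_cb_tlt h (sp7_cb_sq (sp7_cb_M h)) _ _)
        (sp7_cb_add (sp7_cb_sq (sp7_cb_tlt h (sp7_cb_M h) (m (j + 1)) (r (j + 1) - r j)))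
          (sp7_cb_const C)) (hC F M D h)
      rw [sp7_chn_add m r j (sp7_exp_down hm) hs
        (sp7_cb_sq (sp7_cb_tlt h (sp7_cb_M h) (m (j + 1)) (r (j + 1) - r j))) (sp7_cb_const C),
        sp7_chn_const m r j (sp7_exp_down hm) hs] at h2
      exact h2

theorem sp7_Rc_mono (m r : ℕ → ℝ) (l : ℕ) (hm : Sp7Exp m l)
    {F M D : ℝ → ℝ} (h : Ec F M D) {j : ℕ} (hj : j < l) :
    Rc m r l F M j ≤ Rc m r l F M (j + 1) := by
  induction l generalizing F M D with
  | zero => omega
  | succ l ih =>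
    obtain ⟨hm0, hm1⟩ := hm l (Nat.lt_succ_self l)
    rcases Nat.lt_or_ge j l with hlj | hlj
    · rw [Rc_succ_le m r l F M (show j + 1 ≤ l from hlj), Rc_succ_le m r l F M hlj.le]
      exact ih (sp7_exp_down hm) (h.step hm0 hm1 _) hlj
    · have hj0 : j = l := by omega
      subst hj0
      have hs := h.step hm0 hm1 (r (j + 1) - r j)
      rw [Rc_self m r (j + 1), Rc_succ_le m r j F M le_rfl, Rc_self, chn_succ_def]
      exact sp7_chn_mono m r j (sp7_exp_down hm) hs
        (sp7_cb_sq (sp7_cb_tlt h (sp7_cb_M h) (m (j + 1)) (r (j + 1) - r j)))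
        (sp7_cb_tlt h (sp7_cb_sq (sp7_cb_M h)) _ _)
        (fun x => h.sm.tlt_sq_le h.sm.cont1 h.abs_M _ _ x)

theorem spR_nonneg {k : ℕ} {m r : ℕ → ℝ} (hm : Exponents k m) (hr : Path k r) {j : ℕ}
    (hj : j ≤ k) : 0 ≤ spR k m r j :=
  sp7_Rc_nonneg m r k (sp7_exp_of hm) ec_logcosh hj

theorem spR_mono {k : ℕ} {m r : ℕ → ℝ} (hm : Exponents k m) (hr : Path k r) {j : ℕ}
    (hj : j < k) : spR k m r j ≤ spR k m r (j + 1) :=
  sp7_Rc_mono m r k (sp7_exp_of hm) ec_logcosh hj

theorem spR_lt_one {k : ℕ} {m r : ℕ → ℝ} (hm : Exponents k m) (hr : Path k r) {j : ℕ}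
    (hj : j ≤ k) : spR k m r j < 1 := by
  have hE := sp7_exp_of hm
  have hk : spR k m r k < 1 := by
    unfold spR
    rw [Rc_self]
    have hpos : ∀ x : ℝ, 0 < 1 + -(Real.tanh x ^ 2) := by
      intro x
      have h1 : Real.tanh x ^ 2 < 1 := by
        rw [Real.tanh_eq_sinh_div_cosh, div_pow, div_lt_one (pow_pos (Real.cosh_pos x) 2)]
        have := Real.cosh_sq x
        linarith
      linarith
    have hcb : Sp7Cb (fun x => Real.tanh x ^ 2) := sp7_cb_sq (sp7_cb_M ec_logcosh)
    have hcb' : Sp7Cb (fun x : ℝ => 1 + -(Real.tanh x ^ 2)) :=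
      sp7_cb_add (sp7_cb_const 1) (sp7_cb_neg hcb)
    have h2 := sp7_chn_pos m r k hE ec_logcosh hcb' hpos
    have h3 := sp7_chn_add m r k hE ec_logcosh hcb' hcb
    have h4 : (fun x : ℝ => (1 + -(Real.tanh x ^ 2)) + Real.tanh x ^ 2) = fun _ => 1 := by
      funext x
      ring
    rw [h4, sp7_chn_const m r k hE ec_logcosh] at h3
    linarith
  have hle : ∀ n ≤ k, spR k m r (k - n) ≤ spR k m r k := by
    intro n
    induction n with
    | zero => intro _; simp
    | succ n ih =>
      intro hn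
      have h1 := spR_mono hm hr (j := k - (n + 1)) (by omega)
      have h2 : k - (n + 1) + 1 = k - n := by omega
      rw [h2] at h1
      exact h1.trans (ih (by omega))
  have h5 := hle (k - j) (by omega)
  have h6 : k - (k - j) = j := by omega
  rw [h6] at h5
  linarith only [h5, hk]

/-- Exponential moments of `|z|`. -/
theorem sp7_int_exp_abs (t : ℝ) :
    Integrable (fun z => Real.exp (t * |z|)) (gaussianReal 0 1) := by
  have h1 : Integrable (fun z => Real.exp (t * z)) (gaussianReal 0 1) :=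
    integrable_exp_mul_gaussianReal t
  have h2 : Integrable (fun z => Real.exp (-t * z)) (gaussianReal 0 1) :=
    integrable_exp_mul_gaussianReal (-t)
  exact integrable_exp_mul_abs h1 h2

theorem sp7_int_sq_exp_abs (t : ℝ) :
    Integrable (fun z => z ^ 2 * Real.exp (t * |z|)) (gaussianReal 0 1) := by
  refine ((sp7_int_exp_abs (t + 1)).const_mul 2).mono' (by exact Continuous.aestronglyMeasurable (by fun_prop)) (ae_of_all _ fun z => ?_)
  rw [Real.norm_eq_abs, abs_of_nonneg (mul_nonneg (sq_nonneg _) (Real.exp_pos _).le)]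
  have h1 := Real.quadratic_le_exp_of_nonneg (abs_nonneg z)
  have h2 : z ^ 2 ≤ 2 * Real.exp |z| := by
    rw [sq_abs] at h1
    have := abs_nonneg z
    linarith
  calc z ^ 2 * Real.exp (t * |z|) ≤ 2 * Real.exp |z| * Real.exp (t * |z|) :=
        mul_le_mul_of_nonneg_right h2 (Real.exp_pos _).le
    _ = 2 * Real.exp ((t + 1) * |z|) := by
        rw [mul_assoc, ← Real.exp_add]; ring_nf

/-- The one step variance is of the order of the step. -/
theorem sp7_var {A : ℝ} {F M D : ℝ → ℝ} (h : Ec F M D) {m : ℝ} (hm : 0 < m) (hm1 : m ≤ 1)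
    {v : ℝ} (hv : 0 ≤ v) (hvA : v ≤ A) (x : ℝ) :
    tlt m v F (fun y => M y ^ 2) x ≤ tlt m v F M x ^ 2 +
      (∫ z, z ^ 2 * Real.exp (√A * |z|) ∂(gaussianReal 0 1)) /
        (∫ z, Real.exp (-√A * |z|) ∂(gaussianReal 0 1)) * v := by
  have hA : 0 ≤ A := hv.trans hvA
  set K1 := ∫ z, z ^ 2 * Real.exp (√A * |z|) ∂(gaussianReal 0 1) with hK1
  set K0 := ∫ z, Real.exp (-√A * |z|) ∂(gaussianReal 0 1) with hK0
  have hK0pos : 0 < K0 := integral_exp_pos (sp7_int_exp_abs _)
  have hK1nn : 0 ≤ K1 := integral_nonneg fun z => mul_nonneg (sq_nonneg _) (Real.exp_pos _).le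
  -- Lipschitz bounds
  have hlipF : ∀ a b : ℝ, |F a - F b| ≤ |a - b| := by
    intro a b
    have := Convex.norm_image_sub_le_of_norm_hasDerivWithin_le (C := 1) (f := F) (f' := M)
      (s := Set.univ) (x := b) (y := a) (fun y _ => (h.d1 y).hasDerivWithinAt)
      (fun y _ => by rw [Real.norm_eq_abs]; exact h.abs_M y) convex_univ (mem_univ _) (mem_univ _)
    simpa using this
  have hlipM : ∀ a b : ℝ, |M a - M b| ≤ |a - b| := by
    intro a b
    have := Convex.norm_image_sub_le_of_norm_hasDerivWithin_le (C := 1) (f := M) (f' := D)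
      (s := Set.univ) (x := b) (y := a) (fun y _ => (h.d2 y).hasDerivWithinAt)
      (fun y _ => by
        rw [Real.norm_eq_abs, abs_of_nonneg (h.D0 y)]
        have := h.D1 y
        linarith only [sq_nonneg (M y), this]) convex_univ (mem_univ _) (mem_univ _)
    simpa using this
  have hsv : √v ≤ √A := Real.sqrt_le_sqrt hvA
  have hsv0 : 0 ≤ √v := Real.sqrt_nonneg v
  have hexp : ∀ z : ℝ, |m * F (x + √v * z) - m * F x| ≤ √A * |z| := by
    intro z
    rw [← mul_sub, abs_mul, abs_of_pos hm]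
    have h1 := hlipF (x + √v * z) x
    have h2 : |x + √v * z - x| = √v * |z| := by
      rw [add_sub_cancel_left, abs_mul, abs_of_nonneg hsv0]
    rw [h2] at h1
    calc m * |F (x + √v * z) - F x| ≤ 1 * (√v * |z|) :=
          mul_le_mul hm1 h1 (abs_nonneg _) zero_le_one
      _ ≤ √A * |z| := by
          rw [one_mul]; exact mul_le_mul_of_nonneg_right hsv (abs_nonneg z)
  -- the centered square
  set c := M x with hc
  set g : ℝ → ℝ := fun y => (M y + -c) ^ 2 with hg
  have hgcb : Sp7Cb g := sp7_cb_sq (sp7_cb_add (sp7_cb_M h) (sp7_cb_const (-c)))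
  have hden := h.sm.int_exp_pos m v x
  have hdenle : Real.exp (m * F x) * K0 ≤
      ∫ z, Real.exp (m * F (x + √v * z)) ∂(gaussianReal 0 1) := by
    rw [hK0, ← integral_const_mul]
    refine integral_mono ((sp7_int_exp_abs _).const_mul _) (h.sm.integrable_exp m v x) ?_
    intro z
    simp only
    rw [← Real.exp_add]
    refine Real.exp_le_exp.2 ?_
    have := (abs_le.1 (hexp z)).1
    linarith
  have hnum : ∫ z, g (x + √v * z) * Real.exp (m * F (x + √v * z)) ∂(gaussianReal 0 1) ≤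
      Real.exp (m * F x) * (v * K1) := by
    rw [hK1, ← integral_const_mul, ← integral_const_mul]
    refine integral_mono (h.sm.integrable hgcb.1 hgcb.2.choose_spec m v x)
      (((sp7_int_sq_exp_abs _).const_mul _).const_mul _) ?_
    intro z
    simp only [hg]
    have h1 : (M (x + √v * z) + -c) ^ 2 ≤ v * z ^ 2 := by
      have h2 := hlipM (x + √v * z) x
      have h3 : |x + √v * z - x| = √v * |z| := by
        rw [add_sub_cancel_left, abs_mul, abs_of_nonneg hsv0]
      rw [h3] at h2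
      have h4 := pow_le_pow_left₀ (abs_nonneg _) h2 2
      rw [sq_abs, mul_pow, Real.sq_sqrt hv, sq_abs] at h4
      simpa [sub_eq_add_neg] using h4
    have h5 : Real.exp (m * F (x + √v * z)) ≤ Real.exp (m * F x) * Real.exp (√A * |z|) := by
      rw [← Real.exp_add]
      refine Real.exp_le_exp.2 ?_
      have := (abs_le.1 (hexp z)).2
      linarith
    calc (M (x + √v * z) + -c) ^ 2 * Real.exp (m * F (x + √v * z))
        ≤ (v * z ^ 2) * (Real.exp (m * F x) * Real.exp (√A * |z|)) :=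
          mul_le_mul h1 h5 (Real.exp_pos _).le (mul_nonneg hv (sq_nonneg z))
      _ = Real.exp (m * F x) * (v * (z ^ 2 * Real.exp (√A * |z|))) := by ring
  have hg1 : tlt m v F g x ≤ K1 / K0 * v := by
    have hE : 0 < Real.exp (m * F x) := Real.exp_pos _
    show _ / _ ≤ _
    rw [div_le_iff₀ hden]
    calc _ ≤ Real.exp (m * F x) * (v * K1) := hnum
      _ = K1 / K0 * v * (Real.exp (m * F x) * K0) := by field_simp
      _ ≤ K1 / K0 * v * ∫ z, Real.exp (m * F (x + √v * z)) ∂(gaussianReal 0 1) :=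
          mul_le_mul_of_nonneg_left hdenle (mul_nonneg (div_nonneg hK1nn hK0pos.le) hv)
  have hMcb := sp7_cb_M h
  have hM2cb := sp7_cb_sq hMcb
  -- expansion of the square
  have hg2 : tlt m v F g x = tlt m v F (fun y => M y ^ 2) x - 2 * c * tlt m v F M x + c ^ 2 := by
    have e1 : g = fun y => (M y ^ 2 + (-2 * c) * M y) + c ^ 2 := by
      funext y
      simp only [hg]
      ring
    obtain ⟨a1, K', a2⟩ := hM2cb
    obtain ⟨b1, b2, b3⟩ : Sp7Cb (fun y => (-2 * c) * M y) :=
      ⟨continuous_const.mul h.sm.cont1, |(-2 * c)|, fun y => by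
        rw [abs_mul]
        exact mul_le_of_le_one_right (abs_nonneg _) (h.abs_M y)⟩
    obtain ⟨d1, d2, d3⟩ := sp7_cb_add (⟨a1, K', a2⟩ : Sp7Cb (fun y => M y ^ 2))
      (⟨b1, b2, b3⟩ : Sp7Cb (fun y => (-2 * c) * M y))
    have e2 := h.sm.tlt_add a1 a2 b1 b3 m v x
    have e3 := h.sm.tlt_add d1 d3 (continuous_const (y := c ^ 2)) (K' := |c ^ 2|)
      (fun _ => le_rfl) m v x
    have e4 := tlt_const_mul m v (-2 * c) F M x
    have e5 := h.sm.tlt_const m v (c ^ 2) x
    rw [e1, e3, e2, e4, e5]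
    ring
  linarith only [sq_nonneg (tlt m v F M x - c), hg2, hg1]

theorem spR_lip (A : ℝ) : ∃ C : ℝ, 0 ≤ C ∧ ∀ (k : ℕ) (m r : ℕ → ℝ), Exponents k m → Path k r →
    r k ≤ A → ∀ l < k, spR k m r (l + 1) - spR k m r l ≤ C * (r (l + 1) - r l) := by
  refine ⟨(∫ z, z ^ 2 * Real.exp (√A * |z|) ∂(gaussianReal 0 1)) /
        (∫ z, Real.exp (-√A * |z|) ∂(gaussianReal 0 1)), ?_, ?_⟩
  · exact div_nonneg (integral_nonneg fun z => mul_nonneg (sq_nonneg _) (Real.exp_pos _).le)
      (integral_nonneg fun z => (Real.exp_pos _).le)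
  · intro k m r hm hr hA l hl
    have hE := sp7_exp_of hm
    obtain ⟨hm0, hm1⟩ := hE l hl
    have hlow : ∀ i ≤ k, 0 ≤ r i := by
      intro i
      induction i with
      | zero => intro _; exact hr.1
      | succ i ih => intro hi; exact (ih (by omega)).trans (hr.2 i hi)
    have hup : ∀ n ≤ k, r (k - n) ≤ A := by
      intro n
      induction n with
      | zero => intro _; simpa using hA
      | succ n ih =>
        intro hn
        have h2 := hr.2 (k - (n + 1)) (by omega)
        have h3 : k - (n + 1) + 1 = k - n := by omega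
        rw [h3] at h2
        exact h2.trans (ih (by omega))
    have h4 := hup (k - (l + 1)) (by omega)
    have h5 : k - (k - (l + 1)) = l + 1 := by omega
    rw [h5] at h4
    have h6 := hlow l hl.le
    have h7 := hr.2 l hl
    have h8 := sp7_Rc_incr m r k hE (C := (∫ z, z ^ 2 * Real.exp (√A * |z|) ∂(gaussianReal 0 1)) /
        (∫ z, Real.exp (-√A * |z|) ∂(gaussianReal 0 1)) * (r (l + 1) - r l)) ec_logcosh hl
      (fun F M D hF x => sp7_var hF hm0 hm1 (by linarith only [h7]) (by linarith only [h6, h4]) x)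
    unfold spR
    linarith only [h8]

end Vale.Agent.P157.Par
end

section

/-!
General facts for the factorization at `θ = 0` (module FACT): systems with the same `top` have
the same free energy, an extra spin in a tree field, a linear tree field.
-/

open MeasureTheory ProbabilityTheory Filter Topology

namespace Vale.Agent.P146.Ub

set_option linter.unusedSectionVars false

open Vale.Agent.P157 Vale.Agent.P157.Lv
open Vale.Agent.P157.Par (incr Path Exponents cascade gstep spinPart)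

variable {ι X X' : Type} [Fintype ι] [DecidableEq ι] [Fintype X] [Nonempty X] [Fintype X']

/-- Systems with the same `top` have the same log-weights. -/
theorem lg_congr_top {S : Sy ι X} {S' : Sy ι X'} (hlev : S.lev = S'.lev) (hK : S.K = S'.K)
    (hm : S.m = S'.m) (htop : S.top = S'.top) (l : ℕ) : S.lg l = S'.lg l := by
  have h : ∀ d l, S.rec' l d = S'.rec' l d := by
    intro d
    induction d with
    | zero => intro l; exact htop
    | succ d ih =>
      intro l
      show S.stp l (S.rec' (l + 1) d) = S'.stp l (S'.rec' (l + 1) d)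
      rw [ih (l + 1)]
      unfold Sy.stp
      rw [hlev, hm]
  unfold Sy.lg
  rw [hK]
  exact h _ _

/-- Systems with the same `top` have the same free energy. -/
theorem fe_congr_top {S : Sy ι X} {S' : Sy ι X'} (hlev : S.lev = S'.lev) (hK : S.K = S'.K)
    (hm : S.m = S'.m) (htop : S.top = S'.top) : S.fe = S'.fe := by
  unfold Sy.fe
  rw [lg_congr_top hlev hK hm htop 0]

/-- The function `log (2 cosh u)`. -/
noncomputable def l2c (u : ℝ) : ℝ := Real.log (Real.exp u + Real.exp (-u))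

lemma l2c_eq (u : ℝ) : l2c u = Real.log 2 + Real.log (Real.cosh u) := by
  unfold l2c
  rw [← Real.log_mul two_ne_zero (Real.cosh_pos u).ne', Real.cosh_eq]
  congr 1
  ring

lemma l2c_lip (x y : ℝ) : |l2c x - l2c y| ≤ 1 * |x - y| := by
  have key : ∀ x y : ℝ, l2c x ≤ l2c y + |x - y| := by
    intro x y
    unfold l2c
    have h1 : Real.exp x + Real.exp (-x) ≤ (Real.exp y + Real.exp (-y)) * Real.exp |x - y| := by
      rw [add_mul, ← Real.exp_add, ← Real.exp_add]
      have a := neg_abs_le (x - y)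
      have b := le_abs_self (x - y)
      gcongr
      · linarith
      · linarith
    have h2 := Real.log_le_log (by positivity) h1
    rwa [Real.log_mul (by positivity) (by positivity), Real.log_exp] at h2
  rw [one_mul, abs_le]
  have a := key x y
  have b := key y x
  rw [abs_sub_comm y x] at b
  constructor <;> linarith

/-- Adding a constant commutes with a step. -/
lemma gstep_add_const {m v : ℝ} (hm : 0 < m) {F : ℝ → ℝ} (hF : Par.Lip1 F) (c : ℝ) :
    gstep m v (fun x => c + F x) = fun x => c + gstep m v F x := by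
  funext x
  unfold gstep
  have h1 : ∀ z : ℝ, Real.exp (m * (c + F (x + √v * z))) =
      Real.exp (m * c) * Real.exp (m * F (x + √v * z)) := by
    intro z
    rw [← Real.exp_add]
    congr 1
    ring
  simp only [h1]
  rw [integral_const_mul, Real.log_mul (Real.exp_pos _).ne' (hF.int_exp_pos m x (√v)).ne',
    Real.log_exp]
  field_simp

/-- Adding a constant commutes with the cascade. -/
lemma cascade_add_const {m q : ℕ → ℝ} (c : ℝ) : ∀ (l : ℕ), (∀ j < l, 0 < m (j + 1)) →
    ∀ {F : ℝ → ℝ}, Par.Lip1 F →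
    cascade m q l (fun x => c + F x) = fun x => c + cascade m q l F x := by
  intro l
  induction l with
  | zero => intro _ F _; rfl
  | succ l ih =>
    intro hm F hF
    rw [Par.cascade_succ_def, Par.cascade_succ_def, gstep_add_const (hm l (Nat.lt_succ_self l)) hF]
    exact ih (fun j hj => hm j (by omega)) (hF.gstep (hm l (Nat.lt_succ_self l)) _)

/-- A step of a linear function. -/
lemma gstep_linear {m v : ℝ} (hm : 0 < m) (hv : 0 ≤ v) (c : ℝ) :
    gstep m v (fun x => x + c) = fun x => x + (c + m * v / 2) := by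
  funext x
  unfold gstep
  have h1 : ∀ z : ℝ, Real.exp (m * (x + √v * z + c)) =
      Real.exp (m * (x + c)) * Real.exp (m * √v * z) := by
    intro z
    rw [← Real.exp_add]
    congr 1
    ring
  simp only [h1]
  have h2 : ∫ z, Real.exp (m * √v * z) ∂(gaussianReal 0 1) = Real.exp ((m * √v) ^ 2 / 2) := by
    have h := mgf_gaussianReal (p := gaussianReal 0 1) (X := id) (μ := 0) (v := 1) (by simp) (m * √v)
    simp only [mgf, id] at h
    rw [h]
    congr 1
    push_cast
    ring
  rw [integral_const_mul, h2, ← Real.exp_add, Real.log_exp, mul_pow, Real.sq_sqrt hv]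
  field_simp
  ring

/-- The cascade of a linear function. -/
lemma cascade_linear {m q : ℕ → ℝ} : ∀ (l : ℕ), (∀ j < l, 0 < m (j + 1)) →
    (∀ j < l, q j ≤ q (j + 1)) → ∀ c : ℝ,
    cascade m q l (fun x => x + c) =
      fun x => x + (c + 1 / 2 * ∑ j ∈ Finset.range l, m (j + 1) * (q (j + 1) - q j)) := by
  intro l
  induction l with
  | zero => intro _ _ c; funext x; simp [cascade]
  | succ l ih =>
    intro hm hq c
    rw [Par.cascade_succ_def, gstep_linear (hm l (Nat.lt_succ_self l))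
      (sub_nonneg.2 (hq l (Nat.lt_succ_self l))),
      ih (fun j hj => hm j (by omega)) (fun j hj => hq j (by omega)), Finset.sum_range_succ]
    funext x
    ring

/-! ### Free coordinates -/

variable {S : Sy ι X} {D : ι → (ι → ℝ) → X → ℝ}

/-- A coordinate on which the energy does not depend has tilted mean zero. -/
theorem ex_free (hS : S.RegD D) {e : ι} (he : ∀ z x, D e z x = 0) (c : X → ℝ) :
    S.Ex (fun z x => z e * c x) = 0 := by
  have hT : ∀ l z, S.T l (D e) z = 0 := by
    intro l z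
    have h1 : D e = fun _ _ => 0 := by funext z x; exact he z x
    rw [h1]
    unfold Sy.T Lv.J Sy.av
    simp
  have h1 := hS.ibp e (h := fun _ x => c x) (h' := fun _ _ => 0) (fun x => PD.const (c x))
    (Sy.Nh.snd c) (Sy.Nh.snd fun _ => 0)
  rw [h1]
  have h2 : (fun (z : ι → ℝ) (x : X) => (0 : ℝ) + c x * (D e z x -
      ∑ l ∈ Finset.Ico (S.lev e) (S.K + 1), S.p l * S.T l (D e) z)) = fun _ _ => 0 := by
    funext z x
    rw [he z x, Finset.sum_eq_zero fun l _ => by rw [hT l z, mul_zero]]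
    ring
  rw [h2, hS.toReg.Ex_const]

/-- Adding a linear field on free coordinates keeps the system regular. -/
theorem reg_add_free (hS : S.Reg) (s : Finset ι) (c : ι → X → ℝ) :
    (S.wH fun z x => S.H z x + ∑ e ∈ s, z e * c e x).Reg :=
  ⟨hS.m0, hS.mK, hS.mono, hS.pos, hS.lev, fun x => (hS.lip x).add
    (Lip.sum _ fun e _ => by
      have h := (Lip.coord (ι := ι) e).const_mul (c e x)
      simpa only [mul_comm] using h)⟩

/-- Adding a linear field on free coordinates does not decrease the free energy. -/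
theorem fe_le_add_free (hS : S.RegD D) (s : Finset ι) (he : ∀ e ∈ s, ∀ z x, D e z x = 0)
    (c : ι → X → ℝ) :
    S.fe ≤ (S.wH fun z x => S.H z x + ∑ e ∈ s, z e * c e x).fe := by
  have h1 := hS.toReg.jensen (reg_add_free hS.toReg s c)
  have h2 : (fun z x => S.H z x + ∑ e ∈ s, z e * c e x - S.H z x) =
      fun (z : ι → ℝ) (x : X) => ∑ e ∈ s, z e * c e x := by
    funext z x; ring
  rw [h2] at h1
  have h3 : S.Ex (fun z x => ∑ e ∈ s, z e * c e x) = ∑ e ∈ s, S.Ex (fun z x => z e * c e x) :=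
    hS.toReg.Ex_sum s fun e _ => Sy.Nh.mul (Sy.Nh.fst (EG.coord e)) (Sy.Nh.snd (c e))
  rw [h3, Finset.sum_eq_zero fun e h => ex_free hS (he e h) (c e)] at h1
  linarith

/-! ### A spin in a tree field -/

/-- Symmetrization of a spin: if the energy is invariant under the flip of the spin `ε`, then the
field `u` on this spin can be replaced by the potential `log cosh u`. -/
theorem top_spin (H : (ι → ℝ) → X → ℝ) (φ : X ≃ X) (ε : X → ℝ) (h1 : ∀ x, ε x = 1 ∨ ε x = -1)
    (h2 : ∀ x, ε (φ x) = -ε x) (h3 : ∀ z x, H z (φ x) = H z x) (u : (ι → ℝ) → ℝ) :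
    (S.wH fun z x => H z x + ε x * u z).top =
      (S.wH fun z x => H z x + Real.log (Real.cosh (u z))).top := by
  funext z
  show Real.log (∑ x, Real.exp (H z x + ε x * u z)) =
    Real.log (∑ x, Real.exp (H z x + Real.log (Real.cosh (u z))))
  congr 1
  have e1 : ∑ x, Real.exp (H z x + ε x * u z) = ∑ x, Real.exp (H z x + -ε x * u z) := by
    rw [← Equiv.sum_comp φ fun x => Real.exp (H z x + ε x * u z)]
    refine Finset.sum_congr rfl fun x _ => ?_
    rw [h2, h3]
  have e2 : ∑ x, Real.exp (H z x + Real.log (Real.cosh (u z))) =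
      (∑ x, Real.exp (H z x + ε x * u z) + ∑ x, Real.exp (H z x + -ε x * u z)) / 2 := by
    rw [← Finset.sum_add_distrib, Finset.sum_div]
    refine Finset.sum_congr rfl fun x _ => ?_
    rw [Real.exp_add, Real.exp_log (Real.cosh_pos _), Real.exp_add, Real.exp_add, Real.cosh_eq]
    rcases h1 x with h | h
    · rw [h, one_mul, neg_mul, one_mul]; ring
    · rw [h, neg_neg, one_mul, neg_mul, one_mul]; ring
  rw [e2, ← e1]
  ring

lemma log_cosh_lip (x y : ℝ) :
    |Real.log (Real.cosh x) - Real.log (Real.cosh y)| ≤ 1 * |x - y| := by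
  have h := l2c_lip x y
  rw [l2c_eq, l2c_eq] at h
  simpa using h

/-- A spin in a tree field whose coordinates do not occur in the energy. -/
theorem fe_spin_tree (hS : S.RegD D) (φ : X ≃ X) (ε : X → ℝ) (h1 : ∀ x, ε x = 1 ∨ ε x = -1)
    (h2 : ∀ x, ε (φ x) = -ε x) (h3 : ∀ z x, S.H z (φ x) = S.H z x)
    {y : ℕ → ι} (hy : ∀ l ≤ S.K, S.lev (y l) = l) (hD : ∀ l ≤ S.K, ∀ z x, D (y l) z x = 0)
    {R : ℕ → ℝ} (hR : Path S.K R) :
    (S.wH fun z x => S.H z x + ε x * tf y S.K R z).fe =
      S.fe + (spinPart S.K S.m R + R S.K / 2) := by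
  have e1 : (S.wH fun z x => S.H z x + ε x * tf y S.K R z).fe =
      (S.wH fun z x => S.H z x + Real.log (Real.cosh (tf y S.K R z))).fe :=
    fe_congr_top rfl rfl rfl (top_spin S.H φ ε h1 h2 h3 _)
  rw [e1, fe_add_tree hS hy hD hR (F := fun x => Real.log (Real.cosh x)) log_cosh_lip]
  unfold spinPart
  ring

/-- Scaling of the tree field. -/
lemma tf_scale {y : ℕ → ι} {K : ℕ} {R : ℕ → ℝ} {b : ℝ} (hb : 0 ≤ b) (z : ι → ℝ) :
    tf y K (fun l => b ^ 2 * R l) z = b * tf y K R z := by
  unfold tf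
  rw [Finset.mul_sum]
  refine Finset.sum_congr rfl fun l _ => ?_
  have e : incr (fun l => b ^ 2 * R l) l = b ^ 2 * incr R l := by
    cases l with
    | zero => rfl
    | succ l =>
      show b ^ 2 * R (l + 1) - b ^ 2 * R l = b ^ 2 * (R (l + 1) - R l)
      ring
  rw [e, Real.sqrt_mul (sq_nonneg b), Real.sqrt_sq hb]
  ring

/-- A linear tree field whose coordinates do not occur in the energy. -/
theorem fe_linear_tree (hS : S.RegD D) {y : ℕ → ι} (hy : ∀ l ≤ S.K, S.lev (y l) = l)
    (hD : ∀ l ≤ S.K, ∀ z x, D (y l) z x = 0) {R : ℕ → ℝ} (hR : Path S.K R) :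
    (S.wH fun z x => S.H z x + tf y S.K R z).fe =
      S.fe + 1 / 2 * ∑ j ∈ Finset.range S.K, S.m (j + 1) * (R (j + 1) - R j) := by
  have h := fe_add_tree hS hy hD hR (F := fun x => x) (L := 1) fun x x' => by rw [one_mul]
  rw [h]
  congr 1
  have e1 : (fun x : ℝ => x) = fun x => x + 0 := by funext x; ring
  rw [e1, cascade_linear S.K (fun j hj => hS.toReg.m_pos (by omega) (by omega)) hR.2 0]
  simp only [zero_add]
  rw [integral_add, integral_const_mul, integral_id_gaussianReal]
  · simp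
  · exact ((memLp_id_gaussianReal (μ := 0) (v := 1) 1).integrable le_rfl).const_mul _
  · exact integrable_const _

end Vale.Agent.P146.Ub
end

section

/-!
# P146, lower bound for the SK model: one pattern and one Gaussian slice
-/

open MeasureTheory ProbabilityTheory
open Vale.Agent.P157.Lv (gI EG Lip)

namespace Vale.Agent.P146.Sk.Low

variable {K : Type} [Fintype K] {X : Type} [Fintype X] [Nonempty X]

/-! ### Elementary inequalities -/

lemma one_add_sq_le_cosh (t : ℝ) : 1 + t ^ 2 / 2 ≤ Real.cosh t := by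
  have h1 : Real.cosh t = 1 + 2 * Real.sinh (t / 2) ^ 2 := by
    have h2 : Real.cosh t = Real.cosh (2 * (t / 2)) := by congr 1; ring
    rw [h2, Real.cosh_two_mul, Real.cosh_sq]
    ring
  have h2 : (t / 2) ^ 2 ≤ Real.sinh (t / 2) ^ 2 := by
    rw [sq_le_sq]
    rcases le_total 0 (t / 2) with h | h
    · have h3 := Real.self_le_sinh_iff.2 h
      rw [abs_of_nonneg h, abs_of_nonneg (h.trans h3)]
      exact h3
    · have h3 := Real.sinh_le_self_iff.2 h
      rw [abs_of_nonpos h, abs_of_nonpos (h3.trans h)]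
      linarith only [h3]
  rw [h1]
  linarith only [h2]

lemma log_lower {a : ℝ} (ha : 0 ≤ a) : a - a ^ 2 / 2 ≤ Real.log (1 + a) := by
  have h1 := Real.le_log_one_add_of_nonneg ha
  refine le_trans ?_ h1
  rw [le_div_iff₀ (by linarith)]
  have : 0 ≤ a ^ 3 := by positivity
  linarith only [this]

lemma log_upper {a ε : ℝ} (ha : |a| ≤ ε) (hε : ε ≤ 1 / 2) :
    Real.log (1 + a) ≤ a - a ^ 2 / 2 + 2 * ε ^ 3 := by
  have h2 : |-a| < 1 := by rw [abs_neg]; linarith
  have h3 := Real.abs_log_sub_add_sum_range_le h2 2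
  simp only [Finset.sum_range_succ, Finset.sum_range_zero, zero_add, pow_one, abs_neg] at h3
  norm_num at h3
  have h0 : 0 ≤ ε := (abs_nonneg _).trans ha
  have h4 : |a| ^ 3 / (1 - |a|) ≤ 2 * ε ^ 3 := by
    rw [div_le_iff₀ (by linarith only [hε, ha])]
    have h5 : |a| ^ 3 ≤ ε ^ 3 := pow_le_pow_left₀ (abs_nonneg _) ha 3
    have h6 : 0 ≤ ε ^ 3 := by positivity
    linarith only [mul_nonneg (sub_nonneg.2 h0) (sub_nonneg.2 h5), mul_nonneg (sub_nonneg.2 hε) (sub_nonneg.2 h6), mul_nonneg (sub_nonneg.2 hε) (sub_nonneg.2 h5), mul_nonneg (sub_nonneg.2 ha) (sub_nonneg.2 h6)]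
  have h7 := (abs_le.1 h3).2
  linarith

lemma exp_sub_sq_le (v : ℝ) : (Real.exp v - 1 - v) ^ 2 ≤
    Real.exp (2 * v) + Real.exp (-2 * v) - 4 * Real.exp v - 4 * Real.exp (-1 * v) + 6 := by
  have h1 := Real.add_one_le_exp v
  have h2 := Real.add_one_le_exp (-v)
  have e1 : Real.exp (2 * v) = Real.exp v ^ 2 := by rw [← Real.exp_nat_mul]; congr 1
  have e2 : Real.exp (-2 * v) = Real.exp (-v) ^ 2 := by
    rw [← Real.exp_nat_mul]; congr 1; push_cast; ring
  have e3 : Real.exp (-1 * v) = Real.exp (-v) := by congr 1; ring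
  have e4 : Real.exp v * Real.exp (-v) = 1 := by rw [← Real.exp_add]; simp
  rw [e1, e2, e3]
  have h3 : (Real.exp v - 1 - v) ^ 2 ≤ (Real.exp v + Real.exp (-v) - 2) ^ 2 := by
    apply pow_le_pow_left₀ (by linarith)
    linarith
  refine h3.trans (le_of_eq ?_)
  linear_combination 2 * e4

lemma exp_moment {s : ℝ} (hs0 : 0 ≤ s) (hs : s ≤ 1 / 2) :
    Real.exp (2 * s) + Real.exp (2 * s) - 4 * Real.exp (s / 2) - 4 * Real.exp (s / 2) + 6 ≤
      12 * s ^ 2 := by
  have h1 := Real.add_one_le_exp (s / 2)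
  have h2 : Real.exp (2 * s) ≤ 1 + 2 * s + (2 * s) ^ 2 := by
    have h3 := Real.abs_exp_sub_one_sub_id_le (x := 2 * s)
      (by rw [abs_of_nonneg (by linarith only [hs0])]; linarith)
    have := (abs_le.1 h3).2
    linarith
  nlinarith

/-! ### One Gaussian slice -/

theorem gau_lower (U : X → K → ℝ) {c : ℝ} (hc : c ≤ 1 / 8)
    (hU : ∀ x, ∑ k, U x k ^ 2 = c) {w : X → ℝ} (hw : ∀ x, 0 < w x) (hw1 : ∑ x, w x = 1) :
    1 / 2 * (c - ∑ x, ∑ y, w x * w y * ∑ k, U x k * U y k) - 96 * c ^ 2 ≤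
      ∫ ξ, lse w (fun x => lf (U x) ξ) ∂(gI K) := by
  set b : K → ℝ := fun k => ∑ x, w x * U x k with hb
  set V : X → K → ℝ := fun x k => U x k - b k with hV
  set s : X → ℝ := fun x => ∑ k, V x k ^ 2 with hs
  have hs0 : ∀ x, 0 ≤ s x := fun x => Finset.sum_nonneg fun k _ => sq_nonneg _
  have hb2 : ∑ k, b k ^ 2 = ∑ x, ∑ y, w x * w y * ∑ k, U x k * U y k := by
    have e : ∀ k, b k ^ 2 = ∑ x, ∑ y, w x * w y * (U x k * U y k) := by
      intro k
      rw [hb]
      simp only
      rw [sq, Finset.sum_mul_sum]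
      exact Finset.sum_congr rfl fun x _ => Finset.sum_congr rfl fun y _ => by ring
    simp only [e, Finset.mul_sum]
    rw [Finset.sum_comm]
    refine Finset.sum_congr rfl fun x _ => ?_
    rw [Finset.sum_comm]
  have hws : ∑ x, w x * s x = c - ∑ k, b k ^ 2 := by
    have e : ∀ x, w x * s x = w x * c - 2 * ∑ k, (w x * U x k) * b k + w x * ∑ k, b k ^ 2 := by
      intro x
      rw [← hU x, hs]
      simp only [hV, Finset.mul_sum]
      rw [← Finset.sum_sub_distrib, ← Finset.sum_add_distrib]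
      exact Finset.sum_congr rfl fun k _ => by ring
    simp only [e]
    rw [Finset.sum_add_distrib, Finset.sum_sub_distrib, ← Finset.sum_mul, ← Finset.sum_mul, hw1,
      ← Finset.mul_sum, Finset.sum_comm]
    have e2 : ∑ k, ∑ x, w x * U x k * b k = ∑ k, b k ^ 2 := by
      refine Finset.sum_congr rfl fun k _ => ?_
      rw [← Finset.sum_mul, sq]
    rw [e2]
    ring
  have hb2c : ∑ k, b k ^ 2 ≤ c := by
    have h1 : 0 ≤ ∑ x, w x * s x := Finset.sum_nonneg fun x _ => mul_nonneg (hw x).le (hs0 x)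
    linarith
  have hs4 : ∀ x, s x ≤ 4 * c := by
    intro x
    have h1 : s x ≤ ∑ k, (2 * U x k ^ 2 + 2 * b k ^ 2) := Finset.sum_le_sum fun k _ => by
      simp only [hV]
      linarith only [sq_nonneg (U x k + b k)]
    rw [Finset.sum_add_distrib, ← Finset.mul_sum, ← Finset.mul_sum, hU x] at h1
    linarith
  -- the pointwise lower bound
  have hv0 : ∀ ξ, ∑ x, w x * lf (V x) ξ = 0 := by
    intro ξ
    have e : ∀ x, w x * lf (V x) ξ = w x * lf (U x) ξ - w x * lf b ξ := by
      intro x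
      simp only [hV]
      rw [lf_sub]
      ring
    simp only [e]
    rw [Finset.sum_sub_distrib, ← Finset.sum_mul, hw1, one_mul, hb, lf_sum, sub_self]
  have hpt : ∀ ξ, lf b ξ + (∑ x, w x * Real.exp (lf (V x) ξ) - 1) - 1 / 2 * ∑ x, w x *
      (Real.exp (2 * lf (V x) ξ) + Real.exp (-2 * lf (V x) ξ) - 4 * Real.exp (lf (V x) ξ) -
        4 * Real.exp (-1 * lf (V x) ξ) + 6) ≤ lse w (fun x => lf (U x) ξ) := by
    intro ξ
    have e1 : (fun x => lf (U x) ξ) = fun x => lf (V x) ξ + lf b ξ := by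
      funext x
      simp only [hV]
      rw [lf_sub]
      ring
    have e2 : lse w (fun x => lf (U x) ξ) = lf b ξ + Real.log (∑ x, w x * Real.exp (lf (V x) ξ)) := by
      rw [e1]
      unfold lse
      have e3 : ∑ x, w x * Real.exp (lf (V x) ξ + lf b ξ) =
          (∑ x, w x * Real.exp (lf (V x) ξ)) * Real.exp (lf b ξ) := by
        rw [Finset.sum_mul]
        refine Finset.sum_congr rfl fun x _ => ?_
        rw [Real.exp_add]
        ring
      rw [e3, Real.log_mul (lse_sum_pos hw _).ne' (Real.exp_pos _).ne', Real.log_exp, add_comm]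
    set a := ∑ x, w x * Real.exp (lf (V x) ξ) - 1 with ha
    have ha1 : a = ∑ x, w x * (Real.exp (lf (V x) ξ) - 1 - lf (V x) ξ) := by
      simp only [mul_sub, Finset.sum_sub_distrib, mul_one, hw1, hv0 ξ, sub_zero]
      exact ha
    have ha0 : 0 ≤ a := by
      rw [ha1]
      refine Finset.sum_nonneg fun x _ => mul_nonneg (hw x).le ?_
      have := Real.add_one_le_exp (lf (V x) ξ)
      linarith
    have ha2 : a ^ 2 ≤ ∑ x, w x * (Real.exp (lf (V x) ξ) - 1 - lf (V x) ξ) ^ 2 := by
      rw [ha1]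
      have h1 := Finset.sum_mul_sq_le_sq_mul_sq Finset.univ (fun x => √(w x))
        (fun x => √(w x) * (Real.exp (lf (V x) ξ) - 1 - lf (V x) ξ))
      have e4 : ∀ x, √(w x) * (√(w x) * (Real.exp (lf (V x) ξ) - 1 - lf (V x) ξ)) =
          w x * (Real.exp (lf (V x) ξ) - 1 - lf (V x) ξ) := by
        intro x
        rw [← mul_assoc, Real.mul_self_sqrt (hw x).le]
      have e5 : ∀ x, √(w x) ^ 2 = w x := fun x => Real.sq_sqrt (hw x).le
      have e6 : ∀ x, (√(w x) * (Real.exp (lf (V x) ξ) - 1 - lf (V x) ξ)) ^ 2 =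
          w x * (Real.exp (lf (V x) ξ) - 1 - lf (V x) ξ) ^ 2 := by
        intro x
        rw [mul_pow, e5]
      simp only [e4, e5, e6, hw1, one_mul] at h1
      exact h1
    have ha3 : a ^ 2 ≤ ∑ x, w x * (Real.exp (2 * lf (V x) ξ) + Real.exp (-2 * lf (V x) ξ) -
        4 * Real.exp (lf (V x) ξ) - 4 * Real.exp (-1 * lf (V x) ξ) + 6) :=
      ha2.trans (Finset.sum_le_sum fun x _ => mul_le_mul_of_nonneg_left (exp_sub_sq_le _) (hw x).le)
    have h5 := log_lower ha0
    have e7 : 1 + a = ∑ x, w x * Real.exp (lf (V x) ξ) := by rw [ha]; ring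
    rw [e7] at h5
    rw [e2]
    linarith only [h5, ha3]
  -- integration
  have iE : ∀ (t : ℝ) (x : X), Integrable (fun ξ => Real.exp (t * lf (V x) ξ)) (gI K) := by
    intro t x
    simp only [← lf_smul]
    exact exp_lf_integrable _
  have iE1 : ∀ (x : X), Integrable (fun ξ => Real.exp (lf (V x) ξ)) (gI K) := fun x =>
    exp_lf_integrable _
  have vE : ∀ (t : ℝ) (x : X), ∫ ξ, Real.exp (t * lf (V x) ξ) ∂(gI K) =
      Real.exp (t ^ 2 * s x / 2) := by
    intro t x
    simp only [← lf_smul]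
    rw [int_exp_lf]
    congr 2
    rw [hs, Finset.mul_sum]
    exact Finset.sum_congr rfl fun k _ => by ring
  have vE1 : ∀ (x : X), ∫ ξ, Real.exp (lf (V x) ξ) ∂(gI K) = Real.exp (s x / 2) := fun x =>
    int_exp_lf _
  have iQ : ∀ x : X, Integrable (fun ξ => w x * (Real.exp (2 * lf (V x) ξ) +
      Real.exp (-2 * lf (V x) ξ) - 4 * Real.exp (lf (V x) ξ) - 4 * Real.exp (-1 * lf (V x) ξ) + 6))
      (gI K) := fun x =>
    (((((iE 2 x).add (iE (-2) x)).sub ((iE1 x).const_mul 4)).sub ((iE (-1) x).const_mul 4)).add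
      (integrable_const 6)).const_mul _
  have vQ : ∀ x : X, ∫ ξ, w x * (Real.exp (2 * lf (V x) ξ) +
      Real.exp (-2 * lf (V x) ξ) - 4 * Real.exp (lf (V x) ξ) - 4 * Real.exp (-1 * lf (V x) ξ) + 6)
      ∂(gI K) ≤ w x * (192 * c ^ 2) := by
    intro x
    have i1 : Integrable (fun ξ => Real.exp (2 * lf (V x) ξ) + Real.exp (-2 * lf (V x) ξ)) (gI K) :=
      (iE 2 x).add (iE (-2) x)
    have i2 : Integrable (fun ξ => Real.exp (2 * lf (V x) ξ) + Real.exp (-2 * lf (V x) ξ) -
        4 * Real.exp (lf (V x) ξ)) (gI K) := i1.sub ((iE1 x).const_mul 4)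
    have i3 : Integrable (fun ξ => Real.exp (2 * lf (V x) ξ) + Real.exp (-2 * lf (V x) ξ) -
        4 * Real.exp (lf (V x) ξ) - 4 * Real.exp (-1 * lf (V x) ξ)) (gI K) :=
      i2.sub ((iE (-1) x).const_mul 4)
    rw [integral_const_mul, integral_add i3 (integrable_const _),
      integral_sub i2 ((iE (-1) x).const_mul 4), integral_sub i1 ((iE1 x).const_mul 4),
      integral_add (iE 2 x) (iE (-2) x), integral_const_mul, integral_const_mul, vE, vE, vE, vE1]
    refine mul_le_mul_of_nonneg_left ?_ (hw x).le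
    have h1 := exp_moment (hs0 x) ((hs4 x).trans (by linarith only [hc]))
    have e1 : (2 : ℝ) ^ 2 * s x / 2 = 2 * s x := by ring
    have e2 : (-2 : ℝ) ^ 2 * s x / 2 = 2 * s x := by ring
    have e3 : (-1 : ℝ) ^ 2 * s x / 2 = s x / 2 := by ring
    rw [e1, e2, e3]
    simp only [integral_const, probReal_univ, smul_eq_mul, one_mul]
    refine h1.trans ?_
    have h2 : s x ^ 2 ≤ (4 * c) ^ 2 := pow_le_pow_left₀ (hs0 x) (hs4 x) 2
    linarith only [h2]
  have iL : Integrable (fun ξ => lse w (fun x => lf (U x) ξ)) (gI K) :=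
    lse_integrable hw (fun x => lf_meas _) (fun x => lf_integrable _)
  have iA : Integrable (fun ξ => ∑ x, w x * Real.exp (lf (V x) ξ)) (gI K) :=
    integrable_finsetSum _ fun x _ => (iE1 x).const_mul _
  have iA1 : Integrable (fun ξ => ∑ x, w x * Real.exp (lf (V x) ξ) - 1) (gI K) :=
    iA.sub (integrable_const 1)
  have iB : Integrable (fun ξ => ∑ x, w x *
      (Real.exp (2 * lf (V x) ξ) + Real.exp (-2 * lf (V x) ξ) - 4 * Real.exp (lf (V x) ξ) -
        4 * Real.exp (-1 * lf (V x) ξ) + 6)) (gI K) := integrable_finsetSum _ fun x _ => iQ x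
  have iC : Integrable (fun ξ => lf b ξ + (∑ x, w x * Real.exp (lf (V x) ξ) - 1)) (gI K) :=
    (lf_integrable b).add iA1
  have h1 := integral_mono (iC.sub (iB.const_mul (1 / 2))) iL hpt
  have e1 : ∫ ξ, (lf b ξ + (∑ x, w x * Real.exp (lf (V x) ξ) - 1) - 1 / 2 * ∑ x, w x *
      (Real.exp (2 * lf (V x) ξ) + Real.exp (-2 * lf (V x) ξ) - 4 * Real.exp (lf (V x) ξ) -
        4 * Real.exp (-1 * lf (V x) ξ) + 6)) ∂(gI K) =
      (∑ x, w x * Real.exp (s x / 2) - 1) - 1 / 2 * ∑ x, ∫ ξ, w x *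
      (Real.exp (2 * lf (V x) ξ) + Real.exp (-2 * lf (V x) ξ) - 4 * Real.exp (lf (V x) ξ) -
        4 * Real.exp (-1 * lf (V x) ξ) + 6) ∂(gI K) := by
    rw [integral_sub iC (iB.const_mul _), integral_add (lf_integrable b) iA1, int_lf, zero_add,
      integral_sub iA (integrable_const _), integral_const_mul,
      integral_finsetSum _ fun x _ => (iE1 x).const_mul _, integral_finsetSum _ fun x _ => iQ x]
    simp only [integral_const_mul, vE1, integral_const, probReal_univ, smul_eq_mul, one_mul]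
  have h2 : ∑ x, ∫ ξ, w x *
      (Real.exp (2 * lf (V x) ξ) + Real.exp (-2 * lf (V x) ξ) - 4 * Real.exp (lf (V x) ξ) -
        4 * Real.exp (-1 * lf (V x) ξ) + 6) ∂(gI K) ≤ 192 * c ^ 2 := by
    refine (Finset.sum_le_sum fun x _ => vQ x).trans ?_
    rw [← Finset.sum_mul, hw1, one_mul]
  have h3 : 1 / 2 * (c - ∑ k, b k ^ 2) ≤ ∑ x, w x * Real.exp (s x / 2) - 1 := by
    rw [← hws, Finset.mul_sum]
    have h4 : ∑ x, w x * (1 + s x / 2) ≤ ∑ x, w x * Real.exp (s x / 2) :=
      Finset.sum_le_sum fun x _ => mul_le_mul_of_nonneg_left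
        (by have := Real.add_one_le_exp (s x / 2); linarith only [this]) (hw x).le
    have h5 : ∑ x, w x * (1 + s x / 2) = 1 + ∑ x, 1 / 2 * (w x * s x) := by
      simp only [mul_add, mul_one, Finset.sum_add_distrib, hw1]
      congr 1
      exact Finset.sum_congr rfl fun x _ => by ring
    linarith only [h5, h4]
  rw [← hb2]
  have h6 : ∫ ξ, (lf b ξ + (∑ x, w x * Real.exp (lf (V x) ξ) - 1) - 1 / 2 * ∑ x, w x *
      (Real.exp (2 * lf (V x) ξ) + Real.exp (-2 * lf (V x) ξ) - 4 * Real.exp (lf (V x) ξ) -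
        4 * Real.exp (-1 * lf (V x) ξ) + 6)) ∂(gI K) ≤ ∫ ξ, lse w (fun x => lf (U x) ξ) ∂(gI K) := h1
  rw [e1] at h6
  linarith only [h6, h3, h2]

/-! ### One pattern -/

theorem pat_upper [DecidableEq K] (U : X → K → ℝ) (hU : ∀ x, ∑ k, U x k ^ 2 = 1) {ε lam : ℝ}
    (hε : 0 ≤ ε) (hε1 : ε ≤ 1 / 2) {f : ℝ → ℝ} (hf : ∀ s, Real.exp (f s) = 1 - ε * Real.cos (lam * s))
    {w : X → ℝ} (hw : ∀ x, 0 < w x) (hw1 : ∑ x, w x = 1) :
    ∫ ξ, lse w (fun x => f (lf (U x) ξ)) ∂(gI K) ≤
      -(ε * Real.exp (-lam ^ 2 / 2)) - ε ^ 2 / 2 * Real.exp (-lam ^ 2) *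
        (1 + lam ^ 4 / 2 * ∑ x, ∑ y, w x * w y * (∑ k, U x k * U y k) ^ 2) + 2 * ε ^ 3 := by
  set C : X → (K → ℝ) → ℝ := fun x ξ => Real.cos (lf (fun k => lam * U x k) ξ) with hC
  have mC : ∀ x, Measurable (C x) := fun x => Real.measurable_cos.comp (lf_meas _)
  have bC : ∀ x ξ, |C x ξ| ≤ 1 := fun x ξ => Real.abs_cos_le_one _
  have bint : ∀ {H : (K → ℝ) → ℝ} {D : ℝ}, Measurable H → (∀ z, |H z| ≤ D) →
      Integrable H (gI K) := fun hH hD => (EG.of_bdd hH hD).integrable
  have iC : ∀ x, Integrable (C x) (gI K) := fun x => bint (mC x) (bC x)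
  have iCC : ∀ x y, Integrable (fun ξ => C x ξ * C y ξ) (gI K) := fun x y =>
    bint (D := 1) ((mC x).mul (mC y)) fun ξ => by
      rw [abs_mul]
      calc |C x ξ| * |C y ξ| ≤ 1 * 1 := mul_le_mul (bC x ξ) (bC y ξ) (abs_nonneg _) zero_le_one
        _ = 1 := one_mul 1
  have vC : ∀ x, ∫ ξ, C x ξ ∂(gI K) = Real.exp (-lam ^ 2 / 2) := by
    intro x
    rw [int_cos_lf]
    congr 3
    simp only [mul_pow]
    rw [← Finset.mul_sum, hU x, mul_one]
  have vCC : ∀ x y, ∫ ξ, C x ξ * C y ξ ∂(gI K) =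
      Real.exp (-lam ^ 2) * Real.cosh (lam ^ 2 * ∑ k, U x k * U y k) := by
    intro x y
    have e : ∀ ξ, C x ξ * C y ξ = 1 / 2 * Real.cos (lf (fun k => lam * U x k - lam * U y k) ξ) +
        1 / 2 * Real.cos (lf (fun k => lam * U x k + lam * U y k) ξ) := by
      intro ξ
      rw [lf_sub, lf_add, Real.cos_sub, Real.cos_add]
      simp only [hC]
      ring
    have ic : ∀ a : K → ℝ, Integrable (fun ξ => Real.cos (lf a ξ)) (gI K) := fun a =>
      bint (Real.measurable_cos.comp (lf_meas _)) fun ξ => Real.abs_cos_le_one _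
    simp only [e]
    rw [integral_add ((ic _).const_mul _) ((ic _).const_mul _), integral_const_mul,
      integral_const_mul, int_cos_lf, int_cos_lf]
    set R := ∑ k, U x k * U y k with hR
    have e1 : ∑ k, (lam * U x k - lam * U y k) ^ 2 = lam ^ 2 * (2 - 2 * R) := by
      have : ∀ k, (lam * U x k - lam * U y k) ^ 2 = lam ^ 2 * U x k ^ 2 + lam ^ 2 * U y k ^ 2 -
          2 * lam ^ 2 * (U x k * U y k) := fun k => by ring
      simp only [this]
      rw [Finset.sum_sub_distrib, Finset.sum_add_distrib, ← Finset.mul_sum, ← Finset.mul_sum,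
        ← Finset.mul_sum, hU x, hU y]
      ring
    have e2 : ∑ k, (lam * U x k + lam * U y k) ^ 2 = lam ^ 2 * (2 + 2 * R) := by
      have : ∀ k, (lam * U x k + lam * U y k) ^ 2 = lam ^ 2 * U x k ^ 2 + lam ^ 2 * U y k ^ 2 +
          2 * lam ^ 2 * (U x k * U y k) := fun k => by ring
      simp only [this]
      rw [Finset.sum_add_distrib, Finset.sum_add_distrib, ← Finset.mul_sum, ← Finset.mul_sum,
        ← Finset.mul_sum, hU x, hU y]
      ring
    rw [e1, e2, Real.cosh_eq]
    have e3 : Real.exp (-(lam ^ 2 * (2 - 2 * R)) / 2) =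
        Real.exp (-lam ^ 2) * Real.exp (lam ^ 2 * R) := by
      rw [← Real.exp_add]; congr 1; ring
    have e4 : Real.exp (-(lam ^ 2 * (2 + 2 * R)) / 2) =
        Real.exp (-lam ^ 2) * Real.exp (-(lam ^ 2 * R)) := by
      rw [← Real.exp_add]; congr 1; ring
    rw [e3, e4]
    ring
  set M : (K → ℝ) → ℝ := fun ξ => ∑ x, w x * C x ξ with hM
  have bM : ∀ ξ, |M ξ| ≤ 1 := by
    intro ξ
    refine (Finset.abs_sum_le_sum_abs _ _).trans ?_
    rw [← hw1]
    refine Finset.sum_le_sum fun x _ => ?_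
    rw [abs_mul, abs_of_pos (hw x)]
    calc w x * |C x ξ| ≤ w x * 1 := mul_le_mul_of_nonneg_left (bC x ξ) (hw x).le
      _ = w x := mul_one _
  have mM : Measurable M := Finset.measurable_sum _ fun x _ => (mC x).const_mul _
  have iM : Integrable M (gI K) := bint mM bM
  have iM2 : Integrable (fun ξ => M ξ ^ 2) (gI K) := bint (D := 1) (mM.pow_const 2) fun ξ => by
    rw [abs_pow]
    exact pow_le_one₀ (abs_nonneg _) (bM ξ)
  have vM : ∫ ξ, M ξ ∂(gI K) = Real.exp (-lam ^ 2 / 2) := by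
    rw [hM]
    rw [integral_finsetSum _ fun x _ => (iC x).const_mul _]
    simp only [integral_const_mul, vC]
    rw [← Finset.sum_mul, hw1, one_mul]
  have vM2 : ∫ ξ, M ξ ^ 2 ∂(gI K) = ∑ x, ∑ y, w x * w y *
      (Real.exp (-lam ^ 2) * Real.cosh (lam ^ 2 * ∑ k, U x k * U y k)) := by
    have e : ∀ ξ, M ξ ^ 2 = ∑ x, ∑ y, w x * w y * (C x ξ * C y ξ) := by
      intro ξ
      rw [hM]
      simp only
      rw [sq, Finset.sum_mul_sum]
      exact Finset.sum_congr rfl fun x _ => Finset.sum_congr rfl fun y _ => by ring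
    simp only [e]
    rw [integral_finsetSum _ fun x _ => integrable_finsetSum _ fun y _ => (iCC x y).const_mul _]
    refine Finset.sum_congr rfl fun x _ => ?_
    rw [integral_finsetSum _ fun y _ => (iCC x y).const_mul _]
    refine Finset.sum_congr rfl fun y _ => ?_
    rw [integral_const_mul, vCC]
  have hM2 : Real.exp (-lam ^ 2) * (1 + lam ^ 4 / 2 * ∑ x, ∑ y, w x * w y *
      (∑ k, U x k * U y k) ^ 2) ≤ ∫ ξ, M ξ ^ 2 ∂(gI K) := by
    rw [vM2]
    have e : Real.exp (-lam ^ 2) * (1 + lam ^ 4 / 2 * ∑ x, ∑ y, w x * w y *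
        (∑ k, U x k * U y k) ^ 2) = ∑ x, ∑ y, w x * w y * (Real.exp (-lam ^ 2) *
        (1 + (lam ^ 2 * ∑ k, U x k * U y k) ^ 2 / 2)) := by
      have e1 : ∀ x y, w x * w y * (Real.exp (-lam ^ 2) *
          (1 + (lam ^ 2 * ∑ k, U x k * U y k) ^ 2 / 2)) = Real.exp (-lam ^ 2) * (w x * w y) +
          (Real.exp (-lam ^ 2) * (lam ^ 4 / 2)) * (w x * w y * (∑ k, U x k * U y k) ^ 2) :=
        fun x y => by ring
      simp only [e1, Finset.sum_add_distrib, ← Finset.mul_sum, hw1, mul_one]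
      ring
    rw [e]
    refine Finset.sum_le_sum fun x _ => Finset.sum_le_sum fun y _ => ?_
    refine mul_le_mul_of_nonneg_left ?_ (mul_pos (hw x) (hw y)).le
    exact mul_le_mul_of_nonneg_left (one_add_sq_le_cosh _) (Real.exp_pos _).le
  have hpt : ∀ ξ, lse w (fun x => f (lf (U x) ξ)) ≤ -(ε * M ξ) - ε ^ 2 / 2 * M ξ ^ 2 + 2 * ε ^ 3 := by
    intro ξ
    have e : lse w (fun x => f (lf (U x) ξ)) = Real.log (1 + -(ε * M ξ)) := by
      unfold lse
      congr 1
      simp only [hf, ← lf_smul]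
      simp only [mul_sub, mul_one, Finset.sum_sub_distrib, hw1, hM, hC, Finset.mul_sum]
      rw [sub_eq_add_neg]
      congr 2
      exact Finset.sum_congr rfl fun x _ => by ring
    rw [e]
    have h1 : |-(ε * M ξ)| ≤ ε := by
      rw [abs_neg, abs_mul, abs_of_nonneg hε]
      calc ε * |M ξ| ≤ ε * 1 := mul_le_mul_of_nonneg_left (bM ξ) hε
        _ = ε := mul_one _
    refine (log_upper h1 hε1).trans (le_of_eq ?_)
    ring
  have i1 : Integrable (fun ξ => -(ε * M ξ)) (gI K) := (iM.const_mul ε).neg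
  have i2 : Integrable (fun ξ => ε ^ 2 / 2 * M ξ ^ 2) (gI K) := iM2.const_mul _
  have i3 : Integrable (fun ξ => -(ε * M ξ) - ε ^ 2 / 2 * M ξ ^ 2) (gI K) := i1.sub i2
  have i4 : Integrable (fun ξ => -(ε * M ξ) - ε ^ 2 / 2 * M ξ ^ 2 + 2 * ε ^ 3) (gI K) :=
    i3.add (integrable_const _)
  have fm : Measurable f := by
    have h1 : f = fun s => Real.log (1 - ε * Real.cos (lam * s)) := by
      funext s
      rw [← hf, Real.log_exp]
    rw [h1]
    exact Real.measurable_log.comp (by fun_prop)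
  have fb : ∀ s, |f s| ≤ |Real.log (1 / 2)| + |Real.log 2| := by
    intro s
    have h1 : f s = Real.log (1 - ε * Real.cos (lam * s)) := by rw [← hf, Real.log_exp]
    have h2 : |ε * Real.cos (lam * s)| ≤ 1 / 2 := by
      rw [abs_mul, abs_of_nonneg hε]
      calc ε * |Real.cos (lam * s)| ≤ ε * 1 :=
            mul_le_mul_of_nonneg_left (Real.abs_cos_le_one _) hε
        _ ≤ 1 / 2 := by linarith only [hε1]
    have h3 := abs_le.1 h2
    have h4 := Real.log_le_log (by norm_num : (0 : ℝ) < 1 / 2)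
      (by linarith : (1 : ℝ) / 2 ≤ 1 - ε * Real.cos (lam * s))
    have h5 := Real.log_le_log (by linarith : (0 : ℝ) < 1 - ε * Real.cos (lam * s))
      (by linarith : 1 - ε * Real.cos (lam * s) ≤ 2)
    rw [h1, abs_le]
    have h6 := neg_abs_le (Real.log (1 / 2))
    have h7 := le_abs_self (Real.log 2)
    have h8 := abs_nonneg (Real.log 2)
    have h9 := abs_nonneg (Real.log (1 / 2))
    constructor <;> linarith
  have iL : Integrable (fun ξ => lse w (fun x => f (lf (U x) ξ))) (gI K) :=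
    lse_integrable hw (fun x => fm.comp (lf_meas _)) fun x =>
      bint (fm.comp (lf_meas _)) fun ξ => fb _
  have h1 := integral_mono iL i4 hpt
  rw [integral_add i3 (integrable_const _), integral_sub i1 i2, integral_neg, integral_const_mul,
    integral_const_mul, vM] at h1
  simp only [integral_const, probReal_univ, smul_eq_mul, one_mul] at h1
  have h2 : ε ^ 2 / 2 * (Real.exp (-lam ^ 2) * (1 + lam ^ 4 / 2 * ∑ x, ∑ y, w x * w y *
      (∑ k, U x k * U y k) ^ 2)) ≤ ε ^ 2 / 2 * ∫ ξ, M ξ ^ 2 ∂(gI K) :=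
    mul_le_mul_of_nonneg_left hM2 (by (clear * -; positivity))
  refine h1.trans ?_
  linarith only [h2]

end Vale.Agent.P146.Sk.Low
end
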