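import Vale.Agent.P146.Bdl.B8
import Vale.Agent.P146.Bdl.B6
import Vale.Agent.P146.Bdl.B9
import Vale.Agent.P146.Bdl.B5

set_option linter.all false

section

/-!
# P146: moments of `1 + ‖W‖`
-/

open MeasureTheory ProbabilityTheory Matrix Filter Topology
open scoped Matrix.Norms.L2Operator

namespace Vale.Agent.P146.Sk

open Vale.Agent.P157.Lv

lemma om_eq_opn (N : ℕ) (g : Ix N → ℝ) : om N g = Opn.om N g := rfl

/-- Moments of the operator norm. -/
theorem exists_om_moment (r : ℕ) :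
    ∃ C : ℝ, 1 ≤ C ∧ ∀ N : ℕ, ∫ g, om N g ^ r ∂(gI (Ix N)) ≤ C := by
  obtain ⟨C, hC, h⟩ := Opn.moment_om r
  refine ⟨C + 1, by linarith, fun N => ?_⟩
  rcases Nat.eq_zero_or_pos N with rfl | hN
  · have h1 : ∀ g : Ix 0 → ℝ, om 0 g ^ r = 1 := by
      intro g
      have : Wm 0 g = 0 := by
        ext i
        exact i.elim0
      rw [om, this, norm_zero, add_zero, one_pow]
    simp only [h1]
    rw [integral_const]
    simp only [probReal_univ, one_smul]
    linarith
  · refine (h N hN).trans ?_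
    linarith

end Vale.Agent.P146.Sk
end

section

/-!
# P146, module IBPW: the values of the quadratic forms in the SK system
-/

open MeasureTheory ProbabilityTheory Matrix Filter Topology
open scoped Matrix.Norms.L2Operator

namespace Vale.Agent.P146.Sk

set_option linter.all false

open Vale.Agent.P157 (spin)
open Vale.Agent.P157.Lv
open Vale.Agent.P157.Par (Path Exponents topN lw spinPart)
open Gen (GI gz gl r0 gS gF gOb gIsOpt GD)

variable {N K : ℕ}

/-- The derivatives of the SK energy: the main part and a perturbation of order `b`. -/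
def InstP (β : ℝ) (κ : ℕ) : Prop := ∃ C : ℝ, 0 ≤ C ∧ ∀ (N K : ℕ) (m : ℕ → ℝ) (a b : ℝ), 0 < N →
  Exponents K m → a ∈ Set.Icc (0 : ℝ) 1 → b ∈ Set.Icc (0 : ℝ) 1 →
  ∃ (D B : Ix N → (Ix N → ℝ) → (Fin N → Bool) → ℝ) (w : (Ix N → ℝ) → ℝ),
    GD K m (Esk N β a b κ) D (spin (N := N)) ∧
    (∀ e z x, D e z x = β * a * (spin x e.1 * spin x e.2 / √(2 * (N : ℝ))) + B e z x) ∧
    (∀ e x, EG (fun z => B e z x)) ∧ (∀ z x, ∑ e, B e z x ^ 2 ≤ N * w z) ∧ EG w ∧
    ∫ z, w z ∂(gI (Ix N)) ≤ C * b ^ 2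

/-- the operator bound in terms of `nv` -/
lemma opB_Wm (g : Ix N → ℝ) : OpB (Wm N g) (om N g - 1) := by
  intro v
  have h := sum_mulVec_sq_le (Wm N g) v
  have h1 : nv (Wm N g *ᵥ v) ^ 2 ≤ ((om N g - 1) * nv v) ^ 2 := by
    rw [nv_sq, mul_pow, nv_sq]
    have e : om N g - 1 = ‖Wm N g‖ := by unfold om; ring
    rw [e]
    exact h
  have h2 : 0 ≤ om N g - 1 := by linarith [one_le_om g]
  exact (le_abs_self _).trans (abs_le_of_sq_le_sq h1 (mul_nonneg h2 (nv_nonneg v)))

lemma spin_norm (x : Fin N → Bool) : ∑ i, spin x i ^ 2 = (N : ℝ) := sum_spin_sq x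

lemma qf_eq_dot (A : Matrix (Fin N) (Fin N) ℝ) (hA : Aᵀ = A) (x : Fin N → ℝ) :
    qf A x = (A *ᵥ x) ⬝ᵥ x := by
  unfold qf
  simp only [dotProduct, mulVec, Finset.sum_mul]
  refine Finset.sum_congr rfl fun i _ => Finset.sum_congr rfl fun j _ => ?_
  ring

section
variable {m : ℕ → ℝ} {β a b : ℝ} {κ : ℕ} {s : ℕ → ℝ}
  {D B : Ix N → (Ix N → ℝ) → (Fin N → Bool) → ℝ} {w : (Ix N → ℝ) → ℝ}

lemma ctx_sk (hN : 0 < N) (h : GD K m (Esk N β a b κ) D (spin (N := N)))
    (hB : ∀ e z x, D e z x = β * a * (spin x e.1 * spin x e.2 / √(2 * (N : ℝ))) + B e z x)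
    (hBe : ∀ e x, EG (fun z => B e z x)) (hBw : ∀ z x, ∑ e, B e z x ^ 2 ≤ N * w z) (hw : EG w) :
    Rec.Ctx (skf N K m β a b κ s) (Gen.gD D spin s) (fun e => (Sum.inl e : GI (Ix N) N K)) spin
      (β * a) (fun e z x => B e (r0 z) x) (fun z => w (r0 z)) where
  reg := Gen.gS_regD h s
  N0 := hN
  norm := spin_norm
  inj := fun _ _ h => Sum.inl.inj h
  lev := fun e => rfl
  dB := fun e z x => hB e (r0 z) x
  nB := fun e x => Gen.EG.r0 (hBe e x)
  bB := fun z x => hBw (r0 z) x
  ew := Gen.EG.r0 hw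

lemma om_sk : Rec.OM (fun e => (Sum.inl e : GI (Ix N) N K)) (fun z => om N (r0 z)) where
  one := fun z => one_le_om _
  op := fun z => opB_Wm (r0 z)
  eg := Gen.EG.r0 eg_om

lemma UU_sk (p : ℕ) (z : GI (Ix N) N K → ℝ) :
    Rec.UU (fun e => (Sum.inl e : GI (Ix N) N K)) p z = Um (Wm N (r0 z)) p := rfl

lemma TT_top (S : Sy (GI (Ix N) N K) (Fin N → Bool)) (p : ℕ) :
    Rec.TT S spin (Rec.UU (fun e => (Sum.inl e : GI (Ix N) N K)) p) (S.K + 1) = Td S p := by
  unfold Rec.TT Td
  congr 2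
  funext z x
  rw [Rec.yv_gt (by omega), UU_sk, qf_eq_dot _ (Um_transpose (Wm_transpose _) p)]

lemma TT_lev (S : Sy (GI (Ix N) N K) (Fin N → Bool)) (p : ℕ) {l : ℕ} (hl : l ≤ S.K) :
    Rec.TT S spin (Rec.UU (fun e => (Sum.inl e : GI (Ix N) N K)) p) l = Tl S p l := by
  unfold Rec.TT Tl
  congr 2
  funext z x
  rw [Rec.yv_le hl, UU_sk]
  simp only [dotProduct, mulVec, Finset.sum_mul]
  refine Finset.sum_congr rfl fun i _ => Finset.sum_congr rfl fun j _ => ?_
  ring

lemma RR_lev (S : Sy (GI (Ix N) N K) (Fin N → Bool)) {l : ℕ} (hl : l ≤ S.K) :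
    Rec.RR S spin l = S.Rl spin l := if_pos hl

lemma vv_lev (S : Sy (GI (Ix N) N K) (Fin N → Bool)) {l : ℕ} (hl : l ≤ S.K) :
    Rec.vv S spin l = dev2 S l := if_pos hl

/-- the sum of the errors -/
lemma sum_sqrt_le {K : ℕ} {m : ℕ → ℝ} (hm' : Exponents K m) {v : ℕ → ℝ} (hv : ∀ l ≤ K, 0 ≤ v l) :
    ∑ l ∈ Finset.range (K + 1), (m (l + 1) - m l) * √(v l) ≤
      √(∑ l ∈ Finset.range (K + 1), (m (l + 1) - m l) * v l) := by
  have hp : ∀ l ∈ Finset.range (K + 1), 0 ≤ m (l + 1) - m l := fun l hl => by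
    have := hm'.2.2 l (Nat.lt_succ_iff.1 (Finset.mem_range.1 hl))
    linarith
  have h1 : ∑ l ∈ Finset.range (K + 1), (m (l + 1) - m l) = 1 := by
    rw [Finset.sum_range_sub, hm'.1, hm'.2.1, sub_zero]
  refine Real.le_sqrt_of_sq_le ?_
  have h2 := Finset.sum_mul_sq_le_sq_mul_sq (Finset.range (K + 1))
    (fun l => √(m (l + 1) - m l)) (fun l => √(m (l + 1) - m l) * √(v l))
  have e1 : ∑ l ∈ Finset.range (K + 1), √(m (l + 1) - m l) * (√(m (l + 1) - m l) * √(v l)) =
      ∑ l ∈ Finset.range (K + 1), (m (l + 1) - m l) * √(v l) := by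
    refine Finset.sum_congr rfl fun l hl => ?_
    rw [← mul_assoc, Real.mul_self_sqrt (hp l hl)]
  have e2 : ∑ l ∈ Finset.range (K + 1), √(m (l + 1) - m l) ^ 2 = 1 := by
    rw [← h1]
    exact Finset.sum_congr rfl fun l hl => Real.sq_sqrt (hp l hl)
  have e3 : ∑ l ∈ Finset.range (K + 1), (√(m (l + 1) - m l) * √(v l)) ^ 2 =
      ∑ l ∈ Finset.range (K + 1), (m (l + 1) - m l) * v l := by
    refine Finset.sum_congr rfl fun l hl => ?_
    rw [mul_pow, Real.sq_sqrt (hp l hl),
      Real.sq_sqrt (hv l (Nat.lt_succ_iff.1 (Finset.mem_range.1 hl)))]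
  rw [e1, e2, e3, one_mul] at h2
  exact h2

/-- the weighted error of one step -/
lemma hN_step (hN0 : 0 < N) (hm' : Exponents K m)
    (h : GD K m (Esk N β a b κ) D (spin (N := N)))
    (hB : ∀ e z x, D e z x = β * a * (spin x e.1 * spin x e.2 / √(2 * (N : ℝ))) + B e z x)
    (hBe : ∀ e x, EG (fun z => B e z x)) (hBw : ∀ z x, ∑ e, B e z x ^ 2 ≤ N * w z) (hw : EG w)
    (p : ℕ) :
    hN K m (TT (skf N K m β a b κ s) (p + 1) -
      (β * a) • hm K m (1, fun l => (skf N K m β a b κ s).Rl spin l)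
        (TT (skf N K m β a b κ s) p)) ≤
      18 * (∑ l ∈ Finset.range (K + 1), (m (l + 1) - m l) *
        Rec.er (skf N K m β a b κ s) spin (β * a) (fun z => om N (r0 z) ^ p)
          (fun z => w (r0 z)) l) +
      2 * Rec.ge (skf N K m β a b κ s) (fun e => (Sum.inl e : GI (Ix N) N K))
        (fun z => om N (r0 z)) p := by
  set S := skf N K m β a b κ s with hS
  have hC := ctx_sk (K := K) (s := s) hN0 h hB hBe hBw hw
  rw [← hS] at hC
  have hSK : S.K = K := rfl
  have hSp : ∀ l, S.p l = m (l + 1) - m l := fun l => rfl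
  have hSm : S.m = m := rfl
  have hp : ∀ l ∈ Finset.range (K + 1), 0 ≤ m (l + 1) - m l := fun l hl => by
    have := hm'.2.2 l (Nat.lt_succ_iff.1 (Finset.mem_range.1 hl))
    linarith
  have h1 : ∑ l ∈ Finset.range (K + 1), (m (l + 1) - m l) = 1 := by
    rw [Finset.sum_range_sub, hm'.1, hm'.2.1, sub_zero]
  set E : ℕ → ℝ := fun l => Rec.er S spin (β * a) (fun z => om N (r0 z) ^ p)
          (fun z => w (r0 z)) l with hE
  set G : ℝ := Rec.ge S (fun e => (Sum.inl e : GI (Ix N) N K)) (fun z => om N (r0 z)) p with hG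
  set Sg : ℝ := ∑ l ∈ Finset.range (K + 1), (m (l + 1) - m l) * E l with hSg
  have hej : ∀ j, Rec.ej S spin (β * a) (fun z => om N (r0 z) ^ p) (fun z => w (r0 z)) j =
      7 * E j + 2 * Sg := fun j => rfl
  -- the recursion
  have hr : ∀ j, j ≤ K + 1 → |Rec.TT S spin
      (Rec.UU (fun e => (Sum.inl e : GI (Ix N) N K)) (p + 1)) j - (β * a) * Rec.HH S spin
      (Rec.UU (fun e => (Sum.inl e : GI (Ix N) N K)) p) j| ≤ 7 * E j + 2 * Sg + G := by
    intro j hj
    exact Rec.rec_le hC om_sk p hj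
  have htop : E (K + 1) ≤ Sg := by
    have : E (K + 1) = ∑ l ∈ Finset.range (K + 1), (m (l + 1) - m l) * E (K + 1) := by
      rw [← Finset.sum_mul, h1, one_mul]
    rw [this]
    exact Finset.sum_le_sum fun l hl => mul_le_mul_of_nonneg_left
      (Rec.er_top_le (S := S) (φ := spin) _ _ _ l) (hp l hl)
  -- the diagonal
  have hd : |(TT S (p + 1) - (β * a) • hm K m (1, fun l => S.Rl spin l) (TT S p)).1| ≤
      7 * E (K + 1) + 2 * Sg + G := by
    have h2 := hr (K + 1) le_rfl
    have e1 : Rec.TT S spin (Rec.UU (fun e => (Sum.inl e : GI (Ix N) N K)) (p + 1)) (K + 1) =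
        Td S (p + 1) := TT_top S (p + 1)
    have e2 : Rec.HH S spin (Rec.UU (fun e => (Sum.inl e : GI (Ix N) N K)) p) (K + 1) =
        1 * Td S p - ∑ i ∈ Finset.range (K + 1), (m (i + 1) - m i) *
          (S.Rl spin i * Tl S p i) := by
      unfold Rec.HH
      rw [if_neg (by rw [hSK]; omega), one_mul, hSK]
      congr 1
      · exact TT_top S p
      · refine Finset.sum_congr rfl fun i hi => ?_
        have hi' : i ≤ S.K := Nat.lt_succ_iff.1 (Finset.mem_range.1 hi)
        rw [RR_lev S hi', TT_lev S p hi', hSp]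
    rw [e1, e2] at h2
    exact h2
  -- the levels
  have hl : ∀ l ≤ K, |(TT S (p + 1) - (β * a) • hm K m (1, fun l => S.Rl spin l) (TT S p)).2 l| ≤
      7 * E l + 2 * Sg + G := by
    intro l hl
    have h2 := hr l (by omega)
    have e1 : Rec.TT S spin (Rec.UU (fun e => (Sum.inl e : GI (Ix N) N K)) (p + 1)) l =
        Tl S (p + 1) l := TT_lev S (p + 1) hl
    have e2 : Rec.HH S spin (Rec.UU (fun e => (Sum.inl e : GI (Ix N) N K)) p) l =
        S.Rl spin l * (Td S p - ∑ i ∈ Finset.Ico (l + 1) (K + 1), (m (i + 1) - m i) * Tl S p i -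
          m (l + 1) * Tl S p l) +
        (1 - ∑ i ∈ Finset.Ico l (K + 1), (m (i + 1) - m i) * S.Rl spin i) * Tl S p l -
        ∑ i ∈ Finset.range l, (m (i + 1) - m i) * (S.Rl spin i * Tl S p i) := by
      unfold Rec.HH
      have hle : l ≤ S.K := hl
      rw [if_pos hle, RR_lev S hle, TT_lev S p hle, TT_top S p, hSK]
      congr 1
      · congr 1
        · congr 2
          congr 1
          refine Finset.sum_congr rfl fun i hi => ?_
          have hi' : i ≤ S.K := by
            have := Finset.mem_Ico.1 hi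
            show i ≤ K
            omega
          rw [TT_lev S p hi', hSp]
        · congr 2
          refine Finset.sum_congr rfl fun i hi => ?_
          have hi' : i ≤ S.K := by
            have := Finset.mem_Ico.1 hi
            show i ≤ K
            omega
          rw [RR_lev S hi', hSp]
      · refine Finset.sum_congr rfl fun i hi => ?_
        have hi' : i ≤ S.K := by
          have := Finset.mem_range.1 hi
          show i ≤ K
          omega
        rw [RR_lev S hi', TT_lev S p hi', hSp]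
    rw [e1, e2] at h2
    exact h2
  unfold Sk.hN
  have h3 : ∑ i ∈ Finset.range (K + 1), (m (i + 1) - m i) *
      |(TT S (p + 1) - (β * a) • hm K m (1, fun l => S.Rl spin l) (TT S p)).2 i| ≤
      ∑ i ∈ Finset.range (K + 1), (m (i + 1) - m i) * (7 * E i + 2 * Sg + G) :=
    Finset.sum_le_sum fun i hi => mul_le_mul_of_nonneg_left
      (hl i (Nat.lt_succ_iff.1 (Finset.mem_range.1 hi))) (hp i hi)
  have h4 : ∑ i ∈ Finset.range (K + 1), (m (i + 1) - m i) * (7 * E i + 2 * Sg + G) =
      7 * Sg + (2 * Sg + G) := by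
    have e5 : ∀ i ∈ Finset.range (K + 1), (m (i + 1) - m i) * (7 * E i + 2 * Sg + G) =
        7 * ((m (i + 1) - m i) * E i) + (m (i + 1) - m i) * (2 * Sg + G) := fun i _ => by ring
    rw [Finset.sum_congr rfl e5, Finset.sum_add_distrib, ← Finset.mul_sum, ← Finset.sum_mul, h1,
      one_mul]
  rw [h4] at h3
  linarith only [h3, hd, htop]

end

/-- the trace error -/
noncomputable def thN (κ : ℕ) (M : ℝ) (N : ℕ) : ℝ :=
  κ * M / N + √M * ∑ s ∈ Finset.range κ, √(∫ z, tp N (Sp (s + 1)) z ^ 2 ∂(gI (Ix N)))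

lemma thN_tendsto (κ : ℕ) (M : ℝ) : Tendsto (thN κ M) atTop (𝓝 0) := by
  have h1 : Tendsto (fun N : ℕ => κ * M / (N : ℝ)) atTop (𝓝 0) :=
    tendsto_const_div_atTop_nhds_zero_nat _
  have h2 : Tendsto (fun N : ℕ => √M * ∑ s ∈ Finset.range κ,
      √(∫ z, tp N (Sp (s + 1)) z ^ 2 ∂(gI (Ix N)))) atTop (𝓝 (√M * ∑ s ∈ Finset.range κ, 0)) := by
    refine (tendsto_finsetSum _ fun s _ => ?_).const_mul _
    have h3 := (tau_conv (s + 1)).lim
    simp only [Nat.succ_ne_zero, if_false, sub_zero, Nat.add_eq_zero_iff, one_ne_zero,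
      and_false] at h3
    have h4 := (Real.continuous_sqrt.tendsto 0).comp h3
    rw [Real.sqrt_zero] at h4
    exact h4
  have h3 := h1.add h2
  simp only [Finset.sum_const_zero, mul_zero, add_zero] at h3
  exact h3

/-- **The values of the quadratic forms.** -/
theorem exists_val_of {β : ℝ} (hβ : 0 ≤ β) {κ : ℕ} (hI : InstP β κ) : ∃ C : ℝ, 0 ≤ C ∧
    ∃ θ : ℕ → ℝ, Tendsto θ atTop (𝓝 0) ∧
    ∀ (N K : ℕ) (m : ℕ → ℝ) (a b : ℝ) (s : ℕ → ℝ), 0 < N → Exponents K m →
      a ∈ Set.Icc (0 : ℝ) 1 → b ∈ Set.Icc (0 : ℝ) 1 → (∀ l ≤ K, 0 ≤ s l) →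
      ∀ p ≤ κ, |Td (skf N K m β a b κ s) p -
        (β * a) ^ p * trp K m (fun l => (skf N K m β a b κ s).Rl spin l) (p + 1)| ≤
        C * (√(∑ l ∈ Finset.range (K + 1), (m (l + 1) - m l) * dev2 (skf N K m β a b κ s) l) +
          b + θ N) := by
  obtain ⟨Cw, hCw, hinst⟩ := hI
  obtain ⟨M, hM1, hM⟩ := exists_om_moment (2 * κ)
  have hM0 : 0 ≤ M := by linarith
  set G : ℝ := ∑ j ∈ Finset.range κ, (6 * β) ^ j with hG
  have hG0 : 0 ≤ G := Finset.sum_nonneg fun j _ => by positivity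
  refine ⟨G * (18 * √M * β + 18 * √M * √(2 * Cw) + 2), by (clear * - hβ hM1; positivity), thN κ M, thN_tendsto κ M,
    fun N K m a b s hN hm' ha hb hs p hp => ?_⟩
  obtain ⟨D, B, w, h, hB, hBe, hBw, hw, hwi⟩ := hinst N K m a b hN hm' ha hb
  have hN' : (0 : ℝ) < N := by exact_mod_cast hN
  set S := skf N K m β a b κ s with hS
  have hF := Gen.gS_fld (s := s) h hs
  have hReg := Gen.gS_reg h s
  have hV : ∀ l ≤ K, 0 ≤ dev2 S l := fun l hl => hReg.pairEx_nonneg hl fun x x' => sq_nonneg _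
  set V := ∑ l ∈ Finset.range (K + 1), (m (l + 1) - m l) * dev2 S l with hVdef
  -- moments of the level zero
  have hmom : ∀ r ≤ 2 * κ, S.Ex (fun z _ => om N (r0 z) ^ r) ≤ M := by
    intro r hr
    rw [Gen.gS_Ex_zero h s (eg_om.pow r)]
    refine le_trans ?_ (hM N)
    exact integral_mono (eg_om.pow r).integrable (eg_om.pow _).integrable fun g =>
      pow_le_pow_right₀ (one_le_om g) hr
  have hwE : S.Ex (fun z _ => w (r0 z)) ≤ Cw * b ^ 2 := by
    rw [Gen.gS_Ex_zero h s hw]
    exact hwi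
  -- the error of one level
  have hsq : ∀ q < κ, √(S.Ex fun z _ => (om N (r0 z) ^ q) ^ 2) ≤ √M := by
    intro q hq
    refine Real.sqrt_le_sqrt ?_
    simp only [← pow_mul]
    exact hmom _ (by omega)
  have hcabs : |β * a| ≤ β := by
    rw [abs_of_nonneg (mul_nonneg hβ ha.1)]
    exact mul_le_of_le_one_right hβ ha.2
  have hsw : √(2 * S.Ex fun z _ => w (r0 z)) ≤ √(2 * Cw) * b := by
    rw [← Real.sqrt_sq hb.1, ← Real.sqrt_mul (by positivity)]
    refine Real.sqrt_le_sqrt ?_
    linarith only [hwE]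
  have hp0 : ∀ l ∈ Finset.range (K + 1), 0 ≤ m (l + 1) - m l := fun l hl => by
    have := hm'.2.2 l (Nat.lt_succ_iff.1 (Finset.mem_range.1 hl))
    linarith
  have hp1 : ∑ l ∈ Finset.range (K + 1), (m (l + 1) - m l) = 1 := by
    rw [Finset.sum_range_sub, hm'.1, hm'.2.1, sub_zero]
  have hSg : ∀ q < κ, ∑ l ∈ Finset.range (K + 1), (m (l + 1) - m l) *
      Rec.er S spin (β * a) (fun z => om N (r0 z) ^ q) (fun z => w (r0 z)) l ≤
      √M * (β * √V + √(2 * Cw) * b) := by
    intro q hq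
    have h1 : ∀ l ∈ Finset.range (K + 1), (m (l + 1) - m l) *
        Rec.er S spin (β * a) (fun z => om N (r0 z) ^ q) (fun z => w (r0 z)) l ≤
        (m (l + 1) - m l) * (√M * (β * √(dev2 S l) + √(2 * Cw) * b)) := by
      intro l hl
      refine mul_le_mul_of_nonneg_left ?_ (hp0 l hl)
      have hl' : l ≤ S.K := Nat.lt_succ_iff.1 (Finset.mem_range.1 hl)
      unfold Rec.er
      rw [vv_lev S hl']
      refine mul_le_mul (hsq q hq) (add_le_add ?_ hsw) (by (clear * -; positivity)) (Real.sqrt_nonneg _)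
      exact mul_le_mul_of_nonneg_right hcabs (Real.sqrt_nonneg _)
    refine (Finset.sum_le_sum h1).trans ?_
    have h2 : ∑ l ∈ Finset.range (K + 1), (m (l + 1) - m l) *
        (√M * (β * √(dev2 S l) + √(2 * Cw) * b)) =
        √M * (β * ∑ l ∈ Finset.range (K + 1), (m (l + 1) - m l) * √(dev2 S l) +
          √(2 * Cw) * b) := by
      have e1 : ∀ l ∈ Finset.range (K + 1), (m (l + 1) - m l) *
          (√M * (β * √(dev2 S l) + √(2 * Cw) * b)) =
          √M * β * ((m (l + 1) - m l) * √(dev2 S l)) +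
            (m (l + 1) - m l) * (√M * (√(2 * Cw) * b)) := fun l _ => by ring
      rw [Finset.sum_congr rfl e1, Finset.sum_add_distrib, ← Finset.mul_sum, ← Finset.sum_mul,
        hp1]
      ring
    rw [h2]
    have h3 := sum_sqrt_le hm' hV
    gcongr
  -- the trace error
  have hge : ∀ q < κ, Rec.ge S (fun e => (Sum.inl e : GI (Ix N) N K)) (fun z => om N (r0 z)) q ≤
      thN κ M N := by
    intro q hq
    have hT0 : 0 ≤ thN κ M N := by
      unfold thN
      (clear * - hM1 hN; positivity)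
    match q with
    | 0 => exact hT0
    | q + 1 =>
      unfold Rec.ge thN
      refine add_le_add ?_ ?_
      · have h1 : ((q : ℝ) + 1) / N * S.Ex (fun z _ => om N (r0 z) ^ q) ≤
            ((q : ℝ) + 1) / N * M :=
          mul_le_mul_of_nonneg_left (hmom q (by omega)) (by (clear * - hN; positivity))
        refine h1.trans ?_
        rw [div_mul_eq_mul_div]
        refine div_le_div_of_nonneg_right ?_ hN'.le
        refine mul_le_mul_of_nonneg_right ?_ hM0
        exact_mod_cast hq.le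
      · rw [Finset.mul_sum]
        have h1 : ∀ s' ∈ Finset.range q, √(S.Ex fun z _ =>
            Rec.tr (fun e => (Sum.inl e : GI (Ix N) N K)) (s' + 1) z ^ 2) *
            √(S.Ex fun z _ => (om N (r0 z) ^ (q - (s' + 1))) ^ 2) ≤
            √M * √(∫ z, tp N (Sp (s' + 1)) z ^ 2 ∂(gI (Ix N))) := by
          intro s' hs'
          have hs'' := Finset.mem_range.1 hs'
          have e1 : S.Ex (fun z _ => Rec.tr (fun e => (Sum.inl e : GI (Ix N) N K)) (s' + 1) z ^ 2) =
              ∫ z, tp N (Sp (s' + 1)) z ^ 2 ∂(gI (Ix N)) := by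
            rw [← Gen.gS_Ex_zero h s ((eg_tp (Sp (s' + 1))).pow 2)]
            congr 1
            funext z x
            unfold Rec.tr tp
            rw [UU_sk, Um_eq_aeval, one_div, inv_mul_eq_div]
          rw [e1, mul_comm]
          exact mul_le_mul_of_nonneg_right (hsq _ (by omega)) (Real.sqrt_nonneg _)
        refine (Finset.sum_le_sum h1).trans ?_
        refine Finset.sum_le_sum_of_subset_of_nonneg (fun i hi => ?_) fun i _ _ => ?_
        · exact Finset.mem_range.2 (by have := Finset.mem_range.1 hi; omega)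
        · (clear * - hM1; positivity)
  -- one step
  set e : ℝ := 18 * (√M * (β * √V + √(2 * Cw) * b)) + 2 * thN κ M N with he
  have hT0 : 0 ≤ thN κ M N := by
    unfold thN
    (clear * - hM1 hN; positivity)
  have he0 : 0 ≤ e := by
    have := hb.1
    (clear * - hM1 hβ this hT0; positivity)
  have hstep : ∀ q < κ, Sk.hN K m (TT S (q + 1) -
      (β * a) • hm K m (1, fun l => S.Rl spin l) (TT S q)) ≤ e := by
    intro q hq
    refine (hN_step hN hm' h hB hBe hBw hw q).trans ?_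
    have h1 := hSg q hq
    have h2 := hge q hq
    rw [he]
    linarith only [h2, h1]
  have hR : ∀ l ≤ K, |S.Rl spin l| ≤ 1 := fun l hl => by
    rw [abs_of_nonneg (hF.Rl_nonneg hl)]
    exact hF.Rl_le_one hl
  have h00 : (TT S 0).1 = 1 := by
    show Td S 0 = 1
    unfold Td
    have e1 : (fun (z : GI (Ix N) N K → ℝ) (x : Fin N → Bool) =>
        qf (Um (Wm N (r0 z)) 0) (spin x)) = fun _ _ => (N : ℝ) := by
      funext z x
      rw [Um_zero, qf_eq_dot _ (Matrix.transpose_one), one_mulVec, dot_self_eq, nv_sq, spin_norm]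
    rw [e1, hReg.Ex_const]
    field_simp
  have h01 : ∀ l ≤ K, (TT S 0).2 l = S.Rl spin l := by
    intro l hl
    show Tl S 0 l = S.Rl spin l
    unfold Tl Sy.Rl
    congr 2
    funext z x
    refine Finset.sum_congr rfl fun i _ => ?_
    rw [Um_zero, Finset.sum_eq_single i]
    · rw [Matrix.one_apply_eq]
      ring
    · intro j _ hj
      rw [Matrix.one_apply_ne hj.symm]
      ring
    · intro h
      exact absurd (Finset.mem_univ _) h
  have hfin := hpow_stable hm' hR h00 h01 (mul_nonneg hβ ha.1) (n := p)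
    (fun q hq => hstep q (by omega))
  refine hfin.trans ?_
  have hsum : ∑ j ∈ Finset.range p, (6 * (β * a)) ^ j ≤ G := by
    calc ∑ j ∈ Finset.range p, (6 * (β * a)) ^ j ≤ ∑ j ∈ Finset.range p, (6 * β) ^ j := by
          refine Finset.sum_le_sum fun j _ => ?_
          have h1 : 0 ≤ β * a := mul_nonneg hβ ha.1
          have h2 : β * a ≤ β := mul_le_of_le_one_right hβ ha.2
          exact pow_le_pow_left₀ (by linarith) (by linarith) j
      _ ≤ G := by
          refine Finset.sum_le_sum_of_subset_of_nonneg (fun i hi => ?_) fun i _ _ => by positivity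
          exact Finset.mem_range.2 (lt_of_lt_of_le (Finset.mem_range.1 hi) hp)
  have h5 : e * ∑ j ∈ Finset.range p, (6 * (β * a)) ^ j ≤ e * G :=
    mul_le_mul_of_nonneg_left hsum he0
  refine h5.trans ?_
  rw [he]
  have hb0 := hb.1
  have q1 : 0 ≤ √V := Real.sqrt_nonneg _
  have q2 : 0 ≤ √M * β := mul_nonneg (Real.sqrt_nonneg _) hβ
  have q3 : 0 ≤ √M * √(2 * Cw) := mul_nonneg (Real.sqrt_nonneg _) (Real.sqrt_nonneg _)
  have h6 : (18 * (√M * (β * √V + √(2 * Cw) * b)) + 2 * thN κ M N) ≤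
      (18 * √M * β + 18 * √M * √(2 * Cw) + 2) * (√V + b + thN κ M N) := by
    have r1 : 0 ≤ √M * β * (b + thN κ M N) := mul_nonneg q2 (by linarith)
    have r2 : 0 ≤ √M * √(2 * Cw) * (√V + thN κ M N) := mul_nonneg q3 (by linarith)
    linarith only [r2, r1, q1, hb0]
  calc (18 * (√M * (β * √V + √(2 * Cw) * b)) + 2 * thN κ M N) * G
      ≤ ((18 * √M * β + 18 * √M * √(2 * Cw) + 2) * (√V + b + thN κ M N)) * G :=
        mul_le_mul_of_nonneg_right h6 hG0
    _ = _ := by ring

end Vale.Agent.P146.Sk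
end

section

/-!
# P146, module SYS: the SK energy satisfies the hypotheses of the generic system
-/

open MeasureTheory ProbabilityTheory Matrix Filter Topology
open scoped Matrix.Norms.L2Operator

namespace Vale.Agent.P146.Sk

set_option linter.all false

open Vale.Agent.P157 (spin)
open Vale.Agent.P157.Lv
open Vale.Agent.P157.Par (Path Exponents topN lw spinPart)
open Gen (GI gz gl r0 gS gF gOb gIsOpt GD)

namespace Ins

variable {N K : ℕ}

/-- Functions with bounded partial derivatives are Lipschitz. -/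
lemma lip_of_pd {ι : Type} [Fintype ι] [DecidableEq ι] {F : (ι → ℝ) → ℝ}
    {F' : ι → (ι → ℝ) → ℝ} (hd : ∀ e, PD e F (F' e)) {C : ℝ} (hC : ∀ e y, |F' e y| ≤ C) :
    Lip F := by
  have hone : ∀ e (y : ι → ℝ) (t t' : ℝ),
      |F (Function.update y e t) - F (Function.update y e t')| ≤ C * |t - t'| := by
    intro e y t t'
    have h := Convex.norm_image_sub_le_of_norm_hasDerivWithin_le
      (f := fun t => F (Function.update y e t)) (f' := fun t => F' e (Function.update y e t))
      (s := Set.univ) (C := C) (x := t') (y := t)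
      (fun x _ => (hd e y x).hasDerivWithinAt) (fun x _ => hC e _) convex_univ
      (Set.mem_univ _) (Set.mem_univ _)
    simpa [Real.norm_eq_abs] using h
  rcases isEmpty_or_nonempty ι with hι | ⟨⟨e0⟩⟩
  · refine ⟨0, le_rfl, fun y y' => ?_⟩
    rw [Subsingleton.elim y y']
    simp
  have hC0 : 0 ≤ C := (abs_nonneg _).trans (hC e0 0)
  have hs : ∀ (s : Finset ι) (y y' : ι → ℝ),
      |F (fun e => if e ∈ s then y' e else y e) - F y| ≤ C * ∑ e ∈ s, |y' e - y e| := by
    intro s
    induction s using Finset.induction_on with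
    | empty => intro y y'; simp
    | insert e s he ih =>
      intro y y'
      have e1 : (fun i => if i ∈ insert e s then y' i else y i) =
          Function.update (fun i => if i ∈ s then y' i else y i) e (y' e) := by
        funext i
        by_cases hi : i = e
        · subst hi
          simp
        · rw [Function.update_of_ne hi]
          simp [Finset.mem_insert, hi]
      have e2 : (fun i => if i ∈ s then y' i else y i) =
          Function.update (fun i => if i ∈ s then y' i else y i) e (y e) := by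
        funext i
        by_cases hi : i = e
        · subst hi
          simp [he]
        · rw [Function.update_of_ne hi]
      have h1 := hone e (fun i => if i ∈ s then y' i else y i) (y' e) (y e)
      rw [← e1, ← e2] at h1
      have h2 := ih y y'
      rw [Finset.sum_insert he, mul_add]
      calc |F (fun i => if i ∈ insert e s then y' i else y i) - F y|
          = |(F (fun i => if i ∈ insert e s then y' i else y i) -
            F (fun i => if i ∈ s then y' i else y i)) +
            (F (fun i => if i ∈ s then y' i else y i) - F y)| := by ring_nf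
        _ ≤ _ := (abs_add_le _ _).trans (add_le_add h1 h2)
  refine ⟨C * Fintype.card ι, by positivity, fun y y' => ?_⟩
  have h := hs Finset.univ y' y
  simp only [Finset.mem_univ, if_true] at h
  refine h.trans ?_
  rw [mul_assoc]
  refine mul_le_mul_of_nonneg_left ?_ hC0
  refine (Finset.sum_le_sum fun e _ => (norm_le_pi_norm (y - y') e)).trans ?_
  rw [Finset.sum_const, Finset.card_univ, nsmul_eq_mul]

/-! ### The cutoff -/

lemma cont_st' : Continuous (deriv Real.smoothTransition) :=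
  (Real.smoothTransition.contDiff (n := 1)).continuous_deriv le_rfl

lemma st'_neg {x : ℝ} (hx : x < 0) : deriv Real.smoothTransition x = 0 := by
  have h : Real.smoothTransition =ᶠ[𝓝 x] fun _ => (0 : ℝ) := by
    filter_upwards [Iio_mem_nhds hx] with y hy
    exact Real.smoothTransition.zero_of_nonpos (le_of_lt hy)
  rw [h.deriv_eq, deriv_const]

lemma st'_gt {x : ℝ} (hx : 1 < x) : deriv Real.smoothTransition x = 0 := by
  have h : Real.smoothTransition =ᶠ[𝓝 x] fun _ => (1 : ℝ) := by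
    filter_upwards [Ioi_mem_nhds hx] with y hy
    exact Real.smoothTransition.one_of_one_le (le_of_lt hy)
  rw [h.deriv_eq, deriv_const]

lemma exists_st'_le : ∃ L : ℝ, 0 ≤ L ∧ ∀ x, |deriv Real.smoothTransition x| ≤ L := by
  obtain ⟨L, hL⟩ := isCompact_Icc.exists_bound_of_continuousOn
    (cont_st'.continuousOn (s := Set.Icc (0 : ℝ) 1))
  have hL0 : 0 ≤ L := (norm_nonneg _).trans (hL 0 ⟨le_rfl, zero_le_one⟩)
  refine ⟨L, hL0, fun x => ?_⟩
  rcases lt_or_ge x 0 with h | h
  · rw [st'_neg h, abs_zero]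
    exact hL0
  rcases lt_or_ge 1 x with h' | h'
  · rw [st'_gt h', abs_zero]
    exact hL0
  exact hL x ⟨h, h'⟩

/-- the partial derivatives of the cutoff -/
noncomputable def dcut (N : ℕ) (e : Ix N) (g : Ix N → ℝ) : ℝ :=
  deriv Real.smoothTransition (2 - (∑ p, g p ^ 2) / (N : ℝ) ^ 3) * (-(2 * g e / (N : ℝ) ^ 3))

lemma pd_cut (e : Ix N) : PD e (cut N) (dcut N e) := by
  have h1 : PD e (fun g : Ix N → ℝ => 2 - (∑ p, g p ^ 2) / (N : ℝ) ^ 3)
      (fun g => -(2 * g e / (N : ℝ) ^ 3)) := by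
    have h2 := PD.sum (e := e) Finset.univ (H := fun p (g : Ix N → ℝ) => g p * g p)
      (H' := fun p g => (if p = e then 1 else 0) * g p + g p * (if p = e then 1 else 0))
      fun p _ => (PD.coord (e := e) p).mul (PD.coord (e := e) p)
    have h3 := (PD.const (e := e) (2 : ℝ)).sub (h2.const_mul (((N : ℝ) ^ 3)⁻¹))
    have e1 : (fun g : Ix N → ℝ => 2 - (∑ p, g p ^ 2) / (N : ℝ) ^ 3) = fun g =>
        2 - ((N : ℝ) ^ 3)⁻¹ * ∑ p, g p * g p := by
      funext g
      rw [div_eq_inv_mul]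
      congr 2
      exact Finset.sum_congr rfl fun p _ => sq _
    rw [e1]
    refine h3.congr fun g => ?_
    have e2 : ∑ p, ((if p = e then (1 : ℝ) else 0) * g p + g p * (if p = e then 1 else 0)) =
        2 * g e := by
      simp only [Finset.sum_add_distrib, ite_mul, mul_ite, one_mul, zero_mul, mul_one, mul_zero,
        Finset.sum_ite_eq', Finset.mem_univ, if_true]
      ring
    rw [e2, div_eq_inv_mul]
    ring
  exact h1.comp (g := Real.smoothTransition) (g' := deriv Real.smoothTransition) fun x =>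
    ((Real.smoothTransition.contDiff (n := 1)).differentiable (by norm_num) x).hasDerivAt

lemma cut_zero (hN : 0 < N) {g : Ix N → ℝ} (h : 2 * (N : ℝ) ^ 3 < ∑ p, g p ^ 2) :
    cut N g = 0 := by
  have hN' : (0 : ℝ) < N := by exact_mod_cast hN
  refine Real.smoothTransition.zero_of_nonpos ?_
  rw [sub_nonpos, le_div_iff₀ (by positivity)]
  exact h.le

lemma dcut_zero (hN : 0 < N) {g : Ix N → ℝ} (h : 2 * (N : ℝ) ^ 3 < ∑ p, g p ^ 2) (e : Ix N) :
    dcut N e g = 0 := by
  have hN' : (0 : ℝ) < N := by exact_mod_cast hN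
  unfold dcut
  rw [st'_neg, zero_mul]
  rw [sub_neg, lt_div_iff₀ (by positivity)]
  exact h

lemma cont_dcut (e : Ix N) : Continuous (dcut N e) := by
  unfold dcut
  exact (cont_st'.comp (by fun_prop)).mul (by fun_prop)

lemma sum_dcut_sq (hN : 0 < N) {L : ℝ} (hL0 : 0 ≤ L)
    (hL : ∀ x, |deriv Real.smoothTransition x| ≤ L) (g : Ix N → ℝ) :
    ∑ e, dcut N e g ^ 2 ≤ 8 * L ^ 2 / N := by
  have hN' : (0 : ℝ) < N := by exact_mod_cast hN
  have hN1 : (1 : ℝ) ≤ N := by exact_mod_cast hN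
  rcases lt_or_ge (2 * (N : ℝ) ^ 3) (∑ p, g p ^ 2) with h | h
  · simp only [dcut_zero hN h]
    simp only [ne_eq, OfNat.ofNat_ne_zero, not_false_eq_true, zero_pow, Finset.sum_const_zero]
    positivity
  · have h1 : ∀ e, dcut N e g ^ 2 ≤ L ^ 2 * (4 / (N : ℝ) ^ 6) * g e ^ 2 := by
      intro e
      unfold dcut
      rw [mul_pow]
      have h2 : deriv Real.smoothTransition (2 - (∑ p, g p ^ 2) / (N : ℝ) ^ 3) ^ 2 ≤ L ^ 2 := by
        rw [← sq_abs]
        exact pow_le_pow_left₀ (abs_nonneg _) (hL _) 2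
      calc deriv Real.smoothTransition (2 - (∑ p, g p ^ 2) / (N : ℝ) ^ 3) ^ 2 *
            (-(2 * g e / (N : ℝ) ^ 3)) ^ 2 ≤ L ^ 2 * (-(2 * g e / (N : ℝ) ^ 3)) ^ 2 :=
            mul_le_mul_of_nonneg_right h2 (sq_nonneg _)
        _ = L ^ 2 * (4 / (N : ℝ) ^ 6) * g e ^ 2 := by
            field_simp
            ring
    refine (Finset.sum_le_sum fun e _ => h1 e).trans ?_
    rw [← Finset.mul_sum]
    calc L ^ 2 * (4 / (N : ℝ) ^ 6) * ∑ e, g e ^ 2 ≤
          L ^ 2 * (4 / (N : ℝ) ^ 6) * (2 * (N : ℝ) ^ 3) :=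
          mul_le_mul_of_nonneg_left h (by positivity)
      _ = 8 * L ^ 2 / (N : ℝ) ^ 3 := by
          field_simp
          ring
      _ ≤ 8 * L ^ 2 / N := by
          refine div_le_div_of_nonneg_left (by positivity) hN' ?_
          calc (N : ℝ) = N ^ 1 := (pow_one _).symm
            _ ≤ N ^ 3 := pow_le_pow_right₀ hN1 (by norm_num)

/-! ### The quadratic forms -/

lemma pd_qf {e : Ix N} {A A' : (Ix N → ℝ) → Matrix (Fin N) (Fin N) ℝ} (hA : PDM e A A')
    (y : Fin N → ℝ) : PD e (fun g => qf (A g) y) (fun g => qf (A' g) y) := by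
  unfold qf
  refine PD.sum _ fun i _ => PD.sum _ fun j _ => ?_
  have h := ((hA i j).const_mul (y i)).mul (PD.const (e := e) (y j))
  refine h.congr fun g => ?_
  ring

lemma cont_Um (κ : ℕ) : Continuous (fun g : Ix N → ℝ => Um (Wm N g) κ) := by
  induction κ using Nat.strong_induction_on with
  | _ p ih =>
    match p with
    | 0 => exact continuous_const
    | 1 => exact continuous_Wm
    | p + 2 => exact (continuous_Wm.matrix_mul (ih (p + 1) (by omega))).sub (ih p (by omega))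

lemma cont_DU (F : Matrix (Fin N) (Fin N) ℝ) (κ : ℕ) :
    Continuous (fun g : Ix N → ℝ => DU (Wm N g) F κ) := by
  induction κ using Nat.strong_induction_on with
  | _ p ih =>
    match p with
    | 0 => exact continuous_const
    | 1 => exact continuous_const
    | p + 2 =>
      exact ((continuous_const.matrix_mul (cont_Um (p + 1))).add
        (continuous_Wm.matrix_mul (ih (p + 1) (by omega)))).sub (ih p (by omega))

lemma cont_qf {A : (Ix N → ℝ) → Matrix (Fin N) (Fin N) ℝ} (hA : Continuous A)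
    (y : Fin N → ℝ) : Continuous (fun g => qf (A g) y) := by
  unfold qf
  refine continuous_finset_sum _ fun i _ => continuous_finset_sum _ fun j _ => ?_
  exact (continuous_const.mul (hA.matrix_elem i j)).mul continuous_const

lemma qf_Em (e : Ix N) (y : Fin N → ℝ) : qf (Em N e) y = 2 * (y e.1 * y e.2) / √(2 * (N : ℝ)) := by
  have h := mul_Em_mul (1 : Matrix (Fin N) (Fin N) ℝ) 1 e
  simp only [one_mul, mul_one] at h
  unfold qf
  have h1 : ∀ i j, y i * Em N e i j * y j =
      ((if i = e.1 then y i else 0) * (if j = e.2 then y j else 0) +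
        (if i = e.2 then y i else 0) * (if j = e.1 then y j else 0)) / √(2 * (N : ℝ)) := by
    intro i j
    rw [h i j]
    simp only [Matrix.one_apply]
    have q1 : (e.2 = j) ↔ (j = e.2) := eq_comm
    have q2 : (e.1 = j) ↔ (j = e.1) := eq_comm
    simp only [q1, q2]
    split_ifs <;> ring
  simp only [h1, ← Finset.sum_div, Finset.sum_add_distrib, ← Finset.mul_sum, ← Finset.sum_mul,
    Finset.sum_ite_eq', Finset.mem_univ, if_true]
  ring

/-- the derivative of the quadratic form of `U_κ` -/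
lemma qf_DU (g : Ix N → ℝ) (e : Ix N) (κ : ℕ) (y : Fin N → ℝ) :
    qf (DU (Wm N g) (Em N e) κ) y = ∑ s ∈ Finset.range κ,
      Me (Um (Wm N g) s *ᵥ y) (Um (Wm N g) (κ - 1 - s) *ᵥ y) e := by
  rw [DU_eq]
  have h0 : ∀ A : Matrix (Fin N) (Fin N) ℝ, qf A y = y ⬝ᵥ A *ᵥ y := by
    intro A
    unfold qf
    simp only [dotProduct, mulVec, Finset.mul_sum]
    exact Finset.sum_congr rfl fun i _ => Finset.sum_congr rfl fun j _ => by ring
  rw [h0, Matrix.sum_mulVec, dotProduct_sum]
  refine Finset.sum_congr rfl fun s _ => ?_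
  have hT : (Um (Wm N g) s)ᵀ = Um (Wm N g) s := Um_transpose (Wm_transpose _) s
  rw [← mulVec_mulVec, ← mulVec_mulVec, dotProduct_mulVec, ← mulVec_transpose, hT]
  set u := Um (Wm N g) s *ᵥ y
  set v := Um (Wm N g) (κ - 1 - s) *ᵥ y
  have h := mul_Em_mul (1 : Matrix (Fin N) (Fin N) ℝ) 1 e
  simp only [one_mul, mul_one] at h
  simp only [dotProduct, mulVec, Me]
  have h1 : ∀ i j, u i * (Em N e i j * v j) =
      ((if i = e.1 then u i else 0) * (if j = e.2 then v j else 0) +
        (if i = e.2 then u i else 0) * (if j = e.1 then v j else 0)) / √(2 * (N : ℝ)) := by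
    intro i j
    rw [h i j]
    simp only [Matrix.one_apply]
    have q1 : (e.2 = j) ↔ (j = e.2) := eq_comm
    have q2 : (e.1 = j) ↔ (j = e.1) := eq_comm
    simp only [q1, q2]
    split_ifs <;> ring
  simp only [Finset.mul_sum, h1]
  simp only [← Finset.sum_div, Finset.sum_add_distrib, ← Finset.mul_sum, ← Finset.sum_mul,
    Finset.sum_ite_eq', Finset.mem_univ, if_true]

lemma nv_Um_sq (g : Ix N → ℝ) (s : ℕ) (x : Fin N → Bool) :
    nv (Um (Wm N g) s *ᵥ spin x) ^ 2 ≤ om N g ^ (2 * s) * N := by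
  have h := OpB.um (by linarith [one_le_om g]) (opB_Wm g) s (spin x)
  rw [show 1 + (om N g - 1) = om N g by ring] at h
  have h2 := pow_le_pow_left₀ (nv_nonneg _) h 2
  have e : nv (spin x) ^ 2 = (N : ℝ) := by rw [nv_sq, spin_norm]
  rw [mul_pow, e, ← pow_mul, mul_comm s 2] at h2
  exact h2

lemma sum_qf_DU_sq (hN : 0 < N) (g : Ix N → ℝ) (κ : ℕ) (x : Fin N → Bool) :
    ∑ e, qf (DU (Wm N g) (Em N e) κ) (spin x) ^ 2 ≤ 2 * κ ^ 2 * (N * om N g ^ (2 * κ)) := by
  have hN' : (0 : ℝ) < N := by exact_mod_cast hN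
  have h1 : ∀ e, qf (DU (Wm N g) (Em N e) κ) (spin x) ^ 2 ≤ κ * ∑ s ∈ Finset.range κ,
      Me (Um (Wm N g) s *ᵥ spin x) (Um (Wm N g) (κ - 1 - s) *ᵥ spin x) e ^ 2 := by
    intro e
    rw [qf_DU]
    have h := sq_sum_le_card_mul_sum_sq (s := Finset.range κ) (f := fun s =>
      Me (Um (Wm N g) s *ᵥ spin x) (Um (Wm N g) (κ - 1 - s) *ᵥ spin x) e)
    rwa [Finset.card_range] at h
  refine (Finset.sum_le_sum fun e _ => h1 e).trans ?_
  rw [← Finset.mul_sum, Finset.sum_comm]
  have h2 : ∀ s ∈ Finset.range κ, ∑ e : Ix N,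
      Me (Um (Wm N g) s *ᵥ spin x) (Um (Wm N g) (κ - 1 - s) *ᵥ spin x) e ^ 2 ≤
      2 * (N * om N g ^ (2 * κ)) := by
    intro s hs
    have hs' := Finset.mem_range.1 hs
    refine (sum_Me_sq hN _ _).trans ?_
    have q1 := nv_Um_sq g s x
    have q2 := nv_Um_sq g (κ - 1 - s) x
    have hom := one_le_om g
    have q3 : om N g ^ (2 * s) * om N g ^ (2 * (κ - 1 - s)) ≤ om N g ^ (2 * κ) := by
      rw [← pow_add]
      exact pow_le_pow_right₀ hom (by omega)
    calc 2 / (N : ℝ) * (nv (Um (Wm N g) s *ᵥ spin x) ^ 2 *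
          nv (Um (Wm N g) (κ - 1 - s) *ᵥ spin x) ^ 2) ≤
          2 / (N : ℝ) * ((om N g ^ (2 * s) * N) * (om N g ^ (2 * (κ - 1 - s)) * N)) := by
          have : 0 ≤ om N g ^ (2 * s) * (N : ℝ) :=
            mul_nonneg (pow_nonneg (om_nonneg g) _) hN'.le
          gcongr
      _ = 2 * N * (om N g ^ (2 * s) * om N g ^ (2 * (κ - 1 - s))) := by
          field_simp
      _ ≤ 2 * N * om N g ^ (2 * κ) := mul_le_mul_of_nonneg_left q3 (by positivity)
      _ = _ := by ring
  calc (κ : ℝ) * ∑ s ∈ Finset.range κ, ∑ e : Ix N,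
        Me (Um (Wm N g) s *ᵥ spin x) (Um (Wm N g) (κ - 1 - s) *ᵥ spin x) e ^ 2 ≤
        κ * ∑ s ∈ Finset.range κ, 2 * (N * om N g ^ (2 * κ)) :=
        mul_le_mul_of_nonneg_left (Finset.sum_le_sum h2) (Nat.cast_nonneg _)
    _ = _ := by
        rw [Finset.sum_const, Finset.card_range, nsmul_eq_mul]
        ring

/-! ### The instance -/

/-- the perturbation -/
noncomputable def Bk (N : ℕ) (β b : ℝ) (κ : ℕ) (e : Ix N) (g : Ix N → ℝ) (x : Fin N → Bool) : ℝ :=
  -(β / 2 * b) * (dcut N e g * qf (Um (Wm N g) κ) (spin x) +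
    cut N g * qf (DU (Wm N g) (Em N e) κ) (spin x))

/-- the derivatives of the energy -/
noncomputable def Dk (N : ℕ) (β a b : ℝ) (κ : ℕ) (e : Ix N) (g : Ix N → ℝ)
    (x : Fin N → Bool) : ℝ :=
  β * a * (spin x e.1 * spin x e.2 / √(2 * (N : ℝ))) + Bk N β b κ e g x

lemma pd_Esk (β a b : ℝ) (κ : ℕ) (e : Ix N) (x : Fin N → Bool) :
    PD e (fun g => Esk N β a b κ g x) (fun g => Dk N β a b κ e g x) := by
  have h1 := pd_qf (pdm_Wm e) (spin x)
  have h2 := pd_qf (pdm_Um e κ) (spin x)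
  have h3 := (((h1.const_mul a).sub (((pd_cut e).mul h2).const_mul b)).const_mul (β / 2)).sub
    (PD.const (e := e) ((N : ℝ) * Real.log 2))
  refine h3.congr fun g => ?_
  simp only [Dk, Bk, qf_Em]
  ring

lemma cont_Bk (β b : ℝ) (κ : ℕ) (e : Ix N) (x : Fin N → Bool) :
    Continuous (fun g => Bk N β b κ e g x) := by
  unfold Bk
  exact continuous_const.mul (((cont_dcut e).mul (cont_qf (cont_Um κ) _)).add
    (continuous_cut.mul (cont_qf (cont_DU _ κ) _)))

lemma Bk_bdd (hN : 0 < N) (β b : ℝ) (κ : ℕ) (e : Ix N) (x : Fin N → Bool) :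
    ∃ C : ℝ, ∀ g, |Bk N β b κ e g x| ≤ C := by
  have hK : IsCompact {g : Ix N → ℝ | ∑ p, g p ^ 2 ≤ 2 * (N : ℝ) ^ 3} := by
    refine Metric.isCompact_of_isClosed_isBounded ?_ ?_
    · exact isClosed_le (by fun_prop) continuous_const
    · refine (Metric.isBounded_closedBall (x := (0 : Ix N → ℝ))
        (r := √(2 * (N : ℝ) ^ 3))).subset fun g hg => ?_
      rw [mem_closedBall_zero_iff, pi_norm_le_iff_of_nonneg (Real.sqrt_nonneg _)]
      intro p
      refine Real.abs_le_sqrt ?_
      exact (Finset.single_le_sum (f := fun p => g p ^ 2) (fun p _ => sq_nonneg _)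
        (Finset.mem_univ p)).trans hg
  have hc : HasCompactSupport (fun g => Bk N β b κ e g x) := by
    refine HasCompactSupport.intro hK fun g hg => ?_
    have h : 2 * (N : ℝ) ^ 3 < ∑ p, g p ^ 2 := not_le.1 hg
    unfold Bk
    rw [cut_zero hN h, dcut_zero hN h]
    ring
  obtain ⟨C, hC⟩ := hc.exists_bound_of_continuous (cont_Bk β b κ e x)
  exact ⟨C, hC⟩

lemma sum_Bk_sq (hN : 0 < N) {L : ℝ} (hL0 : 0 ≤ L)
    (hL : ∀ x, |deriv Real.smoothTransition x| ≤ L) (β b : ℝ) (κ : ℕ) (g : Ix N → ℝ)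
    (x : Fin N → Bool) :
    ∑ e, Bk N β b κ e g x ^ 2 ≤
      N * (b ^ 2 * (β ^ 2 * (4 * L ^ 2 + κ ^ 2)) * om N g ^ (2 * κ)) := by
  have hN' : (0 : ℝ) < N := by exact_mod_cast hN
  have hom : 0 ≤ om N g ^ (2 * κ) := pow_nonneg (om_nonneg g) _
  have h1 : ∀ e, Bk N β b κ e g x ^ 2 ≤ β ^ 2 * b ^ 2 / 2 *
      (dcut N e g ^ 2 * (N ^ 2 * om N g ^ (2 * κ)) +
        qf (DU (Wm N g) (Em N e) κ) (spin x) ^ 2) := by
    intro e
    unfold Bk
    set p := dcut N e g * qf (Um (Wm N g) κ) (spin x) with hp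
    set q := cut N g * qf (DU (Wm N g) (Em N e) κ) (spin x) with hq
    have h2 : p ^ 2 ≤ dcut N e g ^ 2 * (N ^ 2 * om N g ^ (2 * κ)) := by
      rw [hp, mul_pow]
      refine mul_le_mul_of_nonneg_left ?_ (sq_nonneg _)
      have h3 := abs_qf_Um_le g κ x
      rw [← sq_abs]
      calc |qf (Um (Wm N g) κ) (spin x)| ^ 2 ≤ (N * om N g ^ κ) ^ 2 :=
            pow_le_pow_left₀ (abs_nonneg _) h3 2
        _ = _ := by ring
    have h3 : q ^ 2 ≤ qf (DU (Wm N g) (Em N e) κ) (spin x) ^ 2 := by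
      rw [hq, mul_pow]
      have c0 := cut_nonneg g
      have c1 := cut_le_one g
      have c2 : cut N g ^ 2 ≤ 1 := pow_le_one₀ c0 c1
      exact mul_le_of_le_one_left (sq_nonneg _) c2
    have h4 : (-(β / 2 * b) * (p + q)) ^ 2 = β ^ 2 * b ^ 2 / 4 * (p + q) ^ 2 := by ring
    rw [h4]
    have h5 : (p + q) ^ 2 ≤ 2 * (p ^ 2 + q ^ 2) := by linarith only [sq_nonneg (p - q)]
    calc β ^ 2 * b ^ 2 / 4 * (p + q) ^ 2 ≤ β ^ 2 * b ^ 2 / 4 * (2 * (p ^ 2 + q ^ 2)) :=
          mul_le_mul_of_nonneg_left h5 (by positivity)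
      _ = β ^ 2 * b ^ 2 / 2 * (p ^ 2 + q ^ 2) := by ring
      _ ≤ _ := mul_le_mul_of_nonneg_left (add_le_add h2 h3) (by positivity)
  refine (Finset.sum_le_sum fun e _ => h1 e).trans ?_
  rw [← Finset.mul_sum, Finset.sum_add_distrib, ← Finset.sum_mul]
  have h6 := sum_dcut_sq hN hL0 hL g
  have h7 := sum_qf_DU_sq hN g κ x
  calc β ^ 2 * b ^ 2 / 2 * ((∑ e, dcut N e g ^ 2) * (N ^ 2 * om N g ^ (2 * κ)) +
        ∑ e, qf (DU (Wm N g) (Em N e) κ) (spin x) ^ 2) ≤
        β ^ 2 * b ^ 2 / 2 * ((8 * L ^ 2 / N) * (N ^ 2 * om N g ^ (2 * κ)) +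
          2 * κ ^ 2 * (N * om N g ^ (2 * κ))) := by
        refine mul_le_mul_of_nonneg_left (add_le_add ?_ h7) (by positivity)
        exact mul_le_mul_of_nonneg_right h6 (by positivity)
    _ = _ := by
        field_simp
        ring

lemma gd_Dk (hN : 0 < N) {m : ℕ → ℝ} (hm' : Exponents K m) (β a b : ℝ) (κ : ℕ) :
    GD K m (Esk N β a b κ) (Dk N β a b κ) (spin (N := N)) := by
  have hb : ∀ x : Fin N → Bool, ∃ C : ℝ, ∀ e g, |Dk N β a b κ e g x| ≤ C := by
    intro x
    choose C hC using fun e => Bk_bdd hN β b κ e x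
    refine ⟨∑ e, (|β * a * (spin x e.1 * spin x e.2 / √(2 * (N : ℝ)))| + |C e|), fun e g => ?_⟩
    have h1 : |Dk N β a b κ e g x| ≤
        |β * a * (spin x e.1 * spin x e.2 / √(2 * (N : ℝ)))| + |C e| := by
      unfold Dk
      exact (abs_add_le _ _).trans (add_le_add le_rfl ((hC e g).trans (le_abs_self _)))
    exact h1.trans (Finset.single_le_sum (f := fun e : Ix N =>
      |β * a * (spin x e.1 * spin x e.2 / √(2 * (N : ℝ)))| + |C e|)
      (fun e _ => by positivity) (Finset.mem_univ e))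
  choose C hC using hb
  exact {
    hm := hm'
    lip := fun x => lip_of_pd (fun e => pd_Esk β a b κ e x) (C := C x) fun e y => hC x e y
    pd := fun e x => pd_Esk β a b κ e x
    md := fun e x => by
      unfold Dk
      exact measurable_const.add (cont_Bk β b κ e x).measurable
    bd := ⟨∑ x, |C x|, fun e z x => (hC x e z).trans ((le_abs_self _).trans
      (Finset.single_le_sum (f := fun x => |C x|) (fun x _ => abs_nonneg _)
        (Finset.mem_univ x)))⟩
    N0 := hN
    norm := spin_norm }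

end Ins

/-- The hypotheses of the generic system. -/
theorem exists_gd' (β : ℝ) (κ : ℕ) (N K : ℕ) (m : ℕ → ℝ) (hN : 0 < N) (hm' : Exponents K m)
    (a b : ℝ) : ∃ D, GD K m (Esk N β a b κ) D (spin (N := N)) :=
  ⟨_, Ins.gd_Dk hN hm' β a b κ⟩

theorem instP (β : ℝ) (κ : ℕ) : InstP β κ := by
  obtain ⟨L, hL0, hL⟩ := Ins.exists_st'_le
  obtain ⟨M, hM1, hM⟩ := exists_om_moment (2 * κ)
  refine ⟨β ^ 2 * (4 * L ^ 2 + κ ^ 2) * M, by positivity, fun N K m a b hN hm' ha hb => ?_⟩
  refine ⟨Ins.Dk N β a b κ, Ins.Bk N β b κ,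
    fun g => b ^ 2 * (β ^ 2 * (4 * L ^ 2 + κ ^ 2)) * om N g ^ (2 * κ),
    Ins.gd_Dk hN hm' β a b κ, fun e z x => rfl, fun e x => ?_, fun z x => ?_, ?_, ?_⟩
  · obtain ⟨C, hC⟩ := Ins.Bk_bdd hN β b κ e x
    exact EG.of_bdd (Ins.cont_Bk β b κ e x).measurable hC
  · exact Ins.sum_Bk_sq hN hL0 hL β b κ z x
  · exact (eg_om.pow _).const_mul _
  · rw [integral_const_mul]
    calc b ^ 2 * (β ^ 2 * (4 * L ^ 2 + κ ^ 2)) * ∫ g, om N g ^ (2 * κ) ∂(gI (Ix N)) ≤
          b ^ 2 * (β ^ 2 * (4 * L ^ 2 + κ ^ 2)) * M :=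
          mul_le_mul_of_nonneg_left (hM N) (by (clear * -; positivity))
      _ = _ := by ring

/-- **The values of the quadratic forms.** -/
theorem exists_val' (β : ℝ) (hβ : 0 ≤ β) (κ : ℕ) : ∃ C : ℝ, 0 ≤ C ∧ ∃ θ : ℕ → ℝ,
    Tendsto θ atTop (𝓝 0) ∧
    ∀ (N K : ℕ) (m : ℕ → ℝ) (a b : ℝ) (s : ℕ → ℝ), 0 < N → Exponents K m →
      a ∈ Set.Icc (0 : ℝ) 1 → b ∈ Set.Icc (0 : ℝ) 1 → (∀ l ≤ K, 0 ≤ s l) →
      ∀ p ≤ κ, |Td (skf N K m β a b κ s) p -
        (β * a) ^ p * trp K m (fun l => (skf N K m β a b κ s).Rl spin l) (p + 1)| ≤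
        C * (√(∑ l ∈ Finset.range (K + 1), (m (l + 1) - m l) * dev2 (skf N K m β a b κ s) l) +
          b + θ N) :=
  exists_val_of hβ (instP β κ)

end Vale.Agent.P146.Sk
end

section

/-!
The tangent inequality for functions on the cone of strictly increasing paths whose gradient is
nonincreasing in the other coordinates and nondecreasing along the diagonal.
-/

open Set Filter Topology

namespace Vale.Agent.P157.Par

/-- The hypotheses of `lnat_tangent`. -/
structure Sp6H (k : ℕ) (w : ℕ → ℝ) (G : (ℕ → ℝ) → ℝ) (R : (ℕ → ℝ) → ℕ → ℝ) : Prop where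
  hw : ∀ l ≤ k, 0 < w l
  hder : ∀ (r η : ℕ → ℝ) (a : ℝ), 0 < a →
      (∀ s ∈ Set.Ico 0 a, SPath k (fun l => r l + s * η l)) → Path k (fun l => r l + a * η l) →
      ContinuousOn (fun s => G (fun l => r l + s * η l)) (Set.Icc 0 a) ∧
      (∀ s ∈ Set.Ioo 0 a, HasDerivAt (fun s => G (fun l => r l + s * η l))
        (-(1 / 2) * ∑ l ∈ Finset.range (k + 1), w l * η l *
          R (fun l => r l + s * η l) l) s) ∧
      ∀ j ≤ k, ContinuousOn (fun s => R (fun l => r l + s * η l) j) (Set.Icc 0 a)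
  hanti : ∀ (r : ℕ → ℝ) (i j : ℕ) (s : ℝ), SPath k r → i < j → j ≤ k → 0 ≤ s →
      SPath k (Function.update r j (r j + s)) → R (Function.update r j (r j + s)) i ≤ R r i
  hdiag : ∀ (r : ℕ → ℝ) (c : ℝ) (j : ℕ), SPath k r → 0 ≤ c → j ≤ k →
      R r j ≤ R (fun l => r l + c) j

variable {k : ℕ} {w : ℕ → ℝ} {G : (ℕ → ℝ) → ℝ} {R : (ℕ → ℝ) → ℕ → ℝ}

theorem sp6_lt {r : ℕ → ℝ} (h : SPath k r) {i j : ℕ} (hij : i < j) (hj : j ≤ k) : r i < r j := by
  induction j with
  | zero => exact absurd hij (Nat.not_lt_zero i)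
  | succ j ih =>
    rcases Nat.lt_succ_iff_lt_or_eq.1 hij with h1 | h1
    · exact (ih h1 (Nat.le_of_succ_le hj)).trans (h.2 j hj)
    · rw [h1]; exact h.2 j hj

theorem sp6_path {r : ℕ → ℝ} (h : SPath k r) : Path k r :=
  ⟨h.1.le, fun l hl => (h.2 l hl).le⟩

theorem sp6_congr {r r' : ℕ → ℝ} (h : SPath k r) (he : ∀ l ≤ k, r l = r' l) : SPath k r' := by
  refine ⟨?_, fun l hl => ?_⟩
  · rw [← he 0 (Nat.zero_le k)]; exact h.1
  · rw [← he l hl.le, ← he (l + 1) hl]; exact h.2 l hl

theorem sp6_conv {r r' : ℕ → ℝ} (h : SPath k r) (h' : Path k r') {s : ℝ} (hs : 0 ≤ s)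
    (hs1 : s < 1) : SPath k (fun l => r l + s * (r' l - r l)) := by
  refine ⟨?_, fun l hl => ?_⟩
  · have h1 := h.1
    have h2 := h'.1
    have h3 : 0 < (1 - s) * r 0 := mul_pos (by linarith) h1
    have h4 : 0 ≤ s * r' 0 := mul_nonneg hs h2
    change 0 < r 0 + s * (r' 0 - r 0)
    linarith only [h4, h3]
  · have h1 := h.2 l hl
    have h2 := h'.2 l hl
    have h3 : 0 < (1 - s) * (r (l + 1) - r l) := mul_pos (by linarith) (by linarith)
    have h4 : 0 ≤ s * (r' (l + 1) - r' l) := mul_nonneg hs (by linarith)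
    change r l + s * (r' l - r l) < r (l + 1) + s * (r' (l + 1) - r (l + 1))
    linarith only [h4, h3]

theorem sp6_line {r r' : ℕ → ℝ} (h : SPath k r) (h' : SPath k r') {s : ℝ} (hs : 0 ≤ s)
    (hs1 : s ≤ 1) : SPath k (fun l => r l + s * (r' l - r l)) := by
  rcases hs1.lt_or_eq with h1 | h1
  · exact sp6_conv h (sp6_path h') hs h1
  · refine sp6_congr h' (fun l _ => ?_)
    rw [h1]; ring

theorem sp6_small {x : ℕ → ℝ} (hx : SPath k x) (η : ℕ → ℝ) :
    ∃ a : ℝ, 0 < a ∧ ∀ s ∈ Icc 0 a, SPath k (fun l => x l + s * η l) := by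
  have h1 : ∀ᶠ s in 𝓝 (0 : ℝ), 0 < x 0 + s * η 0 := by
    have hc : Continuous (fun s : ℝ => x 0 + s * η 0) := by fun_prop
    have := hc.tendsto 0
    refine this.eventually (lt_mem_nhds ?_)
    have := hx.1
    linarith
  have h2 : ∀ᶠ s in 𝓝 (0 : ℝ), ∀ l ∈ Finset.range k, x l + s * η l < x (l + 1) + s * η (l + 1) := by
    refine (Filter.eventually_all_finset (Finset.range k)).2 (fun l hl => ?_)
    have hc : Continuous (fun s : ℝ => x (l + 1) + s * η (l + 1) - (x l + s * η l)) := by fun_prop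
    have := hc.tendsto 0
    have h3 : ∀ᶠ s in 𝓝 (0 : ℝ), 0 < x (l + 1) + s * η (l + 1) - (x l + s * η l) := by
      refine this.eventually (lt_mem_nhds ?_)
      have := hx.2 l (Finset.mem_range.1 hl)
      linarith
    filter_upwards [h3] with s hs
    linarith
  obtain ⟨ε, hε, hb⟩ := Metric.eventually_nhds_iff.1 (h1.and h2)
  refine ⟨ε / 2, by linarith, fun s hs => ?_⟩
  have h3 : dist s 0 < ε := by
    rw [Real.dist_eq, sub_zero, abs_of_nonneg hs.1]
    have := hs.2
    linarith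
  have h4 := hb h3
  exact ⟨h4.1, fun l hl => h4.2 l (Finset.mem_range.2 hl)⟩

/-- The function whose monotonicity along the path is used. -/
noncomputable def sp6F (k : ℕ) (w : ℕ → ℝ) (G : (ℕ → ℝ) → ℝ) (ρ x : ℕ → ℝ) : ℝ :=
  -2 * G x - ∑ l ∈ Finset.range (k + 1), w l * ρ l * x l

theorem sp6_seg (H : Sp6H k w G R) {x η : ℕ → ℝ} {c : ℝ} (hc : 0 < c)
    (hs : ∀ s ∈ Icc 0 c, SPath k (fun l => x l + s * η l)) (ρ : ℕ → ℝ)
    (hpos : ∀ s ∈ Ioo 0 c, ∀ l ≤ k, 0 ≤ η l * (R (fun l => x l + s * η l) l - ρ l)) :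
    sp6F k w G ρ x ≤ sp6F k w G ρ (fun l => x l + c * η l) := by
  obtain ⟨h1, h2, -⟩ := H.hder x η c hc (fun s h => hs s ⟨h.1, h.2.le⟩)
    (sp6_path (hs c ⟨hc.le, le_refl c⟩))
  have hcont : ContinuousOn (fun s => sp6F k w G ρ (fun l => x l + s * η l)) (Icc 0 c) := by
    have h3 : Continuous (fun s : ℝ => ∑ l ∈ Finset.range (k + 1), w l * ρ l * (x l + s * η l)) := by
      fun_prop
    exact (h1.const_mul (-2)).sub h3.continuousOn
  have hd : ∀ s ∈ Ioo 0 c, HasDerivAt (fun s => sp6F k w G ρ (fun l => x l + s * η l))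
      (∑ l ∈ Finset.range (k + 1), w l * (η l * (R (fun l => x l + s * η l) l - ρ l))) s := by
    intro s h
    have h3 := (h2 s h).const_mul (-2)
    have h4 : HasDerivAt (fun s : ℝ => ∑ l ∈ Finset.range (k + 1), w l * ρ l * (x l + s * η l))
        (∑ l ∈ Finset.range (k + 1), w l * ρ l * η l) s := by
      refine HasDerivAt.fun_sum (fun l _ => ?_)
      have h5 : HasDerivAt (fun s : ℝ => x l + s * η l) (η l) s := by
        have := ((hasDerivAt_id s).mul_const (η l)).const_add (x l)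
        simpa using this
      exact h5.const_mul (w l * ρ l)
    have h6 := h3.sub h4
    have h7 : -2 * (-(1 / 2) * ∑ l ∈ Finset.range (k + 1), w l * η l *
        R (fun l => x l + s * η l) l) - ∑ l ∈ Finset.range (k + 1), w l * ρ l * η l =
        ∑ l ∈ Finset.range (k + 1), w l * (η l * (R (fun l => x l + s * η l) l - ρ l)) := by
      rw [← mul_assoc, show (-2 : ℝ) * -(1 / 2) = 1 by norm_num, one_mul,
        ← Finset.sum_sub_distrib]
      refine Finset.sum_congr rfl (fun l _ => ?_)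
      ring
    rw [← h7]
    exact h6
  have hmono : MonotoneOn (fun s => sp6F k w G ρ (fun l => x l + s * η l)) (Icc 0 c) := by
    refine monotoneOn_of_deriv_nonneg (convex_Icc 0 c) hcont ?_ ?_
    · rw [interior_Icc]
      exact fun s h => (hd s h).differentiableAt.differentiableWithinAt
    · rw [interior_Icc]
      intro s h
      rw [(hd s h).deriv]
      refine Finset.sum_nonneg (fun l hl => ?_)
      have hl' : l ≤ k := Nat.lt_succ_iff.1 (Finset.mem_range.1 hl)
      exact mul_nonneg (H.hw l hl').le (hpos s h l hl')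
  have h8 := hmono ⟨le_refl 0, hc.le⟩ ⟨hc.le, le_refl c⟩ hc.le
  have e2 : (fun l => x l + 0 * η l) = x := by
    funext l; ring
  simp only [e2] at h8
  exact h8

theorem sp6_indepG (H : Sp6H k w G R) {x y : ℕ → ℝ} (hx : SPath k x)
    (he : ∀ l ≤ k, x l = y l) : G x = G y := by
  have key : ∀ x y : ℕ → ℝ, SPath k x → (∀ l ≤ k, x l = y l) → G y ≤ G x := by
    intro x y hx he
    have h1 := sp6_seg H (x := x) (η := fun l => y l - x l) one_pos (fun s _ =>
      sp6_congr hx (fun l hl => by rw [he l hl]; ring)) (fun _ => 0)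
      (fun s _ l hl => by rw [he l hl]; simp)
    have e1 : (fun l => x l + 1 * (y l - x l)) = y := by
      funext l; ring
    rw [e1] at h1
    unfold sp6F at h1
    simp only [mul_zero, zero_mul, Finset.sum_const_zero, sub_zero] at h1
    linarith
  exact le_antisymm (key y x (sp6_congr hx he) (fun l hl => (he l hl).symm)) (key x y hx he)

/-- The one-sided derivative along a direction. -/
theorem sp6_right (H : Sp6H k w G R) {x η : ℕ → ℝ} {a : ℝ} (ha : 0 < a)
    (hs : ∀ s ∈ Icc 0 a, SPath k (fun l => x l + s * η l)) :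
    HasDerivWithinAt (fun s => G (fun l => x l + s * η l))
      (-(1 / 2) * ∑ l ∈ Finset.range (k + 1), w l * η l * R x l) (Ici 0) 0 := by
  obtain ⟨h1, h2, h3⟩ := H.hder x η a ha (fun s h => hs s ⟨h.1, h.2.le⟩)
    (sp6_path (hs a ⟨ha.le, le_refl a⟩))
  refine hasDerivWithinAt_Ici_of_tendsto_deriv (s := Ioo 0 a) ?_ ?_ (Ioo_mem_nhdsGT ha) ?_
  · exact fun s h => (h2 s h).differentiableAt.differentiableWithinAt
  · exact (h1 0 ⟨le_refl 0, ha.le⟩).mono Ioo_subset_Icc_self
  · have h4 : Tendsto (fun s => -(1 / 2) * ∑ l ∈ Finset.range (k + 1), w l * η l *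
          R (fun l => x l + s * η l) l) (𝓝[>] 0)
        (𝓝 (-(1 / 2) * ∑ l ∈ Finset.range (k + 1), w l * η l * R x l)) := by
      refine Tendsto.const_mul _ (tendsto_finsetSum _ (fun l hl => ?_))
      have hl' : l ≤ k := Nat.lt_succ_iff.1 (Finset.mem_range.1 hl)
      refine Tendsto.const_mul _ ?_
      have h5 := (h3 l hl') 0 ⟨le_refl 0, ha.le⟩
      have h6 : Tendsto (fun s => R (fun l => x l + s * η l) l) (𝓝[Ioo 0 a] 0)
          (𝓝 (R (fun l => x l + 0 * η l) l)) := h5.mono Ioo_subset_Icc_self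
      have e2 : (fun l => x l + 0 * η l) = x := by
        funext l; ring
      rw [e2, nhdsWithin_Ioo_eq_nhdsGT ha] at h6
      exact h6
    refine h4.congr' ?_
    filter_upwards [Ioo_mem_nhdsGT ha] with s h
    exact ((h2 s h).deriv).symm

theorem sp6_single_sum (i : ℕ) (hi : i ≤ k) (ρ : ℕ → ℝ) :
    ∑ l ∈ Finset.range (k + 1), w l * (Pi.single i (1 : ℝ) : ℕ → ℝ) l * ρ l = w i * ρ i := by
  rw [Finset.sum_eq_single i]
  · rw [Pi.single_eq_same, mul_one]
  · intro l _ hl
    rw [Pi.single_eq_of_ne hl, mul_zero, zero_mul]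
  · intro h
    exact absurd (Finset.mem_range.2 (Nat.lt_succ_of_le hi)) h

/-- Comparison of the components of the gradient from the comparison of small increments. -/
theorem sp6_cmp (H : Sp6H k w G R) {x y : ℕ → ℝ} (hx : SPath k x) (hy : SPath k y) {i : ℕ}
    (hi : i ≤ k) {a : ℝ} (ha : 0 < a)
    (h : ∀ s ∈ Ioo 0 a, G (fun l => x l + s * (Pi.single i (1 : ℝ) : ℕ → ℝ) l) - G x ≤
      G (fun l => y l + s * (Pi.single i (1 : ℝ) : ℕ → ℝ) l) - G y) : R y i ≤ R x i := by
  obtain ⟨a1, ha1, hs1⟩ := sp6_small hx (Pi.single i (1 : ℝ))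
  obtain ⟨a2, ha2, hs2⟩ := sp6_small hy (Pi.single i (1 : ℝ))
  have h1 := sp6_right H ha1 hs1
  have h2 := sp6_right H ha2 hs2
  rw [sp6_single_sum i hi] at h1 h2
  have h0 : (0 : ℝ) ∉ Ioi (0 : ℝ) := fun h => lt_irrefl (0 : ℝ) (mem_Ioi.1 h)
  have g1 := (hasDerivWithinAt_iff_tendsto_slope' h0).1 (h1.mono Ioi_subset_Ici_self)
  have g2 := (hasDerivWithinAt_iff_tendsto_slope' h0).1 (h2.mono Ioi_subset_Ici_self)
  have h3 : -(1 / 2) * (w i * R x i) ≤ -(1 / 2) * (w i * R y i) := by
    refine le_of_tendsto_of_tendsto g1 g2 ?_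
    filter_upwards [Ioo_mem_nhdsGT ha] with s hs
    have e1 : (fun l => x l + 0 * (Pi.single i (1 : ℝ) : ℕ → ℝ) l) = x := by
      funext l; ring
    have e2 : (fun l => y l + 0 * (Pi.single i (1 : ℝ) : ℕ → ℝ) l) = y := by
      funext l; ring
    rw [slope_def_field, slope_def_field, e1, e2, sub_zero]
    exact div_le_div_of_nonneg_right (h s hs) hs.1.le
  have h4 := H.hw i hi
  have h5 : w i * R y i ≤ w i * R x i := by linarith only [h3]
  exact le_of_mul_le_mul_left h5 h4

theorem sp6_indepR (H : Sp6H k w G R) {x y : ℕ → ℝ} (hx : SPath k x)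
    (he : ∀ l ≤ k, x l = y l) {i : ℕ} (hi : i ≤ k) : R x i = R y i := by
  have hy : SPath k y := sp6_congr hx he
  have key : ∀ x y : ℕ → ℝ, SPath k x → SPath k y → (∀ l ≤ k, x l = y l) → R y i ≤ R x i := by
    intro x y hx hy he
    obtain ⟨a1, ha1, hs1⟩ := sp6_small hx (Pi.single i (1 : ℝ))
    refine sp6_cmp H hx hy hi ha1 (fun s hs => ?_)
    rw [sp6_indepG H hx he, sp6_indepG H (hs1 s ⟨hs.1.le, hs.2.le⟩)
      (y := fun l => y l + s * (Pi.single i (1 : ℝ) : ℕ → ℝ) l)
      (fun l hl => by rw [he l hl])]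
  exact le_antisymm (key y x hy hx (fun l hl => (he l hl).symm)) (key x y hx hy he)

/-- The components of the gradient are nonincreasing in the other coordinates. -/
theorem sp6_anti (H : Sp6H k w G R) {r : ℕ → ℝ} {i j : ℕ} {s : ℝ} (hr : SPath k r) (hij : i ≠ j)
    (hi : i ≤ k) (hj : j ≤ k) (hs : 0 ≤ s) (hy : SPath k (Function.update r j (r j + s))) :
    R (Function.update r j (r j + s)) i ≤ R r i := by
  rcases lt_or_gt_of_ne hij with h1 | h1
  · exact H.hanti r i j s hr h1 hj hs hy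
  set y := Function.update r j (r j + s) with hydef
  obtain ⟨a1, ha1, hs1⟩ := sp6_small hr (Pi.single i (1 : ℝ))
  obtain ⟨a2, ha2, hs2⟩ := sp6_small hy (Pi.single i (1 : ℝ))
  refine sp6_cmp H hr hy hi (lt_min ha1 ha2) (fun h hh => ?_)
  have b1 : SPath k (fun l => r l + h * (Pi.single i (1 : ℝ) : ℕ → ℝ) l) :=
    hs1 h ⟨hh.1.le, hh.2.le.trans (min_le_left _ _)⟩
  have b2 : SPath k (fun l => y l + h * (Pi.single i (1 : ℝ) : ℕ → ℝ) l) :=
    hs2 h ⟨hh.1.le, hh.2.le.trans (min_le_right _ _)⟩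
  have l1 : ∀ u ∈ Icc (0 : ℝ) 1, SPath k (fun l => r l + u * (s * (Pi.single j (1 : ℝ) : ℕ → ℝ) l)) := by
    intro u hu
    refine sp6_congr (sp6_line hr hy hu.1 hu.2) (fun l _ => ?_)
    by_cases hl : l = j
    · rw [hydef, hl, Function.update_self, Pi.single_eq_same]; ring
    · rw [hydef, Function.update_of_ne hl, Pi.single_eq_of_ne hl]; ring
  have l2 : ∀ u ∈ Icc (0 : ℝ) 1, SPath k (fun l => (r l + h * (Pi.single i (1 : ℝ) : ℕ → ℝ) l) +
      u * (s * (Pi.single j (1 : ℝ) : ℕ → ℝ) l)) := by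
    intro u hu
    refine sp6_congr (sp6_line b1 b2 hu.1 hu.2) (fun l _ => ?_)
    by_cases hl : l = j
    · rw [hydef, hl, Function.update_self, Pi.single_eq_same]; ring
    · rw [hydef, Function.update_of_ne hl, Pi.single_eq_of_ne hl]; ring
  obtain ⟨c1, d1, -⟩ := H.hder r (fun l => s * (Pi.single j (1 : ℝ) : ℕ → ℝ) l) 1 one_pos
    (fun u hu => l1 u ⟨hu.1, hu.2.le⟩) (sp6_path (l1 1 ⟨zero_le_one, le_refl 1⟩))
  obtain ⟨c2, d2, -⟩ := H.hder (fun l => r l + h * (Pi.single i (1 : ℝ) : ℕ → ℝ) l)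
    (fun l => s * (Pi.single j (1 : ℝ) : ℕ → ℝ) l) 1 one_pos
    (fun u hu => l2 u ⟨hu.1, hu.2.le⟩) (sp6_path (l2 1 ⟨zero_le_one, le_refl 1⟩))
  have sumj : ∀ ρ : ℕ → ℝ, ∑ l ∈ Finset.range (k + 1),
      w l * (s * (Pi.single j (1 : ℝ) : ℕ → ℝ) l) * ρ l = s * (w j * ρ j) := by
    intro ρ
    rw [← sp6_single_sum j hj ρ, Finset.mul_sum]
    refine Finset.sum_congr rfl (fun l _ => ?_)
    ring
  have hmono : MonotoneOn (fun u => G (fun l => (r l + h * (Pi.single i (1 : ℝ) : ℕ → ℝ) l) +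
      u * (s * (Pi.single j (1 : ℝ) : ℕ → ℝ) l)) -
      G (fun l => r l + u * (s * (Pi.single j (1 : ℝ) : ℕ → ℝ) l))) (Icc 0 1) := by
    refine monotoneOn_of_deriv_nonneg (convex_Icc 0 1) (c2.sub c1) ?_ ?_
    · rw [interior_Icc]
      exact fun u hu => ((d2 u hu).sub (d1 u hu)).differentiableAt.differentiableWithinAt
    · rw [interior_Icc]
      intro u hu
      have h2 := ((d2 u hu).sub (d1 u hu)).deriv
      rw [sumj, sumj] at h2
      refine h2.ge.trans' ?_
      have p1 := l1 u ⟨hu.1.le, hu.2.le⟩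
      have p2 := l2 u ⟨hu.1.le, hu.2.le⟩
      have e3 : (fun l => (r l + h * (Pi.single i (1 : ℝ) : ℕ → ℝ) l) +
          u * (s * (Pi.single j (1 : ℝ) : ℕ → ℝ) l)) =
          Function.update (fun l => r l + u * (s * (Pi.single j (1 : ℝ) : ℕ → ℝ) l)) i
            ((fun l => r l + u * (s * (Pi.single j (1 : ℝ) : ℕ → ℝ) l)) i + h) := by
        funext l
        by_cases hl : l = i
        · rw [hl, Function.update_self, Pi.single_eq_same]; ring
        · rw [Function.update_of_ne hl, Pi.single_eq_of_ne hl]; ring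
      rw [e3] at p2
      have h3 := H.hanti _ j i h p1 h1 hi hh.1.le p2
      rw [← e3] at h3
      have h4 : 0 ≤ s * w j := mul_nonneg hs (H.hw j hj).le
      have h5 := mul_le_mul_of_nonneg_left h3 h4
      linarith only [h5]
  have h6 := hmono ⟨le_refl 0, zero_le_one⟩ ⟨zero_le_one, le_refl 1⟩ zero_le_one
  have e4 : (fun l => (r l + h * (Pi.single i (1 : ℝ) : ℕ → ℝ) l) +
      0 * (s * (Pi.single j (1 : ℝ) : ℕ → ℝ) l)) =
      (fun l => (r l + h * (Pi.single i (1 : ℝ) : ℕ → ℝ) l)) := by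
    funext l; ring
  have e5 : (fun l => r l + 0 * (s * (Pi.single j (1 : ℝ) : ℕ → ℝ) l)) = r := by
    funext l; ring
  have e6 : (fun l => (r l + h * (Pi.single i (1 : ℝ) : ℕ → ℝ) l) +
      1 * (s * (Pi.single j (1 : ℝ) : ℕ → ℝ) l)) =
      (fun l => (y l + h * (Pi.single i (1 : ℝ) : ℕ → ℝ) l)) := by
    funext l
    by_cases hl : l = j
    · rw [hydef, hl, Function.update_self, Pi.single_eq_same]; ring
    · rw [hydef, Function.update_of_ne hl, Pi.single_eq_of_ne hl]; ring
  have e7 : (fun l => r l + 1 * (s * (Pi.single j (1 : ℝ) : ℕ → ℝ) l)) = y := by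
    funext l
    by_cases hl : l = j
    · rw [hydef, hl, Function.update_self, Pi.single_eq_same]; ring
    · rw [hydef, Function.update_of_ne hl, Pi.single_eq_of_ne hl]; ring
  simp only [e4, e5, e6, e7] at h6
  linarith

/-- Raising other coordinates decreases a component of the gradient. -/
theorem sp6_comp (H : Sp6H k w G R) {x y : ℕ → ℝ} (hx : SPath k x) (hy : SPath k y)
    (hxy : ∀ l ≤ k, x l ≤ y l) {i : ℕ} (hi : i ≤ k) (hxi : x i = y i) : R y i ≤ R x i := by
  have hz : ∀ m, SPath k (fun l => if m ≤ l then y l else x l) := by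
    intro m
    refine ⟨?_, fun l hl => ?_⟩
    · change 0 < if m ≤ 0 then y 0 else x 0
      split_ifs
      · exact hy.1
      · exact hx.1
    · change (if m ≤ l then y l else x l) < if m ≤ l + 1 then y (l + 1) else x (l + 1)
      by_cases h1 : m ≤ l
      · rw [if_pos h1, if_pos (Nat.le_succ_of_le h1)]; exact hy.2 l hl
      · rw [if_neg h1]
        by_cases h2 : m ≤ l + 1
        · rw [if_pos h2]; exact (hx.2 l hl).trans_le (hxy (l + 1) hl)
        · rw [if_neg h2]; exact hx.2 l hl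
  have hstep : ∀ m ≤ k, R (fun l => if m ≤ l then y l else x l) i ≤
      R (fun l => if m + 1 ≤ l then y l else x l) i := by
    intro m hm
    have e1 : (fun l => if m ≤ l then y l else x l) =
        Function.update (fun l => if m + 1 ≤ l then y l else x l) m
          ((fun l => if m + 1 ≤ l then y l else x l) m + (y m - x m)) := by
      funext l
      by_cases hl : l = m
      · rw [hl, Function.update_self]
        simp
      · rw [Function.update_of_ne hl]
        by_cases h2 : m ≤ l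
        · have h3 : m + 1 ≤ l := Nat.succ_le_of_lt (lt_of_le_of_ne h2 (Ne.symm hl))
          rw [if_pos h2, if_pos h3]
        · rw [if_neg h2, if_neg (fun h => h2 (Nat.le_of_succ_le h))]
    by_cases him : i = m
    · have e2 : (fun l => if m ≤ l then y l else x l) =
          (fun l => if m + 1 ≤ l then y l else x l) := by
        rw [e1, ← him, hxi, sub_self, add_zero, Function.update_eq_self]
      rw [e2]
    · have h3 := hz m
      rw [e1] at h3
      rw [e1]
      exact sp6_anti H (hz (m + 1)) him hi hm (sub_nonneg.2 (hxy m hm)) h3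
  have hind : ∀ m ≤ k + 1, R (fun l => if 0 ≤ l then y l else x l) i ≤
      R (fun l => if m ≤ l then y l else x l) i := by
    intro m
    induction m with
    | zero => exact fun _ => le_refl _
    | succ m ih => exact fun hm => (ih (Nat.le_of_succ_le hm)).trans (hstep m (Nat.le_of_succ_le_succ hm))
  have h4 := hind (k + 1) (le_refl _)
  have e0 : (fun l => if 0 ≤ l then y l else x l) = y := by
    funext l; rw [if_pos (Nat.zero_le l)]
  rw [e0, sp6_indepR H (hz (k + 1)) (y := x) (fun l hl => by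
    rw [if_neg (fun h => Nat.not_succ_le_self l (le_trans (Nat.succ_le_succ hl) h))]) hi] at h4
  exact h4

theorem sp6_min {r r' : ℕ → ℝ} (h : SPath k r) (h' : SPath k r') {t : ℝ} (ht : 0 ≤ t) :
    SPath k (fun l => min (r' l) (r l + t)) := by
  refine ⟨lt_min h'.1 (by have := h.1; linarith), fun l hl => ?_⟩
  have h1 := h.2 l hl
  have h2 := h'.2 l hl
  exact lt_min ((min_le_left _ _).trans_lt h2) ((min_le_right _ _).trans_lt (by linarith))

theorem sp6_max {r y : ℕ → ℝ} (h : SPath k r) (h' : SPath k y) {t : ℝ} :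
    SPath k (fun l => max (y l) (r l - t)) := by
  refine ⟨lt_max_of_lt_left h'.1, fun l hl => ?_⟩
  have h1 := h.2 l hl
  have h2 := h'.2 l hl
  exact max_lt (lt_max_of_lt_left h2) (lt_max_of_lt_right (by linarith))

theorem sp6_shift {r : ℕ → ℝ} (h : SPath k r) {t : ℝ} (ht : 0 ≤ t) :
    SPath k (fun l => r l + t) :=
  ⟨by have := h.1; linarith, fun l hl => by have := h.2 l hl; linarith⟩

theorem sp6_up (H : Sp6H k w G R) {r r' : ℕ → ℝ} (hr : SPath k r) (hr' : SPath k r')
    (hb : ∀ l, k < l → r' l = r l) : ∀ (n : ℕ) (t : ℝ), 0 ≤ t →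
      ((Finset.range (k + 1)).filter (fun l => r l + t < r' l)).card = n →
      sp6F k w G (R r) (fun l => min (r' l) (r l + t)) ≤ sp6F k w G (R r) r' := by
  intro n
  induction n using Nat.strong_induction_on with
  | _ n ih =>
  intro t ht hn
  set A := (Finset.range (k + 1)).filter (fun l => r l + t < r' l) with hA
  rcases A.eq_empty_or_nonempty with he | hne
  · have e1 : (fun l => min (r' l) (r l + t)) = r' := by
      funext l
      refine min_eq_left ?_
      by_cases hl : l ≤ k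
      · by_contra hcon
        have : l ∈ A := Finset.mem_filter.2 ⟨Finset.mem_range.2 (Nat.lt_succ_of_le hl),
          not_le.1 hcon⟩
        rw [he] at this
        exact absurd this (Finset.notMem_empty l)
      · rw [hb l (not_le.1 hl)]; linarith
    rw [e1]
  · obtain ⟨l0, hl0, hmin⟩ := Finset.exists_min_image A (fun l => r' l - r l - t) hne
    set c := r' l0 - r l0 - t with hc
    have hc0 : 0 < c := by
      have := (Finset.mem_filter.1 hl0).2
      rw [hc]; linarith
    have hX : ∀ s ∈ Icc 0 c, (fun l => min (r' l) (r l + t) + s * (if l ∈ A then (1 : ℝ) else 0)) =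
        (fun l => min (r' l) (r l + (t + s))) := by
      intro s hs
      funext l
      by_cases hl : l ∈ A
      · have h1 := hmin l hl
        have h2 := hs.2
        rw [if_pos hl, min_eq_right (by linarith [hs.1]), min_eq_right (by linarith)]
        ring
      · rw [if_neg hl, mul_zero, add_zero]
        have h1 : r' l ≤ r l + t := by
          by_cases hlk : l ≤ k
          · by_contra hcon
            exact hl (Finset.mem_filter.2 ⟨Finset.mem_range.2 (Nat.lt_succ_of_le hlk),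
              not_le.1 hcon⟩)
          · rw [hb l (not_le.1 hlk)]; linarith
        rw [min_eq_left h1, min_eq_left (by linarith [hs.1])]
    have hseg := sp6_seg H (x := fun l => min (r' l) (r l + t))
      (η := fun l => if l ∈ A then (1 : ℝ) else 0) hc0
      (fun s hs => by
        rw [hX s hs]
        exact sp6_min hr hr' (by linarith [hs.1])) (R r)
      (fun s hs l hl => by
        by_cases hlA : l ∈ A
        · rw [if_pos hlA, one_mul, hX s ⟨hs.1.le, hs.2.le⟩, sub_nonneg]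
          have h1 := hmin l hlA
          have h2 : 0 ≤ t + s := by linarith [hs.1]
          have h3 := H.hdiag r (t + s) l hr h2 hl
          refine h3.trans (sp6_comp H (sp6_min hr hr' h2) (sp6_shift hr h2)
            (fun j _ => min_le_right _ _) hl ?_)
          exact min_eq_right (by linarith [hs.2])
        · rw [if_neg hlA, zero_mul])
    rw [hX c ⟨hc0.le, le_refl c⟩] at hseg
    refine hseg.trans (ih _ ?_ (t + c) (by linarith) rfl)
    rw [← hn]
    refine Finset.card_lt_card ?_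
    rw [Finset.ssubset_iff_of_subset]
    · refine ⟨l0, hl0, fun h => ?_⟩
      have := (Finset.mem_filter.1 h).2
      rw [hc] at this
      linarith
    · intro l hl
      have h1 := Finset.mem_filter.1 hl
      exact Finset.mem_filter.2 ⟨h1.1, by linarith [h1.2]⟩

theorem sp6_down (H : Sp6H k w G R) {r y : ℕ → ℝ} (hr : SPath k r) (hy : SPath k y)
    (hb : ∀ l, k < l → y l = r l) : ∀ (n : ℕ) (t : ℝ), 0 ≤ t →
      ((Finset.range (k + 1)).filter (fun l => y l < r l - t)).card = n →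
      sp6F k w G (R r) (fun l => max (y l) (r l - t)) ≤ sp6F k w G (R r) y := by
  intro n
  induction n using Nat.strong_induction_on with
  | _ n ih =>
  intro t ht hn
  set A := (Finset.range (k + 1)).filter (fun l => y l < r l - t) with hA
  rcases A.eq_empty_or_nonempty with he | hne
  · have e1 : (fun l => max (y l) (r l - t)) = y := by
      funext l
      refine max_eq_left ?_
      by_cases hl : l ≤ k
      · by_contra hcon
        have : l ∈ A := Finset.mem_filter.2 ⟨Finset.mem_range.2 (Nat.lt_succ_of_le hl),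
          not_le.1 hcon⟩
        rw [he] at this
        exact absurd this (Finset.notMem_empty l)
      · rw [hb l (not_le.1 hl)]; linarith
    rw [e1]
  · obtain ⟨l0, hl0, hmin⟩ := Finset.exists_min_image A (fun l => r l - t - y l) hne
    set c := r l0 - t - y l0 with hc
    have hc0 : 0 < c := by
      have := (Finset.mem_filter.1 hl0).2
      rw [hc]; linarith
    have hX : ∀ s ∈ Icc 0 c, (fun l => max (y l) (r l - t) + s * (if l ∈ A then (-1 : ℝ) else 0)) =
        (fun l => max (y l) (r l - (t + s))) := by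
      intro s hs
      funext l
      by_cases hl : l ∈ A
      · have h1 := hmin l hl
        have h2 := hs.2
        rw [if_pos hl, max_eq_right (by linarith [hs.1]), max_eq_right (by linarith)]
        ring
      · rw [if_neg hl, mul_zero, add_zero]
        have h1 : r l - t ≤ y l := by
          by_cases hlk : l ≤ k
          · by_contra hcon
            exact hl (Finset.mem_filter.2 ⟨Finset.mem_range.2 (Nat.lt_succ_of_le hlk),
              not_le.1 hcon⟩)
          · rw [hb l (not_le.1 hlk)]; linarith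
        rw [max_eq_left h1, max_eq_left (by linarith [hs.1])]
    have hseg := sp6_seg H (x := fun l => max (y l) (r l - t))
      (η := fun l => if l ∈ A then (-1 : ℝ) else 0) hc0
      (fun s hs => by
        rw [hX s hs]
        exact sp6_max hr hy) (R r)
      (fun s hs l hl => by
        by_cases hlA : l ∈ A
        · rw [if_pos hlA, hX s ⟨hs.1.le, hs.2.le⟩]
          have h1 := hmin l hlA
          have h2 : 0 ≤ t + s := by linarith [hs.1]
          have h3 := H.hdiag (fun l => max (y l) (r l - (t + s))) (t + s) l (sp6_max hr hy) h2 hl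
          have h4 := sp6_comp H hr (sp6_shift (sp6_max hr hy (t := t + s)) h2)
            (fun j _ => by
              have := le_max_right (y j) (r j - (t + s))
              linarith) hl
            (by
              rw [max_eq_right (by linarith [hs.2])]
              ring)
          linarith
        · rw [if_neg hlA, zero_mul])
    rw [hX c ⟨hc0.le, le_refl c⟩] at hseg
    refine hseg.trans (ih _ ?_ (t + c) (by linarith) rfl)
    rw [← hn]
    refine Finset.card_lt_card ?_
    rw [Finset.ssubset_iff_of_subset]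
    · refine ⟨l0, hl0, fun h => ?_⟩
      have := (Finset.mem_filter.1 h).2
      rw [hc] at this
      linarith
    · intro l hl
      have h1 := Finset.mem_filter.1 hl
      exact Finset.mem_filter.2 ⟨h1.1, by linarith [h1.2]⟩

theorem sp6_strict (H : Sp6H k w G R) {r r' : ℕ → ℝ} (hr : SPath k r) (hr' : SPath k r')
    (hb : ∀ l, k < l → r' l = r l) :
    G r' ≤ G r - 1 / 2 * ∑ l ∈ Finset.range (k + 1), w l * R r l * (r' l - r l) := by
  have h1 := sp6_up H hr hr' hb _ 0 (le_refl 0) rfl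
  have hy : SPath k (fun l => min (r' l) (r l + 0)) := sp6_min hr hr' (le_refl 0)
  have h2 := sp6_down H hr hy (fun l hl => by
    rw [hb l hl, add_zero, min_self]) _ 0 (le_refl 0) rfl
  have e1 : (fun l => max (min (r' l) (r l + 0)) (r l - 0)) = r := by
    funext l
    rw [add_zero, sub_zero, max_eq_right (min_le_right _ _)]
  rw [e1] at h2
  have h3 := h2.trans h1
  unfold sp6F at h3
  have e2 : ∑ l ∈ Finset.range (k + 1), w l * R r l * (r' l - r l) =
      ∑ l ∈ Finset.range (k + 1), w l * R r l * r' l -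
        ∑ l ∈ Finset.range (k + 1), w l * R r l * r l := by
    rw [← Finset.sum_sub_distrib]
    exact Finset.sum_congr rfl (fun l _ => by ring)
  rw [e2]
  linarith

theorem lnat_tangent {k : ℕ} {w : ℕ → ℝ} (hw : ∀ l ≤ k, 0 < w l) (G : (ℕ → ℝ) → ℝ)
    (R : (ℕ → ℝ) → ℕ → ℝ)
    (hder : ∀ (r η : ℕ → ℝ) (a : ℝ), 0 < a →
      (∀ s ∈ Set.Ico 0 a, SPath k (fun l => r l + s * η l)) → Path k (fun l => r l + a * η l) →
      ContinuousOn (fun s => G (fun l => r l + s * η l)) (Set.Icc 0 a) ∧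
      (∀ s ∈ Set.Ioo 0 a, HasDerivAt (fun s => G (fun l => r l + s * η l))
        (-(1 / 2) * ∑ l ∈ Finset.range (k + 1), w l * η l *
          R (fun l => r l + s * η l) l) s) ∧
      ∀ j ≤ k, ContinuousOn (fun s => R (fun l => r l + s * η l) j) (Set.Icc 0 a))
    (hanti : ∀ (r : ℕ → ℝ) (i j : ℕ) (s : ℝ), SPath k r → i < j → j ≤ k → 0 ≤ s →
      SPath k (Function.update r j (r j + s)) → R (Function.update r j (r j + s)) i ≤ R r i)
    (hdiag : ∀ (r : ℕ → ℝ) (c : ℝ) (j : ℕ), SPath k r → 0 ≤ c → j ≤ k →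
      R r j ≤ R (fun l => r l + c) j)
    {r r' : ℕ → ℝ} (hr : SPath k r) (hr' : Path k r') :
    G r' ≤ G r - 1 / 2 * ∑ l ∈ Finset.range (k + 1), w l * R r l * (r' l - r l) := by
  have H : Sp6H k w G R := ⟨hw, hder, hanti, hdiag⟩
  have e1 : (fun l => r l + 1 * (r' l - r l)) = r' := by
    funext l; ring
  obtain ⟨hc, -, -⟩ := hder r (fun l => r' l - r l) 1 one_pos
    (fun s hs => sp6_conv hr hr' hs.1 hs.2) (by rw [e1]; exact hr')
  have hS : ∀ s ∈ Ico (0 : ℝ) 1, G (fun l => r l + s * (r' l - r l)) ≤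
      G r - 1 / 2 * (s * ∑ l ∈ Finset.range (k + 1), w l * R r l * (r' l - r l)) := by
    intro s hs
    have h1 := sp6_conv hr hr' hs.1 hs.2
    have h2 : ∀ l ≤ k, (fun l => r l + s * (r' l - r l)) l =
        (fun l => if l ≤ k then r l + s * (r' l - r l) else r l) l := by
      intro l hl
      exact (if_pos hl).symm
    have h3 := sp6_strict H hr (sp6_congr h1 h2) (fun l hl => if_neg (not_le.2 hl))
    rw [sp6_indepG H h1 h2]
    have h4 : ∑ l ∈ Finset.range (k + 1), w l * R r l *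
        ((if l ≤ k then r l + s * (r' l - r l) else r l) - r l) =
        s * ∑ l ∈ Finset.range (k + 1), w l * R r l * (r' l - r l) := by
      rw [Finset.mul_sum]
      refine Finset.sum_congr rfl (fun l hl => ?_)
      rw [if_pos (Nat.lt_succ_iff.1 (Finset.mem_range.1 hl))]
      ring
    rw [← h4]
    exact h3
  have h5 : Tendsto (fun s => G (fun l => r l + s * (r' l - r l))) (𝓝[Ico 0 1] 1) (𝓝 (G r')) := by
    have h6 := (hc 1 ⟨zero_le_one, le_refl 1⟩).mono Ico_subset_Icc_self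
    have h7 : Tendsto (fun s => G (fun l => r l + s * (r' l - r l))) (𝓝[Ico 0 1] 1)
      (𝓝 (G (fun l => r l + 1 * (r' l - r l)))) := h6
    rwa [e1] at h7
  have h8 : Tendsto (fun s : ℝ => G r - 1 / 2 * (s * ∑ l ∈ Finset.range (k + 1),
      w l * R r l * (r' l - r l))) (𝓝[Ico 0 1] 1)
      (𝓝 (G r - 1 / 2 * (1 * ∑ l ∈ Finset.range (k + 1), w l * R r l * (r' l - r l)))) := by
    have h9 : Continuous (fun s : ℝ => G r - 1 / 2 * (s * ∑ l ∈ Finset.range (k + 1),
      w l * R r l * (r' l - r l))) := by fun_prop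
    exact (h9.tendsto 1).mono_left nhdsWithin_le_nhds
  rw [one_mul] at h8
  have : (𝓝[Ico (0 : ℝ) 1] 1).NeBot := by
    rw [← mem_closure_iff_nhdsWithin_neBot, closure_Ico zero_ne_one]
    exact ⟨zero_le_one, le_refl 1⟩
  exact le_of_tendsto_of_tendsto h5 h8 (eventually_nhdsWithin_of_forall hS)

end Vale.Agent.P157.Par
end
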