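import Vale.Agent.P146.Bdl.B13
import Vale.Agent.P146.Bdl.B21
import Vale.Agent.P146.Bdl.B9
import Vale.Agent.P146.Bdl.B6
import Vale.Agent.P146.Bdl.B15
import Vale.Agent.P146.Bdl.B5
import Vale.Agent.P146.Bdl.B18

set_option linter.all false

section

/-!
# P146 / Gap: overlaps along the first block
-/

open MeasureTheory ProbabilityTheory Filter Topology Set

namespace Vale.Agent.P146.Gap

open Vale.Agent.P157.Par

section FIRST

variable {C g s₁ : ℝ} {F : ℝ → ℝ}

/-! ### bounded continuous functions of the two variables -/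

/-- bounded and continuous -/
def first_Bc (q : ℝ → ℝ → ℝ) : Prop :=
  Continuous (fun p : ℝ × ℝ => q p.1 p.2) ∧ ∃ B, ∀ s x, |q s x| ≤ B

lemma first_Bc.const (c : ℝ) : first_Bc (fun _ _ => c) :=
  ⟨continuous_const, |c|, fun _ _ => le_rfl⟩

lemma first_Bc.add {p q : ℝ → ℝ → ℝ} (hp : first_Bc p) (hq : first_Bc q) :
    first_Bc (fun s x => p s x + q s x) := by
  obtain ⟨c1, B1, b1⟩ := hp
  obtain ⟨c2, B2, b2⟩ := hq
  exact ⟨c1.add c2, B1 + B2, fun s x => (abs_add_le _ _).trans (add_le_add (b1 s x) (b2 s x))⟩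

lemma first_Bc.mul {p q : ℝ → ℝ → ℝ} (hp : first_Bc p) (hq : first_Bc q) :
    first_Bc (fun s x => p s x * q s x) := by
  obtain ⟨c1, B1, b1⟩ := hp
  obtain ⟨c2, B2, b2⟩ := hq
  refine ⟨c1.mul c2, B1 * B2, fun s x => ?_⟩
  rw [abs_mul]
  exact mul_le_mul (b1 s x) (b2 s x) (abs_nonneg _) ((abs_nonneg _).trans (b1 s x))

lemma first_Bc.smul {p : ℝ → ℝ → ℝ} (c : ℝ) (hp : first_Bc p) :
    first_Bc (fun s x => c * p s x) := (first_Bc.const c).mul hp

lemma first_Bc.slice {p : ℝ → ℝ → ℝ} (hp : first_Bc p) (s : ℝ) : Continuous (p s) :=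
  hp.1.comp (Continuous.prodMk_right s)

/-- the jets of the step at distance `s₁ - τ` -/
noncomputable def first_f (g s₁ : ℝ) (F : ℝ → ℝ) (j : ℕ) (τ x : ℝ) : ℝ := fj g F j (s₁ - τ) x

lemma first_f_bc (h : Adm C F) (hg : 0 < g) (s₁ : ℝ) (j : ℕ) :
    first_Bc (first_f g s₁ F (j + 1)) := by
  obtain ⟨B, hB⟩ := fj_bd h.smb hg j
  refine ⟨?_, B, fun s x => hB (s₁ - s) x⟩
  have h1 := fj_cont h.smb hg (j + 1)
  have h2 : Continuous fun p : ℝ × ℝ => (s₁ - p.1, p.2) := by fun_prop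
  have e : (fun p : ℝ × ℝ => first_f g s₁ F (j + 1) p.1 p.2) =
      (fun p : ℝ × ℝ => fj g F (j + 1) p.1 p.2) ∘ (fun p : ℝ × ℝ => (s₁ - p.1, p.2)) := rfl
  rw [e]
  exact h1.comp h2

lemma first_f_cont (h : Adm C F) (hg : 0 < g) (s₁ : ℝ) (j : ℕ) :
    Continuous (fun p : ℝ × ℝ => first_f g s₁ F j p.1 p.2) := by
  have h1 := fj_cont h.smb hg j
  have h2 : Continuous fun p : ℝ × ℝ => (s₁ - p.1, p.2) := by fun_prop
  have e : (fun p : ℝ × ℝ => first_f g s₁ F j p.1 p.2) =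
      (fun p : ℝ × ℝ => fj g F j p.1 p.2) ∘ (fun p : ℝ × ℝ => (s₁ - p.1, p.2)) := rfl
  rw [e]
  exact h1.comp h2

lemma first_f_x (h : Adm C F) (hg : 0 < g) (s₁ : ℝ) (j : ℕ) (τ x : ℝ) :
    HasDerivAt (first_f g s₁ F j τ) (first_f g s₁ F (j + 1) τ x) x :=
  fj_x h.smb hg j (s₁ - τ) x

lemma first_comp {f : ℝ → ℝ} {f' τ : ℝ} (h : HasDerivAt f f' (s₁ - τ)) :
    HasDerivAt (fun τ => f (s₁ - τ)) (-f') τ := by
  have h1 : HasDerivAt (fun τ : ℝ => s₁ - τ) (-1) τ := by
    simpa using (hasDerivAt_id τ).const_sub s₁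
  have := h.comp τ h1
  rw [mul_neg_one] at this
  exact this

lemma first_f_zero (g s₁ : ℝ) (F : ℝ → ℝ) (τ : ℝ) :
    first_f g s₁ F 0 τ = gstep g (s₁ - τ) F := by
  unfold first_f fj
  rw [iteratedDeriv_zero]

/-- the family of the log-weights -/
lemma first_fam (h : Adm C F) (hg : 0 < g) (s₁ : ℝ) :
    Fam 0 s₁ (first_f g s₁ F 0) (first_f g s₁ F 1) (first_f g s₁ F 2)
      (fun τ x => -(1 / 2 * (first_f g s₁ F 2 τ x + g * first_f g s₁ F 1 τ x ^ 2))) := by
  have b1 := first_f_bc h hg s₁ 0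
  have b2 := first_f_bc h hg s₁ 1
  have bs : first_Bc (fun τ x => -(1 / 2 * (first_f g s₁ F 2 τ x +
      g * first_f g s₁ F 1 τ x ^ 2))) := by
    have := ((b2.add ((b1.mul b1).smul g)).smul (1 / 2)).smul (-1)
    convert this using 3
    ring
  refine ⟨fun s _ x => first_f_x h hg s₁ 0 s x, fun s _ x => first_f_x h hg s₁ 1 s x,
    fun s hs x => ?_, (first_f_cont h hg s₁ 0).continuousOn, b1.1.continuousOn,
    b2.1.continuousOn, bs.1.continuousOn, ?_, ?_, ?_⟩
  · exact first_comp (fj_s0 h.smb hg (s := s₁ - s) (by linarith [hs.2]) x)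
  · obtain ⟨B, hB⟩ := b1.2; exact ⟨B, fun s _ x => hB s x⟩
  · obtain ⟨B, hB⟩ := b2.2; exact ⟨B, fun s _ x => hB s x⟩
  · obtain ⟨B, hB⟩ := bs.2; exact ⟨B, fun s _ x => hB s x⟩

/-! ### bounded families with their derivatives -/

/-- bounded family with its derivatives -/
structure first_P (T : ℝ) (p p1 p2 ps : ℝ → ℝ → ℝ) : Prop where
  d1 : ∀ s x, HasDerivAt (p s) (p1 s x) x
  d2 : ∀ s x, HasDerivAt (p1 s) (p2 s x) x
  ds : ∀ s ∈ Ioo 0 T, ∀ x, HasDerivAt (fun s => p s x) (ps s x) s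
  b0 : first_Bc p
  b1 : first_Bc p1
  b2 : first_Bc p2
  bs : first_Bc ps

lemma first_P.const (T c : ℝ) : first_P T (fun _ _ => c) (fun _ _ => 0) (fun _ _ => 0)
    (fun _ _ => 0) :=
  ⟨fun _ x => hasDerivAt_const x c, fun _ x => hasDerivAt_const x 0,
    fun s _ _ => hasDerivAt_const s c, .const _, .const _, .const _, .const _⟩

lemma first_P.add {T : ℝ} {p p1 p2 ps q q1 q2 qs : ℝ → ℝ → ℝ} (hp : first_P T p p1 p2 ps)
    (hq : first_P T q q1 q2 qs) : first_P T (fun s x => p s x + q s x)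
      (fun s x => p1 s x + q1 s x) (fun s x => p2 s x + q2 s x) (fun s x => ps s x + qs s x) :=
  ⟨fun s x => (hp.d1 s x).add (hq.d1 s x), fun s x => (hp.d2 s x).add (hq.d2 s x),
    fun s hs x => (hp.ds s hs x).add (hq.ds s hs x), hp.b0.add hq.b0, hp.b1.add hq.b1,
    hp.b2.add hq.b2, hp.bs.add hq.bs⟩

lemma first_P.mul {T : ℝ} {p p1 p2 ps q q1 q2 qs : ℝ → ℝ → ℝ} (hp : first_P T p p1 p2 ps)
    (hq : first_P T q q1 q2 qs) : first_P T (fun s x => p s x * q s x)
      (fun s x => p1 s x * q s x + p s x * q1 s x)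
      (fun s x => (p2 s x * q s x + p1 s x * q1 s x) + (p1 s x * q1 s x + p s x * q2 s x))
      (fun s x => ps s x * q s x + p s x * qs s x) :=
  ⟨fun s x => (hp.d1 s x).mul (hq.d1 s x),
    fun s x => ((hp.d2 s x).mul (hq.d1 s x)).add ((hp.d1 s x).mul (hq.d2 s x)),
    fun s hs x => (hp.ds s hs x).mul (hq.ds s hs x), hp.b0.mul hq.b0,
    (hp.b1.mul hq.b0).add (hp.b0.mul hq.b1),
    ((hp.b2.mul hq.b0).add (hp.b1.mul hq.b1)).add ((hp.b1.mul hq.b1).add (hp.b0.mul hq.b2)),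
    (hp.bs.mul hq.b0).add (hp.b0.mul hq.bs)⟩

lemma first_P.congr {T : ℝ} {p p1 p2 ps q q1 q2 qs : ℝ → ℝ → ℝ} (hp : first_P T p p1 p2 ps)
    (h0 : ∀ s x, p s x = q s x) (h1 : ∀ s x, p1 s x = q1 s x) (h2 : ∀ s x, p2 s x = q2 s x)
    (hs : ∀ s x, ps s x = qs s x) : first_P T q q1 q2 qs := by
  have e0 : p = q := by funext s x; exact h0 s x
  have e1 : p1 = q1 := by funext s x; exact h1 s x
  have e2 : p2 = q2 := by funext s x; exact h2 s x
  have es : ps = qs := by funext s x; exact hs s x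
  subst e0; subst e1; subst e2; subst es
  exact hp

lemma first_P1 (h : Adm C F) (hg : 0 < g) (s₁ : ℝ) :
    first_P s₁ (first_f g s₁ F 1) (first_f g s₁ F 2) (first_f g s₁ F 3)
      (fun s x => -(1 / 2 * first_f g s₁ F 3 s x
        + g * (first_f g s₁ F 1 s x * first_f g s₁ F 2 s x))) := by
  have b1 := first_f_bc h hg s₁ 0
  have b2 := first_f_bc h hg s₁ 1
  have b3 := first_f_bc h hg s₁ 2
  refine ⟨fun s x => first_f_x h hg s₁ 1 s x, fun s x => first_f_x h hg s₁ 2 s x,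
    fun s hs x => first_comp (fj_s1 h.smb hg (s := s₁ - s) (by linarith [hs.2]) x),
    b1, b2, b3, ?_⟩
  have := ((b3.smul (1 / 2)).add ((b1.mul b2).smul g)).smul (-1)
  convert this using 3
  ring

lemma first_P2 (h : Adm C F) (hg : 0 < g) (s₁ : ℝ) :
    first_P s₁ (first_f g s₁ F 2) (first_f g s₁ F 3) (first_f g s₁ F 4)
      (fun s x => -(1 / 2 * first_f g s₁ F 4 s x
        + g * (first_f g s₁ F 2 s x ^ 2 + first_f g s₁ F 1 s x * first_f g s₁ F 3 s x))) := by
  have b1 := first_f_bc h hg s₁ 0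
  have b2 := first_f_bc h hg s₁ 1
  have b3 := first_f_bc h hg s₁ 2
  have b4 := first_f_bc h hg s₁ 3
  refine ⟨fun s x => first_f_x h hg s₁ 2 s x, fun s x => first_f_x h hg s₁ 3 s x,
    fun s hs x => first_comp (fj_s2 h.smb hg (s := s₁ - s) (by linarith [hs.2]) x),
    b2, b3, b4, ?_⟩
  have := ((b4.smul (1 / 2)).add (((b2.mul b2).add (b1.mul b3)).smul g)).smul (-1)
  convert this using 3
  ring

lemma first_P3 (h : Adm C F) (hg : 0 < g) (s₁ : ℝ) :
    first_P s₁ (first_f g s₁ F 3) (first_f g s₁ F 4) (first_f g s₁ F 5)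
      (fun s x => -(1 / 2 * first_f g s₁ F 5 s x
        + g * (3 * first_f g s₁ F 2 s x * first_f g s₁ F 3 s x
          + first_f g s₁ F 1 s x * first_f g s₁ F 4 s x))) := by
  have b1 := first_f_bc h hg s₁ 0
  have b2 := first_f_bc h hg s₁ 1
  have b3 := first_f_bc h hg s₁ 2
  have b4 := first_f_bc h hg s₁ 3
  have b5 := first_f_bc h hg s₁ 4
  refine ⟨fun s x => first_f_x h hg s₁ 3 s x, fun s x => first_f_x h hg s₁ 4 s x,
    fun s hs x => first_comp (fj_s3 h.smb hg (s := s₁ - s) (by linarith [hs.2]) x),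
    b3, b4, b5, ?_⟩
  have := ((b5.smul (1 / 2)).add ((((b2.mul b3).smul 3).add (b1.mul b4)).smul g)).smul (-1)
  convert this using 3
  ring

/-! ### the derivative of tilted averages -/

/-- the unnormalised tilted average -/
noncomputable def first_N (g s₁ : ℝ) (F : ℝ → ℝ) (p : ℝ → ℝ → ℝ) (τ : ℝ) : ℝ :=
  ∫ z, p τ (0 + √τ * z) * Real.exp (g * first_f g s₁ F 0 τ (0 + √τ * z)) ∂(gaussianReal 0 1)

lemma first_N_deriv (h : Adm C F) (hg : 0 < g) {p p1 p2 ps : ℝ → ℝ → ℝ}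
    (hp : first_P s₁ p p1 p2 ps) {τ : ℝ} (hτ : τ ∈ Ioo 0 s₁) :
    HasDerivAt (first_N g s₁ F p) (first_N g s₁ F (fun s x => ps s x + 1 / 2 * p2 s x
      + g * first_f g s₁ F 1 s x * p1 s x) τ) τ := by
  have hf := first_fam h hg s₁
  have b1 := first_f_bc h hg s₁ 0
  have b2 := first_f_bc h hg s₁ 1
  have hI : Ioo 0 s₁ ⊆ Icc 0 s₁ := Ioo_subset_Icc_self
  -- multipliers
  have m1 : first_Bc (fun s x => p1 s x + g * (first_f g s₁ F 1 s x * p s x)) :=
    hp.b1.add ((b1.mul hp.b0).smul g)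
  have m2 : first_Bc (fun s x => p2 s x + g * (2 * (first_f g s₁ F 1 s x * p1 s x)
      + first_f g s₁ F 2 s x * p s x + g * ((first_f g s₁ F 1 s x * first_f g s₁ F 1 s x)
        * p s x))) :=
    hp.b2.add ((((b1.mul hp.b1).smul 2).add (b2.mul hp.b0)).add
      (((b1.mul b1).mul hp.b0).smul g) |>.smul g)
  have ms : first_Bc (fun s x => ps s x + (-g / 2) * ((first_f g s₁ F 2 s x +
      g * (first_f g s₁ F 1 s x * first_f g s₁ F 1 s x)) * p s x)) :=
    hp.bs.add (((b2.add ((b1.mul b1).smul g)).mul hp.b0).smul (-g / 2))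
  have eb : ∀ {q : ℝ → ℝ → ℝ}, first_Bc q → sp2_EB (Icc 0 s₁)
      (fun s x => q s x * Real.exp (g * first_f g s₁ F 0 s x)) := by
    rintro q ⟨-, B, hB⟩
    exact (sp2_EB_of_bdd fun s _ x => hB s x).mul (hf.sp2_ebd_exp g)
  have ce : ∀ {q : ℝ → ℝ → ℝ}, first_Bc q → ContinuousOn (fun r : ℝ × ℝ => q r.1 r.2 *
      Real.exp (g * first_f g s₁ F 0 r.1 r.2)) (Icc 0 s₁ ×ˢ univ) := fun hq =>
    hq.1.continuousOn.mul (hf.sp2_cexp g)
  have hder := sp2_deriv (a := 0) (b := s₁)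
    (G := fun s x => p s x * Real.exp (g * first_f g s₁ F 0 s x))
    (G1 := fun s x => (p1 s x + g * (first_f g s₁ F 1 s x * p s x)) *
      Real.exp (g * first_f g s₁ F 0 s x))
    (G2 := fun s x => (p2 s x + g * (2 * (first_f g s₁ F 1 s x * p1 s x)
      + first_f g s₁ F 2 s x * p s x + g * ((first_f g s₁ F 1 s x * first_f g s₁ F 1 s x)
        * p s x))) * Real.exp (g * first_f g s₁ F 0 s x))
    (Gs := fun s x => (ps s x + (-g / 2) * ((first_f g s₁ F 2 s x +
      g * (first_f g s₁ F 1 s x * first_f g s₁ F 1 s x)) * p s x)) *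
      Real.exp (g * first_f g s₁ F 0 s x)) (v₀ := 0) (d := 1)
    (fun s hs x => by
      refine ((hp.d1 s x).mul ((hf.d1 s hs x).const_mul g).exp).congr_deriv ?_
      ring)
    (fun s hs x => by
      refine (((hp.d2 s x).add (((hf.d2 s hs x).mul (hp.d1 s x)).const_mul g)).mul
        ((hf.d1 s hs x).const_mul g).exp).congr_deriv ?_
      simp only [Pi.add_apply, Pi.mul_apply]
      ring)
    (fun s hs x => by
      refine ((hp.ds s hs x).mul ((hf.ds s hs x).const_mul g).exp).congr_deriv ?_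
      ring)
    (ce hp.b0) (ce m1) (ce m2) ((ce ms).mono (prod_mono hI subset_rfl))
    (eb hp.b0) (eb m1) (eb m2) ((eb ms).mono hI)
    (fun s hs => by linarith [hs.1]) hτ 0
  simp only [zero_add, mul_one] at hder
  unfold first_N
  simp only [zero_add]
  refine hder.congr_deriv ?_
  refine integral_congr_ae (Eventually.of_forall fun z => ?_)
  simp only []
  ring

lemma first_N_pos (h : Adm C F) (hg : 0 < g) {τ : ℝ} (hτ : τ ∈ Icc 0 s₁) :
    0 < first_N g s₁ F (fun _ _ => 1) τ := by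
  obtain ⟨L, B, -, -, hsm⟩ := (first_fam h hg s₁).sp2_sm
  have := (hsm τ hτ).int_exp_pos g τ 0
  simpa [first_N] using this

lemma first_tlt_eq (p : ℝ → ℝ → ℝ) (τ : ℝ) :
    tlt g τ (gstep g (s₁ - τ) F) (p τ) 0 =
      first_N g s₁ F p τ / first_N g s₁ F (fun _ _ => 1) τ := by
  unfold tlt first_N
  rw [first_f_zero]
  simp only [one_mul]

lemma first_tlt_deriv (h : Adm C F) (hg : 0 < g) {p p1 p2 ps : ℝ → ℝ → ℝ}
    (hp : first_P s₁ p p1 p2 ps) {τ : ℝ} (hτ : τ ∈ Ioo 0 s₁) :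
    HasDerivAt (fun τ => tlt g τ (gstep g (s₁ - τ) F) (p τ) 0)
      (tlt g τ (gstep g (s₁ - τ) F) (fun x => ps τ x + 1 / 2 * p2 τ x
        + g * first_f g s₁ F 1 τ x * p1 τ x) 0) τ := by
  have h1 := first_N_deriv h hg hp hτ
  have h2 := first_N_deriv h hg (first_P.const s₁ 1) hτ
  have h3 := first_N_pos h hg (Ioo_subset_Icc_self hτ)
  have h4 : first_N g s₁ F (fun s x => (0 : ℝ) + 1 / 2 * 0 + g * first_f g s₁ F 1 s x * 0) τ
      = 0 := by
    unfold first_N
    simp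
  rw [h4] at h2
  have h5 := h1.div h2 h3.ne'
  have e : (fun τ => tlt g τ (gstep g (s₁ - τ) F) (p τ) 0) =
      first_N g s₁ F p / first_N g s₁ F (fun _ _ => 1) := by
    funext τ
    exact first_tlt_eq p τ
  rw [e]
  refine h5.congr_deriv ?_
  rw [first_tlt_eq (fun s x => ps s x + 1 / 2 * p2 s x + g * first_f g s₁ F 1 s x * p1 s x),
    mul_zero, sub_zero, sq, mul_div_mul_right _ _ h3.ne']

lemma first_tlt_cont (h : Adm C F) (hg : 0 < g) {p : ℝ → ℝ → ℝ} (hp : first_Bc p) (g' : ℝ) :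
    ContinuousOn (fun τ => tlt g' τ (gstep g (s₁ - τ) F) (p τ) 0) (Icc 0 s₁) := by
  obtain ⟨hc, B, hB⟩ := hp
  have h1 := (first_fam h hg s₁).tlt_cont hc.continuousOn (fun s _ x => hB s x) g' 0 1
  have h2 := h1.comp (f := fun s : ℝ => ((s, (0 : ℝ)) : ℝ × ℝ)) (s := Icc 0 s₁) (by fun_prop)
    (fun s hs => ⟨hs, mem_univ _⟩)
  simp only [Function.comp_def, zero_add, mul_one, first_f_zero] at h2
  exact h2

lemma first_Rf_eq (g' g s₁ : ℝ) (F : ℝ → ℝ) : Rf g' g s₁ F =
    fun τ => tlt g' τ (gstep g (s₁ - τ) F)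
      (fun x => first_f g s₁ F 1 τ x * first_f g s₁ F 1 τ x) 0 := by
  funext τ
  unfold Rf
  congr 1
  funext y
  rw [sq]
  rfl

lemma first_Mf_eq (g s₁ : ℝ) (F : ℝ → ℝ) : Mf g s₁ F =
    fun τ => tlt g τ (gstep g (s₁ - τ) F)
      (fun x => first_f g s₁ F 2 τ x * first_f g s₁ F 2 τ x) 0 := by
  funext τ
  unfold Mf
  congr 1
  funext y
  rw [sq]
  rfl

lemma first_M1f_eq (g s₁ : ℝ) (F : ℝ → ℝ) : M1f g s₁ F =
    fun τ => tlt g τ (gstep g (s₁ - τ) F)
      (fun x => first_f g s₁ F 3 τ x * first_f g s₁ F 3 τ x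
        + -(2 * g) * (first_f g s₁ F 2 τ x * (first_f g s₁ F 2 τ x * first_f g s₁ F 2 τ x))) 0 := by
  funext τ
  unfold M1f
  congr 1
  funext y
  change first_f g s₁ F 3 τ y ^ 2 - 2 * g * first_f g s₁ F 2 τ y ^ 3 = _
  ring

theorem Rf_hasDerivAt (h : Adm C F) (hg : 0 < g) (hg1 : g ≤ 1) {τ : ℝ} (hτ : τ ∈ Ioo 0 s₁) :
    HasDerivAt (Rf g g s₁ F) (Mf g s₁ F τ) τ := by
  have hp := (first_P1 h hg s₁).mul (first_P1 h hg s₁)
  rw [first_Rf_eq]
  refine (first_tlt_deriv h hg hp hτ).congr_deriv ?_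
  rw [first_Mf_eq]
  congr 1
  funext y
  ring

theorem Mf_hasDerivAt (h : Adm C F) (hg : 0 < g) (hg1 : g ≤ 1) {τ : ℝ} (hτ : τ ∈ Ioo 0 s₁) :
    HasDerivAt (Mf g s₁ F) (M1f g s₁ F τ) τ := by
  have hp := (first_P2 h hg s₁).mul (first_P2 h hg s₁)
  rw [first_Mf_eq]
  refine (first_tlt_deriv h hg hp hτ).congr_deriv ?_
  rw [first_M1f_eq]
  congr 1
  funext y
  ring

theorem M1f_hasDerivAt (h : Adm C F) (hg : 0 < g) (hg1 : g ≤ 1) {τ : ℝ} (hτ : τ ∈ Ioo 0 s₁) :
    HasDerivAt (M1f g s₁ F) (M2f g s₁ F τ) τ := by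
  have h2 := first_P2 h hg s₁
  have h3 := first_P3 h hg s₁
  have hp := (h3.mul h3).add ((first_P.const s₁ (-(2 * g))).mul (h2.mul (h2.mul h2)))
  rw [first_M1f_eq]
  refine (first_tlt_deriv h hg hp hτ).congr_deriv ?_
  unfold M2f
  congr 1
  funext y
  change _ = first_f g s₁ F 4 τ y ^ 2 - 12 * g * first_f g s₁ F 2 τ y
    * first_f g s₁ F 3 τ y ^ 2 + 6 * g ^ 2 * first_f g s₁ F 2 τ y ^ 4
  ring

theorem Rf_cont (h : Adm C F) (hg : 0 < g) (hg1 : g ≤ 1) {g' : ℝ} (hg' : 0 < g') (hg'1 : g' ≤ 1) :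
    ContinuousOn (Rf g' g s₁ F) (Icc 0 s₁) := by
  have b1 := first_f_bc h hg s₁ 0
  rw [first_Rf_eq]
  exact first_tlt_cont (s₁ := s₁) h hg (b1.mul b1) g'

theorem Mf_cont (h : Adm C F) (hg : 0 < g) (hg1 : g ≤ 1) :
    ContinuousOn (Mf g s₁ F) (Icc 0 s₁) := by
  have b2 := first_f_bc h hg s₁ 1
  rw [first_Mf_eq]
  exact first_tlt_cont (s₁ := s₁) h hg (b2.mul b2) g

theorem M1f_cont (h : Adm C F) (hg : 0 < g) (hg1 : g ≤ 1) :
    ContinuousOn (M1f g s₁ F) (Icc 0 s₁) := by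
  have b2 := first_f_bc h hg s₁ 1
  have b3 := first_f_bc h hg s₁ 2
  rw [first_M1f_eq]
  exact first_tlt_cont (s₁ := s₁) h hg
    ((b3.mul b3).add ((b2.mul (b2.mul b2)).smul (-(2 * g)))) g

/-! ### bounds -/

lemma first_sm (h : Adm C F) (hg : 0 < g) {τ : ℝ} (hτ : τ ∈ Icc 0 s₁) :
    ∃ L B : ℝ, Sm L B (gstep g (s₁ - τ) F) (first_f g s₁ F 1 τ) (first_f g s₁ F 2 τ) := by
  obtain ⟨L, B, -, -, hsm⟩ := (first_fam h hg s₁).sp2_sm
  have := hsm τ hτ
  rw [first_f_zero] at this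
  exact ⟨L, B, this⟩

lemma first_adm (h : Adm C F) (hg : 0 < g) (hg1 : g ≤ 1) {τ : ℝ} (hτ : τ ∈ Icc 0 s₁) :
    Adm (C * Real.exp (2 * g * (s₁ - τ))) (gstep g (s₁ - τ) F) :=
  h.step hg hg1 (by linarith [hτ.2])

lemma first_d1_zero (h : Adm C F) (hg : 0 < g) (hg1 : g ≤ 1) {τ : ℝ} (hτ : τ ∈ Icc 0 s₁) :
    first_f g s₁ F 1 τ 0 = 0 := by
  have h1 := (first_adm h hg hg1 hτ).even
  have h2 : HasDerivAt (gstep g (s₁ - τ) F) (first_f g s₁ F 1 τ 0) 0 := by
    have := first_f_x h hg s₁ 0 τ 0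
    rwa [first_f_zero] at this
  have h3 : HasDerivAt (fun x => gstep g (s₁ - τ) F (-x)) (-(first_f g s₁ F 1 τ 0)) 0 := by
    have h4 : HasDerivAt (gstep g (s₁ - τ) F) (first_f g s₁ F 1 τ 0) (-0) := by simpa using h2
    have := h4.comp 0 (hasDerivAt_neg (0 : ℝ))
    rw [mul_neg_one] at this
    exact this
  have h5 : (fun x => gstep g (s₁ - τ) F (-x)) = gstep g (s₁ - τ) F := funext h1
  rw [h5] at h3
  have := h3.unique h2
  linarith

lemma first_d1_sq (h : Adm C F) (hg : 0 < g) (hg1 : g ≤ 1) {τ : ℝ} (hτ : τ ∈ Icc 0 s₁) (x : ℝ) :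
    0 < first_f g s₁ F 2 τ x ∧ first_f g s₁ F 2 τ x + first_f g s₁ F 1 τ x ^ 2 ≤ 1 :=
  ⟨(first_adm h hg hg1 hτ).pos x, (first_adm h hg hg1 hτ).le1 x⟩

theorem Rf_zero (h : Adm C F) (hg : 0 < g) (hg1 : g ≤ 1) (g' : ℝ) (hs : 0 ≤ s₁) :
    Rf g' g s₁ F 0 = 0 := by
  rw [first_Rf_eq]
  simp only []
  rw [sp3_tlt_triv le_rfl, first_d1_zero h hg hg1 ⟨le_rfl, hs⟩, mul_zero]

theorem Mf_zero (h : Adm C F) (hg : 0 < g) (hg1 : g ≤ 1) (hs : 0 ≤ s₁) :
    Mf g s₁ F 0 = iteratedDeriv 2 (gstep g s₁ F) 0 ^ 2 := by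
  unfold Mf
  rw [sp3_tlt_triv le_rfl, sub_zero]

theorem M1f_le (h : Adm C F) (hg : 0 < g) (hg1 : g ≤ 1) {τ : ℝ} (hτ : τ ∈ Icc 0 s₁) :
    M1f g s₁ F τ ≤ (C * Real.exp (2 * s₁)) ^ 2 := by
  obtain ⟨L, B, hsm⟩ := first_sm h hg hτ
  have hA := first_adm h hg hg1 hτ
  have b2 := first_f_bc h hg s₁ 1
  have b3 := first_f_bc h hg s₁ 2
  have hb := (b3.mul b3).add ((b2.mul (b2.mul b2)).smul (-(2 * g)))
  obtain ⟨K, hK⟩ := hb.2
  rw [first_M1f_eq]
  have h1 := hsm.tlt_mono (g := fun x => first_f g s₁ F 3 τ x * first_f g s₁ F 3 τ x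
        + -(2 * g) * (first_f g s₁ F 2 τ x * (first_f g s₁ F 2 τ x * first_f g s₁ F 2 τ x)))
    (g' := fun _ => (C * Real.exp (2 * s₁)) ^ 2) (hb.slice τ) (hK τ) continuous_const
    (K' := |(C * Real.exp (2 * s₁)) ^ 2|) (fun _ => le_rfl) (fun x => ?_) g τ 0
  · rwa [hsm.tlt_const] at h1
  · obtain ⟨p1, p2⟩ := first_d1_sq h hg hg1 hτ x
    have p3 : |first_f g s₁ F 3 τ x| ≤ C * Real.exp (2 * g * (s₁ - τ)) * first_f g s₁ F 2 τ x :=
      hA.r3 x
    have hC := h.C_nonneg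
    have p4 : Real.exp (2 * g * (s₁ - τ)) ≤ Real.exp (2 * s₁) := by
      apply Real.exp_le_exp.2
      have := hτ.1
      have := hτ.2
      nlinarith
    have p5 : first_f g s₁ F 2 τ x ≤ 1 := by linarith only [sq_nonneg (first_f g s₁ F 1 τ x), p2]
    have p6 : |first_f g s₁ F 3 τ x| ≤ C * Real.exp (2 * s₁) := by
      refine p3.trans ?_
      calc C * Real.exp (2 * g * (s₁ - τ)) * first_f g s₁ F 2 τ x
          ≤ C * Real.exp (2 * s₁) * 1 := by
            apply mul_le_mul (mul_le_mul_of_nonneg_left p4 hC) p5 p1.le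
            have := Real.exp_pos (2 * s₁)
            positivity
        _ = _ := mul_one _
    have p7 : first_f g s₁ F 3 τ x ^ 2 ≤ (C * Real.exp (2 * s₁)) ^ 2 := by
      rw [← sq_abs]
      exact pow_le_pow_left₀ (abs_nonneg _) p6 2
    have p8 : 0 ≤ g * (first_f g s₁ F 2 τ x * (first_f g s₁ F 2 τ x * first_f g s₁ F 2 τ x)) := by
      positivity
    linarith only [p8, p7]

lemma first_d1_le (h : Adm C F) (hg : 0 < g) (hg1 : g ≤ 1) {τ : ℝ} (hτ : τ ∈ Icc 0 s₁) (x : ℝ) :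
    |first_f g s₁ F 1 τ x| ≤ 1 := by
  obtain ⟨p1, p2⟩ := first_d1_sq h hg hg1 hτ x
  exact (sq_le_one_iff_abs_le_one _).1 (by linarith)

theorem Rf_le_one (h : Adm C F) (hg : 0 < g) (hg1 : g ≤ 1) {g' : ℝ} (hg' : 0 < g')
    {τ : ℝ} (hτ : τ ∈ Icc 0 s₁) : Rf g' g s₁ F τ ≤ 1 := by
  obtain ⟨L, B, hsm⟩ := first_sm h hg hτ
  have b1 := first_f_bc h hg s₁ 0
  rw [first_Rf_eq]
  refine (le_abs_self _).trans (hsm.abs_tlt_le
    (g := fun x => first_f g s₁ F 1 τ x * first_f g s₁ F 1 τ x) ((b1.mul b1).slice τ) ?_ _ _ _)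
  intro x
  rw [abs_mul]
  have := first_d1_le h hg hg1 hτ x
  nlinarith [abs_nonneg (first_f g s₁ F 1 τ x)]

/-! ### change of the tilt exponent -/

lemma first_cube_int (c : ℝ) : Integrable (fun z : ℝ => |z| ^ 3 * Real.exp (c * |z|))
    (gaussianReal 0 1) := by
  refine ((sp2_integrable_exp_abs (1 + c)).const_mul 6).mono' (by exact Continuous.aestronglyMeasurable (by fun_prop))
    (Eventually.of_forall fun z => ?_)
  rw [Real.norm_eq_abs, abs_of_nonneg (by positivity), add_mul, one_mul, Real.exp_add]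
  have h1 := Real.pow_div_factorial_le_exp |z| (abs_nonneg z) 3
  have h2 : ((Nat.factorial 3 : ℕ) : ℝ) = 6 := by norm_num [Nat.factorial]
  rw [h2, div_le_iff₀ (by norm_num)] at h1
  calc |z| ^ 3 * Real.exp (c * |z|) ≤ (Real.exp |z| * 6) * Real.exp (c * |z|) :=
        mul_le_mul_of_nonneg_right h1 (Real.exp_pos _).le
    _ = _ := by ring

lemma first_ec (h : Adm C F) (hg : 0 < g) (hg1 : g ≤ 1) {τ : ℝ} (hτ : τ ∈ Icc 0 s₁) :
    Ec (gstep g (s₁ - τ) F) (first_f g s₁ F 1 τ) (first_f g s₁ F 2 τ) := by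
  obtain ⟨L, B, hsm⟩ := first_sm h hg hτ
  exact ⟨hsm.d1, hsm.d2, hsm.cD, (first_adm h hg hg1 hτ).even,
    fun x => (first_d1_sq h hg hg1 hτ x).1.le, fun x => (first_d1_sq h hg hg1 hτ x).2⟩

lemma first_min {G M D : ℝ → ℝ} (h : Ec G M D) (x : ℝ) : G 0 ≤ G x := by
  have hm : MonotoneOn G (Ici 0) := by
    refine monotoneOn_of_deriv_nonneg (convex_Ici 0) h.sm.cont.continuousOn
      (fun x _ => (h.d1 x).differentiableAt.differentiableWithinAt) fun x hx => ?_
    rw [(h.d1 x).deriv]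
    rw [interior_Ici] at hx
    exact sp3_nonneg h (le_of_lt hx)
  rcases le_total 0 x with hx | hx
  · exact hm (by simp) hx hx
  · rw [← h.even x]
    exact hm (by simp) (by simpa using hx) (by linarith)

lemma first_M_le {G M D : ℝ → ℝ} (h : Ec G M D) (x : ℝ) : M x ^ 2 ≤ x ^ 2 := by
  have h0 : M 0 = 0 := by
    have := h.odd 0
    rw [neg_zero] at this
    linarith
  have h1 := convex_univ.norm_image_sub_le_of_norm_hasDerivWithin_le (f := M) (f' := D)
    (s := Set.univ) (C := 1) (fun x _ => (h.d2 x).hasDerivWithinAt) (fun x _ => h.sm.bD x)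
    (mem_univ 0) (mem_univ x)
  rw [h0, sub_zero, sub_zero, one_mul, Real.norm_eq_abs, Real.norm_eq_abs] at h1
  exact sq_le_sq.2 h1

/-- Change of the tilt exponent. -/
theorem Rf_tilt (S : ℝ) : ∃ K : ℝ, 0 ≤ K ∧ ∀ (C g g' s₁ : ℝ) (F : ℝ → ℝ), Adm C F → 0 < g →
    g ≤ g' → g' ≤ 1 → s₁ ≤ S → ∀ τ ∈ Icc 0 s₁,
      Rf g' g s₁ F τ ≤ Rf g g s₁ F τ + K * (g' - g) * τ := by
  refine ⟨√S * ∫ z, |z| ^ 3 * Real.exp (√S * |z|) ∂(gaussianReal 0 1), ?_, ?_⟩
  · exact mul_nonneg (Real.sqrt_nonneg _) (integral_nonneg fun z => by positivity)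
  intro C g g' s₁ F h hg hgg hg'1 hS τ hτ
  have hg1 : g ≤ 1 := hgg.trans hg'1
  set I := ∫ z, |z| ^ 3 * Real.exp (√S * |z|) ∂(gaussianReal 0 1) with hI
  have hE := first_ec h hg hg1 hτ
  set G := gstep g (s₁ - τ) F with hG
  set M := first_f g s₁ F 1 τ with hM
  set D := first_f g s₁ F 2 τ with hD
  set w : ℝ → ℝ := fun y => G y + -(G 0) with hw
  have hw0 : ∀ y, 0 ≤ w y := fun y => by
    have := first_min hE y
    simp only [hw]; linarith
  have hw1 : ∀ y, w y ≤ |y| := fun y => by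
    have := hE.sm.lip y 0
    rw [sub_zero, one_mul] at this
    exact (le_abs_self _).trans this
  have hwS : Sm 1 1 w M D :=
    ⟨fun x => by simpa [hw] using (hE.d1 x).add_const (-(G 0)), hE.d2, hE.cD, hE.sm.bM, hE.sm.bD⟩
  have hMc : Continuous fun x => M x * M x := hE.sm.cont1.mul hE.sm.cont1
  have hMb : ∀ x, |M x * M x| ≤ 1 := fun x => by
    rw [abs_mul]
    have := hE.abs_M x
    (by_contra nlg; linarith only [nlg, mul_nonneg (sub_nonneg.2 this) (sub_nonneg.2 (abs_nonneg (M x))), mul_nonneg (sub_nonneg.2 this) (sub_nonneg.2 this), mul_nonneg (le_of_lt (sub_pos.2 (not_le.1 nlg))) (sub_nonneg.2 hg1), mul_pos (sub_pos.2 (not_le.1 nlg)) (sub_pos.2 hg)])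
  have e : ∀ m : ℝ, tlt m τ G (fun x => M x * M x) 0 = tlt m τ w (fun x => M x * M x) 0 :=
    fun m => (sp5_tlt_add_const m τ (-(G 0)) G (fun x => M x * M x) 0).symm
  rw [first_Rf_eq, first_Rf_eq]
  simp only []
  rw [← hG, ← hM, e, e]
  unfold tlt
  set A' := ∫ z, M (0 + √τ * z) * M (0 + √τ * z) * Real.exp (g' * w (0 + √τ * z))
    ∂(gaussianReal 0 1) with hA'
  set Z' := ∫ z, Real.exp (g' * w (0 + √τ * z)) ∂(gaussianReal 0 1) with hZ'
  set A := ∫ z, M (0 + √τ * z) * M (0 + √τ * z) * Real.exp (g * w (0 + √τ * z))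
    ∂(gaussianReal 0 1) with hA
  set Z := ∫ z, Real.exp (g * w (0 + √τ * z)) ∂(gaussianReal 0 1) with hZ
  have hτ0 : 0 ≤ τ := hτ.1
  have hτS : τ ≤ S := hτ.2.trans hS
  have hZ1 : 1 ≤ Z := by
    have h1 : ∫ _z : ℝ, (1 : ℝ) ∂(gaussianReal 0 1) = 1 := by simp
    rw [← h1, hZ]
    refine integral_mono (integrable_const _) (hwS.integrable_exp g τ 0) fun z => ?_
    exact Real.one_le_exp (mul_nonneg hg.le (hw0 _))
  have hZZ : Z ≤ Z' := by
    refine integral_mono (hwS.integrable_exp g τ 0) (hwS.integrable_exp g' τ 0) fun z => ?_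
    exact Real.exp_le_exp.2 (mul_le_mul_of_nonneg_right hgg (hw0 _))
  have hA'0 : 0 ≤ A' := integral_nonneg fun z => mul_nonneg (mul_self_nonneg _) (Real.exp_pos _).le
  have hAA : A' ≤ A + √S * I * (g' - g) * τ := by
    have h1 : A + √S * I * (g' - g) * τ = ∫ z, (M (0 + √τ * z) * M (0 + √τ * z) *
        Real.exp (g * w (0 + √τ * z)) + (√S * (g' - g) * τ) *
          (|z| ^ 3 * Real.exp (√S * |z|))) ∂(gaussianReal 0 1) := by
      rw [integral_add (hwS.integrable hMc hMb g τ 0) ((first_cube_int _).const_mul _),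
        integral_const_mul]
      ring
    rw [h1, hA']
    refine integral_mono (hwS.integrable hMc hMb g' τ 0)
      ((hwS.integrable hMc hMb g τ 0).add ((first_cube_int _).const_mul _)) fun z => ?_
    simp only [zero_add]
    set y := √τ * z with hy
    have hη : 0 ≤ g' - g := by linarith
    have k1 : Real.exp (g' * w y) - Real.exp (g * w y) ≤ (g' - g) * |y| * Real.exp |y| := by
      have k2 : Real.exp (g * w y) = Real.exp (g' * w y) * Real.exp (-((g' - g) * w y)) := by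
        rw [← Real.exp_add]; congr 1; ring
      have k3 := Real.add_one_le_exp (-((g' - g) * w y))
      have k4 : Real.exp (g' * w y) ≤ Real.exp |y| := by
        apply Real.exp_le_exp.2
        have := hw0 y
        have := hw1 y
        nlinarith
      have k5 : 0 ≤ (g' - g) * w y := mul_nonneg hη (hw0 y)
      calc Real.exp (g' * w y) - Real.exp (g * w y)
          = Real.exp (g' * w y) * (1 - Real.exp (-((g' - g) * w y))) := by rw [k2]; ring
        _ ≤ Real.exp (g' * w y) * ((g' - g) * w y) :=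
            mul_le_mul_of_nonneg_left (by linarith) (Real.exp_pos _).le
        _ ≤ Real.exp |y| * ((g' - g) * |y|) :=
            mul_le_mul k4 (mul_le_mul_of_nonneg_left (hw1 y) hη) k5 (Real.exp_pos _).le
        _ = _ := by ring
    have k6 : M y * M y ≤ y ^ 2 := by rw [← sq]; exact first_M_le hE y
    have k7 : |y| = √τ * |z| := by rw [hy, abs_mul, abs_of_nonneg (Real.sqrt_nonneg τ)]
    have k8 : √τ ≤ √S := Real.sqrt_le_sqrt hτS
    have k9 : (g' - g) * |y| ^ 3 * Real.exp |y| ≤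
        √S * (g' - g) * τ * (|z| ^ 3 * Real.exp (√S * |z|)) := by
      have j1 : Real.exp |y| ≤ Real.exp (√S * |z|) := by
        rw [k7]
        exact Real.exp_le_exp.2 (mul_le_mul_of_nonneg_right k8 (abs_nonneg _))
      have j2 : |y| ^ 3 = √τ * τ * |z| ^ 3 := by
        rw [k7, mul_pow, pow_succ, Real.sq_sqrt hτ0]; ring
      calc (g' - g) * |y| ^ 3 * Real.exp |y|
          ≤ (g' - g) * (√S * τ * |z| ^ 3) * Real.exp (√S * |z|) := by
            refine mul_le_mul (mul_le_mul_of_nonneg_left ?_ hη) j1 (Real.exp_pos _).le ?_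
            · rw [j2]
              exact mul_le_mul_of_nonneg_right (mul_le_mul_of_nonneg_right k8 hτ0)
                (by (clear * -; positivity))
            · have := Real.sqrt_nonneg S
              (clear * - hgg hτ0; positivity)
        _ = _ := by ring
    have k10 : M y * M y * (Real.exp (g' * w y) - Real.exp (g * w y)) ≤
        (g' - g) * |y| ^ 3 * Real.exp |y| := by
      have j3 : 0 ≤ Real.exp (g' * w y) - Real.exp (g * w y) := by
        have := Real.exp_le_exp.2 (mul_le_mul_of_nonneg_right hgg (hw0 y))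
        linarith
      calc M y * M y * (Real.exp (g' * w y) - Real.exp (g * w y))
          ≤ y ^ 2 * ((g' - g) * |y| * Real.exp |y|) :=
            mul_le_mul k6 k1 j3 (sq_nonneg _)
        _ = _ := by rw [← sq_abs]; ring
    linarith
  have hZ0 : 0 < Z := by linarith
  have hr : 0 ≤ √S * I * (g' - g) * τ := by
    have : 0 ≤ I := integral_nonneg fun z => by (clear * -; positivity)
    have := Real.sqrt_nonneg S
    have : 0 ≤ g' - g := by linarith
    (clear * - hgg hτ0; positivity)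
  calc A' / Z' ≤ A' / Z := div_le_div_of_nonneg_left hA'0 hZ0 hZZ
    _ ≤ (A + √S * I * (g' - g) * τ) / Z := div_le_div_of_nonneg_right hAA hZ0.le
    _ = A / Z + √S * I * (g' - g) * τ / Z := add_div _ _ _
    _ ≤ A / Z + √S * I * (g' - g) * τ := by
        have := div_le_self hr hZ1
        linarith only [this]

end FIRST

end Vale.Agent.P146.Gap
end

section

/-!
GAPN: the gap theorem for minimisers.
-/

open MeasureTheory ProbabilityTheory Filter Topology Set

namespace Vale.Agent.P146.Gap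

open Vale.Agent.P157.Par

lemma gapn_exp_nonneg {k : ℕ} {m : ℕ → ℝ} (hm : Exponents k m) :
    ∀ l, l ≤ k + 1 → 0 ≤ m l := by
  intro l
  induction l with
  | zero => intro _; rw [hm.1]
  | succ l ih => intro hl; exact (ih (by omega)).trans (hm.2.2 l (by omega)).le

lemma gapn_exp_pos {k : ℕ} {m : ℕ → ℝ} (hm : Exponents k m) {l : ℕ} (hl : 1 ≤ l)
    (hlk : l ≤ k + 1) : 0 < m l := by
  obtain ⟨l, rfl⟩ := Nat.exists_eq_add_of_le' hl
  exact (gapn_exp_nonneg hm l (by omega)).trans_lt (hm.2.2 l (by omega))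

lemma gapn_exp_le_one {k : ℕ} {m : ℕ → ℝ} (hm : Exponents k m) {l : ℕ} (hlk : l ≤ k + 1) :
    m l ≤ 1 := by
  have key : ∀ d, d ≤ k + 1 → m (k + 1 - d) ≤ 1 := by
    intro d
    induction d with
    | zero => intro _; rw [Nat.sub_zero, hm.2.1]
    | succ d ih =>
      intro hd
      have h1 := hm.2.2 (k + 1 - (d + 1)) (by omega)
      have h2 : k + 1 - (d + 1) + 1 = k + 1 - d := by omega
      rw [h2] at h1
      exact h1.le.trans (ih (by omega))
  have := key (k + 1 - l) (by omega)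
  rwa [show k + 1 - (k + 1 - l) = l by omega] at this

lemma gapn_path_le {k : ℕ} {r : ℕ → ℝ} (hr : Path k r) {i j : ℕ} (hij : i ≤ j) (hj : j ≤ k) :
    r i ≤ r j := by
  induction j, hij using Nat.le_induction with
  | base => exact le_rfl
  | succ j hij ih => exact (ih (by omega)).trans (hr.2 j (by omega))

lemma gapn_cascade_zero {k : ℕ} {m r : ℕ → ℝ} (hm : Exponents k m) (hr : Path k r)
    (h0 : r 0 = 0) (hk : r k = 0) (F : ℝ → ℝ) : ∀ l, l ≤ k → cascade m r l F = F := by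
  have hz : ∀ i, i ≤ k → r i = 0 := by
    intro i hi
    exact le_antisymm (hk ▸ gapn_path_le hr hi le_rfl) (h0 ▸ gapn_path_le hr (Nat.zero_le i) hi)
  intro l
  induction l with
  | zero => intro _; rfl
  | succ l ih =>
    intro hl
    rw [cascade_succ_def, hz (l + 1) hl, hz l (by omega), sub_zero,
      gstep_zero (gapn_exp_pos hm (by omega) (by omega)).ne']
    exact ih (by omega)

lemma gapn_lc_deriv2 : iteratedDeriv 2 lc 0 = 1 := by
  have h := ec_logcosh
  have h1 : deriv lc = Real.tanh := funext fun x => (h.d1 x).deriv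
  have h2 : iteratedDeriv 2 lc = fun x => 1 - Real.tanh x ^ 2 := by
    rw [iteratedDeriv_succ, iteratedDeriv_one, h1]
    exact funext fun x => (h.d2 x).deriv
  rw [h2]; simp

lemma gapn_tlt_add_const (g s c : ℝ) (F h : ℝ → ℝ) (x : ℝ) :
    tlt g s (fun y => F y + c) h x = tlt g s F h x := by
  unfold tlt
  have e : ∀ y, Real.exp (g * (F y + c)) = Real.exp (g * F y) * Real.exp (g * c) := by
    intro y; rw [← Real.exp_add]; ring_nf
  simp only [e, ← mul_assoc]
  rw [integral_mul_const, integral_mul_const, mul_div_mul_right _ _ (Real.exp_pos _).ne']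

lemma gapn_Rf_const {g s₁ c : ℝ} (hg : g ≠ 0) {F G : ℝ → ℝ} (h : ∀ x, F x = G x + c) :
    Rf g g s₁ F s₁ = Rf g g s₁ G s₁ := by
  have hF : F = fun x => G x + c := funext h
  unfold Rf
  rw [sub_self, gstep_zero hg, gstep_zero hg]
  have hd : iteratedDeriv 1 F = iteratedDeriv 1 G := by
    rw [iteratedDeriv_one, iteratedDeriv_one, hF]
    funext x
    rw [deriv_add_const]
  rw [hd, hF, gapn_tlt_add_const]

lemma gapn_M2f_nonneg {g g' C s₁ τ : ℝ} {F : ℝ → ℝ} (h : Good g' C F) (hg : 0 < g)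
    (hgg : g ≤ g') (hg' : g' ≤ 1) (hτ : τ ∈ Ioo 0 s₁) : 0 ≤ M2f g s₁ F τ := by
  have hG := h.step hg hgg hg' (s := s₁ - τ) (by linarith [hτ.2])
  have hc := cert_int hG hg (hgg.trans hg') hτ.1
  unfold M2f tlt
  refine div_nonneg ?_ (integral_nonneg fun z => (Real.exp_pos _).le)
  simp only [zero_add]
  refine hc.trans (le_of_eq ?_)
  congr 1
  funext z
  ring

theorem gap_n {b : ℝ} (hb : 1 < b) {δ : ℝ} (hδ : 0 < δ) :
    ∃ η > 0, ∀ (k : ℕ) (m r : ℕ → ℝ), Exponents k m → (∀ l ≤ k, m (l + 1) - m l ≤ η) →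
      BPath b k r → (∀ r', BPath b k r' → SKr b k m r ≤ SKr b k m r') →
      (1 - δ) / b ^ 2 ≤ iteratedDeriv 2 (cascade m r k lc) 0 ^ 2 := by
  have hb0 : 0 < b := by linarith
  have hb2 : 1 ≤ b ^ 2 := by nlinarith
  set C0 : ℝ := 2 * Real.exp (2 * b ^ 2) with hC0
  have hC0p : 0 < C0 := by positivity
  obtain ⟨η₀, hη₀, hreal⟩ := gap_real (b := b) (S := b ^ 2)
    (C := (C0 * Real.exp (2 * b ^ 2)) ^ 2) (δ := δ) hb0 (by positivity) hδ
  obtain ⟨K, hK, htilt⟩ := Rf_tilt (b ^ 2)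
  refine ⟨2 * η₀ / (K + 1), by positivity, ?_⟩
  intro k m r hm hinc hr hmin
  by_cases hne : r k = 0
  · have h1 := gapn_cascade_zero hm hr.2.1 hr.1 hne lc k le_rfl
    rw [h1, gapn_lc_deriv2, one_pow, div_le_one (by positivity)]
    linarith
  have hrk : 0 < r k := lt_of_le_of_ne (hr.1 ▸ gapn_path_le hr.2.1 (Nat.zero_le k) le_rfl)
    (Ne.symm hne)
  obtain ⟨j, F, hj1, hjk, hrj, hF, hcas, hup, hdown⟩ := first_block hb0 hm hr hmin hrk
  have hg : 0 < m j := gapn_exp_pos hm hj1 (by omega)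
  have hgg : m j < m (j + 1) := hm.2.2 j hjk
  have hg'1 : m (j + 1) ≤ 1 := gapn_exp_le_one hm (by omega)
  have hg1 : m j ≤ 1 := hgg.le.trans hg'1
  have hg' : 0 < m (j + 1) := hg.trans hgg
  have hs : r j ≤ b ^ 2 := (gapn_path_le hr.2.1 hjk le_rfl).trans hr.2.2
  have hA := hF.adm
  rw [hcas, ← Mf_zero hA hg hg1 hrj.le]
  refine hreal (r j) (Rf (m j) (m j) (r j) F) (Mf (m j) (r j) F) (M1f (m j) (r j) F)
    (M2f (m j) (r j) F) hrj hs (Rf_cont hA hg hg1 hg hg1) (Mf_cont hA hg hg1) (M1f_cont hA hg hg1)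
    (fun τ hτ => Rf_hasDerivAt hA hg hg1 hτ) (fun τ hτ => Mf_hasDerivAt hA hg hg1 hτ)
    (fun τ hτ => M1f_hasDerivAt hA hg hg1 hτ)
    (fun τ hτ => gapn_M2f_nonneg hF hg hgg.le hg'1 hτ) ?_ (Rf_zero hA hg hg1 _ hrj.le) ?_ ?_
  · intro τ hτ
    refine (M1f_le hA hg hg1 hτ).trans ?_
    refine pow_le_pow_left₀ (by positivity) ?_ 2
    refine mul_le_mul_of_nonneg_left ?_ hC0p.le
    exact Real.exp_le_exp.2 (by linarith only [hs])
  · rcases hdown with h | ⟨g₂, v, F₂, hg2, hg21, hv, hA2, ⟨c, hc⟩, hmin2⟩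
    · refine (Rf_le_one hA hg hg1 hg ⟨hrj.le, le_rfl⟩).trans (le_of_eq ?_)
      rw [h, div_self (by positivity)]
    · rw [gapn_Rf_const hg.ne' hc]
      exact vari_down hb0 hA2 hg hg2 hg21 hrj hv hmin2
  · have h1 := vari_up hb0 hA hg hgg hg'1 hrj hup
    have h2 : ∫ τ in (0 : ℝ)..(r j), Rf (m (j + 1)) (m j) (r j) F τ ≤
        ∫ τ in (0 : ℝ)..(r j), (Rf (m j) (m j) (r j) F τ + K * (m (j + 1) - m j) * τ) := by
      refine intervalIntegral.integral_mono_on hrj.le ?_ ?_ ?_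
      · exact (Rf_cont hA hg hg1 hg' hg'1).intervalIntegrable_of_Icc hrj.le
      · exact ContinuousOn.intervalIntegrable_of_Icc hrj.le
          ((Rf_cont hA hg hg1 hg hg1).add (by fun_prop))
      · intro τ hτ
        exact htilt _ _ _ _ F hA hg hgg.le hg'1 hs τ hτ
    have h3 : ∫ τ in (0 : ℝ)..(r j), (Rf (m j) (m j) (r j) F τ + K * (m (j + 1) - m j) * τ) =
        (∫ τ in (0 : ℝ)..(r j), Rf (m j) (m j) (r j) F τ)
          + K * (m (j + 1) - m j) * (r j ^ 2 / 2) := by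
      rw [intervalIntegral.integral_add
        ((Rf_cont hA hg hg1 hg hg1).intervalIntegrable_of_Icc hrj.le)
        (ContinuousOn.intervalIntegrable_of_Icc hrj.le (by fun_prop)),
        intervalIntegral.integral_const_mul, integral_id]
      ring
    have h4 : K * (m (j + 1) - m j) ≤ 2 * η₀ := by
      have h5 := hinc j hjk
      have h6 : K * (m (j + 1) - m j) ≤ K * (2 * η₀ / (K + 1)) := mul_le_mul_of_nonneg_left h5 hK
      refine h6.trans ?_
      rw [mul_div_assoc', div_le_iff₀ (by positivity)]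
      linarith only [hη₀]
    have h7 : K * (m (j + 1) - m j) * (r j ^ 2 / 2) ≤ η₀ * r j ^ 2 := by
      have := mul_le_mul_of_nonneg_right h4 (show 0 ≤ r j ^ 2 / 2 by positivity)
      linarith only [this]
    linarith only [h7, h3, h2, h1]

end Vale.Agent.P146.Gap
end

section

/-! The derivative of the spin part along a segment of paths. -/

open MeasureTheory ProbabilityTheory Filter Topology Set

namespace Vale.Agent.P157.Par

theorem sp4_exp_nonneg {k : ℕ} {m : ℕ → ℝ} (hm : Exponents k m) :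
    ∀ l ≤ k + 1, 0 ≤ m l := by
  intro l
  induction l with
  | zero => intro _; rw [hm.1]
  | succ l ih =>
    intro hl
    exact (ih (by omega)).trans (hm.2.2 l (by omega)).le

theorem sp4_exp_pos {k : ℕ} {m : ℕ → ℝ} (hm : Exponents k m) {l : ℕ} (hl : l ≤ k) :
    0 < m (l + 1) :=
  (sp4_exp_nonneg hm l (by omega)).trans_lt (hm.2.2 l hl)

section chn

theorem sp4_chn_const_mul (m r : ℕ → ℝ) (c : ℝ) : ∀ (l : ℕ) (F g : ℝ → ℝ),
    chn m r l F (fun y => c * g y) = c * chn m r l F g := by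
  intro l
  induction l with
  | zero =>
    intro F g
    rw [chn_zero_def, chn_zero_def, integral_const_mul]
  | succ l ih =>
    intro F g
    rw [chn_succ_def, chn_succ_def, ← ih]
    congr 1
    funext x
    exact tlt_const_mul _ _ c F g x

theorem sp4_chn_zero (m r : ℕ → ℝ) (l : ℕ) (F : ℝ → ℝ) :
    chn m r l F (fun _ => 0) = 0 := by
  have h := sp4_chn_const_mul m r 0 l F (fun _ => 0)
  simpa using h

theorem sp4_chn_add {m r : ℕ → ℝ} : ∀ (l : ℕ), (∀ j < l, 0 < m (j + 1)) →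
    ∀ {L B : ℝ} {F M D : ℝ → ℝ}, Sm L B F M D → ∀ {g g' : ℝ → ℝ}, Continuous g → ∀ {K : ℝ},
    (∀ x, |g x| ≤ K) → Continuous g' → ∀ {K' : ℝ}, (∀ x, |g' x| ≤ K') →
    chn m r l F (fun y => g y + g' y) = chn m r l F g + chn m r l F g' := by
  intro l
  induction l with
  | zero =>
    intro _ L B F M D _ g g' hg K hK hg' K' hK'
    rw [chn_zero_def, chn_zero_def, chn_zero_def, integral_add]
    · exact Integrable.of_bound (by fun_prop) K (Eventually.of_forall fun z => hK _)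
    · exact Integrable.of_bound (by fun_prop) K' (Eventually.of_forall fun z => hK' _)
  | succ l ih =>
    intro hm L B F M D h g g' hg K hK hg' K' hK'
    rw [chn_succ_def, chn_succ_def, chn_succ_def]
    have h1 : tlt (m (l + 1)) (r (l + 1) - r l) F (fun y => g y + g' y) =
        fun x => tlt (m (l + 1)) (r (l + 1) - r l) F g x +
          tlt (m (l + 1)) (r (l + 1) - r l) F g' x := by
      funext x
      exact h.tlt_add hg hK hg' hK' _ _ x
    rw [h1]
    exact ih (fun j hj => hm j (by omega)) (h.step (hm l (by omega)) _)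
      (h.tlt_cont hg hK _ _) (fun x => h.abs_tlt_le hg hK _ _ x)
      (h.tlt_cont hg' hK' _ _) (fun x => h.abs_tlt_le hg' hK' _ _ x)

theorem sp4_chn_const {m r : ℕ → ℝ} (c : ℝ) : ∀ (l : ℕ), (∀ j < l, 0 < m (j + 1)) →
    ∀ {L B : ℝ} {F M D : ℝ → ℝ}, Sm L B F M D → chn m r l F (fun _ => c) = c := by
  intro l
  induction l with
  | zero =>
    intro _ L B F M D _
    rw [chn_zero_def]
    simp
  | succ l ih =>
    intro hm L B F M D h
    rw [chn_succ_def]
    have h1 : tlt (m (l + 1)) (r (l + 1) - r l) F (fun _ => c) = fun _ => c := by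
      funext x
      exact h.tlt_const _ _ c x
    rw [h1]
    exact ih (fun j hj => hm j (by omega)) (h.step (hm l (by omega)) _)

end chn

section fam

variable {a b : ℝ} {u u1 u2 us : ℝ → ℝ → ℝ}

theorem sp4_slice {S : Set ℝ} {g : ℝ → ℝ → ℝ}
    (hg : ContinuousOn (fun p : ℝ × ℝ => g p.1 p.2) (S ×ˢ Set.univ)) {s : ℝ} (hs : s ∈ S) :
    Continuous (g s) := by
  rw [← continuousOn_univ]
  exact hg.comp (f := fun x : ℝ => ((s, x) : ℝ × ℝ)) (by fun_prop) fun x _ => ⟨hs, mem_univ x⟩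

theorem sp4_sm (h : Fam a b u u1 u2 us) : ∃ L B : ℝ, ∀ s ∈ Set.Icc a b,
    Sm L B (u s) (u1 s) (u2 s) := by
  obtain ⟨L, hL⟩ := h.b1
  obtain ⟨B, hB⟩ := h.b2
  refine ⟨L, B, fun s hs => ⟨h.d1 s hs, h.d2 s hs, ?_, hL s hs, hB s hs⟩⟩
  exact sp4_slice h.c2 hs

theorem sp4_tlt_bound (h : Fam a b u u1 u2 us) {g : ℝ → ℝ → ℝ}
    (hg : ContinuousOn (fun p : ℝ × ℝ => g p.1 p.2) (Set.Icc a b ×ˢ Set.univ)) {K : ℝ}
    (hK : ∀ s ∈ Set.Icc a b, ∀ x, |g s x| ≤ K) (m v₀ d : ℝ) :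
    ∀ s ∈ Set.Icc a b, ∀ x, |tlt m (v₀ + s * d) (u s) (g s) x| ≤ K := by
  obtain ⟨L, B, hS⟩ := sp4_sm h
  intro s hs x
  exact (hS s hs).abs_tlt_le (sp4_slice hg hs) (hK s hs) _ _ x

end fam

section path

variable {m r η : ℕ → ℝ} {a : ℝ}

theorem sp4_incr (r η : ℕ → ℝ) (l : ℕ) (s : ℝ) :
    (r (l + 1) + s * η (l + 1)) - (r l + s * η l) =
      (r (l + 1) - r l) + s * (η (l + 1) - η l) := by ring

theorem sp4_chn_cont : ∀ (l : ℕ), (∀ j < l, 0 < m (j + 1)) →
    (∀ j < l, ∀ s ∈ Set.Ioo 0 a, 0 < (r (j + 1) - r j) + s * (η (j + 1) - η j)) →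
    ∀ {u u1 u2 us : ℝ → ℝ → ℝ}, Fam 0 a u u1 u2 us → ∀ {g : ℝ → ℝ → ℝ},
    ContinuousOn (fun p : ℝ × ℝ => g p.1 p.2) (Set.Icc 0 a ×ˢ Set.univ) → ∀ {K : ℝ},
    (∀ s ∈ Set.Icc 0 a, ∀ x, |g s x| ≤ K) →
    ContinuousOn (fun s => chn m (fun l => r l + s * η l) l (u s) (g s)) (Set.Icc 0 a) := by
  intro l
  induction l with
  | zero =>
    intro _ _ u u1 u2 us h g hg K hK
    simp only [chn_zero_def]
    exact h.bottom_cont hg hK (r 0) (η 0)
  | succ l ih =>
    intro hm hv u u1 u2 us h g hg K hK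
    simp only [chn_succ_def, sp4_incr]
    exact ih (fun j hj => hm j (by omega)) (fun j hj => hv j (by omega))
      (h.step (hm l (by omega)) (hv l (by omega)))
      (h.tlt_cont hg hK _ _ _) (sp4_tlt_bound h hg hK _ _ _)

theorem sp4_Rc_cont : ∀ (l : ℕ), (∀ j < l, 0 < m (j + 1)) →
    (∀ j < l, ∀ s ∈ Set.Ioo 0 a, 0 < (r (j + 1) - r j) + s * (η (j + 1) - η j)) →
    ∀ {u u1 u2 us : ℝ → ℝ → ℝ}, Fam 0 a u u1 u2 us → ∀ {g : ℝ → ℝ → ℝ},
    ContinuousOn (fun p : ℝ × ℝ => g p.1 p.2) (Set.Icc 0 a ×ˢ Set.univ) → ∀ {K : ℝ},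
    (∀ s ∈ Set.Icc 0 a, ∀ x, |g s x| ≤ K) → ∀ j ≤ l,
    ContinuousOn (fun s => Rc m (fun l => r l + s * η l) l (u s) (g s) j) (Set.Icc 0 a) := by
  intro l
  induction l with
  | zero =>
    intro hm hv u u1 u2 us h g hg K hK j hj
    obtain rfl : j = 0 := by omega
    simp only [Rc_self]
    refine sp4_chn_cont 0 hm hv h (hg.pow 2) (K := K ^ 2) fun s hs x => ?_
    rw [abs_pow]
    exact pow_le_pow_left₀ (abs_nonneg _) (hK s hs x) 2
  | succ l ih =>
    intro hm hv u u1 u2 us h g hg K hK j hj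
    rcases Nat.lt_or_ge l j with hlj | hlj
    · obtain rfl : j = l + 1 := by omega
      simp only [Rc_self]
      refine sp4_chn_cont (l + 1) hm hv h (hg.pow 2) (K := K ^ 2) fun s hs x => ?_
      rw [abs_pow]
      exact pow_le_pow_left₀ (abs_nonneg _) (hK s hs x) 2
    · simp only [Rc_succ_le _ _ _ _ _ hlj, sp4_incr]
      exact ih (fun j hj => hm j (by omega)) (fun j hj => hv j (by omega))
        (h.step (hm l (by omega)) (hv l (by omega)))
        (h.tlt_cont hg hK _ _ _) (sp4_tlt_bound h hg hK _ _ _) j hlj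

theorem sp4_casc_cont : ∀ (l : ℕ), (∀ j < l, 0 < m (j + 1)) →
    (∀ j < l, ∀ s ∈ Set.Ioo 0 a, 0 < (r (j + 1) - r j) + s * (η (j + 1) - η j)) →
    (∀ s ∈ Set.Ioo 0 a, 0 < r 0 + s * η 0) →
    ∀ {u u1 u2 us : ℝ → ℝ → ℝ}, Fam 0 a u u1 u2 us →
    ContinuousOn (fun s => ∫ z, cascade m (fun l => r l + s * η l) l (u s)
      (√(r 0 + s * η 0) * z) ∂(gaussianReal 0 1)) (Set.Icc 0 a) := by
  intro l
  induction l with
  | zero =>
    intro _ _ h0 u u1 u2 us h
    exact (h.bottom h0).1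
  | succ l ih =>
    intro hm hv h0 u u1 u2 us h
    simp only [cascade_succ_def, sp4_incr]
    exact ih (fun j hj => hm j (by omega)) (fun j hj => hv j (by omega)) h0
      (h.step (hm l (by omega)) (hv l (by omega)))

theorem sp4_casc_deriv (hm0 : m 0 = 0) : ∀ (l : ℕ), (∀ j < l, 0 < m (j + 1)) →
    (∀ j < l, ∀ s ∈ Set.Ioo 0 a, 0 < (r (j + 1) - r j) + s * (η (j + 1) - η j)) →
    (∀ s ∈ Set.Ioo 0 a, 0 < r 0 + s * η 0) →
    ∀ {u u1 u2 us : ℝ → ℝ → ℝ}, Fam 0 a u u1 u2 us → ∀ s ∈ Set.Ioo 0 a,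
    HasDerivAt (fun s => ∫ z, cascade m (fun l => r l + s * η l) l (u s)
      (√(r 0 + s * η 0) * z) ∂(gaussianReal 0 1))
      (chn m (fun l => r l + s * η l) l (u s) (us s) + 1 / 2 *
        (η l * chn m (fun l => r l + s * η l) l (u s) (fun y => u2 s y + m l * u1 s y ^ 2) -
          ∑ j ∈ Finset.range l, (m (j + 1) - m j) * η j *
            Rc m (fun l => r l + s * η l) l (u s) (u1 s) j)) s := by
  intro l
  induction l with
  | zero =>
    intro _ _ h0 u u1 u2 us h s hs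
    have hsI : s ∈ Set.Icc 0 a := Ioo_subset_Icc_self hs
    have h1 := (h.bottom h0).2 s hs
    obtain ⟨B2, hB2⟩ := h.b2
    obtain ⟨Bs, hBs⟩ := h.bs
    have hc2 : Continuous (u2 s) := sp4_slice h.c2 hsI
    have hcs : Continuous (us s) := sp4_slice h.cs hs
    have e1 : ∫ z, (us s (√(r 0 + s * η 0) * z) + η 0 / 2 * u2 s (√(r 0 + s * η 0) * z))
          ∂(gaussianReal 0 1) =
        ∫ z, us s (√(r 0 + s * η 0) * z) ∂(gaussianReal 0 1) +
          η 0 / 2 * ∫ z, u2 s (√(r 0 + s * η 0) * z) ∂(gaussianReal 0 1) := by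
      rw [integral_add, integral_const_mul]
      · exact Integrable.of_bound (by fun_prop) Bs (Eventually.of_forall fun z => hBs s hs _)
      · refine Integrable.const_mul ?_ _
        exact Integrable.of_bound (by fun_prop) B2 (Eventually.of_forall fun z => hB2 s hsI _)
    rw [e1] at h1
    refine h1.congr_deriv ?_
    rw [chn_zero_def, chn_zero_def, Finset.range_zero, Finset.sum_empty, hm0]
    simp only [zero_mul, add_zero, sub_zero]
    ring
  | succ l ih =>
    intro hm hv h0 u u1 u2 us h s hs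
    have hsI : s ∈ Set.Icc 0 a := Ioo_subset_Icc_self hs
    have hml : 0 < m (l + 1) := hm l (by omega)
    have hstep := h.step hml (hv l (by omega))
    have h1 := ih (fun j hj => hm j (by omega)) (fun j hj => hv j (by omega)) h0 hstep s hs
    obtain ⟨B1, hB1⟩ := h.b1
    obtain ⟨B2, hB2⟩ := h.b2
    obtain ⟨Bs, hBs⟩ := h.bs
    obtain ⟨L, B, hS⟩ := sp4_sm h
    obtain ⟨L', B', hS'⟩ := sp4_sm hstep
    have hSs := hS s hsI
    have hSs' := hS' s hsI
    have hc1 : Continuous (u1 s) := sp4_slice h.c1 hsI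
    have hc2 : Continuous (u2 s) := sp4_slice h.c2 hsI
    have hcs : Continuous (us s) := sp4_slice h.cs hs
    set ρ : ℕ → ℝ := fun l => r l + s * η l with hρ
    set v : ℝ := (r (l + 1) - r l) + s * (η (l + 1) - η l) with hv'
    have hinc : ρ (l + 1) - ρ l = v := sp4_incr r η l s
    -- the observable at the level l + 1
    set G : ℝ → ℝ := fun y => u2 s y + m (l + 1) * u1 s y ^ 2 with hG
    have hGc : Continuous G := by fun_prop
    have hGb : ∀ x, |G x| ≤ B2 + m (l + 1) * B1 ^ 2 := by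
      intro x
      refine (abs_add_le _ _).trans (add_le_add (hB2 s hsI x) ?_)
      rw [abs_mul, abs_of_pos hml, abs_pow]
      exact mul_le_mul_of_nonneg_left (pow_le_pow_left₀ (abs_nonneg _) (hB1 s hsI x) 2) hml.le
    have hm' : ∀ j < l + 1, 0 < m (j + 1) := hm
    have hm'' : ∀ j < l, 0 < m (j + 1) := fun j hj => hm j (by omega)
    -- first term
    have t1 : chn m ρ l (gstep (m (l + 1)) v (u s)) (tlt (m (l + 1)) v (u s)
        (fun y => us s y + (η (l + 1) - η l) / 2 * (u2 s y + m (l + 1) * u1 s y ^ 2))) =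
        chn m ρ (l + 1) (u s) (us s) + (η (l + 1) - η l) / 2 * chn m ρ (l + 1) (u s) G := by
      have hcG : Continuous (fun y => (η (l + 1) - η l) / 2 * G y) := continuous_const.mul hGc
      have hbG : ∀ x, |(fun y => (η (l + 1) - η l) / 2 * G y) x| ≤
          |(η (l + 1) - η l) / 2| * (B2 + m (l + 1) * B1 ^ 2) := by
        intro x
        simp only [abs_mul]
        exact mul_le_mul_of_nonneg_left (hGb x) (abs_nonneg _)
      have e := sp4_chn_add (r := ρ) (l + 1) hm' hSs hcs (hBs s hs) hcG hbG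
      rw [sp4_chn_const_mul, chn_succ_def, hinc] at e
      exact e
    -- second term
    have t2 : chn m ρ l (gstep (m (l + 1)) v (u s)) (fun y =>
        (tlt (m (l + 1)) v (u s) (fun y => u2 s y + m (l + 1) * u1 s y ^ 2) y -
          m (l + 1) * tlt (m (l + 1)) v (u s) (u1 s) y ^ 2) +
        m l * tlt (m (l + 1)) v (u s) (u1 s) y ^ 2) =
        chn m ρ (l + 1) (u s) G - (m (l + 1) - m l) * Rc m ρ (l + 1) (u s) (u1 s) l := by
      have hT1c : Continuous (tlt (m (l + 1)) v (u s) (u1 s)) := hSs.tlt_cont hc1 (hB1 s hsI) _ _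
      have hT1b : ∀ x, |tlt (m (l + 1)) v (u s) (u1 s) x| ≤ B1 := fun x =>
        hSs.abs_tlt_le hc1 (hB1 s hsI) _ _ x
      have hTGc : Continuous (tlt (m (l + 1)) v (u s) G) := hSs.tlt_cont hGc hGb _ _
      have hTGb : ∀ x, |tlt (m (l + 1)) v (u s) G x| ≤ B2 + m (l + 1) * B1 ^ 2 := fun x =>
        hSs.abs_tlt_le hGc hGb _ _ x
      have e : (fun y =>
        (tlt (m (l + 1)) v (u s) (fun y => u2 s y + m (l + 1) * u1 s y ^ 2) y -
          m (l + 1) * tlt (m (l + 1)) v (u s) (u1 s) y ^ 2) +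
        m l * tlt (m (l + 1)) v (u s) (u1 s) y ^ 2) = fun y => tlt (m (l + 1)) v (u s) G y +
          (-(m (l + 1) - m l)) * tlt (m (l + 1)) v (u s) (u1 s) y ^ 2 := by
        funext y
        ring
      have hcT : Continuous (fun y => (-(m (l + 1) - m l)) *
          tlt (m (l + 1)) v (u s) (u1 s) y ^ 2) := continuous_const.mul (hT1c.pow 2)
      have hbT : ∀ x, |(fun y => (-(m (l + 1) - m l)) *
          tlt (m (l + 1)) v (u s) (u1 s) y ^ 2) x| ≤ |-(m (l + 1) - m l)| * B1 ^ 2 := by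
        intro x
        simp only [abs_mul, abs_pow]
        exact mul_le_mul_of_nonneg_left
          (pow_le_pow_left₀ (abs_nonneg _) (hT1b x) 2) (abs_nonneg _)
      have e2 := sp4_chn_add (r := ρ) l hm'' hSs' hTGc hTGb hcT hbT
      rw [sp4_chn_const_mul] at e2
      rw [e, e2, chn_succ_def, hinc, Rc_succ_le _ _ _ _ _ le_rfl, hinc, Rc_self]
      ring
    have t3 : ∀ j ∈ Finset.range l, (m (j + 1) - m j) * η j *
        Rc m ρ l (gstep (m (l + 1)) v (u s)) (tlt (m (l + 1)) v (u s) (u1 s)) j =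
        (m (j + 1) - m j) * η j * Rc m ρ (l + 1) (u s) (u1 s) j := by
      intro j hj
      have hjl : j ≤ l := (Finset.mem_range.1 hj).le
      rw [Rc_succ_le _ _ _ _ _ hjl, hinc]
    have hfun : (fun s => ∫ z, cascade m (fun l => r l + s * η l) (l + 1) (u s)
        (√(r 0 + s * η 0) * z) ∂(gaussianReal 0 1)) =
        fun s => ∫ z, cascade m (fun l => r l + s * η l) l
          (gstep (m (l + 1)) ((r (l + 1) - r l) + s * (η (l + 1) - η l)) (u s))
          (√(r 0 + s * η 0) * z) ∂(gaussianReal 0 1) := by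
      funext s
      simp only [cascade_succ_def, sp4_incr]
    rw [hfun]
    refine h1.congr_deriv ?_
    rw [Finset.sum_range_succ]
    rw [t1, t2, Finset.sum_congr rfl t3]
    ring

theorem sp4_fam (a : ℝ) : Fam 0 a (fun _ x => Real.log (Real.cosh x)) (fun _ => Real.tanh)
    (fun _ x => 1 - Real.tanh x ^ 2) (fun _ _ => 0) := by
  have hSm := ec_logcosh.sm
  have hc0 := hSm.cont
  have hc1 := hSm.cont1
  have hc2 := hSm.cD
  refine ⟨fun _ _ => hSm.d1, fun _ _ => hSm.d2, fun s _ x => hasDerivAt_const s _,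
    (hc0.comp continuous_snd).continuousOn, (hc1.comp continuous_snd).continuousOn,
    (hc2.comp continuous_snd).continuousOn, continuousOn_const,
    ⟨1, fun _ _ => hSm.bM⟩, ⟨1, fun _ _ => hSm.bD⟩, ⟨0, fun _ _ _ => by simp⟩⟩

theorem spin_deriv {k : ℕ} {m r η : ℕ → ℝ} (hm : Exponents k m) {a : ℝ} (ha : 0 < a)
    (hs : ∀ s ∈ Set.Ico 0 a, SPath k (fun l => r l + s * η l))
    (hp : Path k (fun l => r l + a * η l)) :
    ContinuousOn (fun s => spinPart k m (fun l => r l + s * η l)) (Set.Icc 0 a) ∧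
    (∀ s ∈ Set.Ioo 0 a, HasDerivAt (fun s => spinPart k m (fun l => r l + s * η l))
      (-(1 / 2) * ∑ l ∈ Finset.range (k + 1), (m (l + 1) - m l) * η l *
        spR k m (fun l => r l + s * η l) l) s) ∧
    ∀ j ≤ k, ContinuousOn (fun s => spR k m (fun l => r l + s * η l) j) (Set.Icc 0 a) := by
  have _ := ha
  have _ := hp
  have hpos : ∀ j < k, 0 < m (j + 1) := fun j hj => sp4_exp_pos hm hj.le
  have hv : ∀ j < k, ∀ s ∈ Set.Ioo 0 a, 0 < (r (j + 1) - r j) + s * (η (j + 1) - η j) := by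
    intro j hj s hsI
    have h := (hs s (Ioo_subset_Ico_self hsI)).2 j hj
    rw [← sp4_incr]
    exact sub_pos.2 h
  have h0 : ∀ s ∈ Set.Ioo 0 a, 0 < r 0 + s * η 0 := fun s hsI =>
    (hs s (Ioo_subset_Ico_self hsI)).1
  have hF := sp4_fam a
  have hSm := ec_logcosh.sm
  have hT : Continuous Real.tanh := hSm.cont1
  refine ⟨?_, ?_, ?_⟩
  · have h1 := sp4_casc_cont k hpos hv h0 hF
    have h2 : ContinuousOn (fun s => (r k + s * η k) / 2) (Set.Icc 0 a) := by fun_prop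
    exact h1.sub h2
  · intro s hsI
    have h1 := sp4_casc_deriv hm.1 k hpos hv h0 hF s hsI
    have h2 : HasDerivAt (fun s => (r k + s * η k) / 2) (η k / 2) s := by
      have h3 : HasDerivAt (fun s : ℝ => s) 1 s := hasDerivAt_id s
      have h4 := ((h3.mul_const (η k)).const_add (r k)).div_const 2
      simpa using h4
    have h3 := h1.sub h2
    refine h3.congr_deriv ?_
    set ρ : ℕ → ℝ := fun l => r l + s * η l with hρ
    have e1 : chn m ρ k (fun x => Real.log (Real.cosh x))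
        (fun y => 1 - Real.tanh y ^ 2 + m k * Real.tanh y ^ 2) =
        1 - (1 - m k) * spR k m ρ k := by
      have hcT : Continuous (fun y => (-(1 - m k)) * Real.tanh y ^ 2) :=
        continuous_const.mul (hT.pow 2)
      have hbT : ∀ x, |(fun y => (-(1 - m k)) * Real.tanh y ^ 2) x| ≤ |-(1 - m k)| * 1 ^ 2 := by
        intro x
        simp only [abs_mul, abs_pow]
        exact mul_le_mul_of_nonneg_left
          (pow_le_pow_left₀ (abs_nonneg _) (hSm.bM x) 2) (abs_nonneg _)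
      have e2 := sp4_chn_add (r := ρ) k hpos hSm (g := fun _ => 1) continuous_const
        (K := 1) (fun _ => by simp) hcT hbT
      rw [sp4_chn_const_mul, sp4_chn_const 1 k hpos hSm] at e2
      have e3 : (fun y => 1 - Real.tanh y ^ 2 + m k * Real.tanh y ^ 2) =
          fun y => 1 + (-(1 - m k)) * Real.tanh y ^ 2 := by
        funext y
        ring
      rw [e3, e2, spR, Rc_self]
      ring
    rw [Finset.sum_range_succ, hm.2.1]
    rw [e1, sp4_chn_zero]
    simp only [spR]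
    ring
  · intro j hj
    have hg : ContinuousOn (fun p : ℝ × ℝ => (fun _ : ℝ => Real.tanh) p.1 p.2)
        (Set.Icc 0 a ×ˢ Set.univ) := (hT.comp continuous_snd).continuousOn
    exact sp4_Rc_cont k hpos hv hF hg (K := 1) (fun _ _ => hSm.bM) j hj

end path

end Vale.Agent.P157.Par
end

section

/-! The tangent inequality for the spin part. -/

open MeasureTheory ProbabilityTheory Filter Topology Set

namespace Vale.Agent.P157.Par

theorem spin_tangent {k : ℕ} {m r r' : ℕ → ℝ} (hm : Exponents k m) (hr : SPath k r)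
    (hr' : Path k r') :
    spinPart k m r' ≤ spinPart k m r -
      1 / 2 * ∑ l ∈ Finset.range (k + 1), (m (l + 1) - m l) * spR k m r l * (r' l - r l) := by
  refine lnat_tangent (w := fun l => m (l + 1) - m l)
    (fun l hl => sub_pos.2 (hm.2.2 l hl)) (fun r => spinPart k m r) (fun r j => spR k m r j)
    (fun r η a ha hs hp => spin_deriv hm ha hs hp)
    (fun r i j s hr hij hj hs hr' => spR_anti hm hr hij hj hs hr')
    (fun r c j hr hc hj => spR_diag hm hr hc hj) hr hr'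

end Vale.Agent.P157.Par
end

section

set_option linter.all false

/-! LINK: tangent inequality for paths which are not strict, and the value of `F''(0)`. -/

open MeasureTheory ProbabilityTheory Filter Topology Set

namespace Vale.Agent.P146.Gap

open Vale.Agent.P157.Par

/-- The tangent inequality for paths which are not strict. -/
theorem tangent_path {k : ℕ} {m r r' : ℕ → ℝ} (hm : Exponents k m) (hr : Path k r)
    (hr' : Path k r') :
    spinPart k m r' ≤ spinPart k m r -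
      1 / 2 * ∑ l ∈ Finset.range (k + 1), (m (l + 1) - m l) * spR k m r l * (r' l - r l) := by
  set r₀ : ℕ → ℝ := fun l => r l + ((l : ℝ) + 1) with hr₀
  set η : ℕ → ℝ := fun l => -((l : ℝ) + 1) with hη
  have hs : ∀ s ∈ Set.Ico (0 : ℝ) 1, SPath k (fun l => r₀ l + s * η l) := by
    intro s hs
    have h1 : 0 < 1 - s := by linarith [hs.2]
    refine ⟨?_, fun l hl => ?_⟩
    · have h0 := hr.1
      simp only [hr₀, hη, Nat.cast_zero]
      linarith only [h0, h1]
    · have h0 := hr.2 l hl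
      simp only [hr₀, hη, Nat.cast_succ]
      linarith only [h0, h1]
  have e1 : (fun l => r₀ l + (1 : ℝ) * η l) = r := by
    funext l
    simp only [hr₀, hη]
    ring
  have hp : Path k (fun l => r₀ l + (1 : ℝ) * η l) := by rw [e1]; exact hr
  obtain ⟨c1, -, c3⟩ := spin_deriv hm one_pos hs hp
  set G : ℝ → ℝ := fun s => spinPart k m (fun l => r₀ l + s * η l) -
      1 / 2 * ∑ l ∈ Finset.range (k + 1), (m (l + 1) - m l) *
        spR k m (fun l => r₀ l + s * η l) l * (r' l - (r₀ l + s * η l)) with hG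
  have hGc : ContinuousOn G (Set.Icc 0 1) := by
    refine c1.sub (continuousOn_const.mul (continuousOn_finset_sum _ fun l hl => ?_))
    have hl' : l ≤ k := by have := Finset.mem_range.1 hl; omega
    exact (continuousOn_const.mul (c3 l hl')).mul (by fun_prop)
  have hle : ∀ s ∈ Set.Ico (0 : ℝ) 1, spinPart k m r' ≤ G s := fun s hsI =>
    spin_tangent hm (hs s hsI) hr'
  have ht : Tendsto G (𝓝[Set.Ico 0 1] 1) (𝓝 (G 1)) :=
    (hGc 1 (right_mem_Icc.2 zero_le_one)).mono Ico_subset_Icc_self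
  have hne : (𝓝[Set.Ico (0 : ℝ) 1] 1).NeBot := by
    rw [← mem_closure_iff_nhdsWithin_neBot, closure_Ico zero_ne_one]
    exact right_mem_Icc.2 zero_le_one
  have hlim : spinPart k m r' ≤ G 1 :=
    ge_of_tendsto ht (eventually_nhdsWithin_of_forall hle)
  have e2 : G 1 = spinPart k m r -
      1 / 2 * ∑ l ∈ Finset.range (k + 1), (m (l + 1) - m l) * spR k m r l * (r' l - r l) := by
    simp only [hG]
    rw [e1]
    congr 2
    refine Finset.sum_congr rfl fun l _ => ?_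
    have : r₀ l + 1 * η l = r l := congrFun e1 l
    rw [this]
  rw [← e2]
  exact hlim

theorem link_iter2 {F M D : ℝ → ℝ} (h1 : ∀ x, HasDerivAt F (M x) x)
    (h2 : ∀ x, HasDerivAt M (D x) x) (x : ℝ) : iteratedDeriv 2 F x = D x := by
  rw [iteratedDeriv_succ, iteratedDeriv_one]
  have e : deriv F = M := funext fun y => (h1 y).deriv
  rw [e]
  exact (h2 x).deriv

theorem link_main {m r : ℕ → ℝ} (hm0 : m 0 = 0) (hr0 : r 0 = 0) : ∀ (l : ℕ),
    (∀ j < l, 0 < m (j + 1)) → ∀ {L B : ℝ} {F M D : ℝ → ℝ}, Sm L B F M D →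
    iteratedDeriv 2 (cascade m r l F) 0 =
      chn m r l F (fun y => D y + m l * M y ^ 2) -
        ∑ j ∈ Finset.range l, (m (j + 1) - m j) * Rc m r l F M j := by
  intro l
  induction l with
  | zero =>
    intro _ L B F M D h
    have e : cascade m r 0 F = F := rfl
    rw [e, chn_zero_def, hr0, hm0, link_iter2 h.d1 h.d2]
    simp
  | succ l ih =>
    intro hm L B F M D h
    have hml : 0 < m (l + 1) := hm l (by omega)
    have hm'' : ∀ j < l, 0 < m (j + 1) := fun j hj => hm j (by omega)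
    set v : ℝ := r (l + 1) - r l with hv
    have hstep := h.step hml v
    have h1 := ih hm'' hstep
    have hc1 : Continuous M := h.cont1
    have hc2 : Continuous D := h.cD
    set G : ℝ → ℝ := fun y => D y + m (l + 1) * M y ^ 2 with hG
    have hGc : Continuous G := by fun_prop
    have hGb : ∀ x, |G x| ≤ B + m (l + 1) * L ^ 2 := by
      intro x
      refine (abs_add_le _ _).trans (add_le_add (h.bD x) ?_)
      rw [abs_mul, abs_of_pos hml, abs_pow]
      exact mul_le_mul_of_nonneg_left (pow_le_pow_left₀ (abs_nonneg _) (h.bM x) 2) hml.le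
    have t2 : chn m r l (gstep (m (l + 1)) v F) (fun y =>
        (tlt (m (l + 1)) v F (fun y => D y + m (l + 1) * M y ^ 2) y -
          m (l + 1) * tlt (m (l + 1)) v F M y ^ 2) +
        m l * tlt (m (l + 1)) v F M y ^ 2) =
        chn m r (l + 1) F G - (m (l + 1) - m l) * Rc m r (l + 1) F M l := by
      have hT1c : Continuous (tlt (m (l + 1)) v F M) := h.tlt_cont hc1 h.bM _ _
      have hT1b : ∀ x, |tlt (m (l + 1)) v F M x| ≤ L := fun x => h.abs_tlt_le hc1 h.bM _ _ x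
      have hTGc : Continuous (tlt (m (l + 1)) v F G) := h.tlt_cont hGc hGb _ _
      have hTGb : ∀ x, |tlt (m (l + 1)) v F G x| ≤ B + m (l + 1) * L ^ 2 := fun x =>
        h.abs_tlt_le hGc hGb _ _ x
      have e : (fun y =>
        (tlt (m (l + 1)) v F (fun y => D y + m (l + 1) * M y ^ 2) y -
          m (l + 1) * tlt (m (l + 1)) v F M y ^ 2) +
        m l * tlt (m (l + 1)) v F M y ^ 2) = fun y => tlt (m (l + 1)) v F G y +
          (-(m (l + 1) - m l)) * tlt (m (l + 1)) v F M y ^ 2 := by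
        funext y
        ring
      have hcT : Continuous (fun y => (-(m (l + 1) - m l)) *
          tlt (m (l + 1)) v F M y ^ 2) := continuous_const.mul (hT1c.pow 2)
      have hbT : ∀ x, |(fun y => (-(m (l + 1) - m l)) *
          tlt (m (l + 1)) v F M y ^ 2) x| ≤ |-(m (l + 1) - m l)| * L ^ 2 := by
        intro x
        simp only [abs_mul, abs_pow]
        exact mul_le_mul_of_nonneg_left
          (pow_le_pow_left₀ (abs_nonneg _) (hT1b x) 2) (abs_nonneg _)
      have e2 := sp4_chn_add (r := r) l hm'' hstep hTGc hTGb hcT hbT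
      rw [sp4_chn_const_mul] at e2
      rw [e, e2, chn_succ_def, Rc_succ_le _ _ _ _ _ le_rfl, Rc_self]
      ring
    have t3 : ∀ j ∈ Finset.range l, (m (j + 1) - m j) *
        Rc m r l (gstep (m (l + 1)) v F) (tlt (m (l + 1)) v F M) j =
        (m (j + 1) - m j) * Rc m r (l + 1) F M j := by
      intro j hj
      have hjl : j ≤ l := (Finset.mem_range.1 hj).le
      rw [Rc_succ_le _ _ _ _ _ hjl]
    rw [cascade_succ_def, ← hv, h1, t2, Finset.sum_congr rfl t3, Finset.sum_range_succ]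
    ring

theorem second_deriv_eq {k : ℕ} {m r : ℕ → ℝ} (hm : Exponents k m) (hr : Path k r)
    (h0 : r 0 = 0) :
    iteratedDeriv 2 (cascade m r k lc) 0 =
      1 - ∑ l ∈ Finset.range (k + 1), (m (l + 1) - m l) * spR k m r l := by
  have hSm := ec_logcosh.sm
  have hT : Continuous Real.tanh := hSm.cont1
  have hpos : ∀ j < k, 0 < m (j + 1) := fun j hj => sp4_exp_pos hm hj.le
  have h1 := link_main hm.1 h0 k hpos hSm
  have e1 : chn m r k (fun x => Real.log (Real.cosh x))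
      (fun y => 1 - Real.tanh y ^ 2 + m k * Real.tanh y ^ 2) =
      1 - (1 - m k) * spR k m r k := by
    have hcT : Continuous (fun y => (-(1 - m k)) * Real.tanh y ^ 2) :=
      continuous_const.mul (hT.pow 2)
    have hbT : ∀ x, |(fun y => (-(1 - m k)) * Real.tanh y ^ 2) x| ≤ |-(1 - m k)| * 1 ^ 2 := by
      intro x
      simp only [abs_mul, abs_pow]
      exact mul_le_mul_of_nonneg_left
        (pow_le_pow_left₀ (abs_nonneg _) (hSm.bM x) 2) (abs_nonneg _)
    have e2 := sp4_chn_add (r := r) k hpos hSm (g := fun _ => 1) continuous_const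
      (K := 1) (fun _ => by simp) hcT hbT
    rw [sp4_chn_const_mul, sp4_chn_const 1 k hpos hSm] at e2
    have e3 : (fun y => 1 - Real.tanh y ^ 2 + m k * Real.tanh y ^ 2) =
        fun y => 1 + (-(1 - m k)) * Real.tanh y ^ 2 := by
      funext y
      ring
    rw [e3, e2, spR, Rc_self]
    ring
  rw [e1] at h1
  have e4 : lc = fun x => Real.log (Real.cosh x) := rfl
  rw [e4, h1, Finset.sum_range_succ, hm.2.1]
  simp only [spR]
  ring

theorem link_Rc_zero {m r : ℕ → ℝ} (hr0 : r 0 = 0) : ∀ (l : ℕ),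
    (∀ j < l, 0 < m (j + 1)) → (∀ j < l, m (j + 1) ≤ 1) → ∀ {F M D : ℝ → ℝ}, Ec F M D →
    Rc m r l F M 0 = 0 := by
  intro l
  induction l with
  | zero =>
    intro _ _ F M D h
    rw [Rc_zero_def, chn_zero_def, hr0]
    have h0 : M 0 = 0 := by
      have := h.odd 0
      rw [neg_zero] at this
      linarith
    simp [h0]
  | succ l ih =>
    intro hm hm1 F M D h
    rw [Rc_succ_le _ _ _ _ _ (Nat.zero_le l)]
    exact ih (fun j hj => hm j (by omega)) (fun j hj => hm1 j (by omega))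
      (h.step (hm l (by omega)) (hm1 l (by omega)) _)

theorem spR_zero {k : ℕ} {m r : ℕ → ℝ} (hm : Exponents k m) (hr : Path k r) (h0 : r 0 = 0) :
    spR k m r 0 = 0 :=
  link_Rc_zero h0 k (fun j hj => sp4_exp_pos hm hj.le)
    (fun j hj => sp5_exp_le hm (j + 1) (by omega)) ec_logcosh

end Vale.Agent.P146.Gap
end

section

/-! # FINAL: the output of T1 -/

open MeasureTheory ProbabilityTheory Filter Topology Set

namespace Vale.Agent.P146.Gap

open Vale.Agent.P157.Par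

theorem final_sum {k : ℕ} {m : ℕ → ℝ} :
    ∑ l ∈ Finset.range (k + 1), (m (l + 1) - m l) = m (k + 1) - m 0 :=
  Finset.sum_range_sub _ _

theorem gap_final {b : ℝ} (hb : 1 < b) {e : ℝ} (he : 0 < e) {k : ℕ} {m q : ℕ → ℝ}
    (hm : Exponents k m) (hq : Path k q) (hq1 : q k ≤ 1) :
    ∃ (k' : ℕ) (m' q' : ℕ → ℝ), Exponents k' m' ∧ (∀ l ≤ k', m' (l + 1) - m' l ≤ e) ∧
      Path k' q' ∧ q' 0 = 0 ∧ q' k' ≤ 1 ∧
      (∀ r : ℕ → ℝ, Path k' r → spinPart k' m' r
        + 1 / 2 * ∑ l ∈ Finset.range (k' + 1), (m' (l + 1) - m' l) * r l * q' l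
        + b ^ 2 / 4 * (1 - ∑ l ∈ Finset.range (k' + 1), (m' (l + 1) - m' l) * q' l ^ 2)
          ≤ SKpar b k m q + e) ∧
      1 - e ≤ b * (1 - ∑ l ∈ Finset.range (k' + 1), (m' (l + 1) - m' l) * q' l) := by
  have hb0 : 0 < b := by linarith
  obtain ⟨η, hη, hgap⟩ := gap_n hb he
  obtain ⟨k', m', q1, hm', hmesh, hq', hq1', hSK⟩ := refine_exp (b := b) hm hq hq1
    (η := min η (min e (e / b ^ 2))) (by positivity)
  obtain ⟨r₀, hr₀, hS₀⟩ := zero_start hb0 hm' hq' hq1'
  obtain ⟨r, hr, hmin⟩ := exists_min hb0 hm'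
  have hm0 : m' 0 = 0 := hm'.1
  have hm1 : m' 1 * b ^ 2 ≤ e := by
    have h1 : m' (0 + 1) - m' 0 ≤ e / b ^ 2 :=
      (hmesh 0 (Nat.zero_le _)).trans ((min_le_right _ _).trans (min_le_right _ _))
    rw [hm0, sub_zero, le_div_iff₀ (by positivity)] at h1
    exact h1
  have hp : ∀ l ∈ Finset.range (k' + 1), 0 ≤ m' (l + 1) - m' l := fun l hl =>
    (sub_pos.2 (hm'.2.2 l (Nat.lt_succ_iff.1 (Finset.mem_range.1 hl)))).le
  have hgap' := hgap k' m' r hm' (fun l hl => (hmesh l hl).trans (min_le_left _ _)) hr hmin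
  have h2 := second_deriv_eq hm' hr.2.1 hr.1
  rw [h2] at hgap'
  set S : ℝ := 1 - ∑ l ∈ Finset.range (k' + 1), (m' (l + 1) - m' l) * spR k' m' r l with hS
  have hS0 : 0 ≤ S := by
    have h3 : ∑ l ∈ Finset.range (k' + 1), (m' (l + 1) - m' l) * spR k' m' r l ≤
        ∑ l ∈ Finset.range (k' + 1), (m' (l + 1) - m' l) := by
      refine Finset.sum_le_sum fun l hl => ?_
      have h4 := (spR_lt_one hm' hr.2.1 (Nat.lt_succ_iff.1 (Finset.mem_range.1 hl))).le
      exact mul_le_of_le_one_right (hp l hl) h4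
    rw [final_sum, hm'.2.1, hm0] at h3
    linarith
  refine ⟨k', m', spR k' m' r, hm', fun l hl => (hmesh l hl).trans
    ((min_le_right _ _).trans (min_le_left _ _)), ⟨spR_nonneg hm' hr.2.1 (Nat.zero_le _),
      fun l hl => spR_mono hm' hr.2.1 hl⟩, spR_zero hm' hr.2.1 hr.1,
      (spR_lt_one hm' hr.2.1 le_rfl).le, ?_, ?_⟩
  · intro r' hr'
    have ht := tangent_path hm' hr.2.1 hr'
    have hle : SKr b k' m' r ≤ SKpar b k m q + e := by
      have := hmin r₀ hr₀
      rw [← hSK]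
      linarith only [this, hm1, hS₀]
    refine le_trans ?_ hle
    have hamgm : ∑ l ∈ Finset.range (k' + 1), (m' (l + 1) - m' l) * (r l * spR k' m' r l) / 2 ≤
        ∑ l ∈ Finset.range (k' + 1), ((m' (l + 1) - m' l) * r l ^ 2 / (4 * b ^ 2)
          + b ^ 2 / 4 * ((m' (l + 1) - m' l) * spR k' m' r l ^ 2)) := by
      refine Finset.sum_le_sum fun l hl => ?_
      have h5 : r l * spR k' m' r l / 2 ≤ r l ^ 2 / (4 * b ^ 2) + b ^ 2 / 4 * spR k' m' r l ^ 2 := by
        have h6 : 0 ≤ (r l / b - b * spR k' m' r l) ^ 2 := sq_nonneg _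
        have h7 : (r l / b - b * spR k' m' r l) ^ 2 = r l ^ 2 / b ^ 2 - 2 * (r l * spR k' m' r l)
            + b ^ 2 * spR k' m' r l ^ 2 := by
          field_simp
          ring
        have h8 : r l ^ 2 / (4 * b ^ 2) = r l ^ 2 / b ^ 2 / 4 := by
          field_simp
        rw [h8]
        linarith only [h7, h6]
      have := mul_le_mul_of_nonneg_left h5 (hp l hl)
      calc (m' (l + 1) - m' l) * (r l * spR k' m' r l) / 2
          = (m' (l + 1) - m' l) * (r l * spR k' m' r l / 2) := by ring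
        _ ≤ _ := this
        _ = _ := by ring
    rw [Finset.sum_add_distrib, ← Finset.sum_div, ← Finset.sum_div, ← Finset.mul_sum] at hamgm
    have e1 : ∑ l ∈ Finset.range (k' + 1), (m' (l + 1) - m' l) * spR k' m' r l * (r' l - r l) =
        ∑ l ∈ Finset.range (k' + 1), (m' (l + 1) - m' l) * r' l * spR k' m' r l -
          ∑ l ∈ Finset.range (k' + 1), (m' (l + 1) - m' l) * (r l * spR k' m' r l) := by
      rw [← Finset.sum_sub_distrib]
      exact Finset.sum_congr rfl fun l _ => by ring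
    rw [e1] at ht
    unfold SKr
    linarith
  · by_cases h1 : 1 ≤ b * S
    · linarith
    · push Not at h1
      have h3 : 1 - e ≤ (b * S) ^ 2 := by
        rw [div_le_iff₀ (by positivity)] at hgap'
        calc 1 - e ≤ S ^ 2 * b ^ 2 := hgap'
          _ = (b * S) ^ 2 := by ring
      have h4 : 0 ≤ b * S := by positivity
      (by_contra nlg; linarith only [nlg, mul_nonneg (sub_nonneg.2 h3) (sub_nonneg.2 h4), mul_nonneg (le_of_lt (sub_pos.2 h1)) (sub_nonneg.2 h4), mul_nonneg (le_of_lt (sub_pos.2 h1)) (sub_nonneg.2 h3), mul_nonneg (le_of_lt (sub_pos.2 (not_le.1 nlg))) (sub_nonneg.2 h4), mul_pos (sub_pos.2 (not_le.1 nlg)) (sub_pos.2 h1)])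

end Vale.Agent.P146.Gap
end

section

/-!
# P146, polynomial lower bound, Parisi side: definitions

`c = 1 / b²`, `r` a minimiser over `BPath b n` for the exponents `m`.
-/

open MeasureTheory ProbabilityTheory Filter Topology Set

namespace Vale.Agent.P146.Pw2

open Vale.Agent.P157.Par
open Vale.Agent.P146.Gap

/-- The function of the level `l`. -/
noncomputable def Fl (n : ℕ) (m r : ℕ → ℝ) (l : ℕ) : ℝ → ℝ :=
  cascade (fun i => m (l + i)) (fun i => r (l + i)) (n - l) lc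

/-- The nested average at the level `l`. -/
noncomputable def Ee (n : ℕ) (m r : ℕ → ℝ) (l : ℕ) (ψ : ℝ → ℝ) : ℝ := chn m r l (Fl n m r l) ψ

/-- `E (F_l'')²`. -/
noncomputable def Ml (n : ℕ) (m r : ℕ → ℝ) (l : ℕ) : ℝ :=
  Ee n m r l (fun x => iteratedDeriv 2 (Fl n m r l) x ^ 2)

/-- The functions of the recursion with the total variance `s` above. -/
structure AKs (s : ℝ) (F : ℝ → ℝ) : Prop where
  adm : Adm (2 * Real.exp (2 * s)) F
  r4 : ∀ x, |iteratedDeriv 4 F x| ≤ 12 * Real.exp (4 * s) * iteratedDeriv 2 F x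
  low0 : Real.exp (-(3 / 2 * (Real.exp (4 * s) - 1))) ≤ iteratedDeriv 2 F 0

/-- Consequences with one constant. -/
structure AK (K : ℝ) (F : ℝ → ℝ) : Prop where
  adm : Adm K F
  k3 : ∀ x, |iteratedDeriv 3 F x| ≤ K * |iteratedDeriv 1 F x|
  k4 : ∀ x, |iteratedDeriv 4 F x| ≤ K * iteratedDeriv 2 F x
  low : ∀ x, min 1 |x| ≤ K * |iteratedDeriv 1 F x|
  low0 : 1 ≤ K * iteratedDeriv 2 F 0

/-- A block all of whose functions are in the class. -/
def BK (K g v : ℝ) (F : ℝ → ℝ) : Prop := ∀ s ∈ Icc 0 v, AK K (gstep g s F)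

/-- `r` is a minimiser over the paths from `0` to at most `b²`. -/
def IsMin (b : ℝ) (n : ℕ) (m r : ℕ → ℝ) : Prop :=
  BPath b n r ∧ ∀ r', BPath b n r' → SKr b n m r ≤ SKr b n m r'

end Vale.Agent.P146.Pw2
end

section

/-!
# P146 / Pw2 / STAT (P1): the minimiser is a fixed point of the overlap map
-/

open MeasureTheory ProbabilityTheory Filter Topology Set

namespace Vale.Agent.P146.Pw2

open Vale.Agent.P157.Par Vale.Agent.P146.Gap

/-- The overlap map sends paths in `[0,b²]` starting at `0` to such paths. -/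
theorem stat_bpath {b : ℝ} {k : ℕ} {m r : ℕ → ℝ} (hm : Exponents k m) (hr : BPath b k r) :
    BPath b k (fun l => b ^ 2 * spR k m r l) := by
  have hb : 0 ≤ b ^ 2 := sq_nonneg b
  refine ⟨?_, ⟨?_, fun l hl => ?_⟩, ?_⟩
  · simp only
    rw [spR_zero hm hr.2.1 hr.1, mul_zero]
  · exact mul_nonneg hb (spR_nonneg hm hr.2.1 (Nat.zero_le _))
  · exact mul_le_mul_of_nonneg_left (spR_mono hm hr.2.1 hl) hb
  · exact mul_le_of_le_one_right hb (spR_lt_one hm hr.2.1 le_rfl).le

/-- The value at the image of the overlap map. -/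
theorem stat_gain {b : ℝ} (hb : 0 < b) {k : ℕ} {m r : ℕ → ℝ} (hm : Exponents k m)
    (hr : BPath b k r) :
    SKr b k m (fun l => b ^ 2 * spR k m r l) ≤ SKr b k m r -
      (∑ l ∈ Finset.range (k + 1), (m (l + 1) - m l) * (b ^ 2 * spR k m r l - r l) ^ 2) /
        (4 * b ^ 2) := by
  have hr' := stat_bpath hm hr
  have ht := tangent_path hm hr.2.1 hr'.2.1
  unfold SKr
  have e : (∑ l ∈ Finset.range (k + 1), (m (l + 1) - m l) * (b ^ 2 * spR k m r l) ^ 2) /
      (4 * b ^ 2) - 1 / 2 * ∑ l ∈ Finset.range (k + 1),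
        (m (l + 1) - m l) * spR k m r l * (b ^ 2 * spR k m r l - r l) =
      (∑ l ∈ Finset.range (k + 1), (m (l + 1) - m l) * r l ^ 2) / (4 * b ^ 2) -
      (∑ l ∈ Finset.range (k + 1), (m (l + 1) - m l) * (b ^ 2 * spR k m r l - r l) ^ 2) /
        (4 * b ^ 2) := by
    rw [Finset.mul_sum, Finset.sum_div, Finset.sum_div, Finset.sum_div,
      ← Finset.sum_sub_distrib, ← Finset.sum_sub_distrib]
    refine Finset.sum_congr rfl fun l _ => ?_
    field_simp
    ring
  linarith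

/-- **Stationarity**: at a minimiser all levels are fixed by the overlap map. -/
theorem stat_fix {b : ℝ} (hb : 0 < b) {k : ℕ} {m r : ℕ → ℝ} (hm : Exponents k m)
    (hr : BPath b k r) (hmin : ∀ r', BPath b k r' → SKr b k m r ≤ SKr b k m r') :
    ∀ l ≤ k, r l = b ^ 2 * spR k m r l := by
  have h1 := stat_gain hb hm hr
  have h2 := hmin _ (stat_bpath hm hr)
  have hp : ∀ l ∈ Finset.range (k + 1), 0 ≤ (m (l + 1) - m l) * (b ^ 2 * spR k m r l - r l) ^ 2 :=
    fun l hl => mul_nonneg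
      (sub_pos.2 (hm.2.2 l (Nat.lt_succ_iff.1 (Finset.mem_range.1 hl)))).le (sq_nonneg _)
  have h3 : (∑ l ∈ Finset.range (k + 1), (m (l + 1) - m l) * (b ^ 2 * spR k m r l - r l) ^ 2) = 0 := by
    refine le_antisymm ?_ (Finset.sum_nonneg hp)
    have h4 : (∑ l ∈ Finset.range (k + 1),
        (m (l + 1) - m l) * (b ^ 2 * spR k m r l - r l) ^ 2) / (4 * b ^ 2) ≤ 0 := by linarith
    by_contra h5
    push Not at h5
    exact absurd (div_pos h5 (show 0 < 4 * b ^ 2 by positivity)) (not_lt.2 h4)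
  intro l hl
  have h5 := (Finset.sum_eq_zero_iff_of_nonneg hp).1 h3 l (Finset.mem_range.2 (by omega))
  have h6 : 0 < m (l + 1) - m l := sub_pos.2 (hm.2.2 l hl)
  rcases mul_eq_zero.1 h5 with h7 | h7
  · exact absurd h7 h6.ne'
  · have := pow_eq_zero_iff (n := 2) (by norm_num) |>.1 h7
    linarith

/-- (P1) in the form of the skeleton -/
theorem stat {b : ℝ} (hb : 0 < b) {n : ℕ} {m r : ℕ → ℝ} (hm : Exponents n m)
    (hr : IsMin b n m r) : (∀ l ≤ n, 0 < r l → spR n m r l = r l / b ^ 2) ∧ r n < b ^ 2 := by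
  have h := stat_fix hb hm hr.1 hr.2
  have hb2 : 0 < b ^ 2 := by positivity
  refine ⟨fun l hl _ => ?_, ?_⟩
  · rw [eq_div_iff hb2.ne', h l hl]
    ring
  · rw [h n le_rfl]
    exact mul_lt_of_lt_one_right hb2 (spR_lt_one hm hr.1.2.1 le_rfl)

end Vale.Agent.P146.Pw2
end

section

/-!
# P146, polynomial lower bound, Parisi side: nested averages (part 1)
-/

open MeasureTheory ProbabilityTheory Filter Topology Set

set_option linter.unusedVariables false

namespace Vale.Agent.P146.Pw2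

open Vale.Agent.P157.Par
open Vale.Agent.P146.Gap

variable {n : ℕ} {m r : ℕ → ℝ} {b : ℝ}

/-! ### The functions of the levels -/

theorem fl_last : Fl n m r n = lc := by
  unfold Fl
  rw [Nat.sub_self]
  rfl

theorem fl_zero : Fl n m r 0 = cascade m r n lc := by
  unfold Fl
  rw [Nat.sub_zero]
  exact minb_congr (fun l _ _ => by rw [zero_add]) (fun l _ => by rw [zero_add]) lc

theorem fl_succ {l : ℕ} (hl : l < n) :
    Fl n m r l = gstep (m (l + 1)) (r (l + 1) - r l) (Fl n m r (l + 1)) := by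
  unfold Fl
  obtain ⟨c, hc⟩ : ∃ c, n - l = c + 1 := ⟨n - l - 1, by omega⟩
  have hc' : n - (l + 1) = c := by omega
  rw [hc, hc', comp_shift]
  have e : cascade (fun i => m (l + (i + 1))) (fun i => r (l + (i + 1))) c lc =
      cascade (fun i => m (l + 1 + i)) (fun i => r (l + 1 + i)) c lc := by
    refine minb_congr (fun i _ _ => ?_) (fun i _ => ?_) lc
    · show m (l + (i + 1)) = m (l + 1 + i)
      congr 1
      omega
    · show r (l + (i + 1)) = r (l + 1 + i)
      congr 1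
      omega
  show gstep (m (l + 1)) (r (l + 1) - r (l + 0)) _ = _
  rw [add_zero, e]

theorem fl_split {l : ℕ} (hl : l ≤ n) : cascade m r n lc = cascade m r l (Fl n m r l) := by
  unfold Fl
  rw [← minb_split, Nat.add_sub_cancel' hl]

/-- the functions at the levels are good (from `good_cascade`; the constant is not important) -/
theorem fl_good (hm : Exponents n m) (hr : Path n r) {l : ℕ} (hl : l ≤ n) :
    ∃ C, Good (m (l + 1)) C (Fl n m r l) := by
  obtain ⟨h1, h2, h3⟩ := minb_exp hm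
  have h4 := good_cascade (c := n - l) (m := fun i => m (l + i)) (r := fun i => r (l + i))
    good_lc le_rfl (fun i hi hi' => h2 (l + i) (by omega) (by omega))
    (fun i hi hi' => h1 (l + i) (l + (i + 1)) (by omega) (by omega))
    (fun i hi hi' => h3 (l + i) (by omega)) (fun i hi => hr.2 (l + i) (by omega))
  refine ⟨2 * Real.exp (2 * (r (l + (n - l)) - r (l + 0))), ?_⟩
  rcases Nat.eq_zero_or_pos (n - l) with h0 | h0
  · rw [if_pos h0] at h4
    have e : m (l + 1) = 1 := by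
      have : l = n := by omega
      rw [this]
      exact hm.2.1
    rw [e]
    exact h4
  · rw [if_neg h0.ne'] at h4
    exact h4

theorem fl_ec (hm : Exponents n m) (hr : Path n r) {l : ℕ} (hl : l ≤ n) :
    Ec (Fl n m r l) (iteratedDeriv 1 (Fl n m r l)) (iteratedDeriv 2 (Fl n m r l)) := by
  obtain ⟨C, hC⟩ := fl_good hm hr hl
  exact adm_ec hC.adm

theorem nest_exp (hm : Exponents n m) {l : ℕ} (hl : l ≤ n) : Sp7Exp m l :=
  fun i hi => sp7_exp_of hm i (by omega)

/-! ### Bounded observables -/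

theorem nest_cb1 {C : ℝ} {F : ℝ → ℝ} (h : Adm C F) : Sp7Cb (iteratedDeriv 1 F) :=
  sp7_cb_M (adm_ec h)

theorem nest_cb2 {C : ℝ} {F : ℝ → ℝ} (h : Adm C F) : Sp7Cb (iteratedDeriv 2 F) :=
  ⟨(adm_ec h).cD, 1, (adm_ec h).sm.bD⟩

theorem nest_cb_smul (c : ℝ) {ψ : ℝ → ℝ} (h : Sp7Cb ψ) : Sp7Cb (fun x => c * ψ x) := by
  obtain ⟨hc, K, hK⟩ := h
  refine ⟨continuous_const.mul hc, |c| * K, fun x => ?_⟩
  rw [abs_mul]
  exact mul_le_mul_of_nonneg_left (hK x) (abs_nonneg c)

theorem nest_cb_abs {ψ : ℝ → ℝ} (h : Sp7Cb ψ) : Sp7Cb (fun x => |ψ x|) := by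
  obtain ⟨hc, K, hK⟩ := h
  refine ⟨hc.abs, K, fun x => ?_⟩
  rw [abs_abs]
  exact hK x

theorem nest_cb_mul {ψ φ : ℝ → ℝ} (h : Sp7Cb ψ) (h' : Sp7Cb φ) :
    Sp7Cb (fun x => ψ x * φ x) := by
  obtain ⟨hc, K, hK⟩ := h
  obtain ⟨hc', K', hK'⟩ := h'
  refine ⟨hc.mul hc', K * K', fun x => ?_⟩
  rw [abs_mul]
  exact mul_le_mul (hK x) (hK' x) (abs_nonneg _) ((abs_nonneg _).trans (hK x))

theorem nest_cb_pow {ψ : ℝ → ℝ} (h : Sp7Cb ψ) (k : ℕ) : Sp7Cb (fun x => ψ x ^ k) := by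
  obtain ⟨hc, K, hK⟩ := h
  refine ⟨hc.pow k, K ^ k, fun x => ?_⟩
  rw [abs_pow]
  exact pow_le_pow_left₀ (abs_nonneg _) (hK x) k

/-! ### Nested averages -/

theorem ee_zero (h0 : r 0 = 0) (ψ : ℝ → ℝ) : Ee n m r 0 ψ = ψ 0 := by
  unfold Ee
  rw [chn_zero_def, h0, Real.sqrt_zero]
  simp

theorem ee_succ {l : ℕ} (hl : l < n) (ψ : ℝ → ℝ) : Ee n m r (l + 1) ψ =
    Ee n m r l (tlt (m (l + 1)) (r (l + 1) - r l) (Fl n m r (l + 1)) ψ) := by
  unfold Ee
  rw [chn_succ_def, ← fl_succ hl]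

theorem ee_mono (hm : Exponents n m) (hr : Path n r) {l : ℕ} (hl : l ≤ n) {ψ φ : ℝ → ℝ}
    (hψ : Sp7Cb ψ) (hφ : Sp7Cb φ) (h : ∀ x, ψ x ≤ φ x) : Ee n m r l ψ ≤ Ee n m r l φ :=
  sp7_chn_mono m r l (nest_exp hm hl) (fl_ec hm hr hl) hψ hφ h

theorem ee_add (hm : Exponents n m) (hr : Path n r) {l : ℕ} (hl : l ≤ n) {ψ φ : ℝ → ℝ}
    (hψ : Sp7Cb ψ) (hφ : Sp7Cb φ) :
    Ee n m r l (fun x => ψ x + φ x) = Ee n m r l ψ + Ee n m r l φ :=
  sp7_chn_add m r l (nest_exp hm hl) (fl_ec hm hr hl) hψ hφ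

theorem ee_smul (l : ℕ) (c : ℝ) (ψ : ℝ → ℝ) :
    Ee n m r l (fun x => c * ψ x) = c * Ee n m r l ψ :=
  sp4_chn_const_mul m r c l _ ψ

theorem ee_const (hm : Exponents n m) (hr : Path n r) {l : ℕ} (hl : l ≤ n) (c : ℝ) :
    Ee n m r l (fun _ => c) = c :=
  sp7_chn_const m r l (nest_exp hm hl) (fl_ec hm hr hl) c

/-! ### The overlaps -/

theorem nest_Rc {m r : ℕ → ℝ} (l : ℕ) : ∀ (c : ℕ), Sp7Exp m (l + c) → ∀ {F M D : ℝ → ℝ},
    Ec F M D → Rc m r (l + c) F M l =
      chn m r l (cascade (fun i => m (l + i)) (fun i => r (l + i)) c F)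
        (fun x => iteratedDeriv 1 (cascade (fun i => m (l + i)) (fun i => r (l + i)) c F) x ^ 2) := by
  intro c
  induction c with
  | zero =>
    intro _ F M D h
    have e : cascade (fun i => m (l + i)) (fun i => r (l + i)) 0 F = F := rfl
    rw [e, add_zero, Rc_self, adm_it1 h.d1]
  | succ c ih =>
    intro hm F M D h
    obtain ⟨hm0, hm1⟩ := hm (l + c) (by omega)
    have h1 := ih (fun i hi => hm i (by omega)) (h.step hm0 hm1 (r (l + c + 1) - r (l + c)))
    rw [← Nat.add_assoc, Rc_succ_le m r (l + c) F M (Nat.le_add_right l c), h1, cascade_succ_def]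
    rfl

theorem spR_eq (hm : Exponents n m) (hr : Path n r) {l : ℕ} (hl : l ≤ n) :
    spR n m r l = Ee n m r l (fun x => iteratedDeriv 1 (Fl n m r l) x ^ 2) := by
  have h := nest_Rc (m := m) (r := r) l (n - l)
    (by rw [Nat.add_sub_cancel' hl]; exact sp7_exp_of hm) ec_logcosh
  rw [Nat.add_sub_cancel' hl] at h
  unfold spR Ee Fl
  exact h

/-! ### Cauchy–Schwarz -/

/-- Cauchy–Schwarz -/
theorem chn_abs_le {C s : ℝ} {F ψ : ℝ → ℝ} (hF : Adm C F) {l : ℕ}
    (hm0 : ∀ i < l, 0 < m (i + 1) ∧ m (i + 1) ≤ 1) (hr : ∀ i < l, r i ≤ r (i + 1))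
    (hψ : Sp7Cb ψ) (h : chn m r l F (fun x => ψ x ^ 2) ≤ s) :
    chn m r l F (fun x => |ψ x|) ≤ √s := by
  have he := adm_ec hF
  have ha := nest_cb_abs hψ
  set w := chn m r l F (fun x => |ψ x|) with hw
  have h1 := sp7_chn_mono m r l hm0 he (sp7_cb_add (nest_cb_smul (2 * w) ha)
    (sp7_cb_const (-w ^ 2))) (sp7_cb_sq hψ) (fun x => by
      have := sq_nonneg (|ψ x| - w)
      have h2 := sq_abs (ψ x)
      linarith only [h2, this])
  rw [sp7_chn_add m r l hm0 he (nest_cb_smul (2 * w) ha) (sp7_cb_const (-w ^ 2)),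
    sp4_chn_const_mul, sp7_chn_const m r l hm0 he, ← hw] at h1
  exact (le_abs_self w).trans (Real.abs_le_sqrt (by linarith only [h1, h]))

/-! ### Convexity of the recursion -/

/-- convexity of one step in the function -/
theorem nest_step_convex {C C' g : ℝ} {F G : ℝ → ℝ} (hF : Adm C F) (hG : Adm C' G) (hg : 0 < g)
    (v : ℝ) {B : ℝ} (hb : ∀ x, |G x - F x| ≤ B) (x : ℝ) :
    gstep g v G x - gstep g v F x ≤ tlt g v G (fun y => G y - F y) x := by
  have heF := adm_ec hF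
  have heG := adm_ec hG
  have hcF : Continuous F := heF.sm.cont
  have hcG : Continuous G := heG.sm.cont
  set ψ : ℝ → ℝ := fun y => G y - F y with hψ
  have hψc : Continuous ψ := hcG.sub hcF
  set a : ℝ := tlt g v G ψ x with ha
  have hF0 := heF.sm.int_exp_pos g v x
  have hG0 := heG.sm.int_exp_pos g v x
  -- `exp (g F) = exp (-g ψ) exp (g G) ≥ exp (-g a) (1 - g (ψ - a)) exp (g G)`
  have h1 : Real.exp (-(g * a)) * ∫ z, Real.exp (g * G (x + √v * z)) ∂(gaussianReal 0 1) ≤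
      ∫ z, Real.exp (g * F (x + √v * z)) ∂(gaussianReal 0 1) := by
    have hi := heG.sm.integrable (g := ψ) hψc hb g v x
    have hi0 := heG.sm.integrable_exp g v x
    have h2 : ∫ z, (Real.exp (-(g * a)) * ((1 + g * a) * Real.exp (g * G (x + √v * z)) -
        g * (ψ (x + √v * z) * Real.exp (g * G (x + √v * z))))) ∂(gaussianReal 0 1) ≤
        ∫ z, Real.exp (g * F (x + √v * z)) ∂(gaussianReal 0 1) := by
      refine integral_mono (((hi0.const_mul _).sub (hi.const_mul _)).const_mul _)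
        (heF.sm.integrable_exp g v x) fun z => ?_
      simp only
      set y := x + √v * z
      have h3 : Real.exp (g * F y) =
          Real.exp (-(g * a)) * (Real.exp (g * (a - ψ y)) * Real.exp (g * G y)) := by
        rw [← Real.exp_add, ← Real.exp_add]
        congr 1
        simp only [hψ]
        ring
      rw [h3]
      refine mul_le_mul_of_nonneg_left ?_ (Real.exp_pos _).le
      have h4 := Real.add_one_le_exp (g * (a - ψ y))
      have h5 := mul_le_mul_of_nonneg_right h4 (Real.exp_pos (g * G y)).le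
      linarith
    refine le_trans (le_of_eq ?_) h2
    rw [integral_const_mul, integral_sub (hi0.const_mul _) (hi.const_mul _), integral_const_mul,
      integral_const_mul]
    have h6 : ∫ z, ψ (x + √v * z) * Real.exp (g * G (x + √v * z)) ∂(gaussianReal 0 1) =
        a * ∫ z, Real.exp (g * G (x + √v * z)) ∂(gaussianReal 0 1) := by
      rw [ha]
      unfold tlt
      field_simp
    rw [h6]
    ring
  have h7 := Real.log_le_log (mul_pos (Real.exp_pos _) hG0) h1
  rw [Real.log_mul (Real.exp_pos _).ne' hG0.ne', Real.log_exp] at h7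
  unfold gstep
  rw [← mul_sub, one_div, inv_mul_le_iff₀ hg]
  linarith

/-- convexity of the recursion in the function -/
theorem casc_convex {C C' : ℝ} {F G : ℝ → ℝ} (hF : Adm C F) (hG : Adm C' G) (h0 : r 0 = 0)
    {l : ℕ} (hm0 : ∀ i < l, 0 < m (i + 1) ∧ m (i + 1) ≤ 1) (hr : ∀ i < l, r i ≤ r (i + 1))
    (hb : ∃ B, ∀ x, |G x - F x| ≤ B) :
    cascade m r l G 0 - cascade m r l F 0 ≤ chn m r l G (fun x => G x - F x) := by
  induction l generalizing F G C C' with
  | zero =>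
    rw [chn_zero_def, h0, Real.sqrt_zero]
    have e : ∀ H : ℝ → ℝ, cascade m r 0 H = H := fun _ => rfl
    rw [e, e]
    simp
  | succ l ih =>
    obtain ⟨g0, g1⟩ := hm0 l (Nat.lt_succ_self l)
    have hv : 0 ≤ r (l + 1) - r l := sub_nonneg.2 (hr l (Nat.lt_succ_self l))
    obtain ⟨B, hB⟩ := hb
    have hm' : Sp7Exp m l := fun i hi => hm0 i (by omega)
    have hF' := hF.step g0 g1 hv
    have hG' := hG.step g0 g1 hv
    have h1 := ih hF' hG' hm' (fun i hi => hr i (by omega))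
      ⟨B, gstep_nonexp hG hF g0 _ hB⟩
    rw [cascade_succ_def, cascade_succ_def, chn_succ_def]
    refine h1.trans ?_
    have hc : Sp7Cb (fun x => G x - F x) :=
      ⟨(adm_ec hG).sm.cont.sub (adm_ec hF).sm.cont, B, hB⟩
    refine sp7_chn_mono m r l hm' (adm_ec hG') ?_ (sp7_cb_tlt (adm_ec hG) hc _ _) ?_
    · exact ⟨(adm_ec hG').sm.cont.sub (adm_ec hF').sm.cont, B, gstep_nonexp hG hF g0 _ hB⟩
    · intro x
      exact nest_step_convex hF hG g0 _ hB x

/-! ### The second moments of the second derivative -/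

theorem Ml_zero (h0 : r 0 = 0) : Ml n m r 0 = iteratedDeriv 2 (cascade m r n lc) 0 ^ 2 := by
  unfold Ml
  rw [ee_zero h0, fl_zero]

theorem Ml_last (hm : Exponents n m) (hr : Path n r) : 1 - 2 * spR n m r n ≤ Ml n m r n := by
  have hT : Sp7Cb Real.tanh := sp7_cb_M ec_logcosh
  have e2 : (fun x => iteratedDeriv 2 (Fl n m r n) x ^ 2) =
      fun x => (1 - Real.tanh x ^ 2) ^ 2 := by
    rw [fl_last, adm_lc_it2]
  have e1 : spR n m r n = Ee n m r n (fun x => Real.tanh x ^ 2) := by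
    rw [spR_eq hm hr le_rfl, fl_last, adm_lc_it1]
  have hcb : Sp7Cb (fun x => (1 - Real.tanh x ^ 2) ^ 2) := by
    have h1 := sp7_cb_sq (sp7_cb_add (sp7_cb_const 1) (sp7_cb_neg (sp7_cb_sq hT)))
    have e : (fun x => (1 + -(Real.tanh x ^ 2)) ^ 2) = fun x => (1 - Real.tanh x ^ 2) ^ 2 := by
      funext x
      ring
    rw [← e]
    exact h1
  have h2 := ee_mono hm hr le_rfl (sp7_cb_add (sp7_cb_const 1) (nest_cb_smul (-2) (sp7_cb_sq hT)))
    hcb (fun x => by
      have := sq_nonneg (Real.tanh x ^ 2)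
      linarith only [this])
  rw [ee_add hm hr le_rfl (sp7_cb_const 1) (nest_cb_smul (-2) (sp7_cb_sq hT)), ee_smul,
    ee_const hm hr le_rfl, ← e1] at h2
  unfold Ml
  rw [e2]
  linarith

end Vale.Agent.P146.Pw2
end

section

/-!
# P146 / Pw2 / SPLIT0 (P3): the upper bound of the response at zero
-/

open MeasureTheory ProbabilityTheory Filter Topology Set

namespace Vale.Agent.P146.Pw2

open Vale.Agent.P157.Par Vale.Agent.P146.Gap

/-- Change of the tilt exponent, for any two tilts. -/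
theorem Rf_tilt2 (S : ℝ) : ∃ K : ℝ, 0 ≤ K ∧ ∀ (C g g₁ g₂ s₁ : ℝ) (F : ℝ → ℝ), Adm C F → 0 < g →
    g ≤ 1 → 0 < g₁ → g₁ ≤ g₂ → g₂ ≤ 1 → s₁ ≤ S → ∀ τ ∈ Icc 0 s₁,
      Rf g₂ g s₁ F τ ≤ Rf g₁ g s₁ F τ + K * (g₂ - g₁) * τ := by
  refine ⟨√S * ∫ z, |z| ^ 3 * Real.exp (√S * |z|) ∂(gaussianReal 0 1), ?_, ?_⟩
  · exact mul_nonneg (Real.sqrt_nonneg _) (integral_nonneg fun z => by positivity)
  intro C g₀ g g' s₁ F h hg₀ hg₀1 hg hgg hg'1 hS τ hτ
  have hg1 : g ≤ 1 := hgg.trans hg'1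
  set I := ∫ z, |z| ^ 3 * Real.exp (√S * |z|) ∂(gaussianReal 0 1) with hI
  have hE := first_ec h hg₀ hg₀1 hτ
  set G := gstep g₀ (s₁ - τ) F with hG
  set M := first_f g₀ s₁ F 1 τ with hM
  set D := first_f g₀ s₁ F 2 τ with hD
  set w : ℝ → ℝ := fun y => G y + -(G 0) with hw
  have hw0 : ∀ y, 0 ≤ w y := fun y => by
    have := first_min hE y
    simp only [hw]; linarith
  have hw1 : ∀ y, w y ≤ |y| := fun y => by
    have := hE.sm.lip y 0
    rw [sub_zero, one_mul] at this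
    exact (le_abs_self _).trans this
  have hwS : Sm 1 1 w M D :=
    ⟨fun x => by simpa [hw] using (hE.d1 x).add_const (-(G 0)), hE.d2, hE.cD, hE.sm.bM, hE.sm.bD⟩
  have hMc : Continuous fun x => M x * M x := hE.sm.cont1.mul hE.sm.cont1
  have hMb : ∀ x, |M x * M x| ≤ 1 := fun x => by
    rw [abs_mul]
    have := hE.abs_M x
    (by_contra nlg; linarith only [nlg, mul_nonneg (sub_nonneg.2 this) (sub_nonneg.2 (abs_nonneg (M x))), mul_nonneg (sub_nonneg.2 this) (sub_nonneg.2 this), mul_nonneg (le_of_lt (sub_pos.2 (not_le.1 nlg))) (sub_nonneg.2 hg1), mul_pos (sub_pos.2 (not_le.1 nlg)) (sub_pos.2 hg)])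
  have e : ∀ m : ℝ, tlt m τ G (fun x => M x * M x) 0 = tlt m τ w (fun x => M x * M x) 0 :=
    fun m => (sp5_tlt_add_const m τ (-(G 0)) G (fun x => M x * M x) 0).symm
  rw [first_Rf_eq, first_Rf_eq]
  simp only []
  rw [← hG, ← hM, e, e]
  unfold tlt
  set A' := ∫ z, M (0 + √τ * z) * M (0 + √τ * z) * Real.exp (g' * w (0 + √τ * z))
    ∂(gaussianReal 0 1) with hA'
  set Z' := ∫ z, Real.exp (g' * w (0 + √τ * z)) ∂(gaussianReal 0 1) with hZ'
  set A := ∫ z, M (0 + √τ * z) * M (0 + √τ * z) * Real.exp (g * w (0 + √τ * z))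
    ∂(gaussianReal 0 1) with hA
  set Z := ∫ z, Real.exp (g * w (0 + √τ * z)) ∂(gaussianReal 0 1) with hZ
  have hτ0 : 0 ≤ τ := hτ.1
  have hτS : τ ≤ S := hτ.2.trans hS
  have hZ1 : 1 ≤ Z := by
    have h1 : ∫ _z : ℝ, (1 : ℝ) ∂(gaussianReal 0 1) = 1 := by simp
    rw [← h1, hZ]
    refine integral_mono (integrable_const _) (hwS.integrable_exp g τ 0) fun z => ?_
    exact Real.one_le_exp (mul_nonneg hg.le (hw0 _))
  have hZZ : Z ≤ Z' := by
    refine integral_mono (hwS.integrable_exp g τ 0) (hwS.integrable_exp g' τ 0) fun z => ?_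
    exact Real.exp_le_exp.2 (mul_le_mul_of_nonneg_right hgg (hw0 _))
  have hA'0 : 0 ≤ A' := integral_nonneg fun z => mul_nonneg (mul_self_nonneg _) (Real.exp_pos _).le
  have hAA : A' ≤ A + √S * I * (g' - g) * τ := by
    have h1 : A + √S * I * (g' - g) * τ = ∫ z, (M (0 + √τ * z) * M (0 + √τ * z) *
        Real.exp (g * w (0 + √τ * z)) + (√S * (g' - g) * τ) *
          (|z| ^ 3 * Real.exp (√S * |z|))) ∂(gaussianReal 0 1) := by
      rw [integral_add (hwS.integrable hMc hMb g τ 0) ((first_cube_int _).const_mul _),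
        integral_const_mul]
      ring
    rw [h1, hA']
    refine integral_mono (hwS.integrable hMc hMb g' τ 0)
      ((hwS.integrable hMc hMb g τ 0).add ((first_cube_int _).const_mul _)) fun z => ?_
    simp only [zero_add]
    set y := √τ * z with hy
    have hη : 0 ≤ g' - g := by linarith
    have k1 : Real.exp (g' * w y) - Real.exp (g * w y) ≤ (g' - g) * |y| * Real.exp |y| := by
      have k2 : Real.exp (g * w y) = Real.exp (g' * w y) * Real.exp (-((g' - g) * w y)) := by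
        rw [← Real.exp_add]; congr 1; ring
      have k3 := Real.add_one_le_exp (-((g' - g) * w y))
      have k4 : Real.exp (g' * w y) ≤ Real.exp |y| := by
        apply Real.exp_le_exp.2
        have := hw0 y
        have := hw1 y
        nlinarith
      have k5 : 0 ≤ (g' - g) * w y := mul_nonneg hη (hw0 y)
      calc Real.exp (g' * w y) - Real.exp (g * w y)
          = Real.exp (g' * w y) * (1 - Real.exp (-((g' - g) * w y))) := by rw [k2]; ring
        _ ≤ Real.exp (g' * w y) * ((g' - g) * w y) :=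
            mul_le_mul_of_nonneg_left (by linarith) (Real.exp_pos _).le
        _ ≤ Real.exp |y| * ((g' - g) * |y|) :=
            mul_le_mul k4 (mul_le_mul_of_nonneg_left (hw1 y) hη) k5 (Real.exp_pos _).le
        _ = _ := by ring
    have k6 : M y * M y ≤ y ^ 2 := by rw [← sq]; exact first_M_le hE y
    have k7 : |y| = √τ * |z| := by rw [hy, abs_mul, abs_of_nonneg (Real.sqrt_nonneg τ)]
    have k8 : √τ ≤ √S := Real.sqrt_le_sqrt hτS
    have k9 : (g' - g) * |y| ^ 3 * Real.exp |y| ≤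
        √S * (g' - g) * τ * (|z| ^ 3 * Real.exp (√S * |z|)) := by
      have j1 : Real.exp |y| ≤ Real.exp (√S * |z|) := by
        rw [k7]
        exact Real.exp_le_exp.2 (mul_le_mul_of_nonneg_right k8 (abs_nonneg _))
      have j2 : |y| ^ 3 = √τ * τ * |z| ^ 3 := by
        rw [k7, mul_pow, pow_succ, Real.sq_sqrt hτ0]; ring
      calc (g' - g) * |y| ^ 3 * Real.exp |y|
          ≤ (g' - g) * (√S * τ * |z| ^ 3) * Real.exp (√S * |z|) := by
            refine mul_le_mul (mul_le_mul_of_nonneg_left ?_ hη) j1 (Real.exp_pos _).le ?_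
            · rw [j2]
              exact mul_le_mul_of_nonneg_right (mul_le_mul_of_nonneg_right k8 hτ0)
                (by (clear * -; positivity))
            · have := Real.sqrt_nonneg S
              (clear * - hgg hτ0; positivity)
        _ = _ := by ring
    have k10 : M y * M y * (Real.exp (g' * w y) - Real.exp (g * w y)) ≤
        (g' - g) * |y| ^ 3 * Real.exp |y| := by
      have j3 : 0 ≤ Real.exp (g' * w y) - Real.exp (g * w y) := by
        have := Real.exp_le_exp.2 (mul_le_mul_of_nonneg_right hgg (hw0 y))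
        linarith
      calc M y * M y * (Real.exp (g' * w y) - Real.exp (g * w y))
          ≤ y ^ 2 * ((g' - g) * |y| * Real.exp |y|) :=
            mul_le_mul k6 k1 j3 (sq_nonneg _)
        _ = _ := by rw [← sq_abs]; ring
    linarith
  have hZ0 : 0 < Z := by linarith
  have hr : 0 ≤ √S * I * (g' - g) * τ := by
    have : 0 ≤ I := integral_nonneg fun z => by (clear * -; positivity)
    have := Real.sqrt_nonneg S
    have : 0 ≤ g' - g := by linarith
    (clear * - hgg hτ0; positivity)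
  calc A' / Z' ≤ A' / Z := div_le_div_of_nonneg_left hA'0 hZ0 hZZ
    _ ≤ (A + √S * I * (g' - g) * τ) / Z := div_le_div_of_nonneg_right hAA hZ0.le
    _ = A / Z + √S * I * (g' - g) * τ / Z := add_div _ _ _
    _ ≤ A / Z + √S * I * (g' - g) * τ := by
        have := div_le_self hr hZ1
        linarith only [this]

/-- the derivative at `0` of a function with small integrals -/
theorem split_real {V a : ℝ} {R M : ℝ → ℝ} (hV : 0 < V) (hR : ContinuousOn R (Icc 0 V))
    (hM : ContinuousOn M (Icc 0 V)) (hd : ∀ τ ∈ Ioo 0 V, HasDerivAt R (M τ) τ) (h0 : R 0 = 0)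
    (hle : ∀ t ∈ Ioc 0 V, ∫ τ in (0 : ℝ)..t, R τ ≤ a * t ^ 2 / 2) : M 0 ≤ a := by
  by_contra hcon
  push Not at hcon
  have hε : 0 < (M 0 - a) / 2 := by linarith
  obtain ⟨δ, hδ, hball⟩ := Metric.continuousOn_iff.1 hM 0 (left_mem_Icc.2 hV.le) _ hε
  set t := min (δ / 2) V with ht
  have ht0 : 0 < t := lt_min (by positivity) hV
  have htV : t ≤ V := min_le_right _ _
  have htδ : t < δ := (min_le_left _ _).trans_lt (by linarith)
  have hMlow : ∀ τ ∈ Ioo 0 t, a + (M 0 - a) / 2 ≤ M τ := by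
    intro τ hτ
    have h1 := hball τ ⟨hτ.1.le, hτ.2.le.trans htV⟩ (by
      rw [Real.dist_eq, sub_zero, abs_of_pos hτ.1]
      exact hτ.2.trans htδ)
    rw [Real.dist_eq] at h1
    have := (abs_lt.1 h1).1
    linarith only [this]
  have hRlow : ∀ τ ∈ Icc 0 t, (a + (M 0 - a) / 2) * τ ≤ R τ := by
    intro τ hτ
    rcases hτ.1.eq_or_lt with h | h
    · rw [← h, h0, mul_zero]
    · obtain ⟨ξ, hξ, he⟩ := exists_hasDerivAt_eq_slope R M h
        (hR.mono (Icc_subset_Icc_right (hτ.2.trans htV)))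
        (fun x hx => hd x ⟨hx.1, hx.2.trans_le (hτ.2.trans htV)⟩)
      rw [h0, sub_zero, sub_zero, eq_div_iff h.ne'] at he
      rw [← he]
      exact mul_le_mul_of_nonneg_right (hMlow ξ ⟨hξ.1, hξ.2.trans_le hτ.2⟩) h.le
  have h1 : ∫ τ in (0 : ℝ)..t, (a + (M 0 - a) / 2) * τ ≤ ∫ τ in (0 : ℝ)..t, R τ :=
    intervalIntegral.integral_mono_on ht0.le ((by fun_prop : Continuous fun τ : ℝ =>
      (a + (M 0 - a) / 2) * τ).intervalIntegrable _ _)
      ((hR.mono (Icc_subset_Icc_right htV)).intervalIntegrable_of_Icc ht0.le) hRlow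
  have h2 : ∫ τ in (0 : ℝ)..t, (a + (M 0 - a) / 2) * τ = (a + (M 0 - a) / 2) * t ^ 2 / 2 := by
    rw [intervalIntegral.integral_const_mul, integral_id]
    ring
  have h3 := hle t ⟨ht0, htV⟩
  have h4 : 0 < (M 0 - a) / 2 * t ^ 2 := by positivity
  linarith only [h4, h3, h2, h1]

/-- raising a level from zero -/
theorem split_A {b K S C g g₁ V : ℝ} {G : ℝ → ℝ} (hb : 0 < b)
    (htilt : ∀ (C g g₁ g₂ s₁ : ℝ) (F : ℝ → ℝ), Adm C F → 0 < g →
      g ≤ 1 → 0 < g₁ → g₁ ≤ g₂ → g₂ ≤ 1 → s₁ ≤ S → ∀ τ ∈ Icc 0 s₁,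
        Rf g₂ g s₁ F τ ≤ Rf g₁ g s₁ F τ + K * (g₂ - g₁) * τ) (hG : Adm C G)
    (hg₁ : 0 < g₁) (hgg : g₁ < g) (hg1 : g ≤ 1) (hV : 0 < V) (hVS : V ≤ S)
    (hmin : ∀ t ∈ Ioc 0 V, gstep g V G 0 ≤
      gstep g₁ t (gstep g (V - t) G) 0 + (g - g₁) * t ^ 2 / (4 * b ^ 2)) :
    iteratedDeriv 2 (gstep g V G) 0 ^ 2 ≤ 1 / b ^ 2 + K * (g - g₁) := by
  have hg : 0 < g := hg₁.trans hgg
  have hg₁1 : g₁ ≤ 1 := hgg.le.trans hg1
  rw [← Mf_zero hG hg hg1 hV.le]
  refine split_real hV (Rf_cont hG hg hg1 hg hg1) (Mf_cont hG hg hg1)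
    (fun τ hτ => Rf_hasDerivAt hG hg hg1 hτ) (Rf_zero hG hg hg1 _ hV.le) fun t ht => ?_
  have hVt : 0 ≤ V - t := by linarith [ht.2]
  have hGt := hG.step hg hg1 hVt
  have e1 : gstep g t (gstep g (V - t) G) = gstep g V G := by
    rw [gstep_add hG hg ht.1.le hVt]
    congr 1
    ring
  have h1 := gstep_diff hGt hg hg1 hg₁ hg₁1 ht.1.le 0
  rw [e1] at h1
  have e2 : (∫ τ in (0 : ℝ)..t, tlt g₁ τ (gstep g (t - τ) (gstep g (V - t) G))
      (fun y => iteratedDeriv 1 (gstep g (t - τ) (gstep g (V - t) G)) y ^ 2) 0) =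
      ∫ τ in (0 : ℝ)..t, Rf g₁ g V G τ := by
    refine intervalIntegral.integral_congr fun τ hτ => ?_
    rw [uIcc_of_le ht.1.le] at hτ
    have e3 : gstep g (t - τ) (gstep g (V - t) G) = gstep g (V - τ) G := by
      rw [gstep_add hG hg (by linarith [hτ.2]) hVt]
      congr 1
      ring
    rw [e3]
    rfl
  rw [e2] at h1
  have h2 := hmin t ht
  set I := ∫ τ in (0 : ℝ)..t, Rf g₁ g V G τ with hI
  have h3 : 0 < g - g₁ := by linarith
  have h4 : (g - g₁) * I ≤ (g - g₁) * (1 / b ^ 2 * t ^ 2 / 2) := by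
    have h5 : (g - g₁) * (1 / b ^ 2 * t ^ 2 / 2) = 2 * ((g - g₁) * t ^ 2 / (4 * b ^ 2)) := by
      field_simp
      ring
    rw [h5]
    linarith only [h1, h2]
  have h5 : I ≤ 1 / b ^ 2 * t ^ 2 / 2 := le_of_mul_le_mul_left h4 h3
  have hcR : ∀ g' : ℝ, 0 < g' → g' ≤ 1 → ContinuousOn (Rf g' g V G) (Icc 0 t) := fun g' h h' =>
    (Rf_cont hG hg hg1 h h').mono (Icc_subset_Icc_right ht.2)
  have h6 : ∫ τ in (0 : ℝ)..t, Rf g g V G τ ≤
      ∫ τ in (0 : ℝ)..t, (Rf g₁ g V G τ + K * (g - g₁) * τ) := by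
    refine intervalIntegral.integral_mono_on ht.1.le
      ((hcR g hg hg1).intervalIntegrable_of_Icc ht.1.le)
      (((hcR g₁ hg₁ hg₁1).add (by fun_prop)).intervalIntegrable_of_Icc ht.1.le) fun τ hτ => ?_
    exact htilt C g g₁ g V G hG hg hg1 hg₁ hgg.le hg1 hVS τ ⟨hτ.1, hτ.2.trans ht.2⟩
  have h7 : ∫ τ in (0 : ℝ)..t, (Rf g₁ g V G τ + K * (g - g₁) * τ) =
      I + K * (g - g₁) * (t ^ 2 / 2) := by
    rw [intervalIntegral.integral_add ((hcR g₁ hg₁ hg₁1).intervalIntegrable_of_Icc ht.1.le)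
      ((by fun_prop : Continuous fun τ : ℝ => K * (g - g₁) * τ).intervalIntegrable _ _),
      intervalIntegral.integral_const_mul, integral_id]
    ring
  rw [h7] at h6
  calc _ ≤ I + K * (g - g₁) * (t ^ 2 / 2) := h6
    _ ≤ 1 / b ^ 2 * t ^ 2 / 2 + K * (g - g₁) * (t ^ 2 / 2) := by linarith only [h5]
    _ = _ := by ring

/-- `M' ≥ -2 g M` -/
theorem split_M1f {C g s₁ τ : ℝ} {F : ℝ → ℝ} (h : Adm C F) (hg : 0 < g) (hg1 : g ≤ 1)
    (hτ : τ ∈ Icc 0 s₁) : -(2 * g) * Mf g s₁ F τ ≤ M1f g s₁ F τ := by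
  obtain ⟨L, B, hsm⟩ := first_sm h hg hτ
  have b2 := first_f_bc h hg s₁ 1
  have b3 := first_f_bc h hg s₁ 2
  have hb := (b3.mul b3).add ((b2.mul (b2.mul b2)).smul (-(2 * g)))
  have hb2 := (b2.mul b2).smul (-(2 * g))
  obtain ⟨K, hK⟩ := hb.2
  obtain ⟨K2, hK2⟩ := hb2.2
  rw [first_M1f_eq, first_Mf_eq]
  simp only
  rw [← tlt_const_mul]
  refine hsm.tlt_mono (hb2.slice τ) (hK2 τ) (hb.slice τ) (hK τ) (fun x => ?_) g τ 0
  obtain ⟨p1, p2⟩ := first_d1_sq h hg hg1 hτ x
  have p5 : first_f g s₁ F 2 τ x ≤ 1 := by linarith only [sq_nonneg (first_f g s₁ F 1 τ x), p2]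
  have p6 : 0 ≤ first_f g s₁ F 2 τ x * first_f g s₁ F 2 τ x * (1 - first_f g s₁ F 2 τ x) :=
    mul_nonneg (mul_nonneg p1.le p1.le) (by linarith)
  have p7 := mul_nonneg hg.le p6
  have p8 := mul_self_nonneg (first_f g s₁ F 3 τ x)
  linarith only [p8, p7]

/-- lower bound of the overlap of a block by the response at its bottom -/
theorem split_Rf_low {C g s₁ : ℝ} {F : ℝ → ℝ} (h : Adm C F) (hg : 0 < g) (hg1 : g ≤ 1)
    (hs : 0 < s₁) :
    Real.exp (-(2 * g * s₁)) * iteratedDeriv 2 (gstep g s₁ F) 0 ^ 2 * s₁ ≤ Rf g g s₁ F s₁ := by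
  rw [← Mf_zero h hg hg1 hs.le]
  have hM0 : 0 ≤ Mf g s₁ F 0 := by
    rw [Mf_zero h hg hg1 hs.le]
    exact sq_nonneg _
  obtain ⟨ξ, hξ, he⟩ := exists_hasDerivAt_eq_slope (Rf g g s₁ F) (Mf g s₁ F) hs
    (Rf_cont h hg hg1 hg hg1) (fun x hx => Rf_hasDerivAt h hg hg1 hx)
  rw [Rf_zero h hg hg1 _ hs.le, sub_zero, sub_zero, eq_div_iff hs.ne'] at he
  rw [← he]
  refine mul_le_mul_of_nonneg_right ?_ hs.le
  have hmono : MonotoneOn (fun τ => Real.exp (2 * g * τ) * Mf g s₁ F τ) (Icc 0 s₁) := by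
    refine monotoneOn_of_deriv_nonneg (convex_Icc 0 s₁)
      ((by fun_prop : Continuous fun τ : ℝ => Real.exp (2 * g * τ)).continuousOn.mul
        (Mf_cont h hg hg1)) ?_ ?_
    · rw [interior_Icc]
      intro τ hτ
      have h1 : DifferentiableAt ℝ (fun τ : ℝ => Real.exp (2 * g * τ)) τ := by fun_prop
      exact (h1.mul (Mf_hasDerivAt h hg hg1 hτ).differentiableAt).differentiableWithinAt
    · rw [interior_Icc]
      intro τ hτ
      have h1 : HasDerivAt (fun τ : ℝ => Real.exp (2 * g * τ))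
          (Real.exp (2 * g * τ) * (2 * g)) τ := by
        have := (((hasDerivAt_id τ).const_mul (2 * g))).exp
        simpa using this
      have h5 : deriv (fun τ => Real.exp (2 * g * τ) * Mf g s₁ F τ) τ = _ :=
        (h1.mul (Mf_hasDerivAt h hg hg1 hτ)).deriv
      rw [h5]
      have h2 := split_M1f h hg hg1 ⟨hτ.1.le, hτ.2.le⟩
      have h3 := Real.exp_pos (2 * g * τ)
      have h4 : 0 ≤ Real.exp (2 * g * τ) * (M1f g s₁ F τ - -(2 * g) * Mf g s₁ F τ) :=
        mul_nonneg h3.le (by linarith)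
      linarith
  have h1 := hmono (left_mem_Icc.2 hs.le) ⟨hξ.1.le, hξ.2.le⟩ hξ.1.le
  simp only [mul_zero, Real.exp_zero, one_mul] at h1
  have h2 : Real.exp (-(2 * g * s₁)) ≤ Real.exp (-(2 * g * ξ)) := by
    apply Real.exp_le_exp.2
    have := mul_le_mul_of_nonneg_left hξ.2.le (show 0 ≤ 2 * g by positivity)
    linarith
  calc Real.exp (-(2 * g * s₁)) * Mf g s₁ F 0
      ≤ Real.exp (-(2 * g * ξ)) * (Real.exp (2 * g * ξ) * Mf g s₁ F ξ) :=
        mul_le_mul h2 h1 hM0 (Real.exp_pos _).le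
    _ = Mf g s₁ F ξ := by
        rw [← mul_assoc, ← Real.exp_add]
        simp

/-- the second derivative of the bottom function does not change under the extension -/
theorem split_ext {b : ℝ} {k : ℕ} {m r : ℕ → ℝ} (hm : Exponents k m) (hr : BPath b k r) (x : ℝ) :
    iteratedDeriv 2 (cascade m (minbExt b k r) (k + 1) lc) x =
      iteratedDeriv 2 (cascade m r k lc) x := by
  have hP := minb_ext_P hr
  have h1 := minb_top (j := 0) hm hP.2.1 (by omega)
  simp only [Nat.zero_add, Nat.sub_zero] at h1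
  have e1 : (fun l => m l) = m := rfl
  have e2 : (fun l => minbExt b k r l) = minbExt b k r := rfl
  rw [e1, e2] at h1
  have h2 : cascade m (minbExt b k r) k lc = cascade m r k lc :=
    minb_congr (fun _ _ _ => rfl) (fun l hl => by simp [minbExt, hl]) lc
  rw [h1, h2]
  have h3 : deriv (fun x => cascade m r k lc x + (minbExt b k r (k + 1) - minbExt b k r k) / 2) =
      deriv (cascade m r k lc) := funext fun y => deriv_add_const _
  have h4 : ∀ f : ℝ → ℝ, iteratedDeriv 2 f = iteratedDeriv 1 (deriv f) := fun f =>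
    iteratedDeriv_succ'
  rw [h4, h4, h3]

/-- (B) the first block starts at the level one -/
theorem split_B {b : ℝ} (hb : 0 < b) {k : ℕ} {m : ℕ → ℝ} (hm : Exponents k m) {r : ℕ → ℝ}
    (hr : BPath b k r) (hmin : ∀ r', BPath b k r' → SKr b k m r ≤ SKr b k m r')
    (hk1 : 1 ≤ k) (hr1 : 0 < r 1) :
    ∃ F : ℝ → ℝ, Adm (2 * Real.exp (2 * b ^ 2)) F ∧
      (∀ x, iteratedDeriv 2 (cascade m r k lc) x = iteratedDeriv 2 (gstep (m 1) (r 1) F) x) ∧
      Rf (m 1) (m 1) (r 1) F (r 1) ≤ r 1 / b ^ 2 := by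
  classical
  obtain ⟨emono, e0, e1⟩ := minb_exp hm
  set R := minbExt b k r with hRdef
  have hP : MinbP b k R := minb_ext_P hr
  have hRmin : ∀ R', MinbP b k R' → minbJ b k m R ≤ minbJ b k m R' :=
    fun R' h => minb_min_ext hm hr hmin h
  have hmonoR : ∀ i j, i ≤ j → j ≤ k + 1 → R i ≤ R j := fun i j h1 h2 => minb_mono hP.2.1 h1 h2
  have hR1 : R 1 = r 1 := by simp [hRdef, minbExt, hk1]
  rw [← hR1] at hr1 ⊢
  have hgoodR : ∀ i n : ℕ, i + n ≤ k + 1 →
      Good (if n = 0 then 1 else m (i + 1)) (2 * Real.exp (2 * b ^ 2))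
        (cascade (fun l => m (i + l)) (fun l => R (i + l)) n lc) := by
    intro i n hin
    have h1 := good_cascade (c := n) (m := fun l => m (i + l)) (r := fun l => R (i + l)) good_lc
      le_rfl (fun l h1 h2 => e0 _ (by omega) (by omega))
      (fun l h1 h2 => emono _ _ (by omega) (by omega))
      (fun l h1 h2 => e1 _ (by omega)) (fun l hl => hP.2.1 _ (by omega))
    refine h1.mono_C ?_
    have h2 := hmonoR (i + n) (k + 1) hin le_rfl
    have h3 := hmonoR 0 (i + 0) (by omega) (by omega)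
    rw [hP.2.2] at h2
    rw [hP.1] at h3
    gcongr
    linarith
  have hadmR : ∀ i n : ℕ, i + n ≤ k + 1 → Adm (2 * Real.exp (2 * b ^ 2))
      (cascade (fun l => m (i + l)) (fun l => R (i + l)) n lc) := fun i n h => (hgoodR i n h).adm
  have hm1 : 0 < m 1 := e0 1 le_rfl (by omega)
  have h0 : ∀ l < 1, R l = 0 := fun l hl => by
    have : l = 0 := by omega
    rw [this]; exact hP.1
  set F := cascade (fun l => m (1 + l)) (fun l => R (1 + l)) (k + 1 - 1) lc with hF
  have hcas : cascade m R (k + 1) lc = gstep (m 1) (R 1) F := by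
    have hk : k + 1 = 1 + (k + 1 - 1) := by omega
    conv_lhs => rw [hk, minb_split]
    rw [minb_block le_rfl (fun l h1 h2 => (e0 _ (by omega) (by omega)).ne')
      (fun l hl => by rw [h0 l hl, h0 0 (by omega)]), h0 0 (by omega), sub_zero]
  refine ⟨F, hadmR 1 (k + 1 - 1) (by omega), fun x => ?_, ?_⟩
  · rw [← split_ext hm hr x, ← hcas]
  by_cases hjb : R 1 = b ^ 2
  · refine (Rf_le_one (hadmR 1 (k + 1 - 1) (by omega)) hm1 (e1 1 (by omega)) hm1
      ⟨hr1.le, le_rfl⟩).trans (le_of_eq ?_)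
    rw [hjb, div_self (by positivity)]
  have hlt : R 1 < R (k + 1) := by
    have h1 := hmonoR 1 (k + 1) (by omega) le_rfl
    rcases h1.lt_or_eq with h2 | h2
    · exact h2
    · exact absurd (by rw [h2, hP.2.2]) hjb
  have hex2 : ∃ l, R 1 < R l := ⟨k + 1, hlt⟩
  set p := Nat.find hex2 with hp
  have hRp : R 1 < R p := Nat.find_spec hex2
  have hpk : p ≤ k + 1 := Nat.find_min' hex2 hlt
  have hjp : 1 < p := by
    by_contra h
    have := hmonoR p 1 (by omega) (by omega)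
    linarith only [this, hRp]
  have h1 : ∀ l, 1 ≤ l → l < p → R l = R 1 := by
    intro l h1 h2
    have h3 := Nat.find_min hex2 h2
    have h4 := hmonoR 1 l h1 (by omega)
    linarith [not_lt.1 h3]
  have hmp : m 1 < m p := by
    have := hm.2.2 1 hk1
    exact this.trans_le (emono (1 + 1) p (by omega) hpk)
  have hstep : F = gstep (m p) (R p - R 1)
      (cascade (fun l => m (p + l)) (fun l => R (p + l)) (k + 1 - p) lc) := by
    have hk : k + 1 - 1 = (p - 1) + (k + 1 - p) := by omega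
    rw [hF, hk, minb_split]
    have hp' : ∀ l, 1 + (p - 1 + l) = p + l := fun l => by omega
    simp only [hp']
    rw [minb_block (p := p - 1) (by omega) (fun l h4 h5 => (e0 _ (by omega) (by omega)).ne')
      (fun l hl => by
        simp only [Nat.add_zero]
        exact h1 (1 + l) (by omega) (by omega))]
    have hp'' : 1 + (p - 1) = p := by omega
    simp only [Nat.add_zero, hp'']
  rw [hstep]
  refine vari_down hb (hadmR p (k + 1 - p) (by omega)) hm1 hmp (e1 p hpk) hr1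
    (sub_pos.2 hRp) fun τ hτ => ?_
  have h2 := minb_comp (p := p) (c := R 1 + τ) hm hP hRmin le_rfl hjp hpk h0 h1
    (by linarith only [hτ.1, hr1]) (by linarith [hτ.2])
  have h3 : R p - (R 1 + τ) = R p - R 1 - τ := by ring
  rw [h3] at h2
  have h5 : (m p - m 1) * ((R 1 + τ) ^ 2 - R 1 ^ 2) / (4 * b ^ 2) =
    (m 1 - m p) * R 1 ^ 2 / (4 * b ^ 2) - (m 1 - m p) * (R 1 + τ) ^ 2 / (4 * b ^ 2) := by ring
  rw [h5] at h2
  linarith only [h2]

/-- **Upper bound of the response at zero**, general exponents. -/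
theorem split_gen {b : ℝ} (hb : 1 < b) : ∃ C : ℝ, 1 ≤ C ∧ ∀ (n : ℕ) (m r : ℕ → ℝ) (h : ℝ),
    Exponents n m → (∀ l ≤ n, m (l + 1) - m l ≤ h) → IsMin b n m r →
    iteratedDeriv 2 (cascade m r n lc) 0 ^ 2 ≤ 1 / b ^ 2 + C * h := by
  have hb0 : 0 < b := by linarith
  obtain ⟨K, hK, htilt⟩ := Rf_tilt2 (b ^ 2)
  refine ⟨K + 2 * b ^ 2 + 1, by linarith only [sq_nonneg b, hK], fun n m r h hm hinc hmin => ?_⟩
  obtain ⟨hr, hmin⟩ := hmin
  obtain ⟨emono, e0, e1⟩ := minb_exp hm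
  have hb2 : 0 < b ^ 2 := by positivity
  have hh : 0 < h := lt_of_lt_of_le (sub_pos.2 (hm.2.2 0 (Nat.zero_le n))) (hinc 0 (Nat.zero_le n))
  set R := minbExt b n r with hRdef
  have hP : MinbP b n R := minb_ext_P hr
  have hRmin : ∀ R', MinbP b n R' → minbJ b n m R ≤ minbJ b n m R' :=
    fun R' h => minb_min_ext hm hr hmin h
  have hmonoR : ∀ i j, i ≤ j → j ≤ n + 1 → R i ≤ R j := fun i j h1 h2 => minb_mono hP.2.1 h1 h2
  have hex : ∃ l, 0 < R l := ⟨n + 1, by rw [hP.2.2]; exact hb2⟩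
  set p := Nat.find hex with hp
  have hRp : 0 < R p := Nat.find_spec hex
  have hpn : p ≤ n + 1 := Nat.find_min' hex (by rw [hP.2.2]; exact hb2)
  have h0 : ∀ l < p, R l = 0 := by
    intro l hl
    have h1 := Nat.find_min hex hl
    have h2 := hmonoR 0 l (by omega) (by omega)
    rw [hP.1] at h2
    linarith [not_lt.1 h1]
  have hp1 : 1 ≤ p := by
    by_contra h
    have : p = 0 := by omega
    rw [this, hP.1] at hRp
    exact lt_irrefl _ hRp
  rcases hp1.eq_or_lt with hp1 | hp2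
  · -- the first block starts at the level one
    rcases Nat.eq_zero_or_pos n with hn | hn
    · subst hn
      have h1 : iteratedDeriv 2 (cascade m r 0 lc) 0 = 1 := gapn_lc_deriv2
      rw [h1]
      have h2 : 1 ≤ h := by
        have := hinc 0 le_rfl
        rw [hm.1, show m (0 + 1) = 1 from hm.2.1] at this
        linarith only [this]
      have h3 : 0 < 1 / b ^ 2 := by positivity
      (by_contra nlg; linarith only [nlg, mul_nonneg (le_of_lt (sub_pos.2 hb2)) (sub_nonneg.2 h2), mul_nonneg (sub_nonneg.2 hK) (le_of_lt (sub_pos.2 hh)), mul_pos (sub_pos.2 hb) (sub_pos.2 hb0), mul_nonneg (mul_self_nonneg (1 : ℝ)) (le_of_lt (sub_pos.2 h3)), mul_nonneg (mul_self_nonneg (1 : ℝ)) (sub_nonneg.2 h2), mul_nonneg (mul_self_nonneg (1 : ℝ)) (le_of_lt (sub_pos.2 hb)), mul_nonneg (mul_self_nonneg (1 : ℝ)) (le_of_lt (sub_pos.2 (not_le.1 nlg)))])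
    · have hr1 : 0 < r 1 := by
        have : R 1 = r 1 := if_pos hn
        rw [← this, hp1]
        exact hRp
      obtain ⟨F, hF, hcas, hRf⟩ := split_B hb0 hm hr hmin hn hr1
      have hg : 0 < m 1 := e0 1 le_rfl (by omega)
      have hg1 : m 1 ≤ 1 := e1 1 (by omega)
      have h1 := split_Rf_low hF hg hg1 hr1
      have hgh : m 1 ≤ h := by
        have := hinc 0 (Nat.zero_le n)
        rw [hm.1] at this
        linarith only [this]
      have hrb : r 1 ≤ b ^ 2 := (gapn_path_le hr.2.1 hn le_rfl).trans hr.2.2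
      rw [hcas 0]
      set A := iteratedDeriv 2 (gstep (m 1) (r 1) F) 0 with hA
      have hA1 : A ^ 2 ≤ 1 := by
        have h2 := vari_d2_01 (hF.step hg hg1 hr1.le) 0
        rw [← hA] at h2
        (by_contra nlg; linarith only [nlg, mul_nonneg (sub_nonneg.2 h2.2) (sub_nonneg.2 h2.2), mul_nonneg (le_of_lt (sub_pos.2 h2.1)) (sub_nonneg.2 h2.2), mul_nonneg (le_of_lt (sub_pos.2 (not_le.1 nlg))) (sub_nonneg.2 h2.2), mul_pos (sub_pos.2 (not_le.1 nlg)) (sub_pos.2 h2.1)])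
      have h2 : Real.exp (-(2 * m 1 * r 1)) * A ^ 2 ≤ 1 / b ^ 2 := by
        have h3 : (Real.exp (-(2 * m 1 * r 1)) * A ^ 2) * r 1 ≤ (1 / b ^ 2) * r 1 := by
          refine (h1.trans hRf).trans (le_of_eq ?_)
          ring
        exact le_of_mul_le_mul_right h3 hr1
      have h3 := Real.add_one_le_exp (-(2 * m 1 * r 1))
      have h4 : (-(2 * m 1 * r 1) + 1) * A ^ 2 ≤ Real.exp (-(2 * m 1 * r 1)) * A ^ 2 :=
        mul_le_mul_of_nonneg_right h3 (sq_nonneg _)
      have h5 : m 1 * r 1 ≤ h * b ^ 2 := mul_le_mul hgh hrb hr1.le hh.le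
      have h6 : (2 * (m 1 * r 1)) * A ^ 2 ≤ (2 * (h * b ^ 2)) * 1 :=
        mul_le_mul (by linarith) hA1 (sq_nonneg _) (by positivity)
      have h7 : 0 ≤ K * h := mul_nonneg hK hh.le
      linarith only [h7, h6, h4, h2, hgh, hg]
  · -- raising the last level at zero
    obtain ⟨j, hj⟩ : ∃ j, p = j + 1 := ⟨p - 1, by omega⟩
    have hj1 : 1 ≤ j := by omega
    have hjn : j ≤ n := by omega
    have hg₁ : 0 < m j := e0 j hj1 (by omega)
    have hgg : m j < m p := by rw [hj]; exact hm.2.2 j hjn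
    have hG : ∃ C, Adm C (cascade (fun l => m (p + l)) (fun l => R (p + l)) (n + 1 - p) lc) := by
      have h1 := good_cascade (c := n + 1 - p) (m := fun l => m (p + l))
        (r := fun l => R (p + l)) good_lc
        le_rfl (fun l h1 h2 => e0 _ (by omega) (by omega))
        (fun l h1 h2 => emono _ _ (by omega) (by omega))
        (fun l h1 h2 => e1 _ (by omega)) (fun l hl => hP.2.1 _ (by omega))
      exact ⟨_, h1.adm⟩
    obtain ⟨C, hG⟩ := hG
    have hRj : R j = 0 := h0 j (by omega)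
    have hcas := minb_two (p := p) hm hj1 (by omega) hpn (fun l hl => h0 l (by omega))
      (fun l h1 h2 => by rw [h0 l h2, hRj])
    rw [hRj, gstep_zero hg₁.ne', sub_zero] at hcas
    rw [← split_ext hm hr 0, ← hRdef, hcas]
    have h1 := split_A hb0 htilt hG hg₁ hgg (e1 p hpn) hRp
      (by rw [← hP.2.2]; exact hmonoR p (n + 1) hpn le_rfl) (fun t ht => by
        have h2 := minb_comp (p := p) (c := t) hm hP hRmin hj1 (by omega) hpn
          (fun l hl => h0 l (by omega)) (fun l h1 h2 => by rw [h0 l h2, hRj]) ht.1.le ht.2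
        rw [hRj, gstep_zero hg₁.ne', sub_zero] at h2
        refine h2.trans (le_of_eq ?_)
        ring)
    refine h1.trans ?_
    have h2 : m p - m j ≤ h := by rw [hj]; exact hinc j hjn
    have h3 := mul_le_mul_of_nonneg_left h2 hK
    have h4 : 0 ≤ (2 * b ^ 2 + 1) * h := by positivity
    linarith only [h4, h3]

theorem split_zero {b : ℝ} (hb : 1 < b) : ∃ C : ℝ, 1 ≤ C ∧ ∀ (n : ℕ) (r : ℕ → ℝ),
    IsMin b n (gm n) r →
    iteratedDeriv 2 (cascade (gm n) r n lc) 0 ^ 2 ≤ 1 / b ^ 2 + C / (n + 1) := by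
  obtain ⟨C, hC, h⟩ := split_gen hb
  refine ⟨C, hC, fun n r hr => ?_⟩
  have h1 := h n (gm n) r (1 / (n + 1)) (gm_exponents n) (fun l _ => (gm_sub n l).le) hr
  rwa [mul_one_div] at h1

end Vale.Agent.P146.Pw2
end
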