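import Vale.Agent.P146.Bdl.B22

set_option linter.all false

section

/-!
# P146, polynomial lower bound, Parisi side: the classes `AKs`, `AK`
-/

set_option linter.all false

open MeasureTheory ProbabilityTheory Filter Topology Set

namespace Vale.Agent.P146.Pw2

open Vale.Agent.P157.Par
open Vale.Agent.P146.Gap

theorem aks_lc : AKs 0 lc := by
  refine ⟨?_, fun x => ?_, ?_⟩
  · rw [mul_zero, Real.exp_zero, mul_one]
    exact adm_lc
  · rw [adm_lc_it2, adm_lc_it4]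
    have h1 := adm_tanh_sq x
    have h2 : |6 * Real.tanh x ^ 2 - 2| ≤ 4 := by
      rw [abs_le]
      constructor <;> nlinarith [sq_nonneg (Real.tanh x)]
    simp only [abs_mul, abs_of_pos h1, mul_zero, Real.exp_zero, mul_one]
    have h3 : (1 - Real.tanh x ^ 2) * |6 * Real.tanh x ^ 2 - 2| ≤ (1 - Real.tanh x ^ 2) * 4 :=
      mul_le_mul_of_nonneg_left h2 h1.le
    linarith
  · rw [adm_lc_it2]
    simp

/-- The fourth derivative along one step. -/
theorem aks_unif {s v g : ℝ} {F : ℝ → ℝ} (h : AKs s F) (hg : 0 < g) (hg1 : g ≤ 1) (hv : 0 < v) :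
    ∀ τ ∈ Icc 0 v, ∀ x, |fj g F 4 τ x| ≤ 12 * Real.exp (4 * (s + τ)) * fj g F 2 τ x := by
  have key : ∀ σ : ℝ, σ = 1 ∨ σ = -1 → ∀ τ ∈ Icc 0 v, ∀ x,
      σ * fj g F 4 τ x ≤ 12 * Real.exp (4 * (s + τ)) * fj g F 2 τ x := by
    intro σ hσ
    refine adm_flow (j := 3) (κ := 4) (σ := σ) (Λ := 12 * Real.exp (4 * (s + v)))
      (E := fun τ x => 3 * fj g F 3 τ x ^ 2) (lam := fun τ => 12 * Real.exp (4 * (s + τ)))
      (lam' := fun τ => 48 * Real.exp (4 * (s + τ))) h.adm.smb hg hv (by norm_num)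
      ?_ ?_ ?_ ?_ ?_
    · intro τ
      have h1 : HasDerivAt (fun τ : ℝ => 4 * (s + τ)) 4 τ := by
        simpa using ((hasDerivAt_id τ).const_add s).const_mul 4
      refine (h1.exp.const_mul 12).congr_deriv ?_
      ring
    · intro τ hτ
      rw [abs_of_nonneg (by positivity)]
      refine mul_le_mul_of_nonneg_left (Real.exp_le_exp.2 ?_) (by norm_num)
      linarith [hτ.2]
    · intro τ hτ x
      refine (fj_s4 h.adm.smb hg hτ.1 x).congr_deriv ?_
      ring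
    · intro τ hτ x
      obtain ⟨a, ha⟩ : ∃ a : ℝ, a = fj g F 2 τ x := ⟨_, rfl⟩
      obtain ⟨c, hc⟩ : ∃ c : ℝ, c = fj g F 3 τ x := ⟨_, rfl⟩
      obtain ⟨e, he⟩ : ∃ e : ℝ, e = Real.exp (4 * (s + τ)) := ⟨_, rfl⟩
      have he0 : 0 < e := he ▸ Real.exp_pos _
      have h1 : 0 < a := ha ▸ adm_fj2_pos h.adm hg hg1 τ x
      have h2 : a + fj g F 1 τ x ^ 2 ≤ 1 := ha ▸ adm_fj2_le h.adm hg hg1 τ x
      have h4 : a ≤ 1 := by linarith [sq_nonneg (fj g F 1 τ x)]
      have h5 : c ^ 2 ≤ 4 * e * a := by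
        have h6 := adm_r3_unif h.adm hg hg1 hv τ ⟨hτ.1.le, hτ.2.le⟩ x
        rw [← hc, ← ha] at h6
        have h7 : c ^ 2 ≤ (2 * Real.exp (2 * s) * Real.exp (2 * g * τ) * a) ^ 2 :=
          sq_le_sq' (by linarith [(abs_le.1 h6).1]) (abs_le.1 h6).2
        have h8 : (2 * Real.exp (2 * s) * Real.exp (2 * g * τ) * a) ^ 2 =
            4 * Real.exp (4 * s + 4 * (g * τ)) * (a * a) := by
          have e1 : Real.exp (4 * s + 4 * (g * τ)) =
              (Real.exp (2 * s) * Real.exp (2 * g * τ)) ^ 2 := by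
            rw [← Real.exp_add, ← Real.exp_nat_mul]
            congr 1
            push_cast
            ring
          rw [e1]
          ring
        have h9 : Real.exp (4 * s + 4 * (g * τ)) ≤ e := by
          rw [he]
          refine Real.exp_le_exp.2 ?_
          have := mul_le_of_le_one_left hτ.1.le hg1
          linarith
        have h10 : a * a ≤ a := mul_le_of_le_one_left h1.le h4
        rw [h8] at h7
        calc c ^ 2 ≤ 4 * Real.exp (4 * s + 4 * (g * τ)) * (a * a) := h7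
          _ ≤ 4 * e * a := mul_le_mul (by linarith) h10 (by positivity) (by positivity)
      rw [← ha, ← hc, ← he]
      have h8 : σ * (g * (3 * c ^ 2)) ≤ 12 * e * a := by
        have h9 : 0 ≤ g * (3 * c ^ 2) := by positivity
        have h10 : σ * (g * (3 * c ^ 2)) ≤ g * (3 * c ^ 2) := by
          rcases hσ with rfl | rfl <;> linarith
        have h11 : g * (3 * c ^ 2) ≤ 1 * (3 * c ^ 2) :=
          mul_le_mul_of_nonneg_right hg1 (by positivity)
        linarith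
      have h9 : 0 ≤ 36 * e * a * (1 - g * a) := by
        have : g * a ≤ 1 := mul_le_one₀ hg1 h1.le h4
        exact mul_nonneg (by positivity) (by linarith)
      have h10 : a * (48 * e - (4 - 1) * g * a * (12 * e)) =
          12 * e * a + 36 * e * a * (1 - g * a) := by ring
      rw [h10]
      linarith
    · intro x
      rw [fj_zero hg.ne', fj_zero hg.ne']
      have h1 := abs_le.1 (h.r4 x)
      simp only [add_zero]
      rcases hσ with rfl | rfl
      · linarith [h1.2]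
      · linarith [h1.1]
  intro τ hτ x
  have h1 := key 1 (Or.inl rfl) τ hτ x
  have h2 := key (-1) (Or.inr rfl) τ hτ x
  rw [abs_le]
  constructor <;> linarith

/-- The second derivative at the origin does not decrease too fast. -/
theorem low0_flow {C v g : ℝ} {F k K : ℝ → ℝ} (h : Adm C F) (hg : 0 < g) (hg1 : g ≤ 1)
    (hv : 0 ≤ v) (hK : ∀ τ ∈ Icc 0 v, HasDerivAt K (k τ) τ)
    (h4 : ∀ τ ∈ Icc 0 v, |fj g F 4 τ 0| ≤ 2 * k τ * fj g F 2 τ 0) :
    Real.exp (K 0) * iteratedDeriv 2 F 0 ≤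
      Real.exp (K v) * iteratedDeriv 2 (gstep g v F) 0 := by
  have hmono : MonotoneOn (fun τ => Real.exp (K τ) * fj g F 2 τ 0) (Icc 0 v) := by
    refine monotoneOn_of_hasDerivWithinAt_nonneg (f' := fun τ => Real.exp (K τ) * k τ *
      fj g F 2 τ 0 + Real.exp (K τ) * (1 / 2 * fj g F 4 τ 0 +
        g * (fj g F 2 τ 0 ^ 2 + fj g F 1 τ 0 * fj g F 3 τ 0))) (convex_Icc 0 v) ?_ ?_ ?_
    · refine ContinuousOn.mul ?_ ?_
      · exact fun τ hτ => (Real.continuous_exp.continuousAt.comp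
          (hK τ hτ).continuousAt).continuousWithinAt
      · have h1 := fj_cont h.smb hg 2
        have h2 : Continuous fun τ : ℝ => ((τ, (0 : ℝ)) : ℝ × ℝ) := by fun_prop
        exact (h1.comp h2).continuousOn
    · intro τ hτ
      rw [interior_Icc] at hτ ⊢
      exact (((hK τ ⟨hτ.1.le, hτ.2.le⟩).exp).mul (fj_s2 h.smb hg hτ.1 0)).hasDerivWithinAt
    · intro τ hτ
      rw [interior_Icc] at hτ
      have hτ' : τ ∈ Icc 0 v := ⟨hτ.1.le, hτ.2.le⟩
      have h1 : fj g F 1 τ 0 = 0 := GoodX.good_odd (h.step hg hg1 hτ'.1).even (j := 1) (by decide)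
      have h2 := (abs_le.1 (h4 τ hτ')).1
      rw [h1, zero_mul, add_zero]
      have h3 : 0 ≤ k τ * fj g F 2 τ 0 + (1 / 2 * fj g F 4 τ 0 + g * fj g F 2 τ 0 ^ 2) := by
        have := mul_nonneg hg.le (sq_nonneg (fj g F 2 τ 0))
        linarith only [this, h2]
      have h5 := mul_nonneg (Real.exp_pos (K τ)).le h3
      linarith
  have h1 := hmono ⟨le_rfl, hv⟩ ⟨hv, le_rfl⟩ hv
  simp only [] at h1
  rw [fj_zero hg.ne'] at h1
  exact h1

theorem AKs.step {s v g : ℝ} {F : ℝ → ℝ} (h : AKs s F) (hs : 0 ≤ s) (hg : 0 < g) (hg1 : g ≤ 1)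
    (hv : 0 ≤ v) : AKs (s + v) (gstep g v F) := by
  rcases hv.eq_or_lt with rfl | hv'
  · rw [gstep_zero hg.ne', add_zero]
    exact h
  refine ⟨?_, fun x => aks_unif h hg hg1 hv' v ⟨hv, le_rfl⟩ x, ?_⟩
  · refine (h.adm.step hg hg1 hv).mono_C ?_
    rw [mul_assoc, ← Real.exp_add]
    refine mul_le_mul_of_nonneg_left (Real.exp_le_exp.2 ?_) (by norm_num)
    have := mul_le_of_le_one_left hv hg1
    linarith
  · have h1 := low0_flow (K := fun τ => 3 / 2 * Real.exp (4 * (s + τ)))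
      (k := fun τ => 6 * Real.exp (4 * (s + τ))) h.adm hg hg1 hv
      (fun τ _ => by
        have h1 : HasDerivAt (fun τ : ℝ => 4 * (s + τ)) 4 τ := by
          simpa using ((hasDerivAt_id τ).const_add s).const_mul 4
        refine (h1.exp.const_mul (3 / 2)).congr_deriv ?_
        ring)
      (fun τ hτ => by
        refine (aks_unif h hg hg1 hv' τ hτ 0).trans_eq ?_
        ring)
    simp only [add_zero] at h1
    have h2 := mul_le_mul_of_nonneg_left h.low0 (Real.exp_pos (3 / 2 * Real.exp (4 * s))).le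
    rw [← Real.exp_add] at h2
    have h3 := h2.trans h1
    have h4 := mul_le_mul_of_nonneg_left h3 (Real.exp_pos (-(3 / 2 * Real.exp (4 * (s + v))))).le
    rw [← mul_assoc, ← Real.exp_add, ← Real.exp_add, neg_add_cancel, Real.exp_zero,
      one_mul] at h4
    refine le_trans (Real.exp_le_exp.2 ?_) h4
    linarith only []

/-- `∂_s F''(0) = F''''(0)/2 + g F''(0)² ≥ -K F''(0) / 2` -/
theorem bk_low0 {K g v : ℝ} {F : ℝ → ℝ} (h : BK K g v F) (hg : 0 < g) (hg1 : g ≤ 1)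
    (hv : 0 ≤ v) : iteratedDeriv 2 F 0 ≤
      Real.exp (K * v / 2) * iteratedDeriv 2 (gstep g v F) 0 := by
  have h0 : Adm K F := by
    have := (h 0 ⟨le_rfl, hv⟩).adm
    rwa [gstep_zero hg.ne'] at this
  have h1 := low0_flow (K := fun τ => K * τ / 2) (k := fun _ => K / 2) h0 hg hg1 hv
    (fun τ _ => by
      have := ((hasDerivAt_id τ).const_mul K).div_const 2
      simpa using this)
    (fun τ hτ => by
      refine ((h τ hτ).k4 0).trans_eq ?_
      unfold fj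
      ring)
  simp only [mul_zero, zero_div, Real.exp_zero, one_mul] at h1
  exact h1

/-- lower bound of the first derivative -/
theorem low_of {C a : ℝ} {F : ℝ → ℝ} (h : Adm C F) (ha : 0 < a)
    (h0 : a ≤ iteratedDeriv 2 F 0) (x : ℝ) :
    a * Real.exp (-C) * min 1 |x| ≤ |iteratedDeriv 1 F x| := by
  have hC := h.C_nonneg
  have hd2 : ∀ x, HasDerivAt (iteratedDeriv 2 F) (iteratedDeriv 3 F x) x := fun x =>
    adm_hasD h.smb.smooth 2 x
  have hd1 : ∀ x, HasDerivAt (iteratedDeriv 1 F) (iteratedDeriv 2 F x) x := fun x =>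
    adm_hasD h.smb.smooth 1 x
  -- on the half line
  have hlow : ∀ x, 0 ≤ x → a * Real.exp (-(C * x)) ≤ iteratedDeriv 2 F x := by
    intro x hx
    have hmono : MonotoneOn (fun x => Real.exp (C * x) * iteratedDeriv 2 F x) (Icc 0 x) := by
      refine monotoneOn_of_hasDerivWithinAt_nonneg (f' := fun x => Real.exp (C * x) * C *
        iteratedDeriv 2 F x + Real.exp (C * x) * iteratedDeriv 3 F x) (convex_Icc 0 x) ?_ ?_ ?_
      · exact ((Real.continuous_exp.comp (continuous_const.mul continuous_id)).mul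
          (adm_cont h.smb.smooth 2)).continuousOn
      · intro y _
        have h1 : HasDerivAt (fun y : ℝ => C * y) C y := by
          simpa using (hasDerivAt_id y).const_mul C
        exact (h1.exp.mul (hd2 y)).hasDerivWithinAt
      · intro y _
        have h1 := (abs_le.1 (h.r3 y)).1
        have h2 : 0 ≤ Real.exp (C * y) * (C * iteratedDeriv 2 F y + iteratedDeriv 3 F y) :=
          mul_nonneg (Real.exp_pos _).le (by linarith)
        linarith
    have h1 := hmono ⟨le_rfl, hx⟩ ⟨hx, le_rfl⟩ hx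
    simp only [mul_zero, Real.exp_zero, one_mul] at h1
    have h2 : a ≤ Real.exp (C * x) * iteratedDeriv 2 F x := h0.trans h1
    have h3 := mul_le_mul_of_nonneg_left h2 (Real.exp_pos (-(C * x))).le
    rw [← mul_assoc, ← Real.exp_add, neg_add_cancel, Real.exp_zero, one_mul] at h3
    linarith
  have hz : iteratedDeriv 1 F 0 = 0 := GoodX.good_odd h.even (j := 1) (by decide)
  have hpos : ∀ x, 0 ≤ x → a * Real.exp (-C) * min 1 x ≤ iteratedDeriv 1 F x := by
    intro x hx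
    -- first on [0,1]
    have h1 : ∀ y, 0 ≤ y → y ≤ 1 → a * Real.exp (-C) * y ≤ iteratedDeriv 1 F y := by
      intro y hy hy1
      have hmono : MonotoneOn (fun y => iteratedDeriv 1 F y - a * Real.exp (-C) * y)
          (Icc 0 1) := by
        refine monotoneOn_of_hasDerivWithinAt_nonneg (f' := fun y => iteratedDeriv 2 F y -
          a * Real.exp (-C)) (convex_Icc 0 1) ?_ ?_ ?_
        · exact ((adm_cont h.smb.smooth 1).sub (continuous_const.mul continuous_id)).continuousOn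
        · intro y _
          have h1 : HasDerivAt (fun y : ℝ => a * Real.exp (-C) * y) (a * Real.exp (-C)) y := by
            simpa using (hasDerivAt_id y).const_mul (a * Real.exp (-C))
          exact ((hd1 y).sub h1).hasDerivWithinAt
        · intro y hy
          rw [interior_Icc] at hy
          have h1 := hlow y hy.1.le
          have h2 : Real.exp (-C) ≤ Real.exp (-(C * y)) := by
            refine Real.exp_le_exp.2 ?_
            have := mul_le_of_le_one_right hC hy.2.le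
            linarith
          have h3 := mul_le_mul_of_nonneg_left h2 ha.le
          linarith
      have h2 := hmono ⟨le_rfl, zero_le_one⟩ ⟨hy, hy1⟩ hy
      simp only [hz, mul_zero, sub_zero] at h2
      linarith
    rcases le_total x 1 with hx1 | hx1
    · rw [min_eq_right hx1]
      exact h1 x hx hx1
    · rw [min_eq_left hx1, mul_one]
      have hmono : MonotoneOn (iteratedDeriv 1 F) (Icc 1 x) := by
        refine monotoneOn_of_hasDerivWithinAt_nonneg (f' := iteratedDeriv 2 F) (convex_Icc 1 x)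
          (adm_cont h.smb.smooth 1).continuousOn (fun y _ => (hd1 y).hasDerivWithinAt)
          (fun y _ => (h.pos y).le)
      have h2 := hmono ⟨le_rfl, hx1⟩ ⟨hx1, le_rfl⟩ hx1
      have h3 := h1 1 zero_le_one le_rfl
      rw [mul_one] at h3
      exact h3.trans h2
  rcases le_total 0 x with hx | hx
  · rw [abs_of_nonneg hx]
    exact (hpos x hx).trans (le_abs_self _)
  · have h1 := hpos (-x) (by linarith)
    have h2 : iteratedDeriv 1 F (-x) = -iteratedDeriv 1 F x := by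
      have h3 := iteratedDeriv_comp_neg 1 F x
      have h4 : (fun x => F (-x)) = F := funext h.even
      rw [h4] at h3
      rw [h3]
      simp
    rw [abs_of_nonpos hx, ← abs_neg, ← h2]
    exact h1.trans (le_abs_self _)

/-- `F'' x ≥ F'' 0 exp (-C |x|)`, so `F' x ≥ c min(1, x)`; `|F'''| ≤ C min(1, |x|)`. -/
theorem AKs.ak (S : ℝ) : ∃ K : ℝ, 1 ≤ K ∧ ∀ (s : ℝ) (F : ℝ → ℝ), 0 ≤ s → s ≤ S → AKs s F →
    AK K F := by
  obtain ⟨C, hC⟩ : ∃ C : ℝ, C = 2 * Real.exp (2 * S) := ⟨_, rfl⟩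
  obtain ⟨D, hD⟩ : ∃ D : ℝ, D = 12 * Real.exp (4 * S) := ⟨_, rfl⟩
  obtain ⟨a, ha⟩ : ∃ a : ℝ, a = Real.exp (-(3 / 2 * (Real.exp (4 * S) - 1))) := ⟨_, rfl⟩
  have hC0 : 0 < C := hC ▸ by positivity
  have hD0 : 0 < D := hD ▸ by positivity
  have ha0 : 0 < a := ha ▸ Real.exp_pos _
  obtain ⟨L, hL⟩ : ∃ L : ℝ, L = 1 / (a * Real.exp (-C)) := ⟨_, rfl⟩
  have hL0 : 0 < L := hL ▸ by positivity
  refine ⟨1 + C + D + L + (C + D) * L + 1 / a, ?_, ?_⟩
  · have : 0 < 1 / a := by positivity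
    have : 0 < (C + D) * L := by positivity
    linarith
  intro s F hs hsS h
  obtain ⟨K, hK⟩ : ∃ K : ℝ, K = 1 + C + D + L + (C + D) * L + 1 / a := ⟨_, rfl⟩
  rw [← hK]
  have h1a : 0 < 1 / a := by positivity
  have h2a : 0 < (C + D) * L := by positivity
  have hCadm : Adm C F := by
    refine h.adm.mono_C ?_
    rw [hC]
    exact mul_le_mul_of_nonneg_left (Real.exp_le_exp.2 (by linarith only [hsS])) (by norm_num)
  have hr4 : ∀ x, |iteratedDeriv 4 F x| ≤ D * iteratedDeriv 2 F x := by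
    intro x
    refine (h.r4 x).trans (mul_le_mul_of_nonneg_right ?_ (h.adm.pos x).le)
    rw [hD]
    exact mul_le_mul_of_nonneg_left (Real.exp_le_exp.2 (by linarith only [hsS])) (by norm_num)
  have hlow0 : a ≤ iteratedDeriv 2 F 0 := by
    refine le_trans ?_ h.low0
    rw [ha]
    refine Real.exp_le_exp.2 ?_
    have : Real.exp (4 * s) ≤ Real.exp (4 * S) := Real.exp_le_exp.2 (by linarith only [hsS])
    linarith only [this]
  have hlow : ∀ x, min 1 |x| ≤ L * |iteratedDeriv 1 F x| := by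
    intro x
    have h1 := low_of hCadm ha0 hlow0 x
    have h2 : 0 < a * Real.exp (-C) := by positivity
    rw [hL, one_div, inv_mul_eq_div, le_div_iff₀ h2]
    linarith only [h1]
  have h2le : ∀ x, iteratedDeriv 2 F x ≤ 1 := fun x => by
    have := h.adm.le1 x
    linarith only [sq_nonneg (iteratedDeriv 1 F x), this]
  have h3z : iteratedDeriv 3 F 0 = 0 := GoodX.good_odd h.adm.even (j := 3) (by decide)
  have h3 : ∀ x, |iteratedDeriv 3 F x| ≤ (C + D) * min 1 |x| := by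
    intro x
    have k1 : |iteratedDeriv 3 F x| ≤ C := (hCadm.r3 x).trans (by
      have := mul_le_mul_of_nonneg_left (h2le x) hC0.le
      linarith only [this])
    have k2 : |iteratedDeriv 3 F x| ≤ D * |x| := by
      have := convex_univ.norm_image_sub_le_of_norm_hasDerivWithin_le (f := iteratedDeriv 3 F)
        (f' := iteratedDeriv 4 F) (s := Set.univ) (C := D)
        (fun x _ => (adm_hasD h.adm.smb.smooth 3 x).hasDerivWithinAt) (fun x _ => by
          rw [Real.norm_eq_abs]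
          refine (hr4 x).trans ?_
          have := mul_le_mul_of_nonneg_left (h2le x) hD0.le
          linarith only [this]) (mem_univ 0) (mem_univ x)
      rw [h3z, sub_zero, sub_zero, Real.norm_eq_abs, Real.norm_eq_abs] at this
      exact this
    rcases le_total 1 |x| with hx | hx
    · rw [min_eq_left hx]
      linarith only [k1, hD0]
    · rw [min_eq_right hx]
      have := mul_nonneg hC0.le (abs_nonneg x)
      linarith only [this, k2]
  refine ⟨hCadm.mono_C (by linarith only [h2a, h1a, hK, hL0, hD0]), fun x => ?_, fun x => ?_, fun x => ?_, ?_⟩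
  · refine (h3 x).trans ?_
    have k1 := mul_le_mul_of_nonneg_left (hlow x) (by positivity : 0 ≤ C + D)
    have k2 : (C + D) * (L * |iteratedDeriv 1 F x|) ≤ K * |iteratedDeriv 1 F x| := by
      rw [← mul_assoc]
      exact mul_le_mul_of_nonneg_right (by linarith only [h1a, hK, hL0, hD0, hC0]) (abs_nonneg _)
    exact k1.trans k2
  · exact (hr4 x).trans (mul_le_mul_of_nonneg_right (by linarith only [h2a, h1a, hK, hL0, hC0]) (h.adm.pos x).le)
  · exact (hlow x).trans (mul_le_mul_of_nonneg_right (by linarith only [h2a, h1a, hK, hD0, hC0]) (abs_nonneg _))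
  · have k1 : 1 / a * a = 1 := by field_simp
    have k2 : 1 / a * a ≤ K * iteratedDeriv 2 F 0 :=
      mul_le_mul (by linarith only [h2a, hK, hL0, hD0, hC0]) hlow0 ha0.le (by linarith only [h2a, h1a, hK, hL0, hD0, hC0])
    linarith only [k2, k1]

end Vale.Agent.P146.Pw2
end

section

/-!
# P146, polynomial lower bound, Parisi side: one block at a general point `y` (BLK, first part)
-/

open MeasureTheory ProbabilityTheory Filter Topology Set

namespace Vale.Agent.P146.Pw2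

open Vale.Agent.P157.Par
open Vale.Agent.P146.Gap

variable {C g v : ℝ} {F : ℝ → ℝ}

/-- The average of `G'²` at `τ`, starting at `y`. -/
noncomputable def bR (g v : ℝ) (F : ℝ → ℝ) (y τ : ℝ) : ℝ :=
  tlt g τ (gstep g (v - τ) F) (fun x => iteratedDeriv 1 (gstep g (v - τ) F) x ^ 2) y

/-- The average of `G''²` at `τ`, starting at `y`. -/
noncomputable def bM (g v : ℝ) (F : ℝ → ℝ) (y τ : ℝ) : ℝ :=
  tlt g τ (gstep g (v - τ) F) (fun x => iteratedDeriv 2 (gstep g (v - τ) F) x ^ 2) y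

/-- The derivative of `bM`. -/
noncomputable def bM1 (g v : ℝ) (F : ℝ → ℝ) (y τ : ℝ) : ℝ :=
  tlt g τ (gstep g (v - τ) F) (fun x => iteratedDeriv 3 (gstep g (v - τ) F) x ^ 2 -
    2 * g * iteratedDeriv 2 (gstep g (v - τ) F) x ^ 3) y

/-- the unnormalised tilted average -/
noncomputable def blk_N (g s₁ : ℝ) (F : ℝ → ℝ) (p : ℝ → ℝ → ℝ) (y τ : ℝ) : ℝ :=
  ∫ z, p τ (y + √τ * z) * Real.exp (g * first_f g s₁ F 0 τ (y + √τ * z)) ∂(gaussianReal 0 1)

lemma blk_N_deriv {s₁ : ℝ} (h : Adm C F) (hg : 0 < g) {p p1 p2 ps : ℝ → ℝ → ℝ}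
    (hp : first_P s₁ p p1 p2 ps) (y : ℝ) {τ : ℝ} (hτ : τ ∈ Ioo 0 s₁) :
    HasDerivAt (blk_N g s₁ F p y) (blk_N g s₁ F (fun s x => ps s x + 1 / 2 * p2 s x
      + g * first_f g s₁ F 1 s x * p1 s x) y τ) τ := by
  have hf := first_fam h hg s₁
  have b1 := first_f_bc h hg s₁ 0
  have b2 := first_f_bc h hg s₁ 1
  have hI : Ioo 0 s₁ ⊆ Icc 0 s₁ := Ioo_subset_Icc_self
  -- multipliers
  have m1 : first_Bc (fun s x => p1 s x + g * (first_f g s₁ F 1 s x * p s x)) :=
    hp.b1.add ((b1.mul hp.b0).smul g)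
  have m2 : first_Bc (fun s x => p2 s x + g * (2 * (first_f g s₁ F 1 s x * p1 s x)
      + first_f g s₁ F 2 s x * p s x + g * ((first_f g s₁ F 1 s x * first_f g s₁ F 1 s x)
        * p s x))) :=
    hp.b2.add ((((b1.mul hp.b1).smul 2).add (b2.mul hp.b0)).add
      (((b1.mul b1).mul hp.b0).smul g) |>.smul g)
  have ms : first_Bc (fun s x => ps s x + (-g / 2) * ((first_f g s₁ F 2 s x +
      g * (first_f g s₁ F 1 s x * first_f g s₁ F 1 s x)) * p s x)) :=
    hp.bs.add (((b2.add ((b1.mul b1).smul g)).mul hp.b0).smul (-g / 2))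
  have eb : ∀ {q : ℝ → ℝ → ℝ}, first_Bc q → sp2_EB (Icc 0 s₁)
      (fun s x => q s x * Real.exp (g * first_f g s₁ F 0 s x)) := by
    rintro q ⟨-, B, hB⟩
    exact (sp2_EB_of_bdd fun s _ x => hB s x).mul (hf.sp2_ebd_exp g)
  have ce : ∀ {q : ℝ → ℝ → ℝ}, first_Bc q → ContinuousOn (fun r : ℝ × ℝ => q r.1 r.2 *
      Real.exp (g * first_f g s₁ F 0 r.1 r.2)) (Icc 0 s₁ ×ˢ univ) := fun hq =>
    hq.1.continuousOn.mul (hf.sp2_cexp g)
  have hder := sp2_deriv (a := 0) (b := s₁)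
    (G := fun s x => p s x * Real.exp (g * first_f g s₁ F 0 s x))
    (G1 := fun s x => (p1 s x + g * (first_f g s₁ F 1 s x * p s x)) *
      Real.exp (g * first_f g s₁ F 0 s x))
    (G2 := fun s x => (p2 s x + g * (2 * (first_f g s₁ F 1 s x * p1 s x)
      + first_f g s₁ F 2 s x * p s x + g * ((first_f g s₁ F 1 s x * first_f g s₁ F 1 s x)
        * p s x))) * Real.exp (g * first_f g s₁ F 0 s x))
    (Gs := fun s x => (ps s x + (-g / 2) * ((first_f g s₁ F 2 s x +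
      g * (first_f g s₁ F 1 s x * first_f g s₁ F 1 s x)) * p s x)) *
      Real.exp (g * first_f g s₁ F 0 s x)) (v₀ := 0) (d := 1)
    (fun s hs x => by
      refine ((hp.d1 s x).mul ((hf.d1 s hs x).const_mul g).exp).congr_deriv ?_
      ring)
    (fun s hs x => by
      refine (((hp.d2 s x).add (((hf.d2 s hs x).mul (hp.d1 s x)).const_mul g)).mul
        ((hf.d1 s hs x).const_mul g).exp).congr_deriv ?_
      simp only [Pi.add_apply, Pi.mul_apply]
      ring)
    (fun s hs x => by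
      refine ((hp.ds s hs x).mul ((hf.ds s hs x).const_mul g).exp).congr_deriv ?_
      ring)
    (ce hp.b0) (ce m1) (ce m2) ((ce ms).mono (prod_mono hI subset_rfl))
    (eb hp.b0) (eb m1) (eb m2) ((eb ms).mono hI)
    (fun s hs => by linarith [hs.1]) hτ y
  simp only [zero_add, mul_one] at hder
  unfold blk_N
  refine hder.congr_deriv ?_
  refine integral_congr_ae (Eventually.of_forall fun z => ?_)
  simp only []
  ring

lemma blk_N_pos {s₁ : ℝ} (h : Adm C F) (hg : 0 < g) (y : ℝ) {τ : ℝ} (hτ : τ ∈ Icc 0 s₁) :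
    0 < blk_N g s₁ F (fun _ _ => 1) y τ := by
  obtain ⟨L, B, -, -, hsm⟩ := (first_fam h hg s₁).sp2_sm
  have := (hsm τ hτ).int_exp_pos g τ y
  simpa [blk_N] using this

lemma blk_tlt_eq (s₁ : ℝ) (p : ℝ → ℝ → ℝ) (y τ : ℝ) :
    tlt g τ (gstep g (s₁ - τ) F) (p τ) y =
      blk_N g s₁ F p y τ / blk_N g s₁ F (fun _ _ => 1) y τ := by
  unfold tlt blk_N
  rw [first_f_zero]
  simp only [one_mul]

lemma blk_tlt_deriv {s₁ : ℝ} (h : Adm C F) (hg : 0 < g) {p p1 p2 ps : ℝ → ℝ → ℝ}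
    (hp : first_P s₁ p p1 p2 ps) (y : ℝ) {τ : ℝ} (hτ : τ ∈ Ioo 0 s₁) :
    HasDerivAt (fun τ => tlt g τ (gstep g (s₁ - τ) F) (p τ) y)
      (tlt g τ (gstep g (s₁ - τ) F) (fun x => ps τ x + 1 / 2 * p2 τ x
        + g * first_f g s₁ F 1 τ x * p1 τ x) y) τ := by
  have h1 := blk_N_deriv h hg hp y hτ
  have h2 := blk_N_deriv h hg (first_P.const s₁ 1) y hτ
  have h3 := blk_N_pos h hg y (Ioo_subset_Icc_self hτ)
  have h4 : blk_N g s₁ F (fun s x => (0 : ℝ) + 1 / 2 * 0 + g * first_f g s₁ F 1 s x * 0) y τ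
      = 0 := by
    unfold blk_N
    simp
  rw [h4] at h2
  have h5 := h1.div h2 h3.ne'
  have e : (fun τ => tlt g τ (gstep g (s₁ - τ) F) (p τ) y) =
      blk_N g s₁ F p y / blk_N g s₁ F (fun _ _ => 1) y := by
    funext τ
    exact blk_tlt_eq s₁ p y τ
  rw [e]
  refine h5.congr_deriv ?_
  rw [blk_tlt_eq s₁ (fun s x => ps s x + 1 / 2 * p2 s x + g * first_f g s₁ F 1 s x * p1 s x),
    mul_zero, sub_zero, sq, mul_div_mul_right _ _ h3.ne']

lemma blk_tlt_cont {s₁ : ℝ} (h : Adm C F) (hg : 0 < g) {p : ℝ → ℝ → ℝ} (hp : first_Bc p)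
    (g' y : ℝ) :
    ContinuousOn (fun τ => tlt g' τ (gstep g (s₁ - τ) F) (p τ) y) (Icc 0 s₁) := by
  obtain ⟨hc, B, hB⟩ := hp
  have h1 := (first_fam h hg s₁).tlt_cont hc.continuousOn (fun s _ x => hB s x) g' 0 1
  have h2 := h1.comp (f := fun s : ℝ => ((s, y) : ℝ × ℝ)) (s := Icc 0 s₁) (by fun_prop)
    (fun s hs => ⟨hs, mem_univ _⟩)
  simp only [Function.comp_def, zero_add, mul_one, first_f_zero] at h2
  exact h2

lemma bR_eq (g v : ℝ) (F : ℝ → ℝ) (y : ℝ) : bR g v F y =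
    fun τ => tlt g τ (gstep g (v - τ) F)
      (fun x => first_f g v F 1 τ x * first_f g v F 1 τ x) y := by
  funext τ
  unfold bR
  congr 1
  funext y
  rw [sq]
  rfl

lemma bM_eq (g v : ℝ) (F : ℝ → ℝ) (y : ℝ) : bM g v F y =
    fun τ => tlt g τ (gstep g (v - τ) F)
      (fun x => first_f g v F 2 τ x * first_f g v F 2 τ x) y := by
  funext τ
  unfold bM
  congr 1
  funext y
  rw [sq]
  rfl

theorem bR_cont (h : Adm C F) (hg : 0 < g) (_hg1 : g ≤ 1) (y : ℝ) :
    ContinuousOn (bR g v F y) (Icc 0 v) := by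
  have b1 := first_f_bc h hg v 0
  rw [bR_eq]
  exact blk_tlt_cont h hg (b1.mul b1) g y

theorem bM_cont (h : Adm C F) (hg : 0 < g) (_hg1 : g ≤ 1) (y : ℝ) :
    ContinuousOn (bM g v F y) (Icc 0 v) := by
  have b2 := first_f_bc h hg v 1
  rw [bM_eq]
  exact blk_tlt_cont h hg (b2.mul b2) g y

theorem bR_deriv (h : Adm C F) (hg : 0 < g) (_hg1 : g ≤ 1) (y : ℝ) {τ : ℝ} (hτ : τ ∈ Ioo 0 v) :
    HasDerivAt (bR g v F y) (bM g v F y τ) τ := by
  have hp := (first_P1 h hg v).mul (first_P1 h hg v)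
  rw [bR_eq]
  refine (blk_tlt_deriv h hg hp y hτ).congr_deriv ?_
  rw [bM_eq]
  congr 1
  funext y
  ring

theorem bM_deriv (h : Adm C F) (hg : 0 < g) (_hg1 : g ≤ 1) (y : ℝ) {τ : ℝ} (hτ : τ ∈ Ioo 0 v) :
    HasDerivAt (bM g v F y) (bM1 g v F y τ) τ := by
  have hp := (first_P2 h hg v).mul (first_P2 h hg v)
  rw [bM_eq]
  refine (blk_tlt_deriv h hg hp y hτ).congr_deriv ?_
  unfold bM1
  congr 1
  funext y
  change _ = first_f g v F 3 τ y ^ 2 - 2 * g * first_f g v F 2 τ y ^ 3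
  ring

theorem bR_zero (g v : ℝ) (F : ℝ → ℝ) (y : ℝ) :
    bR g v F y 0 = iteratedDeriv 1 (gstep g v F) y ^ 2 := by
  unfold bR
  rw [sp3_tlt_triv le_rfl, sub_zero]

theorem bM_zero (g v : ℝ) (F : ℝ → ℝ) (y : ℝ) :
    bM g v F y 0 = iteratedDeriv 2 (gstep g v F) y ^ 2 := by
  unfold bM
  rw [sp3_tlt_triv le_rfl, sub_zero]

theorem bR_last (hg : g ≠ 0) (v : ℝ) (F : ℝ → ℝ) (y : ℝ) :
    bR g v F y v = tlt g v F (fun x => iteratedDeriv 1 F x ^ 2) y := by
  unfold bR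
  rw [sub_self, gstep_zero hg]

theorem bM_last (hg : g ≠ 0) (v : ℝ) (F : ℝ → ℝ) (y : ℝ) :
    bM g v F y v = tlt g v F (fun x => iteratedDeriv 2 F x ^ 2) y := by
  unfold bM
  rw [sub_self, gstep_zero hg]

end Vale.Agent.P146.Pw2
end

section

/-!
# P146, polynomial lower bound, Parisi side: one block at a general point `y` (BLK, second part)
-/

set_option linter.all false

open MeasureTheory ProbabilityTheory Filter Topology Set

namespace Vale.Agent.P146.Pw2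

open Vale.Agent.P157.Par
open Vale.Agent.P146.Gap

variable {C K g g' v : ℝ} {F : ℝ → ℝ}

/-- a function whose derivative is bounded by the derivative of another one -/
lemma blk_cmp {f f' u u' : ℝ → ℝ} (hv : 0 ≤ v) (hf : ContinuousOn f (Icc 0 v))
    (hu : ContinuousOn u (Icc 0 v)) (hf' : ∀ τ ∈ Ioo 0 v, HasDerivAt f (f' τ) τ)
    (hu' : ∀ τ ∈ Ioo 0 v, HasDerivAt u (u' τ) τ) (h : ∀ τ ∈ Ioo 0 v, f' τ ≤ u' τ)
    {τ : ℝ} (hτ : τ ∈ Icc 0 v) : f τ - f 0 ≤ u τ - u 0 := by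
  have hmono : MonotoneOn (fun τ => u τ - f τ) (Icc 0 v) := by
    refine monotoneOn_of_hasDerivWithinAt_nonneg (f' := fun τ => u' τ - f' τ) (convex_Icc 0 v)
      (hu.sub hf) ?_ ?_
    · intro τ hτ
      rw [interior_Icc] at hτ ⊢
      exact ((hu' τ hτ).sub (hf' τ hτ)).hasDerivWithinAt
    · intro τ hτ
      rw [interior_Icc] at hτ
      exact sub_nonneg.2 (h τ hτ)
  have h1 := hmono ⟨le_rfl, hv⟩ hτ hτ.1
  simp only [] at h1
  linarith

lemma blk_lin {L B : ℝ} {G M D : ℝ → ℝ} (h : Sm L B G M D) {p q : ℝ → ℝ} (hp : Continuous p)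
    {Kp : ℝ} (hKp : ∀ x, |p x| ≤ Kp) (hq : Continuous q) {Kq : ℝ} (hKq : ∀ x, |q x| ≤ Kq)
    (c₁ c₂ c₃ m s x : ℝ) : tlt m s G (fun y => c₁ * p y + (c₂ * q y + c₃)) x =
      c₁ * tlt m s G p x + (c₂ * tlt m s G q x + c₃) := by
  have k1 : ∀ x, |c₁ * p x| ≤ |c₁| * Kp := fun x => by
    rw [abs_mul]; exact mul_le_mul_of_nonneg_left (hKp x) (abs_nonneg _)
  have k2 : ∀ x, |c₂ * q x| ≤ |c₂| * Kq := fun x => by
    rw [abs_mul]; exact mul_le_mul_of_nonneg_left (hKq x) (abs_nonneg _)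
  have k3 : ∀ x, |c₂ * q x + c₃| ≤ |c₂| * Kq + |c₃| := fun x =>
    (abs_add_le _ _).trans (add_le_add (k2 x) le_rfl)
  rw [h.tlt_add (g := fun y => c₁ * p y) (g' := fun y => c₂ * q y + c₃)
    (continuous_const.mul hp) k1 ((continuous_const.mul hq).add continuous_const) k3,
    h.tlt_add (g := fun y => c₂ * q y) (g' := fun _ => c₃) (continuous_const.mul hq) k2
      continuous_const (K' := |c₃|) (fun _ => le_rfl), tlt_const_mul, tlt_const_mul, h.tlt_const]

/-- `G'' ≤ 1` -/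
lemma blk_le_one (h : Adm C F) (x : ℝ) : iteratedDeriv 2 F x ≤ 1 := by
  have := h.le1 x
  linarith [sq_nonneg (iteratedDeriv 1 F x)]

lemma blk_bM_le (h : Adm C F) (hg : 0 < g) (hg1 : g ≤ 1) (y : ℝ) {τ : ℝ} (hτ : τ ∈ Icc 0 v) :
    bM g v F y τ ≤ 1 := by
  obtain ⟨L, B, hsm⟩ := first_sm h hg hτ
  have b2 := first_f_bc h hg v 1
  have hb := b2.mul b2
  rw [bM_eq]
  refine (le_abs_self _).trans (hsm.abs_tlt_le
    (g := fun x => first_f g v F 2 τ x * first_f g v F 2 τ x) (hb.slice τ) ?_ _ _ _)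
  intro x
  obtain ⟨p1, -⟩ := first_d1_sq h hg hg1 hτ x
  have p2 : first_f g v F 2 τ x ≤ 1 := blk_le_one (first_adm h hg hg1 hτ) x
  rw [abs_of_nonneg (mul_self_nonneg _)]
  exact mul_le_one₀ p2 p1.le p2

lemma blk_bM_nonneg (h : Adm C F) (hg : 0 < g) (hg1 : g ≤ 1) (y : ℝ) {τ : ℝ}
    (hτ : τ ∈ Icc 0 v) : 0 ≤ bM g v F y τ := by
  unfold bM tlt
  refine div_nonneg (integral_nonneg fun z => mul_nonneg (sq_nonneg _) (Real.exp_pos _).le)
    (integral_nonneg fun z => (Real.exp_pos _).le)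

lemma blk_bM1_ge (h : Adm C F) (hg : 0 < g) (hg1 : g ≤ 1) (y : ℝ) {τ : ℝ} (hτ : τ ∈ Icc 0 v) :
    -(2 * g) * bM g v F y τ ≤ bM1 g v F y τ := by
  obtain ⟨L, B, hsm⟩ := first_sm h hg hτ
  have b2 := first_f_bc h hg v 1
  have b3 := first_f_bc h hg v 2
  have hb := (b3.mul b3).add ((b2.mul (b2.mul b2)).smul (-(2 * g)))
  obtain ⟨K1, hK1⟩ := hb.2
  have hb2 := (b2.mul b2).smul (-(2 * g))
  obtain ⟨K2, hK2⟩ := hb2.2
  have e1 : bM1 g v F y τ = tlt g τ (gstep g (v - τ) F)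
      (fun x => first_f g v F 3 τ x * first_f g v F 3 τ x
        + -(2 * g) * (first_f g v F 2 τ x * (first_f g v F 2 τ x * first_f g v F 2 τ x))) y := by
    unfold bM1
    congr 1
    funext x
    change first_f g v F 3 τ x ^ 2 - 2 * g * first_f g v F 2 τ x ^ 3 = _
    ring
  rw [e1, bM_eq, ← tlt_const_mul]
  refine hsm.tlt_mono (g := fun x => -(2 * g) * (first_f g v F 2 τ x * first_f g v F 2 τ x))
    (hb2.slice τ) (hK2 τ) (hb.slice τ) (hK1 τ) (fun x => ?_) g τ y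
  obtain ⟨p1, -⟩ := first_d1_sq h hg hg1 hτ x
  have p2 : first_f g v F 2 τ x ≤ 1 := blk_le_one (first_adm h hg hg1 hτ) x
  obtain ⟨a, ha⟩ : ∃ a, a = first_f g v F 2 τ x := ⟨_, rfl⟩
  rw [← ha] at p1 p2 ⊢
  have p3 : 0 ≤ g * (a * a) * (1 - a) :=
    mul_nonneg (mul_nonneg hg.le (mul_self_nonneg a)) (by linarith)
  have p4 := mul_self_nonneg (first_f g v F 3 τ x)
  linarith

lemma blk_bM1_le (h : BK K g v F) (hF : Adm C F) (hg : 0 < g) (hg1 : g ≤ 1) {a : ℝ}
    (ha : 0 ≤ a) (y : ℝ) {τ : ℝ} (hτ : τ ∈ Icc 0 v) :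
    bM1 g v F y τ ≤ K ^ 2 * bR g v F y τ - 3 * g * a * bM g v F y τ + g * a ^ 3 := by
  obtain ⟨L, B, hsm⟩ := first_sm hF hg hτ
  have b1 := first_f_bc hF hg v 0
  have b2 := first_f_bc hF hg v 1
  have b3 := first_f_bc hF hg v 2
  have hb := (b3.mul b3).add ((b2.mul (b2.mul b2)).smul (-(2 * g)))
  obtain ⟨K1, hK1⟩ := hb.2
  have hb1 := b1.mul b1
  obtain ⟨Ka, hKa⟩ := hb1.2
  have hb2 := b2.mul b2
  obtain ⟨Kb, hKb⟩ := hb2.2
  have hb3 := (hb1.smul (K ^ 2)).add ((hb2.smul (-(3 * g * a))).add (first_Bc.const (g * a ^ 3)))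
  obtain ⟨Kc, hKc⟩ := hb3.2
  have e1 : bM1 g v F y τ = tlt g τ (gstep g (v - τ) F)
      (fun x => first_f g v F 3 τ x * first_f g v F 3 τ x
        + -(2 * g) * (first_f g v F 2 τ x * (first_f g v F 2 τ x * first_f g v F 2 τ x))) y := by
    unfold bM1
    congr 1
    funext x
    change first_f g v F 3 τ x ^ 2 - 2 * g * first_f g v F 2 τ x ^ 3 = _
    ring
  have e2 := blk_lin hsm (hb1.slice τ) (hKa τ) (hb2.slice τ) (hKb τ) (K ^ 2) (-(3 * g * a))
    (g * a ^ 3) g τ y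
  have e3 : K ^ 2 * bR g v F y τ - 3 * g * a * bM g v F y τ + g * a ^ 3 =
      tlt g τ (gstep g (v - τ) F) (fun x => K ^ 2 * (first_f g v F 1 τ x * first_f g v F 1 τ x)
        + (-(3 * g * a) * (first_f g v F 2 τ x * first_f g v F 2 τ x) + g * a ^ 3)) y := by
    rw [e2, bR_eq, bM_eq]
    ring
  rw [e1, e3]
  refine hsm.tlt_mono (hb.slice τ) (hK1 τ) (hb3.slice τ) (hKc τ) (fun x => ?_) g τ y
  have hAK := h (v - τ) ⟨by linarith [hτ.2], by linarith [hτ.1]⟩
  have q1 : |first_f g v F 3 τ x| ≤ K * |first_f g v F 1 τ x| := hAK.k3 x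
  obtain ⟨p1, -⟩ := first_d1_sq hF hg hg1 hτ x
  obtain ⟨u, hu⟩ : ∃ u, u = first_f g v F 2 τ x := ⟨_, rfl⟩
  obtain ⟨c, hc⟩ : ∃ c, c = first_f g v F 3 τ x := ⟨_, rfl⟩
  obtain ⟨d, hd⟩ : ∃ d, d = first_f g v F 1 τ x := ⟨_, rfl⟩
  rw [← hu] at p1
  rw [← hc, ← hd] at q1
  rw [← hu, ← hc, ← hd]
  have q2 : c * c ≤ K ^ 2 * (d * d) := by
    have q3 : |c| * |c| ≤ (K * |d|) * (K * |d|) :=
      mul_self_le_mul_self (abs_nonneg _) q1
    rw [abs_mul_abs_self] at q3
    have q4 : (K * |d|) * (K * |d|) = K ^ 2 * (|d| * |d|) := by ring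
    rw [q4, abs_mul_abs_self] at q3
    exact q3
  have q5 : 0 ≤ g * ((u - a) ^ 2 * (2 * u + a)) :=
    mul_nonneg hg.le (mul_nonneg (sq_nonneg _) (by linarith))
  have q6 : g * ((u - a) ^ 2 * (2 * u + a)) =
      2 * g * (u * (u * u)) - 3 * g * a * (u * u) + g * a ^ 3 := by ring
  rw [q6] at q5
  linarith

lemma blk_cont_lin (c : ℝ) (s : Set ℝ) : ContinuousOn (fun τ : ℝ => c * τ) s :=
  (continuous_const.mul continuous_id).continuousOn

lemma blk_deriv_lin (c τ : ℝ) : HasDerivAt (fun τ : ℝ => c * τ) c τ := by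
  simpa using (hasDerivAt_id τ).const_mul c

lemma blk_R_le (h : Adm C F) (hg : 0 < g) (hg1 : g ≤ 1) (hv : 0 ≤ v) (y : ℝ) {τ : ℝ}
    (hτ : τ ∈ Icc 0 v) : bR g v F y τ ≤ bR g v F y 0 + τ := by
  have h1 := blk_cmp (u := fun τ => 1 * τ) (u' := fun _ => 1) hv (bR_cont h hg hg1 y)
    (blk_cont_lin 1 _) (fun τ hτ => bR_deriv h hg hg1 y hτ) (fun τ _ => blk_deriv_lin 1 τ)
    (fun τ hτ => blk_bM_le h hg hg1 y ⟨hτ.1.le, hτ.2.le⟩) hτ
  simp only [one_mul, sub_zero] at h1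
  linarith

theorem blk_sq (h : Adm C F) (hg : 0 < g) (hg1 : g ≤ 1) (hv : 0 ≤ v) (y : ℝ) :
    tlt g v F (fun x => iteratedDeriv 1 F x ^ 2) y ≤ iteratedDeriv 1 (gstep g v F) y ^ 2 + v := by
  have h1 := blk_R_le h hg hg1 hv y ⟨hv, le_rfl⟩
  rw [bR_last hg.ne', bR_zero] at h1
  exact h1

lemma blk_adm (h : BK K g v F) (hg : 0 < g) (hv : 0 ≤ v) : Adm K F := by
  have := (h 0 ⟨le_rfl, hv⟩).adm
  rwa [gstep_zero hg.ne'] at this

/-- `ρ(τ) ≥ exp(-2 g τ) ρ(0)` -/
lemma blk_M_ge (h : Adm C F) (hg : 0 < g) (hg1 : g ≤ 1) (hv : 0 ≤ v) (y : ℝ) {τ : ℝ}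
    (hτ : τ ∈ Icc 0 v) : Real.exp (-2 * g * τ) * bM g v F y 0 ≤ bM g v F y τ := by
  have hd : ∀ c t : ℝ, HasDerivAt (fun τ : ℝ => Real.exp (c * τ)) (Real.exp (c * t) * c) t :=
    fun c t => (blk_deriv_lin c t).exp
  have h1 := blk_cmp (f := fun _ => 0) (f' := fun _ => 0)
    (u := fun τ => Real.exp (2 * g * τ) * bM g v F y τ)
    (u' := fun τ => Real.exp (2 * g * τ) * (2 * g) * bM g v F y τ +
      Real.exp (2 * g * τ) * bM1 g v F y τ) hv continuousOn_const
    (((Real.continuous_exp.comp (continuous_const.mul continuous_id)).continuousOn).mul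
      (bM_cont h hg hg1 y)) (fun τ _ => hasDerivAt_const τ 0)
    (fun τ hτ => (hd (2 * g) τ).mul (bM_deriv h hg hg1 y hτ))
    (fun τ hτ => by
      have h2 := blk_bM1_ge h hg hg1 y ⟨hτ.1.le, hτ.2.le⟩
      have h3 : 0 ≤ Real.exp (2 * g * τ) * (2 * g * bM g v F y τ + bM1 g v F y τ) :=
        mul_nonneg (Real.exp_pos _).le (by linarith)
      linarith) hτ
  simp only [sub_self, mul_zero, Real.exp_zero, one_mul] at h1
  have h2 : bM g v F y 0 ≤ Real.exp (2 * g * τ) * bM g v F y τ := by linarith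
  have h3 := mul_le_mul_of_nonneg_left h2 (Real.exp_pos (-2 * g * τ)).le
  rw [← mul_assoc, ← Real.exp_add] at h3
  have e : -2 * g * τ + 2 * g * τ = 0 := by ring
  rw [e, Real.exp_zero, one_mul] at h3
  exact h3

theorem blk_M_low (h : BK K g v F) (hg : 0 < g) (hg1 : g ≤ 1) (hv : 0 ≤ v) (y : ℝ) :
    Real.exp (-2 * v) * iteratedDeriv 2 (gstep g v F) y ^ 2 ≤
      tlt g v F (fun x => iteratedDeriv 2 F x ^ 2) y := by
  have hF := blk_adm h hg hv
  have h1 := blk_M_ge hF hg hg1 hv y ⟨hv, le_rfl⟩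
  rw [bM_last hg.ne', bM_zero] at h1
  refine le_trans (mul_le_mul_of_nonneg_right (Real.exp_le_exp.2 ?_) (sq_nonneg _)) h1
  have := mul_le_of_le_one_left hv hg1
  linarith

theorem blk_R_low (h : BK K g v F) (hg : 0 < g) (hg1 : g ≤ 1) (hv : 0 ≤ v) (y : ℝ) :
    iteratedDeriv 1 (gstep g v F) y ^ 2 +
      v * Real.exp (-2 * g * v) * iteratedDeriv 2 (gstep g v F) y ^ 2 ≤
      tlt g v F (fun x => iteratedDeriv 1 F x ^ 2) y := by
  have hF := blk_adm h hg hv
  have h1 := blk_cmp (f := fun τ => Real.exp (-2 * g * v) * bM g v F y 0 * τ)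
    (f' := fun _ => Real.exp (-2 * g * v) * bM g v F y 0) hv (blk_cont_lin _ _)
    (bR_cont hF hg hg1 y) (fun τ _ => blk_deriv_lin _ τ) (fun τ hτ => bR_deriv hF hg hg1 y hτ)
    (fun τ hτ => by
      refine le_trans (mul_le_mul_of_nonneg_right (Real.exp_le_exp.2 ?_)
        (blk_bM_nonneg hF hg hg1 y ⟨le_rfl, hv⟩)) (blk_M_ge hF hg hg1 hv y ⟨hτ.1.le, hτ.2.le⟩)
      have := mul_le_mul_of_nonneg_left hτ.2.le hg.le
      linarith) (τ := v) ⟨hv, le_rfl⟩
  simp only [mul_zero, sub_zero] at h1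
  rw [bR_last hg.ne', bR_zero, bM_zero] at h1
  linarith

lemma blk_M_le (h : BK K g v F) (hK : 0 ≤ K) (hg : 0 < g) (hg1 : g ≤ 1) (hv : 0 ≤ v) {a : ℝ}
    (ha : 0 ≤ a) (y : ℝ) {τ : ℝ} (hτ : τ ∈ Icc 0 v) : bM g v F y τ ≤ bM g v F y 0 +
        K ^ 2 * (bR g v F y 0 * τ + τ ^ 2 / 2) -
        g * τ * (3 * a * (1 - 2 * v) * bM g v F y 0 - a ^ 3) := by
  have hF := blk_adm h hg hv
  have hM0 := blk_bM_nonneg hF hg hg1 y (τ := 0) ⟨le_rfl, hv⟩
  have h1 := blk_cmp (u := fun τ => K ^ 2 * (bR g v F y 0 * τ + τ ^ 2 / 2) -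
      g * τ * (3 * a * (1 - 2 * v) * bM g v F y 0 - a ^ 3))
    (u' := fun τ => K ^ 2 * (bR g v F y 0 + τ) -
      g * (3 * a * (1 - 2 * v) * bM g v F y 0 - a ^ 3)) hv (bM_cont hF hg hg1 y)
    (by fun_prop) (fun τ hτ => bM_deriv hF hg hg1 y hτ)
    (fun τ _ => by
      have d1 := blk_deriv_lin (bR g v F y 0) τ
      have d2 : HasDerivAt (fun τ : ℝ => τ ^ 2 / 2) τ τ := by
        have := (hasDerivAt_pow 2 τ).div_const 2
        refine this.congr_deriv ?_
        simp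
      have d3 := ((blk_deriv_lin g τ).mul_const (3 * a * (1 - 2 * v) * bM g v F y 0 - a ^ 3))
      exact ((d1.add d2).const_mul (K ^ 2)).sub d3)
    (fun t ht => by
      have ht' : t ∈ Icc 0 v := ⟨ht.1.le, ht.2.le⟩
      have k1 := blk_bM1_le h hF hg hg1 ha y ht'
      have k2 := mul_le_mul_of_nonneg_left (blk_R_le hF hg hg1 hv y ht') (sq_nonneg K)
      have k3 := blk_M_ge hF hg hg1 hv y ht'
      have k4 : (1 - 2 * v) ≤ Real.exp (-2 * g * t) := by
        have e1 := Real.add_one_le_exp (-2 * g * t)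
        have e2 := mul_le_of_le_one_left ht'.1 hg1
        have e3 := ht'.2
        linarith
      have k5 := (mul_le_mul_of_nonneg_right k4 hM0).trans k3
      have k6 := mul_le_mul_of_nonneg_left k5 (by positivity : 0 ≤ 3 * g * a)
      linarith) hτ
  simp only [mul_zero, zero_mul, sub_zero, add_zero, ne_eq, OfNat.ofNat_ne_zero,
    not_false_eq_true, zero_pow, zero_div] at h1
  linarith

theorem blk_M_up (h : BK K g v F) (hK : 0 ≤ K) (hg : 0 < g) (hg1 : g ≤ 1) (hv : 0 ≤ v) {a : ℝ}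
    (ha : 0 ≤ a) (y : ℝ) : tlt g v F (fun x => iteratedDeriv 2 F x ^ 2) y ≤
      iteratedDeriv 2 (gstep g v F) y ^ 2 +
        K ^ 2 * (iteratedDeriv 1 (gstep g v F) y ^ 2 * v + v ^ 2 / 2) -
        g * v * (3 * a * (1 - 2 * v) * iteratedDeriv 2 (gstep g v F) y ^ 2 - a ^ 3) := by
  have h1 := blk_M_le h hK hg hg1 hv ha y (τ := v) ⟨hv, le_rfl⟩
  rw [bM_last hg.ne', bM_zero, bR_zero] at h1
  exact h1

theorem blk_R_up (h : BK K g v F) (hK : 0 ≤ K) (hg : 0 < g) (hg1 : g ≤ 1) (hv : 0 ≤ v) {a : ℝ}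
    (ha : 0 ≤ a) (y : ℝ) : tlt g v F (fun x => iteratedDeriv 1 F x ^ 2) y ≤
      iteratedDeriv 1 (gstep g v F) y ^ 2 + v * iteratedDeriv 2 (gstep g v F) y ^ 2 +
        K ^ 2 * (iteratedDeriv 1 (gstep g v F) y ^ 2 * v ^ 2 / 2 + v ^ 3 / 6) -
        g * v ^ 2 / 2 * (3 * a * (1 - 2 * v) * iteratedDeriv 2 (gstep g v F) y ^ 2 - a ^ 3) := by
  have hF := blk_adm h hg hv
  obtain ⟨A, hA⟩ : ∃ A, A = 3 * a * (1 - 2 * v) * bM g v F y 0 - a ^ 3 := ⟨_, rfl⟩
  have h1 := blk_cmp (u := fun τ => bM g v F y 0 * τ + K ^ 2 * (bR g v F y 0 * (τ ^ 2 / 2) +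
      τ ^ 3 / 6) - g * A * (τ ^ 2 / 2))
    (u' := fun τ => bM g v F y 0 + K ^ 2 * (bR g v F y 0 * τ + τ ^ 2 / 2) - g * A * τ) hv
    (bR_cont hF hg hg1 y) (by fun_prop) (fun τ hτ => bR_deriv hF hg hg1 y hτ)
    (fun τ _ => by
      have d1 := blk_deriv_lin (bM g v F y 0) τ
      have d2 : HasDerivAt (fun τ : ℝ => τ ^ 2 / 2) τ τ := by
        have := (hasDerivAt_pow 2 τ).div_const 2
        refine this.congr_deriv ?_
        simp
      have d3 : HasDerivAt (fun τ : ℝ => τ ^ 3 / 6) (τ ^ 2 / 2) τ := by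
        have := (hasDerivAt_pow 3 τ).div_const 6
        refine this.congr_deriv ?_
        simp only [Nat.cast_ofNat, Nat.add_one_sub_one]
        ring
      exact (d1.add (((d2.const_mul (bR g v F y 0)).add d3).const_mul (K ^ 2))).sub
        (d2.const_mul (g * A)))
    (fun t ht => by
      have k1 := blk_M_le h hK hg hg1 hv ha y (τ := t) ⟨ht.1.le, ht.2.le⟩
      rw [← hA] at k1
      linarith only [k1]) (τ := v) ⟨hv, le_rfl⟩
  simp only [mul_zero, zero_mul, sub_zero, add_zero, ne_eq, OfNat.ofNat_ne_zero,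
    not_false_eq_true, zero_pow, zero_div] at h1
  rw [hA, bR_last hg.ne', bM_zero, bR_zero] at h1
  linarith

end Vale.Agent.P146.Pw2
end

section

/-!
# P146, polynomial lower bound, Parisi side: nested averages (part 2)
-/

open MeasureTheory ProbabilityTheory Filter Topology Set

set_option linter.unusedVariables false

namespace Vale.Agent.P146.Pw2

open Vale.Agent.P157.Par
open Vale.Agent.P146.Gap

variable {n : ℕ} {m r : ℕ → ℝ} {b : ℝ}

/-- (uses AKs) -/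
theorem fl_aks (hm : Exponents n m) (hr : Path n r) {l : ℕ} (hl : l ≤ n) :
    AKs (r n - r l) (Fl n m r l) := by
  induction hl using Nat.decreasingInduction with
  | self => rw [sub_self, fl_last]; exact aks_lc
  | of_succ l hl ih =>
    obtain ⟨g0, g1⟩ := sp7_exp_of hm l hl
    have h1 : 0 ≤ r n - r (l + 1) := sub_nonneg.2 (minb_mono hr.2 hl le_rfl)
    have h2 := ih.step h1 g0 g1 (sub_nonneg.2 (hr.2 l hl))
    rw [fl_succ hl]
    have e : r n - r (l + 1) + (r (l + 1) - r l) = r n - r l := by ring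
    rwa [e] at h2

/-- (uses AKs) -/
theorem fl_bk (b : ℝ) : ∃ K : ℝ, 1 ≤ K ∧ ∀ (n : ℕ) (m r : ℕ → ℝ), Exponents n m → BPath b n r →
    (∀ l ≤ n, AK K (Fl n m r l)) ∧
      ∀ l < n, BK K (m (l + 1)) (r (l + 1) - r l) (Fl n m r (l + 1)) := by
  obtain ⟨K, hK1, hK⟩ := AKs.ak (b ^ 2)
  refine ⟨K, hK1, fun n m r hm hr => ?_⟩
  obtain ⟨h0, hp, hb⟩ := hr
  have hpos : ∀ l ≤ n, 0 ≤ r l := fun l hl => by
    have := minb_mono hp.2 (Nat.zero_le l) hl
    rwa [h0] at this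
  constructor
  · intro l hl
    refine hK (r n - r l) _ (sub_nonneg.2 (minb_mono hp.2 hl le_rfl)) ?_ (fl_aks hm hp hl)
    linarith [hpos l hl]
  · intro l hl s hs
    obtain ⟨g0, g1⟩ := sp7_exp_of hm l hl
    have h1 : 0 ≤ r n - r (l + 1) := sub_nonneg.2 (minb_mono hp.2 hl le_rfl)
    refine hK (r n - r (l + 1) + s) _ (add_nonneg h1 hs.1) ?_
      ((fl_aks hm hp hl).step h1 g0 g1 hs.1)
    linarith [hpos l hl.le, hs.2]

/-- (from `blk_sq`) for any admissible function at the level `l` -/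
theorem chn_sq_le {C : ℝ} {F : ℝ → ℝ} (hF : Adm C F) (h0 : r 0 = 0) {l : ℕ}
    (hm0 : ∀ i < l, 0 < m (i + 1) ∧ m (i + 1) ≤ 1) (hr : ∀ i < l, r i ≤ r (i + 1)) :
    chn m r l F (fun x => iteratedDeriv 1 F x ^ 2) ≤ r l := by
  induction l generalizing F C with
  | zero =>
    rw [chn_zero_def, h0, Real.sqrt_zero]
    have h1 : iteratedDeriv 1 F 0 = 0 := (cint_odd_zero hF).1
    simp [h1]
  | succ l ih =>
    obtain ⟨g0, g1⟩ := hm0 l (Nat.lt_succ_self l)
    have hv : 0 ≤ r (l + 1) - r l := sub_nonneg.2 (hr l (Nat.lt_succ_self l))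
    have hm' : Sp7Exp m l := fun i hi => hm0 i (by omega)
    have hF' := hF.step g0 g1 hv
    have h1 := ih hF' hm' (fun i hi => hr i (by omega))
    rw [chn_succ_def]
    have h2 := sp7_chn_mono m r l hm' (adm_ec hF')
      (sp7_cb_tlt (adm_ec hF) (sp7_cb_sq (nest_cb1 hF)) (m (l + 1)) (r (l + 1) - r l))
      (sp7_cb_add (sp7_cb_sq (nest_cb1 hF')) (sp7_cb_const (r (l + 1) - r l)))
      (fun x => blk_sq hF g0 g1 hv x)
    rw [sp7_chn_add m r l hm' (adm_ec hF') (sp7_cb_sq (nest_cb1 hF')) (sp7_cb_const _),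
      sp7_chn_const m r l hm' (adm_ec hF')] at h2
    linarith

/-- `R_l ≤ r_l` -/
theorem spR_le (hm : Exponents n m) (hr : Path n r) (h0 : r 0 = 0) {l : ℕ} (hl : l ≤ n) :
    spR n m r l ≤ r l := by
  obtain ⟨C, hC⟩ := fl_good hm hr hl
  rw [spR_eq hm hr hl]
  exact chn_sq_le hC.adm h0 (fun i hi => sp7_exp_of hm i (by omega))
    (fun i hi => hr.2 i (by omega))

/-- the functions of a block, without a good constant -/
theorem nest_bk (hm : Exponents n m) (hr : BPath b n r) {l : ℕ} (hl : l < n) :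
    ∃ K, BK K (m (l + 1)) (r (l + 1) - r l) (Fl n m r (l + 1)) := by
  obtain ⟨K, -, hK⟩ := fl_bk b
  exact ⟨K, (hK n m r hm hr).2 l hl⟩

theorem Ml_low (hm : Exponents n m) (hr : BPath b n r) {l : ℕ} (hl : l < n) :
    Real.exp (-2 * (r (l + 1) - r l)) * Ml n m r l ≤ Ml n m r (l + 1) := by
  obtain ⟨K, hK⟩ := nest_bk hm hr hl
  obtain ⟨g0, g1⟩ := sp7_exp_of hm l hl
  have hv : 0 ≤ r (l + 1) - r l := sub_nonneg.2 (hr.2.1.2 l hl)
  obtain ⟨C, hC⟩ := fl_good hm hr.2.1 hl.le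
  obtain ⟨C', hC'⟩ := fl_good hm hr.2.1 (show l + 1 ≤ n from hl)
  unfold Ml
  rw [ee_succ hl, ← ee_smul]
  refine ee_mono hm hr.2.1 hl.le (nest_cb_smul _ (sp7_cb_sq (nest_cb2 hC.adm)))
    (sp7_cb_tlt (adm_ec hC'.adm) (sp7_cb_sq (nest_cb2 hC'.adm)) _ _) fun x => ?_
  have h1 := blk_M_low hK g0 g1 hv x
  rwa [← fl_succ hl] at h1

/-- a linear combination -/
theorem nest_lin (hm : Exponents n m) (hr : Path n r) {l : ℕ} (hl : l ≤ n) (A B D : ℝ) :
    Sp7Cb (fun x => A * iteratedDeriv 1 (Fl n m r l) x ^ 2 +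
      B * iteratedDeriv 2 (Fl n m r l) x ^ 2 + D) ∧
    Ee n m r l (fun x => A * iteratedDeriv 1 (Fl n m r l) x ^ 2 +
      B * iteratedDeriv 2 (Fl n m r l) x ^ 2 + D) = A * spR n m r l + B * Ml n m r l + D := by
  obtain ⟨C, hC⟩ := fl_good hm hr hl
  have h1 := nest_cb_smul A (sp7_cb_sq (nest_cb1 hC.adm))
  have h2 := nest_cb_smul B (sp7_cb_sq (nest_cb2 hC.adm))
  have h3 := sp7_cb_add h1 h2
  refine ⟨sp7_cb_add h3 (sp7_cb_const D), ?_⟩
  rw [ee_add hm hr hl h3 (sp7_cb_const D), ee_add hm hr hl h1 h2, ee_smul, ee_smul,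
    ee_const hm hr hl, spR_eq hm hr hl]
  rfl

/-- the constant `K` of `fl_bk` -/
theorem Ml_up {K : ℝ} (hK : 0 ≤ K) (hm : Exponents n m) (hr : BPath b n r) {l : ℕ} (hl : l < n)
    (hB : BK K (m (l + 1)) (r (l + 1) - r l) (Fl n m r (l + 1))) {a : ℝ} (ha : 0 ≤ a) :
    Ml n m r (l + 1) ≤ Ml n m r l +
      K ^ 2 * (spR n m r l * (r (l + 1) - r l) + (r (l + 1) - r l) ^ 2 / 2) -
      m (l + 1) * (r (l + 1) - r l) * (3 * a * (1 - 2 * (r (l + 1) - r l)) * Ml n m r l - a ^ 3) := by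
  obtain ⟨g0, g1⟩ := sp7_exp_of hm l hl
  set v := r (l + 1) - r l with hv'
  have hv : 0 ≤ v := sub_nonneg.2 (hr.2.1.2 l hl)
  obtain ⟨C', hC'⟩ := fl_good hm hr.2.1 (show l + 1 ≤ n from hl)
  obtain ⟨h1, h2⟩ := nest_lin hm hr.2.1 hl.le (K ^ 2 * v)
    (1 - m (l + 1) * v * (3 * a * (1 - 2 * v))) (K ^ 2 * (v ^ 2 / 2) + m (l + 1) * v * a ^ 3)
  have h3 : Ml n m r (l + 1) ≤ Ee n m r l (fun x =>
      (K ^ 2 * v) * iteratedDeriv 1 (Fl n m r l) x ^ 2 +
      (1 - m (l + 1) * v * (3 * a * (1 - 2 * v))) * iteratedDeriv 2 (Fl n m r l) x ^ 2 +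
        (K ^ 2 * (v ^ 2 / 2) + m (l + 1) * v * a ^ 3)) := by
    unfold Ml
    rw [ee_succ hl]
    refine ee_mono hm hr.2.1 hl.le
      (sp7_cb_tlt (adm_ec hC'.adm) (sp7_cb_sq (nest_cb2 hC'.adm)) _ _) h1 fun x => ?_
    have h4 := blk_M_up hB hK g0 g1 hv ha x
    rw [hv', ← fl_succ hl, ← hv'] at h4
    linarith only [h4]
  rw [h2] at h3
  linarith only [h3]

theorem spR_up {K : ℝ} (hK : 0 ≤ K) (hm : Exponents n m) (hr : BPath b n r) {l : ℕ} (hl : l < n)
    (hB : BK K (m (l + 1)) (r (l + 1) - r l) (Fl n m r (l + 1))) {a : ℝ} (ha : 0 ≤ a) :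
    spR n m r (l + 1) ≤ spR n m r l + (r (l + 1) - r l) * Ml n m r l +
      K ^ 2 * (spR n m r l * (r (l + 1) - r l) ^ 2 / 2 + (r (l + 1) - r l) ^ 3 / 6) -
      m (l + 1) * (r (l + 1) - r l) ^ 2 / 2 *
        (3 * a * (1 - 2 * (r (l + 1) - r l)) * Ml n m r l - a ^ 3) := by
  obtain ⟨g0, g1⟩ := sp7_exp_of hm l hl
  set v := r (l + 1) - r l with hv'
  have hv : 0 ≤ v := sub_nonneg.2 (hr.2.1.2 l hl)
  obtain ⟨C', hC'⟩ := fl_good hm hr.2.1 (show l + 1 ≤ n from hl)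
  obtain ⟨h1, h2⟩ := nest_lin hm hr.2.1 hl.le (1 + K ^ 2 * (v ^ 2 / 2))
    (v - m (l + 1) * v ^ 2 / 2 * (3 * a * (1 - 2 * v)))
    (K ^ 2 * (v ^ 3 / 6) + m (l + 1) * v ^ 2 / 2 * a ^ 3)
  have h3 : spR n m r (l + 1) ≤ Ee n m r l (fun x =>
      (1 + K ^ 2 * (v ^ 2 / 2)) * iteratedDeriv 1 (Fl n m r l) x ^ 2 +
      (v - m (l + 1) * v ^ 2 / 2 * (3 * a * (1 - 2 * v))) * iteratedDeriv 2 (Fl n m r l) x ^ 2 +
        (K ^ 2 * (v ^ 3 / 6) + m (l + 1) * v ^ 2 / 2 * a ^ 3)) := by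
    rw [spR_eq hm hr.2.1 (show l + 1 ≤ n from hl), ee_succ hl]
    refine ee_mono hm hr.2.1 hl.le
      (sp7_cb_tlt (adm_ec hC'.adm) (sp7_cb_sq (nest_cb1 hC'.adm)) _ _) h1 fun x => ?_
    have h4 := blk_R_up hB hK g0 g1 hv ha x
    rw [hv', ← fl_succ hl, ← hv'] at h4
    linarith only [h4]
  rw [h2] at h3
  linarith only [h3]

end Vale.Agent.P146.Pw2
end

section

/-!
# P146, polynomial lower bound, Parisi side: the average of `F'²` is Lipschitz
-/

open MeasureTheory ProbabilityTheory Filter Topology Set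

namespace Vale.Agent.P146.Pw2

open Vale.Agent.P157.Par
open Vale.Agent.P146.Gap

variable {C g v : ℝ} {F : ℝ → ℝ}

theorem blk_lip (h : Adm C F) (hg : 0 < g) (hg1 : g ≤ 1) (v y : ℝ) :
    |tlt g v F (fun x => iteratedDeriv 1 F x ^ 2) y -
      tlt g v F (fun x => iteratedDeriv 1 F x ^ 2) 0| ≤ 4 * min 1 |y| := by
  have hE := minb_ec h
  have hS := hE.sm
  have hM : ∀ x, |iteratedDeriv 1 F x| ≤ 1 := hE.abs_M
  have hD : ∀ x, |iteratedDeriv 2 F x| ≤ 1 := hS.bD
  have hM2 : ∀ x, |iteratedDeriv 1 F x ^ 2| ≤ 1 := fun x => by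
    rw [abs_pow]
    exact pow_le_one₀ (abs_nonneg _) (hM x)
  have hcM := hS.cont1
  have hd : ∀ x, HasDerivAt (fun x => iteratedDeriv 1 F x ^ 2)
      (2 * iteratedDeriv 1 F x * iteratedDeriv 2 F x) x := fun x => by
    have := (hS.d2 x).pow 2
    refine this.congr_deriv ?_
    simp
  have hb' : ∀ x, |2 * iteratedDeriv 1 F x * iteratedDeriv 2 F x| ≤ 2 := fun x => by
    rw [abs_mul, abs_mul, abs_of_pos (by norm_num : (0 : ℝ) < 2)]
    have := mul_le_mul (hM x) (hD x) (abs_nonneg _) zero_le_one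
    linarith
  have hc' : Continuous fun x => 2 * iteratedDeriv 1 F x * iteratedDeriv 2 F x :=
    (continuous_const.mul hcM).mul hS.cD
  have hder := fun x => hS.tlt_deriv hd hM2 hc' hb' g v x
  have hbd : ∀ x, |tlt g v F (fun y => 2 * iteratedDeriv 1 F y * iteratedDeriv 2 F y +
      g * iteratedDeriv 1 F y * iteratedDeriv 1 F y ^ 2) x -
      tlt g v F (fun x => iteratedDeriv 1 F x ^ 2) x * (g * tlt g v F (iteratedDeriv 1 F) x)| ≤ 4 := by
    intro x
    have h1 : |tlt g v F (fun y => 2 * iteratedDeriv 1 F y * iteratedDeriv 2 F y +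
        g * iteratedDeriv 1 F y * iteratedDeriv 1 F y ^ 2) x| ≤ 3 := by
      refine hS.abs_tlt_le (by continuity) (fun y => ?_) g v x
      refine (abs_add_le _ _).trans ?_
      have h2 := hb' y
      have h3 : |g * iteratedDeriv 1 F y * iteratedDeriv 1 F y ^ 2| ≤ 1 := by
        rw [abs_mul, abs_mul, abs_of_pos hg]
        have a := mul_le_mul hg1 (hM y) (abs_nonneg _) zero_le_one
        have b := mul_le_mul a (hM2 y) (abs_nonneg _) (by norm_num)
        linarith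
      linarith
    have h4 : |tlt g v F (fun x => iteratedDeriv 1 F x ^ 2) x| ≤ 1 :=
      hS.abs_tlt_le (hcM.pow 2) hM2 g v x
    have h5 := hS.abs_tlt_le hcM hM g v x
    have h6 : |tlt g v F (fun x => iteratedDeriv 1 F x ^ 2) x *
        (g * tlt g v F (iteratedDeriv 1 F) x)| ≤ 1 := by
      rw [abs_mul, abs_mul, abs_of_pos hg]
      have a := mul_le_mul hg1 h5 (abs_nonneg _) zero_le_one
      have b := mul_le_mul h4 a (mul_nonneg hg.le (abs_nonneg _)) zero_le_one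
      linarith
    have := abs_sub (tlt g v F (fun y => 2 * iteratedDeriv 1 F y * iteratedDeriv 2 F y +
      g * iteratedDeriv 1 F y * iteratedDeriv 1 F y ^ 2) x)
      (tlt g v F (fun x => iteratedDeriv 1 F x ^ 2) x * (g * tlt g v F (iteratedDeriv 1 F) x))
    linarith
  have hlip := convex_univ.norm_image_sub_le_of_norm_hasDerivWithin_le
    (f := tlt g v F (fun x => iteratedDeriv 1 F x ^ 2)) (s := Set.univ) (C := 4)
    (fun x _ => (hder x).hasDerivWithinAt) (fun x _ => by rw [Real.norm_eq_abs]; exact hbd x)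
    (mem_univ 0) (mem_univ y)
  rw [Real.norm_eq_abs, Real.norm_eq_abs, sub_zero] at hlip
  have hf : ∀ x, 0 ≤ tlt g v F (fun x => iteratedDeriv 1 F x ^ 2) x ∧
      tlt g v F (fun x => iteratedDeriv 1 F x ^ 2) x ≤ 1 := fun x => by
    constructor
    · have := hS.tlt_mono (g := fun _ => (0 : ℝ)) (g' := fun x => iteratedDeriv 1 F x ^ 2)
        continuous_const (K := 0) (fun _ => by simp) (hcM.pow 2) hM2 (fun x => sq_nonneg _) g v x
      rwa [hS.tlt_const] at this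
    · exact (le_abs_self _).trans (hS.abs_tlt_le (hcM.pow 2) hM2 g v x)
  have h1 : |tlt g v F (fun x => iteratedDeriv 1 F x ^ 2) y -
      tlt g v F (fun x => iteratedDeriv 1 F x ^ 2) 0| ≤ 4 * 1 := by
    obtain ⟨a1, a2⟩ := hf y
    obtain ⟨b1, b2⟩ := hf 0
    rw [abs_le]
    constructor <;> linarith
  rcases le_total 1 |y| with h2 | h2
  · rw [min_eq_left h2]; exact h1
  · rw [min_eq_right h2]; exact hlip

end Vale.Agent.P146.Pw2
end

section

/-!
# P146, polynomial lower bound, Parisi side: the block between the levels `L` and `L + 1` (LONG)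
-/

open MeasureTheory ProbabilityTheory Filter Topology Set

namespace Vale.Agent.P146.Pw2

open Vale.Agent.P157.Par
open Vale.Agent.P146.Gap

lemma long_gm_pos (n l : ℕ) : 0 < gm n (l + 1) := by unfold gm; positivity

lemma long_gm_le {n l : ℕ} (hl : l ≤ n + 1) : gm n l ≤ 1 := by
  unfold gm
  rw [div_le_one (by positivity)]
  exact_mod_cast hl

lemma long_gm_lt (n l : ℕ) : gm n l < gm n (l + 1) := by
  have h1 := gm_sub n l
  have h2 : (0 : ℝ) < 1 / (n + 1) := by positivity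
  linarith

lemma long_r_nonneg {b : ℝ} {n : ℕ} {r : ℕ → ℝ} (h : BPath b n r) {l : ℕ} (hl : l ≤ n) :
    0 ≤ r l := by
  have := gapn_path_le h.2.1 (Nat.zero_le l) hl
  rwa [h.1] at this

lemma long_r_le {b : ℝ} {n : ℕ} {r : ℕ → ℝ} (h : BPath b n r) {l : ℕ} (hl : l ≤ n) :
    r l ≤ b ^ 2 := (gapn_path_le h.2.1 hl le_rfl).trans h.2.2

lemma long_sqrt {b x : ℝ} (hb : 0 ≤ b) (hx : 0 ≤ x) (h : x ≤ b ^ 2) : x ≤ b * √x := by
  have h1 : √x ≤ b := by
    rw [Real.sqrt_le_left hb]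
    exact h
  calc x = √x * √x := (Real.mul_self_sqrt hx).symm
    _ ≤ b * √x := mul_le_mul_of_nonneg_right h1 (Real.sqrt_nonneg x)

lemma long_chn_smul (m r : ℕ → ℝ) (l : ℕ) (F ψ : ℝ → ℝ) (c : ℝ) :
    chn m r l F (fun x => c * ψ x) = c * chn m r l F ψ := by
  induction l generalizing F ψ with
  | zero => rw [chn_zero_def, chn_zero_def, integral_const_mul]
  | succ l ih =>
    rw [chn_succ_def, chn_succ_def]
    have h1 : tlt (m (l + 1)) (r (l + 1) - r l) F (fun x => c * ψ x) =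
        fun x => c * tlt (m (l + 1)) (r (l + 1) - r l) F ψ x :=
      funext fun x => tlt_const_mul _ _ _ _ _ x
    rw [h1, ih]

lemma long_cb_abs {g : ℝ → ℝ} (hg : Sp7Cb g) : Sp7Cb (fun x => |g x|) := by
  obtain ⟨hc, K, hK⟩ := hg
  exact ⟨hc.abs, K, fun x => by rw [abs_abs]; exact hK x⟩

lemma long_cb_smul {g : ℝ → ℝ} (hg : Sp7Cb g) (c : ℝ) : Sp7Cb (fun x => c * g x) := by
  obtain ⟨hc, K, hK⟩ := hg
  exact ⟨continuous_const.mul hc, |c| * K, fun x => by
    rw [abs_mul]; exact mul_le_mul_of_nonneg_left (hK x) (abs_nonneg c)⟩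

/-! ### (c) -/

lemma long_chain {b K : ℝ} {n : ℕ} {r : ℕ → ℝ} (hr : BPath b n r)
    (hB : ∀ l < n, BK K (gm n (l + 1)) (r (l + 1) - r l) (Fl n (gm n) r (l + 1))) :
    ∀ l ≤ n, iteratedDeriv 2 (Fl n (gm n) r l) 0 ≤
      Real.exp (K * r l / 2) * iteratedDeriv 2 (Fl n (gm n) r 0) 0 := by
  intro l
  induction l with
  | zero =>
    intro _
    rw [hr.1]
    simp
  | succ l ih =>
    intro hl
    have hl' : l < n := by omega
    have h1 := bk_low0 (hB l hl') (long_gm_pos n l) (long_gm_le (by omega))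
      (sub_nonneg.2 (hr.2.1.2 l hl'))
    rw [← fl_succ hl'] at h1
    refine h1.trans ?_
    have h2 := mul_le_mul_of_nonneg_left (ih (by omega))
      (Real.exp_pos (K * (r (l + 1) - r l) / 2)).le
    refine h2.trans (le_of_eq ?_)
    rw [← mul_assoc, ← Real.exp_add]
    congr 2
    ring

theorem long_c {b : ℝ} (hb : 1 < b) : ∃ C : ℝ, 1 ≤ C ∧ ∀ (n : ℕ) (r : ℕ → ℝ) (L : ℕ),
    IsMin b n (gm n) r → L < n →
    iteratedDeriv 2 (Fl n (gm n) r L) 0 ^ 2 ≤ 1 / b ^ 2 + C * (r L + 1 / (n + 1)) := by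
  obtain ⟨K, hK1, hK⟩ := fl_bk b
  obtain ⟨C0, hC0, hS⟩ := split_zero hb
  refine ⟨C0 + K * Real.exp (K * b ^ 2), ?_, ?_⟩
  · have h1 : 0 < K * Real.exp (K * b ^ 2) := mul_pos (by linarith) (Real.exp_pos _)
    linarith
  intro n r L h hL
  have hm := gm_exponents n
  obtain ⟨hA, hB⟩ := hK n (gm n) r hm h.1
  have h1 := long_chain h.1 hB L hL.le
  have h2 := hS n r h
  rw [← fl_zero] at h2
  have hp := (hA L hL.le).adm.pos 0
  have hp0 := vari_d2_01 (hA 0 (by omega)).adm 0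
  have hr0 := long_r_nonneg h.1 hL.le
  have hrb := long_r_le h.1 hL.le
  set a := iteratedDeriv 2 (Fl n (gm n) r L) 0 with ha
  set a0 := iteratedDeriv 2 (Fl n (gm n) r 0) 0 with ha0
  have h3 : a ^ 2 ≤ Real.exp (K * r L) * a0 ^ 2 := by
    have h4 := pow_le_pow_left₀ hp.le h1 2
    refine h4.trans (le_of_eq ?_)
    rw [mul_pow, ← Real.exp_nat_mul]
    congr 2
    push_cast
    ring
  have hx : 0 ≤ K * r L := by (clear * - hK1 hr0; positivity)
  have h5 : Real.exp (K * r L) ≤ 1 + K * Real.exp (K * b ^ 2) * r L := by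
    have h6 : Real.exp (K * r L) ≤ 1 + K * r L * Real.exp (K * r L) := by
      have h7 := Real.add_one_le_exp (-(K * r L))
      have h8 := Real.exp_pos (K * r L)
      have h9 : Real.exp (-(K * r L)) * Real.exp (K * r L) = 1 := by
        rw [← Real.exp_add]; simp
      have h10 := mul_le_mul_of_nonneg_right h7 h8.le
      rw [h9] at h10
      linarith only [h10]
    have h11 : Real.exp (K * r L) ≤ Real.exp (K * b ^ 2) :=
      Real.exp_le_exp.2 (mul_le_mul_of_nonneg_left hrb (by linarith))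
    have h12 := mul_le_mul_of_nonneg_left h11 hx
    have e1 : K * Real.exp (K * b ^ 2) * r L = K * r L * Real.exp (K * b ^ 2) := by ring
    rw [e1]
    linarith only [h12, h6]
  have h13 : a0 ^ 2 ≤ 1 := pow_le_one₀ hp0.1.le hp0.2
  have h14 : 0 ≤ K * Real.exp (K * b ^ 2) * r L := by positivity
  have h15 : Real.exp (K * r L) * a0 ^ 2 ≤ (1 + K * Real.exp (K * b ^ 2) * r L) * a0 ^ 2 :=
    mul_le_mul_of_nonneg_right h5 (sq_nonneg a0)
  have h16 : K * Real.exp (K * b ^ 2) * r L * a0 ^ 2 ≤ K * Real.exp (K * b ^ 2) * r L :=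
    mul_le_of_le_one_right h14 h13
  have h17 : 0 ≤ C0 * r L := by positivity
  have h18 : 0 ≤ K * Real.exp (K * b ^ 2) * (1 / ((n : ℝ) + 1)) := by positivity
  have e2 : (C0 + K * Real.exp (K * b ^ 2)) * (r L + 1 / ((n : ℝ) + 1)) =
      C0 * r L + C0 / (n + 1) + K * Real.exp (K * b ^ 2) * r L +
        K * Real.exp (K * b ^ 2) * (1 / ((n : ℝ) + 1)) := by ring
  rw [e2]
  linarith only [h18, h17, h16, h15, h3, h2]

/-! ### (d) -/

/-- the other data of the block -/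
theorem long_d {b : ℝ} (_hb : 1 < b) : ∃ C : ℝ, 1 ≤ C ∧ ∀ (n : ℕ) (r : ℕ → ℝ) (L : ℕ),
    IsMin b n (gm n) r → L < n → r L < r (L + 1) →
    (∃ C', Adm C' (Fl n (gm n) r (L + 1))) ∧
    Mf (gm n (L + 1)) (r (L + 1) - r L) (Fl n (gm n) r (L + 1)) 0 =
      iteratedDeriv 2 (Fl n (gm n) r L) 0 ^ 2 ∧
    M1f (gm n (L + 1)) (r (L + 1) - r L) (Fl n (gm n) r (L + 1)) 0 ≤ -(gm n (L + 1) / C) ∧
    ∀ τ ∈ Ioo 0 (r (L + 1) - r L),
      0 ≤ M2f (gm n (L + 1)) (r (L + 1) - r L) (Fl n (gm n) r (L + 1)) τ ∧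
      M2f (gm n (L + 1)) (r (L + 1) - r L) (Fl n (gm n) r (L + 1)) τ ≤ C := by
  obtain ⟨K, hK1, hK⟩ := fl_bk b
  have hK0 : 0 < K := by linarith
  refine ⟨K ^ 3 + K ^ 2 + 6, ?_, ?_⟩
  · have h1 : 0 < K ^ 3 + K ^ 2 := by positivity
    linarith
  intro n r L h hL hlt
  have hm := gm_exponents n
  obtain ⟨hA, hB⟩ := hK n (gm n) r hm h.1
  have hV : 0 < r (L + 1) - r L := sub_pos.2 hlt
  have hg := long_gm_pos n L
  have hg1 : gm n (L + 1) ≤ 1 := long_gm_le (by omega)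
  have hF := (hA (L + 1) (by omega)).adm
  have hFL := hA L hL.le
  have hsucc := fl_succ (m := gm n) (r := r) hL
  set F := Fl n (gm n) r (L + 1) with hFd
  set g := gm n (L + 1) with hgd
  set V := r (L + 1) - r L with hVd
  refine ⟨⟨K, hF⟩, ?_, ?_, ?_⟩
  · rw [Mf_zero hF hg hg1 hV.le, hsucc]
  · unfold M1f
    rw [sp3_tlt_triv le_rfl, sub_zero, ← hsucc, GoodX.good_odd hFL.adm.even (by decide : Odd 3)]
    have h1 : 1 / K ≤ iteratedDeriv 2 (Fl n (gm n) r L) 0 := by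
      rw [div_le_iff₀ hK0, mul_comm]
      exact hFL.low0
    have h2 : (1 / K) ^ 3 ≤ iteratedDeriv 2 (Fl n (gm n) r L) 0 ^ 3 :=
      pow_le_pow_left₀ (by positivity) h1 3
    have h3 : 1 / (K ^ 3 + K ^ 2 + 6) ≤ (1 / K) ^ 3 := by
      rw [one_div_pow]
      apply one_div_le_one_div_of_le (by positivity)
      linarith only [sq_nonneg K]
    have h4 : 1 / (K ^ 3 + K ^ 2 + 6) ≤ 2 * iteratedDeriv 2 (Fl n (gm n) r L) 0 ^ 3 := by
      have : 0 < (1 / K) ^ 3 := by positivity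
      linarith
    have h5 := mul_le_mul_of_nonneg_left h4 hg.le
    have e1 : g * (1 / (K ^ 3 + K ^ 2 + 6)) = g / (K ^ 3 + K ^ 2 + 6) := by ring
    rw [e1] at h5
    linarith only [h5]
  · intro τ hτ
    constructor
    · obtain ⟨C', hG⟩ := fl_good hm h.1.2.1 (l := L + 1) (by omega)
      exact gapn_M2f_nonneg hG hg (long_gm_lt n (L + 1)).le (long_gm_le (by omega)) hτ
    · have hG : AK K (gstep g (V - τ) F) := hB L hL (V - τ) ⟨by linarith [hτ.2], by linarith [hτ.1]⟩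
      have hc : ∀ j : ℕ, Continuous (iteratedDeriv j (gstep g (V - τ) F)) := fun j =>
        (hG.adm.smb.smooth.continuous_iteratedDeriv j (by exact_mod_cast le_top))
      have h2 := vari_d2_01 hG.adm
      have h1 := vari_abs1 hG.adm
      have h3 : ∀ y, |iteratedDeriv 3 (gstep g (V - τ) F) y| ≤ K := fun y =>
        (hG.k3 y).trans (mul_le_of_le_one_right hK0.le (h1 y))
      have h4 : ∀ y, |iteratedDeriv 4 (gstep g (V - τ) F) y| ≤ K := fun y =>
        (hG.k4 y).trans (mul_le_of_le_one_right hK0.le (h2 y).2)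
      have hs3 : ∀ y, iteratedDeriv 3 (gstep g (V - τ) F) y ^ 2 ≤ K ^ 2 := fun y => by
        rw [← sq_abs]; exact pow_le_pow_left₀ (abs_nonneg _) (h3 y) 2
      have hs4 : ∀ y, iteratedDeriv 4 (gstep g (V - τ) F) y ^ 2 ≤ K ^ 2 := fun y => by
        rw [← sq_abs]; exact pow_le_pow_left₀ (abs_nonneg _) (h4 y) 2
      have ha : ∀ y, 0 ≤ 12 * g * iteratedDeriv 2 (gstep g (V - τ) F) y *
          iteratedDeriv 3 (gstep g (V - τ) F) y ^ 2 ∧ 12 * g * iteratedDeriv 2 (gstep g (V - τ) F) y *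
          iteratedDeriv 3 (gstep g (V - τ) F) y ^ 2 ≤ 12 * K ^ 2 := fun y => by
        have p1 := (h2 y).1
        refine ⟨by (clear * - hg p1; positivity), ?_⟩
        have p2 : g * iteratedDeriv 2 (gstep g (V - τ) F) y ≤ 1 :=
          mul_le_one₀ hg1 p1.le (h2 y).2
        have p3 : g * iteratedDeriv 2 (gstep g (V - τ) F) y *
            iteratedDeriv 3 (gstep g (V - τ) F) y ^ 2 ≤ 1 * K ^ 2 :=
          mul_le_mul p2 (hs3 y) (sq_nonneg _) zero_le_one
        linarith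
      have hb' : ∀ y, 0 ≤ 6 * g ^ 2 * iteratedDeriv 2 (gstep g (V - τ) F) y ^ 4 ∧
          6 * g ^ 2 * iteratedDeriv 2 (gstep g (V - τ) F) y ^ 4 ≤ 6 := fun y => by
        have p1 := (h2 y).1
        refine ⟨by positivity, ?_⟩
        have p2 : g ^ 2 * iteratedDeriv 2 (gstep g (V - τ) F) y ^ 4 ≤ 1 :=
          mul_le_one₀ (pow_le_one₀ hg.le hg1) (by positivity) (pow_le_one₀ p1.le (h2 y).2)
        linarith
      unfold M2f
      have h5 := (ex_ec hG.adm).sm.tlt_mono (g := fun y =>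
          iteratedDeriv 4 (gstep g (V - τ) F) y ^ 2
          - 12 * g * iteratedDeriv 2 (gstep g (V - τ) F) y
            * iteratedDeriv 3 (gstep g (V - τ) F) y ^ 2
          + 6 * g ^ 2 * iteratedDeriv 2 (gstep g (V - τ) F) y ^ 4) (g' := fun _ => K ^ 2 + 6)
        ((((hc 4).pow 2).sub ((continuous_const.mul (hc 2)).mul ((hc 3).pow 2))).add
          (continuous_const.mul ((hc 2).pow 4)))
        (K := K ^ 2 + 12 * K ^ 2 + 6) (fun y => by
          rw [abs_le]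
          have q1 := ha y
          have q2 := hb' y
          have q3 := hs4 y
          have q4 := sq_nonneg (iteratedDeriv 4 (gstep g (V - τ) F) y)
          constructor <;> nlinarith [sq_nonneg K])
        continuous_const (K' := |K ^ 2 + 6|) (fun _ => le_rfl) (fun y => by
          have q1 := ha y
          have q2 := hb' y
          have q3 := hs4 y
          linarith) g τ 0
      rw [(ex_ec hG.adm).sm.tlt_const] at h5
      refine h5.trans ?_
      have : 0 < K ^ 3 := by positivity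
      linarith

/-! ### (b) -/

theorem long_b {b : ℝ} (hb : 1 < b) : ∃ C : ℝ, 1 ≤ C ∧ ∀ (n : ℕ) (r : ℕ → ℝ) (L : ℕ),
    IsMin b n (gm n) r → L < n → r L < r (L + 1) →
    Rf (gm n (L + 1)) (gm n (L + 1)) (r (L + 1) - r L) (Fl n (gm n) r (L + 1))
      (r (L + 1) - r L) ≤ (r (L + 1) - r L) / b ^ 2 + C * √(r L) := by
  have hb0 : 0 < b := by linarith
  obtain ⟨K, hK1, hK⟩ := fl_bk b
  refine ⟨4 * K + b, by linarith, ?_⟩
  intro n r L h hL hlt
  have hm := gm_exponents n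
  obtain ⟨hA, hB⟩ := hK n (gm n) r hm h.1
  have hV : 0 < r (L + 1) - r L := sub_pos.2 hlt
  have hg := long_gm_pos n L
  have hg1 : gm n (L + 1) ≤ 1 := long_gm_le (by omega)
  have hF := (hA (L + 1) (by omega)).adm
  have hFL := hA L hL.le
  have hr0 := long_r_nonneg h.1 hL.le
  have hrb := long_r_le h.1 hL.le
  have hpath := h.1.2.1
  have hst := (stat hb0 hm h).1 (L + 1) (by omega) (hr0.trans_lt hlt)
  rw [spR_eq hm hpath (by omega : L + 1 ≤ n), ee_succ hL] at hst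
  have e0 : Rf (gm n (L + 1)) (gm n (L + 1)) (r (L + 1) - r L) (Fl n (gm n) r (L + 1))
      (r (L + 1) - r L) = tlt (gm n (L + 1)) (r (L + 1) - r L) (Fl n (gm n) r (L + 1))
        (fun x => iteratedDeriv 1 (Fl n (gm n) r (L + 1)) x ^ 2) 0 := by
    unfold Rf
    rw [sub_self, gstep_zero hg.ne']
  rw [e0]
  set ψ := tlt (gm n (L + 1)) (r (L + 1) - r L) (Fl n (gm n) r (L + 1))
    (fun x => iteratedDeriv 1 (Fl n (gm n) r (L + 1)) x ^ 2) with hψ
  have cψ : Sp7Cb ψ := sp7_cb_tlt (ex_ec hF) (sp7_cb_sq (sp7_cb_M (ex_ec hF))) _ _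
  have cD : Sp7Cb (iteratedDeriv 1 (Fl n (gm n) r L)) := sp7_cb_M (ex_ec hFL.adm)
  have cD' : Sp7Cb (fun x => 4 * K * |iteratedDeriv 1 (Fl n (gm n) r L) x|) :=
    long_cb_smul (long_cb_abs cD) _
  have h1 : ∀ x, ψ 0 ≤ ψ x + 4 * K * |iteratedDeriv 1 (Fl n (gm n) r L) x| := by
    intro x
    have h2 := blk_lip hF hg hg1 (r (L + 1) - r L) x
    rw [← hψ] at h2
    have h3 := (abs_le.1 h2).1
    have h4 := hFL.low x
    linarith only [h4, h3]
  have h5 := ee_mono hm hpath hL.le (sp7_cb_const (ψ 0)) (sp7_cb_add cψ cD') h1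
  rw [ee_const hm hpath hL.le, ee_add hm hpath hL.le cψ cD', ee_smul, hst] at h5
  have h6 : Ee n (gm n) r L (fun x => |iteratedDeriv 1 (Fl n (gm n) r L) x|) ≤ √(r L) := by
    refine chn_abs_le hFL.adm (fun i hi => ⟨long_gm_pos n i, long_gm_le (by omega)⟩)
      (fun i hi => hpath.2 i (by omega)) cD ?_
    have h7 := spR_le hm hpath h.1.1 hL.le
    rw [spR_eq hm hpath hL.le] at h7
    exact h7
  have h8 : 4 * K * Ee n (gm n) r L (fun x => |iteratedDeriv 1 (Fl n (gm n) r L) x|) ≤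
      4 * K * √(r L) := mul_le_mul_of_nonneg_left h6 (by linarith only [hK1])
  have h9 := long_sqrt hb0.le hr0 hrb
  have h10 : r L / b ^ 2 ≤ r L := by
    rw [div_le_iff₀ (by positivity)]
    have : 1 ≤ b ^ 2 := by (by_contra nlg; linarith only [nlg, mul_nonneg (le_of_lt (sub_pos.2 hb)) (sub_nonneg.2 hg1), mul_pos (sub_pos.2 hb) (sub_pos.2 hg), mul_pos (sub_pos.2 hb) (sub_pos.2 hb), mul_nonneg (le_of_lt (sub_pos.2 (not_le.1 nlg))) (sub_nonneg.2 hg1), mul_pos (sub_pos.2 (not_le.1 nlg)) (sub_pos.2 hg)])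
    (by_contra nlg; linarith only [nlg, mul_nonneg (sub_nonneg.2 hr0) (sub_nonneg.2 this), mul_nonneg (le_of_lt (sub_pos.2 (not_le.1 nlg))) (sub_nonneg.2 hg1), mul_pos (sub_pos.2 (not_le.1 nlg)) (sub_pos.2 hg)])
  have e1 : r (L + 1) / b ^ 2 = (r (L + 1) - r L) / b ^ 2 + r L / b ^ 2 := by ring
  rw [e1] at h5
  linarith only [h10, h9, h8, h5]

/-! ### (a) -/

/-- the path with the level `L + 1` moved to `r L` -/
lemma long_path {b : ℝ} {n : ℕ} {r : ℕ → ℝ} {L : ℕ} (h : BPath b n r) (hL : L < n) :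
    BPath b n (Function.update r (L + 1) (r L)) := by
  have hne : ∀ i, i ≠ L + 1 → Function.update r (L + 1) (r L) i = r i := fun i hi =>
    Function.update_of_ne hi _ _
  have he : Function.update r (L + 1) (r L) (L + 1) = r L := Function.update_self _ _ _
  have h0 : Function.update r (L + 1) (r L) 0 = r 0 := hne 0 (by omega)
  refine ⟨h0.trans h.1, ⟨?_, ?_⟩, ?_⟩
  · rw [h0]; exact h.2.1.1
  · intro l hl
    by_cases h1 : l = L + 1
    · subst h1
      rw [he, hne (L + 1 + 1) (by omega)]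
      exact (h.2.1.2 L hL).trans (h.2.1.2 (L + 1) hl)
    · rw [hne l h1]
      by_cases h2 : l + 1 = L + 1
      · have h3 : l = L := by omega
        subst h3
        rw [he]
      · rw [hne (l + 1) h2]
        exact h.2.1.2 l hl
  · by_cases h1 : n = L + 1
    · rw [h1, he]
      exact long_r_le h hL.le
    · rw [hne n h1]
      exact h.2.2

/-- the quadratic part of the modified path -/
lemma long_sum {n : ℕ} {m r : ℕ → ℝ} {L : ℕ} (hL : L < n) :
    ∑ l ∈ Finset.range (n + 1), (m (l + 1) - m l) * Function.update r (L + 1) (r L) l ^ 2 =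
      ∑ l ∈ Finset.range (n + 1), (m (l + 1) - m l) * r l ^ 2 +
        (m (L + 2) - m (L + 1)) * (r L ^ 2 - r (L + 1) ^ 2) := by
  have hmem : L + 1 ∈ Finset.range (n + 1) := by rw [Finset.mem_range]; omega
  rw [← Finset.add_sum_erase _ _ hmem, ← Finset.add_sum_erase (Finset.range (n + 1))
    (fun l => (m (l + 1) - m l) * r l ^ 2) hmem]
  have h1 : ∑ l ∈ (Finset.range (n + 1)).erase (L + 1),
      (m (l + 1) - m l) * Function.update r (L + 1) (r L) l ^ 2 =
      ∑ l ∈ (Finset.range (n + 1)).erase (L + 1), (m (l + 1) - m l) * r l ^ 2 := by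
    refine Finset.sum_congr rfl fun l hl => ?_
    rw [Function.update_of_ne (Finset.ne_of_mem_erase hl)]
  rw [h1, Function.update_self]
  ring

/-- the cascade of the modified path -/
lemma long_spin {b : ℝ} {n : ℕ} {m r : ℕ → ℝ} {L : ℕ} (hm : Exponents n m) (h : BPath b n r)
    (hL : L < n) : spinPart n m (Function.update r (L + 1) (r L)) =
      cascade m r L (gstep (m (L + 2)) (r (L + 1) - r L) (Fl n m r (L + 1))) 0 - r n / 2 := by
  have hP := long_path h hL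
  have hne : ∀ i, i ≠ L + 1 → Function.update r (L + 1) (r L) i = r i := fun i hi =>
    Function.update_of_ne hi _ _
  have he : Function.update r (L + 1) (r L) (L + 1) = r L := Function.update_self _ _ _
  have hpos : ∀ l, 1 ≤ l → l ≤ n + 1 → 0 < m l := fun l h1 h2 => gapn_exp_pos hm h1 h2
  have hle1 : ∀ l, l ≤ n + 1 → m l ≤ 1 := fun l h2 => gapn_exp_le_one hm h2
  have hV : 0 ≤ r (L + 1) - r L := sub_nonneg.2 (h.2.1.2 L hL)
  rw [minb_spin hP.1, fl_split (m := m) (r := Function.update r (L + 1) (r L)) hL.le]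
  have e1 : cascade m (Function.update r (L + 1) (r L)) L
      (Fl n m (Function.update r (L + 1) (r L)) L) =
      cascade m r L (Fl n m (Function.update r (L + 1) (r L)) L) :=
    minb_congr (fun _ _ _ => rfl) (fun l hl => hne l (by omega)) _
  rw [e1, fl_succ hL, he, hne L (by omega), sub_self, gstep_zero (hpos (L + 1) (by omega) (by omega)).ne']
  by_cases h1 : n = L + 1
  · subst h1
    rw [he]
    have e2 : Fl (L + 1) m (Function.update r (L + 1) (r L)) (L + 1) = lc := fl_last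
    have e3 : Fl (L + 1) m r (L + 1) = lc := fl_last
    rw [e2, e3, show m (L + 2) = 1 from hm.2.1, minb_lc_step hV,
      minb_cascade_const (fun l h2 h3 => hpos l h2 (by omega)) (fun l h2 h3 => hle1 l (by omega))
        (fun l hl => h.2.1.2 l (by omega)) adm_lc]
    ring
  · have hL1 : L + 1 < n := by omega
    rw [hne n h1, fl_succ hL1, he, hne (L + 1 + 1) (by omega)]
    have e4 : Fl n m (Function.update r (L + 1) (r L)) (L + 1 + 1) = Fl n m r (L + 1 + 1) := by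
      unfold Fl
      congr 1
      funext i
      exact hne _ (by omega)
    obtain ⟨C, hG⟩ := fl_good hm h.2.1 (l := L + 1 + 1) (by omega)
    rw [e4, fl_succ (m := m) (r := r) hL1, gstep_add hG.adm (hpos (L + 2) (by omega) (by omega)) hV
      (sub_nonneg.2 (h.2.1.2 (L + 1) hL1))]
    congr 4
    ring

theorem long_a {b : ℝ} (hb : 1 < b) : ∃ C : ℝ, 1 ≤ C ∧ ∀ (n : ℕ) (r : ℕ → ℝ) (L : ℕ),
    IsMin b n (gm n) r → L < n → r L < r (L + 1) →
    (r (L + 1) - r L) ^ 2 / (2 * b ^ 2) - C * (√(r L) + 1 / (n + 1)) ≤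
      ∫ τ in (0 : ℝ)..(r (L + 1) - r L),
        Rf (gm n (L + 1)) (gm n (L + 1)) (r (L + 1) - r L) (Fl n (gm n) r (L + 1)) τ := by
  have hb0 : 0 < b := by linarith
  obtain ⟨K, hK1, hK⟩ := AKs.ak (b ^ 2)
  obtain ⟨K', hK'0, htilt⟩ := Rf_tilt (b ^ 2)
  refine ⟨1 + 4 * b ^ 2 * K + K' * b ^ 4, ?_, ?_⟩
  · have : 0 ≤ 4 * b ^ 2 * K + K' * b ^ 4 := by positivity
    linarith
  intro n r L h hL hlt
  have hm := gm_exponents n
  have hpath := h.1.2.1
  have hV : 0 < r (L + 1) - r L := sub_pos.2 hlt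
  have hg := long_gm_pos n L
  have hg1 : gm n (L + 1) ≤ 1 := long_gm_le (by omega)
  have hg2 := long_gm_pos n (L + 1)
  have hg21 : gm n (L + 1 + 1) ≤ 1 := long_gm_le (by omega)
  have hgg := long_gm_lt n (L + 1)
  have hδ := gm_sub n (L + 1)
  have hr0 := long_r_nonneg h.1 hL.le
  have hrb := long_r_le h.1 hL.le
  have hrb1 := long_r_le h.1 (show L + 1 ≤ n by omega)
  have hrn := gapn_path_le hpath (show L + 1 ≤ n by omega) le_rfl
  have hFs := fl_aks hm hpath (show L + 1 ≤ n by omega)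
  have hF := hFs.adm
  have hsucc := fl_succ (m := gm n) (r := r) hL
  have hmin := h.2 _ (long_path h.1 hL)
  unfold SKr at hmin
  rw [long_spin hm h.1 hL, minb_spin h.1.1, long_sum hL, fl_split (m := gm n) (r := r) hL.le,
    hsucc] at hmin
  have hGs : AKs (r n - r (L + 1) + (r (L + 1) - r L)) (gstep (gm n (L + 2)) (r (L + 1) - r L)
      (Fl n (gm n) r (L + 1))) := hFs.step (by linarith only [hrn]) hg2 hg21 hV.le
  have hG := hGs.adm
  have hG1 := hF.step hg hg1 hV.le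
  have hlow := (hK _ _ (by linarith only [hrn, hV]) (by have := h.1.2.2; linarith only [this, hr0]) hGs).low
  set F := Fl n (gm n) r (L + 1) with hFd
  set g := gm n (L + 1) with hgd
  have hgd2 : gm n (L + 2) = gm n (L + 1 + 1) := rfl
  rw [hgd2] at hmin hG hlow
  set g₂ := gm n (L + 1 + 1) with hg₂d
  set V := r (L + 1) - r L with hVd
  have hVb : V ≤ b ^ 2 := by linarith only [hrb1, hr0]
  obtain ⟨I, hI⟩ : ∃ I, I = ∫ τ in (0 : ℝ)..V, Rf g₂ g V F τ := ⟨_, rfl⟩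
  have hintR : IntervalIntegrable (fun τ => Rf g₂ g V F τ) volume 0 V :=
    (Rf_cont hF hg hg1 hg2 hg21).intervalIntegrable_of_Icc hV.le
  -- pointwise bound of the difference
  have hint : ∀ x, IntervalIntegrable (fun τ => tlt g₂ τ (gstep g (V - τ) F)
      (fun y => iteratedDeriv 1 (gstep g (V - τ) F) y ^ 2) x) volume 0 V := fun x =>
    (vari_cont hF hg x).intervalIntegrable_of_Icc hV.le
  have hpt : ∀ x, gstep g₂ V F x - gstep g V F x ≤
      1 / 2 * (g₂ - g) * I + 1 / 2 * (g₂ - g) * (4 * V * K) *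
        |iteratedDeriv 1 (gstep g₂ V F) x| := by
    intro x
    rw [gstep_diff hF hg hg1 hg2 hg21 hV.le x]
    have h1 : ∫ τ in (0 : ℝ)..V, tlt g₂ τ (gstep g (V - τ) F)
        (fun y => iteratedDeriv 1 (gstep g (V - τ) F) y ^ 2) x ≤
        ∫ τ in (0 : ℝ)..V, (Rf g₂ g V F τ + 4 * min 1 |x|) := by
      refine intervalIntegral.integral_mono_on hV.le (hint x)
        (hintR.add intervalIntegrable_const) fun τ hτ => ?_
      have h2 := blk_lip (hF.step hg hg1 (show 0 ≤ V - τ by linarith only [hτ.2])) hg2 hg21 τ x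
      have h3 := (abs_le.1 h2).2
      have e1 : Rf g₂ g V F τ = tlt g₂ τ (gstep g (V - τ) F)
        (fun y => iteratedDeriv 1 (gstep g (V - τ) F) y ^ 2) 0 := rfl
      rw [e1]
      linarith only [h3]
    have h4 : ∫ τ in (0 : ℝ)..V, (Rf g₂ g V F τ + 4 * min 1 |x|) = I + V * (4 * min 1 |x|) := by
      rw [intervalIntegral.integral_add hintR intervalIntegrable_const,
        intervalIntegral.integral_const, smul_eq_mul, sub_zero, hI]
    rw [h4] at h1
    have h5 : V * (4 * min 1 |x|) ≤ 4 * V * K * |iteratedDeriv 1 (gstep g₂ V F) x| := by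
      have h6 := mul_le_mul_of_nonneg_left (hlow x) hV.le
      linarith only [h6]
    have h7 : 0 ≤ 1 / 2 * (g₂ - g) := by linarith only [hgg]
    have h8 := mul_le_mul_of_nonneg_left (h1.trans (add_le_add_right h5 I)) h7
    refine h8.trans (le_of_eq ?_)
    ring
  -- convexity
  have hE := ex_ec hG
  have hE1 : Sp7Exp (gm n) L := fun i hi => ⟨long_gm_pos n i, long_gm_le (by omega)⟩
  have hbd : ∃ B, ∀ x, |gstep g₂ V F x - gstep g V F x| ≤ B := by
    refine ⟨1 / 2 * (g₂ - g) * V, fun x => ?_⟩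
    have h1 := gstep_exp_mono hF hg hgg.le hg21 hV.le x
    have h2 := gstep_exp_lip hF hg hgg.le hg21 hV.le x
    have h3 : 0 ≤ 1 / 2 * (g₂ - g) * V := by
      have : 0 ≤ g₂ - g := by linarith only [hgg]
      (clear * - hgg hlt; positivity)
    rw [abs_le]
    constructor <;> linarith
  have hconv := casc_convex (m := gm n) (r := r) (l := L) hG1 hG h.1.1
    hE1 (fun i hi => hpath.2 i (by omega)) hbd
  have cd : Sp7Cb (fun x => gstep g₂ V F x - gstep g V F x) :=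
    ⟨(ex_ec hG).sm.cont.sub (ex_ec hG1).sm.cont, hbd⟩
  have cD : Sp7Cb (iteratedDeriv 1 (gstep g₂ V F)) := sp7_cb_M hE
  have cD' : Sp7Cb (fun x => 1 / 2 * (g₂ - g) * (4 * V * K) *
      |iteratedDeriv 1 (gstep g₂ V F) x|) := long_cb_smul (long_cb_abs cD) _
  have h9 := sp7_chn_mono (gm n) r L hE1 hE cd
    (sp7_cb_add (sp7_cb_const (1 / 2 * (g₂ - g) * I)) cD') hpt
  rw [sp7_chn_add (gm n) r L hE1 hE (sp7_cb_const (1 / 2 * (g₂ - g) * I)) cD',
    sp7_chn_const (gm n) r L hE1 hE, long_chn_smul] at h9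
  have h10 : chn (gm n) r L (gstep g₂ V F) (fun x => |iteratedDeriv 1 (gstep g₂ V F) x|) ≤
      √(r L) :=
    chn_abs_le hG hE1 (fun i hi => hpath.2 i (by omega)) cD
      (chn_sq_le hG h.1.1 hE1 (fun i hi => hpath.2 i (by omega)))
  have hd0 : 0 < g₂ - g := by linarith only [hgg]
  have h11 : 1 / 2 * (g₂ - g) * (4 * V * K) * chn (gm n) r L (gstep g₂ V F)
      (fun x => |iteratedDeriv 1 (gstep g₂ V F) x|) ≤
      1 / 2 * (g₂ - g) * (4 * V * K) * √(r L) :=
    mul_le_mul_of_nonneg_left h10 (by (clear * - hgg hlt hK1; positivity))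
  -- the inequality from the minimality
  have h12 : (g₂ - g) * ((r (L + 1) ^ 2 - r L ^ 2) / (4 * b ^ 2)) ≤
      1 / 2 * (g₂ - g) * I + 1 / 2 * (g₂ - g) * (4 * V * K) * √(r L) := by
    have e2 : (∑ l ∈ Finset.range (n + 1), (gm n (l + 1) - gm n l) * r l ^ 2 +
        (g₂ - g) * (r L ^ 2 - r (L + 1) ^ 2)) / (4 * b ^ 2) =
        (∑ l ∈ Finset.range (n + 1), (gm n (l + 1) - gm n l) * r l ^ 2) / (4 * b ^ 2) -
          (g₂ - g) * ((r (L + 1) ^ 2 - r L ^ 2) / (4 * b ^ 2)) := by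
      ring
    rw [e2] at hmin
    linarith only [h11, h9, hconv, hmin]
  have h13 : (r (L + 1) ^ 2 - r L ^ 2) / (2 * b ^ 2) ≤ I + 4 * V * K * √(r L) := by
    have e3 : (g₂ - g) * ((r (L + 1) ^ 2 - r L ^ 2) / (4 * b ^ 2)) =
        (1 / 2 * (g₂ - g)) * ((r (L + 1) ^ 2 - r L ^ 2) / (2 * b ^ 2)) := by
      field_simp
      ring
    have e4 : 1 / 2 * (g₂ - g) * I + 1 / 2 * (g₂ - g) * (4 * V * K) * √(r L) =
        (1 / 2 * (g₂ - g)) * (I + 4 * V * K * √(r L)) := by ring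
    rw [e3, e4] at h12
    exact le_of_mul_le_mul_left h12 (by linarith only [hd0])
  have h14 : V ^ 2 / (2 * b ^ 2) ≤ (r (L + 1) ^ 2 - r L ^ 2) / (2 * b ^ 2) := by
    apply div_le_div_of_nonneg_right _ (by positivity)
    rw [hVd]
    (by_contra nlg; linarith only [nlg, mul_nonneg (sub_nonneg.2 hr0) (le_of_lt (sub_pos.2 hV)), mul_nonneg (le_of_lt (sub_pos.2 (not_le.1 nlg))) (sub_nonneg.2 hg21), mul_pos (sub_pos.2 (not_le.1 nlg)) (sub_pos.2 hg2)])
  -- change of the tilt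
  have h15 : I ≤ (∫ τ in (0 : ℝ)..V, Rf g g V F τ) + K' * (g₂ - g) * (V ^ 2 / 2) := by
    have h2 : I ≤ ∫ τ in (0 : ℝ)..V, (Rf g g V F τ + K' * (g₂ - g) * τ) := by
      rw [hI]
      refine intervalIntegral.integral_mono_on hV.le ?_ ?_ ?_
      · exact (Rf_cont hF hg hg1 hg2 hg21).intervalIntegrable_of_Icc hV.le
      · exact ContinuousOn.intervalIntegrable_of_Icc hV.le
          ((Rf_cont hF hg hg1 hg hg1).add (by fun_prop))
      · intro τ hτ
        exact htilt _ _ _ _ F hF hg hgg.le hg21 hVb τ hτ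
    have h3 : ∫ τ in (0 : ℝ)..V, (Rf g g V F τ + K' * (g₂ - g) * τ) =
        (∫ τ in (0 : ℝ)..V, Rf g g V F τ) + K' * (g₂ - g) * (V ^ 2 / 2) := by
      rw [intervalIntegral.integral_add
        ((Rf_cont hF hg hg1 hg hg1).intervalIntegrable_of_Icc hV.le)
        (ContinuousOn.intervalIntegrable_of_Icc hV.le (by fun_prop)),
        intervalIntegral.integral_const_mul, integral_id]
      ring
    rw [h3] at h2
    exact h2
  have hV2 : V ^ 2 ≤ b ^ 4 := by
    calc V ^ 2 ≤ (b ^ 2) ^ 2 := pow_le_pow_left₀ hV.le hVb 2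
      _ = b ^ 4 := by ring
  rw [hδ] at h15
  have hN : (0 : ℝ) < 1 / ((n : ℝ) + 1) := by (clear * -; positivity)
  have h16 : K' * (1 / ((n : ℝ) + 1)) * (V ^ 2 / 2) ≤ K' * b ^ 4 * (1 / ((n : ℝ) + 1)) := by
    have h17 : V ^ 2 / 2 ≤ b ^ 4 := by
      have : 0 ≤ b ^ 4 := by positivity
      linarith only [this, hV2]
    have h18 := mul_le_mul_of_nonneg_left h17 (mul_nonneg hK'0 hN.le)
    refine h18.trans (le_of_eq (by ring))
  have h19 : 4 * V * K * √(r L) ≤ 4 * b ^ 2 * K * √(r L) := by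
    have : 4 * V * K ≤ 4 * b ^ 2 * K :=
      mul_le_mul_of_nonneg_right (by linarith only [hVb]) (by linarith only [hd0, hg21, hg, hK1])
    exact mul_le_mul_of_nonneg_right this (Real.sqrt_nonneg _)
  have h20 : 0 ≤ √(r L) := Real.sqrt_nonneg _
  have e5 : (1 + 4 * b ^ 2 * K + K' * b ^ 4) * (√(r L) + 1 / ((n : ℝ) + 1)) =
      4 * b ^ 2 * K * √(r L) + K' * b ^ 4 * (1 / ((n : ℝ) + 1)) +
        (√(r L) + 1 / ((n : ℝ) + 1) + 4 * b ^ 2 * K * (1 / ((n : ℝ) + 1)) +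
          K' * b ^ 4 * √(r L)) := by ring
  have h21 : 0 ≤ √(r L) + 1 / ((n : ℝ) + 1) + 4 * b ^ 2 * K * (1 / ((n : ℝ) + 1)) +
      K' * b ^ 4 * √(r L) := by
    have hK0 : 0 < K := by linarith only [hd0, hg21, hg, hK1]
    (clear * - hb hK1 hK'0; positivity)
  rw [e5]
  linarith only [h21, h19, h16, h15, h14, h13]

end Vale.Agent.P146.Pw2
end
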