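import Vale.Agent.P146.Bdl.B3
import Vale.Agent.P146.Bdl.B1
import Vale.Agent.P146.Bdl.B5
import Vale.Agent.P157.Defs
import Vale.Agent.P146.Bdl.B4

set_option linter.all false

section

open MeasureTheory ProbabilityTheory Filter Topology

namespace Vale.Agent.P157.Par

/-- Average over the disorder of the average over replicas indexed by a finite type. -/
noncomputable def Sys.avT (S : Sys) {J : Type} [Fintype J] [DecidableEq J]
    (F : S.Ω → (J → S.X) → ℝ) : ℝ :=
  ∫ ω, ∑ x : J → S.X, (∏ a, S.w ω (x a)) * F ω x ∂S.P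

/-- The level of a number with respect to the boundaries `b`. -/
noncomputable def lev {k : ℕ} (b : Fin k → ℝ) (r : ℝ) : Fin (k + 1) :=
  ⟨(Finset.univ.filter fun i => b i ≤ r).card, by
    have := Finset.card_filter_le (Finset.univ : Finset (Fin k)) fun i => b i ≤ r
    rw [Finset.card_univ, Fintype.card_fin] at this
    omega⟩

/-- The matrix of levels of a family of replicas. -/
noncomputable def Sys.LMat (S : Sys) {k : ℕ} (b : Fin k → ℝ) {J : Type} [DecidableEq J]
    (x : J → S.X) : LM k J :=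
  fun a c => if a = c then Fin.last k else lev b (S.R (x a) (x c))

end Vale.Agent.P157.Par
end

section

open MeasureTheory ProbabilityTheory Filter Topology

namespace Vale.Agent.P157.Par

set_option linter.unusedSectionVars false
set_option linter.unusedVariables false

/-! ### levels -/

section lev

variable {k : ℕ} {b : Fin k → ℝ}

theorem le_iff_lt_lev (hb : StrictMono b) (i : Fin k) (r : ℝ) :
    b i ≤ r ↔ i.val < (lev b r).val := by
  unfold lev
  simp only
  constructor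
  · intro h
    have h1 : Finset.Iic i ⊆ Finset.univ.filter fun j => b j ≤ r := by
      intro j hj
      rw [Finset.mem_Iic] at hj
      rw [Finset.mem_filter]
      exact ⟨Finset.mem_univ _, (hb.monotone hj).trans h⟩
    have h2 := Finset.card_le_card h1
    rw [Fin.card_Iic] at h2
    omega
  · intro h
    by_contra hcon
    have h1 : (Finset.univ.filter fun j => b j ≤ r) ⊆ Finset.Iio i := by
      intro j hj
      rw [Finset.mem_filter] at hj
      rw [Finset.mem_Iio]
      by_contra hji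
      exact hcon ((hb.monotone (not_lt.mp hji)).trans hj.2)
    have h2 := Finset.card_le_card h1
    rw [Fin.card_Iio] at h2
    omega

theorem lev_val_eq (hb : StrictMono b) {m : ℕ} (hm : m ≤ k) {r : ℝ}
    (h : ∀ j : Fin k, b j ≤ r ↔ j.val < m) : (lev b r).val = m := by
  rcases lt_trichotomy (lev b r).val m with h1 | h1 | h1
  · have h2 := (h ⟨(lev b r).val, by omega⟩).2 h1
    rw [le_iff_lt_lev hb] at h2
    exact absurd h2 (lt_irrefl _)
  · exact h1
  · have h3 := (lev b r).2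
    have h2 : b ⟨m, by omega⟩ ≤ r := by
      rw [le_iff_lt_lev hb]
      exact h1
    exact absurd ((h _).1 h2) (lt_irrefl _)

theorem lev_remove {k : ℕ} {b : Fin (k + 1) → ℝ} (hb : StrictMono b) (i : Fin (k + 1))
    (l : Fin (k + 2)) (hil : l.val = i.val + 1 ∨ (l.val = 0 ∧ i.val = 0))
    (q : Fin (k + 2) → ℝ) (r : ℝ) (hr : lev b r ≠ l) :
    q (l.succAbove (lev (fun j => b (i.succAbove j)) r)) = q (lev b r) := by
  have hb' : StrictMono fun j => b (i.succAbove j) :=
    hb.comp (Fin.strictMono_succAbove i)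
  set m := (lev b r).val with hm
  have hml : m ≠ l.val := fun h => hr (Fin.ext h)
  have hmk : m < k + 2 := (lev b r).2
  have hik := i.2
  have h1 : (lev (fun j => b (i.succAbove j)) r).val = if i.val < m then m - 1 else m := by
    refine lev_val_eq hb' ?_ ?_
    · split_ifs <;> omega
    · intro j
      rw [le_iff_lt_lev hb, ← hm]
      have h2 : (i.succAbove j).val = if j.val < i.val then j.val else j.val + 1 := by
        unfold Fin.succAbove
        by_cases h3 : j.val < i.val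
        · have h4 : j.castSucc < i := h3
          rw [if_pos h4, if_pos h3]
          rfl
        · have h4 : ¬ j.castSucc < i := h3
          rw [if_neg h4, if_neg h3]
          rfl
      rw [h2]
      split_ifs <;> omega
  congr 1
  apply Fin.ext
  set j := lev (fun j => b (i.succAbove j)) r with hj
  have h2 : (l.succAbove j).val = if j.val < l.val then j.val else j.val + 1 := by
    unfold Fin.succAbove
    by_cases h3 : j.val < l.val
    · have h4 : j.castSucc < l := h3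
      rw [if_pos h4, if_pos h3]
      rfl
    · have h4 : ¬ j.castSucc < l := h3
      rw [if_neg h4, if_neg h3]
      rfl
  rw [h2, h1, ← hm]
  split_ifs <;> omega

end lev

/-! ### limits along the ultrafilter -/

theorem exists_ulim (U : Ultrafilter ℕ) {f : ℕ → ℝ} {C : ℝ} (h : ∀ N, |f N| ≤ C) :
    ∃ a, Tendsto f U (𝓝 a) := by
  have h1 : IsCompact (Set.Icc (-C) C) := isCompact_Icc
  have h2 : ((U.map f : Ultrafilter ℝ) : Filter ℝ) ≤ 𝓟 (Set.Icc (-C) C) := by
    rw [le_principal_iff]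
    have h3 : f ⁻¹' (Set.Icc (-C) C) ∈ (U : Filter ℕ) := Filter.univ_mem' fun N => abs_le.mp (h N)
    exact h3
  obtain ⟨a, -, ha⟩ := h1.ultrafilter_le_nhds (U.map f) h2
  exact ⟨a, ha⟩

variable {U : Ultrafilter ℕ} {S : ℕ → Sys}

theorem Sys.pr_le_one (S : Sys) {n : ℕ} (E : (Fin n → S.X) → Prop) : S.pr E ≤ 1 := by
  have h := Sys.tav_mono (G := fun _ _ => (1 : ℝ)) (D := 1) (Sys.bdd_ind E)
    ⟨fun _ => measurable_const, fun _ _ => by norm_num⟩ (fun _ x => ind_le_one (E x))
  rwa [Sys.tav_const] at h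

theorem Sys.pr_sum_eq_one (S : Sys) {n : ℕ} {κ : Type*} [Fintype κ] [DecidableEq κ]
    (f : (Fin n → S.X) → κ) : ∑ l, S.pr (fun x => f x = l) = 1 := by
  have h1 : ∀ s : Finset κ, ∑ t ∈ s, S.pr (fun x => f x = t) =
      S.tav (n := n) (fun _ x => ∑ t ∈ s, ind (f x = t)) := by
    intro s
    induction s using Finset.induction_on with
    | empty =>
      simp only [Finset.sum_empty]
      exact (Sys.tav_const 0).symm
    | insert t s hts ih =>
      rw [Finset.sum_insert hts, ih]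
      obtain ⟨D, hD⟩ := Sys.exists_bdd (S := S) (fun x : Fin n → S.X => ∑ t ∈ s, ind (f x = t))
      unfold Sys.pr
      rw [← Sys.tav_add (Sys.bdd_ind fun x => f x = t) hD]
      refine Sys.tav_congr fun _ x => ?_
      rw [Finset.sum_insert hts]
  rw [h1 Finset.univ]
  have h2 : ∀ x : Fin n → S.X, ∑ t, ind (f x = t) = 1 := by
    intro x
    rw [Finset.sum_eq_single (f x)]
    · exact ind_of rfl
    · intro t _ ht
      exact ind_of_not fun h => ht h.symm
    · intro h
      exact absurd (Finset.mem_univ _) h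
  simp only [h2]
  exact Sys.tav_const 1

theorem Sys.pr_le_add (S : Sys) {n : ℕ} {E E1 E2 : (Fin n → S.X) → Prop}
    (h : ∀ x, E x → E1 x ∨ E2 x) : S.pr E ≤ S.pr E1 + S.pr E2 := by
  have h1 := Sys.pr_le_sum (S := S) (ι := Bool) E (fun t x => if t then E1 x else E2 x)
    (fun x hx => by
      rcases h x hx with h2 | h2
      · exact ⟨true, by simpa using h2⟩
      · exact ⟨false, by simpa using h2⟩)
  simpa using h1

theorem tendsto_zero_of_le {f g : ℕ → ℝ} (h0 : ∀ N, 0 ≤ f N) (h : ∀ N, f N ≤ g N)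
    (hg : Tendsto g U (𝓝 0)) : Tendsto f U (𝓝 0) :=
  tendsto_of_tendsto_of_tendsto_of_le_of_le tendsto_const_nhds hg h0 h

/-- removal of the levels of weight zero -/
theorem levels_aux {ε : ℝ} (k : ℕ) : ∀ (b : Fin k → ℝ) (q : Fin (k + 1) → ℝ),
    StrictMono b → (∀ i, 0 < b i) → (∀ i, b i ≤ 1) → (∀ i, NonAtom U S (b i)) →
    Monotone q → (∀ l, 0 ≤ q l) → (∀ l, q l ≤ 1) →
    Tendsto (fun j => (S j).pr (fun x : Fin 2 → (S j).X =>
        ε < |(S j).R (x 0) (x 1) - q (lev b ((S j).R (x 0) (x 1)))|)) U (𝓝 0) →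
    ∃ (k : ℕ) (b : Fin k → ℝ) (q : Fin (k + 1) → ℝ) (w : Fin (k + 1) → ℝ),
      StrictMono b ∧ (∀ i, 0 < b i) ∧ (∀ i, b i ≤ 1) ∧ (∀ i, NonAtom U S (b i)) ∧
      Monotone q ∧ (∀ l, 0 ≤ q l) ∧ (∀ l, q l ≤ 1) ∧ (∀ l, 0 < w l) ∧ ∑ l, w l = 1 ∧
      (∀ l, Tendsto (fun j => (S j).pr (fun x : Fin 2 → (S j).X =>
        lev b ((S j).R (x 0) (x 1)) = l)) U (𝓝 (w l))) ∧
      Tendsto (fun j => (S j).pr (fun x : Fin 2 → (S j).X =>
        ε < |(S j).R (x 0) (x 1) - q (lev b ((S j).R (x 0) (x 1)))|)) U (𝓝 0) := by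
  induction k with
  | zero =>
    intro b q hb hb0 hb1 hna hq hq0 hq1 hlim
    refine ⟨0, b, q, fun _ => 1, hb, hb0, hb1, hna, hq, hq0, hq1, fun _ => one_pos, by simp, ?_, hlim⟩
    intro l
    have h1 : ∀ j, (S j).pr (fun x : Fin 2 → (S j).X => lev b ((S j).R (x 0) (x 1)) = l) = 1 := by
      intro j
      have h2 := (S j).pr_sum_eq_one (fun x : Fin 2 → (S j).X => lev b ((S j).R (x 0) (x 1)))
      rw [Fintype.sum_eq_single l (fun l' hl' => absurd (Subsingleton.elim (α := Fin 1) l' l) hl')]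
        at h2
      exact h2
    simp only [h1]
    exact tendsto_const_nhds
  | succ k ih =>
    intro b q hb hb0 hb1 hna hq hq0 hq1 hlim
    have hex : ∀ l : Fin (k + 2), ∃ a, Tendsto (fun j => (S j).pr (fun x : Fin 2 → (S j).X =>
        lev b ((S j).R (x 0) (x 1)) = l)) U (𝓝 a) := fun l =>
      exists_ulim U (C := 1) fun N => by
        rw [abs_of_nonneg ((S N).pr_nonneg _)]
        exact (S N).pr_le_one _
    choose w hw using hex
    by_cases hpos : ∀ l, 0 < w l
    · refine ⟨k + 1, b, q, w, hb, hb0, hb1, hna, hq, hq0, hq1, hpos, ?_, hw, hlim⟩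
      have h1 : Tendsto (fun j => ∑ l, (S j).pr (fun x : Fin 2 → (S j).X =>
        lev b ((S j).R (x 0) (x 1)) = l)) U (𝓝 (∑ l, w l)) :=
        tendsto_finsetSum _ fun l _ => hw l
      simp only [Sys.pr_sum_eq_one] at h1
      exact (tendsto_nhds_unique tendsto_const_nhds h1).symm
    · push Not at hpos
      obtain ⟨l, hl⟩ := hpos
      have hl0 : w l = 0 := by
        refine le_antisymm hl ?_
        exact ge_of_tendsto' (hw l) fun j => (S j).pr_nonneg _
      obtain ⟨i, hil⟩ : ∃ i : Fin (k + 1), l.val = i.val + 1 ∨ (l.val = 0 ∧ i.val = 0) := by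
        by_cases h0 : l.val = 0
        · exact ⟨0, Or.inr ⟨h0, rfl⟩⟩
        · exact ⟨⟨l.val - 1, by have := l.2; omega⟩, Or.inl (by simp only; omega)⟩
      refine ih (fun j => b (i.succAbove j)) (fun j => q (l.succAbove j))
        (hb.comp (Fin.strictMono_succAbove i)) (fun _ => hb0 _) (fun _ => hb1 _) (fun _ => hna _)
        (hq.comp (Fin.strictMono_succAbove l).monotone) (fun _ => hq0 _) (fun _ => hq1 _) ?_
      have h2 := hlim.add (hw l)
      rw [hl0, add_zero] at h2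
      refine tendsto_zero_of_le (fun N => (S N).pr_nonneg _) (fun N => ?_) h2
      refine (S N).pr_le_add fun x hx => ?_
      by_cases h3 : lev b ((S N).R (x 0) (x 1)) = l
      · exact Or.inr h3
      · left
        rw [lev_remove hb i l hil q _ h3] at hx
        exact hx

/-- Choice of the levels: for every mesh there are boundaries which are not atoms, such that
every level has positive limiting probability and the overlap is close to the value of its
level. -/
theorem exists_levels {U : Ultrafilter ℕ} {S : ℕ → Sys}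
    (hGG : ∀ p : ℕ, AsympGG U S (fun x => x ^ p)) {ε : ℝ} (hε : 0 < ε) :
    ∃ (k : ℕ) (b : Fin k → ℝ) (q : Fin (k + 1) → ℝ) (w : Fin (k + 1) → ℝ),
      StrictMono b ∧ (∀ i, 0 < b i) ∧ (∀ i, b i ≤ 1) ∧ (∀ i, NonAtom U S (b i)) ∧
      Monotone q ∧ (∀ l, 0 ≤ q l) ∧ (∀ l, q l ≤ 1) ∧ (∀ l, 0 < w l) ∧ ∑ l, w l = 1 ∧
      (∀ l, Tendsto (fun j => (S j).pr (fun x : Fin 2 → (S j).X =>
        lev b ((S j).R (x 0) (x 1)) = l)) U (𝓝 (w l))) ∧
      Tendsto (fun j => (S j).pr (fun x : Fin 2 → (S j).X =>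
        ε < |(S j).R (x 0) (x 1) - q (lev b ((S j).R (x 0) (x 1)))|)) U (𝓝 0) := by
  obtain ⟨K, hK⟩ := exists_nat_gt (2 / ε)
  have hK0 : (0 : ℝ) < K := lt_trans (by positivity) hK
  set h : ℝ := 1 / K with hh
  have h0 : 0 < h := by positivity
  have h2 : 2 * h < ε := by
    rw [hh, mul_one_div, div_lt_iff₀ hK0]
    rw [div_lt_iff₀ hε] at hK
    linarith
  have hKh : (K : ℝ) * h = 1 := by
    rw [hh]
    field_simp
  have hex : ∀ i : Fin K, ∃ c, (i.val : ℝ) * h < c ∧ c < ((i.val : ℝ) + 1) * h ∧ NonAtom U S c :=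
    fun i => exists_nonAtom U S (by linarith only [h0])
  choose b hb1 hb2 hna using hex
  have hble : ∀ i, b i < 1 := by
    intro i
    have h3 : ((i.val : ℝ) + 1) * h ≤ K * h := by
      have h4 : (i.val : ℝ) + 1 ≤ K := by exact_mod_cast i.2
      exact mul_le_mul_of_nonneg_right h4 h0.le
    linarith only [hKh, h3, hb2, hb2 i]
  have hbpos : ∀ i, 0 < b i := fun i => lt_of_le_of_lt (by positivity) (hb1 i)
  have hbm : StrictMono b := by
    intro i j hij
    have h3 : ((i.val : ℝ) + 1) * h ≤ (j.val : ℝ) * h := by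
      have h4 : (i.val : ℝ) + 1 ≤ j.val := by exact_mod_cast hij
      exact mul_le_mul_of_nonneg_right h4 h0.le
    linarith only [h3, hb2 i, hb1 j]
  let q : Fin (K + 1) → ℝ := Fin.cons 0 b
  refine levels_aux K b q hbm hbpos (fun i => (hble i).le) hna ?_ ?_ ?_ ?_
  · intro l l' hll
    induction l using Fin.cases with
    | zero =>
      induction l' using Fin.cases with
      | zero => exact le_rfl
      | succ j => exact (hbpos j).le
    | succ i =>
      induction l' using Fin.cases with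
      | zero => exact absurd hll (by simp)
      | succ j => exact hbm.monotone (Fin.succ_le_succ_iff.mp hll)
  · intro l
    induction l using Fin.cases with
    | zero => exact le_rfl
    | succ j => exact (hbpos j).le
  · intro l
    induction l using Fin.cases with
    | zero => exact zero_le_one
    | succ j => exact (hble j).le
  · refine tendsto_zero_of_le (fun N => (S N).pr_nonneg _) (fun N => ?_) (positivity hGG hε)
    have e1 : (S N).tav (n := 2) (fun _ x => if (S N).R (x 0) (x 1) < -ε then 1 else 0) =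
        (S N).pr (n := 2) (fun x => (S N).R (x 0) (x 1) < -ε) :=
      Sys.tav_congr fun _ x => (ind_eq _).symm
    rw [e1]
    refine Sys.pr_mono (S N) fun x hx => ?_
    by_contra hcon
    push Not at hcon
    have hR := (Sys.R_mem (S := S N) (x 0) (x 1)).2
    generalize (S N).R (x 0) (x 1) = r at hx hcon hR
    apply absurd hx
    rw [not_lt]
    have hlk := (lev b r).2
    by_cases hl0 : (lev b r).val = 0
    · have h3 : lev b r = 0 := Fin.ext hl0
      have h4 : q (lev b r) = 0 := by rw [h3]; rfl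
      rw [h4, sub_zero, abs_le]
      refine ⟨by linarith, ?_⟩
      have hKpos : 0 < K := by exact_mod_cast hK0
      have h5 : ¬ b ⟨0, hKpos⟩ ≤ r := by
        rw [le_iff_lt_lev hbm, hl0]
        exact lt_irrefl _
      have h6 := hb2 ⟨0, hKpos⟩
      simp only [Nat.cast_zero, zero_add, one_mul] at h6
      linarith only [h0, h2, h6, not_le.mp h5]
    · obtain ⟨m, hm⟩ : ∃ m, (lev b r).val = m + 1 := ⟨(lev b r).val - 1, by omega⟩
      have hmK : m < K := by omega
      have h3 : lev b r = Fin.succ ⟨m, hmK⟩ := Fin.ext hm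
      have h4 : q (lev b r) = b ⟨m, hmK⟩ := by rw [h3]; rfl
      have h5 : b ⟨m, hmK⟩ ≤ r := by
        rw [le_iff_lt_lev hbm, hm]
        exact Nat.lt_succ_self m
      rw [h4, abs_le]
      refine ⟨by linarith, ?_⟩
      have h6 : r ≤ ((m : ℝ) + 2) * h := by
        by_cases hmK2 : m + 1 < K
        · have h7 : ¬ b ⟨m + 1, hmK2⟩ ≤ r := by
            rw [le_iff_lt_lev hbm, hm]
            exact lt_irrefl _
          have h8 := hb2 ⟨m + 1, hmK2⟩
          simp only [Nat.cast_add, Nat.cast_one] at h8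
          have h9 := not_le.mp h7
          linarith
        · have h7 : K = m + 1 := by omega
          have h8 : (K : ℝ) = m + 1 := by exact_mod_cast h7
          rw [h8] at hKh
          linarith
      have h7 := hb1 ⟨m, hmK⟩
      simp only at h7
      linarith

/-! ### averages over replicas indexed by a finite type -/

theorem Sys.avT_eq (S : Sys) {J : Type} [Fintype J] [DecidableEq J] {n : ℕ} (e : J ≃ Fin n)
    (G : S.T → (J → S.X) → ℝ) :
    S.avT (fun ω x => G (S.π ω) x) = S.tav (n := n) (fun t y => G t (fun a => y (e a))) := by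
  unfold Sys.avT Sys.tav Sys.av
  congr 1
  funext ω
  rw [← Equiv.sum_comp (Equiv.arrowCongr e.symm (Equiv.refl S.X))]
  refine Finset.sum_congr rfl fun y _ => ?_
  have h1 : (Equiv.arrowCongr e.symm (Equiv.refl S.X)) y = fun a => y (e a) := by
    funext a
    simp [Equiv.arrowCongr]
  rw [h1]
  congr 1
  exact Equiv.prod_comp e fun i => S.w ω (y i)

theorem Sys.avT_comp (S : Sys) {J J' : Type} [Fintype J] [DecidableEq J] [Fintype J']
    [DecidableEq J'] (f : J → J') (hf : Function.Injective f) (G : S.T → (J → S.X) → ℝ) :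
    S.avT (fun ω (x : J' → S.X) => G (S.π ω) (fun a => x (f a))) =
      S.avT (fun ω x => G (S.π ω) x) := by
  let e := Fintype.equivFin J
  let e' := Fintype.equivFin J'
  rw [S.avT_eq e G, S.avT_eq e' (fun t x => G t (fun a => x (f a)))]
  have h := Sys.tav_comp (S := S) (fun k => e' (f (e.symm k)))
    (e'.injective.comp (hf.comp e.symm.injective)) (fun t y => G t (fun a => y (e a)))
  rw [← h]
  simp only [Equiv.symm_apply_apply]

section aseq

variable {k : ℕ} {δ : Type} [Fintype δ] [DecidableEq δ]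

/-- The sequence of the averages. -/
noncomputable def aseq (S : ℕ → Sys) (b : Fin k → ℝ) (Φ : ∀ j, (S j).T → (δ → (S j).X) → ℝ)
    (ι : Type) [Fintype ι] [DecidableEq ι] (A : LM k (δ ⊕ ι) → ℝ) (j : ℕ) : ℝ :=
  (S j).avT (fun ω (x : δ ⊕ ι → (S j).X) => Φ j ((S j).π ω) (fun i => x (Sum.inl i)) *
    A ((S j).LMat b x))

variable {S : ℕ → Sys} {b : Fin k → ℝ} {Φ : ∀ j, (S j).T → (δ → (S j).X) → ℝ}

theorem exists_max {k : ℕ} {J : Type} [Finite J] (A : LM k J → ℝ) : ∃ M, 0 < M ∧ ∀ L, |A L| ≤ M := by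
  classical
  have : Fintype J := Fintype.ofFinite J
  refine ⟨1 + ∑ L, |A L|, by positivity, fun L => ?_⟩
  have := Finset.single_le_sum (f := fun L => |A L|) (fun _ _ => abs_nonneg _) (Finset.mem_univ L)
  linarith

theorem bdd_aseq (hΦm : ∀ j x, Measurable fun t => Φ j t x) (hΦ : ∀ j t x, |Φ j t x| ≤ 1)
    {ι : Type} [Fintype ι] {n : ℕ} (e : δ ⊕ ι ≃ Fin n) (A : LM k (δ ⊕ ι) → ℝ) {a : ℝ}
    (ha : ∀ L, |A L| ≤ a) (ψ : (j : ℕ) → (Fin n → (S j).X) → LM k (δ ⊕ ι)) (j : ℕ) :
    Sys.Bdd (S j) (fun t (y : Fin n → (S j).X) =>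
      Φ j t (fun i => y (e (Sum.inl i))) * A (ψ j y)) a where
  meas y := (hΦm j _).mul_const _
  bdd t y := by
    rw [abs_mul]
    calc |Φ j t (fun i => y (e (Sum.inl i)))| * |A (ψ j y)| ≤ 1 * |A (ψ j y)| :=
          mul_le_mul_of_nonneg_right (hΦ j t _) (abs_nonneg _)
      _ ≤ a := by rw [one_mul]; exact ha _

theorem aseq_eq {ι : Type} [Fintype ι] [DecidableEq ι] {n : ℕ} (e : δ ⊕ ι ≃ Fin n)
    (A : LM k (δ ⊕ ι) → ℝ) (j : ℕ) :
    aseq S b Φ ι A j = (S j).tav (n := n) (fun t y => Φ j t (fun i => y (e (Sum.inl i))) *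
      A ((S j).LMat b fun a => y (e a))) :=
  (S j).avT_eq e fun t x => Φ j t (fun i => x (Sum.inl i)) * A ((S j).LMat b x)

theorem aseq_bound (hΦm : ∀ j x, Measurable fun t => Φ j t x) (hΦ : ∀ j t x, |Φ j t x| ≤ 1)
    {ι : Type} [Fintype ι] [DecidableEq ι] {A : LM k (δ ⊕ ι) → ℝ} {a : ℝ}
    (ha : ∀ L, |A L| ≤ a) (j : ℕ) : |aseq S b Φ ι A j| ≤ a := by
  rw [aseq_eq (Fintype.equivFin (δ ⊕ ι))]
  have h1 := bdd_aseq hΦm hΦ (Fintype.equivFin (δ ⊕ ι)) A ha
    (fun j y => (S j).LMat b fun a => y ((Fintype.equivFin (δ ⊕ ι)) a)) j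
  have ha0 : 0 ≤ a := (abs_nonneg _).trans (ha fun _ _ => 0)
  have h2 := Sys.tav_abs_le (G := fun _ _ => a) (D := a) h1
    ⟨fun _ => measurable_const, fun _ _ => by rw [abs_of_nonneg ha0]⟩ (fun t x => h1.bdd t x)
  rwa [Sys.tav_const] at h2

theorem aseq_add (hΦm : ∀ j x, Measurable fun t => Φ j t x) (hΦ : ∀ j t x, |Φ j t x| ≤ 1)
    {ι : Type} [Fintype ι] [DecidableEq ι] (A B : LM k (δ ⊕ ι) → ℝ) (j : ℕ) :
    aseq S b Φ ι (A + B) j = aseq S b Φ ι A j + aseq S b Φ ι B j := by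
  obtain ⟨a, -, ha⟩ := exists_max A
  obtain ⟨a', -, ha'⟩ := exists_max B
  rw [aseq_eq (Fintype.equivFin (δ ⊕ ι)), aseq_eq (Fintype.equivFin (δ ⊕ ι)),
    aseq_eq (Fintype.equivFin (δ ⊕ ι)), ← Sys.tav_add
    (bdd_aseq hΦm hΦ (Fintype.equivFin (δ ⊕ ι)) A ha
      (fun j y => (S j).LMat b fun a => y ((Fintype.equivFin (δ ⊕ ι)) a)) j)
    (bdd_aseq hΦm hΦ (Fintype.equivFin (δ ⊕ ι)) B ha'
      (fun j y => (S j).LMat b fun a => y ((Fintype.equivFin (δ ⊕ ι)) a)) j)]
  refine Sys.tav_congr fun t y => ?_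
  rw [Pi.add_apply, mul_add]

theorem aseq_smul {ι : Type} [Fintype ι] [DecidableEq ι] (c : ℝ) (A : LM k (δ ⊕ ι) → ℝ) (j : ℕ) :
    aseq S b Φ ι (c • A) j = c * aseq S b Φ ι A j := by
  rw [aseq_eq (Fintype.equivFin (δ ⊕ ι)), aseq_eq (Fintype.equivFin (δ ⊕ ι)), ← Sys.tav_smul]
  refine Sys.tav_congr fun t y => ?_
  rw [Pi.smul_apply, smul_eq_mul]
  ring

theorem LMat_comp (S : Sys) (b : Fin k → ℝ) {J J' : Type} [DecidableEq J] [DecidableEq J']
    (f : J → J') (hf : Function.Injective f) (x : J' → S.X) :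
    S.LMat b (fun a => x (f a)) = fun a c => S.LMat b x (f a) (f c) := by
  funext a c
  unfold Sys.LMat
  by_cases h : a = c
  · rw [if_pos h, if_pos (congrArg f h)]
  · rw [if_neg h, if_neg fun h' => h (hf h')]

theorem aseq_reindex {ι ι' : Type} [Fintype ι] [DecidableEq ι] [Fintype ι'] [DecidableEq ι']
    (e : ι ≃ ι') (A : LM k (δ ⊕ ι') → ℝ) (j : ℕ) :
    aseq S b Φ ι (fun L => A fun a b => L (Sum.map id e.symm a) (Sum.map id e.symm b)) j =
      aseq S b Φ ι' A j := by
  have hinj : Function.Injective (Sum.map id e.symm : δ ⊕ ι' → δ ⊕ ι) :=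
    Function.Injective.sumMap Function.injective_id e.symm.injective
  have h := (S j).avT_comp (Sum.map id e.symm : δ ⊕ ι' → δ ⊕ ι) hinj
    (fun t x => Φ j t (fun i => x (Sum.inl i)) * A ((S j).LMat b x))
  unfold aseq
  rw [← h]
  congr 1
  funext ω x
  change _ = Φ j ((S j).π ω) (fun i => x (Sum.inl i)) *
    A ((S j).LMat b fun a => x (Sum.map id e.symm a))
  rw [LMat_comp (S j) b _ hinj]

/-- the matrices of levels which are not ultrametric -/
theorem not_ultra {k : ℕ} {b : Fin k → ℝ} (hb : StrictMono b) (S : Sys) {J : Type}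
    [DecidableEq J] (x : J → S.X) (h : ¬ Ultra (S.LMat b x)) :
    ∃ (a c d : J) (i : Fin k), a ≠ c ∧ c ≠ d ∧ a ≠ d ∧ b i ≤ S.R (x a) (x c) ∧
      b i ≤ S.R (x c) (x d) ∧ S.R (x a) (x d) < b i := by
  by_contra hcon
  push Not at hcon
  apply h
  refine ⟨fun a c => ?_, fun a => ?_, fun a c d => ?_⟩
  · unfold Sys.LMat
    by_cases h1 : a = c
    · rw [if_pos h1, if_pos h1.symm]
    · rw [if_neg h1, if_neg (fun h2 => h1 h2.symm), Sys.R_symm]
  · unfold Sys.LMat
    rw [if_pos rfl]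
  · by_cases had : a = d
    · have h1 : S.LMat b x a d = Fin.last k := by
        unfold Sys.LMat
        rw [if_pos had]
      rw [h1]
      exact Fin.le_last _
    · by_cases hac : a = c
      · subst hac
        exact min_le_right _ _
      · by_cases hcd : c = d
        · subst hcd
          exact min_le_left _ _
        · unfold Sys.LMat
          rw [if_neg hac, if_neg hcd, if_neg had]
          by_contra hlt
          rw [not_le, lt_min_iff] at hlt
          have h1 : (lev b (S.R (x a) (x d))).val < (lev b (S.R (x a) (x c))).val := hlt.1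
          have h2 : (lev b (S.R (x a) (x d))).val < (lev b (S.R (x c) (x d))).val := hlt.2
          have h3 := (lev b (S.R (x a) (x c))).2
          have h4 := hcon a c d ⟨(lev b (S.R (x a) (x d))).val, by omega⟩ hac hcd had
            (by rw [le_iff_lt_lev hb]; exact h1) (by rw [le_iff_lt_lev hb]; exact h2)
          rw [le_iff_lt_lev hb] at h4
          exact absurd h4 (lt_irrefl _)

theorem Sys.pr_triple (S : Sys) {n : ℕ} {a c d : Fin n} (hac : a ≠ c) (hcd : c ≠ d) (had : a ≠ d)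
    (E : S.X → S.X → S.X → Prop) :
    S.pr (fun y : Fin n → S.X => E (y a) (y c) (y d)) =
      S.pr (fun y : Fin 3 → S.X => E (y 0) (y 1) (y 2)) := by
  have h := Sys.tav_comp (S := S) (![a, c, d] : Fin 3 → Fin n) (by
    intro k l hkl
    fin_cases k <;> fin_cases l <;> simp_all) (fun _ x => ind (E (x 0) (x 1) (x 2)))
  exact h

theorem Sys.pr_pair (S : Sys) {n : ℕ} {a c : Fin n} (hac : a ≠ c) (E : S.X → S.X → Prop) :
    S.pr (fun y : Fin n → S.X => E (y a) (y c)) = S.pr (fun y : Fin 2 → S.X => E (y 0) (y 1)) :=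
  Sys.tav_pair hac fun u v => ind (E u v)

/-- the limiting array is carried by the ultrametric matrices -/
theorem tendsto_not_ultra {U : Ultrafilter ℕ} (hGG : ∀ p : ℕ, AsympGG U S (fun x => x ^ p))
    (hb : StrictMono b) (hna : ∀ i, NonAtom U S (b i)) {J : Type} [DecidableEq J] {n : ℕ}
    (e : J ≃ Fin n) :
    Tendsto (fun j => (S j).pr (fun y : Fin n → (S j).X =>
      ¬ Ultra ((S j).LMat b fun a => y (e a)))) U (𝓝 0) := by
  -- each elementary event
  have hel : ∀ (a c d : Fin n) (i : Fin k), Tendsto (fun j => (S j).pr (fun y : Fin n → (S j).X =>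
      a ≠ c ∧ c ≠ d ∧ a ≠ d ∧ b i ≤ (S j).R (y a) (y c) ∧
      b i ≤ (S j).R (y c) (y d) ∧ (S j).R (y a) (y d) < b i)) U (𝓝 0) := by
    intro a c d i
    by_cases hne : a ≠ c ∧ c ≠ d ∧ a ≠ d
    · obtain ⟨hac, hcd, had⟩ := hne
      refine tendsto_zero_of_not_ge _ (fun N => (S N).pr_nonneg _) fun p hp hcon => ?_
      obtain ⟨η, hη, h1⟩ := hna i (p / 3) (by linarith only [hp])
      have h2 := ultrametricity hGG hη
      have h3 := (tendsto_order.mp h2).2 (p / 3) (by linarith only [hp])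
      obtain ⟨N, hN, hN1, hN2⟩ := (hcon.and (h1.and h3)).exists
      have h4 : (S N).pr (fun y : Fin n → (S N).X => a ≠ c ∧ c ≠ d ∧ a ≠ d ∧
          b i ≤ (S N).R (y a) (y c) ∧ b i ≤ (S N).R (y c) (y d) ∧ (S N).R (y a) (y d) < b i) ≤
          (S N).pr (fun y : Fin n → (S N).X => (S N).R (y a) (y d) <
            min ((S N).R (y c) (y a)) ((S N).R (y c) (y d)) - η) +
          (S N).pr (fun y : Fin n → (S N).X => |(S N).R (y a) (y d) - b i| ≤ η) := by
        refine (S N).pr_le_add fun y hy => ?_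
        obtain ⟨-, -, -, g1, g2, g3⟩ := hy
        by_cases g4 : |(S N).R (y a) (y d) - b i| ≤ η
        · exact Or.inr g4
        · left
          rw [abs_le, not_and_or, not_le, not_le] at g4
          have g5 : (S N).R (y a) (y d) - b i < -η := by
            rcases g4 with g4 | g4
            · exact g4
            · linarith only [hη, g3, g4]
          rw [Sys.R_symm (y c) (y a)]
          have g6 := le_min g1 g2
          linarith
      have h5 : (S N).pr (fun y : Fin n → (S N).X => (S N).R (y a) (y d) <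
            min ((S N).R (y c) (y a)) ((S N).R (y c) (y d)) - η) =
          (S N).tav (n := 3) (fun _ x => if (S N).R (x 1) (x 2) <
            min ((S N).R (x 0) (x 1)) ((S N).R (x 0) (x 2)) - η then 1 else 0) := by
        rw [(S N).pr_triple (a := c) (c := a) (d := d) hac.symm had hcd
          (fun u v w => (S N).R v w < min ((S N).R u v) ((S N).R u w) - η)]
        exact Sys.tav_congr fun _ x => ind_eq _
      have h6 : (S N).pr (fun y : Fin n → (S N).X => |(S N).R (y a) (y d) - b i| ≤ η) =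
          (S N).tav (n := 2) (fun _ x => if |(S N).R (x 0) (x 1) - b i| ≤ η then 1 else 0) := by
        rw [(S N).pr_pair had (fun u v => |(S N).R u v - b i| ≤ η)]
        exact Sys.tav_congr fun _ x => ind_eq _
      rw [h5, h6] at h4
      linarith only [hp, hN, hN1, hN2, h4]
    · have h1 : ∀ j, (S j).pr (fun y : Fin n → (S j).X => a ≠ c ∧ c ≠ d ∧ a ≠ d ∧
          b i ≤ (S j).R (y a) (y c) ∧ b i ≤ (S j).R (y c) (y d) ∧
            (S j).R (y a) (y d) < b i) = 0 := by
        intro j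
        have h2 : (S j).pr (fun y : Fin n → (S j).X => a ≠ c ∧ c ≠ d ∧ a ≠ d ∧
          b i ≤ (S j).R (y a) (y c) ∧ b i ≤ (S j).R (y c) (y d) ∧
            (S j).R (y a) (y d) < b i) = (S j).tav (n := n) (fun _ _ => 0) :=
          Sys.tav_congr fun _ x => ind_of_not fun h => hne ⟨h.1, h.2.1, h.2.2.1⟩
        rw [h2, Sys.tav_const]
      simp only [h1]
      exact tendsto_const_nhds
  have hsum : Tendsto (fun j => ∑ t : Fin n × Fin n × Fin n × Fin k,
      (S j).pr (fun y : Fin n → (S j).X =>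
      t.1 ≠ t.2.1 ∧ t.2.1 ≠ t.2.2.1 ∧ t.1 ≠ t.2.2.1 ∧ b t.2.2.2 ≤ (S j).R (y t.1) (y t.2.1) ∧
      b t.2.2.2 ≤ (S j).R (y t.2.1) (y t.2.2.1) ∧ (S j).R (y t.1) (y t.2.2.1) < b t.2.2.2)) U
      (𝓝 (∑ _t : Fin n × Fin n × Fin n × Fin k, (0 : ℝ))) :=
    tendsto_finsetSum _ fun t _ => hel t.1 t.2.1 t.2.2.1 t.2.2.2
  rw [Finset.sum_const_zero] at hsum
  refine tendsto_zero_of_le (fun N => (S N).pr_nonneg _) (fun N => ?_) hsum
  refine Sys.pr_le_sum _ _ fun y hy => ?_
  obtain ⟨a, c, d, i, h1, h2, h3, h4, h5, h6⟩ := not_ultra hb (S N) (fun a => y (e a)) hy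
  exact ⟨(e a, e c, e d, i), fun h => h1 (e.injective h), fun h => h2 (e.injective h),
    fun h => h3 (e.injective h), h4, h5, h6⟩

theorem aseq_supp {U : Ultrafilter ℕ} (hGG : ∀ p : ℕ, AsympGG U S (fun x => x ^ p))
    (hb : StrictMono b) (hna : ∀ i, NonAtom U S (b i))
    (hΦm : ∀ j x, Measurable fun t => Φ j t x) (hΦ : ∀ j t x, |Φ j t x| ≤ 1)
    {ι : Type} [Fintype ι] [DecidableEq ι] {A : LM k (δ ⊕ ι) → ℝ}
    (hA : ∀ L, Ultra L → A L = 0) : Tendsto (aseq S b Φ ι A) U (𝓝 0) := by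
  obtain ⟨M, hM, hAM⟩ := exists_max A
  set e := Fintype.equivFin (δ ⊕ ι) with he
  have h1 := (tendsto_not_ultra hGG hb hna e).const_mul M
  rw [mul_zero] at h1
  refine squeeze_zero_norm (fun j => ?_) h1
  rw [Real.norm_eq_abs, aseq_eq e]
  unfold Sys.pr
  rw [← Sys.tav_smul]
  refine Sys.tav_abs_le (D := M) (bdd_aseq hΦm hΦ e A hAM
      (fun j y => (S j).LMat b fun a => y (e a)) j)
    ⟨fun _ => measurable_const, fun t x => ?_⟩ fun t x => ?_
  · rw [abs_mul, abs_of_pos hM]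
    exact mul_le_of_le_one_right hM.le (abs_ind_le_one _)
  · by_cases hU : Ultra ((S j).LMat b fun a => x (e a))
    · rw [hA _ hU, mul_zero, abs_zero]
      exact mul_nonneg hM.le (ind_nonneg _)
    · rw [ind_of hU, mul_one, abs_mul]
      calc |Φ j t (fun i => x (e (Sum.inl i)))| * |A ((S j).LMat b fun a => x (e a))| ≤
            1 * |A ((S j).LMat b fun a => x (e a))| :=
            mul_le_mul_of_nonneg_right (hΦ j t _) (abs_nonneg _)
        _ ≤ M := by rw [one_mul]; exact hAM _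

/-- the Ghirlanda-Guerra identities for the levels -/
theorem AsympGG.level {U : Ultrafilter ℕ} (hGG : ∀ p : ℕ, AsympGG U S (fun x => x ^ p))
    (hb : StrictMono b) (hna : ∀ i, NonAtom U S (b i)) (l : Fin (k + 1)) :
    AsympGG U S (fun r => if lev b r = l then 1 else 0) := by
  -- the event `l ≤ lev`
  have hge : ∀ m : ℕ, AsympGG U S (fun r => if m ≤ (lev b r).val then 1 else 0) := by
    intro m
    cases m with
    | zero =>
      have h := hGG 0
      have h1 : (fun r : ℝ => r ^ 0) = fun r => if 0 ≤ (lev b r).val then 1 else 0 := by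
        funext r
        simp
      rwa [h1] at h
    | succ m =>
      by_cases hm : m < k
      · have h := AsympGG.indicator hGG (hna ⟨m, hm⟩)
        have h1 : (Set.Ici (b ⟨m, hm⟩)).indicator (1 : ℝ → ℝ) =
            fun r => if m + 1 ≤ (lev b r).val then 1 else 0 := by
          funext r
          have h2 : b ⟨m, hm⟩ ≤ r ↔ m + 1 ≤ (lev b r).val := le_iff_lt_lev hb ⟨m, hm⟩ r
          by_cases h3 : b ⟨m, hm⟩ ≤ r
          · rw [Set.indicator_of_mem (Set.mem_Ici.mpr h3), if_pos (h2.1 h3)]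
            rfl
          · rw [Set.indicator_of_notMem (fun h => h3 (Set.mem_Ici.mp h)),
              if_neg (fun h => h3 (h2.2 h))]
        rwa [h1] at h
      · have h := (hGG 0).smul 0
        have h1 : (fun r : ℝ => 0 * r ^ 0) = fun r => if m + 1 ≤ (lev b r).val then 1 else 0 := by
          funext r
          have h2 := (lev b r).2
          rw [if_neg (by omega), zero_mul]
        rwa [h1] at h
  have h := (hge l.val).sub (hge (l.val + 1))
  have h1 : (fun r => (if l.val ≤ (lev b r).val then (1 : ℝ) else 0) -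
      (if l.val + 1 ≤ (lev b r).val then 1 else 0)) = fun r => if lev b r = l then 1 else 0 := by
    funext r
    by_cases h2 : lev b r = l
    · rw [h2, if_pos le_rfl, if_neg (by omega), if_pos rfl, sub_zero]
    · rw [if_neg h2]
      have h3 : (lev b r).val ≠ l.val := fun h => h2 (Fin.ext h)
      by_cases h4 : l.val ≤ (lev b r).val
      · rw [if_pos h4, if_pos (by omega), sub_self]
      · rw [if_neg h4, if_neg (by omega), sub_self]
  rwa [h1] at h

theorem injective_map_some {ι : Type} :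
    Function.Injective (Sum.map id some : δ ⊕ ι → δ ⊕ Option ι) :=
  Function.Injective.sumMap Function.injective_id (Option.some_injective ι)

/-- the defect of the test function given by `A` -/
theorem ggDefect_aseq {ι : Type} [Fintype ι] [DecidableEq ι]
    (A : LM k (δ ⊕ ι) → ℝ) (i : δ ⊕ ι) (l : Fin (k + 1)) (j : ℕ) {n : ℕ} (e : δ ⊕ ι ≃ Fin n)
    (c : ℝ) :
    (S j).ggDefect (fun r => if lev b r = l then 1 else 0) (e i)
      (fun t (y : Fin n → (S j).X) => c * (Φ j t (fun i => y (e (Sum.inl i))) *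
        A ((S j).LMat b fun a => y (e a)))) =
    c * (n * aseq S b Φ (Option ι) (fun L =>
        A (fun a b => L (Sum.map id some a) (Sum.map id some b)) *
          if L (Sum.map id some i) (Sum.inr none) = l then 1 else 0) j -
      (aseq S b Φ ι A j * (S j).pr (fun x : Fin 2 → (S j).X =>
        lev b ((S j).R (x 0) (x 1)) = l) +
        (∑ m, aseq S b Φ ι (fun L => A L * if L i m = l then 1 else 0) j -
          aseq S b Φ ι (fun L => A L * if L i i = l then 1 else 0) j))) := by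
  unfold Sys.ggDefect
  -- first term
  have t1 : (S j).tav (fun t (x : Fin (n + 1) → (S j).X) =>
      c * (Φ j t (fun i => x (e (Sum.inl i)).castSucc) *
        A ((S j).LMat b fun a => x (e a).castSucc)) *
        (if lev b ((S j).R (x (e i).castSucc) (x (Fin.last n))) = l then 1 else 0)) =
      c * aseq S b Φ (Option ι) (fun L =>
        A (fun a b => L (Sum.map id some a) (Sum.map id some b)) *
          if L (Sum.map id some i) (Sum.inr none) = l then 1 else 0) j := by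
    let f : Fin (n + 1) → δ ⊕ Option ι :=
      Fin.snoc (α := fun _ => δ ⊕ Option ι) (fun m => Sum.map id some (e.symm m)) (Sum.inr none)
    have hf1 : ∀ m : Fin n, f m.castSucc = Sum.map id some (e.symm m) := fun m =>
      Fin.snoc_castSucc _ _ _
    have hf2 : f (Fin.last n) = Sum.inr none := Fin.snoc_last _ _
    have hns : ∀ a : δ ⊕ ι, (Sum.map id some a : δ ⊕ Option ι) ≠ Sum.inr none := by
      rintro (a | a) h
      · simp at h
      · simp at h
    have hf : Function.Injective f := by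
      intro m m'
      induction m using Fin.lastCases with
      | last =>
        induction m' using Fin.lastCases with
        | last => intro _; rfl
        | cast m' =>
          intro h
          rw [hf1, hf2] at h
          exact absurd h.symm (hns _)
      | cast m =>
        induction m' using Fin.lastCases with
        | last =>
          intro h
          rw [hf1, hf2] at h
          exact absurd h (hns _)
        | cast m' =>
          intro h
          rw [hf1, hf1] at h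
          rw [e.symm.injective (injective_map_some h)]
    have h := (S j).avT_comp f hf (fun t x => c * (Φ j t (fun i => x (e (Sum.inl i)).castSucc) *
        A ((S j).LMat b fun a => x (e a).castSucc)) *
        (if lev b ((S j).R (x (e i).castSucc) (x (Fin.last n))) = l then 1 else 0))
    have h' : (S j).tav (fun t (x : Fin (n + 1) → (S j).X) =>
      c * (Φ j t (fun i => x (e (Sum.inl i)).castSucc) *
        A ((S j).LMat b fun a => x (e a).castSucc)) *
        (if lev b ((S j).R (x (e i).castSucc) (x (Fin.last n))) = l then 1 else 0)) =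
        (S j).avT (fun ω (x : Fin (n + 1) → (S j).X) =>
      c * (Φ j ((S j).π ω) (fun i => x (e (Sum.inl i)).castSucc) *
        A ((S j).LMat b fun a => x (e a).castSucc)) *
        (if lev b ((S j).R (x (e i).castSucc) (x (Fin.last n))) = l then 1 else 0)) := rfl
    rw [h', ← h, ← aseq_smul]
    unfold aseq
    congr 1
    funext ω x
    simp only [hf1, hf2, Equiv.symm_apply_apply, Pi.smul_apply, smul_eq_mul, Sum.map_inl, id]
    have h3 : (S j).LMat b (fun a => x (Sum.map id some a)) =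
        fun a c => (S j).LMat b x (Sum.map id some a) (Sum.map id some c) :=
      LMat_comp (S j) b _ injective_map_some x
    have h4 : (S j).LMat b x (Sum.map id some i) (Sum.inr none) =
        lev b ((S j).R (x (Sum.map id some i)) (x (Sum.inr none))) := by
      unfold Sys.LMat
      rw [if_neg (hns i)]
    rw [h3, h4]
    ring
  -- second term
  have t2 : (S j).tav (fun t (y : Fin n → (S j).X) => c * (Φ j t (fun i => y (e (Sum.inl i))) *
        A ((S j).LMat b fun a => y (e a)))) = c * aseq S b Φ ι A j := by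
    rw [Sys.tav_smul, aseq_eq e]
  have t2' : (S j).tav (fun _ (x : Fin 2 → (S j).X) =>
      if lev b ((S j).R (x 0) (x 1)) = l then 1 else 0) = (S j).pr (fun x : Fin 2 → (S j).X =>
        lev b ((S j).R (x 0) (x 1)) = l) :=
    Sys.tav_congr fun _ x => (ind_eq _).symm
  -- third term
  have t3 : ∀ m : δ ⊕ ι, m ≠ i → (S j).tav (fun t (x : Fin n → (S j).X) =>
      c * (Φ j t (fun i => x (e (Sum.inl i))) * A ((S j).LMat b fun a => x (e a))) *
        (if lev b ((S j).R (x (e i)) (x (e m))) = l then 1 else 0)) =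
      c * aseq S b Φ ι (fun L => A L * if L i m = l then 1 else 0) j := by
    intro m hm
    rw [aseq_eq e, ← Sys.tav_smul]
    refine Sys.tav_congr fun t x => ?_
    have h4 : (S j).LMat b (fun a => x (e a)) i m = lev b ((S j).R (x (e i)) (x (e m))) := by
      unfold Sys.LMat
      rw [if_neg (fun h => hm h.symm)]
    rw [h4]
    ring
  have t4 : ∑ m ∈ Finset.univ.erase (e i), (S j).tav (fun t (x : Fin n → (S j).X) =>
      c * (Φ j t (fun i => x (e (Sum.inl i))) * A ((S j).LMat b fun a => x (e a))) *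
        (if lev b ((S j).R (x (e i)) (x m)) = l then 1 else 0)) =
      c * (∑ m, aseq S b Φ ι (fun L => A L * if L i m = l then 1 else 0) j -
          aseq S b Φ ι (fun L => A L * if L i i = l then 1 else 0) j) := by
    rw [← Finset.sum_erase_eq_sub (Finset.mem_univ i), Finset.mul_sum]
    symm
    refine Finset.sum_bij (fun m _ => e m) ?_ ?_ ?_ ?_
    · intro m hm
      rw [Finset.mem_erase] at hm ⊢
      exact ⟨fun h => hm.1 (e.injective h), Finset.mem_univ _⟩
    · intro m _ m' _ h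
      exact e.injective h
    · intro m hm
      rw [Finset.mem_erase] at hm
      refine ⟨e.symm m, ?_, e.apply_symm_apply m⟩
      rw [Finset.mem_erase]
      refine ⟨fun h => hm.1 ?_, Finset.mem_univ _⟩
      rw [← h, e.apply_symm_apply]
    · intro m hm
      exact (t3 m (Finset.ne_of_mem_erase hm)).symm
  rw [t1, t2, t2', t4]
  ring

/-- the functional: limit of the averages -/
noncomputable def aE (U : Ultrafilter ℕ) (S : ℕ → Sys) (b : Fin k → ℝ)
    (Φ : ∀ j, (S j).T → (δ → (S j).X) → ℝ) (ι : Type) [Fintype ι] (A : LM k (δ ⊕ ι) → ℝ) : ℝ :=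
  letI := Classical.decEq ι
  limUnder (U : Filter ℕ) (aseq S b Φ ι A)

theorem tendsto_aE (U : Ultrafilter ℕ) (hΦm : ∀ j x, Measurable fun t => Φ j t x)
    (hΦ : ∀ j t x, |Φ j t x| ≤ 1) (ι : Type) [Fintype ι] [inst : DecidableEq ι]
    (A : LM k (δ ⊕ ι) → ℝ) : Tendsto (aseq S b Φ ι A) U (𝓝 (aE U S b Φ ι A)) := by
  obtain ⟨a, -, ha⟩ := exists_max A
  have h1 := exists_ulim U fun N => aseq_bound (b := b) hΦm hΦ ha N
  have h0 : Classical.decEq ι = inst := Subsingleton.elim _ _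
  have h2 : aE U S b Φ ι A = limUnder (U : Filter ℕ) (aseq S b Φ ι A) := by
    unfold aE
    rw [h0]
  rw [h2]
  exact tendsto_nhds_limUnder h1

/-- The limiting array, with test functions depending on the disorder and on the special
replicas. -/
theorem exists_arr {U : Ultrafilter ℕ} {S : ℕ → Sys}
    (hGG : ∀ p : ℕ, AsympGG U S (fun x => x ^ p)) {k : ℕ} {b : Fin k → ℝ} (hb : StrictMono b)
    (hb0 : ∀ i, 0 < b i) (hb1 : ∀ i, b i ≤ 1) (hna : ∀ i, NonAtom U S (b i)) {w : Fin (k + 1) → ℝ}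
    (hw : ∀ l, Tendsto (fun j => (S j).pr (fun x : Fin 2 → (S j).X =>
      lev b ((S j).R (x 0) (x 1)) = l)) U (𝓝 (w l)))
    {δ : Type} [Fintype δ] [DecidableEq δ] (Φ : ∀ j, (S j).T → (δ → (S j).X) → ℝ)
    (hΦm : ∀ j x, Measurable fun t => Φ j t x) (hΦ : ∀ j t x, |Φ j t x| ≤ 1) :
    ∃ 𝓐 : Arr k w δ, 𝓐.C = 1 ∧ (∀ (ι : Type) [Fintype ι] [DecidableEq ι]
      (A : LM k (δ ⊕ ι) → ℝ), Tendsto (fun j => (S j).avT
        (fun ω (x : δ ⊕ ι → (S j).X) => Φ j ((S j).π ω) (fun i => x (Sum.inl i)) *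
          A ((S j).LMat b x))) U (𝓝 (𝓐.E ι A))) := by
  classical
  have htd := fun (ι : Type) [Fintype ι] [DecidableEq ι] (A : LM k (δ ⊕ ι) → ℝ) =>
    tendsto_aE (S := S) (b := b) (Φ := Φ) U hΦm hΦ ι A
  refine ⟨{
    E := fun ι _ =>
      { toFun := aE U S b Φ ι
        map_add' := ?_
        map_smul' := ?_ }
    C := 1
    bound := ?_
    supp := ?_
    reindex := ?_
    gg := ?_ }, rfl, fun ι _ _ A => htd ι A⟩
  · intro A B
    have h1 := htd ι (A + B)
    have h2 := (htd ι A).add (htd ι B)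
    have h3 : (fun j => aseq S b Φ ι A j + aseq S b Φ ι B j) = aseq S b Φ ι (A + B) :=
      funext fun j => (aseq_add hΦm hΦ A B j).symm
    rw [h3] at h2
    exact tendsto_nhds_unique h1 h2
  · intro c A
    have h1 := htd ι (c • A)
    have h2 := (htd ι A).const_mul c
    have h3 : (fun j => c * aseq S b Φ ι A j) = aseq S b Φ ι (c • A) :=
      funext fun j => (aseq_smul c A j).symm
    rw [h3] at h2
    exact tendsto_nhds_unique h1 h2
  · intro ι _ A a ha
    have h1 := (htd ι A).abs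
    rw [one_mul]
    exact le_of_tendsto' h1 fun j => aseq_bound hΦm hΦ ha j
  · intro ι _ A hA
    exact tendsto_nhds_unique (htd ι A) (aseq_supp hGG hb hna hΦm hΦ hA)
  · intro ι ι' _ _ e A
    have h1 := htd ι (fun L => A fun a b => L (Sum.map id e.symm a) (Sum.map id e.symm b))
    have h2 := htd ι' A
    have h3 : aseq S b Φ ι (fun L => A fun a b => L (Sum.map id e.symm a) (Sum.map id e.symm b)) =
        aseq S b Φ ι' A := funext fun j => aseq_reindex e A j
    rw [h3] at h1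
    exact tendsto_nhds_unique h1 h2
  · intro ι _ A i l
    obtain ⟨M, hM, hAM⟩ := exists_max A
    set e := Fintype.equivFin (δ ⊕ ι) with he
    -- the limit of the defects
    have hgg := AsympGG.level hGG hb hna l (Fintype.card (δ ⊕ ι)) (e i)
    have hdef : Tendsto (fun j => (S j).ggDefect (fun r => if lev b r = l then 1 else 0) (e i)
      (fun t (y : Fin (Fintype.card (δ ⊕ ι)) → (S j).X) =>
        (1 / M) * (Φ j t (fun i => y (e (Sum.inl i))) *
        A ((S j).LMat b fun a => y (e a))))) U (𝓝 0) := by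
      rw [Metric.tendsto_nhds]
      intro ε hε
      filter_upwards [hgg (ε / 2) (by linarith)] with j hj
      rw [dist_zero_right, Real.norm_eq_abs]
      refine lt_of_le_of_lt (hj _ ⟨fun y => ?_, fun t y => ?_⟩) (by linarith)
      · exact ((hΦm j _).mul_const _).const_mul _
      · have h1 := (bdd_aseq hΦm hΦ e A hAM (fun j y => (S j).LMat b fun a => y (e a)) j).bdd t y
        rw [abs_mul, abs_of_pos (by positivity : 0 < 1 / M)]
        calc 1 / M * |Φ j t (fun i => y (e (Sum.inl i))) * A ((S j).LMat b fun a => y (e a))| ≤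
              1 / M * M := mul_le_mul_of_nonneg_left h1 (by positivity)
          _ = 1 := by field_simp
    simp only [ggDefect_aseq] at hdef
    have h2 := hdef.const_mul M
    rw [mul_zero] at h2
    have h3 : ∀ x : ℝ, M * (1 / M * x) = x := by
      intro x
      field_simp
    simp only [h3] at h2
    have h4 := ((htd (Option ι) (fun L => A (fun a b => L (Sum.map id some a) (Sum.map id some b)) *
          if L (Sum.map id some i) (Sum.inr none) = l then 1 else 0)).const_mul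
            ((Fintype.card (δ ⊕ ι) : ℕ) : ℝ)).sub
      (((htd ι A).mul (hw l)).add ((tendsto_finsetSum Finset.univ fun m _ =>
        htd ι (fun L => A L * if L i m = l then 1 else 0)).sub
          (htd ι (fun L => A L * if L i i = l then 1 else 0))))
    have h5 := tendsto_nhds_unique h2 h4
    have h6 : ((Fintype.card (δ ⊕ ι) : ℕ) : ℝ) = (Fintype.card δ : ℝ) + Fintype.card ι := by
      rw [Fintype.card_sum]
      push_cast
      ring
    rw [h6] at h5
    simp only [LinearMap.coe_mk, AddHom.coe_mk]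
    linarith

end aseq

end Vale.Agent.P157.Par
end

section

open MeasureTheory ProbabilityTheory Filter Topology Finset

namespace Vale.Agent.P157.Par

set_option linter.unusedSectionVars false

open Vale.Agent.P367.GT (gM)

namespace Sys

variable (S : Sys) {J : Type} [Fintype J] [DecidableEq J]

/-- The product weight of a family of replicas. -/
lemma sum_prod_w (ω : S.Ω) : ∑ x : J → S.X, ∏ a, S.w ω (x a) = 1 := by
  classical
  rw [← Fintype.piFinset_univ, ← Finset.prod_univ_sum]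
  simp [S.w1]

lemma prod_wT_nonneg (ω : S.Ω) (x : J → S.X) : 0 ≤ ∏ a, S.w ω (x a) :=
  Finset.prod_nonneg fun _ _ => S.w0 _ _

lemma prod_wT_le_one (ω : S.Ω) (x : J → S.X) : ∏ a, S.w ω (x a) ≤ 1 :=
  Finset.prod_le_one (fun _ _ => S.w0 _ _) fun _ _ => w_le_one ω _

lemma avT_integrable {G : S.Ω → (J → S.X) → ℝ} (hm : ∀ x, Measurable fun ω => G ω x) {C : ℝ}
    (hC : ∀ ω x, |G ω x| ≤ C) :
    Integrable (fun ω => ∑ x : J → S.X, (∏ a, S.w ω (x a)) * G ω x) S.P := by
  apply integrable_finsetSum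
  intro x _
  have hmm : Measurable fun ω => (∏ a, S.w ω (x a)) * G ω x :=
    (Finset.measurable_prod _ fun a _ => S.hw _).mul (hm x)
  apply Integrable.of_bound hmm.aestronglyMeasurable C
  filter_upwards with ω
  rw [Real.norm_eq_abs, abs_mul, abs_of_nonneg (S.prod_wT_nonneg ω x)]
  exact (mul_le_of_le_one_left (abs_nonneg _) (S.prod_wT_le_one ω x)).trans (hC ω x)

lemma avT_sub {G H : S.Ω → (J → S.X) → ℝ} (hm : ∀ x, Measurable fun ω => G ω x) {C : ℝ}
    (hC : ∀ ω x, |G ω x| ≤ C) (hm' : ∀ x, Measurable fun ω => H ω x) {C' : ℝ}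
    (hC' : ∀ ω x, |H ω x| ≤ C') :
    S.avT (fun ω x => G ω x - H ω x) = S.avT G - S.avT H := by
  unfold avT
  rw [← integral_sub (S.avT_integrable hm hC) (S.avT_integrable hm' hC')]
  congr 1
  funext ω
  rw [← Finset.sum_sub_distrib]
  exact Finset.sum_congr rfl fun x _ => by ring

lemma avT_add {G H : S.Ω → (J → S.X) → ℝ} (hm : ∀ x, Measurable fun ω => G ω x) {C : ℝ}
    (hC : ∀ ω x, |G ω x| ≤ C) (hm' : ∀ x, Measurable fun ω => H ω x) {C' : ℝ}
    (hC' : ∀ ω x, |H ω x| ≤ C') :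
    S.avT (fun ω x => G ω x + H ω x) = S.avT G + S.avT H := by
  unfold avT
  rw [← integral_add (S.avT_integrable hm hC) (S.avT_integrable hm' hC')]
  congr 1
  funext ω
  rw [← Finset.sum_add_distrib]
  exact Finset.sum_congr rfl fun x _ => by ring

lemma avT_sum {I : Type*} (s : Finset I) {G : I → S.Ω → (J → S.X) → ℝ}
    (hm : ∀ i x, Measurable fun ω => G i ω x) {C : ℝ} (hC : ∀ i ω x, |G i ω x| ≤ C) :
    S.avT (fun ω x => ∑ i ∈ s, G i ω x) = ∑ i ∈ s, S.avT (G i) := by
  unfold avT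
  rw [← integral_finsetSum _ fun i _ => S.avT_integrable (hm i) (hC i)]
  congr 1
  funext ω
  rw [Finset.sum_comm]
  exact Finset.sum_congr rfl fun x _ => by rw [Finset.mul_sum]

lemma avT_const_mul (c : ℝ) (G : S.Ω → (J → S.X) → ℝ) :
    S.avT (fun ω x => c * G ω x) = c * S.avT G := by
  unfold avT
  rw [← integral_const_mul]
  congr 1
  funext ω
  rw [Finset.mul_sum]
  exact Finset.sum_congr rfl fun x _ => by ring

lemma avT_mono {G H : S.Ω → (J → S.X) → ℝ} (hm : ∀ x, Measurable fun ω => G ω x) {C : ℝ}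
    (hC : ∀ ω x, |G ω x| ≤ C) (hm' : ∀ x, Measurable fun ω => H ω x) {C' : ℝ}
    (hC' : ∀ ω x, |H ω x| ≤ C') (h : ∀ ω x, G ω x ≤ H ω x) : S.avT G ≤ S.avT H := by
  unfold avT
  apply integral_mono (S.avT_integrable hm hC) (S.avT_integrable hm' hC')
  intro ω
  exact Finset.sum_le_sum fun x _ => mul_le_mul_of_nonneg_left (h ω x) (S.prod_wT_nonneg ω x)

lemma avT_const (c : ℝ) : S.avT (fun _ (_ : J → S.X) => c) = c := by
  unfold avT
  simp_rw [← Finset.sum_mul, S.sum_prod_w, one_mul]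
  simp

lemma abs_avT_le {G H : S.Ω → (J → S.X) → ℝ} (hm : ∀ x, Measurable fun ω => G ω x) {C : ℝ}
    (hC : ∀ ω x, |G ω x| ≤ C) (hm' : ∀ x, Measurable fun ω => H ω x) {C' : ℝ}
    (hC' : ∀ ω x, |H ω x| ≤ C') (h : ∀ ω x, |G ω x| ≤ H ω x) : |S.avT G| ≤ S.avT H := by
  rw [abs_le]
  constructor
  · have h1 := S.avT_mono (G := fun ω x => (-1) * H ω x) (H := G)
      (fun x => (hm' x).const_mul (-1)) (C := C') (fun ω x => by simpa using hC' ω x) hm hC
      (fun ω x => by have := neg_le_of_abs_le (h ω x); linarith)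
    rw [S.avT_const_mul] at h1
    linarith
  · exact S.avT_mono hm hC hm' hC' fun ω x => le_of_abs_le (h ω x)

lemma abs_avT_le_const {G : S.Ω → (J → S.X) → ℝ} (hm : ∀ x, Measurable fun ω => G ω x) {C : ℝ}
    (hC : ∀ ω x, |G ω x| ≤ C) : |S.avT G| ≤ C := by
  have h := S.abs_avT_le (H := fun _ _ => C) hm hC (fun x => measurable_const) (C' := |C|)
    (fun _ _ => le_rfl) hC
  rwa [S.avT_const] at h

end Sys

/-! ### The moment identity -/

section Moments

variable (S : Sys) {K : Type} [Fintype K] [DecidableEq K] {κ : S.T → S.X → K → ℝ}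
  (hκ : ∀ x c, Measurable fun t => κ t x c)

include hκ

lemma measurable_field (x : S.X) :
    Measurable fun z : S.Ω × (K → ℝ) => lin (κ (S.π z.1)) z.2 x := by
  unfold lin
  apply Finset.measurable_sum
  intro c _
  exact ((hκ x c).comp (S.hπ.comp measurable_fst)).mul ((measurable_pi_apply c).comp measurable_snd)

/-- Average over a Gaussian field which is independent of the system. -/
theorem moment {J : Type} [Fintype J] [DecidableEq J] {F : S.T → (J → S.X) → ℝ}
    (hF : ∀ x, Measurable fun t => F t x) {B : ℝ} (hB : ∀ t x, |F t x| ≤ B) {f : J → ℝ → ℝ}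
    (hf : ∀ a, BM (f a)) :
    ∫ z : S.Ω × (K → ℝ), ∑ x : J → S.X, (∏ a, S.w z.1 (x a)) *
      (F (S.π z.1) x * ∏ a, f a (lin (κ (S.π z.1)) z.2 (x a))) ∂(S.P.prod (gM K)) =
      S.avT (fun ω x => F (S.π ω) x * gE (fun a => κ (S.π ω) (x a)) f) := by
  obtain ⟨C, hC0, hC⟩ := exists_bound hf
  have hmeas : ∀ x : J → S.X, Measurable fun z : S.Ω × (K → ℝ) =>
      (∏ a, S.w z.1 (x a)) * (F (S.π z.1) x * ∏ a, f a (lin (κ (S.π z.1)) z.2 (x a))) := by
    intro x
    refine (Finset.measurable_prod _ fun a _ => (S.hw _).comp measurable_fst).mul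
      (((hF x).comp (S.hπ.comp measurable_fst)).mul (Finset.measurable_prod _ fun a _ => ?_))
    exact (hf a).meas.comp (measurable_field S hκ (x a))
  have hB0 : 0 ≤ |B| := abs_nonneg B
  have hbound : ∀ (x : J → S.X) (z : S.Ω × (K → ℝ)), ‖(∏ a, S.w z.1 (x a)) *
      (F (S.π z.1) x * ∏ a, f a (lin (κ (S.π z.1)) z.2 (x a)))‖ ≤
      1 * (|B| * C ^ (univ : Finset J).card) := by
    intro x z
    rw [Real.norm_eq_abs, abs_mul, abs_mul]
    have h1 : |∏ a, S.w z.1 (x a)| ≤ 1 := by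
      rw [abs_of_nonneg (S.prod_wT_nonneg _ _)]; exact S.prod_wT_le_one _ _
    have h2 := (hB (S.π z.1) x).trans (le_abs_self B)
    have h3 : |∏ a, f a (lin (κ (S.π z.1)) z.2 (x a))| ≤ C ^ (univ : Finset J).card :=
      abs_prod_le fun a _ => hC a _
    gcongr
  have hint : ∀ x : J → S.X, Integrable (fun z : S.Ω × (K → ℝ) =>
      (∏ a, S.w z.1 (x a)) * (F (S.π z.1) x * ∏ a, f a (lin (κ (S.π z.1)) z.2 (x a))))
      (S.P.prod (gM K)) := fun x =>
    Integrable.of_bound (hmeas x).aestronglyMeasurable _ (Eventually.of_forall (hbound x))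
  rw [integral_prod _ (integrable_finsetSum _ fun x _ => hint x)]
  unfold Sys.avT
  congr 1
  funext ω
  have hintω : ∀ x : J → S.X, Integrable (fun ξ : K → ℝ =>
      (∏ a, S.w ω (x a)) * (F (S.π ω) x * ∏ a, f a (lin (κ (S.π ω)) ξ (x a)))) (gM K) := fun x =>
    Integrable.of_bound ((hmeas x).comp measurable_prodMk_left).aestronglyMeasurable _
      (Eventually.of_forall fun ξ => hbound x (ω, ξ))
  rw [integral_finsetSum _ fun x _ => hintω x]
  apply Finset.sum_congr rfl
  intro x _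
  rw [integral_const_mul, integral_const_mul]
  rfl

end Moments

/-! ### Algebra of products of sums -/

lemma prod_sum_pow {X δ : Type} [Fintype X] [Fintype δ] [DecidableEq δ] (n : ℕ)
    (Φ : (δ → X) → ℝ) (p : δ → X → ℝ) (q : X → ℝ) :
    (∑ x : δ → X, Φ x * ∏ i, p i (x i)) * (∑ y, q y) ^ n =
      ∑ x : δ ⊕ Fin n → X, Φ (fun i => x (Sum.inl i)) *
        ((∏ i, p i (x (Sum.inl i))) * ∏ j, q (x (Sum.inr j))) := by
  classical
  have h1 : (∑ y, q y) ^ n = ∑ y : Fin n → X, ∏ j, q (y j) := by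
    have h := Finset.prod_univ_sum (fun _ : Fin n => (Finset.univ : Finset X)) (fun _ y => q y)
    rw [Fintype.piFinset_univ] at h
    rw [← h]
    simp
  rw [h1, Finset.sum_mul_sum, ← Fintype.sum_prod_type' (f := fun (x : δ → X) (y : Fin n → X) =>
    Φ x * (∏ i, p i (x i)) * ∏ j, q (y j)),
    ← (Equiv.sumArrowEquivProdArrow δ (Fin n) X).sum_comp]
  apply Finset.sum_congr rfl
  intro x _
  rw [mul_assoc]
  rfl

/-! ### Comparison with the tree field -/

lemma prod_bound {δ : Type} (n : ℕ) [Fintype δ] [DecidableEq δ]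
    (C α : ℝ) (a b : δ ⊕ Fin n) :
    ∏ x : δ ⊕ Fin n, (Sum.elim (fun _ => C) (fun _ => α) x) *
      ((if x = a then C / α else 1) * (if x = b then C / α else 1)) =
      C ^ Fintype.card δ * α ^ n * (C / α) ^ 2 := by
  rw [Finset.prod_mul_distrib, Finset.prod_mul_distrib, Fintype.prod_sum_type]
  simp only [Sum.elim_inl, Sum.elim_inr, Finset.prod_const, Finset.card_univ, Fintype.card_fin,
    Finset.prod_ite_eq', Finset.mem_univ, if_true]
  ring

/-- Comparison of the field of the system with the tree field, for a fixed configuration of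
replicas. -/
lemma gE_cmp {k : ℕ} {δ : Type} [Fintype δ] [DecidableEq δ] {n : ℕ} {K : Type} [Fintype K]
    [DecidableEq K] (V : δ ⊕ Fin n → K → ℝ) {c : Fin (k + 1) → ℝ} (hc : ∀ l, 0 ≤ c l) {τ : ℝ}
    (hτ : 0 ≤ τ) {L : LM k (δ ⊕ Fin n)} (hL : Ultra L) {A A' A'' : δ → ℝ → ℝ} {v v' v'' : ℝ → ℝ}
    {C α : ℝ} (hC : 1 ≤ C) (hα0 : 0 < α) (hα1 : α ≤ 1)
    (hA : ∀ i, (∀ x, HasDerivAt (A i) (A' i x) x) ∧ (∀ x, HasDerivAt (A' i) (A'' i x) x) ∧
      Continuous (A'' i) ∧ (∀ x, |A i x| ≤ C) ∧ (∀ x, |A' i x| ≤ C) ∧ ∀ x, |A'' i x| ≤ C)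
    (hv : (∀ x, HasDerivAt v (v' x) x) ∧ (∀ x, HasDerivAt v' (v'' x) x) ∧
      Continuous v'' ∧ (∀ x, |v x| ≤ α) ∧ (∀ x, |v' x| ≤ C) ∧ ∀ x, |v'' x| ≤ C) :
    |gE V (fam A v) - gE (noisy τ (UL c L)) (fam A v)| ≤
      C ^ (Fintype.card δ + 2) / α ^ 2 * α ^ n * (1 / 2 * ∑ a, ∑ b,
        |gram V V a b - ((∑ l, if l ≤ L a b then c l else 0) + if a = b then τ else 0)|) := by
  classical
  have hαC : α ≤ C := hα1.trans hC
  have hC0 : 0 < C := by linarith
  have hCα : 1 ≤ C / α := by rw [le_div_iff₀ hα0]; linarith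
  set F : δ ⊕ Fin n → ℝ → ℝ := fam A v with hF
  set F' : δ ⊕ Fin n → ℝ → ℝ := fam A' v' with hF'
  set F'' : δ ⊕ Fin n → ℝ → ℝ := fam A'' v'' with hF''
  have b0 : ∀ a x, |F a x| ≤ C := by
    rintro (i | j) x
    · exact (hA i).2.2.2.1 x
    · exact (hv.2.2.2.1 x).trans hαC
  have b1 : ∀ a x, |F' a x| ≤ C := by
    rintro (i | j) x
    · exact (hA i).2.2.2.2.1 x
    · exact hv.2.2.2.2.1 x
  have b2 : ∀ a x, |F'' a x| ≤ C := by
    rintro (i | j) x
    · exact (hA i).2.2.2.2.2 x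
    · exact hv.2.2.2.2.2 x
  have d1 : ∀ a x, HasDerivAt (F a) (F' a x) x := by
    rintro (i | j) x
    · exact (hA i).1 x
    · exact hv.1 x
  have d2 : ∀ a x, HasDerivAt (F' a) (F'' a x) x := by
    rintro (i | j) x
    · exact (hA i).2.1 x
    · exact hv.2.1 x
  have m2 : ∀ a, Measurable (F'' a) := by
    rintro (i | j)
    · exact (hA i).2.2.1.measurable
    · exact hv.2.2.1.measurable
  have hel : ∀ x : δ ⊕ Fin n, α ≤ Sum.elim (fun _ => C) (fun _ => α) x := by
    rintro (i | j)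
    · exact hαC
    · exact le_rfl
  have hb0' : ∀ (x : δ ⊕ Fin n) y, |F x y| ≤ Sum.elim (fun _ => C) (fun _ => α) x := by
    rintro (i | j) y
    · exact (hA i).2.2.2.1 y
    · exact hv.2.2.2.1 y
  have hM : ∀ a b, ∀ W : δ ⊕ Fin n → K ⊕ ((Fin (k + 1) × (δ ⊕ Fin n → Bool)) ⊕ (δ ⊕ Fin n)) → ℝ,
      |gE W (D2 F F' F'' a b)| ≤ C ^ Fintype.card δ * α ^ n * (C / α) ^ 2 := by
    intro a b W
    rw [← prod_bound n C α a b]
    apply abs_gE_le
    intro x y
    have h0 := hel x
    have hpos : 0 < Sum.elim (fun _ : δ => C) (fun _ : Fin n => α) x := hα0.trans_le h0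
    unfold D2
    by_cases hab : a = b
    · subst hab
      simp only [if_true]
      by_cases hx : x = a
      · subst hx
        simp only [if_true, Function.update_self]
        calc |F'' x y| ≤ C := b2 x y
          _ = α * (C / α) := by field_simp
          _ ≤ Sum.elim (fun _ : δ => C) (fun _ : Fin n => α) x * (C / α * (C / α)) := by
            apply mul_le_mul h0 _ (by positivity) hpos.le
            nlinarith only [hCα]
      · simp only [if_neg hx, mul_one, Function.update_of_ne hx]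
        exact hb0' x y
    · simp only [if_neg hab]
      by_cases hxb : x = b
      · subst hxb
        have hxa : x ≠ a := fun h => hab h.symm
        simp only [if_true, if_neg hxa, one_mul, Function.update_self]
        calc |F' x y| ≤ C := b1 x y
          _ = α * (C / α) := by field_simp
          _ ≤ Sum.elim (fun _ : δ => C) (fun _ : Fin n => α) x * (C / α) :=
            mul_le_mul_of_nonneg_right h0 (by positivity)
      · by_cases hxa : x = a
        · subst hxa
          simp only [if_true, if_neg hxb, mul_one, Function.update_of_ne hxb,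
            Function.update_self]
          calc |F' x y| ≤ C := b1 x y
            _ = α * (C / α) := by field_simp
            _ ≤ Sum.elim (fun _ : δ => C) (fun _ : Fin n => α) x * (C / α) :=
              mul_le_mul_of_nonneg_right h0 (by positivity)
        · simp only [if_neg hxa, if_neg hxb, mul_one, Function.update_of_ne hxb,
            Function.update_of_ne hxa]
          exact hb0' x y
  have hM' : ∀ a b, ∀ W : δ ⊕ Fin n → ((Fin (k + 1) × (δ ⊕ Fin n → Bool)) ⊕ (δ ⊕ Fin n)) ⊕ K → ℝ,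
      |gE W (D2 F F' F'' a b)| ≤ C ^ Fintype.card δ * α ^ n * (C / α) ^ 2 := by
    intro a b W
    have e : K ⊕ ((Fin (k + 1) × (δ ⊕ Fin n → Bool)) ⊕ (δ ⊕ Fin n)) ≃
      ((Fin (k + 1) × (δ ⊕ Fin n → Bool)) ⊕ (δ ⊕ Fin n)) ⊕ K := Equiv.sumComm _ _
    have h := hM a b (fun x p => W x (e p))
    rwa [gE_reindex_right W e (D2 F F' F'' a b)] at h
  have hcmp := gE_compare (noisy τ (UL c L)) V b0 b1 b2 d1 d2 m2
    (M := fun _ _ => C ^ Fintype.card δ * α ^ n * (C / α) ^ 2) hM'
  refine hcmp.trans (le_of_eq ?_)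
  simp_rw [gram_noisy_UL hc hτ hL, ← Finset.sum_mul]
  rw [pow_add, div_pow]
  field_simp

end Vale.Agent.P157.Par
end

section

open MeasureTheory ProbabilityTheory Filter Topology Finset

namespace Vale.Agent.P157.Par

set_option linter.unusedSectionVars false

open Vale.Agent.P367.GT (gM)

/-- Limits of sums. -/
lemma sum_lim {U : Filter ℕ} {x : ℕ → ℕ → ℝ} {y B D : ℕ → ℝ} {ε : ℝ} (hε : 0 ≤ ε)
    (hB : Summable B) (hD : Summable D) (hx : ∀ j n, |x j n| ≤ B n) (hy : ∀ n, |y n| ≤ B n)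
    (hD0 : ∀ n, 0 ≤ D n)
    (h : ∀ n, ∀ η > 0, ∀ᶠ j in U, |x j n - y n| ≤ D n * ε + η) :
    ∀ η > 0, ∀ᶠ j in U, |∑' n, x j n - ∑' n, y n| ≤ (∑' n, D n) * ε + η := by
  intro η hη
  have hxs : ∀ j, Summable (x j) := fun j =>
    Summable.of_norm_bounded hB fun n => by rw [Real.norm_eq_abs]; exact hx j n
  have hys : Summable y := Summable.of_norm_bounded hB fun n => by
    rw [Real.norm_eq_abs]; exact hy n
  have ht := tendsto_sum_nat_add B
  obtain ⟨n₀, hn₀⟩ := ((tendsto_order.1 ht).2 (η / 4) (by positivity)).exists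
  have hBt : Summable fun i => B (i + n₀) := (summable_nat_add_iff n₀).2 hB
  have hfin : ∀ᶠ j in U, ∀ n ∈ Finset.range n₀, |x j n - y n| ≤ D n * ε + η / (2 * (n₀ + 1)) := by
    rw [Filter.eventually_all_finset]
    intro n _
    exact h n _ (by positivity)
  filter_upwards [hfin] with j hj
  rw [← (hxs j).sum_add_tsum_nat_add n₀, ← hys.sum_add_tsum_nat_add n₀]
  have e1 : |∑' i, x j (i + n₀)| ≤ ∑' i, B (i + n₀) := by
    rw [← Real.norm_eq_abs]
    exact tsum_of_norm_bounded hBt.hasSum fun i => by rw [Real.norm_eq_abs]; exact hx j _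
  have e2 : |∑' i, y (i + n₀)| ≤ ∑' i, B (i + n₀) := by
    rw [← Real.norm_eq_abs]
    exact tsum_of_norm_bounded hBt.hasSum fun i => by rw [Real.norm_eq_abs]; exact hy _
  have e3 : |∑ n ∈ Finset.range n₀, x j n - ∑ n ∈ Finset.range n₀, y n| ≤
      (∑' n, D n) * ε + η / 2 := by
    rw [← Finset.sum_sub_distrib]
    refine (Finset.abs_sum_le_sum_abs _ _).trans ((Finset.sum_le_sum hj).trans ?_)
    rw [Finset.sum_add_distrib, ← Finset.sum_mul, Finset.sum_const, Finset.card_range,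
      nsmul_eq_mul]
    have h1 : ∑ n ∈ Finset.range n₀, D n ≤ ∑' n, D n := hD.sum_le_tsum _ fun n _ => hD0 n
    have h2 : (n₀ : ℝ) * (η / (2 * (n₀ + 1))) ≤ η / 2 := by
      have h3 : (0 : ℝ) < n₀ + 1 := by positivity
      rw [show (n₀ : ℝ) * (η / (2 * (n₀ + 1))) = (n₀ / (n₀ + 1)) * (η / 2) by field_simp]
      apply mul_le_of_le_one_left (by positivity)
      rw [div_le_one h3]
      linarith
    have h4 := mul_le_mul_of_nonneg_right h1 hε
    linarith only [h4, h2]
  have e4 : (∑ n ∈ Finset.range n₀, x j n + ∑' i, x j (i + n₀)) -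
      (∑ n ∈ Finset.range n₀, y n + ∑' i, y (i + n₀)) =
      (∑ n ∈ Finset.range n₀, x j n - ∑ n ∈ Finset.range n₀, y n) + ∑' i, x j (i + n₀) -
        ∑' i, y (i + n₀) := by ring
  rw [e4]
  have e5 := abs_sub ((∑ n ∈ Finset.range n₀, x j n - ∑ n ∈ Finset.range n₀, y n) +
    ∑' i, x j (i + n₀)) (∑' i, y (i + n₀))
  have e6 := abs_add_le (∑ n ∈ Finset.range n₀, x j n - ∑ n ∈ Finset.range n₀, y n)
    (∑' i, x j (i + n₀))
  linarith only [e6, e5, e3, e2, e1, hn₀]

/-- The standing assumptions on the limit of the systems. -/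
structure LimData (U : Ultrafilter ℕ) (S : ℕ → Sys) {k : ℕ} (b : Fin k → ℝ)
    (w : Fin (k + 1) → ℝ) : Prop where
  gg : ∀ p : ℕ, AsympGG U S (fun x => x ^ p)
  mono : StrictMono b
  b0 : ∀ i, 0 < b i
  b1 : ∀ i, b i ≤ 1
  na : ∀ i, NonAtom U S (b i)
  lim : ∀ l, Tendsto (fun j => (S j).pr (fun x : Fin 2 → (S j).X =>
      lev b ((S j).R (x 0) (x 1)) = l)) U (𝓝 (w l))
  wpos : ∀ l, 0 < w l
  wsum : ∑ l, w l = 1

/-- The value at the level `l` of the covariance with increments `c`. -/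
noncomputable def cumul {k : ℕ} (c : Fin (k + 1) → ℝ) (l : Fin (k + 1)) : ℝ :=
  ∑ l', if l' ≤ l then c l' else 0

lemma cumul_last {k : ℕ} (c : Fin (k + 1) → ℝ) : cumul c (Fin.last k) = ∑ l, c l := by
  unfold cumul
  exact Finset.sum_congr rfl fun l _ => by rw [if_pos (Fin.le_last l)]

lemma abs_cumul_le {k : ℕ} {c : Fin (k + 1) → ℝ} (hc : ∀ l, 0 ≤ c l) (l : Fin (k + 1)) :
    |cumul c l| ≤ ∑ l, c l := by
  unfold cumul
  rw [abs_of_nonneg (Finset.sum_nonneg fun l' _ => by split_ifs <;> simp [hc])]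
  exact Finset.sum_le_sum fun l' _ => by split_ifs <;> simp [hc]

/-- A kernel, given by vectors depending on the disorder and on the configuration, which is close
to the value of its level. -/
structure KerClose (U : Ultrafilter ℕ) (S : ℕ → Sys) {k : ℕ} (b : Fin k → ℝ)
    (c : Fin (k + 1) → ℝ) (τ ε B : ℝ) {K : ℕ → Type} [∀ j, Fintype (K j)]
    (κ : ∀ j, (S j).T → (S j).X → K j → ℝ) : Prop where
  meas : ∀ j x c, Measurable fun t => κ j t x c
  bdd : ∀ j t x, ∑ i, κ j t x i ^ 2 ≤ B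
  off : ∀ᶠ j in (U : Filter ℕ), (S j).tav (n := 2) (fun t x =>
    |gram (κ j t) (κ j t) (x 0) (x 1) - cumul c (lev b ((S j).R (x 0) (x 1)))|) ≤ ε
  diag : ∀ᶠ j in (U : Filter ℕ), (S j).tav (n := 1) (fun t x =>
    |gram (κ j t) (κ j t) (x 0) (x 0) - (cumul c (Fin.last k) + τ)|) ≤ ε

lemma abs_gram_le {X K : Type} [Fintype K] {κ : X → K → ℝ} {B : ℝ}
    (hB : ∀ x, ∑ i, κ x i ^ 2 ≤ B) (x y : X) : |gram κ κ x y| ≤ B := by
  have hB0 : 0 ≤ B := (Finset.sum_nonneg fun i _ => sq_nonneg _).trans (hB x)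
  have h1 : gram κ κ x y ^ 2 ≤ B ^ 2 := by
    have h2 := Finset.sum_mul_sq_le_sq_mul_sq Finset.univ (κ x) (κ y)
    calc gram κ κ x y ^ 2 ≤ (∑ i, κ x i ^ 2) * ∑ i, κ y i ^ 2 := h2
      _ ≤ B * B := mul_le_mul (hB x) (hB y) (Finset.sum_nonneg fun i _ => sq_nonneg _) hB0
      _ = B ^ 2 := by ring
  exact abs_le_of_sq_le_sq h1 hB0

/-- The smoothness and bounds used for the observables. -/
def SB (C : ℝ) (A A' A'' : ℝ → ℝ) : Prop :=
  (∀ x, HasDerivAt A (A' x) x) ∧ (∀ x, HasDerivAt A' (A'' x) x) ∧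
      Continuous A'' ∧ (∀ x, |A x| ≤ C) ∧ (∀ x, |A' x| ≤ C) ∧ ∀ x, |A'' x| ≤ C

section Average

variable (S : Sys) {k : ℕ} {b : Fin k → ℝ} {c : Fin (k + 1) → ℝ} (hc : ∀ l, 0 ≤ c l) {τ : ℝ}
  (hτ : 0 ≤ τ) {K : Type} [Fintype K] [DecidableEq K] {κ : S.T → S.X → K → ℝ}
  (hκ : ∀ x c, Measurable fun t => κ t x c) {B : ℝ} (hB : ∀ t x, ∑ i, κ t x i ^ 2 ≤ B)
  {δ : Type} [Fintype δ] [DecidableEq δ]

include hκ in
lemma measurable_gram (x y : S.X) : Measurable fun t => gram (κ t) (κ t) x y := by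
  unfold gram
  exact Finset.measurable_sum _ fun c _ => (hκ x c).mul (hκ y c)

include hκ in
lemma measurable_gE {J : Type} [Fintype J] [DecidableEq J] (x : J → S.X) {f : J → ℝ → ℝ}
    (hf : ∀ a, BM (f a)) : Measurable fun t => gE (fun a => κ t (x a)) f := by
  unfold gE
  have h : StronglyMeasurable fun p : S.T × (K → ℝ) => ∏ a, f a (lin (fun a => κ p.1 (x a)) p.2 a) := by
    apply Measurable.stronglyMeasurable
    apply Finset.measurable_prod
    intro a _
    apply (hf a).meas.comp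
    unfold lin
    apply Finset.measurable_sum
    intro c _
    exact ((hκ (x a) c).comp measurable_fst).mul ((measurable_pi_apply c).comp measurable_snd)
  exact (h.integral_prod_right' (ν := gM K)).measurable

include hc hτ hκ hB in
/-- The comparison, averaged over the system. -/
lemma avT_cmp {n : ℕ} {Φ : S.T → (δ → S.X) → ℝ} (hΦm : ∀ x, Measurable fun t => Φ t x)
    (hΦ : ∀ t x, |Φ t x| ≤ 1) {A A' A'' : δ → ℝ → ℝ} {v v' v'' : ℝ → ℝ}
    {C α : ℝ} (hC : 1 ≤ C) (hα0 : 0 < α) (hα1 : α ≤ 1) (hA : ∀ i, SB C (A i) (A' i) (A'' i))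
    (hv : (∀ x, HasDerivAt v (v' x) x) ∧ (∀ x, HasDerivAt v' (v'' x) x) ∧
      Continuous v'' ∧ (∀ x, |v x| ≤ α) ∧ (∀ x, |v' x| ≤ C) ∧ ∀ x, |v'' x| ≤ C) {E : ℝ}
    (hoff : S.tav (n := 2) (fun t x =>
      |gram (κ t) (κ t) (x 0) (x 1) - cumul c (lev b (S.R (x 0) (x 1)))|) ≤ E)
    (hdiag : S.tav (n := 1) (fun t x =>
      |gram (κ t) (κ t) (x 0) (x 0) - (cumul c (Fin.last k) + τ)|) ≤ E) :
    |S.avT (fun ω (x : δ ⊕ Fin n → S.X) => Φ (S.π ω) (fun i => x (Sum.inl i)) *
        gE (fun a => κ (S.π ω) (x a)) (fam A v)) -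
      S.avT (fun ω (x : δ ⊕ Fin n → S.X) => Φ (S.π ω) (fun i => x (Sum.inl i)) *
        gE (noisy τ (UL c (S.LMat b x))) (fam A v))| ≤
      C ^ (Fintype.card δ + 2) / α ^ 2 * α ^ n * (1 / 2 * ((Fintype.card δ + n) ^ 2 * E)) +
        2 * C ^ Fintype.card δ * S.avT (fun _ (x : δ ⊕ Fin n → S.X) =>
          ind (¬ Ultra (S.LMat b x))) := by
  have hC0 : 0 < C := by linarith
  set M := C ^ (Fintype.card δ + 2) / α ^ 2 * α ^ n with hM
  have hM0 : 0 ≤ M := by positivity
  have hbm : ∀ a : δ ⊕ Fin n, BM (fam A v a) := by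
    rintro (i | j)
    · exact ⟨(continuous_iff_continuousAt.2 fun x => ((hA i).1 x).continuousAt).measurable, C,
        (hA i).2.2.2.1⟩
    · exact ⟨(continuous_iff_continuousAt.2 fun x => (hv.1 x).continuousAt).measurable, α,
        hv.2.2.2.1⟩
  have hgb : ∀ {K' : Type} [Fintype K'] [DecidableEq K'] (V : δ ⊕ Fin n → K' → ℝ),
      |gE V (fam A v)| ≤ C ^ Fintype.card δ := by
    intro K' _ _ V
    have h := abs_gE_le (U := V) (f := fam A v) (C := Sum.elim (fun _ => C) (fun _ => 1)) (by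
      rintro (i | j) x
      · exact (hA i).2.2.2.1 x
      · exact (hv.2.2.2.1 x).trans hα1)
    rw [Fintype.prod_sum_type] at h
    simpa using h
  have hcomp : ∀ {t : S.T} {x : δ → S.X} {g : ℝ} {G : ℝ}, |g| ≤ G → |Φ t x * g| ≤ G := by
    intro t x g G hg
    rw [abs_mul]
    exact (mul_le_of_le_one_left (abs_nonneg _) (hΦ t x)).trans hg
  have hΦm' : ∀ x : δ ⊕ Fin n → S.X, Measurable fun ω => Φ (S.π ω) (fun i => x (Sum.inl i)) :=
    fun x => (hΦm _).comp S.hπ
  have hm1 : ∀ x : δ ⊕ Fin n → S.X, Measurable fun ω => Φ (S.π ω) (fun i => x (Sum.inl i)) *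
      gE (fun a => κ (S.π ω) (x a)) (fam A v) := fun x =>
    (hΦm' x).mul ((measurable_gE S hκ x hbm).comp S.hπ)
  have hm2 : ∀ x : δ ⊕ Fin n → S.X, Measurable fun ω => Φ (S.π ω) (fun i => x (Sum.inl i)) *
      gE (noisy τ (UL c (S.LMat b x))) (fam A v) := fun x => (hΦm' x).mul measurable_const
  rw [← S.avT_sub hm1 (fun ω x => hcomp (hgb _)) hm2 (fun ω x => hcomp (hgb _))]
  -- the pointwise bound
  set Δ : (δ ⊕ Fin n) → (δ ⊕ Fin n) → S.T → (δ ⊕ Fin n → S.X) → ℝ := fun a a' t x =>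
    |gram (κ t) (κ t) (x a) (x a') - (cumul c (S.LMat b x a a') + if a = a' then τ else 0)| with hΔ
  have hB0 : ∀ t x y, |gram (κ t) (κ t) x y| ≤ B := fun t => abs_gram_le (hB t)
  have hΔb : ∀ a a' t x, |Δ a a' t x| ≤ B + (∑ l, c l + τ) := by
    intro a a' t x
    simp only [hΔ, abs_abs]
    refine (abs_sub _ _).trans (add_le_add (hB0 t _ _) ((abs_add_le _ _).trans
      (add_le_add (abs_cumul_le hc _) ?_)))
    split_ifs
    · rw [abs_of_nonneg hτ]
    · rw [abs_zero]; exact hτ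
  have hΔm : ∀ a a' x, Measurable fun t => Δ a a' t x := by
    intro a a' x
    simp only [hΔ]
    exact ((measurable_gram S hκ _ _).sub_const _).abs
  have hpt : ∀ ω (x : δ ⊕ Fin n → S.X), |Φ (S.π ω) (fun i => x (Sum.inl i)) *
      gE (fun a => κ (S.π ω) (x a)) (fam A v) - Φ (S.π ω) (fun i => x (Sum.inl i)) *
      gE (noisy τ (UL c (S.LMat b x))) (fam A v)| ≤
      (M * (1 / 2)) * (∑ p : (δ ⊕ Fin n) × (δ ⊕ Fin n), Δ p.1 p.2 (S.π ω) x) +
        (2 * C ^ Fintype.card δ) * ind (¬ Ultra (S.LMat b x)) := by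
    intro ω x
    rw [← mul_sub]
    apply hcomp
    have hΔ0 : 0 ≤ ∑ p : (δ ⊕ Fin n) × (δ ⊕ Fin n), Δ p.1 p.2 (S.π ω) x :=
      Finset.sum_nonneg fun p _ => abs_nonneg _
    by_cases hL : Ultra (S.LMat b x)
    · have h := gE_cmp (fun a => κ (S.π ω) (x a)) hc hτ hL hC hα0 hα1 hA hv
      rw [ind_of_not (not_not.2 hL), mul_zero, add_zero]
      refine h.trans (le_of_eq ?_)
      rw [Fintype.sum_prod_type, ← hM, ← mul_assoc]
      rfl
    · rw [ind_of hL, mul_one]
      have h1 := hgb (fun a => κ (S.π ω) (x a))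
      have h2 := hgb (noisy τ (UL c (S.LMat b x)))
      have h3 := abs_sub (gE (fun a => κ (S.π ω) (x a)) (fam A v))
        (gE (noisy τ (UL c (S.LMat b x))) (fam A v))
      have h4 : 0 ≤ (M * (1 / 2)) * (∑ p : (δ ⊕ Fin n) × (δ ⊕ Fin n), Δ p.1 p.2 (S.π ω) x) := by
        (clear * - hC hα0; positivity)
      linarith only [h4, h3, h2, h1]
  have hmS : ∀ x : δ ⊕ Fin n → S.X, Measurable fun ω =>
      ∑ p : (δ ⊕ Fin n) × (δ ⊕ Fin n), Δ p.1 p.2 (S.π ω) x := fun x =>
    Finset.measurable_sum _ fun p _ => (hΔm _ _ x).comp S.hπ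
  have hbS : ∀ ω (x : δ ⊕ Fin n → S.X), |∑ p : (δ ⊕ Fin n) × (δ ⊕ Fin n), Δ p.1 p.2 (S.π ω) x| ≤
      ∑ _p : (δ ⊕ Fin n) × (δ ⊕ Fin n), (B + (∑ l, c l + τ)) := fun ω x =>
    (Finset.abs_sum_le_sum_abs _ _).trans (Finset.sum_le_sum fun p _ => hΔb _ _ _ _)
  have hindb : ∀ (_ω : S.Ω) (x : δ ⊕ Fin n → S.X),
      |(2 * C ^ Fintype.card δ) * ind (¬ Ultra (S.LMat b x))| ≤ 2 * C ^ Fintype.card δ := by
    intro ω x
    rw [abs_mul, abs_of_nonneg (by positivity : 0 ≤ 2 * C ^ Fintype.card δ)]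
    exact mul_le_of_le_one_right (by positivity) (abs_ind_le_one _)
  have hb1 : ∀ ω (x : δ ⊕ Fin n → S.X),
      |(M * (1 / 2)) * (∑ p : (δ ⊕ Fin n) × (δ ⊕ Fin n), Δ p.1 p.2 (S.π ω) x)| ≤
      (M * (1 / 2)) * ∑ _p : (δ ⊕ Fin n) × (δ ⊕ Fin n), (B + (∑ l, c l + τ)) := by
    intro ω x
    rw [abs_mul, abs_of_nonneg (by positivity : 0 ≤ M * (1 / 2))]
    exact mul_le_mul_of_nonneg_left (hbS ω x) (by positivity)
  have key := S.abs_avT_le (G := fun ω (x : δ ⊕ Fin n → S.X) =>
      Φ (S.π ω) (fun i => x (Sum.inl i)) *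
      gE (fun a => κ (S.π ω) (x a)) (fam A v) - Φ (S.π ω) (fun i => x (Sum.inl i)) *
      gE (noisy τ (UL c (S.LMat b x))) (fam A v))
    (H := fun ω x => (M * (1 / 2)) * (∑ p : (δ ⊕ Fin n) × (δ ⊕ Fin n), Δ p.1 p.2 (S.π ω) x) +
        (2 * C ^ Fintype.card δ) * ind (¬ Ultra (S.LMat b x)))
    (fun x => (hm1 x).sub (hm2 x)) (C := C ^ Fintype.card δ + C ^ Fintype.card δ)
    (fun ω x => (abs_sub _ _).trans (add_le_add (hcomp (hgb _)) (hcomp (hgb _))))
    (fun x => ((hmS x).const_mul _).add measurable_const)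
    (fun ω x => (abs_add_le _ _).trans (add_le_add (hb1 ω x) (hindb ω x))) hpt
  have key2 := S.avT_sum (C := B + (∑ l, c l + τ)) (Finset.univ : Finset ((δ ⊕ Fin n) × (δ ⊕ Fin n)))
      (G := fun p ω (x : δ ⊕ Fin n → S.X) => Δ p.1 p.2 (S.π ω) x)
      (fun p x => (hΔm _ _ x).comp S.hπ) (fun p ω x => hΔb _ _ _ _)
  rw [S.avT_add (G := fun ω (x : δ ⊕ Fin n → S.X) =>
      (M * (1 / 2)) * (∑ p : (δ ⊕ Fin n) × (δ ⊕ Fin n), Δ p.1 p.2 (S.π ω) x))
    (H := fun _ (x : δ ⊕ Fin n → S.X) => (2 * C ^ Fintype.card δ) * ind (¬ Ultra (S.LMat b x)))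
    (fun x => (hmS x).const_mul _) hb1 (fun x => measurable_const) hindb,
    S.avT_const_mul, S.avT_const_mul, key2] at key
  refine key.trans (add_le_add ?_ (le_of_eq (by ring)))
  -- the averages of the increments
  have hΔav : ∀ p : (δ ⊕ Fin n) × (δ ⊕ Fin n),
      S.avT (fun ω (x : δ ⊕ Fin n → S.X) => Δ p.1 p.2 (S.π ω) x) ≤ E := by
    rintro ⟨a, a'⟩
    by_cases h : a = a'
    · subst h
      have h1 := S.avT_comp (J := Fin 1) (J' := δ ⊕ Fin n) (fun _ => a)
        (fun _ _ _ => Subsingleton.elim _ _) (fun t (x : Fin 1 → S.X) =>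
        |gram (κ t) (κ t) (x 0) (x 0) - (cumul c (Fin.last k) + τ)|)
      have h2 := S.avT_eq (Equiv.refl (Fin 1)) (fun t (x : Fin 1 → S.X) =>
        |gram (κ t) (κ t) (x 0) (x 0) - (cumul c (Fin.last k) + τ)|)
      rw [h2] at h1
      refine le_trans (le_of_eq ?_) hdiag
      refine Eq.trans ?_ h1
      simp only [hΔ, Sys.LMat, if_true]
    · have hinj : Function.Injective (![a, a'] : Fin 2 → δ ⊕ Fin n) := by
        intro i j hij
        fin_cases i <;> fin_cases j
        · rfl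
        · exact absurd hij h
        · exact absurd hij.symm h
        · rfl
      have h1 := S.avT_comp (J := Fin 2) (J' := δ ⊕ Fin n) ![a, a'] hinj
        (fun t (x : Fin 2 → S.X) =>
        |gram (κ t) (κ t) (x 0) (x 1) - cumul c (lev b (S.R (x 0) (x 1)))|)
      have h2 := S.avT_eq (Equiv.refl (Fin 2)) (fun t (x : Fin 2 → S.X) =>
        |gram (κ t) (κ t) (x 0) (x 1) - cumul c (lev b (S.R (x 0) (x 1)))|)
      rw [h2] at h1
      refine le_trans (le_of_eq ?_) hoff
      refine Eq.trans ?_ h1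
      simp only [hΔ, Sys.LMat, if_neg h, add_zero]
      rfl
  have hsum : ∑ p : (δ ⊕ Fin n) × (δ ⊕ Fin n),
      S.avT (fun ω (x : δ ⊕ Fin n → S.X) => Δ p.1 p.2 (S.π ω) x) ≤
      (Fintype.card δ + n) ^ 2 * E := by
    refine (Finset.sum_le_sum fun p _ => hΔav p).trans (le_of_eq ?_)
    rw [Finset.sum_const, Finset.card_univ, Fintype.card_prod, Fintype.card_sum,
      Fintype.card_fin, nsmul_eq_mul]
    push_cast
    ring
  calc M * (1 / 2) * _ ≤ M * (1 / 2) * ((Fintype.card δ + n) ^ 2 * E) :=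
        mul_le_mul_of_nonneg_left hsum (by positivity)
    _ = _ := by ring

end Average

end Vale.Agent.P157.Par
end

section

open MeasureTheory ProbabilityTheory Filter Topology Finset

namespace Vale.Agent.P157.Par

set_option linter.unusedSectionVars false

open Vale.Agent.P367.GT (gM)

/-! ### Series representations for one system -/

section Series

variable (S : Sys) {K : Type} [Fintype K] [DecidableEq K] {κ : S.T → S.X → K → ℝ}
  (hκ : ∀ x c, Measurable fun t => κ t x c) {δ : Type} [Fintype δ] [DecidableEq δ]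

lemma zbar_eq {W : ℝ → ℝ} (ω : S.Ω) (y : S.X → ℝ) :
    1 - ∑ x, S.w ω x * (1 - W (y x)) = ∑ x, S.w ω x * W (y x) := by
  have h := S.w1 ω
  simp only [mul_sub, mul_one, Finset.sum_sub_distrib, h]
  ring

lemma vbar_mem {W : ℝ → ℝ} {a : ℝ} (hWa : ∀ x, a ≤ W x) (hW1 : ∀ x, W x ≤ 1) (ω : S.Ω)
    (y : S.X → ℝ) : 0 ≤ ∑ x, S.w ω x * (1 - W (y x)) ∧ ∑ x, S.w ω x * (1 - W (y x)) ≤ 1 - a := by
  constructor
  · exact Finset.sum_nonneg fun x _ => mul_nonneg (S.w0 ω x) (by linarith [hW1 (y x)])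
  · calc ∑ x, S.w ω x * (1 - W (y x)) ≤ ∑ x, S.w ω x * (1 - a) :=
          Finset.sum_le_sum fun x _ => mul_le_mul_of_nonneg_left (by linarith [hWa (y x)]) (S.w0 ω x)
      _ = 1 - a := by rw [← Finset.sum_mul, S.w1, one_mul]

include hκ

/-- The series of a ratio of averages. -/
theorem ratio_eq {Φ : S.T → (δ → S.X) → ℝ} (hΦm : ∀ x, Measurable fun t => Φ t x)
    (hΦ : ∀ t x, |Φ t x| ≤ 1) {A : δ → ℝ → ℝ} (hA : ∀ i, BM (A i)) {W : ℝ → ℝ}
    (hWm : Measurable W) {a : ℝ} (ha : 0 < a) (hWa : ∀ x, a ≤ W x) (hW1 : ∀ x, W x ≤ 1) (e : ℕ) :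
    ∫ z : S.Ω × (K → ℝ), (∑ x : δ → S.X, Φ (S.π z.1) x *
        ∏ i, (S.w z.1 (x i) * A i (lin (κ (S.π z.1)) z.2 (x i)))) /
        (∑ x, S.w z.1 x * W (lin (κ (S.π z.1)) z.2 x)) ^ (e + 1) ∂(S.P.prod (gM K)) =
      ∑' n : ℕ, ((n + e).choose e : ℝ) * S.avT (fun ω (x : δ ⊕ Fin n → S.X) =>
        Φ (S.π ω) (fun i => x (Sum.inl i)) *
        gE (fun a => κ (S.π ω) (x a)) (fam A fun x => 1 - W x)) := by
  obtain ⟨C, hC0, hC⟩ := exists_bound hA
  have ha1 : a ≤ 1 := (hWa 0).trans (hW1 0)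
  have bv : BM fun x => 1 - W x :=
    ⟨measurable_const.sub hWm, 1, fun x => by
      rw [abs_le]; constructor <;> linarith [hWa x, hW1 x]⟩
  have hfam : ∀ (n : ℕ) (x : δ ⊕ Fin n), BM (fam A (fun x => 1 - W x) x) := by
    rintro n (i | j)
    · exact hA i
    · exact bv
  -- each term
  have hterm : ∀ n : ℕ, S.avT (fun ω (x : δ ⊕ Fin n → S.X) =>
        Φ (S.π ω) (fun i => x (Sum.inl i)) *
        gE (fun a => κ (S.π ω) (x a)) (fam A fun x => 1 - W x)) =
      ∫ z : S.Ω × (K → ℝ), (∑ x : δ → S.X, Φ (S.π z.1) x *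
        ∏ i, (S.w z.1 (x i) * A i (lin (κ (S.π z.1)) z.2 (x i)))) *
        (∑ x, S.w z.1 x * (1 - W (lin (κ (S.π z.1)) z.2 x))) ^ n ∂(S.P.prod (gM K)) := by
    intro n
    rw [← moment S hκ (F := fun t (x : δ ⊕ Fin n → S.X) => Φ t (fun i => x (Sum.inl i)))
      (fun x => hΦm _) (fun t x => hΦ t _) (hfam n)]
    congr 1
    funext z
    rw [prod_sum_pow n (Φ (S.π z.1))
      (fun i x => S.w z.1 x * A i (lin (κ (S.π z.1)) z.2 x))
      (fun x => S.w z.1 x * (1 - W (lin (κ (S.π z.1)) z.2 x)))]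
    apply Finset.sum_congr rfl
    intro x _
    rw [Fintype.prod_sum_type, Fintype.prod_sum_type, Finset.prod_mul_distrib,
      Finset.prod_mul_distrib]
    simp only [fam, Sum.elim_inl, Sum.elim_inr]
    ring
  simp_rw [hterm, ← integral_const_mul]
  -- measurability and bounds
  have hmx : ∀ x : S.X, Measurable fun z : S.Ω × (K → ℝ) => lin (κ (S.π z.1)) z.2 x :=
    measurable_field S hκ
  have hmN : Measurable fun z : S.Ω × (K → ℝ) => ∑ x : δ → S.X, Φ (S.π z.1) x *
        ∏ i, (S.w z.1 (x i) * A i (lin (κ (S.π z.1)) z.2 (x i))) := by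
    apply Finset.measurable_sum
    intro x _
    refine ((hΦm x).comp (S.hπ.comp measurable_fst)).mul (Finset.measurable_prod _ fun i _ => ?_)
    exact ((S.hw _).comp measurable_fst).mul ((hA i).meas.comp (hmx _))
  have hmV : Measurable fun z : S.Ω × (K → ℝ) =>
      ∑ x, S.w z.1 x * (1 - W (lin (κ (S.π z.1)) z.2 x)) := by
    apply Finset.measurable_sum
    intro x _
    exact ((S.hw _).comp measurable_fst).mul (measurable_const.sub (hWm.comp (hmx _)))
  have hbN : ∀ z : S.Ω × (K → ℝ), |∑ x : δ → S.X, Φ (S.π z.1) x *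
        ∏ i, (S.w z.1 (x i) * A i (lin (κ (S.π z.1)) z.2 (x i)))| ≤ C ^ Fintype.card δ := by
    intro z
    refine (Finset.abs_sum_le_sum_abs _ _).trans ?_
    have h1 : ∀ x : δ → S.X, |Φ (S.π z.1) x *
        ∏ i, (S.w z.1 (x i) * A i (lin (κ (S.π z.1)) z.2 (x i)))| ≤
        (∏ i, S.w z.1 (x i)) * C ^ Fintype.card δ := by
      intro x
      rw [Finset.prod_mul_distrib, abs_mul, abs_mul, abs_of_nonneg (S.prod_wT_nonneg _ _)]
      have h2 : |∏ i, A i (lin (κ (S.π z.1)) z.2 (x i))| ≤ C ^ (univ : Finset δ).card :=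
        abs_prod_le fun i _ => hC i _
      rw [Finset.card_univ] at h2
      calc |Φ (S.π z.1) x| * ((∏ i, S.w z.1 (x i)) * |∏ i, A i (lin (κ (S.π z.1)) z.2 (x i))|) ≤
          1 * ((∏ i, S.w z.1 (x i)) * C ^ Fintype.card δ) := by
            apply mul_le_mul (hΦ _ _) _ (mul_nonneg (S.prod_wT_nonneg _ _) (abs_nonneg _))
              zero_le_one
            exact mul_le_mul_of_nonneg_left h2 (S.prod_wT_nonneg _ _)
        _ = _ := one_mul _
    refine (Finset.sum_le_sum fun x _ => h1 x).trans ?_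
    rw [← Finset.sum_mul, S.sum_prod_w, one_mul]
  set N : S.Ω × (K → ℝ) → ℝ := fun z => ∑ x : δ → S.X, Φ (S.π z.1) x *
        ∏ i, (S.w z.1 (x i) * A i (lin (κ (S.π z.1)) z.2 (x i))) with hN
  set V : S.Ω × (K → ℝ) → ℝ := fun z =>
      ∑ x, S.w z.1 x * (1 - W (lin (κ (S.π z.1)) z.2 x)) with hV
  have hV0 : ∀ z, 0 ≤ V z ∧ V z ≤ 1 - a := fun z =>
    vbar_mem S hWa hW1 z.1 fun x => lin (κ (S.π z.1)) z.2 x
  have hbt : ∀ (n : ℕ) z, ‖((n + e).choose e : ℝ) * (N z * V z ^ n)‖ ≤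
      C ^ Fintype.card δ * (((n + e).choose e : ℝ) * (1 - a) ^ n) := by
    intro n z
    rw [Real.norm_eq_abs, abs_mul, abs_mul, Nat.abs_cast, abs_pow, abs_of_nonneg (hV0 z).1]
    have h1 := pow_le_pow_left₀ (hV0 z).1 (hV0 z).2 n
    calc ((n + e).choose e : ℝ) * (|N z| * V z ^ n) ≤
        ((n + e).choose e : ℝ) * (C ^ Fintype.card δ * (1 - a) ^ n) := by
          gcongr
          · exact pow_nonneg (hV0 z).1 n
          · exact hbN z
      _ = _ := by ring
  have hint : ∀ n : ℕ, Integrable (fun z => ((n + e).choose e : ℝ) * (N z * V z ^ n))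
      (S.P.prod (gM K)) := fun n =>
    Integrable.of_bound ((hmN.mul (hmV.pow_const n)).const_mul _).aestronglyMeasurable _
      (Eventually.of_forall (hbt n))
  have hsumg : Summable fun n : ℕ => ((n + e).choose e : ℝ) * (1 - a) ^ n :=
    summable_choose_mul_geometric_of_norm_lt_one e (by
      rw [Real.norm_eq_abs, abs_of_nonneg (by linarith)]; linarith)
  have hsum : Summable fun n : ℕ => ∫ z, ‖((n + e).choose e : ℝ) * (N z * V z ^ n)‖
      ∂(S.P.prod (gM K)) := by
    refine Summable.of_nonneg_of_le (fun n => integral_nonneg fun z => norm_nonneg _) (fun n => ?_)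
      (hsumg.mul_left (C ^ Fintype.card δ))
    have h1 := integral_mono (hint n).norm (integrable_const _) (hbt n)
    rwa [integral_const, probReal_univ, one_smul] at h1
  rw [integral_tsum_of_summable_integral_norm hint hsum]
  congr 1
  funext z
  have h1 := tsum_choose_mul_geometric_of_norm_lt_one (𝕜 := ℝ) e (r := V z) (by
    rw [Real.norm_eq_abs, abs_of_nonneg (hV0 z).1]; linarith [(hV0 z).2])
  have h2 : ∀ n : ℕ, ((n + e).choose e : ℝ) * (N z * V z ^ n) =
      N z * (((n + e).choose e : ℝ) * V z ^ n) := fun n => by ring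
  simp_rw [h2]
  rw [tsum_mul_left, h1, hV]
  simp only
  rw [zbar_eq S z.1 fun x => lin (κ (S.π z.1)) z.2 x]
  rw [div_eq_mul_one_div]

/-- The series of the logarithm of an average. -/
theorem log_eq {W : ℝ → ℝ}
    (hWm : Measurable W) {a : ℝ} (ha : 0 < a) (hWa : ∀ x, a ≤ W x) (hW1 : ∀ x, W x ≤ 1) :
    ∫ z : S.Ω × (K → ℝ), Real.log (∑ x, S.w z.1 x * W (lin (κ (S.π z.1)) z.2 x))
        ∂(S.P.prod (gM K)) =
      - ∑' n : ℕ, 1 / ((n : ℝ) + 1) * S.avT (fun ω (x : Empty ⊕ Fin (n + 1) → S.X) =>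
        (fun _ _ => (1 : ℝ)) (S.π ω) (fun i => x (Sum.inl i)) *
        gE (fun a => κ (S.π ω) (x a)) (fam noA fun x => 1 - W x)) := by
  have ha1 : a ≤ 1 := (hWa 0).trans (hW1 0)
  have bv : BM fun x => 1 - W x :=
    ⟨measurable_const.sub hWm, 1, fun x => by
      rw [abs_le]; constructor <;> linarith [hWa x, hW1 x]⟩
  have hfam : ∀ (n : ℕ) (x : Empty ⊕ Fin n), BM (fam noA (fun x => 1 - W x) x) := by
    rintro n (i | j)
    · exact i.elim
    · exact bv
  have hterm : ∀ n : ℕ, S.avT (fun ω (x : Empty ⊕ Fin n → S.X) =>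
        (fun _ _ => (1 : ℝ)) (S.π ω) (fun i => x (Sum.inl i)) *
        gE (fun a => κ (S.π ω) (x a)) (fam noA fun x => 1 - W x)) =
      ∫ z : S.Ω × (K → ℝ),
        (∑ x, S.w z.1 x * (1 - W (lin (κ (S.π z.1)) z.2 x))) ^ n ∂(S.P.prod (gM K)) := by
    intro n
    rw [← moment S hκ (F := fun t (x : Empty ⊕ Fin n → S.X) =>
      (fun _ _ => (1 : ℝ)) t (fun i => x (Sum.inl i)))
      (fun x => measurable_const) (B := 1) (fun t x => by simp) (hfam n)]
    congr 1
    funext z
    have h := prod_sum_pow (δ := Empty) n (fun _ => (1 : ℝ)) (fun i (_ : S.X) => i.elim)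
      (fun x => S.w z.1 x * (1 - W (lin (κ (S.π z.1)) z.2 x)))
    simp only [Finset.univ_eq_empty, Finset.prod_empty, Finset.univ_unique, mul_one,
      Finset.sum_const, Finset.card_singleton, one_smul, one_mul] at h
    rw [h]
    apply Finset.sum_congr rfl
    intro x _
    rw [Fintype.prod_sum_type, Fintype.prod_sum_type]
    simp only [fam, Sum.elim_inl, Sum.elim_inr, Finset.univ_eq_empty, Finset.prod_empty, one_mul]
    rw [Finset.prod_mul_distrib]
  simp_rw [hterm, ← integral_const_mul]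
  have hmx : ∀ x : S.X, Measurable fun z : S.Ω × (K → ℝ) => lin (κ (S.π z.1)) z.2 x :=
    measurable_field S hκ
  have hmV : Measurable fun z : S.Ω × (K → ℝ) =>
      ∑ x, S.w z.1 x * (1 - W (lin (κ (S.π z.1)) z.2 x)) := by
    apply Finset.measurable_sum
    intro x _
    exact ((S.hw _).comp measurable_fst).mul (measurable_const.sub (hWm.comp (hmx _)))
  set V : S.Ω × (K → ℝ) → ℝ := fun z =>
      ∑ x, S.w z.1 x * (1 - W (lin (κ (S.π z.1)) z.2 x)) with hV
  have hV0 : ∀ z, 0 ≤ V z ∧ V z ≤ 1 - a := fun z =>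
    vbar_mem S hWa hW1 z.1 fun x => lin (κ (S.π z.1)) z.2 x
  have hbt : ∀ (n : ℕ) z, ‖1 / ((n : ℝ) + 1) * V z ^ (n + 1)‖ ≤ (1 - a) ^ n := by
    intro n z
    rw [Real.norm_eq_abs, abs_mul, abs_pow, abs_of_nonneg (hV0 z).1,
      abs_of_nonneg (by positivity : (0:ℝ) ≤ 1 / ((n : ℝ) + 1))]
    have h1 := pow_le_pow_left₀ (hV0 z).1 (hV0 z).2 (n + 1)
    have h4 : (1 - a) ^ (n + 1) ≤ (1 - a) ^ n := by
      rw [pow_succ]
      exact mul_le_of_le_one_right (pow_nonneg (by linarith) n) (by linarith)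
    have h5 : 1 / ((n : ℝ) + 1) ≤ 1 := by
      rw [div_le_one (by positivity)]; linarith [Nat.cast_nonneg (α := ℝ) n]
    have h6 : 0 ≤ V z ^ (n + 1) := pow_nonneg (hV0 z).1 _
    calc 1 / ((n : ℝ) + 1) * V z ^ (n + 1) ≤ 1 * V z ^ (n + 1) :=
          mul_le_mul_of_nonneg_right h5 h6
      _ ≤ (1 - a) ^ n := by rw [one_mul]; exact h1.trans h4
  have hint : ∀ n : ℕ, Integrable (fun z => 1 / ((n : ℝ) + 1) * V z ^ (n + 1))
      (S.P.prod (gM K)) := fun n =>
    Integrable.of_bound ((hmV.pow_const (n + 1)).const_mul _).aestronglyMeasurable _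
      (Eventually.of_forall (hbt n))
  have hsumg : Summable fun n : ℕ => (1 - a) ^ n :=
    summable_geometric_of_lt_one (by linarith) (by linarith)
  have hsum : Summable fun n : ℕ => ∫ z, ‖1 / ((n : ℝ) + 1) * V z ^ (n + 1)‖
      ∂(S.P.prod (gM K)) := by
    refine Summable.of_nonneg_of_le (fun n => integral_nonneg fun z => norm_nonneg _) (fun n => ?_)
      hsumg
    have h1 := integral_mono (hint n).norm (integrable_const _) (hbt n)
    rwa [integral_const, probReal_univ, one_smul] at h1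
  rw [integral_tsum_of_summable_integral_norm hint hsum, ← integral_neg]
  congr 1
  funext z
  have h1 := Real.hasSum_pow_div_log_of_abs_lt_one (x := V z)
    (by rw [abs_of_nonneg (hV0 z).1]; linarith [(hV0 z).2])
  have h2 : ∀ n : ℕ, 1 / ((n : ℝ) + 1) * V z ^ (n + 1) = V z ^ (n + 1) / ((n : ℝ) + 1) :=
    fun n => by ring
  simp_rw [h2]
  rw [h1.tsum_eq, neg_neg, hV]
  simp only
  rw [zbar_eq S z.1 fun x => lin (κ (S.π z.1)) z.2 x]

end Series

end Vale.Agent.P157.Par
end

section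

open MeasureTheory ProbabilityTheory Filter Topology Finset

namespace Vale.Agent.P157.Par

set_option linter.unusedSectionVars false

open Vale.Agent.P367.GT (gM)

/-- Average of the indicator of the non ultrametric matrices. -/
lemma tendsto_ind_ultra {U : Ultrafilter ℕ} {S : ℕ → Sys} {k : ℕ} {b : Fin k → ℝ}
    {w : Fin (k + 1) → ℝ} (h : LimData U S b w) {J : Type} [Fintype J] [DecidableEq J] :
    Tendsto (fun j => (S j).avT (fun _ (x : J → (S j).X) => ind (¬ Ultra ((S j).LMat b x)))) U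
      (𝓝 0) := by
  have h1 := tendsto_not_ultra h.gg h.mono h.na (Fintype.equivFin J)
  refine h1.congr fun j => ?_
  exact ((S j).avT_eq (Fintype.equivFin J) (fun _ x => ind (¬ Ultra ((S j).LMat b x)))).symm

section Limit

variable {U : Ultrafilter ℕ} {S : ℕ → Sys} {k : ℕ} {b : Fin k → ℝ} {w : Fin (k + 1) → ℝ}
  (hL : LimData U S b w) {c : Fin (k + 1) → ℝ} (hc : ∀ l, 0 ≤ c l) {τ ε B : ℝ} (hτ : 0 ≤ τ)
  {K : ℕ → Type} [∀ j, Fintype (K j)] [∀ j, DecidableEq (K j)]
  {κ : ∀ j, (S j).T → (S j).X → K j → ℝ} (hκ : KerClose U S b c τ ε B κ)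
  {δ : Type} [Fintype δ] [DecidableEq δ] {Φ : ∀ j, (S j).T → (δ → (S j).X) → ℝ}
  (hΦm : ∀ j x, Measurable fun t => Φ j t x) (hΦ : ∀ j t x, |Φ j t x| ≤ 1)
  {𝓐 : Arr k w δ} (h𝓐 : ∀ (ι : Type) [Fintype ι] [DecidableEq ι]
      (A : LM k (δ ⊕ ι) → ℝ), Tendsto (fun j => (S j).avT
        (fun ω (x : δ ⊕ ι → (S j).X) => Φ j ((S j).π ω) (fun i => x (Sum.inl i)) *
          A ((S j).LMat b x))) U (𝓝 (𝓐.E ι A)))

include hL hc hτ hκ hΦm hΦ h𝓐

/-- The limit of a term of the series. -/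
lemma term_lim {A A' A'' : δ → ℝ → ℝ} {v v' v'' : ℝ → ℝ}
    {C α : ℝ} (hC : 1 ≤ C) (hα0 : 0 < α) (hα1 : α ≤ 1) (hA : ∀ i, SB C (A i) (A' i) (A'' i))
    (hv : (∀ x, HasDerivAt v (v' x) x) ∧ (∀ x, HasDerivAt v' (v'' x) x) ∧
      Continuous v'' ∧ (∀ x, |v x| ≤ α) ∧ (∀ x, |v' x| ≤ C) ∧ ∀ x, |v'' x| ≤ C) (n : ℕ) :
    ∀ η > 0, ∀ᶠ j in (U : Filter ℕ),
      |(S j).avT (fun ω (x : δ ⊕ Fin n → (S j).X) => Φ j ((S j).π ω) (fun i => x (Sum.inl i)) *
        gE (fun a => κ j ((S j).π ω) (x a)) (fam A v)) -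
      𝓐.T c (fun _ => 1) (fun i => heat τ (A i)) (heat τ v) (Fin n)| ≤
      C ^ (Fintype.card δ + 2) / α ^ 2 * α ^ n * (1 / 2 * (Fintype.card δ + n) ^ 2) * ε + η := by
  intro η hη
  have hC0 : 0 < C := by linarith
  have hbm : ∀ a : δ ⊕ Fin n, BM (fam A v a) := by
    rintro (i | j)
    · exact ⟨(continuous_iff_continuousAt.2 fun x => ((hA i).1 x).continuousAt).measurable, C,
        (hA i).2.2.2.1⟩
    · exact ⟨(continuous_iff_continuousAt.2 fun x => (hv.1 x).continuousAt).measurable, α,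
        hv.2.2.2.1⟩
  have e1 : 𝓐.T c (fun _ => 1) (fun i => heat τ (A i)) (heat τ v) (Fin n) =
      𝓐.E (Fin n) (fun L => gE (noisy τ (UL c L)) (fam A v)) := by
    unfold Arr.T
    congr 1
    funext L
    rw [one_mul, gE_noisy τ _ hbm]
    congr 1
    funext a
    rcases a with i | j <;> rfl
  have h1 := h𝓐 (Fin n) (fun L => gE (noisy τ (UL c L)) (fam A v))
  rw [← e1] at h1
  have h2 := tendsto_ind_ultra (J := δ ⊕ Fin n) hL
  have h3 := (Metric.tendsto_nhds.1 h1) (η / 2) (by positivity)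
  have h4 : Tendsto (fun j => 2 * C ^ Fintype.card δ * (S j).avT
      (fun _ (x : δ ⊕ Fin n → (S j).X) => ind (¬ Ultra ((S j).LMat b x)))) U (𝓝 0) := by
    have := h2.const_mul (2 * C ^ Fintype.card δ)
    rwa [mul_zero] at this
  have h5 := (tendsto_order.1 h4).2 (η / 2) (by positivity)
  filter_upwards [h3, h5, hκ.off, hκ.diag] with j h3 h5 h6 h7
  have h8 := avT_cmp (S j) hc hτ (hκ.meas j) (hκ.bdd j) (hΦm j) (hΦ j) hC hα0 hα1 hA hv
    (n := n) h6 h7
  rw [Real.dist_eq] at h3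
  have h9 := abs_sub_le ((S j).avT (fun ω (x : δ ⊕ Fin n → (S j).X) =>
      Φ j ((S j).π ω) (fun i => x (Sum.inl i)) *
        gE (fun a => κ j ((S j).π ω) (x a)) (fam A v)))
    ((S j).avT (fun ω (x : δ ⊕ Fin n → (S j).X) => Φ j ((S j).π ω) (fun i => x (Sum.inl i)) *
        gE (noisy τ (UL c ((S j).LMat b x))) (fam A v)))
    (𝓐.T c (fun _ => 1) (fun i => heat τ (A i)) (heat τ v) (Fin n))
  have e2 : C ^ (Fintype.card δ + 2) / α ^ 2 * α ^ n * (1 / 2 * ((Fintype.card δ + n) ^ 2 * ε)) =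
    C ^ (Fintype.card δ + 2) / α ^ 2 * α ^ n * (1 / 2 * (Fintype.card δ + n) ^ 2) * ε := by ring
  rw [e2] at h8
  linarith only [h9, h8, h5, h3]

end Limit

/-- The bounds of a term. -/
lemma term_bound (S : Sys) {K : Type} [Fintype K] [DecidableEq K] {κ : S.T → S.X → K → ℝ}
    (hκ : ∀ x c, Measurable fun t => κ t x c) {δ : Type} [Fintype δ] [DecidableEq δ]
    {Φ : S.T → (δ → S.X) → ℝ} (hΦm : ∀ x, Measurable fun t => Φ t x)
    (hΦ : ∀ t x, |Φ t x| ≤ 1) {A : δ → ℝ → ℝ} {v : ℝ → ℝ} {C α : ℝ} (hAm : ∀ i, Measurable (A i))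
    (hA : ∀ i x, |A i x| ≤ C) (hvm : Measurable v) (hv : ∀ x, |v x| ≤ α) (n : ℕ) :
    |S.avT (fun ω (x : δ ⊕ Fin n → S.X) => Φ (S.π ω) (fun i => x (Sum.inl i)) *
        gE (fun a => κ (S.π ω) (x a)) (fam A v))| ≤ C ^ Fintype.card δ * α ^ n := by
  have hbm : ∀ a : δ ⊕ Fin n, BM (fam A v a) := by
    rintro (i | j)
    · exact ⟨hAm i, C, hA i⟩
    · exact ⟨hvm, α, hv⟩
  apply S.abs_avT_le_const
  · intro x
    exact ((hΦm _).comp S.hπ).mul ((measurable_gE S hκ x hbm).comp S.hπ)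
  · intro ω x
    rw [abs_mul]
    have h := abs_gE_le (U := fun a => κ (S.π ω) (x a)) (f := fam A v)
      (C := Sum.elim (fun _ => C) (fun _ => α)) (by
      rintro (i | j) y
      · exact hA i y
      · exact hv y)
    rw [Fintype.prod_sum_type] at h
    simp only [Sum.elim_inl, Sum.elim_inr, Finset.prod_const, Finset.card_univ,
      Fintype.card_fin] at h
    exact (mul_le_of_le_one_left (abs_nonneg _) (hΦ _ _)).trans h

lemma heat_le {τ C : ℝ} {g : ℝ → ℝ} (hg : ∀ x, |g x| ≤ C) (x : ℝ) : |heat τ g x| ≤ C :=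
  heat_abs_le hg τ x

end Vale.Agent.P157.Par
end

section

open MeasureTheory ProbabilityTheory Filter Topology Finset

namespace Vale.Agent.P157.Par

set_option linter.unusedSectionVars false

open Vale.Agent.P367.GT (gM)

/-- The constant of the transfer of ratios. -/
noncomputable def Dr (C α : ℝ) (d e : ℕ) : ℝ :=
  ∑' n : ℕ, ((n + e).choose e : ℝ) * (C ^ (d + 2) / α ^ 2 * α ^ n * (1 / 2 * ((d : ℝ) + n) ^ 2))

/-- The constant of the transfer of logarithms. -/
noncomputable def Dl (C α : ℝ) : ℝ :=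
  ∑' n : ℕ, C ^ 2 / α ^ 2 * α ^ (n + 1) * (1 / 2 * ((n : ℝ) + 1) ^ 2)

lemma summable_Dr {C α : ℝ} (_hC : 0 ≤ C) (hα0 : 0 < α) (hα1 : α < 1) (d e : ℕ) :
    Summable fun n : ℕ => ((n + e).choose e : ℝ) *
      (C ^ (d + 2) / α ^ 2 * α ^ n * (1 / 2 * ((d : ℝ) + n) ^ 2)) := by
  have h := Arr.summable_dT_bound e hα0.le hα1 (C ^ (d + 2) / α ^ 2 * (1 / 2) * ((d : ℝ) + 1) ^ 2)
  refine Summable.of_nonneg_of_le (fun n => by positivity) (fun n => ?_) h
  apply mul_le_mul_of_nonneg_left _ (Nat.cast_nonneg _)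
  have h1 : ((d : ℝ) + n) ^ 2 ≤ ((d : ℝ) + 1) ^ 2 * ((n : ℝ) + 1) ^ 2 := by
    rw [← mul_pow]
    apply pow_le_pow_left₀ (by positivity)
    linarith only [hα0, hα1, mul_nonneg (Nat.cast_nonneg (α := ℝ) d) (Nat.cast_nonneg (α := ℝ) n)]
  calc C ^ (d + 2) / α ^ 2 * α ^ n * (1 / 2 * ((d : ℝ) + n) ^ 2) ≤
      C ^ (d + 2) / α ^ 2 * α ^ n * (1 / 2 * (((d : ℝ) + 1) ^ 2 * ((n : ℝ) + 1) ^ 2)) := by
        gcongr
    _ = _ := by ring

lemma summable_Dl {C α : ℝ} (hC : 0 ≤ C) (hα0 : 0 < α) (hα1 : α < 1) :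
    Summable fun n : ℕ => C ^ 2 / α ^ 2 * α ^ (n + 1) * (1 / 2 * ((n : ℝ) + 1) ^ 2) := by
  have h := Arr.summable_dT_bound 0 hα0.le hα1 (C ^ 2 / α ^ 2 * α * (1 / 2))
  refine h.congr fun n => ?_
  simp only [Nat.choose_zero_right, Nat.cast_one, one_mul]
  ring

lemma summable_choose_pow (e : ℕ) {α : ℝ} (hα0 : 0 < α) (hα1 : α < 1) :
    Summable fun n : ℕ => ((n + e).choose e : ℝ) * α ^ n :=
  summable_choose_mul_geometric_of_norm_lt_one e
    (by rwa [Real.norm_eq_abs, abs_of_nonneg hα0.le])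

section Limit

variable {U : Ultrafilter ℕ} {S : ℕ → Sys} {k : ℕ} {b : Fin k → ℝ} {w : Fin (k + 1) → ℝ}
  (hL : LimData U S b w) {c : Fin (k + 1) → ℝ} (hc : ∀ l, 0 ≤ c l) {τ ε B : ℝ} (hτ : 0 ≤ τ)
  (hε : 0 ≤ ε)
  {K : ℕ → Type} [∀ j, Fintype (K j)] [∀ j, DecidableEq (K j)]
  {κ : ∀ j, (S j).T → (S j).X → K j → ℝ} (hκ : KerClose U S b c τ ε B κ)
  {δ : Type} [Fintype δ] [DecidableEq δ] {Φ : ∀ j, (S j).T → (δ → (S j).X) → ℝ}
  (hΦm : ∀ j x, Measurable fun t => Φ j t x) (hΦ : ∀ j t x, |Φ j t x| ≤ 1)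
  {𝓐 : Arr k w δ} (h𝓐1 : 𝓐.C = 1) (h𝓐 : ∀ (ι : Type) [Fintype ι] [DecidableEq ι]
      (A : LM k (δ ⊕ ι) → ℝ), Tendsto (fun j => (S j).avT
        (fun ω (x : δ ⊕ ι → (S j).X) => Φ j ((S j).π ω) (fun i => x (Sum.inl i)) *
          A ((S j).LMat b x))) U (𝓝 (𝓐.E ι A)))

include hL hc hτ hε hκ hΦm hΦ h𝓐1 h𝓐

/-- Transfer of a ratio to the limiting array. -/
theorem ratio_lim {A A' A'' : δ → ℝ → ℝ} {W W' W'' : ℝ → ℝ}
    {C α a : ℝ} (hC : 1 ≤ C) (ha : 0 < a) (haα : 1 - a ≤ α) (hα0 : 0 < α) (hα1 : α < 1)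
    (hA : ∀ i, SB C (A i) (A' i) (A'' i)) (hW : SB C W W' W'') (hWa : ∀ x, a ≤ W x)
    (hW1 : ∀ x, W x ≤ 1) (e : ℕ) :
    ∀ η > 0, ∀ᶠ j in (U : Filter ℕ),
      |(∫ z : (S j).Ω × (K j → ℝ), (∑ x : δ → (S j).X, Φ j ((S j).π z.1) x *
        ∏ i, ((S j).w z.1 (x i) * A i (lin (κ j ((S j).π z.1)) z.2 (x i)))) /
        (∑ x, (S j).w z.1 x * W (lin (κ j ((S j).π z.1)) z.2 x)) ^ (e + 1)
          ∂((S j).P.prod (gM (K j)))) -
      𝓐.Q e c (fun _ => 1) (fun i => heat τ (A i)) (heat τ fun x => 1 - W x)| ≤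
      Dr C α (Fintype.card δ) e * ε + η := by
  have hC0 : 0 < C := by linarith
  have hWm : Measurable W :=
    (continuous_iff_continuousAt.2 fun x => (hW.1 x).continuousAt).measurable
  have hbm : ∀ i, BM (A i) := fun i =>
    ⟨(continuous_iff_continuousAt.2 fun x => ((hA i).1 x).continuousAt).measurable, C,
      (hA i).2.2.2.1⟩
  have hv1 : ∀ x, |1 - W x| ≤ α := fun x => by
    rw [abs_le]; constructor <;> linarith [hWa x, hW1 x]
  have hv : (∀ x, HasDerivAt (fun x => 1 - W x) (- W' x) x) ∧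
      (∀ x, HasDerivAt (fun x => - W' x) (- W'' x) x) ∧
      Continuous (fun x => - W'' x) ∧ (∀ x, |1 - W x| ≤ α) ∧ (∀ x, |- W' x| ≤ C) ∧
        ∀ x, |- W'' x| ≤ C := by
    refine ⟨fun x => ?_, fun x => (hW.2.1 x).neg, hW.2.2.1.neg, hv1, fun x => ?_, fun x => ?_⟩
    · have := (hW.1 x).const_sub 1
      exact this
    · rw [abs_neg]; exact hW.2.2.2.2.1 x
    · rw [abs_neg]; exact hW.2.2.2.2.2 x
  have h1 := sum_lim (U := (U : Filter ℕ))
    (x := fun j n => ((n + e).choose e : ℝ) * (S j).avT (fun ω (x : δ ⊕ Fin n → (S j).X) =>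
        Φ j ((S j).π ω) (fun i => x (Sum.inl i)) *
        gE (fun a => κ j ((S j).π ω) (x a)) (fam A fun x => 1 - W x)))
    (y := fun n => ((n + e).choose e : ℝ) *
      𝓐.T c (fun _ => 1) (fun i => heat τ (A i)) (heat τ fun x => 1 - W x) (Fin n))
    (B := fun n => C ^ Fintype.card δ * (((n + e).choose e : ℝ) * α ^ n))
    (D := fun n => ((n + e).choose e : ℝ) *
      (C ^ (Fintype.card δ + 2) / α ^ 2 * α ^ n * (1 / 2 * ((Fintype.card δ : ℝ) + n) ^ 2)))
    hε ((summable_choose_pow e hα0 hα1).mul_left _) (summable_Dr hC0.le hα0 hα1 _ e)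
    (fun j n => by
      rw [abs_mul, Nat.abs_cast]
      have := term_bound (S j) (hκ.meas j) (hΦm j) (hΦ j) (A := A) (v := fun x => 1 - W x)
        (fun i => (hbm i).meas) (fun i => (hA i).2.2.2.1) (measurable_const.sub hWm) hv1 n
      calc _ ≤ ((n + e).choose e : ℝ) * (C ^ Fintype.card δ * α ^ n) :=
            mul_le_mul_of_nonneg_left this (Nat.cast_nonneg _)
        _ = _ := by ring)
    (fun n => by
      rw [abs_mul, Nat.abs_cast]
      have := 𝓐.T_le c (χ := fun _ => 1) (X := 1) (fun _ => by simp)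
        (A := fun i => heat τ (A i)) (v := heat τ fun x => 1 - W x) (C := C) (a := α)
        (fun i => heat_le (hA i).2.2.2.1) (heat_le hv1) n
      rw [h𝓐1, one_mul, one_mul] at this
      calc _ ≤ ((n + e).choose e : ℝ) * (C ^ Fintype.card δ * α ^ n) :=
            mul_le_mul_of_nonneg_left this (Nat.cast_nonneg _)
        _ = _ := by ring)
    (fun n => by (clear * - hC hα0; positivity))
    (fun n η hη => by
      have hch : (0 : ℝ) < ((n + e).choose e : ℝ) := by
        exact_mod_cast Nat.choose_pos (Nat.le_add_left e n)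
      have := term_lim hL hc hτ hκ hΦm hΦ h𝓐 hC hα0 hα1.le hA hv n
        (η / ((n + e).choose e : ℝ)) (by (clear * - hη hch; positivity))
      filter_upwards [this] with j hj
      rw [← mul_sub, abs_mul, Nat.abs_cast]
      calc _ ≤ ((n + e).choose e : ℝ) * _ := mul_le_mul_of_nonneg_left hj hch.le
        _ = _ := by field_simp)
  intro η hη
  filter_upwards [h1 η hη] with j hj
  rw [ratio_eq (S j) (hκ.meas j) (hΦm j) (hΦ j) hbm hWm ha hWa hW1 e]
  exact hj

end Limit

/-- Transfer of a logarithm to the limiting array. -/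
theorem log_lim {U : Ultrafilter ℕ} {S : ℕ → Sys} {k : ℕ} {b : Fin k → ℝ} {w : Fin (k + 1) → ℝ}
    (hL : LimData U S b w) {c : Fin (k + 1) → ℝ} (hc : ∀ l, 0 ≤ c l) {τ ε B : ℝ} (hτ : 0 ≤ τ)
    (hε : 0 ≤ ε)
    {K : ℕ → Type} [∀ j, Fintype (K j)] [∀ j, DecidableEq (K j)]
    {κ : ∀ j, (S j).T → (S j).X → K j → ℝ} (hκ : KerClose U S b c τ ε B κ)
    {𝓐 : Arr k w Empty} (h𝓐1 : 𝓐.C = 1) (h𝓐 : ∀ (ι : Type) [Fintype ι] [DecidableEq ι]
      (A : LM k (Empty ⊕ ι) → ℝ), Tendsto (fun j => (S j).avT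
        (fun ω (x : Empty ⊕ ι → (S j).X) => (fun _ _ _ => (1 : ℝ)) j ((S j).π ω)
          (fun i => x (Sum.inl i)) *
          A ((S j).LMat b x))) U (𝓝 (𝓐.E ι A)))
    {W W' W'' : ℝ → ℝ}
    {C α a : ℝ} (hC : 1 ≤ C) (ha : 0 < a) (haα : 1 - a ≤ α) (hα0 : 0 < α) (hα1 : α < 1)
    (hW : SB C W W' W'') (hWa : ∀ x, a ≤ W x) (hW1 : ∀ x, W x ≤ 1) :
    ∀ η > 0, ∀ᶠ j in (U : Filter ℕ),
      |(∫ z : (S j).Ω × (K j → ℝ), Real.log
        (∑ x, (S j).w z.1 x * W (lin (κ j ((S j).π z.1)) z.2 x)) ∂((S j).P.prod (gM (K j)))) +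
      𝓐.Lg c (heat τ fun x => 1 - W x)| ≤ Dl C α * ε + η := by
  have hC0 : 0 < C := by linarith
  have hWm : Measurable W :=
    (continuous_iff_continuousAt.2 fun x => (hW.1 x).continuousAt).measurable
  have hv1 : ∀ x, |1 - W x| ≤ α := fun x => by
    rw [abs_le]; constructor <;> linarith [hWa x, hW1 x]
  have hv : (∀ x, HasDerivAt (fun x => 1 - W x) (- W' x) x) ∧
      (∀ x, HasDerivAt (fun x => - W' x) (- W'' x) x) ∧
      Continuous (fun x => - W'' x) ∧ (∀ x, |1 - W x| ≤ α) ∧ (∀ x, |- W' x| ≤ C) ∧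
        ∀ x, |- W'' x| ≤ C := by
    refine ⟨fun x => ?_, fun x => (hW.2.1 x).neg, hW.2.2.1.neg, hv1, fun x => ?_, fun x => ?_⟩
    · have := (hW.1 x).const_sub 1
      exact this
    · rw [abs_neg]; exact hW.2.2.2.2.1 x
    · rw [abs_neg]; exact hW.2.2.2.2.2 x
  have hAe : ∀ i : Empty, SB C (noA i) (noA i) (noA i) := fun i => i.elim
  have hnoA : (fun i => heat τ (noA i)) = noA := funext fun i => i.elim
  have hinv : ∀ n : ℕ, 0 < 1 / ((n : ℝ) + 1) ∧ 1 / ((n : ℝ) + 1) ≤ 1 := fun n =>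
    ⟨by positivity, by rw [div_le_one (by positivity)]; linarith [Nat.cast_nonneg (α := ℝ) n]⟩
  have h1 := sum_lim (U := (U : Filter ℕ))
    (x := fun j n => 1 / ((n : ℝ) + 1) * (S j).avT (fun ω (x : Empty ⊕ Fin (n + 1) → (S j).X) =>
        (fun _ _ => (1 : ℝ)) ((S j).π ω) (fun i => x (Sum.inl i)) *
        gE (fun a => κ j ((S j).π ω) (x a)) (fam noA fun x => 1 - W x)))
    (y := fun n => 1 / ((n : ℝ) + 1) *
      𝓐.T c (fun _ => 1) noA (heat τ fun x => 1 - W x) (Fin (n + 1)))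
    (B := fun n => α ^ n)
    (D := fun n => C ^ 2 / α ^ 2 * α ^ (n + 1) * (1 / 2 * ((n : ℝ) + 1) ^ 2))
    hε (summable_geometric_of_lt_one hα0.le hα1) (summable_Dl hC0.le hα0 hα1)
    (fun j n => by
      rw [abs_mul, abs_of_pos (hinv n).1]
      have := term_bound (S j) (hκ.meas j) (δ := Empty) (Φ := fun _ _ => (1 : ℝ))
        (fun _ => measurable_const) (fun _ _ => by simp) (A := noA) (v := fun x => 1 - W x)
        (C := C) (fun i => i.elim) (fun i => i.elim) (measurable_const.sub hWm) hv1 (n + 1)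
      rw [Fintype.card_empty, pow_zero, one_mul] at this
      calc _ ≤ 1 * α ^ (n + 1) :=
            mul_le_mul (hinv n).2 this (abs_nonneg _) zero_le_one
        _ = α ^ n * α := by ring
        _ ≤ α ^ n := mul_le_of_le_one_right (by positivity) hα1.le)
    (fun n => by
      rw [abs_mul, abs_of_pos (hinv n).1]
      have := 𝓐.T_empty_le c (v := heat τ fun x => 1 - W x) (heat_le hv1) (n + 1)
      rw [h𝓐1, one_mul] at this
      calc _ ≤ 1 * α ^ (n + 1) :=
            mul_le_mul (hinv n).2 this (abs_nonneg _) zero_le_one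
        _ = α ^ n * α := by ring
        _ ≤ α ^ n := mul_le_of_le_one_right (by positivity) hα1.le)
    (fun n => by positivity)
    (fun n η hη => by
      have := term_lim hL hc hτ hκ (Φ := fun _ _ _ => (1 : ℝ)) (fun _ _ => measurable_const)
        (fun _ _ _ => by simp) h𝓐 hC hα0 hα1.le hAe hv (n + 1) η hη
      rw [hnoA] at this
      filter_upwards [this] with j hj
      rw [← mul_sub, abs_mul, abs_of_pos (hinv n).1]
      calc _ ≤ 1 * _ := mul_le_mul (hinv n).2 hj (abs_nonneg _) zero_le_one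
        _ = _ := by
          rw [Fintype.card_empty]
          push_cast
          ring)
  intro η hη
  filter_upwards [h1 η hη] with j hj
  rw [log_eq (S j) (hκ.meas j) hWm ha hWa hW1, neg_add_eq_sub, abs_sub_comm]
  exact hj

end Vale.Agent.P157.Par
end

section

open MeasureTheory ProbabilityTheory Filter Topology Finset

namespace Vale.Agent.P157.Par

set_option linter.unusedSectionVars false

open Vale.Agent.P367.GT (gM)

/-- The weight after integration of the top increment. -/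
noncomputable def topW (τ : ℝ) (W : ℝ → ℝ) : ℝ → ℝ := heat τ W

/-- The observable after integration of the top increment. -/
noncomputable def toph (τ : ℝ) (W h : ℝ → ℝ) : ℝ → ℝ := fun x =>
  heat τ (fun y => h y * W y) x / heat τ W x

lemma topW_eq (τ : ℝ) (W : ℝ → ℝ) : topW τ W = flowW 1 τ W 0 := by
  funext x
  simp only [topW, flowW, sub_zero, Real.rpow_one, div_one]

lemma toph_eq (τ : ℝ) (W h : ℝ → ℝ) : toph τ W h = flowh 1 τ W h 0 := by
  funext x
  simp only [toph, flowh, sub_zero, Real.rpow_one]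

section

variable {W : ℝ → ℝ} {a : ℝ}

lemma topW_spec (τ : ℝ) (ha : 0 < a) (hW : ∃ W' W'', CB2 W W' W'') (hWa : ∀ x, a ≤ W x)
    (hW1 : ∀ x, W x ≤ 1) :
    (∃ V' V'', CB2 (topW τ W) V' V'') ∧ (∀ x, a ≤ topW τ W x) ∧ ∀ x, topW τ W x ≤ 1 := by
  obtain ⟨W', W'', hW⟩ := hW
  rw [topW_eq]
  refine ⟨flowW_cb2 one_pos ha hW hWa hW1, fun x => ?_, fun x => ?_⟩
  · exact (flowW_mem one_pos ha hW.cont.measurable hWa hW1 x).1
  · exact (flowW_mem one_pos ha hW.cont.measurable hWa hW1 x).2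

lemma toph_spec (τ : ℝ) (ha : 0 < a) (hW : ∃ W' W'', CB2 W W' W'') (hWa : ∀ x, a ≤ W x)
    (hW1 : ∀ x, W x ≤ 1) {h : ℝ → ℝ} (hh : ∃ h' h'', CB2 h h' h'') :
    ∃ h' h'', CB2 (toph τ W h) h' h'' := by
  obtain ⟨W', W'', hW⟩ := hW
  obtain ⟨h', h'', hh⟩ := hh
  rw [toph_eq]
  exact flowh_cb2 one_pos ha hW hWa hW1 hh

lemma heat_one_sub (τ : ℝ) (hWm : Measurable W) (ha : 0 < a) (hWa : ∀ x, a ≤ W x)
    (hW1 : ∀ x, W x ≤ 1) : heat τ (fun x => 1 - W x) = fun x => 1 - topW τ W x := by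
  funext x
  have h1 : ∀ x, |W x| ≤ 1 := fun x => by rw [abs_le]; constructor <;> linarith [hWa x, hW1 x]
  have h2 := integrable_heat hWm h1 τ x
  unfold heat topW heat
  rw [integral_sub (integrable_const _) h2]
  simp

lemma heat_mul_eq (τ : ℝ) (ha : 0 < a) (hW : ∃ W' W'', CB2 W W' W'') (hWa : ∀ x, a ≤ W x)
    (hW1 : ∀ x, W x ≤ 1) (h : ℝ → ℝ) :
    heat τ (fun y => h y * W y) = fun x => toph τ W h x * topW τ W x := by
  funext x
  have h1 := (topW_spec τ ha hW hWa hW1).2.1 x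
  have h2 : topW τ W x ≠ 0 := (lt_of_lt_of_le ha h1).ne'
  unfold toph
  unfold topW at h2 ⊢
  field_simp

end

/-- Decomposition along the level of a pair. -/
lemma Q_split {k : ℕ} {w : Fin (k + 1) → ℝ} {δ : Type} [Fintype δ] [DecidableEq δ]
    (𝓐 : Arr k w δ) (e : ℕ) (c : Fin (k + 1) → ℝ) (i₀ j₀ : δ) {A : δ → ℝ → ℝ} {v : ℝ → ℝ}
    (hA : ∀ i, BM (A i)) {a : ℝ} (ha0 : 0 ≤ a) (ha : a < 1) (hv : ∀ x, |v x| ≤ a) :
    𝓐.Q e c (fun _ => 1) A v =
      ∑ l, 𝓐.Q e c (fun L => if L i₀ j₀ = l then 1 else 0) A v := by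
  unfold Arr.Q
  rw [← Summable.tsum_finsetSum fun l _ => 𝓐.Q_summable e c _ hA ha0 ha hv]
  congr 1
  funext n
  rw [← Finset.mul_sum]
  congr 1
  unfold Arr.T
  rw [← map_sum]
  congr 1
  funext L
  rw [Finset.sum_apply, ← Finset.sum_mul]
  have h1 : ∑ l, (if Arr.res L i₀ j₀ = l then (1 : ℝ) else 0) = 1 := by
    rw [Finset.sum_ite_eq, if_pos (Finset.mem_univ _)]
  rw [h1]

section Final

variable {U : Ultrafilter ℕ} {S : ℕ → Sys} {k : ℕ} {b : Fin k → ℝ} {w : Fin (k + 1) → ℝ}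
  (hL : LimData U S b w) {m v : ℕ → ℝ} (hv : ∀ l, 0 ≤ v l)
  (hm : ∀ l, 1 ≤ l → l ≤ k → 0 < m l) (hmw : ∀ l : Fin (k + 1), Arr.up w l = 1 - m l)
  {τ ε B : ℝ} (hτ : 0 ≤ τ) (hε : 0 ≤ ε)
  {K : ℕ → Type} [∀ j, Fintype (K j)] [∀ j, DecidableEq (K j)]
  {κ : ∀ j, (S j).T → (S j).X → K j → ℝ} (hκ : KerClose U S b (cut v k) τ ε B κ)
  {W W' W'' : ℝ → ℝ} {C α a : ℝ} (hC : 1 ≤ C) (ha : 0 < a) (haα : 1 - a ≤ α) (hα0 : 0 < α)
  (hα1 : α < 1) (hW : SB C W W' W'') (hWa : ∀ x, a ≤ W x) (hW1 : ∀ x, W x ≤ 1)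

lemma SB.cb2 {C : ℝ} {A A' A'' : ℝ → ℝ} (h : SB C A A' A'') : CB2 A A' A'' :=
  ⟨h.1, h.2.1, h.2.2.1, ⟨C, h.2.2.2.1⟩, ⟨C, h.2.2.2.2.1⟩, ⟨C, h.2.2.2.2.2⟩⟩

include hL hv hm hmw hτ hε hκ hC ha haα hα0 hα1 hW hWa hW1

/-- Transfer of the logarithm of an average. -/
theorem trans_log :
    ∀ η > 0, ∀ᶠ j in (U : Filter ℕ),
      |(∫ z : (S j).Ω × (K j → ℝ), Real.log
        (∑ x, (S j).w z.1 x * W (lin (κ j ((S j).π z.1)) z.2 x)) ∂((S j).P.prod (gM (K j)))) -
      ∫ z, Real.log (lvW m v k (topW τ W) 0 (√(v 0) * z)) ∂(gaussianReal 0 1)| ≤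
        Dl C α * ε + η := by
  obtain ⟨𝓐, h𝓐1, h𝓐⟩ := exists_arr hL.gg hL.mono hL.b0 hL.b1 hL.na hL.lim
    (δ := Empty) (fun _ _ _ => (1 : ℝ)) (fun _ _ => measurable_const) (fun _ _ _ => by simp)
  have h1 := log_lim hL (cut_nonneg hv k) hτ hε hκ h𝓐1 h𝓐 hC ha haα hα0 hα1 hW hWa hW1
  have hWc : ∃ W' W'', CB2 W W' W'' := ⟨W', W'', hW.cb2⟩
  have hspec := topW_spec τ ha hWc hWa hW1
  have hE1 : 𝓐.E (Fin 1) (fun _ => 1) = 1 := by
    have h2 := h𝓐 (Fin 1) (fun _ => 1)
    have h3 : (fun j => (S j).avT (fun _ (_ : Empty ⊕ Fin 1 → (S j).X) => (1 : ℝ) * 1)) =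
        fun _ => (1 : ℝ) := by
      funext j
      rw [(S j).avT_const, mul_one]
    have h4 : Tendsto (fun _ : ℕ => (1 : ℝ)) U (𝓝 (𝓐.E (Fin 1) (fun _ => 1))) := by
      rw [← h3]
      exact h2
    exact tendsto_nhds_unique h4 tendsto_const_nhds
  have h2 := 𝓐.Lg_eval hL.wsum hv hm hmw ha hspec.1 hspec.2.1 hspec.2.2
  rw [heat_one_sub τ hW.cb2.cont.measurable ha hWa hW1, h2, hE1, one_mul] at h1
  intro η hη
  filter_upwards [h1 η hη] with j hj
  rw [sub_eq_add_neg]
  exact hj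

variable {h h' h'' : ℝ → ℝ} (hh : CB2 h h' h'') {A' A'' : ℝ → ℝ}
  (hA : SB C (fun x => h x * W x) A' A'')

include hh hA

/-- Transfer of an average of one replica. -/
theorem trans_one {Φ : ∀ j, (S j).T → (Fin 1 → (S j).X) → ℝ}
    (hΦm : ∀ j x, Measurable fun t => Φ j t x) (hΦ : ∀ j t x, |Φ j t x| ≤ 1) :
    ∀ η > 0, ∀ᶠ j in (U : Filter ℕ),
      |(∫ z : (S j).Ω × (K j → ℝ), (∑ x : Fin 1 → (S j).X, Φ j ((S j).π z.1) x *
        ∏ i, ((S j).w z.1 (x i) * (h (lin (κ j ((S j).π z.1)) z.2 (x i)) *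
          W (lin (κ j ((S j).π z.1)) z.2 (x i))))) /
        (∑ x, (S j).w z.1 x * W (lin (κ j ((S j).π z.1)) z.2 x)) ^ 1
          ∂((S j).P.prod (gM (K j)))) -
      (S j).avT (fun ω (x : Fin 1 → (S j).X) => Φ j ((S j).π ω) x) *
        ∫ z, lvh m v (lvW m v k (topW τ W)) k (toph τ W h) 0 (√(v 0) * z) ∂(gaussianReal 0 1)| ≤
        Dr C α 1 0 * ε + η := by
  obtain ⟨𝓐, h𝓐1, h𝓐⟩ := exists_arr hL.gg hL.mono hL.b0 hL.b1 hL.na hL.lim Φ hΦm hΦ
  have h1 := ratio_lim hL (cut_nonneg hv k) hτ hε hκ hΦm hΦ h𝓐1 h𝓐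
    (A := fun _ x => h x * W x) (A' := fun _ => A') (A'' := fun _ => A'') hC ha haα hα0 hα1
    (fun _ => hA) hW hWa hW1 0
  have hWc : ∃ W' W'', CB2 W W' W'' := ⟨W', W'', hW.cb2⟩
  have hspec := topW_spec τ ha hWc hWa hW1
  have hhs := toph_spec τ ha hWc hWa hW1 (h := h) ⟨h', h'', hh⟩
  have h2 := 𝓐.Q_eval_one (by simp) hL.wsum hv hm hmw ha hspec.1 hspec.2.1 hspec.2.2
    (fun _ => 1) hhs
  simp only [heat_one_sub τ hW.cb2.cont.measurable ha hWa hW1,
    heat_mul_eq τ ha hWc hWa hW1 h] at h1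
  rw [h2] at h1
  set I := ∫ z, lvh m v (lvW m v k (topW τ W)) k (toph τ W h) 0 (√(v 0) * z) ∂(gaussianReal 0 1)
    with hI
  -- the average of the test function
  have h3 := h𝓐 (Fin 0) (fun _ => 1)
  have h4 : Tendsto (fun j => (S j).avT (fun ω (x : Fin 1 → (S j).X) => Φ j ((S j).π ω) x)) U
      (𝓝 (𝓐.E (Fin 0) (fun _ => 1))) := by
    refine h3.congr fun j => ?_
    rw [← (S j).avT_comp (J := Fin 1) (J' := Fin 1 ⊕ Fin 0) Sum.inl Sum.inl_injective
      (fun t x => Φ j t x)]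
    congr 1
    funext ω x
    rw [mul_one]
  have h5 := (h4.sub_const (𝓐.E (Fin 0) (fun _ => 1))).mul_const I
  rw [sub_self, zero_mul] at h5
  intro η hη
  filter_upwards [h1 (η / 2) (by positivity), (Metric.tendsto_nhds.1 h5) (η / 2) (by positivity)]
    with j hj1 hj2
  rw [Real.dist_eq, sub_zero] at hj2
  rw [Fintype.card_fin] at hj1
  have e1 : ∀ X Y Z : ℝ, X - Y * I = (X - Z * I) - (Y - Z) * I := fun X Y Z => by ring
  rw [e1 _ _ (𝓐.E (Fin 0) (fun _ => 1))]
  refine (abs_sub _ _).trans ?_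
  linarith

/-- Transfer of an average of two replicas. -/
theorem trans_two {Φ : ∀ j, (S j).T → (Fin 2 → (S j).X) → ℝ}
    (hΦm : ∀ j x, Measurable fun t => Φ j t x) (hΦ : ∀ j t x, |Φ j t x| ≤ 1) :
    ∀ η > 0, ∀ᶠ j in (U : Filter ℕ),
      |(∫ z : (S j).Ω × (K j → ℝ), (∑ x : Fin 2 → (S j).X, Φ j ((S j).π z.1) x *
        ∏ i, ((S j).w z.1 (x i) * (h (lin (κ j ((S j).π z.1)) z.2 (x i)) *
          W (lin (κ j ((S j).π z.1)) z.2 (x i))))) /
        (∑ x, (S j).w z.1 x * W (lin (κ j ((S j).π z.1)) z.2 x)) ^ 2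
          ∂((S j).P.prod (gM (K j)))) -
      (S j).avT (fun ω (x : Fin 2 → (S j).X) => Φ j ((S j).π ω) x *
        Arr.pairVal m v k (topW τ W) (toph τ W h) (lev b ((S j).R (x 0) (x 1))))| ≤
        Dr C α 2 1 * ε + η := by
  obtain ⟨𝓐, h𝓐1, h𝓐⟩ := exists_arr hL.gg hL.mono hL.b0 hL.b1 hL.na hL.lim Φ hΦm hΦ
  have h1 := ratio_lim hL (cut_nonneg hv k) hτ hε hκ hΦm hΦ h𝓐1 h𝓐
    (A := fun _ x => h x * W x) (A' := fun _ => A') (A'' := fun _ => A'') hC ha haα hα0 hα1
    (fun _ => hA) hW hWa hW1 1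
  have hWc : ∃ W' W'', CB2 W W' W'' := ⟨W', W'', hW.cb2⟩
  have hspec := topW_spec τ ha hWc hWa hW1
  have hhs := toph_spec τ ha hWc hWa hW1 (h := h) ⟨h', h'', hh⟩
  simp only [heat_one_sub τ hW.cb2.cont.measurable ha hWa hW1,
    heat_mul_eq τ ha hWc hWa hW1 h] at h1
  have h2 : 𝓐.Q 1 (cut v k) (fun _ => 1) (fun _ x => toph τ W h x * topW τ W x)
      (fun x => 1 - topW τ W x) = 𝓐.E (Fin 0) (fun L =>
        Arr.pairVal m v k (topW τ W) (toph τ W h) (L (Sum.inl 0) (Sum.inl 1))) := by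
    rw [Q_split 𝓐 1 (cut v k) 0 1 (a := 1 - a) (fun i => ?_) (by linarith [hWa 0, hW1 0])
      (by linarith) (fun x => ?_)]
    · have h3 := fun l => 𝓐.Q_eval_two (by simp) (i₀ := (0 : Fin 2)) (j₀ := 1) (by simp) hL.wsum hv
        hm hmw ha hspec.1 hspec.2.1 hspec.2.2 hhs l
      rw [Finset.sum_congr rfl fun l _ => h3 l]
      have h4 : ∀ l, 𝓐.E (Fin 0) (fun L => if L (Sum.inl 0) (Sum.inl 1) = l then 1 else 0) *
          Arr.pairVal m v k (topW τ W) (toph τ W h) l =
          𝓐.E (Fin 0) (fun L => if L (Sum.inl 0) (Sum.inl 1) = l then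
            Arr.pairVal m v k (topW τ W) (toph τ W h) l else 0) := by
        intro l
        rw [mul_comm, ← smul_eq_mul, ← map_smul]
        congr 1
        funext L
        rw [Pi.smul_apply, smul_eq_mul, mul_ite, mul_one, mul_zero]
      rw [Finset.sum_congr rfl fun l _ => h4 l, ← map_sum]
      congr 1
      funext L
      rw [Finset.sum_apply]
      simp
    · obtain ⟨p', p'', hp⟩ := hhs
      obtain ⟨q', q'', hq⟩ := hspec.1
      exact BM.mul ⟨hp.cont.measurable, hp.b0⟩ ⟨hq.cont.measurable, hq.b0⟩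
    · rw [abs_le]
      constructor <;> linarith [hspec.2.1 x, hspec.2.2 x]
  rw [h2] at h1
  -- the average of the test function
  have h3 := h𝓐 (Fin 0) (fun L => Arr.pairVal m v k (topW τ W) (toph τ W h) (L (Sum.inl 0) (Sum.inl 1)))
  have h4 : Tendsto (fun j => (S j).avT (fun ω (x : Fin 2 → (S j).X) => Φ j ((S j).π ω) x *
        Arr.pairVal m v k (topW τ W) (toph τ W h) (lev b ((S j).R (x 0) (x 1))))) U
      (𝓝 (𝓐.E (Fin 0) (fun L =>
        Arr.pairVal m v k (topW τ W) (toph τ W h) (L (Sum.inl 0) (Sum.inl 1))))) := by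
    refine h3.congr fun j => ?_
    rw [← (S j).avT_comp (J := Fin 2) (J' := Fin 2 ⊕ Fin 0) Sum.inl Sum.inl_injective
      (fun t x => Φ j t x * Arr.pairVal m v k (topW τ W) (toph τ W h) (lev b ((S j).R (x 0) (x 1))))]
    congr 1
  intro η hη
  filter_upwards [h1 (η / 2) (by positivity), (Metric.tendsto_nhds.1 h4) (η / 2) (by positivity)]
    with j hj1 hj2
  rw [Real.dist_eq] at hj2
  rw [Fintype.card_fin] at hj1
  have e1 := abs_sub_le (∫ z : (S j).Ω × (K j → ℝ), (∑ x : Fin 2 → (S j).X, Φ j ((S j).π z.1) x *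
        ∏ i, ((S j).w z.1 (x i) * (h (lin (κ j ((S j).π z.1)) z.2 (x i)) *
          W (lin (κ j ((S j).π z.1)) z.2 (x i))))) /
        (∑ x, (S j).w z.1 x * W (lin (κ j ((S j).π z.1)) z.2 x)) ^ (1 + 1)
          ∂((S j).P.prod (gM (K j)))) (𝓐.E (Fin 0) (fun L =>
        Arr.pairVal m v k (topW τ W) (toph τ W h) (L (Sum.inl 0) (Sum.inl 1))))
        ((S j).avT (fun ω (x : Fin 2 → (S j).X) => Φ j ((S j).π ω) x *
        Arr.pairVal m v k (topW τ W) (toph τ W h) (lev b ((S j).R (x 0) (x 1)))))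
  rw [abs_sub_comm (𝓐.E _ _)] at e1
  linarith only [e1, hj2, hj1]

end Final

end Vale.Agent.P157.Par
end

section

/-! The average over one parameter of the fluctuation of the perturbation. -/

open MeasureTheory ProbabilityTheory Filter Topology
open scoped RealInnerProductSpace

namespace Vale.Agent.P157.Par

set_option linter.unusedSectionVars false

/-- Uniform measure on `[1,2]`. -/
noncomputable abbrev nu12 : Measure ℝ := volume.restrict (Set.Icc 1 2)

instance : IsProbabilityMeasure nu12 := ⟨by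
  rw [Measure.restrict_apply_univ, Real.volume_Icc]
  norm_num⟩

lemma integral_nu12 (f : ℝ → ℝ) : ∫ v, f v ∂nu12 = ∫ v in (1 : ℝ)..2, f v := by
  rw [intervalIntegral.integral_of_le (by norm_num), integral_Icc_eq_integral_Ioc]

/-- The average increment of a monotone function. -/
lemma mono_increment {M : ℝ → ℝ} (hM : Monotone M) {η L : ℝ} (h0 : 0 < η) (h1 : η ≤ 1)
    (hn : ∀ v, 0 ≤ v → 0 ≤ M v) (hL : M 3 ≤ L) :
    ∫ v, (M (v + η) - M (v - η)) ∂nu12 ≤ 2 * η * L := by
  have hI : ∀ a b : ℝ, IntervalIntegrable M volume a b := fun a b => hM.intervalIntegrable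
  have hI1 : IntervalIntegrable (fun v => M (v + η)) volume 1 2 :=
    (show Monotone fun v => M (v + η) from fun a b h => hM (by linarith)).intervalIntegrable
  have hI2 : IntervalIntegrable (fun v => M (v - η)) volume 1 2 :=
    (show Monotone fun v => M (v - η) from fun a b h => hM (by linarith)).intervalIntegrable
  rw [integral_nu12, intervalIntegral.integral_sub hI1 hI2,
    intervalIntegral.integral_comp_add_right, intervalIntegral.integral_comp_sub_right]
  have e1 : ∫ v in (1 + η)..(2 + η), M v =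
      (∫ v in (1 + η)..(2 - η), M v) + ∫ v in (2 - η)..(2 + η), M v :=
    (intervalIntegral.integral_add_adjacent_intervals (hI _ _) (hI _ _)).symm
  have e2 : ∫ v in (1 - η)..(2 - η), M v =
      (∫ v in (1 - η)..(1 + η), M v) + ∫ v in (1 + η)..(2 - η), M v :=
    (intervalIntegral.integral_add_adjacent_intervals (hI _ _) (hI _ _)).symm
  have b1 : ∫ v in (2 - η)..(2 + η), M v ≤ ∫ _v in (2 - η)..(2 + η), L := by
    refine intervalIntegral.integral_mono_on (by linarith) (hI _ _)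
      intervalIntegrable_const fun v hv => ?_
    exact (hM (show v ≤ 3 by linarith [hv.2])).trans hL
  have b2 : 0 ≤ ∫ v in (1 - η)..(1 + η), M v := by
    refine intervalIntegral.integral_nonneg (by linarith) fun v hv => hn v (by linarith [hv.1])
  rw [intervalIntegral.integral_const] at b1
  simp only [smul_eq_mul] at b1
  rw [e1, e2]
  linarith

namespace Base

variable (B : Base) {P : ℕ} (s : ℝ) (u : Fin P → ℝ)

lemma kap_nonneg (hs : 0 ≤ s) (p : Fin P) : 0 ≤ B.kap s p := by unfold kap; positivity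

lemma kap_pos (hs : 0 < s) (p : Fin P) : 0 < B.kap s p := by unfold kap; positivity

lemma hm_mono (hs : 0 ≤ s) (p : Fin P) (z : B.Ω × (GI P B.d → ℝ)) :
    Monotone fun v => B.hm s (Function.update u p v) p z := by
  refine monotone_of_deriv_nonneg (fun v => (B.hasDerivAt_hm s u p z v).differentiableAt)
    fun v => ?_
  rw [(B.hasDerivAt_hm s u p z v).deriv]
  exact mul_nonneg (B.kap_nonneg s hs p) (B.hv_nonneg s _ p z)

lemma lz_slope (hs : 0 ≤ s) (p : Fin P) (z : B.Ω × (GI P B.d → ℝ)) {a b : ℝ} (hab : a < b) :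
    (b - a) * (B.kap s p * B.hm s (Function.update u p a) p z) ≤
      B.lz s (Function.update u p b) z - B.lz s (Function.update u p a) z ∧
    B.lz s (Function.update u p b) z - B.lz s (Function.update u p a) z ≤
      (b - a) * (B.kap s p * B.hm s (Function.update u p b) p z) := by
  obtain ⟨c, hc, h⟩ := exists_hasDerivAt_eq_slope
    (fun v => B.lz s (Function.update u p v) z)
    (fun v => B.kap s p * B.hm s (Function.update u p v) p z) hab
    (fun v _ => (B.hasDerivAt_lz s u p z v).continuousAt.continuousWithinAt)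
    (fun v _ => B.hasDerivAt_lz s u p z v)
  have hba : 0 < b - a := by linarith
  rw [eq_div_iff hba.ne'] at h
  have hk := B.kap_nonneg s hs p
  have h1 := B.hm_mono s u hs p z (show a ≤ c from hc.1.le)
  have h2 := B.hm_mono s u hs p z (show c ≤ b from hc.2.le)
  simp only at h1 h2 h
  rw [← h]
  constructor
  · rw [mul_comm]
    exact mul_le_mul_of_nonneg_right (mul_le_mul_of_nonneg_left h1 hk) hba.le
  · rw [mul_comm]
    exact mul_le_mul_of_nonneg_left (mul_le_mul_of_nonneg_left h2 hk) hba.le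

lemma mh_mono (hs : 0 ≤ s) (p : Fin P) :
    Monotone fun v => B.mh P s (Function.update u p v) p := by
  intro a b hab
  simp only [mh_eq_int]
  exact integral_mono (B.int_hm s _ p) (B.int_hm s _ p) fun z => B.hm_mono s u hs p z hab

lemma elz_slope (hs : 0 ≤ s) (p : Fin P) {a b : ℝ} (hab : a < b) :
    (b - a) * (B.kap s p * B.mh P s (Function.update u p a) p) ≤
      B.elz s (Function.update u p b) - B.elz s (Function.update u p a) ∧
    B.elz s (Function.update u p b) - B.elz s (Function.update u p a) ≤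
      (b - a) * (B.kap s p * B.mh P s (Function.update u p b) p) := by
  unfold elz
  rw [← integral_sub (B.int_lz s _) (B.int_lz s _), mh_eq_int, mh_eq_int,
    ← integral_const_mul, ← integral_const_mul, ← integral_const_mul, ← integral_const_mul]
  constructor
  · exact integral_mono (((B.int_hm s _ p).const_mul _).const_mul _)
      ((B.int_lz s _).sub (B.int_lz s _)) fun z => (B.lz_slope s u hs p z hab).1
  · exact integral_mono ((B.int_lz s _).sub (B.int_lz s _))
      (((B.int_hm s _ p).const_mul _).const_mul _) fun z => (B.lz_slope s u hs p z hab).2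

/-- The expected deviation of the free energy. -/
noncomputable def dlz : ℝ := ∫ z, |B.lz s u z - B.elz s u| ∂(B.jl (GI P B.d))

/-- Disorder part, for fixed parameters. -/
lemma disorder_le (hs : 0 ≤ s) (p : Fin P) {v η V : ℝ} (hη : 0 < η)
    (h1 : B.dlz s (Function.update u p v) ≤ V) (h2 : B.dlz s (Function.update u p (v + η)) ≤ V)
    (h3 : B.dlz s (Function.update u p (v - η)) ≤ V) :
    B.kap s p * ∫ z, |B.hm s (Function.update u p v) p z - B.mh P s (Function.update u p v) p|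
      ∂(B.jl (GI P B.d)) ≤ 3 * V / η +
      B.kap s p * (B.mh P s (Function.update u p (v + η)) p -
        B.mh P s (Function.update u p (v - η)) p) := by
  set κ := B.kap s p with hκ
  have hκ0 : 0 ≤ κ := B.kap_nonneg s hs p
  set μ := B.jl (GI P B.d) with hμ
  have pt : ∀ z, η * (κ * |B.hm s (Function.update u p v) p z -
      B.mh P s (Function.update u p v) p|) ≤
      |B.lz s (Function.update u p v) z - B.elz s (Function.update u p v)| +
      |B.lz s (Function.update u p (v + η)) z - B.elz s (Function.update u p (v + η))| +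
      |B.lz s (Function.update u p (v - η)) z - B.elz s (Function.update u p (v - η))| +
      η * (κ * (B.mh P s (Function.update u p (v + η)) p -
        B.mh P s (Function.update u p (v - η)) p)) := by
    intro z
    have a1 := (B.lz_slope s u hs p z (show v < v + η by linarith)).1
    have a2 := (B.lz_slope s u hs p z (show v - η < v by linarith)).2
    have a3 := (B.elz_slope s u hs p (show v < v + η by linarith)).2
    have a4 := (B.elz_slope s u hs p (show v - η < v by linarith)).1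
    have a5 := B.mh_mono s u hs p (show v ≤ v + η by linarith)
    have a6 := B.mh_mono s u hs p (show v - η ≤ v by linarith)
    simp only at a5 a6
    have a7 := mul_le_mul_of_nonneg_left (mul_le_mul_of_nonneg_left a5 hκ0) hη.le
    have a8 := mul_le_mul_of_nonneg_left (mul_le_mul_of_nonneg_left a6 hκ0) hη.le
    have c1 : v + η - v = η := by ring
    have c2 : v - (v - η) = η := by ring
    rw [c1] at a1 a3
    rw [c2] at a2 a4
    rw [← abs_of_nonneg hκ0, ← abs_mul, ← abs_of_pos hη, ← abs_mul, abs_of_nonneg hκ0,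
      abs_of_pos hη, abs_le]
    have d1 := abs_le.1 (le_refl |B.lz s (Function.update u p v) z -
      B.elz s (Function.update u p v)|)
    have d2 := abs_le.1 (le_refl |B.lz s (Function.update u p (v + η)) z -
      B.elz s (Function.update u p (v + η))|)
    have d3 := abs_le.1 (le_refl |B.lz s (Function.update u p (v - η)) z -
      B.elz s (Function.update u p (v - η))|)
    have n1 := abs_nonneg (B.lz s (Function.update u p (v + η)) z -
      B.elz s (Function.update u p (v + η)))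
    have n2 := abs_nonneg (B.lz s (Function.update u p (v - η)) z -
      B.elz s (Function.update u p (v - η)))
    constructor
    · linarith only [a2, a4, a7, d1, d2, d3]
    · linarith only [a1, a3, a8, d1, d2, d3]
  have hi : ∀ t, Integrable (fun z => |B.lz s (Function.update u p t) z -
      B.elz s (Function.update u p t)|) μ := fun t =>
    ((B.int_lz s _).sub (integrable_const _)).abs
  have hj : Integrable (fun z => |B.hm s (Function.update u p v) p z -
      B.mh P s (Function.update u p v) p|) μ := ((B.int_hm s _ p).sub (integrable_const _)).abs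
  have hint := integral_mono ((hj.const_mul κ).const_mul η)
    ((((hi v).add (hi (v + η))).add (hi (v - η))).add (integrable_const
      (η * (κ * (B.mh P s (Function.update u p (v + η)) p -
        B.mh P s (Function.update u p (v - η)) p))))) pt
  rw [integral_add' (((hi v).add (hi (v + η))).add (hi (v - η))) (integrable_const _),
    integral_add' ((hi v).add (hi (v + η))) (hi (v - η)), integral_add' (hi v) (hi (v + η)),
    integral_const_mul, integral_const_mul, integral_const] at hint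
  simp only [probReal_univ, smul_eq_mul, one_mul] at hint
  have hV : η * (κ * ∫ z, |B.hm s (Function.update u p v) p z -
      B.mh P s (Function.update u p v) p| ∂μ) ≤ 3 * V +
      η * (κ * (B.mh P s (Function.update u p (v + η)) p -
        B.mh P s (Function.update u p (v - η)) p)) := by
    unfold dlz at h1 h2 h3
    linarith
  rw [div_add' _ _ _ hη.ne', le_div_iff₀ hη]
  linarith

/-- Thermal part. -/
lemma thermal_le (hs : 0 < s) (p : Fin P) :
    ∫ v, ∫ z, B.hv s (Function.update u p v) p z ∂(B.jl (GI P B.d)) ∂nu12 ≤ 4 := by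
  have hκ := B.kap_pos s hs p
  have hmeas : Measurable fun q : ℝ × (B.Ω × (GI P B.d → ℝ)) =>
      B.hv s (Function.update u p q.1) p q.2 := by
    have h : Measurable fun q : ℝ × (B.Ω × (GI P B.d → ℝ)) =>
        (Function.update u p q.1, q.2) :=
      ((cont_upd u p).measurable.comp measurable_fst).prodMk measurable_snd
    have h2 := (B.jmeas_hv s p).comp h
    simp only [Function.comp_def] at h2
    exact h2
  have hint : Integrable (fun q : ℝ × (B.Ω × (GI P B.d → ℝ)) =>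
      B.hv s (Function.update u p q.1) p q.2) (nu12.prod (B.jl (GI P B.d))) := by
    refine ((B.int_hb_sq p).comp_snd nu12).mono' hmeas.aestronglyMeasurable
      (Filter.Eventually.of_forall fun q => ?_)
    rw [Real.norm_eq_abs, abs_of_nonneg (B.hv_nonneg s _ p q.2)]
    exact B.hv_le s _ p q.2
  rw [integral_integral_swap (f := fun v z => B.hv s (Function.update u p v) p z) hint]
  have e1 : ∀ z, ∫ v, B.hv s (Function.update u p v) p z ∂nu12 =
      (B.kap s p)⁻¹ * (B.hm s (Function.update u p 2) p z - B.hm s (Function.update u p 1) p z) := by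
    intro z
    rw [integral_nu12]
    have h := intervalIntegral.integral_eq_sub_of_hasDerivAt (a := 1) (b := 2)
      (f := fun v => B.hm s (Function.update u p v) p z)
      (f' := fun v => B.kap s p * B.hv s (Function.update u p v) p z)
      (fun v _ => B.hasDerivAt_hm s u p z v)
      ((continuous_const.mul ((B.cont_hv s p z).comp (cont_upd u p))).intervalIntegrable _ _)
    rw [intervalIntegral.integral_const_mul] at h
    rw [← h, ← mul_assoc, inv_mul_cancel₀ hκ.ne', one_mul]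
  simp only [e1]
  rw [integral_const_mul, integral_sub (B.int_hm s _ p) (B.int_hm s _ p), ← mh_eq_int,
    ← mh_eq_int]
  have h1 := B.mh_nonneg P s (Function.update u p 1) hs.le p (by simp)
  have h2 := B.mh_le P s (Function.update u p 2) hs.le p (by simp)
  rw [Function.update_self] at h2
  have h3 : 2 * (s * 2 * (1 / 2) ^ ((p : ℕ) + 1)) = B.kap s p * 4 := by
    unfold kap; ring
  rw [h3] at h2
  rw [inv_mul_le_iff₀ hκ]
  linarith

end Base

end Vale.Agent.P157.Par
end

section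

/-! Continuity in the parameters, and the average over all parameters of the fluctuation. -/

open MeasureTheory ProbabilityTheory Filter Topology
open scoped RealInnerProductSpace

namespace Vale.Agent.P157.Par

set_option linter.unusedSectionVars false

namespace Base

variable (B : Base) {P : ℕ} (s : ℝ) (u : Fin P → ℝ)

lemma cont_mh (p : Fin P) : Continuous fun u : Fin P → ℝ => B.mh P s u p := by
  simp only [mh_eq_int]
  refine continuous_of_dominated (bound := B.hb p)
    (fun u => (B.meas_hm s u p).aestronglyMeasurable)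
    (fun u => Filter.Eventually.of_forall fun z => ?_) (B.int_hb p)
    (Filter.Eventually.of_forall fun z => B.cont_hm s p z)
  rw [Real.norm_eq_abs]
  exact B.abs_hm_le s u p z

/-- The deviation as an integral. -/
lemma dev_eq_int (p : Fin P) (c : ℝ) : B.dev P s u p c =
    ∫ z, ∑ y, B.wt (B.coef P s u) z y * |B.hh p z.2 y - c| ∂(B.jl (GI P B.d)) := by
  rw [dev, sys_av, (B.isWt _).rav_marg (0 : Fin 1) (fun z x => |B.hh p z.2 x - c|)]

lemma int_devf (p : Fin P) (c : ℝ) : Integrable (fun z : B.Ω × (GI P B.d → ℝ) =>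
    ∑ y, B.wt (B.coef P s u) z y * |B.hh p z.2 y - c|) (B.jl (GI P B.d)) := by
  refine integrable_finsetSum _ fun y _ => ?_
  refine (integrable_mul_bdd ((B.int_hh P p y).sub (integrable_const c)).abs
    ((B.isWt (B.coef P s u)).meas y) 1 fun z => ?_).congr
    (Filter.Eventually.of_forall fun z => mul_comm _ _)
  rw [abs_of_nonneg ((B.isWt _).nn z y)]
  exact (B.isWt _).le_one z y

lemma sum_wt_mul_le (z : B.Ω × (GI P B.d → ℝ)) {f : B.X → ℝ} {C : ℝ} (hf : ∀ y, f y ≤ C) :
    ∑ y, B.wt (B.coef P s u) z y * f y ≤ C := by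
  calc _ ≤ ∑ y, B.wt (B.coef P s u) z y * C :=
        Finset.sum_le_sum fun y _ => mul_le_mul_of_nonneg_left (hf y) ((B.isWt _).nn z y)
    _ = C := by rw [← Finset.sum_mul, (B.isWt _).one z, one_mul]

lemma dev_nonneg (p : Fin P) (c : ℝ) : 0 ≤ B.dev P s u p c := by
  rw [dev_eq_int]
  exact integral_nonneg fun z => Finset.sum_nonneg fun y _ =>
    mul_nonneg ((B.isWt _).nn z y) (abs_nonneg _)

lemma cont_dev_const (p : Fin P) (c : ℝ) : Continuous fun u : Fin P → ℝ => B.dev P s u p c := by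
  simp only [dev_eq_int]
  refine continuous_of_dominated (bound := fun z => B.hb p z + |c|)
    (fun u => (B.int_devf s u p c).aestronglyMeasurable)
    (fun u => Filter.Eventually.of_forall fun z => ?_) ((B.int_hb p).add (integrable_const _))
    (Filter.Eventually.of_forall fun z => ?_)
  · rw [Real.norm_eq_abs, abs_of_nonneg (Finset.sum_nonneg fun y _ =>
      mul_nonneg ((B.isWt _).nn z y) (abs_nonneg _))]
    refine B.sum_wt_mul_le s u z fun y => ?_
    exact (abs_sub _ _).trans (add_le_add (B.abs_hh_le p z y) le_rfl)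
  · exact continuous_finsetSum _ fun y _ => (B.cont_gwt s z y).mul continuous_const

lemma abs_dev_sub_le (p : Fin P) (c c' : ℝ) :
    |B.dev P s u p c - B.dev P s u p c'| ≤ |c - c'| := by
  have key : ∀ c c' : ℝ, B.dev P s u p c ≤ B.dev P s u p c' + |c - c'| := by
    intro c c'
    rw [dev_eq_int, dev_eq_int]
    have h : ∫ _z : B.Ω × (GI P B.d → ℝ), |c - c'| ∂(B.jl (GI P B.d)) = |c - c'| := by simp
    rw [← h, ← integral_add (B.int_devf s u p c') (integrable_const _)]
    refine integral_mono (B.int_devf s u p c) ((B.int_devf s u p c').add (integrable_const _))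
      fun z => ?_
    simp only
    have e : |c - c'| = ∑ y, B.wt (B.coef P s u) z y * |c - c'| := by
      rw [← Finset.sum_mul, (B.isWt _).one z, one_mul]
    rw [e, ← Finset.sum_add_distrib]
    refine Finset.sum_le_sum fun y _ => ?_
    rw [← mul_add]
    refine mul_le_mul_of_nonneg_left ?_ ((B.isWt _).nn z y)
    have h1 : B.hh p z.2 y - c = (B.hh p z.2 y - c') + (c' - c) := by ring
    rw [h1, abs_sub_comm c c']
    exact abs_add_le _ _
  rw [abs_le]
  constructor
  · have := key c' c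
    rw [abs_sub_comm] at this
    linarith
  · have := key c c'
    linarith

/-- The fluctuation is continuous in the parameters. -/
lemma cont_dev (p : Fin P) :
    Continuous fun u : Fin P → ℝ => B.dev P s u p (B.mh P s u p) := by
  rw [continuous_iff_continuousAt]
  intro u
  have h1 : Tendsto (fun u' : Fin P → ℝ => B.dev P s u' p (B.mh P s u p)) (𝓝 u)
      (𝓝 (B.dev P s u p (B.mh P s u p))) := (B.cont_dev_const s p _).continuousAt
  have h2 : Tendsto (fun u' : Fin P → ℝ => B.dev P s u' p (B.mh P s u' p) -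
      B.dev P s u' p (B.mh P s u p)) (𝓝 u) (𝓝 0) := by
    have h3 : Tendsto (fun u' : Fin P → ℝ => |B.mh P s u' p - B.mh P s u p|) (𝓝 u) (𝓝 0) := by
      have h4 : Tendsto (fun u' : Fin P → ℝ => B.mh P s u' p) (𝓝 u) (𝓝 (B.mh P s u p)) :=
        (B.cont_mh s p).continuousAt
      have h5 := (h4.sub_const (B.mh P s u p)).abs
      simpa using h5
    refine squeeze_zero_norm (fun u' => ?_) h3
    rw [Real.norm_eq_abs]
    exact B.abs_dev_sub_le s u' p _ _
  have h6 := h2.add h1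
  simp only [sub_add_cancel, zero_add] at h6
  exact h6

lemma abs_lz_sub_le (u' : Fin P → ℝ) (z : B.Ω × (GI P B.d → ℝ)) :
    |B.lz s u z - B.lz s u' z| ≤ |s| * ∑ p, |u p - u' p| * B.hb p z := by
  unfold lz
  refine abs_glog_sub_le fun x => ?_
  rw [gen_eq, gen_eq]
  have h : B.H z.1 x + s * ∑ p : Fin P, u p * (1 / 2) ^ ((p : ℕ) + 1) * B.hh p z.2 x -
      (B.H z.1 x + s * ∑ p : Fin P, u' p * (1 / 2) ^ ((p : ℕ) + 1) * B.hh p z.2 x) =
      s * ∑ p : Fin P, (u p - u' p) * ((1 / 2) ^ ((p : ℕ) + 1) * B.hh p z.2 x) := by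
    rw [add_sub_add_left_eq_sub, ← mul_sub, ← Finset.sum_sub_distrib]
    congr 1
    exact Finset.sum_congr rfl fun p _ => by ring
  rw [h, abs_mul]
  refine mul_le_mul_of_nonneg_left ?_ (abs_nonneg _)
  refine (Finset.abs_sum_le_sum_abs _ _).trans (Finset.sum_le_sum fun p _ => ?_)
  rw [abs_mul, abs_mul]
  refine mul_le_mul_of_nonneg_left ?_ (abs_nonneg _)
  have h1 : |((1 : ℝ) / 2) ^ ((p : ℕ) + 1)| ≤ 1 := by
    rw [abs_of_pos (by positivity)]
    exact pow_le_one₀ (by norm_num) (by norm_num)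
  exact (mul_le_of_le_one_left (abs_nonneg _) h1).trans (B.abs_hh_le p z x)

/-- The expected free energy is continuous in the parameters. -/
lemma cont_elz : Continuous fun u : Fin P → ℝ => B.elz s u := by
  rw [continuous_iff_continuousAt]
  intro u
  have h0 : ∀ u' : Fin P → ℝ, |B.elz s u' - B.elz s u| ≤
      |s| * ∑ p, |u' p - u p| * ∫ z, B.hb p z ∂(B.jl (GI P B.d)) := by
    intro u'
    unfold elz
    rw [← integral_sub (B.int_lz s _) (B.int_lz s _)]
    refine (abs_integral_le_integral_abs).trans ?_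
    have hi : Integrable (fun z : B.Ω × (GI P B.d → ℝ) =>
        |s| * ∑ p, |u' p - u p| * B.hb p z) (B.jl (GI P B.d)) :=
      (integrable_finsetSum _ fun p _ => (B.int_hb p).const_mul _).const_mul _
    refine (integral_mono ((B.int_lz s _).sub (B.int_lz s _)).abs hi
      fun z => B.abs_lz_sub_le s u' u z).trans (le_of_eq ?_)
    rw [integral_const_mul, integral_finsetSum _ fun p _ => (B.int_hb p).const_mul _]
    congr 1
    exact Finset.sum_congr rfl fun p _ => integral_const_mul _ _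
  have h1 : Tendsto (fun u' : Fin P → ℝ => |s| * ∑ p, |u' p - u p| *
      ∫ z, B.hb p z ∂(B.jl (GI P B.d))) (𝓝 u) (𝓝 0) := by
    have hc : Continuous fun u' : Fin P → ℝ => |s| * ∑ p, |u' p - u p| *
        ∫ z, B.hb p z ∂(B.jl (GI P B.d)) :=
      continuous_const.mul (continuous_finsetSum _ fun p _ =>
        (((continuous_apply p).sub continuous_const).abs).mul continuous_const)
    have h2 := hc.tendsto u
    simpa using h2
  have h2 : Tendsto (fun u' => B.elz s u' - B.elz s u) (𝓝 u) (𝓝 0) :=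
    squeeze_zero_norm (fun u' => by rw [Real.norm_eq_abs]; exact h0 u') h1
  have h3 := h2.add_const (B.elz s u)
  simp only [sub_add_cancel, zero_add] at h3
  exact h3

/-- Average over one parameter. -/
lemma integral_dev_one (hs : 0 < s) (p : Fin P) {η V : ℝ} (h0 : 0 < η) (h1 : η ≤ 1)
    (hu : ∀ q, 0 ≤ u q ∧ u q ≤ 3)
    (hV : ∀ u : Fin P → ℝ, (∀ q, 0 ≤ u q ∧ u q ≤ 3) → B.dlz s u ≤ V) :
    ∫ v, B.dev P s (Function.update u p v) p (B.mh P s (Function.update u p v) p) ∂nu12 ≤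
      5 / 2 + 3 * V / (η * B.kap s p) + 12 * η * B.kap s p := by
  have hκ := B.kap_pos s hs p
  have hupd : ∀ v : ℝ, 0 ≤ v → v ≤ 3 → ∀ q, 0 ≤ Function.update u p v q ∧
      Function.update u p v q ≤ 3 := by
    intro v hv0 hv3 q
    by_cases h : q = p
    · subst h
      simp [hv0, hv3]
    · rw [Function.update_of_ne h]
      exact hu q
  have hmeas : Measurable fun q : ℝ × (B.Ω × (GI P B.d → ℝ)) =>
      B.hv s (Function.update u p q.1) p q.2 := by
    have h : Measurable fun q : ℝ × (B.Ω × (GI P B.d → ℝ)) =>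
        (Function.update u p q.1, q.2) :=
      ((cont_upd u p).measurable.comp measurable_fst).prodMk measurable_snd
    have h2 := (B.jmeas_hv s p).comp h
    simp only [Function.comp_def] at h2
    exact h2
  have hint : Integrable (fun q : ℝ × (B.Ω × (GI P B.d → ℝ)) =>
      B.hv s (Function.update u p q.1) p q.2) (nu12.prod (B.jl (GI P B.d))) := by
    refine ((B.int_hb_sq p).comp_snd nu12).mono' hmeas.aestronglyMeasurable
      (Filter.Eventually.of_forall fun q => ?_)
    rw [Real.norm_eq_abs, abs_of_nonneg (B.hv_nonneg s _ p q.2)]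
    exact B.hv_le s _ p q.2
  have hi1 : Integrable (fun v => ∫ z, B.hv s (Function.update u p v) p z
      ∂(B.jl (GI P B.d))) nu12 := hint.integral_prod_left
  have hcont : Continuous fun v => B.mh P s (Function.update u p v) p :=
    (B.cont_mh s p).comp (cont_upd u p)
  have hi2 : Integrable (fun v => B.mh P s (Function.update u p (v + η)) p -
      B.mh P s (Function.update u p (v - η)) p) nu12 := by
    have hc : Continuous fun v => B.mh P s (Function.update u p (v + η)) p -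
      B.mh P s (Function.update u p (v - η)) p :=
      (hcont.comp (continuous_id.add continuous_const)).sub
        (hcont.comp (continuous_id.sub continuous_const))
    exact hc.continuousOn.integrableOn_compact isCompact_Icc
  have hb : ∀ᵐ v ∂nu12, B.dev P s (Function.update u p v) p
      (B.mh P s (Function.update u p v) p) ≤
      1 / 2 + (∫ z, B.hv s (Function.update u p v) p z ∂(B.jl (GI P B.d))) / 2 +
      (3 * V / (η * B.kap s p) + (B.mh P s (Function.update u p (v + η)) p -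
      B.mh P s (Function.update u p (v - η)) p)) := by
    filter_upwards [ae_restrict_mem measurableSet_Icc] with v hv
    have t1 := B.dev_le s (Function.update u p v) p (B.mh P s (Function.update u p v) p)
    have t2 := B.disorder_le s u hs.le p h0
      (hV _ (hupd v (by linarith only [hv.1]) (by linarith [hv.2])))
      (hV _ (hupd (v + η) (by linarith [hv.1]) (by linarith [hv.2])))
      (hV _ (hupd (v - η) (by linarith [hv.1]) (by linarith [hv.2])))
    have t3 : ∫ z, |B.hm s (Function.update u p v) p z - B.mh P s (Function.update u p v) p|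
        ∂(B.jl (GI P B.d)) ≤ 3 * V / (η * B.kap s p) +
        (B.mh P s (Function.update u p (v + η)) p -
          B.mh P s (Function.update u p (v - η)) p) := by
      rw [← mul_le_mul_iff_of_pos_left hκ]
      refine t2.trans (le_of_eq ?_)
      field_simp
    linarith
  have hj1 : Integrable (fun v => 1 / 2 + (∫ z, B.hv s (Function.update u p v) p z
      ∂(B.jl (GI P B.d))) / 2) nu12 := (integrable_const _).add (hi1.div_const 2)
  have hj2 : Integrable (fun v => 3 * V / (η * B.kap s p) +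
      (B.mh P s (Function.update u p (v + η)) p -
      B.mh P s (Function.update u p (v - η)) p)) nu12 := (integrable_const _).add hi2
  have hi3 : Integrable (fun v => 1 / 2 + (∫ z, B.hv s (Function.update u p v) p z
      ∂(B.jl (GI P B.d))) / 2 +
      (3 * V / (η * B.kap s p) + (B.mh P s (Function.update u p (v + η)) p -
      B.mh P s (Function.update u p (v - η)) p))) nu12 := hj1.add hj2
  refine (integral_mono_of_nonneg (Filter.Eventually.of_forall fun v => B.dev_nonneg s _ p _)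
    hi3 hb).trans ?_
  rw [integral_add hj1 hj2, integral_add (integrable_const _) (hi1.div_const 2),
    integral_add (integrable_const _) hi2]
  simp only [integral_div, integral_const, probReal_univ, smul_eq_mul, one_mul]
  have t4 := B.thermal_le s u hs p
  have t5 := mono_increment (B.mh_mono s u hs.le p) h0 h1 (L := 6 * B.kap s p)
    (fun v hv => B.mh_nonneg P s _ hs.le p (by rw [Function.update_self]; exact hv)) (by
      have h2 := B.mh_le P s (Function.update u p 3) hs.le p (by simp)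
      rw [Function.update_self] at h2
      refine h2.trans (le_of_eq ?_)
      unfold kap; ring)
  linarith only [t5, t4]

end Base

section Resample

variable {E : Type*} [MeasurableSpace E] {ι : Type*} [Fintype ι] [DecidableEq ι]

lemma measurable_upd' (e : ι) :
    Measurable (fun q : (ι → E) × E => Function.update q.1 e q.2) := by
  rw [measurable_pi_iff]
  intro i
  by_cases h : i = e
  · subst h
    simp only [Function.update_self]
    exact measurable_snd
  · simp only [Function.update_of_ne h]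
    exact (measurable_pi_apply i).comp measurable_fst

/-- Resampling one coordinate. -/
lemma map_update' (μ : Measure E) [IsProbabilityMeasure μ] (e : ι) :
    ((Measure.pi fun _ : ι => μ).prod μ).map
      (fun q : (ι → E) × E => Function.update q.1 e q.2) = Measure.pi fun _ : ι => μ := by
  symm
  apply Measure.pi_eq
  intro s hs
  rw [Measure.map_apply (measurable_upd' e) (MeasurableSet.univ_pi hs)]
  have h1 : (fun q : (ι → E) × E => Function.update q.1 e q.2) ⁻¹' (Set.univ.pi s)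
      = (Set.univ.pi (Function.update s e Set.univ)) ×ˢ (s e) := by
    ext ⟨J, x⟩
    simp only [Set.mem_preimage, Set.mem_pi, Set.mem_univ, forall_true_left, Set.mem_prod]
    constructor
    · intro h
      refine ⟨fun i => ?_, ?_⟩
      · by_cases hi : i = e
        · subst hi; simp
        · have := h i
          simpa [Function.update_of_ne hi] using this
      · simpa using h e
    · rintro ⟨h, h'⟩ i
      by_cases hi : i = e
      · subst hi; simpa using h'
      · have := h i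
        simpa [Function.update_of_ne hi] using this
  rw [h1, Measure.prod_prod, Measure.pi_pi]
  rw [← Finset.prod_erase_mul _ _ (Finset.mem_univ e),
    ← Finset.prod_erase_mul (s := Finset.univ) (a := e) _ (Finset.mem_univ e)]
  simp only [Function.update_self, measure_univ, mul_one]
  congr 1
  apply Finset.prod_congr rfl
  intro i hi
  rw [Function.update_of_ne (Finset.ne_of_mem_erase hi)]

lemma integral_resample (μ : Measure E) [IsProbabilityMeasure μ] (e : ι) {F : (ι → E) → ℝ}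
    (hF : Integrable F (Measure.pi fun _ : ι => μ)) :
    ∫ J, F J ∂(Measure.pi fun _ : ι => μ) =
      ∫ J, ∫ x, F (Function.update J e x) ∂μ ∂(Measure.pi fun _ : ι => μ) := by
  have hF' : Integrable F (((Measure.pi fun _ : ι => μ).prod μ).map
      (fun q : (ι → E) × E => Function.update q.1 e q.2)) := by
    rw [map_update']; exact hF
  conv_lhs => rw [← map_update' μ e]
  rw [integral_map (measurable_upd' e).aemeasurable hF'.aestronglyMeasurable]
  rw [integral_prod]
  exact (integrable_map_measure hF'.aestronglyMeasurable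
    (measurable_upd' e).aemeasurable).mp hF'

end Resample

/-- The average over all parameters in `[1,2]`. -/
noncomputable abbrev nuP (P : ℕ) : Measure (Fin P → ℝ) := Measure.pi fun _ : Fin P => nu12

lemma nuP_eq (P : ℕ) : nuP P = volume.restrict (Set.univ.pi fun _ : Fin P => Set.Icc 1 2) := by
  rw [volume_pi, Measure.restrict_pi_pi]

lemma ae_nuP (P : ℕ) : ∀ᵐ u ∂(nuP P), ∀ q, 1 ≤ u q ∧ u q ≤ 2 := by
  rw [nuP_eq]
  filter_upwards [ae_restrict_mem (MeasurableSet.univ_pi fun _ => measurableSet_Icc)] with u hu q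
  exact hu q (Set.mem_univ q)

lemma int_nuP {P : ℕ} {f : (Fin P → ℝ) → ℝ} (hf : Continuous f) : Integrable f (nuP P) := by
  rw [nuP_eq]
  exact hf.continuousOn.integrableOn_compact (isCompact_univ_pi fun _ => isCompact_Icc)

/-- The average over all parameters of the fluctuation of the `p`-th process. -/
theorem Base.integral_dev_le (B : Base) {P : ℕ} (s : ℝ) (hs : 0 < s) (p : Fin P) {η V : ℝ}
    (h0 : 0 < η) (h1 : η ≤ 1)
    (hV : ∀ u : Fin P → ℝ, (∀ q, 0 ≤ u q ∧ u q ≤ 3) → B.dlz s u ≤ V) :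
    ∫ u, B.dev P s u p (B.mh P s u p) ∂(nuP P) ≤
      5 / 2 + 3 * V / (η * B.kap s p) + 12 * η * B.kap s p := by
  rw [integral_resample nu12 p (int_nuP (B.cont_dev s p))]
  have hb : ∀ᵐ u ∂(nuP P), ∫ v, B.dev P s (Function.update u p v) p
      (B.mh P s (Function.update u p v) p) ∂nu12 ≤
      5 / 2 + 3 * V / (η * B.kap s p) + 12 * η * B.kap s p := by
    filter_upwards [ae_nuP P] with u hu
    exact B.integral_dev_one s u hs p h0 h1 (fun q => ⟨by linarith [(hu q).1],
      by linarith [(hu q).2]⟩) hV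
  refine (integral_mono_of_nonneg (Filter.Eventually.of_forall fun u => ?_)
    (integrable_const _) hb).trans (by simp)
  exact integral_nonneg fun v => B.dev_nonneg s _ p _

end Vale.Agent.P157.Par
end

section

/-! Concentration of the free energy of the perturbed system, for flat features. -/

open MeasureTheory ProbabilityTheory Filter Topology
open scoped RealInnerProductSpace

namespace Vale.Agent.P157.Par

set_option linter.unusedSectionVars false

/-- Functions of the base disorder which vary less than the Hamiltonian have variance at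
most `v`. -/
def Base.Conc (B : Base) (v : ℝ) : Prop :=
  ∀ g : B.Ω → ℝ, Measurable g → MemLp g 2 B.P →
    (∀ ω ω' C, (∀ x, |B.H ω x - B.H ω' x| ≤ C) → |g ω - g ω'| ≤ C) → VV B.P g ≤ v

/-- The base whose disorder consists of `M` independent patterns. -/
noncomputable def patBase {E : Type} [mE : MeasurableSpace E] (μ : Measure E) [hμ : IsProbabilityMeasure μ]
    (M : ℕ) {X : Type} [fX : Fintype X] [nX : Nonempty X] (H : (Fin M → E) → X → ℝ)
    (hH : ∀ x, Measurable fun ω => H ω x) (K : ℝ) (hK : ∀ ω x, |H ω x| ≤ K) {d : ℕ}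
    (φ : X → EuclideanSpace ℝ (Fin d)) (hφ : ∀ x, ‖φ x‖ = 1) : Base where
  Ω := Fin M → E
  mΩ := inferInstance
  P := Measure.pi fun _ => μ
  hP := inferInstance
  X := X
  fX := fX
  nX := nX
  H := H
  hH := hH
  K := K
  hK := hK
  d := d
  φ := φ
  hφ := hφ

lemma conc_patBase {E : Type} [mE : MeasurableSpace E] (μ : Measure E)
    [hμ : IsProbabilityMeasure μ]
    (M : ℕ) {X : Type} [fX : Fintype X] [nX : Nonempty X] (H : (Fin M → E) → X → ℝ)
    (hH : ∀ x, Measurable fun ω => H ω x) (K : ℝ) (hK : ∀ ω x, |H ω x| ≤ K) {d : ℕ}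
    (φ : X → EuclideanSpace ℝ (Fin d)) (hφ : ∀ x, ‖φ x‖ = 1) {L : ℝ}
    (hd : ∀ ω a e x, |H (Function.update ω a e) x - H ω x| ≤ L) :
    (patBase μ M H hH K hK φ hφ).Conc (M * L ^ 2) := by
  intro g hg hg2 hgd
  have h := ES_pi μ (ι := Fin M) (ρ := fun _ => 1) (f := g) (by simp) (by simp) hg2
    (fun _ => L) (fun ω a e => by
      rw [mul_one]
      refine hgd ω (Function.update ω a e) L fun x => ?_
      rw [abs_sub_comm]
      exact hd ω a e x)
  have h' : VV (Measure.pi fun _ : Fin M => μ) g ≤ M * L ^ 2 := by simpa using h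
  exact h'

namespace Base

variable (B : Base) {P : ℕ} (s : ℝ) (u : Fin P → ℝ)

lemma gen_update_sub (ω : B.Ω) (a : GI P B.d → B.X → ℝ) (g : GI P B.d → ℝ) (e : GI P B.d)
    (y : ℝ) (x : B.X) :
    gen (B.H ω) a g x - gen (B.H ω) a (Function.update g e y) x = (g e - y) * a e x := by
  classical
  have h1 := gen_update (B.H ω) a g e y
  have h2 := gen_update (B.H ω) a g e (g e)
  rw [Function.update_eq_self] at h2
  rw [h1, h2]
  ring

lemma lz_update_le (ω : B.Ω) (g : GI P B.d → ℝ) (e : GI P B.d) (y : ℝ) {A : ℝ}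
    (hA : ∀ x, |B.coef P s u e x| ≤ A) :
    |B.lz s u (ω, g) - B.lz s u (ω, Function.update g e y)| ≤ A * |g e - y| := by
  unfold lz
  refine abs_glog_sub_le fun x => ?_
  rw [gen_update_sub, abs_mul, mul_comm]
  exact mul_le_mul_of_nonneg_right (hA x) (abs_nonneg _)

lemma lz_base_le (ω ω' : B.Ω) (g : GI P B.d → ℝ) {C : ℝ}
    (hC : ∀ x, |B.H ω x - B.H ω' x| ≤ C) :
    |B.lz s u (ω, g) - B.lz s u (ω', g)| ≤ C := by
  unfold lz
  refine abs_glog_sub_le fun x => ?_
  unfold gen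
  simp only [add_sub_add_right_eq_sub]
  exact hC x

lemma gauss_pair : Integrable (fun z : ℝ × ℝ => |z.1 - z.2| ^ 2)
    ((gaussianReal 0 1).prod (gaussianReal 0 1)) ∧
    ∫ z : ℝ × ℝ, |z.1 - z.2| ^ 2 ∂((gaussianReal 0 1).prod (gaussianReal 0 1)) ≤ 2 := by
  have h : MemLp (fun x : ℝ => x) 2 (gaussianReal 0 1) := memLp_id_gaussianReal 2
  constructor
  · simp only [sq_abs]
    exact ((h.comp_fst _).sub (h.comp_snd _)).integrable_sq
  · simp only [sq_abs]
    rw [VV_pair (gaussianReal 0 1) h]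
    have h1 : VV (gaussianReal 0 1) (fun x : ℝ => x) = 1 := by
      rw [VV_eq _ h]
      have h2 := variance_eq_integral (μ := gaussianReal 0 1) (X := fun x : ℝ => x)
        measurable_id.aemeasurable
      rw [← h2]
      exact variance_fun_id_gaussianReal
    rw [h1]
    norm_num

/-- The coefficients are small if the features are flat. -/
lemma coef_le_of_flat (hflat : ∀ x i, B.φ x i ^ 2 ≤ 1 / B.d) (e : GI P B.d) (x : B.X) :
    |B.coef P s u e x| ≤ |s * u e.1 * (1 / 2) ^ ((e.1 : ℕ) + 1)| *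
      Real.sqrt ((1 / B.d) ^ ((e.1 : ℕ) + 1)) := by
  unfold coef
  rw [abs_mul]
  refine mul_le_mul_of_nonneg_left ?_ (abs_nonneg _)
  refine Real.le_sqrt_of_sq_le ?_
  rw [sq_abs, ← Finset.prod_pow]
  calc ∏ r, B.φ x (e.2 r) ^ 2 ≤ ∏ _r : Fin ((e.1 : ℕ) + 1), (1 / (B.d : ℝ)) :=
        Finset.prod_le_prod (fun _ _ => sq_nonneg _) fun r _ => hflat x _
    _ = _ := by simp

lemma d_pos : 0 < B.d := by
  rcases Nat.eq_zero_or_pos B.d with h | h
  · exfalso
    obtain ⟨x⟩ := B.nX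
    have h1 := B.hφ x
    have h2 : B.φ x = 0 := by
      ext i
      exact absurd i.2 (by omega)
    rw [h2, norm_zero] at h1
    exact zero_ne_one h1
  · exact h

lemma sum_coef_sq (hu : ∀ q, 0 ≤ u q ∧ u q ≤ 3) :
    ∑ e : GI P B.d, (|s * u e.1 * (1 / 2) ^ ((e.1 : ℕ) + 1)| *
      Real.sqrt ((1 / B.d) ^ ((e.1 : ℕ) + 1))) ^ 2 ≤ 3 * s ^ 2 := by
  have hd : (0 : ℝ) < B.d := by exact_mod_cast B.d_pos
  have e1 : ∀ e : GI P B.d, (|s * u e.1 * (1 / 2) ^ ((e.1 : ℕ) + 1)| *
      Real.sqrt ((1 / B.d) ^ ((e.1 : ℕ) + 1))) ^ 2 =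
      s ^ 2 * u e.1 ^ 2 * (1 / 4) ^ ((e.1 : ℕ) + 1) * (1 / B.d) ^ ((e.1 : ℕ) + 1) := by
    intro e
    rw [mul_pow, sq_abs, Real.sq_sqrt (by positivity), mul_pow, mul_pow, ← pow_mul,
      mul_comm _ 2, pow_mul]
    norm_num
  simp only [e1]
  rw [Fintype.sum_sigma]
  have e2 : ∀ p : Fin P, ∑ _k : Fin ((p : ℕ) + 1) → Fin B.d,
      s ^ 2 * u p ^ 2 * (1 / 4) ^ ((p : ℕ) + 1) * (1 / (B.d : ℝ)) ^ ((p : ℕ) + 1) =
      s ^ 2 * (u p ^ 2 * (1 / 4) ^ ((p : ℕ) + 1)) := by
    intro p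
    rw [Finset.sum_const, Finset.card_univ, Fintype.card_fun, Fintype.card_fin,
      Fintype.card_fin, nsmul_eq_mul]
    push_cast
    have h : (B.d : ℝ) ^ ((p : ℕ) + 1) * (1 / (B.d : ℝ)) ^ ((p : ℕ) + 1) = 1 := by
      rw [← mul_pow, mul_one_div_cancel hd.ne', one_pow]
    calc _ = ((B.d : ℝ) ^ ((p : ℕ) + 1) * (1 / (B.d : ℝ)) ^ ((p : ℕ) + 1)) *
          (s ^ 2 * (u p ^ 2 * (1 / 4) ^ ((p : ℕ) + 1))) := by ring
      _ = _ := by rw [h, one_mul]
  simp only [e2]
  rw [← Finset.mul_sum]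
  have e3 : ∑ p : Fin P, u p ^ 2 * (1 / 4 : ℝ) ^ ((p : ℕ) + 1) ≤ 3 := by
    calc ∑ p : Fin P, u p ^ 2 * (1 / 4 : ℝ) ^ ((p : ℕ) + 1)
        ≤ ∑ p : Fin P, 9 * (1 / 4 : ℝ) ^ ((p : ℕ) + 1) := by
          refine Finset.sum_le_sum fun p _ => mul_le_mul_of_nonneg_right ?_ (by positivity)
          have := hu p
          nlinarith
      _ = 9 / 4 * ∑ p : Fin P, (1 / 4 : ℝ) ^ (p : ℕ) := by
          rw [Finset.mul_sum]
          exact Finset.sum_congr rfl fun p _ => by ring
      _ = 9 / 4 * ∑ p ∈ Finset.range P, (1 / 4 : ℝ) ^ p := by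
          rw [Fin.sum_univ_eq_sum_range (fun p => (1 / 4 : ℝ) ^ p)]
      _ ≤ 9 / 4 * (4 / 3) := by
          refine mul_le_mul_of_nonneg_left ?_ (by norm_num)
          rw [geom_sum_eq (by norm_num)]
          have : (0 : ℝ) ≤ (1 / 4) ^ P := by positivity
          rw [div_le_iff_of_neg (by norm_num)]
          linarith
      _ = 3 := by norm_num
  calc s ^ 2 * ∑ p : Fin P, u p ^ 2 * (1 / 4 : ℝ) ^ ((p : ℕ) + 1) ≤ s ^ 2 * 3 :=
        mul_le_mul_of_nonneg_left e3 (sq_nonneg _)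
    _ = 3 * s ^ 2 := by ring

lemma int_lz_section (ω : B.Ω) :
    Integrable (fun g => B.lz s u (ω, g)) (P367.GT.gM (GI P B.d)) := by
  have hm : Measurable fun g : GI P B.d → ℝ => B.lz s u (ω, g) :=
    (B.meas_lz s u).comp measurable_prodMk_left
  have hc : ∀ e : GI P B.d, Integrable (fun g : GI P B.d → ℝ => |g e|)
      (P367.GT.gM (GI P B.d)) := fun e =>
    (integrable_comp_eval (μ := fun _ : GI P B.d => gaussianReal 0 1) (i := e) (f := fun x => x)
      ((memLp_id_gaussianReal 1).integrable le_rfl)).abs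
  have hb : ∀ p : Fin P, Integrable (fun g : GI P B.d → ℝ => B.hb p (ω, g))
      (P367.GT.gM (GI P B.d)) := fun p => by
    unfold hb
    exact integrable_finsetSum _ fun k _ => hc ⟨p, k⟩
  have hi : Integrable (fun g : GI P B.d → ℝ => |Real.log (Fintype.card B.X)| +
      (B.K + |s| * ∑ p, |u p| * B.hb p (ω, g))) (P367.GT.gM (GI P B.d)) := by
    have h1 : Integrable (fun g : GI P B.d → ℝ => ∑ p, |u p| * B.hb p (ω, g))
        (P367.GT.gM (GI P B.d)) := integrable_finsetSum _ fun p _ => (hb p).const_mul _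
    have h2 : Integrable (fun g : GI P B.d → ℝ => B.K + |s| * ∑ p, |u p| * B.hb p (ω, g))
        (P367.GT.gM (GI P B.d)) := (integrable_const _).add (h1.const_mul _)
    exact (integrable_const _).add h2
  refine hi.mono' hm.aestronglyMeasurable (Filter.Eventually.of_forall fun g => ?_)
  rw [Real.norm_eq_abs]
  exact B.abs_lz_le s u (ω, g)

/-- The variance of the free energy of the perturbed system. -/
theorem VV_lz_le {v : ℝ} (hc : B.Conc v) (hflat : ∀ x i, B.φ x i ^ 2 ≤ 1 / B.d)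
    (hu : ∀ q, 0 ≤ u q ∧ u q ≤ 3) : VV (B.jl (GI P B.d)) (B.lz s u) ≤ 3 * s ^ 2 + v := by
  classical
  refine VV_prod_le B.P (P367.GT.gM (GI P B.d)) (B.memLp_lz s u) ?_ ?_
  · intro ω hω
    refine (ES_pi (gaussianReal 0 1) (ρ := fun z => |z.1 - z.2|) gauss_pair.1 gauss_pair.2 hω
      (fun e => |s * u e.1 * (1 / 2) ^ ((e.1 : ℕ) + 1)| *
        Real.sqrt ((1 / B.d) ^ ((e.1 : ℕ) + 1))) (fun g e y => ?_)).trans
      (B.sum_coef_sq s u hu)
    exact B.lz_update_le s u ω g e y fun x => B.coef_le_of_flat s u hflat e x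
  · intro hg
    refine hc _ ?_ hg ?_
    · exact ((B.meas_lz s u).stronglyMeasurable.integral_prod_right'
        (ν := P367.GT.gM (GI P B.d))).measurable
    · intro ω ω' C hC
      have hi : ∀ ω, Integrable (fun y => B.lz s u (ω, y)) (P367.GT.gM (GI P B.d)) := by
        intro ω
        exact B.int_lz_section s u ω
      rw [← integral_sub (hi ω) (hi ω')]
      refine (abs_integral_le_integral_abs).trans ?_
      have h4 := integral_mono ((hi ω).sub (hi ω')).abs
          (integrable_const (μ := P367.GT.gM (GI P B.d)) C)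
          (fun g => B.lz_base_le s u ω ω' g hC)
      simpa using h4

/-- The expected deviation of the free energy of the perturbed system. -/
theorem dlz_le {v : ℝ} (hc : B.Conc v) (hflat : ∀ x i, B.φ x i ^ 2 ≤ 1 / B.d)
    (hu : ∀ q, 0 ≤ u q ∧ u q ≤ 3) : B.dlz s u ≤ Real.sqrt (3 * s ^ 2 + v) :=
  (l1_le_sqrt_VV (B.jl (GI P B.d)) (B.memLp_lz s u)).trans
    (Real.sqrt_le_sqrt (B.VV_lz_le s u hc hflat hu))

/-- The average over the parameters of the fluctuation of the `p`-th process. -/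
theorem integral_dev_le_flat (hs : 0 < s) (p : Fin P) {η v : ℝ} (h0 : 0 < η) (h1 : η ≤ 1)
    (hc : B.Conc v) (hflat : ∀ x i, B.φ x i ^ 2 ≤ 1 / B.d) :
    ∫ u, B.dev P s u p (B.mh P s u p) ∂(nuP P) ≤
      5 / 2 + 3 * Real.sqrt (3 * s ^ 2 + v) / (η * (s * (1 / 2) ^ ((p : ℕ) + 1))) +
        12 * η * (s * (1 / 2) ^ ((p : ℕ) + 1)) :=
  B.integral_dev_le s hs p h0 h1 fun u hu => B.dlz_le s u hc hflat hu

/-- Convenient form: if `v ≤ A d`, `1 ≤ s`, `s^2 ≤ d` and `d^(1/2) ≤ s^2`, then the average over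
the parameters of the fluctuation of the `p`-th process is at most `C d^(1/4)`. -/
theorem integral_dev_le_sqrt (hs : 1 ≤ s) (p : Fin P) {A : ℝ} (hA : 0 ≤ A)
    (hc : B.Conc (A * B.d)) (hflat : ∀ x i, B.φ x i ^ 2 ≤ 1 / B.d)
    (hs1 : s ^ 2 ≤ B.d) (hs2 : Real.sqrt B.d ≤ s ^ 2) :
    ∫ u, B.dev P s u p (B.mh P s u p) ∂(nuP P) ≤
      2 ^ ((p : ℕ) + 1) * (15 + 3 * Real.sqrt (3 + A)) * Real.sqrt (Real.sqrt B.d) := by
  have hd1 : (1 : ℝ) ≤ B.d := by exact_mod_cast B.d_pos
  have hs0 : 0 < s := by linarith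
  set q := Real.sqrt (Real.sqrt B.d) with hq
  have hq4 : q ^ 2 = Real.sqrt B.d := Real.sq_sqrt (Real.sqrt_nonneg _)
  have hsd : Real.sqrt B.d ^ 2 = B.d := Real.sq_sqrt (by linarith)
  have hq1 : 1 ≤ q := by
    rw [hq]
    exact Real.one_le_sqrt.2 (Real.one_le_sqrt.2 hd1)
  have hqs : q ≤ s := by
    rw [← hq4] at hs2
    exact (sq_le_sq₀ (by linarith) hs0.le).1 hs2
  have h := B.integral_dev_le_flat s hs0 p (η := q / s) (by positivity)
    (by rw [div_le_one hs0]; exact hqs) hc hflat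
  refine h.trans ?_
  have hc1 : (0 : ℝ) < (1 / 2) ^ ((p : ℕ) + 1) := by positivity
  have hc2 : ((1 : ℝ) / 2) ^ ((p : ℕ) + 1) ≤ 1 := pow_le_one₀ (by norm_num) (by norm_num)
  have hc3 : (2 : ℝ) ^ ((p : ℕ) + 1) * (1 / 2) ^ ((p : ℕ) + 1) = 1 := by
    rw [← mul_pow]; norm_num
  have hc4 : (1 : ℝ) ≤ 2 ^ ((p : ℕ) + 1) := one_le_pow₀ (by norm_num)
  have b1 : Real.sqrt (3 * s ^ 2 + A * B.d) ≤ Real.sqrt (3 + A) * q ^ 2 := by
    rw [hq4, ← Real.sqrt_mul (by linarith only [hA])]
    exact Real.sqrt_le_sqrt (by linarith only [hs1])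
  have e1 : q / s * (s * (1 / 2) ^ ((p : ℕ) + 1)) = q * (1 / 2) ^ ((p : ℕ) + 1) := by
    field_simp
  have e2 : 12 * (q / s) * (s * (1 / 2) ^ ((p : ℕ) + 1)) = 12 * (q * (1 / 2) ^ ((p : ℕ) + 1)) := by
    rw [mul_assoc, e1]
  rw [e1, e2]
  have b2 : 3 * Real.sqrt (3 * s ^ 2 + A * B.d) / (q * (1 / 2) ^ ((p : ℕ) + 1)) ≤
      2 ^ ((p : ℕ) + 1) * (3 * Real.sqrt (3 + A)) * q := by
    rw [div_le_iff₀ (by positivity)]
    calc 3 * Real.sqrt (3 * s ^ 2 + A * B.d) ≤ 3 * (Real.sqrt (3 + A) * q ^ 2) := by linarith only [b1]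
      _ = (2 ^ ((p : ℕ) + 1) * (1 / 2) ^ ((p : ℕ) + 1)) * (3 * (Real.sqrt (3 + A) * q ^ 2)) := by
          rw [hc3, one_mul]
      _ = _ := by ring
  have b3 : (5 : ℝ) / 2 ≤ 3 * (2 ^ ((p : ℕ) + 1) * q) := by linarith only [mul_nonneg (sub_nonneg.2 hq1) (sub_nonneg.2 hc4), hc4, hq1]
  have b4 : 12 * (q * (1 / 2) ^ ((p : ℕ) + 1)) ≤ 12 * (2 ^ ((p : ℕ) + 1) * q) := by nlinarith only [hc2, hc4, hq1]
  linarith only [b2, b3, b4]

end Base

end Vale.Agent.P157.Par
end

section

/-! Ghirlanda-Guerra identities for perturbed systems.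

Main results (namespace `Vale.Agent.P157.Par`):
* `Base`, `Base.sys B P s u : Sys` (the perturbed system), `Base.sys_w` (its weights),
* `Base.ggDefect_le`, `Base.ggDefect_le_mh`, `Sys.ggDefect_zero`,
* `patBase`, `conc_patBase` (independent patterns),
* `Base.integral_dev_le`, `Base.integral_dev_le_flat`, `Base.integral_dev_le_sqrt`,
* `Base.cont_dev`, `Base.cont_mh`, `Base.cont_elz`, `nuP`, `ae_nuP`, `int_nuP`,
* `asympGG_of_dev`. -/

open MeasureTheory ProbabilityTheory Filter Topology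
open scoped RealInnerProductSpace

namespace Vale.Agent.P157.Par

/-- If the fluctuations of the perturbations are small compared to `s N`, the Ghirlanda-Guerra
identities hold asymptotically for all monomials. -/
theorem asympGG_of_dev {U : Ultrafilter ℕ} (B : ℕ → Base) (P : ℕ → ℕ) (s : ℕ → ℝ)
    (u : ∀ N, Fin (P N) → ℝ) (hs : ∀ᶠ N in (U : Filter ℕ), 0 < s N)
    (hu : ∀ᶠ N in (U : Filter ℕ), ∀ q, 1 ≤ u N q) (c : ∀ N, Fin (P N) → ℝ)
    (hP : ∀ p : ℕ, ∀ᶠ N in (U : Filter ℕ), p < P N)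
    (hdev : ∀ (p : ℕ) (ε : ℝ), 0 < ε → ∀ᶠ N in (U : Filter ℕ), ∀ h : p < P N,
      (B N).dev (P N) (s N) (u N) ⟨p, h⟩ (c N ⟨p, h⟩) ≤ ε * s N) (p : ℕ) :
    AsympGG U (fun N => (B N).sys (P N) (s N) (u N)) (fun x => x ^ p) := by
  intro n i ε hε
  cases p with
  | zero =>
    refine Filter.Eventually.of_forall fun N F _ => ?_
    rw [Sys.ggDefect_zero]
    simpa using hε.le
  | succ p =>
    filter_upwards [hs, hu, hP p, hdev p (ε / (2 * 2 ^ (p + 1))) (by positivity)]
      with N hsN huN hPN hdN F hF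
    have h := (B N).ggDefect_le (P N) (s N) (u N) hsN ⟨p, hPN⟩
      (by linarith [huN ⟨p, hPN⟩]) (c N ⟨p, hPN⟩) i F hF
    refine h.trans ?_
    have hd := hdN hPN
    have h2 : (0 : ℝ) < (1 / 2) ^ (p + 1) := by positivity
    have h3 : (2 : ℝ) ^ (p + 1) * (1 / 2) ^ (p + 1) = 1 := by rw [← mul_pow]; norm_num
    have huq := huN ⟨p, hPN⟩
    have hden : 0 < s N * u N ⟨p, hPN⟩ * (1 / 2) ^ (p + 1) := by positivity
    rw [div_le_iff₀ hden]
    have h4 : 2 * (ε / (2 * 2 ^ (p + 1)) * s N) = ε * (s N * 1 * (1 / 2) ^ (p + 1)) := by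
      have h5 : ((1 : ℝ) / 2) ^ (p + 1) = 1 / 2 ^ (p + 1) := by rw [one_div_pow]
      rw [h5]
      field_simp
    calc 2 * (B N).dev (P N) (s N) (u N) ⟨p, hPN⟩ (c N ⟨p, hPN⟩)
        ≤ 2 * (ε / (2 * 2 ^ (p + 1)) * s N) := by linarith only [hd]
      _ = ε * (s N * 1 * (1 / 2) ^ (p + 1)) := h4
      _ ≤ ε * (s N * u N ⟨p, hPN⟩ * (1 / 2) ^ (p + 1)) := by
          refine mul_le_mul_of_nonneg_left ?_ hε.le
          refine mul_le_mul_of_nonneg_right ?_ h2.le
          exact mul_le_mul_of_nonneg_left huq hsN.le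

end Vale.Agent.P157.Par
end

section

open MeasureTheory ProbabilityTheory Filter Topology

namespace Vale.Agent.P157.Par

open Vale.Agent.P367.GT (gM)

/-- The sign of a spin. -/
def sgn (b : Bool) : ℝ := if b then 1 else -1

lemma sgn_sq (b : Bool) : sgn b ^ 2 = 1 := by cases b <;> simp [sgn]

/-- The normalized configuration, in dimension `N + 1`. -/
noncomputable def cubeφ (N : ℕ) (x : Fin (N + 1) → Bool) : EuclideanSpace ℝ (Fin (N + 1)) :=
  WithLp.toLp 2 fun i => sgn (x i) / √((N : ℝ) + 1)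

lemma cubeφ_sq (N : ℕ) (x : Fin (N + 1) → Bool) (i : Fin (N + 1)) :
    cubeφ N x i ^ 2 = 1 / ((N : ℝ) + 1) := by
  have h : cubeφ N x i = sgn (x i) / √((N : ℝ) + 1) := rfl
  rw [h, div_pow, sgn_sq, Real.sq_sqrt (by positivity)]

lemma norm_cubeφ (N : ℕ) (x : Fin (N + 1) → Bool) : ‖cubeφ N x‖ = 1 := by
  rw [EuclideanSpace.norm_eq, Real.sqrt_eq_one]
  have h : ∀ i, ‖cubeφ N x i‖ ^ 2 = 1 / ((N : ℝ) + 1) := fun i => by
    rw [Real.norm_eq_abs, sq_abs, cubeφ_sq]
  simp_rw [h]
  rw [Finset.sum_const, Finset.card_univ, Fintype.card_fin, nsmul_eq_mul]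
  push_cast
  field_simp

/-- The field of the pattern `g` at the configuration `x`. -/
noncomputable def cubeS {N : ℕ} (g : Fin (N + 1) → ℝ) (x : Fin (N + 1) → Bool) : ℝ :=
  ∑ i, g i * cubeφ N x i

/-- The perceptron on the cube `{-1,1}^(N+1)` with `M` patterns. -/
noncomputable def cubeBase (f : ℝ → ℝ) (hf : Measurable f) (C : ℝ) (hC : ∀ x, |f x| ≤ C)
    (N M : ℕ) : Base :=
  patBase (gM (Fin (N + 1))) M (X := Fin (N + 1) → Bool)
    (fun ω x => ∑ a, f (cubeS (ω a) x))
    (fun x => Finset.measurable_sum _ fun a _ => hf.comp (by unfold cubeS; fun_prop))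
    (M * C) (fun ω x => by
      refine (Finset.abs_sum_le_sum_abs _ _).trans ((Finset.sum_le_sum fun a _ => hC _).trans ?_)
      rw [Finset.sum_const, Finset.card_univ, Fintype.card_fin, nsmul_eq_mul])
    (cubeφ N) (norm_cubeφ N)

/-- The free energy increment for one more pattern: `E log ⟨exp f(S)⟩`, the field `S` being
independent of the system. -/
noncomputable def Sys.dM (S : Sys) (f : ℝ → ℝ) : ℝ :=
  ∫ z : S.Ω × (Fin S.d → ℝ), Real.log (∑ x, S.w z.1 x * Real.exp (f (∑ i, z.2 i * S.φ x i)))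
    ∂(S.P.prod (gM (Fin S.d)))

/-- The order `δ` term of the linearized energy. -/
noncomputable def cavB {M : ℕ} (δ : ℝ) (f1 f2 : ℝ → ℝ) (S : Fin M → ℝ) : ℝ :=
  ∑ a, δ / 2 * (f2 (S a) - S a * f1 (S a))

/-- The order `√δ` term of the linearized energy. -/
noncomputable def cavY {M : ℕ} (δ : ℝ) (f1 : ℝ → ℝ) (S H : Fin M → ℝ) : ℝ :=
  ∑ a, √δ * f1 (S a) * H a

/-- The cavity form of the free energy increment for one more spin, for the perceptron on
`{-1,1}^(N+1)` with `M` patterns; here `δ = 1/(N+2)`. -/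
noncomputable def cubeDN (f f1 f2 : ℝ → ℝ) (hf : Measurable f) (C : ℝ) (hC : ∀ x, |f x| ≤ C)
    (N M P : ℕ) (s : ℝ) (u : Fin P → ℝ) : ℝ :=
  (∫ z : ((Fin M → Fin (N + 1) → ℝ) × (GI P (N + 1) → ℝ)) × (Fin M → ℝ),
      Real.log (∑ x, ((cubeBase f hf C hC N M).sys P s u).w z.1 x *
        (Real.exp (cavB (1 / ((N : ℝ) + 2)) f1 f2 fun a => cubeS (z.1.1 a) x) *
        Real.cosh (cavY (1 / ((N : ℝ) + 2)) f1 (fun a => cubeS (z.1.1 a) x) z.2)))
      ∂(((cubeBase f hf C hC N M).sys P s u).P.prod (gM (Fin M)))) -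
  ∫ z : ((Fin M → Fin (N + 1) → ℝ) × (GI P (N + 1) → ℝ)) × (Fin M → Fin (N + 1) → ℝ),
      Real.log (∑ x, ((cubeBase f hf C hC N M).sys P s u).w z.1 x *
        Real.exp (cavB (1 / ((N : ℝ) + 2)) f1 f2 (fun a => cubeS (z.1.1 a) x) +
          cavY (1 / ((N : ℝ) + 2)) f1 (fun a => cubeS (z.1.1 a) x) fun a => cubeS (z.2 a) x))
      ∂(((cubeBase f hf C hC N M).sys P s u).P.prod (Measure.pi fun _ => gM (Fin (N + 1))))

end Vale.Agent.P157.Par
end

section

/-! General lemmas on Gaussian perturbations of log-partition functions. -/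

open MeasureTheory ProbabilityTheory Filter Topology

namespace Vale.Agent.P157.Par

open Vale.Agent.P367.GT (gM)

set_option linter.unusedSectionVars false

namespace Cube

section gen

variable {Y K K' K'' : Type} [Fintype Y] [Nonempty Y] [Fintype K] [Fintype K'] [Fintype K'']
  [DecidableEq Y] [DecidableEq K] [DecidableEq K'] [DecidableEq K'']

lemma integrable_lin (U : Y → K → ℝ) (y : Y) : Integrable (fun ξ : K → ℝ => lin U ξ y) (gM K) := by
  unfold lin
  exact integrable_finsetSum _ fun c _ => (integrable_coord_gM c).const_mul _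

lemma integral_lin (U : Y → K → ℝ) (y : Y) : ∫ ξ, lin U ξ y ∂(gM K) = 0 := by
  unfold lin
  rw [integral_finsetSum _ fun c _ => (integrable_coord_gM c).const_mul _]
  refine Finset.sum_eq_zero fun c _ => ?_
  rw [integral_const_mul]
  have h := integral_comp_eval (μ := fun _ : K => gaussianReal 0 1) (i := c) (f := fun x : ℝ => x)
    (by fun_prop)
  have h2 : ∫ ξ : K → ℝ, ξ c ∂(gM K) = 0 := by
    rw [show (∫ ξ : K → ℝ, ξ c ∂(gM K)) = ∫ x, x ∂(gaussianReal 0 1) from h,
      integral_id_gaussianReal]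
  rw [h2, mul_zero]

lemma integral_exp_lin (U : Y → K → ℝ) (y : Y) :
    ∫ ξ, Real.exp (lin U ξ y) ∂(gM K) = Real.exp ((∑ c, U y c ^ 2) / 2) := by
  have e1 : ∀ ξ : K → ℝ, Real.exp (lin U ξ y) = ∏ c, Real.exp (U y c * ξ c) := by
    intro ξ
    unfold lin
    rw [Real.exp_sum]
  simp_rw [e1]
  rw [integral_fintype_prod_eq_prod (μ := fun _ : K => gaussianReal 0 1)
    (f := fun c (x : ℝ) => Real.exp (U y c * x))]
  have e2 : ∀ t : ℝ, ∫ x : ℝ, Real.exp (t * x) ∂(gaussianReal 0 1) = Real.exp (t ^ 2 / 2) := by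
    intro t
    have h := mgf_gaussianReal (X := id) (p := gaussianReal 0 1) (μ := 0) (v := 1)
      (by simp) t
    unfold mgf at h
    simp only [id_eq] at h
    rw [h]
    congr 1
    push_cast
    ring
  simp_rw [e2]
  rw [← Real.exp_sum, Finset.sum_div]

lemma integrable_exp_lin (U : Y → K → ℝ) (y : Y) :
    Integrable (fun ξ => Real.exp (lin U ξ y)) (gM K) := by
  by_contra h
  have h1 := integral_exp_lin U y
  rw [integral_undef h] at h1
  exact (Real.exp_pos _).ne h1

/-- Jensen, both sides. -/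
lemma jensen {w : Y → ℝ} (hw : ∀ y, 0 < w y) (U : Y → K → ℝ) {B : ℝ}
    (hB : ∀ y, ∑ c, U y c ^ 2 ≤ B) :
    Real.log (∑ y, w y) ≤ ∫ ξ, Real.log (∑ y, w y * Real.exp (lin U ξ y)) ∂(gM K) ∧
    ∫ ξ, Real.log (∑ y, w y * Real.exp (lin U ξ y)) ∂(gM K) ≤ Real.log (∑ y, w y) + B / 2 := by
  have hW := Lin.sum_pos' hw
  have hi : Integrable (fun ξ => Real.log (∑ y, w y * Real.exp (lin U ξ y))) (gM K) :=
    Lin.integrable_logsum hw fun y => integrable_lin U y
  constructor
  · have h1 : ∀ ξ, Real.log (∑ y, w y) + (∑ y, w y * lin U ξ y) / (∑ y, w y) ≤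
        Real.log (∑ y, w y * Real.exp (lin U ξ y)) := by
      intro ξ
      set W := ∑ y, w y with hWd
      set m := (∑ y, w y * lin U ξ y) / W with hm
      have h2 : W ≤ ∑ y, w y * Real.exp (lin U ξ y - m) := by
        have h3 : ∑ y, w y * (lin U ξ y - m + 1) ≤ ∑ y, w y * Real.exp (lin U ξ y - m) :=
          Finset.sum_le_sum fun y _ => mul_le_mul_of_nonneg_left (Real.add_one_le_exp _) (hw y).le
        have h4 : ∑ y, w y * (lin U ξ y - m + 1) = W := by
          have : ∀ y, w y * (lin U ξ y - m + 1) = w y * lin U ξ y - w y * m + w y := fun y => by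
            ring
          simp_rw [this]
          rw [Finset.sum_add_distrib, Finset.sum_sub_distrib, ← Finset.sum_mul, ← hWd, hm]
          field_simp
          ring
        rwa [h4] at h3
      have h5 : ∑ y, w y * Real.exp (lin U ξ y - m) =
          (∑ y, w y * Real.exp (lin U ξ y)) * Real.exp (-m) := by
        rw [Finset.sum_mul]
        refine Finset.sum_congr rfl fun y _ => ?_
        rw [mul_assoc, ← Real.exp_add]
        rfl
      rw [h5] at h2
      have hS : 0 < ∑ y, w y * Real.exp (lin U ξ y) :=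
        Lin.sum_pos' fun y => mul_pos (hw y) (Real.exp_pos _)
      have h6 := Real.log_le_log hW h2
      rw [Real.log_mul hS.ne' (Real.exp_pos _).ne', Real.log_exp] at h6
      linarith
    have hi2 : Integrable (fun ξ => (∑ y, w y * lin U ξ y) / (∑ y, w y)) (gM K) :=
      (integrable_finsetSum _ fun y _ => (integrable_lin U y).const_mul _).div_const _
    have h7 := integral_mono ((integrable_const (Real.log (∑ y, w y))).add hi2) hi h1
    simp only [Pi.add_apply] at h7
    rw [integral_add (integrable_const _) hi2, integral_div,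
      integral_finsetSum _ fun y _ => (integrable_lin U y).const_mul _] at h7
    simp_rw [integral_const_mul, integral_lin, mul_zero] at h7
    simpa using h7
  · set T := (∑ y, w y) * Real.exp (B / 2) with hT
    have hT0 : 0 < T := by positivity
    have h1 : ∀ ξ, Real.log (∑ y, w y * Real.exp (lin U ξ y)) ≤
        Real.log T + ((∑ y, w y * Real.exp (lin U ξ y)) / T - 1) := by
      intro ξ
      have hS : 0 < ∑ y, w y * Real.exp (lin U ξ y) :=
        Lin.sum_pos' fun y => mul_pos (hw y) (Real.exp_pos _)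
      have h2 := Real.log_le_sub_one_of_pos (div_pos hS hT0)
      rw [Real.log_div hS.ne' hT0.ne'] at h2
      linarith
    have hi1 : Integrable (fun ξ => ∑ y, w y * Real.exp (lin U ξ y)) (gM K) :=
      integrable_finsetSum _ fun y _ => (integrable_exp_lin U y).const_mul _
    have hi2 : Integrable (fun ξ => (∑ y, w y * Real.exp (lin U ξ y)) / T - 1) (gM K) :=
      (hi1.div_const _).sub (integrable_const _)
    have h3 := integral_mono hi ((integrable_const (Real.log T)).add hi2) h1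
    simp only [Pi.add_apply] at h3
    rw [integral_add (integrable_const _) hi2, integral_sub (hi1.div_const _) (integrable_const _),
      integral_div, integral_finsetSum _ fun y _ => (integrable_exp_lin U y).const_mul _] at h3
    simp_rw [integral_const_mul, integral_exp_lin] at h3
    have h4 : (∑ y, w y * Real.exp ((∑ c, U y c ^ 2) / 2)) / T ≤ 1 := by
      rw [div_le_one hT0, hT, Finset.sum_mul]
      refine Finset.sum_le_sum fun y _ => mul_le_mul_of_nonneg_left ?_ (hw y).le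
      exact Real.exp_le_exp.2 (by linarith only [hB y])
    have h5 : Real.log T = Real.log (∑ y, w y) + B / 2 := by
      rw [hT, Real.log_mul hW.ne' (Real.exp_pos _).ne', Real.log_exp]
    simp only [integral_const, probReal_univ, smul_eq_mul, one_mul] at h3
    linarith only [h3, h5, h4]

/-- Integration over a sum of index sets. -/
lemma integral_sum_index (U : Y → K → ℝ) (V : Y → K' → ℝ) (F : (Y → ℝ) → ℝ) :
    ∫ ζ, F (lin (fun y => Sum.elim (U y) (V y)) ζ) ∂(gM (K ⊕ K')) =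
      ∫ q, F (fun y => lin U q.1 y + lin V q.2 y) ∂((gM K).prod (gM K')) := by
  have mp := measurePreserving_sumPiEquivProdPi (X := fun _ : K ⊕ K' => ℝ)
    (fun _ : K ⊕ K' => gaussianReal 0 1)
  have e1 : ∀ ζ : K ⊕ K' → ℝ, F (lin (fun y => Sum.elim (U y) (V y)) ζ) =
      (fun q : (K → ℝ) × (K' → ℝ) => F (fun y => lin U q.1 y + lin V q.2 y))
        (MeasurableEquiv.sumPiEquivProdPi (fun _ : K ⊕ K' => ℝ) ζ) := by
    intro ζ
    simp only
    congr 1
    funext y
    simp only [lin, Fintype.sum_sum_type, Sum.elim_inl, Sum.elim_inr]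
    rfl
  simp_rw [e1]
  exact mp.integral_comp' (g := fun q : (K → ℝ) × (K' → ℝ) =>
    F (fun y => lin U q.1 y + lin V q.2 y))

lemma gram_elim (U : Y → K → ℝ) (V : Y → K' → ℝ) (a b : Y) :
    gram (fun y => Sum.elim (U y) (V y)) (fun y => Sum.elim (U y) (V y)) a b =
      gram U U a b + gram V V a b := by
  simp only [gram, Fintype.sum_sum_type, Sum.elim_inl, Sum.elim_inr]

/-- A process whose covariance is larger than the one of `U` by the one of `V`. -/
lemma add_cov {w : Y → ℝ} (hw : ∀ y, 0 < w y) {U : Y → K → ℝ} {V : Y → K' → ℝ}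
    {T : Y → K'' → ℝ} (hT : ∀ a b, gram T T a b = gram U U a b + gram V V a b) {B : ℝ}
    (hB : ∀ y, ∑ c, V y c ^ 2 ≤ B) :
    ∫ ξ, Real.log (∑ y, w y * Real.exp (lin U ξ y)) ∂(gM K) ≤
      ∫ ξ, Real.log (∑ y, w y * Real.exp (lin T ξ y)) ∂(gM K'') ∧
    ∫ ξ, Real.log (∑ y, w y * Real.exp (lin T ξ y)) ∂(gM K'') ≤
      ∫ ξ, Real.log (∑ y, w y * Real.exp (lin U ξ y)) ∂(gM K) + B / 2 := by
  have hF : Measurable fun z : Y → ℝ => Real.log (∑ y, w y * Real.exp (z y)) := by fun_prop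
  have h1 := integral_lin_congr (U := T) (V := fun y => Sum.elim (U y) (V y))
    (fun a b => by rw [hT, gram_elim]) hF
  have h2 := integral_sum_index U V (fun z => Real.log (∑ y, w y * Real.exp (z y)))
  have hi : Integrable (fun q : (K → ℝ) × (K' → ℝ) => Real.log (∑ y, w y *
      Real.exp (lin U q.1 y + lin V q.2 y))) ((gM K).prod (gM K')) :=
    Lin.integrable_logsum hw fun y => ((integrable_lin U y).comp_fst _).add
      ((integrable_lin V y).comp_snd _)
  rw [h2, integral_prod _ hi] at h1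
  have hJ : ∀ ξ : K → ℝ, Real.log (∑ y, w y * Real.exp (lin U ξ y)) ≤
      ∫ η, Real.log (∑ y, w y * Real.exp (lin U ξ y + lin V η y)) ∂(gM K') ∧
      ∫ η, Real.log (∑ y, w y * Real.exp (lin U ξ y + lin V η y)) ∂(gM K') ≤
      Real.log (∑ y, w y * Real.exp (lin U ξ y)) + B / 2 := by
    intro ξ
    have h := jensen (w := fun y => w y * Real.exp (lin U ξ y))
      (fun y => mul_pos (hw y) (Real.exp_pos _)) V hB
    simp_rw [mul_assoc, ← Real.exp_add] at h
    exact h
  have hiU : Integrable (fun ξ => Real.log (∑ y, w y * Real.exp (lin U ξ y))) (gM K) :=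
    Lin.integrable_logsum hw fun y => integrable_lin U y
  have hi1 := hi.integral_prod_left
  constructor
  · rw [h1]
    exact integral_mono hiU hi1 fun ξ => (hJ ξ).1
  · rw [h1]
    have h3 := integral_mono hi1 (hiU.add (integrable_const (B / 2))) fun ξ => (hJ ξ).2
    simp only [Pi.add_apply] at h3
    rw [integral_add hiU (integrable_const _)] at h3
    simpa using h3

/-- Comparison of two processes whose covariances both exceed the one of `U` by little. -/
lemma compare_cov {K3 K4 : Type} [Fintype K3] [DecidableEq K3] [Fintype K4] [DecidableEq K4]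
    {w : Y → ℝ} (hw : ∀ y, 0 < w y) {U : Y → K → ℝ} {V : Y → K' → ℝ} {V' : Y → K'' → ℝ}
    {T : Y → K3 → ℝ} {T' : Y → K4 → ℝ}
    (hT : ∀ a b, gram T T a b = gram U U a b + gram V V a b)
    (hT' : ∀ a b, gram T' T' a b = gram U U a b + gram V' V' a b) {B : ℝ}
    (hB : ∀ y, ∑ c, V y c ^ 2 ≤ B) (hB' : ∀ y, ∑ c, V' y c ^ 2 ≤ B) :
    |∫ ξ, Real.log (∑ y, w y * Real.exp (lin T ξ y)) ∂(gM K3) -
      ∫ ξ, Real.log (∑ y, w y * Real.exp (lin T' ξ y)) ∂(gM K4)| ≤ B / 2 := by
  have h1 := add_cov hw hT hB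
  have h2 := add_cov hw hT' hB'
  rw [abs_le]
  constructor <;> linarith [h1.1, h1.2, h2.1, h2.2]

end gen

section law

variable {Y : Type} [Fintype Y]

/-- Patterns whose fields have the same law give the same integrals. -/
lemma pi_law {Ω₁ Ω₂ : Type} [MeasurableSpace Ω₁] [MeasurableSpace Ω₂] {μ₁ : Measure Ω₁}
    {μ₂ : Measure Ω₂} [IsProbabilityMeasure μ₁] [IsProbabilityMeasure μ₂] {T₁ : Ω₁ → Y → ℝ}
    {T₂ : Ω₂ → Y → ℝ} (h₁ : Measurable T₁) (h₂ : Measurable T₂) (h : μ₁.map T₁ = μ₂.map T₂)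
    (M : ℕ) {F : (Fin M → Y → ℝ) → ℝ} (hF : Measurable F) :
    ∫ g : Fin M → Ω₁, F (fun a => T₁ (g a)) ∂(Measure.pi fun _ => μ₁) =
      ∫ g : Fin M → Ω₂, F (fun a => T₂ (g a)) ∂(Measure.pi fun _ => μ₂) := by
  have e₁ : IsProbabilityMeasure (μ₁.map T₁) := Measure.isProbabilityMeasure_map h₁.aemeasurable
  have e₂ : IsProbabilityMeasure (μ₂.map T₂) := Measure.isProbabilityMeasure_map h₂.aemeasurable
  have p₁ := Measure.pi_map_pi (μ := fun _ : Fin M => μ₁) (f := fun _ => T₁)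
    (fun _ => h₁.aemeasurable)
  have p₂ := Measure.pi_map_pi (μ := fun _ : Fin M => μ₂) (f := fun _ => T₂)
    (fun _ => h₂.aemeasurable)
  have m₁ : Measurable fun g : Fin M → Ω₁ => fun a => T₁ (g a) := by fun_prop
  have m₂ : Measurable fun g : Fin M → Ω₂ => fun a => T₂ (g a) := by fun_prop
  have i₁ := integral_map (μ := Measure.pi fun _ : Fin M => μ₁) m₁.aemeasurable
    (f := F) hF.aestronglyMeasurable
  have i₂ := integral_map (μ := Measure.pi fun _ : Fin M => μ₂) m₂.aemeasurable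
    (f := F) hF.aestronglyMeasurable
  rw [← i₁, ← i₂]
  congr 1
  rw [p₁, p₂, h]

end law

end Cube

end Vale.Agent.P157.Par
end

section

/-! One more pattern, and the cost of the perturbation. -/

open MeasureTheory ProbabilityTheory Filter Topology
open scoped RealInnerProductSpace

namespace Vale.Agent.P157.Par

open Vale.Agent.P367.GT (gM)

set_option linter.unusedSectionVars false

namespace Cube

/-- The coefficients of the perturbation. -/
noncomputable def cf (N : ℕ) {P : ℕ} (s : ℝ) (u : Fin P → ℝ) (x : Fin (N + 1) → Bool)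
    (e : GI P (N + 1)) : ℝ :=
  s * u e.1 * (1 / 2) ^ ((e.1 : ℕ) + 1) * ∏ r, cubeφ N x (e.2 r)

lemma sum_cubeφ (N : ℕ) (x y : Fin (N + 1) → Bool) :
    ∑ i, cubeφ N x i * cubeφ N y i = ⟪cubeφ N x, cubeφ N y⟫ := by
  rw [PiLp.inner_apply]
  exact Finset.sum_congr rfl fun i _ => by simp [mul_comm]

lemma sum_cubeφ_sq (N : ℕ) (x : Fin (N + 1) → Bool) : ∑ i, cubeφ N x i ^ 2 = 1 := by
  have h := sum_cubeφ N x x
  rw [real_inner_self_eq_norm_sq, norm_cubeφ] at h
  simp_rw [sq]
  rw [h]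
  norm_num

/-- The covariance of the perturbation. -/
lemma gram_cf (N : ℕ) {P : ℕ} (s : ℝ) (u : Fin P → ℝ) (x y : Fin (N + 1) → Bool) :
    gram (cf N s u) (cf N s u) x y =
      ∑ p : Fin P, (s * u p * (1 / 2) ^ ((p : ℕ) + 1)) ^ 2 *
        (∑ i, cubeφ N x i * cubeφ N y i) ^ ((p : ℕ) + 1) := by
  unfold gram cf
  rw [Fintype.sum_sigma]
  refine Finset.sum_congr rfl fun p _ => ?_
  rw [Fintype.sum_pow, Finset.mul_sum]
  refine Finset.sum_congr rfl fun k _ => ?_
  rw [Finset.prod_mul_distrib]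
  simp only
  ring

lemma sum_cf_sq (N : ℕ) {P : ℕ} (s : ℝ) (u : Fin P → ℝ) (x : Fin (N + 1) → Bool) :
    ∑ e, cf N s u x e ^ 2 = ∑ p : Fin P, (s * u p * (1 / 2) ^ ((p : ℕ) + 1)) ^ 2 := by
  have h := gram_cf N s u x x
  unfold gram at h
  simp_rw [← sq] at h
  rw [h]
  refine Finset.sum_congr rfl fun p _ => ?_
  rw [sum_cubeφ_sq, one_pow, mul_one]

lemma geo (P : ℕ) : ∑ p : Fin P, ((1 : ℝ) / 4) ^ ((p : ℕ) + 1) ≤ 1 / 3 := by
  rw [Fin.sum_univ_eq_sum_range (fun p => ((1 : ℝ) / 4) ^ (p + 1))]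
  have h : ∀ n : ℕ, ∑ p ∈ Finset.range n, ((1 : ℝ) / 4) ^ (p + 1) =
      (1 - (1 / 4) ^ n) / 3 := by
    intro n
    induction n with
    | zero => simp
    | succ n ih => rw [Finset.sum_range_succ, ih]; ring
  rw [h]
  have : (0 : ℝ) ≤ (1 / 4) ^ P := by positivity
  linarith

lemma coef_sq_le {P : ℕ} {s : ℝ} {u : Fin P → ℝ} (hu : ∀ q, 0 ≤ u q ∧ u q ≤ 2) (p : Fin P) :
    (s * u p * (1 / 2) ^ ((p : ℕ) + 1)) ^ 2 ≤ 4 * s ^ 2 * (1 / 4) ^ ((p : ℕ) + 1) := by
  have h1 : u p ^ 2 ≤ 4 := by linarith only [mul_nonneg (sub_nonneg.2 ((hu p).2)) (sub_nonneg.2 ((hu p).2)), mul_nonneg (sub_nonneg.2 ((hu p).1)) (sub_nonneg.2 ((hu p).2))]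
  have h2 : ((1 : ℝ) / 2) ^ ((p : ℕ) + 1) * (1 / 2) ^ ((p : ℕ) + 1) = (1 / 4) ^ ((p : ℕ) + 1) := by
    rw [← mul_pow]; norm_num
  have h3 : (0 : ℝ) ≤ (1 / 4) ^ ((p : ℕ) + 1) := by positivity
  calc (s * u p * (1 / 2) ^ ((p : ℕ) + 1)) ^ 2
      = u p ^ 2 * (s ^ 2 * ((1 / 2) ^ ((p : ℕ) + 1) * (1 / 2) ^ ((p : ℕ) + 1))) := by ring
    _ ≤ 4 * (s ^ 2 * ((1 / 2) ^ ((p : ℕ) + 1) * (1 / 2) ^ ((p : ℕ) + 1))) := by
        refine mul_le_mul_of_nonneg_right h1 ?_
        rw [h2]; positivity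
    _ = _ := by rw [h2]; ring

lemma sum_cf_sq_le (N : ℕ) {P : ℕ} {s : ℝ} {u : Fin P → ℝ} (hu : ∀ q, 0 ≤ u q ∧ u q ≤ 2)
    (x : Fin (N + 1) → Bool) : ∑ e, cf N s u x e ^ 2 ≤ 2 * s ^ 2 := by
  rw [sum_cf_sq]
  refine (Finset.sum_le_sum fun p _ => coef_sq_le hu p).trans ?_
  rw [← Finset.mul_sum]
  nlinarith [geo P, sq_nonneg s]

/-- The law of the patterns. -/
noncomputable abbrev pm (M N : ℕ) : Measure (Fin M → Fin (N + 1) → ℝ) :=
  Measure.pi fun _ => gM (Fin (N + 1))

/-- The energy. -/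
noncomputable def EE (f : ℝ → ℝ) {N M P : ℕ} (s : ℝ) (u : Fin P → ℝ)
    (ω : Fin M → Fin (N + 1) → ℝ) (g : GI P (N + 1) → ℝ) (y : Fin (N + 1) → Bool) : ℝ :=
  ∑ a, f (cubeS (ω a) y) + lin (cf N s u) g y

section base

variable {f : ℝ → ℝ} (hf : Measurable f) (C : ℝ) (hC : ∀ x, |f x| ≤ C) (N M : ℕ) {P : ℕ} (s : ℝ)
  (u : Fin P → ℝ)

lemma gen_eq_cf (ω : Fin M → Fin (N + 1) → ℝ) (g : GI P (N + 1) → ℝ) (y : Fin (N + 1) → Bool) :
    gen ((cubeBase f hf C hC N M).H ω) ((cubeBase f hf C hC N M).coef P s u) g y =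
      EE f s u ω g y := by
  unfold gen EE lin
  congr 1
  exact Finset.sum_congr rfl fun e _ => mul_comm _ _

lemma elz_eq : (cubeBase f hf C hC N M).elz s u =
    ∫ z : (Fin M → Fin (N + 1) → ℝ) × (GI P (N + 1) → ℝ),
      Real.log (∑ y, Real.exp (EE f s u z.1 z.2 y)) ∂((pm M N).prod (gM (GI P (N + 1)))) :=
  integral_congr_ae (Filter.Eventually.of_forall fun z =>
    congrArg Real.log (Finset.sum_congr rfl fun y _ =>
      congrArg Real.exp (gen_eq_cf hf C hC N M s u z.1 z.2 y)))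

lemma w_eq (z : (Fin M → Fin (N + 1) → ℝ) × (GI P (N + 1) → ℝ)) (y : Fin (N + 1) → Bool) :
    ((cubeBase f hf C hC N M).sys P s u).w z y =
      Real.exp (EE f s u z.1 z.2 y) / ∑ y', Real.exp (EE f s u z.1 z.2 y') := by
  have h1 : ((cubeBase f hf C hC N M).sys P s u).w z y =
      Real.exp (gen ((cubeBase f hf C hC N M).H z.1) ((cubeBase f hf C hC N M).coef P s u) z.2 y) /
        ∑ y' : Fin (N + 1) → Bool, Real.exp (gen ((cubeBase f hf C hC N M).H z.1)
          ((cubeBase f hf C hC N M).coef P s u) z.2 y') := rfl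
  rw [h1]
  have h2 := gen_eq_cf hf C hC N M s u z.1 z.2
  simp_rw [h2]

include hf hC in
lemma integrable_fS {Ω : Type} [MeasurableSpace Ω] {μ : Measure Ω} [IsFiniteMeasure μ]
    {g : Ω → Fin (N + 1) → ℝ} (hg : Measurable g) (y : Fin (N + 1) → Bool) :
    Integrable (fun ω => f (cubeS (g ω) y)) μ := by
  refine Integrable.mono' (integrable_const C) ?_ (Filter.Eventually.of_forall fun _ => hC _)
  exact (hf.comp (by unfold cubeS; fun_prop)).aestronglyMeasurable

include hf hC in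
lemma integrable_EE (y : Fin (N + 1) → Bool) : Integrable
    (fun z : (Fin M → Fin (N + 1) → ℝ) × (GI P (N + 1) → ℝ) => EE f s u z.1 z.2 y)
    ((pm M N).prod (gM (GI P (N + 1)))) := by
  unfold EE
  refine Integrable.add ?_ ((integrable_lin (cf N s u) y).comp_snd _)
  exact integrable_finsetSum _ fun a _ => integrable_fS hf C hC N (by fun_prop) y

/-- log-sum-exp of integrable energies is integrable -/
lemma integrable_lse {Ω Y : Type} [MeasurableSpace Ω] [Fintype Y] [Nonempty Y] {μ : Measure Ω}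
    [IsFiniteMeasure μ] {E : Ω → Y → ℝ} (hE : ∀ y, Integrable (fun ω => E ω y) μ) :
    Integrable (fun ω => Real.log (∑ y, Real.exp (E ω y))) μ := by
  have h := Lin.integrable_logsum (w := fun _ : Y => 1) (fun _ => one_pos) hE
  simpa only [one_mul] using h

lemma log_ratio {Y : Type} [Fintype Y] [Nonempty Y] (E A : Y → ℝ) (hA : ∀ y, 0 < A y) :
    Real.log (∑ y, Real.exp (E y) * A y) = Real.log (∑ y, Real.exp (E y)) +
      Real.log (∑ y, Real.exp (E y) / (∑ y', Real.exp (E y')) * A y) := by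
  have h1 : 0 < ∑ y, Real.exp (E y) := Lin.sum_pos' fun y => Real.exp_pos _
  have h2 : 0 < ∑ y, Real.exp (E y) / (∑ y', Real.exp (E y')) * A y :=
    Lin.sum_pos' fun y => mul_pos (div_pos (Real.exp_pos _) h1) (hA y)
  rw [← Real.log_mul h1.ne' h2.ne', Finset.mul_sum]
  congr 1
  refine Finset.sum_congr rfl fun y _ => ?_
  field_simp

include hC in
lemma elz_pert' (hu : ∀ q, 0 ≤ u q ∧ u q ≤ 2) :
    |(cubeBase f hf C hC N M).elz s u -
      ∫ ω, Real.log (∑ y, Real.exp (∑ a, f (cubeS (ω a) y))) ∂(pm M N)| ≤ s ^ 2 := by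
  rw [elz_eq]
  have hint : Integrable (fun z : (Fin M → Fin (N + 1) → ℝ) × (GI P (N + 1) → ℝ) =>
      Real.log (∑ y, Real.exp (EE f s u z.1 z.2 y))) ((pm M N).prod (gM (GI P (N + 1)))) :=
    integrable_lse (integrable_EE hf C hC N M s u)
  rw [integral_prod _ hint]
  have hJ : ∀ ω : Fin M → Fin (N + 1) → ℝ,
      Real.log (∑ y, Real.exp (∑ a, f (cubeS (ω a) y))) ≤
        ∫ g, Real.log (∑ y, Real.exp (EE f s u ω g y)) ∂(gM (GI P (N + 1))) ∧
      ∫ g, Real.log (∑ y, Real.exp (EE f s u ω g y)) ∂(gM (GI P (N + 1))) ≤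
        Real.log (∑ y, Real.exp (∑ a, f (cubeS (ω a) y))) + (2 * s ^ 2) / 2 := by
    intro ω
    unfold EE
    simp_rw [Real.exp_add]
    exact jensen (fun y => Real.exp_pos _) (cf N s u) fun y => sum_cf_sq_le N hu y
  have hi1 : Integrable (fun ω : Fin M → Fin (N + 1) → ℝ =>
      Real.log (∑ y, Real.exp (∑ a, f (cubeS (ω a) y)))) (pm M N) :=
    integrable_lse fun y => integrable_finsetSum _ fun a _ =>
      integrable_fS hf C hC N (by fun_prop) y
  have hi2 := hint.integral_prod_left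
  simp only at hi2 ⊢
  rw [← integral_sub hi2 hi1, ← Real.norm_eq_abs]
  have hb : ∀ ω : Fin M → Fin (N + 1) → ℝ,
      ‖∫ g, Real.log (∑ y, Real.exp (EE f s u ω g y)) ∂(gM (GI P (N + 1))) -
      Real.log (∑ y, Real.exp (∑ a, f (cubeS (ω a) y)))‖ ≤ s ^ 2 := by
    intro ω
    rw [Real.norm_eq_abs, abs_le]
    have := hJ ω
    constructor <;> nlinarith [sq_nonneg s, this.1, this.2]
  have := norm_integral_le_of_norm_le_const (μ := pm M N) (Filter.Eventually.of_forall hb)
  simpa using this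

lemma log_sum_cube (g : Fin M → Fin (N + 1) → ℝ) :
    ((N : ℝ) + 1) * pressure (cube (N + 1)) f g =
      Real.log (∑ y, Real.exp (∑ a, f (cubeS (g a) y))) - (N + 1) * Real.log 2 := by
  unfold pressure
  rw [integral_cube]
  have e1 : ∀ (a : Fin M) (σ : Fin (N + 1) → Bool),
      (∑ i, g a i * spin σ i) / √((N + 1 : ℕ) : ℝ) = cubeS (g a) σ := by
    intro a σ
    unfold cubeS
    rw [Finset.sum_div]
    refine Finset.sum_congr rfl fun i _ => ?_
    have : cubeφ N σ i = sgn (σ i) / √((N : ℝ) + 1) := rfl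
    rw [this]
    have h2 : spin σ i = sgn (σ i) := rfl
    rw [h2]
    push_cast
    ring
  simp_rw [e1]
  have hS : 0 < ∑ y : Fin (N + 1) → Bool, Real.exp (∑ a, f (cubeS (g a) y)) :=
    Lin.sum_pos' fun y => Real.exp_pos _
  have h2 : Real.log (1 / 2) = -Real.log 2 := by rw [one_div, Real.log_inv]
  rw [Real.log_mul (by positivity) hS.ne', Real.log_pow, h2]
  push_cast
  field_simp
  ring

end base

end Cube

open Vale.Agent.P157.Par.Cube

/-- The cost of the perturbation. -/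
theorem elz_pert {f : ℝ → ℝ} (hf : Measurable f) (C : ℝ) (hC : ∀ x, |f x| ≤ C)
    (N M P : ℕ) (s : ℝ) (u : Fin P → ℝ) (_hs : 0 ≤ s) (hu : ∀ q, 0 ≤ u q ∧ u q ≤ 2) :
    |(cubeBase f hf C hC N M).elz s u - (N + 1) * Real.log 2 -
      ∫ g, ((N : ℝ) + 1) * pressure (cube (N + 1)) f g ∂(patterns M (N + 1))| ≤ s ^ 2 := by
  have h := elz_pert' hf C hC N M s u hu
  have e : ∫ g, ((N : ℝ) + 1) * pressure (cube (N + 1)) f g ∂(patterns M (N + 1)) =
      (∫ ω, Real.log (∑ y, Real.exp (∑ a, f (cubeS (ω a) y))) ∂(pm M N)) -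
        (N + 1) * Real.log 2 := by
    simp_rw [log_sum_cube]
    change ∫ g : Fin M → Fin (N + 1) → ℝ, _ ∂(pm M N) = _
    have hi1 : Integrable (fun ω : Fin M → Fin (N + 1) → ℝ =>
        Real.log (∑ y, Real.exp (∑ a, f (cubeS (ω a) y)))) (pm M N) :=
      integrable_lse fun y => integrable_finsetSum _ fun a _ =>
        integrable_fS hf C hC N (by fun_prop) y
    rw [integral_sub hi1 (integrable_const _)]
    simp
  rw [e]
  convert h using 2
  ring

/-- One more pattern. -/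
theorem pattern_increment {f : ℝ → ℝ} (hf : Measurable f) (C : ℝ) (hC : ∀ x, |f x| ≤ C)
    (N M P : ℕ) (s : ℝ) (u : Fin P → ℝ) :
    (cubeBase f hf C hC N (M + 1)).elz s u - (cubeBase f hf C hC N M).elz s u =
      ((cubeBase f hf C hC N M).sys P s u).dM f := by
  set μ := gM (Fin (N + 1)) with hμ
  set ν := gM (GI P (N + 1)) with hν
  -- the rearrangement of the variables
  have mp1 : MeasurePreserving (fun z : (Fin (M + 1) → Fin (N + 1) → ℝ) × (GI P (N + 1) → ℝ) =>
      ((MeasurableEquiv.piFinSuccAbove (fun _ => Fin (N + 1) → ℝ) 0 z.1, z.2) :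
        ((Fin (N + 1) → ℝ) × (Fin M → Fin (N + 1) → ℝ)) × (GI P (N + 1) → ℝ)))
      ((pm (M + 1) N).prod ν) ((μ.prod (pm M N)).prod ν) :=
    (measurePreserving_piFinSuccAbove (fun _ : Fin (M + 1) => μ) 0).prod (MeasurePreserving.id ν)
  have mp2 := measurePreserving_prodAssoc μ (pm M N) ν
  have mp3 := Measure.measurePreserving_swap (μ := μ) (ν := (pm M N).prod ν)
  have mp := mp3.comp (mp2.comp mp1)
  have hF : Integrable (fun z : ((Fin M → Fin (N + 1) → ℝ) × (GI P (N + 1) → ℝ)) ×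
      (Fin (N + 1) → ℝ) => Real.log (∑ y, Real.exp (EE f s u z.1.1 z.1.2 y + f (cubeS z.2 y))))
      (((pm M N).prod ν).prod μ) := by
    refine integrable_lse fun y => ?_
    refine Integrable.add ((integrable_EE hf C hC N M s u y).comp_fst _) ?_
    exact integrable_fS hf C hC N (by fun_prop) y
  have e1 : (cubeBase f hf C hC N (M + 1)).elz s u = ∫ z, Real.log (∑ y, Real.exp
        (EE f s u z.1.1 z.1.2 y + f (cubeS z.2 y))) ∂(((pm M N).prod ν).prod μ) := by
    rw [← mp.map_eq, integral_map mp.measurable.aemeasurable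
      (by rw [mp.map_eq]; exact hF.aestronglyMeasurable), elz_eq]
    refine integral_congr_ae (Filter.Eventually.of_forall fun z => ?_)
    change Real.log (∑ y, Real.exp (EE f s u z.1 z.2 y)) =
      Real.log (∑ y : Fin (N + 1) → Bool, Real.exp (EE f s u (fun i => z.1 i.succ) z.2 y +
        f (cubeS (z.1 0) y)))
    congr 1
    refine Finset.sum_congr rfl fun y _ => ?_
    congr 1
    unfold EE
    rw [Fin.sum_univ_succ]
    ring
  have hlz : Integrable (fun z : (Fin M → Fin (N + 1) → ℝ) × (GI P (N + 1) → ℝ) =>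
      Real.log (∑ y, Real.exp (EE f s u z.1 z.2 y))) ((pm M N).prod ν) :=
    integrable_lse (integrable_EE hf C hC N M s u)
  have e2 : (cubeBase f hf C hC N M).elz s u = ∫ z : ((Fin M → Fin (N + 1) → ℝ) ×
      (GI P (N + 1) → ℝ)) × (Fin (N + 1) → ℝ),
      Real.log (∑ y, Real.exp (EE f s u z.1.1 z.1.2 y)) ∂(((pm M N).prod ν).prod μ) := by
    rw [integral_fun_fst (μ := (pm M N).prod ν) (ν := μ)
      (fun z => Real.log (∑ y, Real.exp (EE f s u z.1 z.2 y))), elz_eq]
    simp [hν]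
  rw [e1, e2, ← integral_sub hF (hlz.comp_fst _)]
  change _ = ∫ z : ((Fin M → Fin (N + 1) → ℝ) × (GI P (N + 1) → ℝ)) × (Fin (N + 1) → ℝ),
    Real.log (∑ x : Fin (N + 1) → Bool, ((cubeBase f hf C hC N M).sys P s u).w z.1 x *
      Real.exp (f (cubeS z.2 x))) ∂(((pm M N).prod ν).prod μ)
  refine integral_congr_ae (Filter.Eventually.of_forall fun z => ?_)
  have h := log_ratio (EE f s u z.1.1 z.1.2) (fun y => Real.exp (f (cubeS z.2 y)))
    fun y => Real.exp_pos _
  simp only [w_eq]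
  simp_rw [← Real.exp_add] at h
  rw [h]
  ring

end Vale.Agent.P157.Par
end

section

/-! Tools for the increment of one spin. -/

open MeasureTheory ProbabilityTheory Filter Topology
open scoped RealInnerProductSpace

namespace Vale.Agent.P157.Par

open Vale.Agent.P367.GT (gM)

set_option linter.unusedSectionVars false

namespace Cube

/-- The first spins. -/
def ini {N : ℕ} (y : Fin (N + 2) → Bool) : Fin (N + 1) → Bool := fun i => y i.castSucc

/-- The last spin. -/
def las {N : ℕ} (y : Fin (N + 2) → Bool) : Bool := y (Fin.last (N + 1))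

lemma sum_ini_las {N : ℕ} (F : (Fin (N + 1) → Bool) → Bool → ℝ) :
    ∑ y : Fin (N + 2) → Bool, F (ini y) (las y) = ∑ x, (F x true + F x false) := by
  rw [← (Fin.snocEquiv (fun _ : Fin (N + 2) => Bool)).sum_comp, Fintype.sum_prod_type_right]
  refine Finset.sum_congr rfl fun x _ => ?_
  rw [Fintype.sum_bool]
  have h : ∀ b, F (ini ((Fin.snocEquiv (fun _ : Fin (N + 2) => Bool)) (b, x)))
      (las ((Fin.snocEquiv (fun _ : Fin (N + 2) => Bool)) (b, x))) = F x b := by
    intro b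
    have h1 : ini ((Fin.snocEquiv (fun _ : Fin (N + 2) => Bool)) (b, x)) = x := by
      funext i
      simp [ini, Fin.snocEquiv]
    have h2 : las ((Fin.snocEquiv (fun _ : Fin (N + 2) => Bool)) (b, x)) = b := by
      simp [las, Fin.snocEquiv]
    rw [h1, h2]
  rw [h, h]

lemma cubeφ_castSucc {N : ℕ} (y : Fin (N + 2) → Bool) (i : Fin (N + 1)) :
    cubeφ (N + 1) y i.castSucc = √(1 - 1 / ((N : ℝ) + 2)) * cubeφ N (ini y) i := by
  have h1 : cubeφ (N + 1) y i.castSucc = sgn (y i.castSucc) / √(((N + 1 : ℕ) : ℝ) + 1) := rfl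
  have h2 : cubeφ N (ini y) i = sgn (y i.castSucc) / √((N : ℝ) + 1) := rfl
  have e1 : (((N + 1 : ℕ) : ℝ) + 1) = (N : ℝ) + 2 := by push_cast; ring
  have e2 : (1 : ℝ) - 1 / ((N : ℝ) + 2) = ((N : ℝ) + 1) / ((N : ℝ) + 2) := by
    field_simp; ring
  rw [h1, h2, e1, e2, Real.sqrt_div (by positivity)]
  have h3 : 0 < √((N : ℝ) + 1) := Real.sqrt_pos.2 (by positivity)
  field_simp

lemma cubeφ_last {N : ℕ} (y : Fin (N + 2) → Bool) :
    cubeφ (N + 1) y (Fin.last (N + 1)) = √(1 / ((N : ℝ) + 2)) * sgn (las y) := by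
  have h1 : cubeφ (N + 1) y (Fin.last (N + 1)) =
      sgn (las y) / √(((N + 1 : ℕ) : ℝ) + 1) := rfl
  have e1 : (((N + 1 : ℕ) : ℝ) + 1) = (N : ℝ) + 2 := by push_cast; ring
  rw [h1, e1, Real.sqrt_div (by positivity), Real.sqrt_one]
  ring

lemma dl_pos (N : ℕ) : (0 : ℝ) < 1 / ((N : ℝ) + 2) := by positivity

lemma dl_le (N : ℕ) : (1 : ℝ) / ((N : ℝ) + 2) ≤ 1 := by
  rw [div_le_one (by positivity)]
  have : (0 : ℝ) ≤ N := Nat.cast_nonneg N
  linarith

/-- the sum over the good monomials -/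
lemma good_sum {N P : ℕ} (s : ℝ) (u : Fin P → ℝ) (a b : Fin (N + 2) → Bool) :
    ∑ e : GI P (N + 2), (if ∀ r, e.2 r ≠ Fin.last (N + 1) then cf (N + 1) s u a e *
        cf (N + 1) s u b e else 0) =
      ∑ p : Fin P, (s * u p * (1 / 2) ^ ((p : ℕ) + 1)) ^ 2 *
        ((1 - 1 / ((N : ℝ) + 2)) * ∑ i, cubeφ N (ini a) i * cubeφ N (ini b) i) ^ ((p : ℕ) + 1) := by
  rw [Fintype.sum_sigma]
  refine Finset.sum_congr rfl fun p _ => ?_
  set m : Fin (N + 2) → ℝ := fun i => if i = Fin.last (N + 1) then 0 else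
    cubeφ (N + 1) a i * cubeφ (N + 1) b i with hm
  have h1 : ∀ k : Fin ((p : ℕ) + 1) → Fin (N + 2),
      (if ∀ r, k r ≠ Fin.last (N + 1) then cf (N + 1) s u a ⟨p, k⟩ * cf (N + 1) s u b ⟨p, k⟩
        else 0) = (s * u p * (1 / 2) ^ ((p : ℕ) + 1)) ^ 2 * ∏ r, m (k r) := by
    intro k
    split_ifs with h
    · have : ∏ r, m (k r) = (∏ r, cubeφ (N + 1) a (k r)) * ∏ r, cubeφ (N + 1) b (k r) := by
        rw [← Finset.prod_mul_distrib]
        refine Finset.prod_congr rfl fun r _ => ?_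
        rw [hm]
        simp only [if_neg (h r)]
      rw [this]
      unfold cf
      ring
    · push Not at h
      obtain ⟨r, hr⟩ := h
      have : ∏ r, m (k r) = 0 := Finset.prod_eq_zero (Finset.mem_univ r) (by rw [hm]; simp [hr])
      rw [this, mul_zero]
  simp only
  rw [Finset.sum_congr rfl fun k _ => h1 k, ← Finset.mul_sum, ← Fintype.sum_pow]
  congr 2
  rw [Fin.sum_univ_castSucc, hm]
  simp only [if_true, add_zero]
  rw [Finset.mul_sum]
  refine Finset.sum_congr rfl fun i _ => ?_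
  rw [if_neg (Fin.castSucc_ne_last i), cubeφ_castSucc, cubeφ_castSucc]
  have h2 : √(1 - 1 / ((N : ℝ) + 2)) * √(1 - 1 / ((N : ℝ) + 2)) = 1 - 1 / ((N : ℝ) + 2) :=
    Real.mul_self_sqrt (by linarith [dl_le N])
  linear_combination (cubeφ N (ini a) i * cubeφ N (ini b) i) * h2

lemma pow_le_bd {δ : ℝ} (_h0 : 0 ≤ δ) (h1 : δ ≤ 1) (n : ℕ) : 1 - (1 - δ) ^ n ≤ n * δ := by
  have h := one_add_mul_le_pow (a := -δ) (by linarith) n
  rw [← sub_eq_add_neg] at h
  linarith

lemma bd_sum {P : ℕ} {s δ : ℝ} {u : Fin P → ℝ} (hu : ∀ q, 0 ≤ u q ∧ u q ≤ 2) (h0 : 0 ≤ δ)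
    (h1 : δ ≤ 1) :
    ∑ p : Fin P, (s * u p * (1 / 2) ^ ((p : ℕ) + 1)) ^ 2 * (1 - (1 - δ) ^ ((p : ℕ) + 1)) ≤
      4 * s ^ 2 * δ := by
  have h2 : ∀ p : Fin P, (s * u p * (1 / 2) ^ ((p : ℕ) + 1)) ^ 2 *
      (1 - (1 - δ) ^ ((p : ℕ) + 1)) ≤ 4 * s ^ 2 * δ * (1 / 2) ^ ((p : ℕ) + 1) := by
    intro p
    have e1 := coef_sq_le (s := s) hu p
    have e2 := pow_le_bd h0 h1 ((p : ℕ) + 1)
    have e3 : 0 ≤ 1 - (1 - δ) ^ ((p : ℕ) + 1) := by
      have := pow_le_one₀ (n := (p : ℕ) + 1) (by linarith : 0 ≤ 1 - δ) (by linarith)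
      linarith
    have e4 : (((p : ℕ) + 1 : ℕ) : ℝ) ≤ 2 ^ ((p : ℕ) + 1) := by
      exact_mod_cast (Nat.lt_two_pow_self (n := (p : ℕ) + 1)).le
    have e5 : ((1 : ℝ) / 4) ^ ((p : ℕ) + 1) * 2 ^ ((p : ℕ) + 1) = (1 / 2) ^ ((p : ℕ) + 1) := by
      rw [← mul_pow]; norm_num
    calc _ ≤ 4 * s ^ 2 * (1 / 4) ^ ((p : ℕ) + 1) * (1 - (1 - δ) ^ ((p : ℕ) + 1)) :=
          mul_le_mul_of_nonneg_right e1 e3
      _ ≤ 4 * s ^ 2 * (1 / 4) ^ ((p : ℕ) + 1) * ((((p : ℕ) + 1 : ℕ) : ℝ) * δ) :=
          mul_le_mul_of_nonneg_left e2 (by positivity)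
      _ ≤ 4 * s ^ 2 * (1 / 4) ^ ((p : ℕ) + 1) * (2 ^ ((p : ℕ) + 1) * δ) := by gcongr
      _ = _ := by rw [← e5]; ring
  refine (Finset.sum_le_sum fun p _ => h2 p).trans ?_
  rw [← Finset.mul_sum]
  have h3 : ∑ p : Fin P, ((1 : ℝ) / 2) ^ ((p : ℕ) + 1) ≤ 1 := by
    rw [Fin.sum_univ_eq_sum_range (fun p => ((1 : ℝ) / 2) ^ (p + 1))]
    have h : ∀ n : ℕ, ∑ p ∈ Finset.range n, ((1 : ℝ) / 2) ^ (p + 1) = 1 - (1 / 2) ^ n := by
      intro n
      induction n with
      | zero => simp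
      | succ n ih => rw [Finset.sum_range_succ, ih]; ring
    rw [h]
    have : (0 : ℝ) ≤ (1 / 2) ^ P := by positivity
    linarith only [this]
  calc _ ≤ 4 * s ^ 2 * δ * 1 := mul_le_mul_of_nonneg_left h3 (by positivity)
    _ = _ := by ring

/-- Replacing the perturbation. -/
lemma stepA {N P : ℕ} (s : ℝ) {u : Fin P → ℝ} (hu : ∀ q, 0 ≤ u q ∧ u q ≤ 2)
    {w : (Fin (N + 2) → Bool) → ℝ} (hw : ∀ y, 0 < w y) :
    |∫ ξ, Real.log (∑ y, w y * Real.exp (lin (cf (N + 1) s u) ξ y)) ∂(gM (GI P (N + 2))) -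
      ∫ ξ, Real.log (∑ y, w y * Real.exp (lin (cf N s u) ξ (ini y))) ∂(gM (GI P (N + 1)))| ≤
      2 * (s ^ 2 * (1 / ((N : ℝ) + 2))) := by
  set δ : ℝ := 1 / ((N : ℝ) + 2) with hδ
  have h0 : 0 ≤ δ := (dl_pos N).le
  have h1 : δ ≤ 1 := dl_le N
  set U : (Fin (N + 2) → Bool) → GI P (N + 1) → ℝ := fun y e =>
    √((1 - δ) ^ ((e.1 : ℕ) + 1)) * cf N s u (ini y) e with hU
  set V : (Fin (N + 2) → Bool) → GI P (N + 2) → ℝ := fun y e =>
    if ∀ r, e.2 r ≠ Fin.last (N + 1) then 0 else cf (N + 1) s u y e with hV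
  set V' : (Fin (N + 2) → Bool) → GI P (N + 1) → ℝ := fun y e =>
    √(1 - (1 - δ) ^ ((e.1 : ℕ) + 1)) * cf N s u (ini y) e with hV'
  have hp0 : ∀ n : ℕ, 0 ≤ (1 - δ) ^ n := fun n => pow_nonneg (by linarith) n
  have hp1 : ∀ n : ℕ, 0 ≤ 1 - (1 - δ) ^ n := fun n => by
    have := pow_le_one₀ (n := n) (by linarith : 0 ≤ 1 - δ) (by linarith)
    linarith
  have gU : ∀ a b, gram U U a b = ∑ p : Fin P, (s * u p * (1 / 2) ^ ((p : ℕ) + 1)) ^ 2 *
      ((1 - δ) * ∑ i, cubeφ N (ini a) i * cubeφ N (ini b) i) ^ ((p : ℕ) + 1) := by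
    intro a b
    unfold gram
    rw [Fintype.sum_sigma]
    refine Finset.sum_congr rfl fun p _ => ?_
    rw [mul_pow (1 - δ), Fintype.sum_pow]
    have e1 : ∀ k : Fin ((p : ℕ) + 1) → Fin (N + 1), U a ⟨p, k⟩ * U b ⟨p, k⟩ =
        (s * u p * (1 / 2) ^ ((p : ℕ) + 1)) ^ 2 * ((1 - δ) ^ ((p : ℕ) + 1) *
        ∏ r, (cubeφ N (ini a) (k r) * cubeφ N (ini b) (k r))) := by
      intro k
      have e2 : √((1 - δ) ^ ((p : ℕ) + 1)) * √((1 - δ) ^ ((p : ℕ) + 1)) =
        (1 - δ) ^ ((p : ℕ) + 1) := Real.mul_self_sqrt (hp0 _)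
      rw [Finset.prod_mul_distrib, hU]
      unfold cf
      simp only
      linear_combination ((s * u p * (1 / 2) ^ ((p : ℕ) + 1)) ^ 2 *
        ((∏ r, cubeφ N (ini a) (k r)) * ∏ r, cubeφ N (ini b) (k r))) * e2
    simp only at e1
    rw [Finset.sum_congr rfl fun k _ => e1 k, ← Finset.mul_sum, ← Finset.mul_sum]
  have gT : ∀ a b, gram (cf (N + 1) s u) (cf (N + 1) s u) a b = gram U U a b + gram V V a b := by
    intro a b
    rw [gU, ← good_sum]
    unfold gram
    rw [← Finset.sum_add_distrib]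
    refine Finset.sum_congr rfl fun e _ => ?_
    simp only [hV]
    split_ifs <;> ring
  have gT' : ∀ a b, gram (fun y => cf N s u (ini y)) (fun y => cf N s u (ini y)) a b =
      gram U U a b + gram V' V' a b := by
    intro a b
    unfold gram
    rw [← Finset.sum_add_distrib]
    refine Finset.sum_congr rfl fun e _ => ?_
    have e2 : √((1 - δ) ^ ((e.1 : ℕ) + 1)) * √((1 - δ) ^ ((e.1 : ℕ) + 1)) =
      (1 - δ) ^ ((e.1 : ℕ) + 1) := Real.mul_self_sqrt (hp0 _)
    have e3 : √(1 - (1 - δ) ^ ((e.1 : ℕ) + 1)) * √(1 - (1 - δ) ^ ((e.1 : ℕ) + 1)) =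
      1 - (1 - δ) ^ ((e.1 : ℕ) + 1) := Real.mul_self_sqrt (hp1 _)
    simp only [hU, hV']
    linear_combination (-(cf N s u (ini a) e * cf N s u (ini b) e)) * e2 -
      (cf N s u (ini a) e * cf N s u (ini b) e) * e3
  have bU : ∀ y, gram U U y y = ∑ p : Fin P, (s * u p * (1 / 2) ^ ((p : ℕ) + 1)) ^ 2 *
      (1 - δ) ^ ((p : ℕ) + 1) := by
    intro y
    rw [gU]
    refine Finset.sum_congr rfl fun p _ => ?_
    have e1 := sum_cubeφ_sq N (ini y)
    simp_rw [sq] at e1
    rw [e1, mul_one]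
  have bd := bd_sum (s := s) hu h0 h1
  have bV : ∀ y, ∑ c, V y c ^ 2 ≤ 4 * s ^ 2 * δ := by
    intro y
    have e1 := gT y y
    have e2 : gram V V y y = ∑ c, V y c ^ 2 := by
      unfold gram; simp_rw [sq]
    have e3 : gram (cf (N + 1) s u) (cf (N + 1) s u) y y = ∑ c, cf (N + 1) s u y c ^ 2 := by
      unfold gram; simp_rw [sq]
    rw [e3, sum_cf_sq, e2, bU] at e1
    have e4 : ∑ c, V y c ^ 2 = ∑ p : Fin P, (s * u p * (1 / 2) ^ ((p : ℕ) + 1)) ^ 2 *
        (1 - (1 - δ) ^ ((p : ℕ) + 1)) := by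
      simp_rw [mul_sub, mul_one]
      rw [Finset.sum_sub_distrib]
      linarith
    rw [e4]
    exact bd
  have bV' : ∀ y, ∑ c, V' y c ^ 2 ≤ 4 * s ^ 2 * δ := by
    intro y
    have e1 := gT' y y
    have e2 : gram V' V' y y = ∑ c, V' y c ^ 2 := by
      unfold gram; simp_rw [sq]
    have e3 : gram (fun y => cf N s u (ini y)) (fun y => cf N s u (ini y)) y y =
        ∑ c, cf N s u (ini y) c ^ 2 := by
      unfold gram; simp_rw [sq]
    rw [e3, sum_cf_sq, e2, bU] at e1
    have e4 : ∑ c, V' y c ^ 2 = ∑ p : Fin P, (s * u p * (1 / 2) ^ ((p : ℕ) + 1)) ^ 2 *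
        (1 - (1 - δ) ^ ((p : ℕ) + 1)) := by
      simp_rw [mul_sub, mul_one]
      rw [Finset.sum_sub_distrib]
      linarith
    rw [e4]
    exact bd
  have h := compare_cov hw gT gT' bV bV'
  have e5 : 4 * s ^ 2 * δ / 2 = 2 * (s ^ 2 * δ) := by ring
  rw [e5] at h
  exact h

section law

variable {Y K K' K'' : Type} [Fintype Y] [Nonempty Y] [Fintype K] [Fintype K'] [Fintype K'']
  [DecidableEq Y] [DecidableEq K] [DecidableEq K'] [DecidableEq K'']

lemma measurable_lin_fun (U : Y → K → ℝ) : Measurable fun ξ : K → ℝ => lin U ξ := by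
  unfold lin; fun_prop

lemma map_lin_eq {U : Y → K → ℝ} {V : Y → K' → ℝ} (hG : ∀ a b, gram U U a b = gram V V a b) :
    (gM K).map (fun ξ => lin U ξ) = (gM K').map (fun ξ => lin V ξ) := by
  have h := map_lin_congr hG
  have h2 := congrArg (fun m : Measure (EuclideanSpace ℝ Y) => m.map WithLp.ofLp) h
  simp only at h2
  rw [Measure.map_map (WithLp.measurable_ofLp 2 _) (by unfold lin; fun_prop),
    Measure.map_map (WithLp.measurable_ofLp 2 _) (by unfold lin; fun_prop)] at h2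
  exact h2

/-- The law of a mixture of two independent fields. -/
lemma law_mix {φ : Y → K → ℝ} {ψ : Y → K' → ℝ} {T : Y → K'' → ℝ} (a b : ℝ)
    (h : ∀ y y', gram T T y y' = a ^ 2 * gram φ φ y y' + b ^ 2 * gram ψ ψ y y') :
    (gM K'').map (fun ξ => lin T ξ) = ((gM K).prod (gM K')).map
      (fun q y => a * lin φ q.1 y + b * lin ψ q.2 y) := by
  set U : Y → K ⊕ K' → ℝ := fun y => Sum.elim (fun c => a * φ y c) (fun c => b * ψ y c) with hU
  have h1 : ∀ y y', gram T T y y' = gram U U y y' := by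
    intro y y'
    rw [h, hU, gram_elim]
    unfold gram
    rw [Finset.mul_sum, Finset.mul_sum]
    congr 1 <;> exact Finset.sum_congr rfl fun c _ => by ring
  rw [map_lin_eq h1]
  have mp := measurePreserving_sumPiEquivProdPi (X := fun _ : K ⊕ K' => ℝ)
    (fun _ : K ⊕ K' => gaussianReal 0 1)
  have h2 : (fun ξ : K ⊕ K' → ℝ => lin U ξ) =
      (fun (q : (K → ℝ) × (K' → ℝ)) y => a * lin φ q.1 y + b * lin ψ q.2 y) ∘
        (MeasurableEquiv.sumPiEquivProdPi (fun _ : K ⊕ K' => ℝ)) := by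
    funext ξ y
    simp only [lin, hU, Fintype.sum_sum_type, Sum.elim_inl, Sum.elim_inr, Function.comp,
      Finset.mul_sum]
    congr 1
    · exact Finset.sum_congr rfl fun c _ => by rw [mul_assoc]; rfl
    · exact Finset.sum_congr rfl fun c _ => by rw [mul_assoc]; rfl
  rw [h2, ← Measure.map_map (by unfold lin; fun_prop) mp.measurable, mp.map_eq]

end law

/-- Rearrangement of the variables. -/
lemma rearr {A B B' G : Type} [MeasurableSpace A] [MeasurableSpace B] [MeasurableSpace B']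
    [MeasurableSpace G] {α : Measure A} {β : Measure B} {β' : Measure B'} {γ : Measure G}
    [IsProbabilityMeasure α] [IsProbabilityMeasure β] [IsProbabilityMeasure β']
    [IsProbabilityMeasure γ] {h : B → B'} (hh : MeasurePreserving h β β') (M : ℕ)
    {F : ((Fin M → A) × G) × (Fin M → B') → ℝ}
    (hF : Integrable F (((Measure.pi fun _ : Fin M => α).prod γ).prod
      (Measure.pi fun _ : Fin M => β'))) :
    Integrable (fun g => ∫ q : Fin M → A × B, F ((fun a => (q a).1, g), fun a => h (q a).2)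
      ∂(Measure.pi fun _ => α.prod β)) γ ∧
    ∫ z, F z ∂(((Measure.pi fun _ : Fin M => α).prod γ).prod (Measure.pi fun _ : Fin M => β')) =
      ∫ g, ∫ q : Fin M → A × B, F ((fun a => (q a).1, g), fun a => h (q a).2)
        ∂(Measure.pi fun _ => α.prod β) ∂γ := by
  have m1 : MeasurePreserving (fun p : G × (Fin M → A × B) =>
      (p.1, (((fun a => (p.2 a).1), (fun a => (p.2 a).2)) : (Fin M → A) × (Fin M → B))))
      (γ.prod (Measure.pi fun _ => α.prod β))
      (γ.prod ((Measure.pi fun _ : Fin M => α).prod (Measure.pi fun _ : Fin M => β))) :=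
    (MeasurePreserving.id γ).prod
      (measurePreserving_arrowProdEquivProdArrow A B (Fin M) (fun _ => α) (fun _ => β))
  have m2 : MeasurePreserving (fun p : G × ((Fin M → A) × (Fin M → B)) => ((p.1, p.2.1), p.2.2))
      (γ.prod ((Measure.pi fun _ : Fin M => α).prod (Measure.pi fun _ : Fin M => β)))
      ((γ.prod (Measure.pi fun _ : Fin M => α)).prod (Measure.pi fun _ : Fin M => β)) :=
    (measurePreserving_prodAssoc γ (Measure.pi fun _ : Fin M => α)
      (Measure.pi fun _ : Fin M => β)).symm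
  have m3 : MeasurePreserving (fun p : (G × (Fin M → A)) × (Fin M → B) =>
      ((p.1.2, p.1.1), fun a => h (p.2 a)))
      ((γ.prod (Measure.pi fun _ : Fin M => α)).prod (Measure.pi fun _ : Fin M => β))
      (((Measure.pi fun _ : Fin M => α).prod γ).prod (Measure.pi fun _ : Fin M => β')) :=
    (Measure.measurePreserving_swap (μ := γ) (ν := Measure.pi fun _ : Fin M => α)).prod
      (measurePreserving_pi (fun _ : Fin M => β) (fun _ : Fin M => β') (fun _ => hh))
  have m := m3.comp (m2.comp m1)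
  have hF' : Integrable (fun p : G × (Fin M → A × B) =>
      F ((fun a => (p.2 a).1, p.1), fun a => h (p.2 a).2))
      (γ.prod (Measure.pi fun _ => α.prod β)) := m.integrable_comp_of_integrable hF
  refine ⟨hF'.integral_prod_left, ?_⟩
  rw [← m.map_eq, integral_map m.measurable.aemeasurable
    (by rw [m.map_eq]; exact hF.aestronglyMeasurable)]
  exact integral_prod _ hF'

end Cube

end Vale.Agent.P157.Par
end

section

/-! One more spin, one more pattern. Main results: `pattern_increment` (file ParCube1),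
`elz_pert` (file ParCube1) and `spin_increment` (this file). -/

open MeasureTheory ProbabilityTheory Filter Topology
open scoped RealInnerProductSpace

namespace Vale.Agent.P157.Par

open Vale.Agent.P367.GT (gM)

set_option linter.unusedSectionVars false

namespace Cube

lemma log_cosh_nonneg (t : ℝ) : 0 ≤ Real.log (Real.cosh t) := Real.log_nonneg (Real.one_le_cosh t)

lemma log_cosh_le (t : ℝ) : Real.log (Real.cosh t) ≤ |t| := by
  have h : Real.cosh t ≤ Real.exp |t| := by
    rw [Real.cosh_eq]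
    have h1 := Real.exp_le_exp.2 (le_abs_self t)
    have h2 := Real.exp_le_exp.2 (neg_le_abs t)
    linarith only [h1, h2]
  calc Real.log (Real.cosh t) ≤ Real.log (Real.exp |t|) :=
        Real.log_le_log (Real.cosh_pos t) h
    _ = |t| := Real.log_exp _

lemma cubeS_eq_lin {N : ℕ} (g : Fin (N + 1) → ℝ) (y : Fin (N + 1) → Bool) :
    lin (fun (y : Fin (N + 1) → Bool) i => cubeφ N y i) g y = cubeS g y := by
  unfold lin cubeS
  exact Finset.sum_congr rfl fun i _ => mul_comm _ _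

lemma measurable_cubeS {Ω : Type} [MeasurableSpace Ω] {N : ℕ} {g : Ω → Fin (N + 1) → ℝ}
    (hg : Measurable g) (y : Fin (N + 1) → Bool) : Measurable fun ω => cubeS (g ω) y := by
  unfold cubeS; fun_prop

lemma integrable_cubeS (M N : ℕ) (a : Fin M) (y : Fin (N + 1) → Bool) :
    Integrable (fun ω : Fin M → Fin (N + 1) → ℝ => cubeS (ω a) y) (pm M N) := by
  refine integrable_comp_eval (μ := fun _ : Fin M => gM (Fin (N + 1))) (i := a)
    (f := fun g => cubeS g y) ?_
  unfold cubeS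
  exact integrable_finsetSum _ fun i _ => (integrable_coord_gM i).mul_const _

/-- The factor of the new spin. -/
noncomputable def A1 (δ : ℝ) (f1 f2 : ℝ → ℝ) {M N : ℕ} (ω : Fin M → Fin (N + 1) → ℝ)
    (η : Fin M → ℝ) (x : Fin (N + 1) → Bool) : ℝ :=
  Real.exp (cavB δ f1 f2 fun a => cubeS (ω a) x) *
    Real.cosh (cavY δ f1 (fun a => cubeS (ω a) x) η)

/-- The factor of the rescaling. -/
noncomputable def A2 (δ : ℝ) (f1 f2 : ℝ → ℝ) {M N : ℕ} (ω H : Fin M → Fin (N + 1) → ℝ)
    (x : Fin (N + 1) → Bool) : ℝ :=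
  Real.exp (cavB δ f1 f2 (fun a => cubeS (ω a) x) +
    cavY δ f1 (fun a => cubeS (ω a) x) fun a => cubeS (H a) x)

lemma A1_pos (δ : ℝ) (f1 f2 : ℝ → ℝ) {M N : ℕ} (ω : Fin M → Fin (N + 1) → ℝ)
    (η : Fin M → ℝ) (x : Fin (N + 1) → Bool) : 0 < A1 δ f1 f2 ω η x :=
  mul_pos (Real.exp_pos _) (Real.cosh_pos _)

lemma A2_pos (δ : ℝ) (f1 f2 : ℝ → ℝ) {M N : ℕ} (ω H : Fin M → Fin (N + 1) → ℝ)
    (x : Fin (N + 1) → Bool) : 0 < A2 δ f1 f2 ω H x := Real.exp_pos _

section main

variable {f f1 f2 f3 : ℝ → ℝ} {C : ℝ}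

lemma integrable_cavB (hf : CB3 C f f1 f2 f3) (δ : ℝ) (M N : ℕ) (x : Fin (N + 1) → Bool) :
    Integrable (fun ω : Fin M → Fin (N + 1) → ℝ => cavB δ f1 f2 fun a => cubeS (ω a) x)
      (pm M N) := by
  have m1 := (Lin.continuous_f1 hf).measurable
  have m2 := (Lin.continuous_f2 hf).measurable
  unfold cavB
  refine integrable_finsetSum _ fun a _ => Integrable.const_mul ?_ _
  refine Integrable.sub ?_ ?_
  · exact Integrable.mono' (integrable_const C) (m2.comp (measurable_cubeS (by fun_prop) x)).aestronglyMeasurable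
      (Filter.Eventually.of_forall fun _ => hf.b2 _)
  · exact integrable_mul_bdd (integrable_cubeS M N a x)
      (m1.comp (measurable_cubeS (by fun_prop) x)) C fun _ => hf.b1 _

lemma integrable_cavY (hf : CB3 C f f1 f2 f3) (δ : ℝ) {M N : ℕ} {G H : Type} [MeasurableSpace G]
    [MeasurableSpace H] (ν : Measure G) [IsProbabilityMeasure ν] {μ : Measure H}
    [IsProbabilityMeasure μ] {h : H → Fin M → ℝ} (hh : ∀ a, Integrable (fun z => h z a) μ)
    (x : Fin (N + 1) → Bool) :
    Integrable (fun z : ((Fin M → Fin (N + 1) → ℝ) × G) × H =>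
      cavY δ f1 (fun a => cubeS (z.1.1 a) x) (h z.2)) (((pm M N).prod ν).prod μ) := by
  have m1 := (Lin.continuous_f1 hf).measurable
  unfold cavY
  refine integrable_finsetSum _ fun a _ => ?_
  have h1 : Integrable (fun z : ((Fin M → Fin (N + 1) → ℝ) × G) × H => h z.2 a)
      (((pm M N).prod ν).prod μ) := (hh a).comp_snd _
  have h2 := (integrable_mul_bdd h1 (f := fun z => f1 (cubeS (z.1.1 a) x))
    (m1.comp (measurable_cubeS (g := fun z : ((Fin M → Fin (N + 1) → ℝ) × G) × H => z.1.1 a)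
      (by fun_prop) x)) C fun _ => hf.b1 _).const_mul √δ
  refine h2.congr (Filter.Eventually.of_forall fun z => ?_)
  simp only
  ring

lemma lse_A1 (δ : ℝ) {M N P : ℕ} (s : ℝ) (u : Fin P → ℝ) (ω : Fin M → Fin (N + 1) → ℝ)
    (g : GI P (N + 1) → ℝ) (η : Fin M → ℝ) :
    Real.log (∑ x, Real.exp (EE f s u ω g x) * A1 δ f1 f2 ω η x) =
      Real.log (∑ x, Real.exp (EE f s u ω g x + (cavB δ f1 f2 (fun a => cubeS (ω a) x) +
        Real.log (Real.cosh (cavY δ f1 (fun a => cubeS (ω a) x) η))))) := by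
  congr 1
  refine Finset.sum_congr rfl fun x _ => ?_
  unfold A1
  rw [Real.exp_add, Real.exp_add, Real.exp_log (Real.cosh_pos _)]

lemma lse_A2 (δ : ℝ) {M N P : ℕ} (s : ℝ) (u : Fin P → ℝ) (ω H : Fin M → Fin (N + 1) → ℝ)
    (g : GI P (N + 1) → ℝ) :
    Real.log (∑ x, Real.exp (EE f s u ω g x) * A2 δ f1 f2 ω H x) =
      Real.log (∑ x, Real.exp (EE f s u ω g x + (cavB δ f1 f2 (fun a => cubeS (ω a) x) +
        cavY δ f1 (fun a => cubeS (ω a) x) fun a => cubeS (H a) x))) := by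
  congr 1
  refine Finset.sum_congr rfl fun x _ => ?_
  unfold A2
  rw [← Real.exp_add]

lemma integrable_F1 (hf : CB3 C f f1 f2 f3) (hfm : Measurable f) (δ : ℝ) (M N : ℕ) {P : ℕ}
    (s : ℝ) (u : Fin P → ℝ) :
    Integrable (fun z : ((Fin M → Fin (N + 1) → ℝ) × (GI P (N + 1) → ℝ)) × (Fin M → ℝ) =>
      Real.log (∑ x, Real.exp (EE f s u z.1.1 z.1.2 x) * A1 δ f1 f2 z.1.1 z.2 x))
      (((pm M N).prod (gM (GI P (N + 1)))).prod (gM (Fin M))) := by
  simp_rw [lse_A1]
  refine integrable_lse fun x => ?_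
  refine ((integrable_EE hfm C hf.b0 N M s u x).comp_fst _).add ?_
  refine (((integrable_cavB hf δ M N x).comp_fst _).comp_fst _).add ?_
  have h := integrable_cavY hf δ (N := N) (gM (GI P (N + 1))) (μ := gM (Fin M)) (h := fun η => η)
    (fun a => integrable_coord_gM a) x
  refine Integrable.mono' h.abs ?_ (Filter.Eventually.of_forall fun z => ?_)
  · have : Measurable fun t : ℝ => Real.log (Real.cosh t) :=
      Real.measurable_log.comp Real.measurable_cosh
    exact (this.comp_aemeasurable h.aestronglyMeasurable.aemeasurable).aestronglyMeasurable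
  · rw [Real.norm_eq_abs, abs_of_nonneg (log_cosh_nonneg _)]
    exact log_cosh_le _

lemma integrable_F2 (hf : CB3 C f f1 f2 f3) (hfm : Measurable f) (δ : ℝ) (M N : ℕ) {P : ℕ}
    (s : ℝ) (u : Fin P → ℝ) :
    Integrable (fun z : ((Fin M → Fin (N + 1) → ℝ) × (GI P (N + 1) → ℝ)) ×
        (Fin M → Fin (N + 1) → ℝ) =>
      Real.log (∑ x, Real.exp (EE f s u z.1.1 z.1.2 x) * A2 δ f1 f2 z.1.1 z.2 x))
      (((pm M N).prod (gM (GI P (N + 1)))).prod (pm M N)) := by
  simp_rw [lse_A2]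
  refine integrable_lse fun x => ?_
  refine ((integrable_EE hfm C hf.b0 N M s u x).comp_fst _).add ?_
  refine (((integrable_cavB hf δ M N x).comp_fst _).comp_fst _).add ?_
  exact integrable_cavY hf δ (N := N) (gM (GI P (N + 1))) (μ := pm M N)
    (h := fun H a => cubeS (H a) x) (fun a => integrable_cubeS M N a x) x

/-- splitting off the free energy -/
lemma int_split (hfm : Measurable f) (hC : ∀ x, |f x| ≤ C) (M N : ℕ) {P : ℕ}
    (s : ℝ) (u : Fin P → ℝ) {H : Type} [MeasurableSpace H] {μ : Measure H}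
    [IsProbabilityMeasure μ]
    {A : (Fin M → Fin (N + 1) → ℝ) → H → (Fin (N + 1) → Bool) → ℝ} (hA : ∀ ω η x, 0 < A ω η x)
    (hi : Integrable (fun z : ((Fin M → Fin (N + 1) → ℝ) × (GI P (N + 1) → ℝ)) × H =>
      Real.log (∑ x, Real.exp (EE f s u z.1.1 z.1.2 x) * A z.1.1 z.2 x))
      (((pm M N).prod (gM (GI P (N + 1)))).prod μ)) :
    ∫ z : ((Fin M → Fin (N + 1) → ℝ) × (GI P (N + 1) → ℝ)) × H,
      Real.log (∑ x, Real.exp (EE f s u z.1.1 z.1.2 x) * A z.1.1 z.2 x)
        ∂(((pm M N).prod (gM (GI P (N + 1)))).prod μ) =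
      (cubeBase f hfm C hC N M).elz s u +
      ∫ z : ((Fin M → Fin (N + 1) → ℝ) × (GI P (N + 1) → ℝ)) × H,
        Real.log (∑ x : Fin (N + 1) → Bool, ((cubeBase f hfm C hC N M).sys P s u).w z.1 x *
          A z.1.1 z.2 x) ∂(((pm M N).prod (gM (GI P (N + 1)))).prod μ) := by
  have hlz : Integrable (fun z : (Fin M → Fin (N + 1) → ℝ) × (GI P (N + 1) → ℝ) =>
      Real.log (∑ y, Real.exp (EE f s u z.1 z.2 y))) ((pm M N).prod (gM (GI P (N + 1)))) :=
    integrable_lse (integrable_EE hfm C hC N M s u)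
  have e2 : (cubeBase f hfm C hC N M).elz s u = ∫ z : ((Fin M → Fin (N + 1) → ℝ) ×
      (GI P (N + 1) → ℝ)) × H, Real.log (∑ y, Real.exp (EE f s u z.1.1 z.1.2 y))
      ∂(((pm M N).prod (gM (GI P (N + 1)))).prod μ) := by
    rw [integral_fun_fst (μ := (pm M N).prod (gM (GI P (N + 1)))) (ν := μ)
      (fun z => Real.log (∑ y, Real.exp (EE f s u z.1 z.2 y))), elz_eq]
    simp
  rw [e2]
  have hp : ∀ z : ((Fin M → Fin (N + 1) → ℝ) × (GI P (N + 1) → ℝ)) × H,
      Real.log (∑ x : Fin (N + 1) → Bool, ((cubeBase f hfm C hC N M).sys P s u).w z.1 x *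
          A z.1.1 z.2 x) =
      Real.log (∑ x, Real.exp (EE f s u z.1.1 z.1.2 x) * A z.1.1 z.2 x) -
        Real.log (∑ y, Real.exp (EE f s u z.1.1 z.1.2 y)) := by
    intro z
    rw [log_ratio (EE f s u z.1.1 z.1.2) (A z.1.1 z.2) (hA _ _)]
    simp only [w_eq]
    ring
  simp_rw [hp]
  rw [integral_sub hi (hlz.comp_fst _)]
  ring

/-- the linearized energy of one pattern, with the new spin -/
lemma sum_linE (δ : ℝ) {M N : ℕ} (ω : Fin M → Fin (N + 1) → ℝ) (x : Fin (N + 1) → Bool)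
    (h : Fin M → ℝ) :
    ∑ a, linE δ f f1 f2 (cubeS (ω a) x) (h a) = ∑ a, f (cubeS (ω a) x) +
      (cavB δ f1 f2 (fun a => cubeS (ω a) x) + cavY δ f1 (fun a => cubeS (ω a) x) h) := by
  unfold linE cavB cavY
  rw [← Finset.sum_add_distrib, ← Finset.sum_add_distrib]
  refine Finset.sum_congr rfl fun a _ => ?_
  ring

lemma cavY_sgn (δ : ℝ) {M N : ℕ} (ω : Fin M → Fin (N + 1) → ℝ) (x : Fin (N + 1) → Bool)
    (h : Fin M → ℝ) (t : ℝ) : cavY δ f1 (fun a => cubeS (ω a) x) (fun a => t * h a) =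
      t * cavY δ f1 (fun a => cubeS (ω a) x) h := by
  unfold cavY
  rw [Finset.mul_sum]
  exact Finset.sum_congr rfl fun a _ => by ring

/-- summation over the new spin -/
lemma sum_new (δ : ℝ) {M N P : ℕ} (s : ℝ) (u : Fin P → ℝ) (ω : Fin M → Fin (N + 1) → ℝ)
    (g : GI P (N + 1) → ℝ) (η : Fin M → ℝ) :
    Real.log (∑ y : Fin (N + 2) → Bool, Real.exp (lin (cf N s u) g (ini y)) * Real.exp (∑ a,
      linE δ f f1 f2 (cubeS (ω a) (ini y)) (sgn (las y) * η a))) =
    Real.log 2 + Real.log (∑ x, Real.exp (EE f s u ω g x) * A1 δ f1 f2 ω η x) := by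
  have h1 := sum_ini_las (N := N) (fun x b => Real.exp (lin (cf N s u) g x) * Real.exp (∑ a,
      linE δ f f1 f2 (cubeS (ω a) x) (sgn b * η a)))
  rw [h1]
  have hp : 0 < ∑ x, Real.exp (EE f s u ω g x) * A1 δ f1 f2 ω η x :=
    Lin.sum_pos' fun x => mul_pos (Real.exp_pos _) (A1_pos _ _ _ _ _ _)
  rw [← Real.log_mul (by norm_num) hp.ne', Finset.mul_sum]
  congr 1
  refine Finset.sum_congr rfl fun x _ => ?_
  have e1 : ∀ b, ∑ a, linE δ f f1 f2 (cubeS (ω a) x) (sgn b * η a) = ∑ a, f (cubeS (ω a) x) +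
      (cavB δ f1 f2 (fun a => cubeS (ω a) x) +
        sgn b * cavY δ f1 (fun a => cubeS (ω a) x) η) := by
    intro b
    rw [sum_linE δ ω x (fun a => sgn b * η a), cavY_sgn]
  rw [e1, e1]
  unfold A1 EE
  rw [Real.cosh_eq]
  simp only [sgn, if_true, Bool.false_eq_true, if_false, one_mul, neg_mul]
  simp only [Real.exp_add]
  ring

end main

end Cube

open Vale.Agent.P157.Par.Cube

/-- One more spin. -/
theorem spin_increment {f f1 f2 f3 : ℝ → ℝ} {C : ℝ} (hf : CB3 C f f1 f2 f3)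
    (hfm : Measurable f) :
    ∃ D : ℝ, 0 ≤ D ∧ ∀ (N M P : ℕ) (s : ℝ) (u : Fin P → ℝ), 0 ≤ s → (∀ q, 0 ≤ u q ∧ u q ≤ 2) →
      |(cubeBase f hfm C hf.b0 (N + 1) M).elz s u - (cubeBase f hfm C hf.b0 N M).elz s u -
        Real.log 2 - cubeDN f f1 f2 hfm C hf.b0 N M P s u| ≤
      D * (M * (1 / ((N : ℝ) + 2) * √(1 / ((N : ℝ) + 2))) + s ^ 2 / ((N : ℝ) + 1)) := by
  obtain ⟨D, hD⟩ := lin_many hf
  refine ⟨2 * |D| + 2, by positivity, ?_⟩
  intro N M P s u _ hu
  set δ : ℝ := 1 / ((N : ℝ) + 2) with hδ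
  have h0 : 0 ≤ δ := (dl_pos N).le
  have h1 : δ ≤ 1 := dl_le N
  set ν := gM (GI P (N + 1)) with hν
  set ε : ℝ := |D| * (M * (δ * √δ)) with hε
  have hε0 : D * (M * (δ * √δ)) ≤ ε := by
    refine mul_le_mul_of_nonneg_right (le_abs_self D) (by (clear * -; positivity))
  have sq1 : √(1 - δ) ^ 2 = 1 - δ := Real.sq_sqrt (by linarith)
  have sq2 : √δ ^ 2 = δ := Real.sq_sqrt h0
  -- the two terms of cubeDN
  set T1 := ∫ z : ((Fin M → Fin (N + 1) → ℝ) × (GI P (N + 1) → ℝ)) × (Fin M → ℝ),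
      Real.log (∑ x : Fin (N + 1) → Bool, ((cubeBase f hfm C hf.b0 N M).sys P s u).w z.1 x *
        A1 δ f1 f2 z.1.1 z.2 x) ∂(((pm M N).prod ν).prod (gM (Fin M))) with hT1
  set T2 := ∫ z : ((Fin M → Fin (N + 1) → ℝ) × (GI P (N + 1) → ℝ)) × (Fin M → Fin (N + 1) → ℝ),
      Real.log (∑ x : Fin (N + 1) → Bool, ((cubeBase f hfm C hf.b0 N M).sys P s u).w z.1 x *
        A2 δ f1 f2 z.1.1 z.2 x) ∂(((pm M N).prod ν).prod (pm M N)) with hT2
  have hDN : cubeDN f f1 f2 hfm C hf.b0 N M P s u = T1 - T2 := rfl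
  have hi1 := integrable_F1 hf hfm δ M N s u
  have hi2 := integrable_F2 hf hfm δ M N s u
  have s1 := int_split hfm hf.b0 M N s u (H := Fin M → ℝ) (μ := gM (Fin M))
    (A := fun ω η x => A1 δ f1 f2 ω η x) (fun ω η x => A1_pos δ f1 f2 ω η x) hi1
  have s2 := int_split hfm hf.b0 M N s u (H := Fin M → Fin (N + 1) → ℝ) (μ := pm M N)
    (A := fun ω η x => A2 δ f1 f2 ω η x) (fun ω η x => A2_pos δ f1 f2 ω η x) hi2
  rw [← hT1] at s1
  rw [← hT2] at s2
  -- rearrangements
  have ev : MeasurePreserving (fun η : Unit → ℝ => η ()) (gM Unit) (gaussianReal 0 1) :=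
    measurePreserving_eval (fun _ : Unit => gaussianReal 0 1) ()
  have r1 := rearr (α := gM (Fin (N + 1))) (γ := ν) ev M hi1
  have r2 := rearr (α := gM (Fin (N + 1))) (γ := ν) (MeasurePreserving.id (gM (Fin (N + 1)))) M hi2
  obtain ⟨i1, r1⟩ := r1
  obtain ⟨i2, r2⟩ := r2
  rw [r1] at s1
  rw [r2] at s2
  simp only [id_eq] at i2 s2
  set I1 : (GI P (N + 1) → ℝ) → ℝ := fun g =>
    ∫ q : Fin M → (Fin (N + 1) → ℝ) × (Unit → ℝ), Real.log (∑ x, Real.exp (EE f s u
      (fun a => (q a).1) g x) * A1 δ f1 f2 (fun a => (q a).1) (fun a => (q a).2 ()) x)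
      ∂(Measure.pi fun _ => (gM (Fin (N + 1))).prod (gM Unit)) with hI1
  set I2 : (GI P (N + 1) → ℝ) → ℝ := fun g =>
    ∫ q : Fin M → (Fin (N + 1) → ℝ) × (Fin (N + 1) → ℝ), Real.log (∑ x, Real.exp (EE f s u
      (fun a => (q a).1) g x) * A2 δ f1 f2 (fun a => (q a).1) (fun a => (q a).2) x)
      ∂(Measure.pi fun _ => (gM (Fin (N + 1))).prod (gM (Fin (N + 1)))) with hI2
  -- the two unperturbed integrals
  have hiJ1 : Integrable (fun z : (Fin M → Fin (N + 2) → ℝ) × (GI P (N + 1) → ℝ) =>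
      Real.log (∑ y : Fin (N + 2) → Bool, Real.exp (lin (cf N s u) z.2 (ini y) +
        ∑ a, f (cubeS (z.1 a) y)))) ((pm M (N + 1)).prod ν) := by
    refine integrable_lse fun y => ?_
    refine ((integrable_lin (cf N s u) (ini y)).comp_snd _).add ?_
    exact integrable_finsetSum _ fun a _ => integrable_fS hfm C hf.b0 (N + 1) (by fun_prop) y
  set J1 : (GI P (N + 1) → ℝ) → ℝ := fun g =>
    ∫ ω : Fin M → Fin (N + 2) → ℝ, Real.log (∑ y : Fin (N + 2) → Bool,
      Real.exp (lin (cf N s u) g (ini y) + ∑ a, f (cubeS (ω a) y))) ∂(pm M (N + 1)) with hJ1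
  have hiJ2 : Integrable (fun z : (Fin M → Fin (N + 1) → ℝ) × (GI P (N + 1) → ℝ) =>
      Real.log (∑ y, Real.exp (EE f s u z.1 z.2 y))) ((pm M N).prod ν) :=
    integrable_lse (integrable_EE hfm C hf.b0 N M s u)
  set J2 : (GI P (N + 1) → ℝ) → ℝ := fun g =>
    ∫ ω : Fin M → Fin (N + 1) → ℝ, Real.log (∑ y, Real.exp (EE f s u ω g y)) ∂(pm M N) with hJ2
  have eJ2 : (cubeBase f hfm C hf.b0 N M).elz s u = ∫ g, J2 g ∂ν := by
    rw [elz_eq, integral_prod_symm _ hiJ2]
  -- comparison of the new system with J1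
  have c1 : |(cubeBase f hfm C hf.b0 (N + 1) M).elz s u - ∫ g, J1 g ∂ν| ≤ 2 * (s ^ 2 * δ) := by
    have hiE : Integrable (fun z : (Fin M → Fin (N + 2) → ℝ) × (GI P (N + 2) → ℝ) =>
        Real.log (∑ y, Real.exp (EE f s u z.1 z.2 y)))
        ((pm M (N + 1)).prod (gM (GI P (N + 2)))) :=
      integrable_lse (integrable_EE hfm C hf.b0 (N + 1) M s u)
    have e1 : ∫ g, J1 g ∂ν = ∫ ω : Fin M → Fin (N + 2) → ℝ, ∫ g,
        Real.log (∑ y : Fin (N + 2) → Bool, Real.exp (lin (cf N s u) g (ini y) +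
        ∑ a, f (cubeS (ω a) y))) ∂ν ∂(pm M (N + 1)) := by
      rw [hJ1, ← integral_prod_symm _ hiJ1, integral_prod _ hiJ1]
    rw [elz_eq, e1]
    change |∫ z : (Fin M → Fin (N + 2) → ℝ) × (GI P (N + 2) → ℝ),
      Real.log (∑ y, Real.exp (EE f s u z.1 z.2 y)) ∂((pm M (N + 1)).prod (gM (GI P (N + 2)))) -
      _| ≤ _
    rw [integral_prod _ hiE]
    have j1 := hiE.integral_prod_left
    have j2 := hiJ1.integral_prod_left
    simp only at j1 j2 ⊢
    rw [← integral_sub j1 j2, ← Real.norm_eq_abs]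
    have hb : ∀ ω : Fin M → Fin (N + 2) → ℝ,
        ‖∫ g, Real.log (∑ y, Real.exp (EE f s u ω g y)) ∂(gM (GI P (N + 2))) -
        ∫ g, Real.log (∑ y : Fin (N + 2) → Bool, Real.exp (lin (cf N s u) g (ini y) +
        ∑ a, f (cubeS (ω a) y))) ∂ν‖ ≤ 2 * (s ^ 2 * δ) := by
      intro ω
      have h := stepA (N := N) s hu (w := fun y => Real.exp (∑ a, f (cubeS (ω a) y)))
        fun y => Real.exp_pos _
      rw [Real.norm_eq_abs]
      unfold EE
      simp_rw [add_comm (lin (cf N s u) _ (ini _)), Real.exp_add]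
      exact h
    have := norm_integral_le_of_norm_le_const (μ := pm M (N + 1)) (Filter.Eventually.of_forall hb)
    simpa using this
  -- linearization, new spin
  have c2 : ∀ g, |J1 g - (Real.log 2 + I1 g)| ≤ ε := by
    intro g
    set φ : (Fin (N + 2) → Bool) → Fin (N + 1) → ℝ := fun y i => cubeφ N (ini y) i with hφ
    set ψ : (Fin (N + 2) → Bool) → Unit → ℝ := fun y _ => sgn (las y) with hψ
    have eφ : ∀ (ξ : Fin (N + 1) → ℝ) y, lin φ ξ y = cubeS ξ (ini y) := fun ξ y =>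
      cubeS_eq_lin ξ (ini y)
    have eψ : ∀ (η : Unit → ℝ) y, lin ψ η y = sgn (las y) * η () := by
      intro η y
      simp [lin, hψ]
    have hh := hD M (Fin (N + 1)) Unit (Fin (N + 2) → Bool)
      (fun y => Real.exp (lin (cf N s u) g (ini y))) φ ψ (fun y => Real.exp_pos _) inferInstance
      (fun y => sum_cubeφ_sq N (ini y)) (fun y => by simp [hψ, sgn_sq]) δ h0 h1
    have law : (gM (Fin (N + 2))).map (fun ξ => lin (fun y i => cubeφ (N + 1) y i) ξ) =
        ((gM (Fin (N + 1))).prod (gM Unit)).map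
          (fun q y => √(1 - δ) * lin φ q.1 y + √δ * lin ψ q.2 y) := by
      refine law_mix √(1 - δ) √δ fun y y' => ?_
      rw [sq1, sq2]
      unfold gram
      rw [Fin.sum_univ_castSucc, Finset.mul_sum]
      congr 1
      · refine Finset.sum_congr rfl fun i _ => ?_
        simp only
        rw [cubeφ_castSucc, cubeφ_castSucc, ← hδ]
        have h2 : √(1 - δ) * √(1 - δ) = 1 - δ := Real.mul_self_sqrt (by linarith)
        simp only [hφ]
        linear_combination (cubeφ N (ini y) i * cubeφ N (ini y') i) * h2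
      · simp only
        rw [cubeφ_last, cubeφ_last, ← hδ]
        have h2 : √δ * √δ = δ := Real.mul_self_sqrt h0
        simp only [hψ, Finset.univ_unique, Finset.sum_singleton]
        linear_combination (sgn (las y) * sgn (las y')) * h2
    have hF : Measurable fun Z : Fin M → (Fin (N + 2) → Bool) → ℝ => Real.log (∑ y,
        Real.exp (lin (cf N s u) g (ini y)) * Real.exp (∑ a, f (Z a y))) := by fun_prop
    have hl := pi_law (measurable_lin_fun _) (by unfold lin; fun_prop) law M hF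
    simp only at hl
    rw [← hl] at hh
    have e1 : J1 g = ∫ ω : Fin M → Fin (N + 2) → ℝ, Real.log (∑ y : Fin (N + 2) → Bool,
        Real.exp (lin (cf N s u) g (ini y)) * Real.exp (∑ a,
          f (lin (fun (y : Fin (N + 2) → Bool) i => cubeφ (N + 1) y i) (ω a) y)))
        ∂(pm M (N + 1)) := by
      simp only [hJ1, Real.exp_add, cubeS_eq_lin]
    rw [← e1] at hh
    have e2 : ∫ q : Fin M → (Fin (N + 1) → ℝ) × (Unit → ℝ), Real.log (∑ y,
        Real.exp (lin (cf N s u) g (ini y)) * Real.exp (∑ a, linE δ f f1 f2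
          (lin φ (q a).1 y) (lin ψ (q a).2 y)))
        ∂(Measure.pi fun _ => (gM (Fin (N + 1))).prod (gM Unit)) = Real.log 2 + I1 g := by
      simp_rw [eφ, eψ]
      have e3 : ∀ q : Fin M → (Fin (N + 1) → ℝ) × (Unit → ℝ), Real.log (∑ y : Fin (N + 2) → Bool,
          Real.exp (lin (cf N s u) g (ini y)) * Real.exp (∑ a, linE δ f f1 f2
          (cubeS (q a).1 (ini y)) (sgn (las y) * (q a).2 ()))) =
          Real.log 2 + Real.log (∑ x, Real.exp (EE f s u (fun a => (q a).1) g x) *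
            A1 δ f1 f2 (fun a => (q a).1) (fun a => (q a).2 ()) x) := fun q =>
        sum_new δ s u (fun a => (q a).1) g (fun a => (q a).2 ())
      simp_rw [e3]
      by_cases hint : Integrable (fun q : Fin M → (Fin (N + 1) → ℝ) × (Unit → ℝ) =>
        Real.log (∑ x, Real.exp (EE f s u (fun a => (q a).1) g x) *
            A1 δ f1 f2 (fun a => (q a).1) (fun a => (q a).2 ()) x))
        (Measure.pi fun _ => (gM (Fin (N + 1))).prod (gM Unit))
      · rw [integral_add (integrable_const _) hint]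
        simp [hI1]
      · exfalso
        apply hint
        simp_rw [lse_A1]
        refine integrable_lse fun x => ?_
        have m0 := hfm
        have m1 := (Lin.continuous_f1 hf).measurable
        have m2 := (Lin.continuous_f2 hf).measurable
        have k1 : ∀ a : Fin M, Integrable (fun q : Fin M → (Fin (N + 1) → ℝ) × (Unit → ℝ) =>
            cubeS (q a).1 x) (Measure.pi fun _ => (gM (Fin (N + 1))).prod (gM Unit)) := by
          intro a
          refine integrable_comp_eval (μ := fun _ : Fin M => (gM (Fin (N + 1))).prod (gM Unit))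
            (i := a) (f := fun g => cubeS g.1 x) ?_
          refine Integrable.comp_fst (f := fun g : Fin (N + 1) → ℝ => cubeS g x) ?_ _
          unfold cubeS
          exact integrable_finsetSum _ fun i _ => (integrable_coord_gM i).mul_const _
        have k2 : ∀ a : Fin M, Integrable (fun q : Fin M → (Fin (N + 1) → ℝ) × (Unit → ℝ) =>
            (q a).2 ()) (Measure.pi fun _ => (gM (Fin (N + 1))).prod (gM Unit)) := by
          intro a
          refine integrable_comp_eval (μ := fun _ : Fin M => (gM (Fin (N + 1))).prod (gM Unit))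
            (i := a) (f := fun g => g.2 ()) ?_
          exact Integrable.comp_snd (f := fun g : Unit → ℝ => g ()) (integrable_coord_gM ()) _
        have k3 : ∀ {h : ℝ → ℝ}, Measurable h → (∀ t, |h t| ≤ C) → ∀ a : Fin M,
            Integrable (fun q : Fin M → (Fin (N + 1) → ℝ) × (Unit → ℝ) => h (cubeS (q a).1 x))
              (Measure.pi fun _ => (gM (Fin (N + 1))).prod (gM Unit)) := by
          intro h hm hb a
          exact Integrable.mono' (integrable_const C)
            (hm.comp (measurable_cubeS (by fun_prop) x)).aestronglyMeasurable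
            (Filter.Eventually.of_forall fun _ => hb _)
        have k4 : Integrable (fun q : Fin M → (Fin (N + 1) → ℝ) × (Unit → ℝ) =>
            cavY δ f1 (fun a => cubeS (q a).1 x) (fun a => (q a).2 ()))
            (Measure.pi fun _ => (gM (Fin (N + 1))).prod (gM Unit)) := by
          unfold cavY
          refine integrable_finsetSum _ fun a _ => ?_
          have h2 := (integrable_mul_bdd (k2 a) (f := fun q => f1 (cubeS (q a).1 x))
            (m1.comp (measurable_cubeS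
              (g := fun q : Fin M → (Fin (N + 1) → ℝ) × (Unit → ℝ) => (q a).1)
              (by fun_prop) x)) C fun _ => hf.b1 _).const_mul √δ
          refine h2.congr (Filter.Eventually.of_forall fun z => ?_)
          simp only
          ring
        unfold EE
        refine Integrable.add (Integrable.add (integrable_finsetSum _ fun a _ => k3 m0 hf.b0 a)
          (integrable_const _)) (Integrable.add ?_ ?_)
        · unfold cavB
          refine integrable_finsetSum _ fun a _ => Integrable.const_mul ?_ _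
          refine (k3 m2 hf.b2 a).sub ?_
          exact integrable_mul_bdd (k1 a) (m1.comp (measurable_cubeS (by fun_prop) x)) C
            fun _ => hf.b1 _
        · refine Integrable.mono' k4.abs ?_ (Filter.Eventually.of_forall fun z => ?_)
          · have : Measurable fun t : ℝ => Real.log (Real.cosh t) :=
              Real.measurable_log.comp Real.measurable_cosh
            exact (this.comp_aemeasurable
              k4.aestronglyMeasurable.aemeasurable).aestronglyMeasurable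
          · rw [Real.norm_eq_abs, abs_of_nonneg (log_cosh_nonneg _)]
            exact log_cosh_le _
    rw [e2] at hh
    exact hh.trans hε0
  -- linearization, rescaling
  have c3 : ∀ g, |J2 g - I2 g| ≤ ε := by
    intro g
    set φ : (Fin (N + 1) → Bool) → Fin (N + 1) → ℝ := fun y i => cubeφ N y i with hφ
    have eφ : ∀ (ξ : Fin (N + 1) → ℝ) y, lin φ ξ y = cubeS ξ y := fun ξ y => cubeS_eq_lin ξ y
    have hh := hD M (Fin (N + 1)) (Fin (N + 1)) (Fin (N + 1) → Bool)
      (fun y => Real.exp (lin (cf N s u) g y)) φ φ (fun y => Real.exp_pos _) inferInstance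
      (fun y => sum_cubeφ_sq N y) (fun y => sum_cubeφ_sq N y) δ h0 h1
    have law : (gM (Fin (N + 1))).map (fun ξ => lin φ ξ) =
        ((gM (Fin (N + 1))).prod (gM (Fin (N + 1)))).map
          (fun q y => √(1 - δ) * lin φ q.1 y + √δ * lin φ q.2 y) := by
      refine law_mix √(1 - δ) √δ fun y y' => ?_
      rw [sq1, sq2]
      ring
    have hF : Measurable fun Z : Fin M → (Fin (N + 1) → Bool) → ℝ => Real.log (∑ y,
        Real.exp (lin (cf N s u) g y) * Real.exp (∑ a, f (Z a y))) := by fun_prop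
    have hl := pi_law (measurable_lin_fun _) (by unfold lin; fun_prop) law M hF
    simp only at hl
    rw [← hl] at hh
    have e1 : J2 g = ∫ ω : Fin M → Fin (N + 1) → ℝ, Real.log (∑ y : Fin (N + 1) → Bool,
        Real.exp (lin (cf N s u) g y) * Real.exp (∑ a, f (lin φ (ω a) y))) ∂(pm M N) := by
      simp only [hJ2, EE, Real.exp_add, eφ]
      simp_rw [mul_comm (Real.exp (∑ a, _))]
    rw [← e1] at hh
    have e2 : ∫ q : Fin M → (Fin (N + 1) → ℝ) × (Fin (N + 1) → ℝ), Real.log (∑ y,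
        Real.exp (lin (cf N s u) g y) * Real.exp (∑ a, linE δ f f1 f2
          (lin φ (q a).1 y) (lin φ (q a).2 y)))
        ∂(Measure.pi fun _ => (gM (Fin (N + 1))).prod (gM (Fin (N + 1)))) = I2 g := by
      simp_rw [eφ]
      rw [hI2]
      refine integral_congr_ae (Filter.Eventually.of_forall fun q => ?_)
      simp only
      congr 1
      refine Finset.sum_congr rfl fun y _ => ?_
      have h3 := sum_linE (f := f) (f1 := f1) (f2 := f2) δ (fun a => (q a).1) y
        (fun a => cubeS (q a).2 y)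
      rw [h3]
      unfold EE A2
      simp only [Real.exp_add]
      ring
    rw [e2] at hh
    exact hh.trans hε0
  -- conclusion
  have iJ1 : Integrable J1 ν := hiJ1.integral_prod_right
  have iJ2 : Integrable J2 ν := hiJ2.integral_prod_right
  have d2 : |∫ g, J1 g ∂ν - (Real.log 2 + ∫ g, I1 g ∂ν)| ≤ ε := by
    have e1 : ∫ g, J1 g ∂ν - (Real.log 2 + ∫ g, I1 g ∂ν) =
        ∫ g, (J1 g - (Real.log 2 + I1 g)) ∂ν := by
      have i3 : Integrable (fun g => Real.log 2 + I1 g) ν := (integrable_const _).add i1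
      rw [integral_sub iJ1 i3, integral_add (integrable_const _) i1]
      simp
    rw [e1, ← Real.norm_eq_abs]
    have hb : ∀ g, ‖J1 g - (Real.log 2 + I1 g)‖ ≤ ε := fun g => by
      rw [Real.norm_eq_abs]; exact c2 g
    have := norm_integral_le_of_norm_le_const (μ := ν) (Filter.Eventually.of_forall hb)
    simpa using this
  have d3 : |∫ g, J2 g ∂ν - ∫ g, I2 g ∂ν| ≤ ε := by
    rw [← integral_sub iJ2 i2, ← Real.norm_eq_abs]
    have hb : ∀ g, ‖J2 g - I2 g‖ ≤ ε := fun g => by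
      rw [Real.norm_eq_abs]; exact c3 g
    have := norm_integral_le_of_norm_le_const (μ := ν) (Filter.Eventually.of_forall hb)
    simpa using this
  rw [hDN]
  have f1' : |(cubeBase f hfm C hf.b0 (N + 1) M).elz s u -
      (cubeBase f hfm C hf.b0 N M).elz s u - Real.log 2 - (T1 - T2)| ≤
      2 * (s ^ 2 * δ) + ε + ε := by
    rw [eJ2] at s1 s2 ⊢
    rw [abs_le] at c1 d2 d3 ⊢
    constructor <;> linarith only [s2, s1, c1.1, c1.2, d2.1, d2.2, d3.1, d3.2]
  refine f1'.trans ?_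
  have hδ2 : s ^ 2 * δ ≤ s ^ 2 / ((N : ℝ) + 1) := by
    rw [hδ, mul_one_div]
    exact div_le_div_of_nonneg_left (sq_nonneg s) (by positivity) (by linarith)
  have hq : 0 ≤ s ^ 2 / ((N : ℝ) + 1) := by (clear * -; positivity)
  have hr : 0 ≤ (M : ℝ) * (δ * √δ) := by (clear * -; positivity)
  rw [hε]
  linarith only [mul_nonneg (abs_nonneg D) hq, hr, hδ2]

end Vale.Agent.P157.Par
end

section

open MeasureTheory ProbabilityTheory Filter Topology

namespace Vale.Agent.P157.Par

open Vale.Agent.P367.GT (gM)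

/-- The perturbed perceptron on the cube, with `M` patterns. -/
noncomputable abbrev pS (f : ℝ → ℝ) (hf : Measurable f) (C : ℝ) (hC : ∀ x, |f x| ≤ C)
    (N M P : ℕ) (s : ℝ) (u : Fin P → ℝ) : Sys := (cubeBase f hf C hC N M).sys P s u

/-- The additive functional of `n` replicas: `δ ∑_a ∏_i h(S_a(x_i))`. -/
noncomputable def addF {M N : ℕ} (δ : ℝ) (h : ℝ → ℝ) {n : ℕ} (t : Fin M → Fin (N + 1) → ℝ)
    (x : Fin n → Fin (N + 1) → Bool) : ℝ :=
  δ * ∑ a, ∏ i, h (cubeS (t a) (x i))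

/-- The kernel of the new spin. -/
noncomputable def ker1 {M N : ℕ} (δ : ℝ) (f1 : ℝ → ℝ) (t : Fin M → Fin (N + 1) → ℝ)
    (x : Fin (N + 1) → Bool) : Fin M → ℝ := fun a => √δ * f1 (cubeS (t a) x)

/-- The kernel of the rescaling. -/
noncomputable def ker2 {M N : ℕ} (δ : ℝ) (f1 : ℝ → ℝ) (t : Fin M → Fin (N + 1) → ℝ)
    (x : Fin (N + 1) → Bool) : Fin M × Fin (N + 1) → ℝ :=
  fun p => √δ * f1 (cubeS (t p.1) x) * cubeφ N x p.2

/-- The exponents of the weights `w`. -/
noncomputable def mOf {k : ℕ} (w : Fin (k + 1) → ℝ) (l : ℕ) : ℝ :=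
  ∑ l' : Fin (k + 1), if (l' : ℕ) < l then w l' else 0

/-- The bounded truncation of the identity. -/
noncomputable def trn (T : ℝ) (x : ℝ) : ℝ := T * Real.tanh (x / T)

/-- Smooth potentials: `W = e^f / c₀` takes its values in `[a, 1]`. -/
structure Pot (C c₀ a : ℝ) (f f1 f2 f3 : ℝ → ℝ) : Prop where
  cb3 : CB3 C f f1 f2 f3
  cf1 : ∃ g' g'', CB2 f1 g' g''
  cf2 : ∃ g' g'', CB2 f2 g' g''
  c0 : 0 < c₀
  a0 : 0 < a
  Wa : ∀ x, a ≤ Real.exp (f x) / c₀
  W1 : ∀ x, Real.exp (f x) / c₀ ≤ 1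

end Vale.Agent.P157.Par
end

section

/-! Adding one pattern: exchangeability of the patterns and separation of the first pattern. -/

open MeasureTheory ProbabilityTheory Filter Topology

namespace Vale.Agent.P157.Par

open Vale.Agent.P367.GT (gM)

namespace AddP

open Vale.Agent.P157.Par.Cube

/-- the weights -/
noncomputable def wA (f : ℝ → ℝ) (N M P : ℕ) (s : ℝ) (u : Fin P → ℝ)
    (z : (Fin M → Fin (N + 1) → ℝ) × (GI P (N + 1) → ℝ)) (y : Fin (N + 1) → Bool) : ℝ :=
  Real.exp (EE f s u z.1 z.2 y) / ∑ y', Real.exp (EE f s u z.1 z.2 y')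

/-- the averages -/
noncomputable def TV (f : ℝ → ℝ) (N M P : ℕ) (s : ℝ) (u : Fin P → ℝ) {n : ℕ}
    (G : (Fin M → Fin (N + 1) → ℝ) → (Fin n → Fin (N + 1) → Bool) → ℝ) : ℝ :=
  ∫ z : (Fin M → Fin (N + 1) → ℝ) × (GI P (N + 1) → ℝ),
    ∑ x : Fin n → Fin (N + 1) → Bool, (∏ i, wA f N M P s u z (x i)) * G z.1 x
    ∂((pm M N).prod (gM (GI P (N + 1))))

section conc

variable (f : ℝ → ℝ) (N M P : ℕ) (s : ℝ) (u : Fin P → ℝ)

lemma den_pos (z : (Fin M → Fin (N + 1) → ℝ) × (GI P (N + 1) → ℝ)) :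
    0 < ∑ y', Real.exp (EE f s u z.1 z.2 y') := Lin.sum_pos' fun _ => Real.exp_pos _

lemma wA_nonneg (z : (Fin M → Fin (N + 1) → ℝ) × (GI P (N + 1) → ℝ)) (y : Fin (N + 1) → Bool) :
    0 ≤ wA f N M P s u z y := div_nonneg (Real.exp_pos _).le (den_pos f N M P s u z).le

lemma wA_sum (z : (Fin M → Fin (N + 1) → ℝ) × (GI P (N + 1) → ℝ)) :
    ∑ y, wA f N M P s u z y = 1 := by
  unfold wA
  rw [← Finset.sum_div, div_self (den_pos f N M P s u z).ne']

lemma wA_le_one (z : (Fin M → Fin (N + 1) → ℝ) × (GI P (N + 1) → ℝ)) (y : Fin (N + 1) → Bool) :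
    wA f N M P s u z y ≤ 1 := by
  rw [← wA_sum f N M P s u z]
  exact Finset.single_le_sum (f := fun y => wA f N M P s u z y)
    (fun y _ => wA_nonneg f N M P s u z y) (Finset.mem_univ y)

lemma EE_meas (hf : Measurable f) (y : Fin (N + 1) → Bool) : Measurable
    fun z : (Fin M → Fin (N + 1) → ℝ) × (GI P (N + 1) → ℝ) => EE f s u z.1 z.2 y := by
  unfold EE
  refine Measurable.add ?_ ?_
  · refine Finset.measurable_sum _ fun a _ => hf.comp ?_
    unfold cubeS
    fun_prop
  · unfold lin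
    fun_prop

lemma wA_meas (hf : Measurable f) (y : Fin (N + 1) → Bool) : Measurable
    fun z : (Fin M → Fin (N + 1) → ℝ) × (GI P (N + 1) → ℝ) => wA f N M P s u z y := by
  unfold wA
  refine Measurable.div (EE_meas f N M P s u hf y).exp ?_
  exact Finset.measurable_sum _ fun y' _ => (EE_meas f N M P s u hf y').exp

lemma prod_wA_abs {n : ℕ} (z : (Fin M → Fin (N + 1) → ℝ) × (GI P (N + 1) → ℝ))
    (x : Fin n → Fin (N + 1) → Bool) : |∏ i, wA f N M P s u z (x i)| ≤ 1 := by
  rw [Finset.abs_prod]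
  refine Finset.prod_le_one (fun _ _ => abs_nonneg _) fun i _ => ?_
  rw [abs_of_nonneg (wA_nonneg f N M P s u z (x i))]
  exact wA_le_one f N M P s u z (x i)

lemma prod_wA_meas (hf : Measurable f) {n : ℕ} (x : Fin n → Fin (N + 1) → Bool) : Measurable
    fun z : (Fin M → Fin (N + 1) → ℝ) × (GI P (N + 1) → ℝ) => ∏ i, wA f N M P s u z (x i) :=
  Finset.measurable_prod _ fun i _ => wA_meas f N M P s u hf (x i)

lemma EE_perm (σ : Equiv.Perm (Fin M)) (t : Fin M → Fin (N + 1) → ℝ) (g : GI P (N + 1) → ℝ)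
    (y : Fin (N + 1) → Bool) : EE f s u (fun c => t (σ c)) g y = EE f s u t g y := by
  unfold EE
  rw [Equiv.sum_comp σ fun a => f (cubeS (t a) y)]

lemma wA_perm (σ : Equiv.Perm (Fin M)) (z : (Fin M → Fin (N + 1) → ℝ) × (GI P (N + 1) → ℝ))
    (y : Fin (N + 1) → Bool) : wA f N M P s u (fun c => z.1 (σ c), z.2) y =
      wA f N M P s u z y := by
  unfold wA
  simp only [EE_perm]

/-- Exchangeability of the patterns. -/
lemma TV_exch {n : ℕ} (a b : Fin M)
    (G : (Fin M → Fin (N + 1) → ℝ) → (Fin n → Fin (N + 1) → Bool) → ℝ) :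
    TV f N M P s u G = TV f N M P s u (fun t x => G (fun c => t (Equiv.swap a b c)) x) := by
  set σ : Equiv.Perm (Fin M) := Equiv.swap a b with hσ
  have hσσ : ∀ c, σ (σ c) = c := fun c => by rw [hσ, Equiv.swap_apply_self]
  set e0 : (Fin M → Fin (N + 1) → ℝ) ≃ᵐ (Fin M → Fin (N + 1) → ℝ) :=
    MeasurableEquiv.piCongrLeft (fun _ : Fin M => Fin (N + 1) → ℝ) σ with he0
  have he0a : ∀ t : Fin M → Fin (N + 1) → ℝ, e0 t = fun c => t (σ c) := by
    intro t
    funext c
    have h1 := MeasurableEquiv.piCongrLeft_apply_apply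
      (β := fun _ : Fin M => Fin (N + 1) → ℝ) σ t (σ c)
    rw [hσσ] at h1
    exact h1
  have mp0 : MeasurePreserving e0 (pm M N) (pm M N) :=
    measurePreserving_piCongrLeft (fun _ : Fin M => gM (Fin (N + 1))) σ
  set e1 := e0.prodCongr (MeasurableEquiv.refl (GI P (N + 1) → ℝ)) with he1
  have mp1 : MeasurePreserving e1 ((pm M N).prod (gM (GI P (N + 1))))
      ((pm M N).prod (gM (GI P (N + 1)))) := mp0.prod (MeasurePreserving.id _)
  unfold TV
  rw [← mp1.integral_comp' (g := fun z : (Fin M → Fin (N + 1) → ℝ) × (GI P (N + 1) → ℝ) =>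
        ∑ x : Fin n → Fin (N + 1) → Bool, (∏ i, wA f N M P s u z (x i)) * G z.1 x)]
  refine integral_congr_ae (Filter.Eventually.of_forall fun z => ?_)
  have e2 : e1 z = (fun c => z.1 (σ c), z.2) := by
    have : e1 z = (e0 z.1, z.2) := rfl
    rw [this, he0a]
  simp only [e2, wA_perm]

/-- A sum over the patterns. -/
lemma TV_sum_patterns (hf : Measurable f) {n : ℕ}
    {F : (Fin (N + 1) → ℝ) → (Fin n → Fin (N + 1) → Bool) → ℝ}
    (hFm : ∀ x, Measurable fun g => F g x) {B : ℝ} (hFB : ∀ g x, |F g x| ≤ B)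
    {G : (Fin (M + 1) → Fin (N + 1) → ℝ) → (Fin n → Fin (N + 1) → Bool) → ℝ}
    (hGm : ∀ x, Measurable fun t => G t x) {D : ℝ} (hGD : ∀ t x, |G t x| ≤ D)
    (hG : ∀ (a b : Fin (M + 1)) t x, G (fun c => t (Equiv.swap a b c)) x = G t x) :
    TV f N (M + 1) P s u (n := n) (fun t x => (∑ a, F (t a) x) * G t x) =
      (M + 1) * TV f N (M + 1) P s u (n := n) (fun t x => F (t 0) x * G t x) := by
  have h1 : ∀ a : Fin (M + 1), TV f N (M + 1) P s u (n := n) (fun t x => F (t a) x * G t x) =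
      TV f N (M + 1) P s u (n := n) (fun t x => F (t 0) x * G t x) := by
    intro a
    rw [TV_exch f N (M + 1) P s u 0 a]
    simp only [hG, Equiv.swap_apply_right]
  have hint : ∀ a : Fin (M + 1), Integrable
      (fun z : (Fin (M + 1) → Fin (N + 1) → ℝ) × (GI P (N + 1) → ℝ) =>
        ∑ x : Fin n → Fin (N + 1) → Bool, (∏ i, wA f N (M + 1) P s u z (x i)) *
          (F (z.1 a) x * G z.1 x)) ((pm (M + 1) N).prod (gM (GI P (N + 1)))) := by
    intro a
    refine integrable_finsetSum _ fun x _ => ?_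
    refine Integrable.mono' (integrable_const (|B| * |D|)) ?_
      (Filter.Eventually.of_forall fun z => ?_)
    · exact ((prod_wA_meas f N (M + 1) P s u hf x).mul
        (((hFm x).comp ((measurable_pi_apply a).comp measurable_fst)).mul
          ((hGm x).comp measurable_fst))).aestronglyMeasurable
    · rw [Real.norm_eq_abs, abs_mul, abs_mul]
      have k1 := prod_wA_abs f N (M + 1) P s u z x
      have k2 := (hFB (z.1 a) x).trans (le_abs_self B)
      have k3 := (hGD z.1 x).trans (le_abs_self D)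
      calc _ ≤ 1 * (|B| * |D|) := mul_le_mul k1
            (mul_le_mul k2 k3 (abs_nonneg _) (abs_nonneg _)) (by positivity) zero_le_one
        _ = _ := one_mul _
  have h2 : TV f N (M + 1) P s u (n := n) (fun t x => (∑ a, F (t a) x) * G t x) =
      ∑ a, TV f N (M + 1) P s u (n := n) (fun t x => F (t a) x * G t x) := by
    unfold TV
    rw [← integral_finsetSum _ fun a _ => hint a]
    refine integral_congr_ae (Filter.Eventually.of_forall fun z => ?_)
    simp only
    rw [Finset.sum_comm]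
    refine Finset.sum_congr rfl fun x _ => ?_
    rw [Finset.sum_mul, Finset.mul_sum]
  rw [h2, Finset.sum_congr rfl fun a _ => h1 a]
  simp

/-- the rearrangement of the variables: separation of the first pattern -/
noncomputable def eAg (E G : Type) [MeasurableSpace E] [MeasurableSpace G] :
    ((Fin (M + 1) → E) × G) ≃ᵐ (((Fin M → E) × G) × E) :=
  (((MeasurableEquiv.piFinSuccAbove (fun _ : Fin (M + 1) => E) 0).prodCongr
    (MeasurableEquiv.refl G)).trans MeasurableEquiv.prodAssoc).trans MeasurableEquiv.prodComm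

lemma mp_eAg {E G : Type} [MeasurableSpace E] [MeasurableSpace G] (μ : Measure E)
    [IsProbabilityMeasure μ] (ν : Measure G) [IsProbabilityMeasure ν] :
    MeasurePreserving (eAg M E G) ((Measure.pi fun _ => μ).prod ν)
      (((Measure.pi fun _ => μ).prod ν).prod μ) := by
  have mp1 : MeasurePreserving ((MeasurableEquiv.piFinSuccAbove
      (fun _ : Fin (M + 1) => E) 0).prodCongr (MeasurableEquiv.refl G))
      ((Measure.pi fun _ : Fin (M + 1) => μ).prod ν)
      ((μ.prod (Measure.pi fun _ : Fin M => μ)).prod ν) :=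
    (measurePreserving_piFinSuccAbove (fun _ : Fin (M + 1) => μ) 0).prod
      (MeasurePreserving.id _)
  have mp2 := measurePreserving_prodAssoc μ (Measure.pi fun _ : Fin M => μ) ν
  have mp3 := Measure.measurePreserving_swap (μ := μ)
    (ν := (Measure.pi fun _ : Fin M => μ).prod ν)
  exact mp3.comp (mp2.comp mp1)

/-- the rearrangement of the variables: separation of the first pattern -/
noncomputable abbrev eA : ((Fin (M + 1) → Fin (N + 1) → ℝ) × (GI P (N + 1) → ℝ)) ≃ᵐ
    (((Fin M → Fin (N + 1) → ℝ) × (GI P (N + 1) → ℝ)) × (Fin (N + 1) → ℝ)) :=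
  eAg M (Fin (N + 1) → ℝ) (GI P (N + 1) → ℝ)

lemma eA_apply (z : (Fin (M + 1) → Fin (N + 1) → ℝ) × (GI P (N + 1) → ℝ)) :
    eA N M P z = ((fun a => z.1 a.succ, z.2), z.1 0) := rfl

lemma mp_eA : MeasurePreserving (eA N M P) ((pm (M + 1) N).prod (gM (GI P (N + 1))))
    (((pm M N).prod (gM (GI P (N + 1)))).prod (gM (Fin (N + 1)))) :=
  mp_eAg M (gM (Fin (N + 1))) (gM (GI P (N + 1)))

variable {f}

/-- the weights with one more pattern -/
lemma wA_succ {W : ℝ → ℝ} {c₀ : ℝ} (hc₀ : 0 < c₀) (hW : ∀ x, W x = Real.exp (f x) / c₀)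
    (z : (Fin (M + 1) → Fin (N + 1) → ℝ) × (GI P (N + 1) → ℝ)) (y : Fin (N + 1) → Bool) :
    wA f N (M + 1) P s u z y =
      wA f N M P s u (eA N M P z).1 y * W (cubeS (z.1 0) y) /
        ∑ y', wA f N M P s u (eA N M P z).1 y' * W (cubeS (z.1 0) y') := by
  rw [eA_apply]
  simp only
  set z' : (Fin M → Fin (N + 1) → ℝ) × (GI P (N + 1) → ℝ) := (fun a => z.1 a.succ, z.2) with hz'
  have hE : ∀ y, EE f s u z.1 z.2 y = EE f s u z'.1 z'.2 y + f (cubeS (z.1 0) y) := by
    intro y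
    unfold EE
    rw [Fin.sum_univ_succ]
    ring
  have hD := den_pos f N M P s u z'
  set D := ∑ y', Real.exp (EE f s u z'.1 z'.2 y') with hDd
  have hexp : ∀ y, Real.exp (EE f s u z.1 z.2 y) =
      (wA f N M P s u z' y * W (cubeS (z.1 0) y)) * (D * c₀) := by
    intro y
    rw [hE, Real.exp_add, hW]
    unfold wA
    rw [← hDd]
    field_simp
  unfold wA at hexp ⊢
  simp_rw [hexp]
  rw [← Finset.sum_mul, mul_div_mul_right _ _ (by positivity)]

/-- Separation of the first pattern. -/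
lemma TV_add {n : ℕ} {Φ : (Fin M → Fin (N + 1) → ℝ) → (Fin n → Fin (N + 1) → Bool) → ℝ}
    {h : ℝ → ℝ} {W : ℝ → ℝ} {c₀ : ℝ} (hc₀ : 0 < c₀) (hW : ∀ x, W x = Real.exp (f x) / c₀) :
    TV f N (M + 1) P s u (n := n)
        (fun t x => Φ (fun a => t a.succ) x * ∏ i, h (cubeS (t 0) (x i))) =
      ∫ z : ((Fin M → Fin (N + 1) → ℝ) × (GI P (N + 1) → ℝ)) × (Fin (N + 1) → ℝ),
        (∑ x : Fin n → Fin (N + 1) → Bool, Φ z.1.1 x *
          ∏ i, (wA f N M P s u z.1 (x i) * (h (cubeS z.2 (x i)) * W (cubeS z.2 (x i))))) /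
          (∑ x, wA f N M P s u z.1 x * W (cubeS z.2 x)) ^ n
        ∂(((pm M N).prod (gM (GI P (N + 1)))).prod (gM (Fin (N + 1)))) := by
  rw [← (mp_eA N M P).integral_comp'
    (g := fun z : ((Fin M → Fin (N + 1) → ℝ) × (GI P (N + 1) → ℝ)) × (Fin (N + 1) → ℝ) =>
        (∑ x : Fin n → Fin (N + 1) → Bool, Φ z.1.1 x *
          ∏ i, (wA f N M P s u z.1 (x i) * (h (cubeS z.2 (x i)) * W (cubeS z.2 (x i))))) /
          (∑ x, wA f N M P s u z.1 x * W (cubeS z.2 x)) ^ n)]
  unfold TV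
  refine integral_congr_ae (Filter.Eventually.of_forall fun z => ?_)
  simp only
  rw [Finset.sum_div]
  refine Finset.sum_congr rfl fun x _ => ?_
  simp only [wA_succ N M P s u hc₀ hW]
  rw [Finset.prod_div_distrib, Finset.prod_const, Finset.card_univ, Fintype.card_fin]
  have e1 : (eA N M P z).1.1 = fun a => z.1 a.succ := rfl
  have e2 : (eA N M P z).2 = z.1 0 := rfl
  rw [e1, e2]
  simp only [Finset.prod_mul_distrib]
  ring

/-- the law of a field -/
lemma law_cubeS (y : Fin (N + 1) → Bool) :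
    (gM (Fin (N + 1))).map (fun g => cubeS g y) = gaussianReal 0 1 := by
  set U : Unit → Fin (N + 1) → ℝ := fun _ i => cubeφ N y i with hU
  set V : Unit → Unit → ℝ := fun _ _ => 1 with hV
  have hG : ∀ a b, gram U U a b = gram V V a b := by
    intro a b
    simp only [gram, hU, hV]
    have := Cube.sum_cubeφ_sq N y
    simp_rw [sq] at this
    rw [this]
    simp
  have h := map_lin_congr hG
  have mU : Measurable fun ξ : Fin (N + 1) → ℝ =>
      (WithLp.toLp 2 (lin U ξ) : EuclideanSpace ℝ Unit) := by unfold lin; fun_prop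
  have mV : Measurable fun ξ : Unit → ℝ =>
      (WithLp.toLp 2 (lin V ξ) : EuclideanSpace ℝ Unit) := by unfold lin; fun_prop
  have mE : Measurable fun z : EuclideanSpace ℝ Unit => z () := by fun_prop
  have h2 := congrArg (fun μ => Measure.map (fun z : EuclideanSpace ℝ Unit => z ()) μ) h
  simp only at h2
  rw [Measure.map_map mE mU, Measure.map_map mE mV] at h2
  have e1 : (fun z : EuclideanSpace ℝ Unit => z ()) ∘
      (fun ξ : Fin (N + 1) → ℝ => (WithLp.toLp 2 (lin U ξ) : EuclideanSpace ℝ Unit)) =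
      fun g => cubeS g y := by
    funext g
    simp only [Function.comp, lin, hU, cubeS]
    exact Finset.sum_congr rfl fun i _ => mul_comm _ _
  have e2 : (fun z : EuclideanSpace ℝ Unit => z ()) ∘
      (fun ξ : Unit → ℝ => (WithLp.toLp 2 (lin V ξ) : EuclideanSpace ℝ Unit)) =
      fun ξ => ξ () := by
    funext g
    simp [Function.comp, lin, hV]
  rw [e1, e2] at h2
  rw [h2]
  exact (measurePreserving_eval (fun _ : Unit => gaussianReal 0 1) ()).map_eq

lemma mpS (b : Fin (M + 1)) (y : Fin (N + 1) → Bool) : MeasurePreserving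
    (fun z : (Fin (M + 1) → Fin (N + 1) → ℝ) × (GI P (N + 1) → ℝ) => cubeS (z.1 b) y)
    ((pm (M + 1) N).prod (gM (GI P (N + 1)))) (gaussianReal 0 1) := by
  have m1 : MeasurePreserving (Prod.fst : (Fin (M + 1) → Fin (N + 1) → ℝ) ×
      (GI P (N + 1) → ℝ) → Fin (M + 1) → Fin (N + 1) → ℝ)
      ((pm (M + 1) N).prod (gM (GI P (N + 1)))) (pm (M + 1) N) := measurePreserving_fst
  have m2 : MeasurePreserving (Function.eval b) (pm (M + 1) N) (gM (Fin (N + 1))) :=
    measurePreserving_eval (fun _ : Fin (M + 1) => gM (Fin (N + 1))) b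
  have m3 : MeasurePreserving (fun g => cubeS g y) (gM (Fin (N + 1))) (gaussianReal 0 1) :=
    ⟨by unfold cubeS; fun_prop, law_cubeS N y⟩
  exact m3.comp (m2.comp m1)

/-- integrability for possibly unbounded functions of one field -/
lemma field_integrable (hf : Measurable f) {g : ℝ → ℝ} (hg : Integrable g (gaussianReal 0 1))
    (b : Fin (M + 1)) (x : Fin 1 → Fin (N + 1) → Bool) : Integrable
      (fun z : (Fin (M + 1) → Fin (N + 1) → ℝ) × (GI P (N + 1) → ℝ) =>
        (∏ i, wA f N (M + 1) P s u z (x i)) * g (cubeS (z.1 b) (x 0)))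
      ((pm (M + 1) N).prod (gM (GI P (N + 1)))) := by
  have h1 : Integrable (fun z : (Fin (M + 1) → Fin (N + 1) → ℝ) × (GI P (N + 1) → ℝ) =>
      g (cubeS (z.1 b) (x 0))) ((pm (M + 1) N).prod (gM (GI P (N + 1)))) :=
    (mpS N M P b (x 0)).integrable_comp_of_integrable hg
  exact h1.bdd_mul (c := 1) (prod_wA_meas f N (M + 1) P s u hf x).aestronglyMeasurable
    (Filter.Eventually.of_forall fun z => by
      rw [Real.norm_eq_abs]; exact prod_wA_abs f N (M + 1) P s u z x)

lemma sum_fin1 {Y : Type} [Fintype Y] (F : Y → ℝ) : ∑ x : Fin 1 → Y, F (x 0) = ∑ y, F y :=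
  Fintype.sum_equiv (Equiv.funUnique (Fin 1) Y) _ _ fun _ => rfl

/-- First moments of one field. -/
lemma TV_field_le (hf : Measurable f) {W : ℝ → ℝ} {c₀ a : ℝ} (hc₀ : 0 < c₀)
    (hW : ∀ x, W x = Real.exp (f x) / c₀) (ha : 0 < a) (hWa : ∀ x, a ≤ W x)
    (hW1 : ∀ x, W x ≤ 1) {g : ℝ → ℝ} (hg0 : ∀ x, 0 ≤ g x)
    (hg : Integrable g (gaussianReal 0 1)) (b : Fin (M + 1)) :
    TV f N (M + 1) P s u (n := 1) (fun t x => g (cubeS (t b) (x 0))) ≤
      1 / a * ∫ z, g z ∂(gaussianReal 0 1) := by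
  rw [TV_exch f N (M + 1) P s u b 0]
  simp only [Equiv.swap_apply_left]
  have h1 : TV f N (M + 1) P s u (n := 1) (fun t x => g (cubeS (t 0) (x 0))) =
      TV f N (M + 1) P s u (n := 1)
        (fun t x => (1 : ℝ) * ∏ i, g (cubeS (t 0) (x i))) := by
    congr 1
    funext t x
    simp
  have h2 := TV_add N M P s u (n := 1) (Φ := fun _ _ => (1 : ℝ)) (h := g) hc₀ hW
  rw [h1.trans h2]
  -- the comparison function
  have hi : ∀ y : Fin (N + 1) → Bool, Integrable
      (fun z : ((Fin M → Fin (N + 1) → ℝ) × (GI P (N + 1) → ℝ)) × (Fin (N + 1) → ℝ) =>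
        wA f N M P s u z.1 y * g (cubeS z.2 y))
      (((pm M N).prod (gM (GI P (N + 1)))).prod (gM (Fin (N + 1)))) := by
    intro y
    refine Integrable.mul_prod (f := fun z => wA f N M P s u z y)
      (g := fun z => g (cubeS z y)) ?_ ?_
    · refine Integrable.mono' (integrable_const 1) (wA_meas f N M P s u hf y).aestronglyMeasurable
        (Filter.Eventually.of_forall fun z => ?_)
      rw [Real.norm_eq_abs, abs_of_nonneg (wA_nonneg f N M P s u z y)]
      exact wA_le_one f N M P s u z y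
    · have m3 : MeasurePreserving (fun g => cubeS g y) (gM (Fin (N + 1))) (gaussianReal 0 1) :=
        ⟨by unfold cubeS; fun_prop, law_cubeS N y⟩
      exact m3.integrable_comp_of_integrable hg
  have hval : ∀ y : Fin (N + 1) → Bool,
      ∫ z : ((Fin M → Fin (N + 1) → ℝ) × (GI P (N + 1) → ℝ)) × (Fin (N + 1) → ℝ),
        wA f N M P s u z.1 y * g (cubeS z.2 y)
        ∂(((pm M N).prod (gM (GI P (N + 1)))).prod (gM (Fin (N + 1)))) =
      (∫ z, wA f N M P s u z y ∂((pm M N).prod (gM (GI P (N + 1))))) *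
        ∫ z, g z ∂(gaussianReal 0 1) := by
    intro y
    rw [integral_prod_mul (fun z => wA f N M P s u z y) (fun z => g (cubeS z y))]
    congr 1
    have hm : Measurable fun g : Fin (N + 1) → ℝ => cubeS g y := by unfold cubeS; fun_prop
    rw [← law_cubeS N y, integral_map hm.aemeasurable
      (by rw [law_cubeS N y]; exact hg.aestronglyMeasurable)]
  have hsum : ∑ y, (∫ z, wA f N M P s u z y ∂((pm M N).prod (gM (GI P (N + 1))))) = 1 := by
    rw [← integral_finsetSum]
    · simp_rw [wA_sum]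
      simp
    · intro y _
      refine Integrable.mono' (integrable_const 1) (wA_meas f N M P s u hf y).aestronglyMeasurable
        (Filter.Eventually.of_forall fun z => ?_)
      rw [Real.norm_eq_abs, abs_of_nonneg (wA_nonneg f N M P s u z y)]
      exact wA_le_one f N M P s u z y
  have hle : ∀ z : ((Fin M → Fin (N + 1) → ℝ) × (GI P (N + 1) → ℝ)) × (Fin (N + 1) → ℝ),
      0 ≤ (∑ x : Fin 1 → Fin (N + 1) → Bool, (1 : ℝ) *
          ∏ i, (wA f N M P s u z.1 (x i) * (g (cubeS z.2 (x i)) * W (cubeS z.2 (x i))))) /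
          (∑ x, wA f N M P s u z.1 x * W (cubeS z.2 x)) ^ 1 ∧
      (∑ x : Fin 1 → Fin (N + 1) → Bool, (1 : ℝ) *
          ∏ i, (wA f N M P s u z.1 (x i) * (g (cubeS z.2 (x i)) * W (cubeS z.2 (x i))))) /
          (∑ x, wA f N M P s u z.1 x * W (cubeS z.2 x)) ^ 1 ≤
      1 / a * ∑ y, wA f N M P s u z.1 y * g (cubeS z.2 y) := by
    intro z
    have e1 : (∑ x : Fin 1 → Fin (N + 1) → Bool, (1 : ℝ) *
          ∏ i, (wA f N M P s u z.1 (x i) * (g (cubeS z.2 (x i)) * W (cubeS z.2 (x i))))) =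
        ∑ y, wA f N M P s u z.1 y * (g (cubeS z.2 y) * W (cubeS z.2 y)) := by
      rw [← sum_fin1 fun y => wA f N M P s u z.1 y * (g (cubeS z.2 y) * W (cubeS z.2 y))]
      simp
    have e2 : a ≤ ∑ x, wA f N M P s u z.1 x * W (cubeS z.2 x) := by
      calc a = ∑ x, wA f N M P s u z.1 x * a := by
            rw [← Finset.sum_mul, wA_sum, one_mul]
        _ ≤ _ := Finset.sum_le_sum fun x _ =>
            mul_le_mul_of_nonneg_left (hWa _) (wA_nonneg f N M P s u z.1 x)
    have e3 : ∑ y, wA f N M P s u z.1 y * (g (cubeS z.2 y) * W (cubeS z.2 y)) ≤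
        ∑ y, wA f N M P s u z.1 y * g (cubeS z.2 y) := by
      refine Finset.sum_le_sum fun y _ => mul_le_mul_of_nonneg_left ?_
        (wA_nonneg f N M P s u z.1 y)
      exact mul_le_of_le_one_right (hg0 _) (hW1 _)
    have e4 : 0 ≤ ∑ y, wA f N M P s u z.1 y * (g (cubeS z.2 y) * W (cubeS z.2 y)) :=
      Finset.sum_nonneg fun y _ => mul_nonneg (wA_nonneg f N M P s u z.1 y)
        (mul_nonneg (hg0 _) (ha.le.trans (hWa _)))
    rw [e1, pow_one]
    have hD : 0 < ∑ x, wA f N M P s u z.1 x * W (cubeS z.2 x) := ha.trans_le e2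
    refine ⟨div_nonneg e4 hD.le, ?_⟩
    calc _ ≤ (∑ y, wA f N M P s u z.1 y * (g (cubeS z.2 y) * W (cubeS z.2 y))) / a :=
          div_le_div_of_nonneg_left e4 ha e2
      _ = 1 / a * ∑ y, wA f N M P s u z.1 y * (g (cubeS z.2 y) * W (cubeS z.2 y)) := by ring
      _ ≤ _ := mul_le_mul_of_nonneg_left e3 (by positivity)
  have hI : Integrable
      (fun z : ((Fin M → Fin (N + 1) → ℝ) × (GI P (N + 1) → ℝ)) × (Fin (N + 1) → ℝ) =>
        1 / a * ∑ y, wA f N M P s u z.1 y * g (cubeS z.2 y))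
      (((pm M N).prod (gM (GI P (N + 1)))).prod (gM (Fin (N + 1)))) :=
    (integrable_finsetSum _ fun y _ => hi y).const_mul _
  refine (integral_mono_of_nonneg (Filter.Eventually.of_forall fun z => (hle z).1) hI
    (Filter.Eventually.of_forall fun z => (hle z).2)).trans (le_of_eq ?_)
  rw [integral_const_mul, integral_finsetSum _ fun y _ => hi y]
  simp_rw [hval]
  rw [← Finset.sum_mul, hsum, one_mul]

end conc

end AddP

section ADD

variable {f : ℝ → ℝ} (hf : Measurable f) (C : ℝ) (hC : ∀ x, |f x| ≤ C) (N M P : ℕ) (s : ℝ)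
  (u : Fin P → ℝ)

lemma AddP.tav_eq {n : ℕ}
    (G : (Fin M → Fin (N + 1) → ℝ) → (Fin n → Fin (N + 1) → Bool) → ℝ) :
    (pS f hf C hC N M P s u).tav (n := n) G = AddP.TV f N M P s u G := by
  have h1 : (pS f hf C hC N M P s u).tav (n := n) G =
      ∫ z : (Fin M → Fin (N + 1) → ℝ) × (GI P (N + 1) → ℝ),
        ∑ x : Fin n → Fin (N + 1) → Bool, (∏ i, (pS f hf C hC N M P s u).w z (x i)) * G z.1 x
        ∂((Cube.pm M N).prod (gM (GI P (N + 1)))) := rfl
  refine h1.trans ?_
  unfold AddP.TV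
  refine integral_congr_ae (Filter.Eventually.of_forall fun z => ?_)
  refine Finset.sum_congr rfl fun x _ => ?_
  refine congrArg (fun t => t * G z.1 x) ?_
  exact Finset.prod_congr rfl fun i _ => Cube.w_eq hf C hC N M s u z (x i)

/-- Exchangeability of the patterns. -/
theorem tav_exch {n : ℕ} (a : Fin M)
    (b : Fin M) (G : (Fin M → Fin (N + 1) → ℝ) → (Fin n → Fin (N + 1) → Bool) → ℝ) :
    (pS f hf C hC N M P s u).tav (n := n) G =
      (pS f hf C hC N M P s u).tav (n := n) (fun t x => G (fun c => t (Equiv.swap a b c)) x) :=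
  (AddP.tav_eq hf C hC N M P s u G).trans ((AddP.TV_exch f N M P s u a b G).trans
    (AddP.tav_eq hf C hC N M P s u fun t x => G (fun c => t (Equiv.swap a b c)) x).symm)

/-- A sum over the patterns. -/
theorem tav_sum_patterns {n : ℕ} {F : (Fin (N + 1) → ℝ) → (Fin n → Fin (N + 1) → Bool) → ℝ}
    (hFm : ∀ x, Measurable fun g => F g x) {B : ℝ} (hFB : ∀ g x, |F g x| ≤ B)
    {G : (Fin (M + 1) → Fin (N + 1) → ℝ) → (Fin n → Fin (N + 1) → Bool) → ℝ}
    (hGm : ∀ x, Measurable fun t => G t x) {D : ℝ} (hGD : ∀ t x, |G t x| ≤ D)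
    (hG : ∀ (a b : Fin (M + 1)) t x, G (fun c => t (Equiv.swap a b c)) x = G t x) :
    (pS f hf C hC N (M + 1) P s u).tav (n := n) (fun t x => (∑ a, F (t a) x) * G t x) =
      (M + 1) * (pS f hf C hC N (M + 1) P s u).tav (n := n) (fun t x => F (t 0) x * G t x) :=
  (AddP.tav_eq hf C hC N (M + 1) P s u fun t x => (∑ a, F (t a) x) * G t x).trans
    ((AddP.TV_sum_patterns f N M P s u hf hFm hFB hGm hGD hG).trans
      (congrArg (fun r => ((M : ℝ) + 1) * r)
        (AddP.tav_eq hf C hC N (M + 1) P s u fun t x => F (t 0) x * G t x).symm))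

/-- Separation of the first pattern. -/
theorem tav_add {n : ℕ} {Φ : (Fin M → Fin (N + 1) → ℝ) → (Fin n → Fin (N + 1) → Bool) → ℝ}
    (_hΦm : ∀ x, Measurable fun t => Φ t x) {h : ℝ → ℝ} (_hh : Measurable h)
    {W : ℝ → ℝ} {c₀ : ℝ} (hc₀ : 0 < c₀) (hW : ∀ x, W x = Real.exp (f x) / c₀) :
    (pS f hf C hC N (M + 1) P s u).tav (n := n)
        (fun t x => Φ (fun a => t a.succ) x * ∏ i, h (cubeS (t 0) (x i))) =
      ∫ z : ((Fin M → Fin (N + 1) → ℝ) × (GI P (N + 1) → ℝ)) × (Fin (N + 1) → ℝ),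
        (∑ x : Fin n → Fin (N + 1) → Bool, Φ z.1.1 x *
          ∏ i, ((pS f hf C hC N M P s u).w z.1 (x i) *
            (h (lin (fun y j => cubeφ N y j) z.2 (x i)) *
              W (lin (fun y j => cubeφ N y j) z.2 (x i))))) /
          (∑ x, (pS f hf C hC N M P s u).w z.1 x * W (lin (fun y j => cubeφ N y j) z.2 x)) ^ n
        ∂((pS f hf C hC N M P s u).P.prod (gM (Fin (N + 1)))) := by
  refine (AddP.tav_eq hf C hC N (M + 1) P s u _).trans
    ((AddP.TV_add N M P s u (Φ := Φ) (h := h) hc₀ hW).trans ?_)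
  change ∫ z : ((Fin M → Fin (N + 1) → ℝ) × (GI P (N + 1) → ℝ)) × (Fin (N + 1) → ℝ), _
    ∂(((Cube.pm M N).prod (gM (GI P (N + 1)))).prod (gM (Fin (N + 1)))) =
    ∫ z : ((Fin M → Fin (N + 1) → ℝ) × (GI P (N + 1) → ℝ)) × (Fin (N + 1) → ℝ),
        (∑ x : Fin n → Fin (N + 1) → Bool, Φ z.1.1 x *
          ∏ i, ((pS f hf C hC N M P s u).w z.1 (x i) *
            (h (lin (fun y j => cubeφ N y j) z.2 (x i)) *
              W (lin (fun y j => cubeφ N y j) z.2 (x i))))) /
          (∑ x : Fin (N + 1) → Bool, (pS f hf C hC N M P s u).w z.1 x *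
            W (lin (fun y j => cubeφ N y j) z.2 x)) ^ n
    ∂(((Cube.pm M N).prod (gM (GI P (N + 1)))).prod (gM (Fin (N + 1))))
  refine integral_congr_ae (Filter.Eventually.of_forall fun z => ?_)
  have hw : ∀ y, (pS f hf C hC N M P s u).w z.1 y = AddP.wA f N M P s u z.1 y :=
    fun y => Cube.w_eq hf C hC N M s u z.1 y
  simp only [Cube.cubeS_eq_lin]
  refine congrArg₂ (fun p q : ℝ => p / q ^ n) ?_ ?_
  · refine Finset.sum_congr rfl fun x _ => congrArg (fun t => Φ z.1.1 x * t) ?_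
    refine Finset.prod_congr rfl fun i _ => ?_
    rw [← hw (x i)]
  · refine Finset.sum_congr rfl fun x _ => ?_
    rw [← hw x]

/-- First moments of one field, possibly unbounded. -/
theorem tav_field_le {W : ℝ → ℝ} {c₀ a : ℝ} (hc₀ : 0 < c₀)
    (hW : ∀ x, W x = Real.exp (f x) / c₀) (ha : 0 < a) (hWa : ∀ x, a ≤ W x)
    (hW1 : ∀ x, W x ≤ 1) {g : ℝ → ℝ} (hg0 : ∀ x, 0 ≤ g x)
    (hg : Integrable g (gaussianReal 0 1)) (_hgm : Measurable g) (b : Fin (M + 1)) :
    (∀ x : Fin 1 → Fin (N + 1) → Bool, Integrable (fun ω : (Fin (M + 1) → Fin (N + 1) → ℝ) ×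
        (GI P (N + 1) → ℝ) => (∏ i, (pS f hf C hC N (M + 1) P s u).w ω (x i)) *
          g (cubeS (ω.1 b) (x 0))) (pS f hf C hC N (M + 1) P s u).P) ∧
    (pS f hf C hC N (M + 1) P s u).tav (n := 1) (fun t x => g (cubeS (t b) (x 0))) ≤
      1 / a * ∫ z, g z ∂(gaussianReal 0 1) := by
  constructor
  · intro x
    have h1 := AddP.field_integrable N M P s u hf hg b x
    have h2 : (fun ω : (Fin (M + 1) → Fin (N + 1) → ℝ) ×
        (GI P (N + 1) → ℝ) => (∏ i, (pS f hf C hC N (M + 1) P s u).w ω (x i)) *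
          g (cubeS (ω.1 b) (x 0))) = fun z => (∏ i, AddP.wA f N (M + 1) P s u z (x i)) *
          g (cubeS (z.1 b) (x 0)) := by
      funext z
      refine congrArg (fun t => t * g (cubeS (z.1 b) (x 0))) ?_
      exact Finset.prod_congr rfl fun i _ => Cube.w_eq hf C hC N (M + 1) s u z (x i)
    rw [h2]
    exact h1
  · exact (AddP.tav_eq hf C hC N (M + 1) P s u _).trans_le
      (AddP.TV_field_le N M P s u hf hc₀ hW ha hWa hW1 hg0 hg b)

end ADD

end Vale.Agent.P157.Par
end
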