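import Mathlib
import Vale.Agent.P146.Bdl.B6
import Vale.Agent.P146.Bdl.B7
import Vale.Agent.P146.Bdl.B5
import Vale.Agent.P146.Bdl.B1

set_option linter.all false

section

/-!
UP, U4: the value at `a = b = 0` (fields alone).
-/

open MeasureTheory ProbabilityTheory Matrix Filter Topology
open scoped Matrix.Norms.L2Operator

namespace Vale.Agent.P146.Sk

open Vale.Agent.P157 (spin)
open Vale.Agent.P157.Lv
open Vale.Agent.P157.Par (Path Exponents topN lw spinPart)
open Gen (GI gz gl r0 gS gF gOb gIsOpt GD)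

variable {N K : ℕ}

lemma u4_energy (N : ℕ) (β : ℝ) (κ : ℕ) :
    Esk N β 0 0 κ = fun (_ : Ix N → ℝ) (_ : Fin N → Bool) => -(N * Real.log 2) := by
  funext g x
  unfold Esk
  ring

lemma u4_spin_sq (x : Fin N → Bool) : ∑ i, spin x i ^ 2 = N := sum_spin_sq x

/-- The constant energy. -/
theorem u4_gd (hN : 0 < N) {m : ℕ → ℝ} (hm' : Exponents K m) :
    GD K m (fun (_ : Ix N → ℝ) (_ : Fin N → Bool) => -((N : ℝ) * Real.log 2))
      (fun _ _ _ => 0) (spin (N := N)) where
  hm := hm'
  lip := fun x => Lip.const _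
  pd := fun e x => PD.const _
  md := fun e x => measurable_const
  bd := ⟨0, fun e z x => by simp⟩
  N0 := hN
  norm := u4_spin_sq

/-- The free energy of the fields. -/
theorem u4_gF (hN : 0 < N) {m : ℕ → ℝ} (hm' : Exponents K m) {β : ℝ} (κ : ℕ) {s : ℕ → ℝ}
    (hs : ∀ j ≤ K, 0 ≤ s j) :
    gF K m (Esk N β 0 0 κ) (spin (N := N)) s =
      spinPart K m (fun l => ∑ j ∈ Finset.range (l + 1), s j ^ 2) +
        1 / 2 * ∑ j ∈ Finset.range (K + 1), s j ^ 2 := by
  have hN' : (0 : ℝ) < N := by exact_mod_cast hN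
  rw [u4_energy]
  have h1 := Gen.gF_no_disorder (u := fun _ : Fin N → Bool => -((N : ℝ) * Real.log 2))
    (u4_gd hN hm') hs
  rw [h1, Vale.Agent.P157.Par.topN_spin hm']
  field_simp

/-- The free energy of the fields minus the quadratic penalty. -/
theorem u4_sub (hN : 0 < N) {m q : ℕ → ℝ} (hm' : Exponents K m) {β P : ℝ} (κ : ℕ)
    (hg : GoodPath β K m q P) {s : ℕ → ℝ} (hs : ∀ j ≤ K, 0 ≤ s j) :
    gF K m (Esk N β 0 0 κ) (spin (N := N)) s -
      1 / 2 * ∑ j ∈ Finset.range (K + 1), aco K m q j * s j ^ 2 ≤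
        P - β ^ 2 / 4 * trp K m q 2 := by
  rw [u4_gF hN hm' κ hs, sum_aco]
  have hrp : Path K (fun l => ∑ j ∈ Finset.range (l + 1), s j ^ 2) := by
    refine ⟨by positivity, fun l hl => ?_⟩
    simp only
    rw [Finset.sum_range_succ _ (l + 1)]
    have := sq_nonneg (s (l + 1))
    linarith
  have h1 := hg _ hrp
  linarith only [h1]

/-- U4: the value at `a = b = 0` (fields alone). -/
theorem gOb_zero_le (hN : 0 < N) {m q : ℕ → ℝ} (hm' : Exponents K m) (hq : Path K q)
    (hq1 : q K ≤ 1) {β P : ℝ} (κ : ℕ) (hg : GoodPath β K m q P) {η : ℝ} (hη : 0 ≤ η)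
    {s : ℕ → ℝ} (hs : ∀ j ≤ K, 0 < s j) :
    gOb K m q η (Esk N β 0 0 κ) (spin (N := N)) s ≤ P - β ^ 2 / 4 * trp K m q 2 := by
  have _ := hq
  have _ := hq1
  have h1 := u4_sub (β := β) (P := P) hN hm' κ hg fun j hj => (hs j hj).le
  have h2 : 1 / 2 * ∑ j ∈ Finset.range (K + 1), aco K m q j * s j ^ 2 ≤ Pen K m q η s := by
    unfold Pen
    rw [Finset.mul_sum]
    refine Finset.sum_le_sum fun j hj => ?_
    have hj' : j ≤ K := by simpa [Nat.lt_succ_iff] using hj
    have h1 : 0 ≤ η / s j := div_nonneg hη (hs j hj').le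
    have h2 : 0 ≤ η * s j ^ 2 := by positivity
    linarith only [h2, h1]
  unfold gOb
  linarith only [h2, h1]

end Vale.Agent.P146.Sk
end

section

/-!
Values of the truncated cascades of the two cavity terms.
-/

open MeasureTheory ProbabilityTheory Filter Topology

namespace Vale.Agent.P157.Par

/-! ### The truncation -/

lemma spv_tanh_deriv (y : ℝ) : HasDerivAt Real.tanh (1 - Real.tanh y ^ 2) y := by
  have h1 : Real.tanh = fun y => Real.sinh y / Real.cosh y := funext Real.tanh_eq_sinh_div_cosh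
  rw [h1]
  have h2 := (Real.hasDerivAt_sinh y).fun_div (Real.hasDerivAt_cosh y) (Real.cosh_pos y).ne'
  refine h2.congr_deriv ?_
  have := Real.cosh_pos y
  field_simp

lemma spv_tanh_sq_le (y : ℝ) : Real.tanh y ^ 2 ≤ 1 := by
  have h := Real.abs_tanh_lt_one y
  rw [← sq_abs]
  nlinarith only [h, abs_nonneg (Real.tanh y)]

lemma spv_abs_tanh_le (y : ℝ) : |Real.tanh y| ≤ |y| := by
  have h1 : LipschitzWith 1 Real.tanh := by
    refine lipschitzWith_of_nnnorm_deriv_le (fun x => (spv_tanh_deriv x).differentiableAt)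
      fun x => ?_
    rw [(spv_tanh_deriv x).deriv, ← NNReal.coe_le_coe, coe_nnnorm, Real.norm_eq_abs,
      NNReal.coe_one, abs_le]
    constructor <;> linarith only [spv_tanh_sq_le x, sq_nonneg (Real.tanh x)]
  have h2 := h1.dist_le_mul y 0
  rw [Real.dist_eq, Real.dist_eq, Real.tanh_zero, sub_zero, sub_zero, NNReal.coe_one,
    one_mul] at h2
  exact h2

lemma spv_sub_tanh_le {y : ℝ} (hy : 0 ≤ y) : |y - Real.tanh y| ≤ y ^ 3 / 3 := by
  have h0 : 0 ≤ y - Real.tanh y := by
    have := (abs_le.1 (spv_abs_tanh_le y)).2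
    rw [abs_of_nonneg hy] at this
    linarith
  rw [abs_of_nonneg h0]
  have hd : ∀ t : ℝ, HasDerivAt (fun t => t ^ 3 / 3 - (t - Real.tanh t))
      (t ^ 2 - Real.tanh t ^ 2) t := by
    intro t
    have h1 := ((hasDerivAt_pow 3 t).div_const 3).sub ((hasDerivAt_id t).sub (spv_tanh_deriv t))
    refine h1.congr_deriv ?_
    push_cast
    ring
  have hmono : Monotone fun t : ℝ => t ^ 3 / 3 - (t - Real.tanh t) := by
    refine monotone_of_deriv_nonneg (fun t => (hd t).differentiableAt) fun t => ?_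
    rw [(hd t).deriv]
    have := sq_le_sq.2 (spv_abs_tanh_le t)
    linarith
  have h3 := hmono hy
  simp only [Real.tanh_zero] at h3
  norm_num at h3
  linarith only [h3]

lemma spv_abs_sub_tanh_le (y : ℝ) : |y - Real.tanh y| ≤ |y| ^ 3 / 3 := by
  rcases le_total 0 y with hy | hy
  · rw [abs_of_nonneg hy]
    exact spv_sub_tanh_le hy
  · have h1 := spv_sub_tanh_le (y := -y) (by linarith)
    rw [Real.tanh_neg, abs_sub_comm] at h1
    rw [abs_of_nonpos hy]
    have e : -Real.tanh y - -y = y - Real.tanh y := by ring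
    rwa [e] at h1

lemma spv_cube_le (x : ℝ) : |x| ^ 3 ≤ 12 * Real.cosh x := by
  have h1 := Real.pow_div_factorial_le_exp |x| (abs_nonneg x) 3
  have h2 : Real.exp |x| ≤ 2 * Real.cosh x := by
    rw [← Real.cosh_abs x, Real.cosh_eq]
    linarith [Real.exp_pos (-|x|)]
  have h3 : ((Nat.factorial 3 : ℕ) : ℝ) = 6 := by norm_num [Nat.factorial]
  rw [h3] at h1
  linarith

lemma spv_trn_sub {T : ℝ} (hT : 0 < T) (x : ℝ) : |x - trn T x| ≤ 4 / T ^ 2 * Real.cosh x := by
  have h1 := spv_abs_sub_tanh_le (x / T)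
  have e : x - trn T x = T * (x / T - Real.tanh (x / T)) := by
    unfold trn
    field_simp
  rw [e, abs_mul, abs_of_pos hT]
  rw [abs_div, abs_of_pos hT] at h1
  calc T * |x / T - Real.tanh (x / T)| ≤ T * ((|x| / T) ^ 3 / 3) :=
        mul_le_mul_of_nonneg_left h1 hT.le
    _ = |x| ^ 3 / (3 * T ^ 2) := by field_simp
    _ ≤ 12 * Real.cosh x / (3 * T ^ 2) := by
        gcongr
        exact spv_cube_le x
    _ = 4 / T ^ 2 * Real.cosh x := by field_simp; norm_num

lemma spv_trn_deriv {T : ℝ} (hT : 0 < T) (x : ℝ) :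
    HasDerivAt (trn T) (1 - Real.tanh (x / T) ^ 2) x := by
  have h1 : HasDerivAt (fun x : ℝ => x / T) (1 / T) x := (hasDerivAt_id x).div_const T
  have h2 := ((spv_tanh_deriv (x / T)).comp x h1).const_mul T
  have h3 : HasDerivAt (trn T) (T * ((1 - Real.tanh (x / T) ^ 2) * (1 / T))) x := h2
  refine h3.congr_deriv ?_
  field_simp

lemma spv_trn_cb2 {T : ℝ} (hT : 0 < T) : CB2 (trn T) (fun x => 1 - Real.tanh (x / T) ^ 2)
    (fun x => -(2 * Real.tanh (x / T) * ((1 - Real.tanh (x / T) ^ 2) / T))) := by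
  have hc : Continuous Real.tanh :=
    continuous_iff_continuousAt.mpr fun x => (spv_tanh_deriv x).continuousAt
  refine ⟨spv_trn_deriv hT, fun x => ?_, by fun_prop, ⟨T, fun x => ?_⟩, ⟨1, fun x => ?_⟩,
    ⟨2 / T, fun x => ?_⟩⟩
  · have h1 : HasDerivAt (fun x : ℝ => x / T) (1 / T) x := (hasDerivAt_id x).div_const T
    have h2' := (spv_tanh_deriv (x / T)).comp x h1
    have h2 : HasDerivAt (fun x : ℝ => Real.tanh (x / T))
        ((1 - Real.tanh (x / T) ^ 2) * (1 / T)) x := h2'
    have h3 := (h2.fun_pow 2).const_sub 1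
    refine h3.congr_deriv ?_
    push_cast
    ring
  · unfold trn
    rw [abs_mul, abs_of_pos hT]
    nlinarith [Real.abs_tanh_lt_one (x / T)]
  · rw [abs_le]
    constructor <;> linarith only [spv_tanh_sq_le (x / T), sq_nonneg (Real.tanh (x / T))]
  · rw [abs_neg, abs_mul, abs_mul, abs_div, abs_of_pos hT]
    have h1 : |1 - Real.tanh (x / T) ^ 2| ≤ 1 := by
      rw [abs_le]
      constructor <;> nlinarith [spv_tanh_sq_le (x / T), sq_nonneg (Real.tanh (x / T))]
    have h2 := (Real.abs_tanh_lt_one (x / T)).le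
    have h3 : |(2 : ℝ)| = 2 := by norm_num
    rw [h3]
    calc 2 * |Real.tanh (x / T)| * (|1 - Real.tanh (x / T) ^ 2| / T) ≤ 2 * 1 * (1 / T) := by
          gcongr
      _ = 2 / T := by ring

lemma spv_trn_abs_le {T : ℝ} (hT : 0 < T) (x : ℝ) : |trn T x| ≤ T := by
  unfold trn
  rw [abs_mul, abs_of_pos hT]
  (by_contra nlg; linarith only [nlg, mul_pos (sub_pos.2 hT) (sub_pos.2 (Real.abs_tanh_lt_one (x / T))), mul_nonneg (mul_self_nonneg (1 : ℝ)) (le_of_lt (sub_pos.2 (not_le.1 nlg)))])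

lemma spv_trn_lip {T : ℝ} (hT : 0 < T) : LipschitzWith 1 (trn T) := by
  refine lipschitzWith_of_nnnorm_deriv_le (fun x => (spv_trn_deriv hT x).differentiableAt)
    fun x => ?_
  rw [(spv_trn_deriv hT x).deriv, ← NNReal.coe_le_coe, coe_nnnorm, Real.norm_eq_abs,
    NNReal.coe_one, abs_le]
  constructor <;> linarith only [spv_tanh_sq_le (x / T), sq_nonneg (Real.tanh (x / T))]

/-! ### Comparison -/

/-- The class of outer functions. -/
structure SpvG (G : ℝ → ℝ) : Prop where
  lip : LipschitzWith 1 G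
  abs_le : ∀ y, |G y| ≤ |y|
  outer : ∀ T, ∃ F' F'', Outer (-T) T (fun u => Real.exp (G u) / Real.exp T) F' F''

lemma spv_logcosh : SpvG fun y => Real.log (Real.cosh y) where
  lip := by
    have hd : ∀ y, HasDerivAt (fun y => Real.log (Real.cosh y)) (Real.tanh y) y := by
      intro y
      have h1 := (Real.hasDerivAt_cosh y).log (Real.cosh_pos y).ne'
      rwa [← Real.tanh_eq_sinh_div_cosh] at h1
    refine lipschitzWith_of_nnnorm_deriv_le (fun x => (hd x).differentiableAt) fun x => ?_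
    rw [(hd x).deriv, ← NNReal.coe_le_coe, coe_nnnorm, Real.norm_eq_abs, NNReal.coe_one]
    exact (Real.abs_tanh_lt_one x).le
  abs_le y := by
    rw [abs_of_nonneg (Real.log_nonneg (Real.one_le_cosh y))]
    rw [← Real.log_exp |y|]
    refine Real.log_le_log (Real.cosh_pos y) ?_
    rw [← Real.cosh_abs, Real.cosh_eq]
    have : Real.exp (-|y|) ≤ Real.exp |y| := Real.exp_le_exp.2 (by linarith [abs_nonneg y])
    linarith
  outer T := by
    have e : (fun u => Real.exp (Real.log (Real.cosh u)) / Real.exp T) =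
        fun u => Real.cosh u / Real.exp T := by
      funext u
      rw [Real.exp_log (Real.cosh_pos u)]
    rw [e]
    refine ⟨fun u => Real.sinh u / Real.exp T, fun u => Real.cosh u / Real.exp T,
      fun u _ => (Real.hasDerivAt_cosh u).div_const _,
      fun u _ => (Real.hasDerivAt_sinh u).div_const _, ?_, ?_, ?_, ?_⟩
    · exact (Real.continuous_cosh.div_const _).continuousOn
    · exact (Real.continuous_cosh.div_const _).measurable
    · exact (Real.continuous_sinh.div_const _).measurable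
    · exact (Real.continuous_cosh.div_const _).measurable

lemma spv_idG : SpvG fun y => y where
  lip := LipschitzWith.id
  abs_le y := le_rfl
  outer T := by
    refine ⟨fun u => Real.exp u / Real.exp T, fun u => Real.exp u / Real.exp T,
      fun u _ => (Real.hasDerivAt_exp u).div_const _,
      fun u _ => (Real.hasDerivAt_exp u).div_const _, ?_, ?_, ?_, ?_⟩
    · exact (Real.continuous_exp.div_const _).continuousOn
    · exact (Real.continuous_exp.div_const _).measurable
    · exact (Real.continuous_exp.div_const _).measurable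
    · exact (Real.continuous_exp.div_const _).measurable

section

variable {G : ℝ → ℝ} {T : ℝ}

lemma spv_W (hG : SpvG G) (hT : 0 < T) :
    (∃ W' W'', CB2 (fun x => Real.exp (G (trn T x)) / Real.exp T) W' W'') ∧
    (∀ x, Real.exp (-(2 * T)) ≤ Real.exp (G (trn T x)) / Real.exp T) ∧
    ∀ x, Real.exp (G (trn T x)) / Real.exp T ≤ 1 := by
  obtain ⟨F', F'', hO⟩ := hG.outer T
  refine ⟨⟨_, _, (spv_trn_cb2 hT).outer (fun x => abs_le.1 (spv_trn_abs_le hT x)) hO⟩,
    fun x => ?_, fun x => ?_⟩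
  · rw [← Real.exp_sub, Real.exp_le_exp]
    have h1 := (abs_le.1 ((hG.abs_le (trn T x)).trans (spv_trn_abs_le hT x))).1
    linarith
  · rw [← Real.exp_sub, Real.exp_le_one_iff]
    have h1 := (abs_le.1 ((hG.abs_le (trn T x)).trans (spv_trn_abs_le hT x))).2
    linarith

lemma spv_comp_lip (hG : SpvG G) (hT : 0 < T) : LipschitzWith 1 fun x => G (trn T x) := by
  have h := hG.lip.comp (spv_trn_lip hT)
  rw [one_mul] at h
  exact h

lemma spv_log_topW (hG : SpvG G) (hT : 0 < T) (τ x : ℝ) :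
    Real.log (topW τ (fun x => Real.exp (G (trn T x)) / Real.exp T) x) =
      gstep 1 τ (fun x => G (trn T x)) x + -T := by
  obtain ⟨⟨W', W'', hW⟩, h1, h2⟩ := spv_W hG hT
  rw [topW_eq, ← flowW_log one_pos (Real.exp_pos _) hW.cont.measurable h1 h2,
    ← val_gstep_add_const one_pos (spv_comp_lip hG hT)]
  congr 1
  funext y
  rw [← Real.exp_sub, Real.log_exp]
  ring

lemma spv_lvW (hG : SpvG G) (hT : 0 < T) {k : ℕ} {m r : ℕ → ℝ} {τ : ℝ}
    (hm : ∀ l, 1 ≤ l → l ≤ k → 0 < m l ∧ m l ≤ 1) (x : ℝ) :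
    T + Real.log (lvW m (incr r) k
      (topW τ fun x => Real.exp (G (trn T x)) / Real.exp T) 0 x) =
      cascade m r k (gstep 1 τ (fun x => G (trn T x))) x := by
  have hm' : ∀ l, 1 ≤ l → l ≤ k → 0 < m l := fun l h1 h2 => (hm l h1 h2).1
  obtain ⟨hW, h1, h2⟩ := spv_W hG hT
  obtain ⟨hV, h3, h4⟩ := topW_spec τ (Real.exp_pos _) hW h1 h2
  rw [← cascade_log hm' (Real.exp_pos _) hV h3 h4]
  have e : (fun x => Real.log (topW τ (fun x => Real.exp (G (trn T x)) / Real.exp T) x)) =
      fun x => gstep 1 τ (fun x => G (trn T x)) x + -T := funext (spv_log_topW hG hT τ)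
  rw [e, cascade_add_const hm' (val_gstep_lip one_pos (spv_comp_lip hG hT))]
  ring

end

lemma spv_close : ∃ C : ℝ → ℝ, ∀ (R : ℝ) (G : ℝ → ℝ) (T : ℝ) (k : ℕ) (m r : ℕ → ℝ) (τ : ℝ),
    SpvG G → 0 < T → (∀ l, 1 ≤ l → l ≤ k → 0 < m l ∧ m l ≤ 1) → 0 ≤ r 0 →
    (∀ l < k, r l ≤ r (l + 1)) → 0 ≤ τ → r k + τ ≤ R → ∀ x,
    |T + Real.log (lvW m (incr r) k
      (topW τ fun x => Real.exp (G (trn T x)) / Real.exp T) 0 x) -
      cascade m r k (gstep 1 τ G) x| ≤ C R / T ^ 2 * Real.cosh x := by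
  obtain ⟨C, hC⟩ := cascade_close
  refine ⟨fun R => 4 * (|C R| * |C R|), fun R G T k m r τ hG hT hm hr0 hr hτ hR x => ?_⟩
  have hmono : ∀ j ≤ k, r 0 ≤ r j := by
    intro j
    induction j with
    | zero => intro _; exact le_rfl
    | succ j ih => intro hj; exact (ih (by omega)).trans (hr j (by omega))
  have hk := hmono k le_rfl
  rw [spv_lvW hG hT hm]
  have h1 : ∀ x, |G (trn T x) - G x| ≤ 4 / T ^ 2 * Real.cosh x := by
    intro x
    have h2 := hG.lip.dist_le_mul (trn T x) x
    rw [Real.dist_eq, Real.dist_eq, NNReal.coe_one, one_mul] at h2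
    refine h2.trans ?_
    rw [abs_sub_comm]
    exact spv_trn_sub hT x
  -- the top step
  have h2 : ∀ x, |gstep 1 τ (fun x => G (trn T x)) x - gstep 1 τ G x| ≤
      4 / T ^ 2 * |C R| * Real.cosh x := by
    intro x
    have h3 := hC R 1 (fun _ => 1) (fun n => if n = 0 then 0 else τ) (fun x => G (trn T x)) G
      (4 / T ^ 2) (fun _ _ _ => ⟨one_pos, le_rfl⟩) (fun l hl => by
        have : l = 0 := by omega
        subst this
        simpa using hτ) (by simp; linarith) (spv_comp_lip hG hT) hG.lip (by positivity) h1 x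
    simp only [cascade, zero_add, one_ne_zero, if_false, if_true, sub_zero] at h3
    refine h3.trans ?_
    have hc := Real.cosh_pos x
    gcongr
    exact le_abs_self _
  have h4 := hC R k m r (gstep 1 τ (fun x => G (trn T x))) (gstep 1 τ G) (4 / T ^ 2 * |C R|)
    hm hr (by linarith) (clo_gstep_lip (spv_comp_lip hG hT) one_pos le_rfl τ)
    (clo_gstep_lip hG.lip one_pos le_rfl τ) (by positivity) h2 x
  refine h4.trans ?_
  have hc := Real.cosh_pos x
  calc 4 / T ^ 2 * |C R| * C R * Real.cosh x ≤ 4 / T ^ 2 * |C R| * |C R| * Real.cosh x := by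
        gcongr
        exact le_abs_self _
    _ = _ := by ring

/-- Integrated version. -/
lemma spv_int_close : ∃ C : ℝ → ℝ, ∀ (R : ℝ) (G : ℝ → ℝ) (T : ℝ) (k : ℕ) (m r : ℕ → ℝ) (τ : ℝ),
    SpvG G → 0 < T → (∀ l, 1 ≤ l → l ≤ k → 0 < m l ∧ m l ≤ 1) → 0 ≤ r 0 →
    (∀ l < k, r l ≤ r (l + 1)) → 0 ≤ τ → r k + τ ≤ R →
    |T + ∫ z, Real.log (lvW m (incr r) k
      (topW τ fun x => Real.exp (G (trn T x)) / Real.exp T) 0
        (√(incr r 0) * z)) ∂(gaussianReal 0 1) -
      ∫ z, cascade m r k (gstep 1 τ G) (√(r 0) * z) ∂(gaussianReal 0 1)| ≤ C R / T ^ 2 := by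
  obtain ⟨C, hC⟩ := spv_close
  refine ⟨fun R => |C R| * Real.exp (R / 2), fun R G T k m r τ hG hT hm hr0 hr hτ hR => ?_⟩
  have hm' : ∀ l, 1 ≤ l → l ≤ k → 0 < m l := fun l h1 h2 => (hm l h1 h2).1
  have hmono : ∀ j ≤ k, r 0 ≤ r j := by
    intro j
    induction j with
    | zero => intro _; exact le_rfl
    | succ j ih => intro hj; exact (ih (by omega)).trans (hr j (by omega))
  have hk := hmono k le_rfl
  obtain ⟨hW, h1, h2⟩ := spv_W hG hT
  obtain ⟨hV, h3, h4⟩ := topW_spec τ (Real.exp_pos _) hW h1 h2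
  obtain ⟨⟨U', U'', hU⟩, h5, h6⟩ := lvW_spec (v := incr r) hm' (Real.exp_pos _) hV h3 h4 0
    (Nat.zero_le k)
  set V := lvW m (incr r) k (topW τ fun x => Real.exp (G (trn T x)) / Real.exp T) 0 with hVdef
  have e0 : incr r 0 = r 0 := rfl
  rw [e0]
  have hint1 : Integrable (fun z => Real.log (V (√(r 0) * z))) (gaussianReal 0 1) := by
    refine Integrable.mono' (integrable_const (2 * T)) ?_
      (Filter.Eventually.of_forall fun z => ?_)
    · exact ((Real.measurable_log.comp hU.cont.measurable).comp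
        (by fun_prop)).aestronglyMeasurable
    · rw [Real.norm_eq_abs]
      have h7 := Real.log_le_log (Real.exp_pos _) (h5 (√(r 0) * z))
      have h8 := Real.log_nonpos ((Real.exp_pos _).le.trans (h5 (√(r 0) * z))) (h6 (√(r 0) * z))
      rw [Real.log_exp] at h7
      rw [abs_of_nonpos h8]
      linarith
  have hintT : Integrable (fun z => T + Real.log (V (√(r 0) * z))) (gaussianReal 0 1) :=
    (integrable_const T).add hint1
  -- the error term
  have hcosh : Integrable (fun z => Real.cosh (√(r 0) * z)) (gaussianReal 0 1) := by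
    have e : (fun z : ℝ => Real.cosh (√(r 0) * z)) = fun z =>
        1 / 2 * (Real.exp (√(r 0) * z) + Real.exp (-√(r 0) * z)) := by
      funext z
      rw [Real.cosh_eq, show -(√(r 0) * z) = -√(r 0) * z by ring]
      ring
    rw [e]
    exact ((integrable_exp_mul_gaussianReal _).add (integrable_exp_mul_gaussianReal _)).const_mul _
  have hcosh2 : ∫ z, Real.cosh (√(r 0) * z) ∂(gaussianReal 0 1) = Real.exp (r 0 / 2) := by
    have e : (fun z : ℝ => Real.cosh (√(r 0) * z)) = fun z =>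
        1 / 2 * (Real.exp (√(r 0) * z) + Real.exp (-√(r 0) * z)) := by
      funext z
      rw [Real.cosh_eq, show -(√(r 0) * z) = -√(r 0) * z by ring]
      ring
    rw [e, integral_const_mul, integral_add (integrable_exp_mul_gaussianReal _)
      (integrable_exp_mul_gaussianReal _), clo_int_exp, clo_int_exp, neg_sq, Real.sq_sqrt hr0]
    ring
  have hbd : ∀ z, |T + Real.log (V (√(r 0) * z)) - cascade m r k (gstep 1 τ G) (√(r 0) * z)| ≤
      |C R| / T ^ 2 * Real.cosh (√(r 0) * z) := by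
    intro z
    refine (hC R G T k m r τ hG hT hm hr0 hr hτ hR (√(r 0) * z)).trans ?_
    have hc := Real.cosh_pos (√(r 0) * z)
    gcongr
    exact le_abs_self _
  have hlip : ∀ (j : ℕ) (F : ℝ → ℝ), j ≤ k → LipschitzWith 1 F →
      LipschitzWith 1 (cascade m r j F) := by
    intro j
    induction j with
    | zero => intro F _ hF; exact hF
    | succ j ih =>
      intro F hj hF
      obtain ⟨hm0, hm1⟩ := hm (j + 1) (by omega) hj
      exact ih _ (by omega) (clo_gstep_lip hF hm0 hm1 _)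
  have hK := hlip k _ le_rfl (clo_gstep_lip hG.lip one_pos le_rfl τ)
  have hint2 : Integrable (fun z => T + Real.log (V (√(r 0) * z)) -
      cascade m r k (gstep 1 τ G) (√(r 0) * z)) (gaussianReal 0 1) := by
    refine Integrable.mono' (hcosh.const_mul (|C R| / T ^ 2)) ?_
      (Filter.Eventually.of_forall fun z => ?_)
    · have hKc := hK.continuous
      exact (((Real.measurable_log.comp hU.cont.measurable).comp
        (by fun_prop : Measurable fun z : ℝ => √(r 0) * z)).const_add T |>.sub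
        (hKc.measurable.comp (by fun_prop))).aestronglyMeasurable
    · rw [Real.norm_eq_abs]
      exact hbd z
  have hint3 : Integrable (fun z => cascade m r k (gstep 1 τ G) (√(r 0) * z))
      (gaussianReal 0 1) := by
    have h7 := hintT.sub hint2
    refine h7.congr (Filter.Eventually.of_forall fun z => ?_)
    simp only [Pi.sub_apply]
    ring
  have e1 : T + ∫ z, Real.log (V (√(r 0) * z)) ∂(gaussianReal 0 1) -
      ∫ z, cascade m r k (gstep 1 τ G) (√(r 0) * z) ∂(gaussianReal 0 1) =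
      ∫ z, (T + Real.log (V (√(r 0) * z)) - cascade m r k (gstep 1 τ G) (√(r 0) * z))
        ∂(gaussianReal 0 1) := by
    rw [integral_sub hintT hint3, integral_add (integrable_const _) hint1,
      integral_const]
    simp only [probReal_univ, one_smul]
  rw [e1]
  have h9 : ‖∫ z, (T + Real.log (V (√(r 0) * z)) - cascade m r k (gstep 1 τ G) (√(r 0) * z))
        ∂(gaussianReal 0 1)‖ ≤ ∫ z, |C R| / T ^ 2 * Real.cosh (√(r 0) * z) ∂(gaussianReal 0 1) :=
    norm_integral_le_of_norm_le (hcosh.const_mul _) (Filter.Eventually.of_forall fun z => by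
      rw [Real.norm_eq_abs]; exact hbd z)
  rw [Real.norm_eq_abs, integral_const_mul, hcosh2] at h9
  refine h9.trans ?_
  have h10 : Real.exp (r 0 / 2) ≤ Real.exp (R / 2) := Real.exp_le_exp.2 (by linarith only [hk, hR, hτ])
  calc |C R| / T ^ 2 * Real.exp (r 0 / 2) ≤ |C R| / T ^ 2 * Real.exp (R / 2) := by gcongr
    _ = _ := by ring

lemma spv_choose (c : ℝ) {ε : ℝ} (hε : 0 < ε) : ∃ T₀ : ℝ, ∀ T ≥ T₀, 0 < T ∧ c / T ^ 2 ≤ ε := by
  refine ⟨max 1 (c / ε), fun T hT => ?_⟩
  have h1 : 1 ≤ T := (le_max_left _ _).trans hT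
  have h2 : c / ε ≤ T := (le_max_right _ _).trans hT
  have h3 : 0 < T := by linarith
  refine ⟨h3, ?_⟩
  rw [div_le_iff₀ (by positivity)]
  rw [div_le_iff₀ hε] at h2
  linarith only [mul_nonneg (sub_nonneg.2 h1) (le_of_lt (sub_pos.2 (mul_pos hε h3))), h2]

/-- Evaluation of the first cavity term. -/
theorem spin_val_cosh (R : ℝ) : ∀ ε > 0, ∃ T₀ : ℝ, ∀ T ≥ T₀, ∀ (k : ℕ) (m r : ℕ → ℝ) (τ : ℝ),
    (∀ l, 1 ≤ l → l ≤ k → 0 < m l ∧ m l ≤ 1) → 0 ≤ r 0 → (∀ l < k, r l ≤ r (l + 1)) → 0 ≤ τ →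
    r k + τ ≤ R →
    ∫ z, cascade m r k (fun x => Real.log (Real.cosh x)) (√(r 0) * z) ∂(gaussianReal 0 1) + τ / 2 ≤
      T + ∫ z, Real.log (lvW m (incr r) k
        (topW τ fun x => Real.exp (Real.log (Real.cosh (trn T x))) / Real.exp T) 0
          (√(incr r 0) * z)) ∂(gaussianReal 0 1) + ε := by
  intro ε hε
  obtain ⟨C, hC⟩ := spv_int_close
  obtain ⟨T₀, hT₀⟩ := spv_choose (C R) hε
  refine ⟨T₀, fun T hT k m r τ hm hr0 hr hτ hR => ?_⟩
  obtain ⟨hT0, hT1⟩ := hT₀ T hT
  have h1 := (abs_le.1 (hC R _ T k m r τ spv_logcosh hT0 hm hr0 hr hτ hR)).1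
  have hm' : ∀ l, 1 ≤ l → l ≤ k → 0 < m l := fun l h1 h2 => (hm l h1 h2).1
  have e1 : gstep 1 τ (fun x => Real.log (Real.cosh x)) =
      fun x => Real.log (Real.cosh x) + τ / 2 := funext (gstep_one_logcosh hτ)
  have hlip : ∀ (j : ℕ) (F : ℝ → ℝ), j ≤ k → LipschitzWith 1 F →
      LipschitzWith 1 (cascade m r j F) := by
    intro j
    induction j with
    | zero => intro F _ hF; exact hF
    | succ j ih =>
      intro F hj hF
      obtain ⟨hm0, hm1⟩ := hm (j + 1) (by omega) hj
      exact ih _ (by omega) (clo_gstep_lip hF hm0 hm1 _)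
  have hK := hlip k _ le_rfl spv_logcosh.lip
  have hint : Integrable (fun z => cascade m r k (fun x => Real.log (Real.cosh x))
      (√(r 0) * z)) (gaussianReal 0 1) := by
    refine Integrable.mono' ((integrable_const
      (|cascade m r k (fun x => Real.log (Real.cosh x)) 0|)).add
      ((clo_integrable_exp_abs 1).const_mul √(r 0))) ?_ (Filter.Eventually.of_forall fun z => ?_)
    · exact (hK.continuous.measurable.comp (by fun_prop)).aestronglyMeasurable
    · rw [Real.norm_eq_abs]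
      have h2 := clo_lip hK 0 (√(r 0) * z)
      rw [zero_add, clo_abs_sqrt_mul] at h2
      have h3 : |z| ≤ Real.exp (1 * |z|) := by
        rw [one_mul]
        linarith only [Real.add_one_le_exp |z|]
      have h4 : √(r 0) * |z| ≤ √(r 0) * Real.exp (1 * |z|) := by gcongr
      have h5 := abs_sub_abs_le_abs_sub
        (cascade m r k (fun x => Real.log (Real.cosh x)) (√(r 0) * z))
        (cascade m r k (fun x => Real.log (Real.cosh x)) 0)
      simp only [Pi.add_apply]
      linarith only [h5, h4, h2]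
  have e2 : ∫ z, cascade m r k (gstep 1 τ fun x => Real.log (Real.cosh x)) (√(r 0) * z)
      ∂(gaussianReal 0 1) = ∫ z, cascade m r k (fun x => Real.log (Real.cosh x)) (√(r 0) * z)
      ∂(gaussianReal 0 1) + τ / 2 := by
    rw [e1]
    have e3 : ∀ z, cascade m r k (fun x => Real.log (Real.cosh x) + τ / 2) (√(r 0) * z) =
        cascade m r k (fun x => Real.log (Real.cosh x)) (√(r 0) * z) + τ / 2 :=
      fun z => cascade_add_const hm' spv_logcosh.lip _ _
    simp only [e3]
    rw [integral_add hint (integrable_const _), integral_const]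
    simp only [probReal_univ, one_smul]
  rw [e2] at h1
  linarith only [h1, hT1]

/-- Evaluation of the second cavity term. -/
theorem spin_val_id (R : ℝ) : ∀ ε > 0, ∃ T₀ : ℝ, ∀ T ≥ T₀, ∀ (k : ℕ) (m r : ℕ → ℝ) (τ : ℝ),
    (∀ l, 1 ≤ l → l ≤ k → 0 < m l ∧ m l ≤ 1) → 0 ≤ r 0 → (∀ l < k, r l ≤ r (l + 1)) → 0 ≤ τ →
    r k + τ ≤ R →
    T + ∫ z, Real.log (lvW m (incr r) k
        (topW τ fun x => Real.exp (trn T x) / Real.exp T) 0
          (√(incr r 0) * z)) ∂(gaussianReal 0 1) ≤
      1 / 2 * ∑ l ∈ Finset.range k, m (l + 1) * (r (l + 1) - r l) + τ / 2 + ε := by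
  intro ε hε
  obtain ⟨C, hC⟩ := spv_int_close
  obtain ⟨T₀, hT₀⟩ := spv_choose (C R) hε
  refine ⟨T₀, fun T hT k m r τ hm hr0 hr hτ hR => ?_⟩
  obtain ⟨hT0, hT1⟩ := hT₀ T hT
  have h1 := (abs_le.1 (hC R _ T k m r τ spv_idG hT0 hm hr0 hr hτ hR)).2
  have hm' : ∀ l, 1 ≤ l → l ≤ k → 0 < m l := fun l h1 h2 => (hm l h1 h2).1
  have e1 : gstep 1 τ (fun x => x) = fun x => x + τ / 2 := funext (gstep_one_id hτ)
  have e2 : ∫ z, cascade m r k (gstep 1 τ fun x => x) (√(r 0) * z) ∂(gaussianReal 0 1) =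
      1 / 2 * ∑ l ∈ Finset.range k, m (l + 1) * (r (l + 1) - r l) + τ / 2 := by
    rw [e1]
    have e3 : ∀ z, cascade m r k (fun x => x + τ / 2) (√(r 0) * z) =
        √(r 0) * z + (1 / 2 * ∑ l ∈ Finset.range k, m (l + 1) * (r (l + 1) - r l) + τ / 2) := by
      intro z
      rw [cascade_add_const hm' spv_idG.lip, cascade_id hm' hr]
      ring
    simp only [e3]
    have hi : Integrable (fun z : ℝ => √(r 0) * z) (gaussianReal 0 1) := by
      refine clo_integrable (C := √(r 0)) (a := 1) (by fun_prop) fun z => ?_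
      rw [clo_abs_sqrt_mul]
      gcongr
      linarith [Real.add_one_le_exp (1 * |z|)]
    rw [integral_add hi (integrable_const _), integral_const_mul, integral_id_gaussianReal,
      integral_const]
    simp
  rw [e2] at h1
  linarith only [hT1, h1]

end Vale.Agent.P157.Par
end

section

open MeasureTheory ProbabilityTheory Filter Topology Finset

namespace Vale.Agent.P157.Par

set_option linter.unusedSectionVars false
set_option linter.unusedVariables false

open Vale.Agent.P367.GT (gM)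

section conc1

/-- The symmetrization of a measure. -/
noncomputable def cnSym (ν : Measure ℝ) : Measure ℝ :=
  (2⁻¹ : NNReal) • (ν + ν.map (MeasurableEquiv.neg ℝ))

variable (ν : Measure ℝ) [IsFiniteMeasure ν]

instance : IsFiniteMeasure (cnSym ν) := by
  unfold cnSym
  have : IsFiniteMeasure (ν.map (MeasurableEquiv.neg ℝ)) := by infer_instance
  infer_instance

variable {ν}

lemma cn_integrable_symM {g : ℝ → ℂ} (hg : Integrable g ν) (hg' : Integrable (fun θ => g (-θ)) ν) :
    Integrable g (cnSym ν) := by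
  unfold cnSym
  have h1 : Integrable g (ν.map (MeasurableEquiv.neg ℝ)) := by
    rw [integrable_map_equiv]
    exact hg'
  exact (hg.add_measure h1).smul_measure_nnreal

lemma cn_integral_symM {g : ℝ → ℂ} (hg : Integrable g ν) (hg' : Integrable (fun θ => g (-θ)) ν) :
    ∫ θ, g θ ∂(cnSym ν) = 1 / 2 * (∫ θ, g θ ∂ν + ∫ θ, g (-θ) ∂ν) := by
  unfold cnSym
  have h1 : Integrable g (ν.map (MeasurableEquiv.neg ℝ)) := by
    rw [integrable_map_equiv]
    exact hg'
  rw [integral_smul_nnreal_measure, integral_add_measure hg h1, integral_map_equiv]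
  simp only [MeasurableEquiv.neg_apply]
  rw [NNReal.smul_def]
  simp [mul_add]

/-- The phase. -/
noncomputable def cnPh (θ x : ℝ) : ℂ := Complex.exp ((θ * x : ℝ) * Complex.I)

lemma cn_norm_ph (θ x : ℝ) : ‖cnPh θ x‖ = 1 := Complex.norm_exp_ofReal_mul_I _

lemma cn_measurable_ph : Measurable fun p : ℝ × ℝ => cnPh p.1 p.2 := by
  unfold cnPh
  fun_prop

lemma cn_measurable_ph_left (x : ℝ) : Measurable fun θ : ℝ => cnPh θ x := by
  unfold cnPh
  fun_prop

lemma cn_ph_neg (θ x : ℝ) : cnPh (-θ) x = Complex.exp (-((θ * x : ℝ) * Complex.I)) := by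
  unfold cnPh
  congr 1
  push_cast
  ring

lemma cn_integrable_mul_ph {μ : Measure ℝ} {p : ℝ → ℂ} (hp : Integrable p μ) (x : ℝ) :
    Integrable (fun θ => p θ * cnPh θ x) μ :=
  hp.mul_bdd (c := 1) (cn_measurable_ph_left x).aestronglyMeasurable
    (Eventually.of_forall fun θ => (cn_norm_ph θ x).le)

lemma cn_integrable_id_of_sq (hν : Integrable (fun θ => θ ^ 2) ν) : Integrable (fun θ : ℝ => θ) ν := by
  refine Integrable.mono' (hν.add (integrable_const (1 : ℝ))) measurable_id.aestronglyMeasurable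
    (Eventually.of_forall fun θ => ?_)
  rw [Real.norm_eq_abs]
  simp only [Pi.add_apply]
  rcases abs_cases θ with ⟨h, _⟩ | ⟨h, _⟩ <;> rw [h] <;> nlinarith [sq_nonneg (θ - 1), sq_nonneg (θ + 1)]

lemma cn_integrable_symM_one : Integrable (fun _ : ℝ => (1 : ℂ)) (cnSym ν) := integrable_const _

lemma cn_integrable_symM_id (hν : Integrable (fun θ => θ ^ 2) ν) :
    Integrable (fun θ : ℝ => (θ : ℂ) * Complex.I) (cnSym ν) := by
  have h1 : Integrable (fun θ : ℝ => (θ : ℂ) * Complex.I) ν :=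
    (cn_integrable_id_of_sq hν).ofReal.mul_const _
  apply cn_integrable_symM h1
  have h2 : (fun θ : ℝ => ((-θ : ℝ) : ℂ) * Complex.I) = fun θ : ℝ => -((θ : ℂ) * Complex.I) := by
    funext θ
    push_cast
    ring
  rw [h2]
  exact h1.neg

/-- The cosine transform. -/
lemma cn_cosT_eq (x : ℝ) : ((∫ θ, Real.cos (θ * x) ∂ν : ℝ) : ℂ) =
    ∫ θ, (1 : ℂ) * cnPh θ x ∂(cnSym ν) := by
  have h1 : Integrable (fun θ => (1 : ℂ) * cnPh θ x) ν := cn_integrable_mul_ph (integrable_const _) x
  have h2 : Integrable (fun θ => (1 : ℂ) * cnPh (-θ) x) ν := by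
    refine Integrable.of_bound (C := 1) ?_ (Eventually.of_forall fun θ => ?_)
    · exact (((cn_measurable_ph_left x).comp measurable_neg).const_mul 1).aestronglyMeasurable
    · rw [norm_mul, cn_norm_ph]
      simp
  rw [cn_integral_symM h1 h2, ← integral_add h1 h2, ← integral_const_mul,
    ← integral_complex_ofReal]
  congr 1
  funext θ
  rw [cn_ph_neg]
  unfold cnPh
  rw [Complex.ofReal_cos, Complex.cos]
  ring_nf

/-- The derivative of the cosine transform. -/
lemma cn_sinT_eq (hν : Integrable (fun θ => θ ^ 2) ν) (x : ℝ) :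
    ((-∫ θ, θ * Real.sin (θ * x) ∂ν : ℝ) : ℂ) =
    ∫ θ : ℝ, ((θ : ℂ) * Complex.I) * cnPh θ x ∂(cnSym ν) := by
  have h0 : Integrable (fun θ : ℝ => (θ : ℂ) * Complex.I) ν :=
    (cn_integrable_id_of_sq hν).ofReal.mul_const _
  have h1 : Integrable (fun θ : ℝ => ((θ : ℂ) * Complex.I) * cnPh θ x) ν := cn_integrable_mul_ph h0 x
  have h2 : Integrable (fun θ : ℝ => (((-θ : ℝ) : ℂ) * Complex.I) * cnPh (-θ) x) ν := by
    have h3 : Integrable (fun θ : ℝ => ((-θ : ℝ) : ℂ) * Complex.I) ν :=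
      (cn_integrable_id_of_sq hν).neg.ofReal.mul_const _
    refine h3.mul_bdd (c := 1) ((cn_measurable_ph_left x).comp measurable_neg).aestronglyMeasurable
      (Eventually.of_forall fun θ => (cn_norm_ph _ x).le)
  rw [cn_integral_symM h1 h2, ← integral_add h1 h2, ← integral_const_mul, ← integral_neg,
    ← integral_complex_ofReal]
  congr 1
  funext θ
  rw [cn_ph_neg]
  unfold cnPh
  push_cast
  rw [Complex.sin]
  have hI : Complex.I * Complex.I = -1 := Complex.I_mul_I
  ring_nf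

end conc1

section conc2

variable {J K K' : Type} [Fintype J] [DecidableEq J] [Fintype K] [DecidableEq K] [Fintype K']
  [DecidableEq K']

/-- The quadratic form of a Gaussian family. -/
noncomputable def cnQf (U : J → K → ℝ) (θ : J → ℝ) : ℝ := ∑ a, ∑ b, θ a * θ b * gram U U a b

lemma cn_qf_nonneg (U : J → K → ℝ) (θ : J → ℝ) : 0 ≤ cnQf U θ := by
  have h1 : cnQf U θ = ∑ c, (∑ a, θ a * U a c) ^ 2 := by
    unfold cnQf gram
    simp_rw [sq, Finset.sum_mul_sum, Finset.mul_sum]
    conv_rhs => rw [Finset.sum_comm]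
    apply Finset.sum_congr rfl
    intro a _
    conv_rhs => rw [Finset.sum_comm]
    apply Finset.sum_congr rfl
    intro b _
    apply Finset.sum_congr rfl
    intro c _
    ring
  rw [h1]
  exact Finset.sum_nonneg fun _ _ => sq_nonneg _

lemma cn_continuous_qf (U : J → K → ℝ) : Continuous (cnQf U) := by
  unfold cnQf
  fun_prop

/-- Gaussian expectation of a product of Fourier transforms. -/
theorem cn_gE_fourier {μ : Measure ℝ} [IsFiniteMeasure μ] (U : J → K → ℝ) {f : J → ℝ → ℝ}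
    {p : J → ℝ → ℂ} (hp : ∀ a, Integrable (p a) μ)
    (hf : ∀ a x, (f a x : ℂ) = ∫ θ, p a θ * cnPh θ x ∂μ) :
    (gE U f : ℂ) = ∫ θ : J → ℝ, (∏ a, p a (θ a)) * Complex.exp (-(cnQf U θ : ℝ) / 2)
      ∂(Measure.pi fun _ => μ) := by
  unfold gE
  rw [← integral_complex_ofReal]
  have h1 : ∀ ξ : K → ℝ, ((∏ a, f a (lin U ξ a) : ℝ) : ℂ) =
      ∫ θ : J → ℝ, ∏ a, (p a (θ a) * cnPh (θ a) (lin U ξ a)) ∂(Measure.pi fun _ => μ) := by
    intro ξ
    rw [integral_fintype_prod_eq_prod (μ := fun _ : J => μ)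
      (f := fun a (θ : ℝ) => p a θ * cnPh θ (lin U ξ a))]
    push_cast
    apply Finset.prod_congr rfl
    intro a _
    exact hf a _
  simp_rw [h1]
  have hP : Integrable (fun θ : J → ℝ => ∏ a, p a (θ a)) (Measure.pi fun _ => μ) :=
    Integrable.fintype_prod hp
  have hmeas : Measurable fun q : (K → ℝ) × (J → ℝ) => ∏ a, cnPh (q.2 a) (lin U q.1 a) := by
    apply Finset.measurable_prod
    intro a _
    have h2 : Measurable fun q : (K → ℝ) × (J → ℝ) => (q.2 a, lin U q.1 a) :=
      ((measurable_pi_apply a).comp measurable_snd).prodMk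
        ((measurable_lin U a).comp measurable_fst)
    exact cn_measurable_ph.comp h2
  have hint : Integrable (Function.uncurry fun (ξ : K → ℝ) (θ : J → ℝ) =>
      ∏ a, (p a (θ a) * cnPh (θ a) (lin U ξ a))) ((gM K).prod (Measure.pi fun _ => μ)) := by
    have h2 : Integrable (fun q : (K → ℝ) × (J → ℝ) => ∏ a, p a (q.2 a))
        ((gM K).prod (Measure.pi fun _ => μ)) := hP.comp_snd _
    have h3 := h2.mul_bdd (c := 1) hmeas.aestronglyMeasurable (Eventually.of_forall fun q => by
      rw [norm_prod]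
      apply le_of_eq
      apply Finset.prod_eq_one
      intro a _
      exact cn_norm_ph _ _)
    refine h3.congr (Eventually.of_forall fun q => ?_)
    simp only [Function.uncurry, Finset.prod_mul_distrib]
  rw [integral_integral_swap hint]
  congr 1
  funext θ
  simp_rw [Finset.prod_mul_distrib]
  rw [integral_const_mul]
  congr 1
  have h4 := char_lin U θ
  unfold cnQf
  rw [← h4]
  congr 1
  funext ξ
  unfold cnPh
  rw [← Complex.exp_sum, ← Finset.sum_mul]
  congr 2
  push_cast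
  apply Finset.sum_congr rfl
  intro a _
  ring

/-- The coefficients in the Fourier representation of the second derivative. -/
noncomputable def cnPab (a b : J) : J → ℝ → ℂ :=
  Function.update (Function.update (fun _ _ => 1) a fun θ => (θ : ℂ) * Complex.I) b
    fun θ => (θ : ℂ) * Complex.I

lemma cn_prod_pab {a b : J} (hab : a ≠ b) (θ : J → ℝ) :
    ∏ c, cnPab a b c (θ c) = ((-(θ a * θ b) : ℝ) : ℂ) := by
  have h1 : ∀ c, cnPab a b c (θ c) = (if c = a then (θ c : ℂ) * Complex.I else 1) *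
      (if c = b then (θ c : ℂ) * Complex.I else 1) := by
    intro c
    unfold cnPab
    by_cases hb : c = b
    · subst hb
      rw [Function.update_self, if_neg hab.symm, if_pos rfl, one_mul]
    · rw [Function.update_of_ne hb, if_neg hb, mul_one]
      by_cases ha : c = a
      · subst ha
        rw [Function.update_self, if_pos rfl]
      · rw [Function.update_of_ne ha, if_neg ha]
  simp_rw [h1]
  rw [Finset.prod_mul_distrib, Finset.prod_ite_eq' univ a, Finset.prod_ite_eq' univ b,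
    if_pos (Finset.mem_univ a), if_pos (Finset.mem_univ b)]
  push_cast
  linear_combination (θ a : ℂ) * (θ b : ℂ) * Complex.I_mul_I

lemma cn_exp_qf_ofReal (U : J → K → ℝ) (θ : J → ℝ) :
    Complex.exp (-(cnQf U θ : ℝ) / 2) = ((Real.exp (-(cnQf U θ) / 2) : ℝ) : ℂ) := by
  push_cast
  rfl

variable {ν : Measure ℝ} [IsFiniteMeasure ν]

lemma cn_gE_cos (U : J → K → ℝ) : gE U (fun _ x => ∫ θ, Real.cos (θ * x) ∂ν) =
    ∫ θ : J → ℝ, Real.exp (-(cnQf U θ) / 2) ∂(Measure.pi fun _ => cnSym ν) := by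
  have h := cn_gE_fourier (μ := cnSym ν) U (f := fun _ x => ∫ θ, Real.cos (θ * x) ∂ν)
    (p := fun _ _ => 1) (fun _ => cn_integrable_symM_one) (fun _ x => cn_cosT_eq x)
  simp only [Finset.prod_const_one, one_mul, cn_exp_qf_ofReal] at h
  rw [integral_complex_ofReal] at h
  exact_mod_cast h

lemma cn_integrable_pab (hν : Integrable (fun θ => θ ^ 2) ν) (a b c : J) :
    Integrable (cnPab a b c) (cnSym ν) := by
  unfold cnPab
  by_cases hb : c = b
  · subst hb
    rw [Function.update_self]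
    exact cn_integrable_symM_id hν
  · rw [Function.update_of_ne hb]
    by_cases ha : c = a
    · subst ha
      rw [Function.update_self]
      exact cn_integrable_symM_id hν
    · rw [Function.update_of_ne ha]
      exact cn_integrable_symM_one

lemma cn_gE_sin (hν : Integrable (fun θ => θ ^ 2) ν) (U : J → K → ℝ) {a b : J} (hab : a ≠ b) :
    gE U (Function.update (Function.update (fun _ x => ∫ θ, Real.cos (θ * x) ∂ν) a
          fun x => -∫ θ, θ * Real.sin (θ * x) ∂ν) b fun x => -∫ θ, θ * Real.sin (θ * x) ∂ν) =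
    ∫ θ : J → ℝ, -(θ a * θ b) * Real.exp (-(cnQf U θ) / 2) ∂(Measure.pi fun _ => cnSym ν) := by
  have h := cn_gE_fourier (μ := cnSym ν) U
    (f := Function.update (Function.update (fun _ x => ∫ θ, Real.cos (θ * x) ∂ν) a
          fun x => -∫ θ, θ * Real.sin (θ * x) ∂ν) b fun x => -∫ θ, θ * Real.sin (θ * x) ∂ν)
    (p := cnPab a b) (fun c => cn_integrable_pab hν a b c) (fun c x => by
      unfold cnPab
      by_cases hb : c = b
      · subst hb
        rw [Function.update_self, Function.update_self]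
        exact cn_sinT_eq hν x
      · rw [Function.update_of_ne hb, Function.update_of_ne hb]
        by_cases ha : c = a
        · subst ha
          rw [Function.update_self, Function.update_self]
          exact cn_sinT_eq hν x
        · rw [Function.update_of_ne ha, Function.update_of_ne ha]
          exact cn_cosT_eq x)
  simp only [cn_prod_pab hab, cn_exp_qf_ofReal, ← Complex.ofReal_mul] at h
  rw [integral_complex_ofReal] at h
  exact_mod_cast h

lemma cn_integrable_exp_qf (U : J → K → ℝ) :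
    Integrable (fun θ : J → ℝ => Real.exp (-(cnQf U θ) / 2)) (Measure.pi fun _ => cnSym ν) := by
  refine Integrable.of_bound (C := 1) ?_ (Eventually.of_forall fun θ => ?_)
  · exact (Real.continuous_exp.comp ((cn_continuous_qf U).neg.div_const 2)).aestronglyMeasurable
  · rw [Real.norm_eq_abs, abs_of_pos (Real.exp_pos _)]
    apply Real.exp_le_one_iff.2
    have := cn_qf_nonneg U θ
    linarith

lemma cn_integrable_sin_qf (hν : Integrable (fun θ => θ ^ 2) ν) (U : J → K → ℝ) {a b : J}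
    (hab : a ≠ b) :
    Integrable (fun θ : J → ℝ => -(θ a * θ b) * Real.exp (-(cnQf U θ) / 2))
      (Measure.pi fun _ => cnSym ν) := by
  have h1 : Integrable (fun θ : J → ℝ => ∏ c, cnPab a b c (θ c)) (Measure.pi fun _ => cnSym ν) :=
    Integrable.fintype_prod fun c => cn_integrable_pab hν a b c
  simp_rw [cn_prod_pab hab] at h1
  have h2 : Integrable (fun θ : J → ℝ => -(θ a * θ b)) (Measure.pi fun _ => cnSym ν) := by
    have h3 := h1.re
    exact h3
  refine h2.mul_bdd (c := 1) ?_ (Eventually.of_forall fun θ => ?_)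
  · exact (Real.continuous_exp.comp ((cn_continuous_qf U).neg.div_const 2)).aestronglyMeasurable
  · rw [Real.norm_eq_abs, abs_of_pos (Real.exp_pos _)]
    apply Real.exp_le_one_iff.2
    have := cn_qf_nonneg U θ
    linarith

/-- Gaussian expectation of a product of functions of the class (cosine transforms of positive
measures): tangent line inequality in the Gram matrix. -/
theorem gE_tangent (ν : Measure ℝ) [IsFiniteMeasure ν]
    (hν : Integrable (fun θ => θ ^ 2) ν) (U : J → K → ℝ) (V : J → K' → ℝ)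
    (hdiag : ∀ a, gram U U a a = gram V V a a) :
    gE U (fun _ x => ∫ θ, Real.cos (θ * x) ∂ν) +
      1 / 2 * ∑ a, ∑ b, (if a = b then 0 else (gram V V a b - gram U U a b) *
        gE U (Function.update (Function.update (fun _ x => ∫ θ, Real.cos (θ * x) ∂ν) a
          fun x => -∫ θ, θ * Real.sin (θ * x) ∂ν) b fun x => -∫ θ, θ * Real.sin (θ * x) ∂ν)) ≤
      gE V (fun _ x => ∫ θ, Real.cos (θ * x) ∂ν) := by
  rw [cn_gE_cos U, cn_gE_cos V]
  have hs : ∀ a b, Integrable (fun θ : J → ℝ => if a = b then 0 else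
      (gram V V a b - gram U U a b) * (-(θ a * θ b) * Real.exp (-(cnQf U θ) / 2)))
      (Measure.pi fun _ => cnSym ν) := by
    intro a b
    by_cases hab : a = b
    · simp only [hab, if_true]
      exact integrable_zero _ _ _
    · simp only [hab, if_false]
      exact (cn_integrable_sin_qf hν U hab).const_mul _
  have h1 : ∀ a b, (if a = b then 0 else (gram V V a b - gram U U a b) *
        gE U (Function.update (Function.update (fun _ x => ∫ θ, Real.cos (θ * x) ∂ν) a
          fun x => -∫ θ, θ * Real.sin (θ * x) ∂ν) b fun x => -∫ θ, θ * Real.sin (θ * x) ∂ν)) =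
      ∫ θ : J → ℝ, (if a = b then 0 else (gram V V a b - gram U U a b) *
        (-(θ a * θ b) * Real.exp (-(cnQf U θ) / 2))) ∂(Measure.pi fun _ => cnSym ν) := by
    intro a b
    by_cases hab : a = b
    · simp [hab]
    · simp only [hab, if_false]
      rw [cn_gE_sin hν U hab, integral_const_mul]
  simp_rw [h1]
  have h2 : ∀ a, ∑ b, ∫ θ : J → ℝ, (if a = b then 0 else (gram V V a b - gram U U a b) *
        (-(θ a * θ b) * Real.exp (-(cnQf U θ) / 2))) ∂(Measure.pi fun _ => cnSym ν) =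
      ∫ θ : J → ℝ, ∑ b, (if a = b then 0 else (gram V V a b - gram U U a b) *
        (-(θ a * θ b) * Real.exp (-(cnQf U θ) / 2))) ∂(Measure.pi fun _ => cnSym ν) := fun a =>
    (integral_finsetSum _ fun b _ => hs a b).symm
  simp_rw [h2]
  rw [← integral_finsetSum _ fun a _ => integrable_finsetSum _ fun b _ => hs a b,
    ← integral_const_mul, ← integral_add (cn_integrable_exp_qf U)
      ((integrable_finsetSum _ fun a _ => integrable_finsetSum _ fun b _ => hs a b).const_mul _)]
  apply integral_mono ((cn_integrable_exp_qf U).add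
      ((integrable_finsetSum _ fun a _ => integrable_finsetSum _ fun b _ => hs a b).const_mul _))
    (cn_integrable_exp_qf V)
  intro θ
  simp only
  have h3 : ∑ a, ∑ b, (if a = b then 0 else (gram V V a b - gram U U a b) *
        (-(θ a * θ b) * Real.exp (-(cnQf U θ) / 2))) =
      -(cnQf V θ - cnQf U θ) * Real.exp (-(cnQf U θ) / 2) := by
    have e1 : cnQf V θ - cnQf U θ = ∑ a, ∑ b, θ a * θ b * (gram V V a b - gram U U a b) := by
      unfold cnQf
      rw [← Finset.sum_sub_distrib]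
      apply Finset.sum_congr rfl
      intro a _
      rw [← Finset.sum_sub_distrib]
      apply Finset.sum_congr rfl
      intro b _
      ring
    rw [e1, neg_mul, Finset.sum_mul, ← Finset.sum_neg_distrib]
    apply Finset.sum_congr rfl
    intro a _
    rw [Finset.sum_mul, ← Finset.sum_neg_distrib]
    apply Finset.sum_congr rfl
    intro b _
    by_cases hab : a = b
    · subst hab
      rw [if_pos rfl, hdiag a]
      ring
    · rw [if_neg hab]
      ring
  rw [Pi.add_apply, h3]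
  have h4 := Real.add_one_le_exp (-(cnQf V θ - cnQf U θ) / 2)
  have h5 : Real.exp (-(cnQf V θ) / 2) =
      Real.exp (-(cnQf U θ) / 2) * Real.exp (-(cnQf V θ - cnQf U θ) / 2) := by
    rw [← Real.exp_add]
    congr 1
    ring
  rw [h5]
  have h6 := Real.exp_pos (-(cnQf U θ) / 2)
  linarith only [mul_le_mul_of_nonneg_left h4 h6.le]

end conc2

lemma cn_gE_neg_neg {J K : Type} [Fintype J] [DecidableEq J] [Fintype K] [DecidableEq K]
    (U : J → K → ℝ) (F : J → ℝ → ℝ) {a b : J} (hab : a ≠ b) (G : ℝ → ℝ) :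
    gE U (Function.update (Function.update F a fun x => -G x) b fun x => -G x) =
      gE U (Function.update (Function.update F a G) b G) := by
  have h1 : (fun x => -G x) = fun x => (-1) * G x := by funext x; ring
  rw [h1, gE_update_smul, Function.update_comm hab, gE_update_smul, Function.update_comm hab.symm]
  ring

/-- Sums of the increments. -/
lemma cn_sum_cut {k : ℕ} (v : ℕ → ℝ) (x : Fin (k + 1)) :
    ∑ l, (if l ≤ x then (cut v k : Fin (k + 1) → ℝ) l else 0) =
      ∑ i ∈ Finset.range ((x : ℕ) + 1), v i := by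
  have h1 : ∀ l : Fin (k + 1), (if l ≤ x then (cut v k : Fin (k + 1) → ℝ) l else 0) =
      (fun i : ℕ => if i ≤ (x : ℕ) then v i else 0) (l : ℕ) := by
    intro l
    unfold cut
    simp only [Fin.le_def]
    rw [if_pos (show (l : ℕ) ≤ k by omega)]
  simp_rw [h1]
  rw [Fin.sum_univ_eq_sum_range (fun i : ℕ => if i ≤ (x : ℕ) then v i else 0) (k + 1),
    ← Finset.sum_filter]
  congr 1
  ext i
  simp only [Finset.mem_filter, Finset.mem_range]
  omega

namespace Arr

variable {k : ℕ} {w : Fin (k + 1) → ℝ}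

lemma cn_E_mono_ultra (𝓐 : Arr k w Empty)
    (hpos : ∀ (ι : Type) [Fintype ι] (A : LM k (Empty ⊕ ι) → ℝ), (∀ L, 0 ≤ A L) → 0 ≤ 𝓐.E ι A)
    {ι : Type} [Fintype ι] {A B : LM k (Empty ⊕ ι) → ℝ} (h : ∀ L, Ultra L → A L ≤ B L) :
    𝓐.E ι A ≤ 𝓐.E ι B := by
  classical
  have h1 : 𝓐.E ι (B - A) = 𝓐.E ι (fun L => if Ultra L then B L - A L else 0) :=
    𝓐.congr_ultra fun L hL => by simp [hL]
  have h2 := hpos ι (fun L => if Ultra L then B L - A L else 0) (by
    intro L
    split_ifs with hL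
    · linarith [h L hL]
    · exact le_rfl)
  rw [← h1, map_sub] at h2
  linarith

section

variable {δ : Type} [Fintype δ] [DecidableEq δ]

lemma cn_T_chi_sum (𝓐 : Arr k w δ) (c : Fin (k + 1) → ℝ) {I : Type} (s : Finset I) (r : I → ℝ)
    (χ : I → LM k δ → ℝ) (A : δ → ℝ → ℝ) (v : ℝ → ℝ) (ι : Type) [Fintype ι] [DecidableEq ι] :
    𝓐.T c (fun L => ∑ i ∈ s, r i * χ i L) A v ι = ∑ i ∈ s, r i * 𝓐.T c (χ i) A v ι := by
  unfold T
  simp_rw [← smul_eq_mul (r _) (𝓐.E ι _), ← map_smul, ← map_sum]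
  congr 1
  funext L
  simp only [Finset.sum_apply, Pi.smul_apply, smul_eq_mul, Finset.sum_mul, mul_assoc]

lemma cn_Q_chi_sum (𝓐 : Arr k w δ) (e : ℕ) (c : Fin (k + 1) → ℝ) {I : Type} (s : Finset I)
    (r : I → ℝ) (χ : I → LM k δ → ℝ) {A : δ → ℝ → ℝ} {v : ℝ → ℝ} (hA : ∀ i, BM (A i)) {a : ℝ}
    (ha0 : 0 ≤ a) (ha : a < 1) (hv : ∀ x, |v x| ≤ a) :
    𝓐.Q e c (fun L => ∑ i ∈ s, r i * χ i L) A v = ∑ i ∈ s, r i * 𝓐.Q e c (χ i) A v := by
  unfold Q
  simp_rw [cn_T_chi_sum, ← tsum_mul_left]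
  rw [← Summable.tsum_finsetSum fun i _ =>
    (𝓐.Q_summable e c (χ i) hA ha0 ha hv).mul_left (r i)]
  apply tsum_congr
  intro n
  rw [Finset.mul_sum]
  apply Finset.sum_congr rfl
  intro i _
  ring

end

/-- The probability of a level for the two marked replicas. -/
lemma cn_E_two (𝓐 : Arr k w Empty)
    (hlim : ∀ l, 𝓐.E (Fin 2) (fun L => if L (Sum.inr 0) (Sum.inr 1) = l then 1 else 0) = w l)
    (l : Fin (k + 1)) :
    𝓐.mark.mark.E (Fin 0) (fun L => if L (Sum.inl (some none)) (Sum.inl none) = l then 1 else 0) =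
      w l := by
  rw [← hlim l]
  have h1 : 𝓐.mark.mark.E (Fin 0)
      (fun L => if L (Sum.inl (some none)) (Sum.inl none) = l then 1 else 0) =
      𝓐.E (Option (Option (Fin 0))) (fun L =>
        if L (Sum.inr none) (Sum.inr (some none)) = l then 1 else 0) := rfl
  rw [h1, ← 𝓐.reindex (Fin 2) (Option (Option (Fin 0)))
    ((finSuccEquiv 1).trans (Equiv.optionCongr (finSuccEquiv 0)))]
  congr 1

/-- The pair functional of the tangent inequality. -/
noncomputable def cnMM (𝓐 : Arr k w Empty) (c : Fin (k + 1) → ℝ) (G φ : ℝ → ℝ) (l : Fin (k + 1))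
    (n : ℕ) : ℝ :=
  𝓐.mark.mark.T c (fun L => lift (lift fun _ => 1) L * lk l (some none) none L)
    (ext G (ext G noA)) φ (Fin n)

lemma cn_fam_heat {ι : Type} (τ : ℝ) (φ : ℝ → ℝ) :
    (fam noA (heat τ φ) : Empty ⊕ ι → ℝ → ℝ) = fun _ => heat τ φ := by
  funext a
  rcases a with a | a
  · exact a.elim
  · rfl

lemma cn_sum_empty_sum {ι : Type} [Fintype ι] (f : Empty ⊕ ι → ℝ) :
    ∑ a, f a = ∑ j, f (Sum.inr j) := by
  rw [Fintype.sum_sum_type]
  simp

lemma cn_T_tangent (𝓐 : Arr k w Empty)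
    (hpos : ∀ (ι : Type) [Fintype ι] (A : LM k (Empty ⊕ ι) → ℝ), (∀ L, 0 ≤ A L) → 0 ≤ 𝓐.E ι A)
    {c c' : Fin (k + 1) → ℝ} (hc : ∀ l, 0 ≤ c l) (hc' : ∀ l, 0 ≤ c' l) {τ τ' : ℝ} (hτ : 0 ≤ τ)
    (hτ' : 0 ≤ τ') (hdiag : ∑ l, c l + τ = ∑ l, c' l + τ')
    (ν : Measure ℝ) [IsFiniteMeasure ν] (hν : Integrable (fun θ => θ ^ 2) ν) {φ ψ G : ℝ → ℝ}
    (hφ : BM φ) (hψ : BM ψ) (hG : BM G) (hφd : φ = fun x => ∫ θ, Real.cos (θ * x) ∂ν)
    (hψd : ψ = fun x => -∫ θ, θ * Real.sin (θ * x) ∂ν)
    (hGd : heat τ ψ = fun x => -G x) (hHφ : BM (heat τ φ)) (n : ℕ) :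
    𝓐.T c (fun _ => 1) noA (heat τ φ) (Fin (n + 1)) +
      1 / 2 * ∑ l, (c' l - c l) * ((n + 1) * (n * 𝓐.cnMM c G (heat τ φ) l (n - 1))) ≤
      𝓐.T c' (fun _ => 1) noA (heat τ' φ) (Fin (n + 1)) := by
  -- the tangent inequality on ultrametric matrices
  have h1 : ∀ L : LM k (Empty ⊕ Fin (n + 1)), Ultra L →
      gE (UL c L) (fam noA (heat τ φ)) + 1 / 2 * ∑ j : Fin (n + 1), ∑ j' : Fin (n + 1),
        (if j = j' then 0 else ∑ l, (c' l - c l) * ((if l ≤ L (Sum.inr j) (Sum.inr j') then 1 else 0) *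
          gE (UL c L) (Function.update (Function.update (fam noA (heat τ φ)) (Sum.inr j) G)
            (Sum.inr j') G))) ≤ gE (UL c' L) (fam noA (heat τ' φ)) := by
    intro L hL
    have h2 := gE_tangent ν hν (noisy τ (UL c L)) (noisy τ' (UL c' L)) (by
      intro a
      rw [gram_noisy_UL hc hτ hL, gram_noisy_UL hc' hτ' hL, hL.diag]
      simp only [Fin.le_last, if_true]
      exact hdiag)
    rw [← hφd, ← hψd, gE_noisy τ _ (fun _ => hφ), gE_noisy τ' _ (fun _ => hφ),
      cn_sum_empty_sum] at h2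
    rw [cn_fam_heat, cn_fam_heat]
    refine le_trans (le_of_eq ?_) h2
    congr 2
    apply Finset.sum_congr rfl
    intro j _
    rw [cn_sum_empty_sum]
    apply Finset.sum_congr rfl
    intro j' _
    by_cases hj : j = j'
    · subst hj
      rw [if_pos rfl, if_pos rfl]
    · have hj' : (Sum.inr j : Empty ⊕ Fin (n + 1)) ≠ Sum.inr j' := by simpa using hj
      rw [if_neg hj, if_neg hj', gram_noisy_UL hc hτ hL, gram_noisy_UL hc' hτ' hL, if_neg hj',
        if_neg hj', add_zero, add_zero, gE_noisy τ _ (BM.update (BM.update (fun _ => hφ) hψ) hψ),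
        ← Finset.sum_sub_distrib, Finset.sum_mul]
      have h3 : (fun a => heat τ (Function.update (Function.update
          (fun (_ : Empty ⊕ Fin (n + 1)) => φ) (Sum.inr j) ψ) (Sum.inr j') ψ a)) =
          Function.update (Function.update (fun _ => heat τ φ) (Sum.inr j) (fun x => -G x))
            (Sum.inr j') (fun x => -G x) := by
        rw [← hGd]
        funext a
        by_cases ha : a = Sum.inr j'
        · subst ha
          rw [Function.update_self, Function.update_self]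
        · rw [Function.update_of_ne ha, Function.update_of_ne ha]
          by_cases ha' : a = Sum.inr j
          · subst ha'
            rw [Function.update_self, Function.update_self]
          · rw [Function.update_of_ne ha', Function.update_of_ne ha']
      rw [h3, cn_gE_neg_neg _ _ hj']
      apply Finset.sum_congr rfl
      intro l _
      split_ifs <;> ring
  -- integration
  have h2 := 𝓐.cn_E_mono_ultra hpos h1
  have h3 : ∀ c'' τ'', 𝓐.T c'' (fun _ => 1) noA (heat τ'' φ) (Fin (n + 1)) =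
      𝓐.E (Fin (n + 1)) fun L => gE (UL c'' L) (fam noA (heat τ'' φ)) := by
    intro c'' τ''
    unfold T
    simp only [one_mul]
  rw [h3, h3]
  refine le_trans (le_of_eq ?_) h2
  set F : Empty ⊕ Fin (n + 1) → ℝ → ℝ := fam noA (heat τ φ) with hF
  have h4 : (fun L : LM k (Empty ⊕ Fin (n + 1)) => gE (UL c L) F +
      1 / 2 * ∑ j : Fin (n + 1), ∑ j' : Fin (n + 1),
        (if j = j' then 0 else ∑ l, (c' l - c l) *
          ((if l ≤ L (Sum.inr j) (Sum.inr j') then 1 else 0) *
          gE (UL c L) (Function.update (Function.update F (Sum.inr j) G)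
            (Sum.inr j') G)))) =
      (fun L => gE (UL c L) F) + (1 / 2 : ℝ) • ∑ j : Fin (n + 1), ∑ j' : Fin (n + 1),
        (if j = j' then 0 else ∑ l, (c' l - c l) • (fun L : LM k (Empty ⊕ Fin (n + 1)) =>
          (1 : ℝ) * ((if l ≤ L (Sum.inr j) (Sum.inr j') then 1 else 0) *
          gE (UL c L) (Function.update (Function.update F (Sum.inr j) G)
            (Sum.inr j') G)))) := by
    funext L
    simp only [Pi.add_apply, Finset.sum_apply, Pi.smul_apply, smul_eq_mul, ite_apply,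
      Pi.zero_apply, one_mul]
  rw [h4]
  simp only [map_add, map_sum, map_smul, smul_eq_mul, apply_ite (𝓐.E (Fin (n + 1))), map_zero]
  congr 2
  rcases n with _ | n
  · simp
  · have h5 : ∀ j : Fin (n + 2), (∑ j' : Fin (n + 2), (if j = j' then 0 else ∑ l, (c' l - c l) *
        𝓐.E (Fin (n + 2)) (fun L : LM k (Empty ⊕ Fin (n + 2)) =>
          (1 : ℝ) * ((if l ≤ L (Sum.inr j) (Sum.inr j') then 1 else 0) *
          gE (UL c L) (Function.update (Function.update F (Sum.inr j) G)
            (Sum.inr j') G))))) =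
        ∑ l, (c' l - c l) * (((n + 1 : ℕ) : ℝ) * 𝓐.cnMM c G (heat τ φ) l n) := by
      intro j
      rw [Fin.sum_univ_succAbove _ j]
      simp only [if_true, zero_add]
      have h6 : ∀ m : Fin (n + 1), (if j = j.succAbove m then 0 else ∑ l, (c' l - c l) *
        𝓐.E (Fin (n + 2)) (fun L : LM k (Empty ⊕ Fin (n + 2)) =>
          (1 : ℝ) * ((if l ≤ L (Sum.inr j) (Sum.inr (j.succAbove m)) then 1 else 0) *
          gE (UL c L) (Function.update (Function.update F (Sum.inr j) G)
            (Sum.inr (j.succAbove m)) G)))) = ∑ l, (c' l - c l) * 𝓐.cnMM c G (heat τ φ) l n := by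
        intro m
        rw [if_neg (Fin.succAbove_ne j m).symm]
        apply Finset.sum_congr rfl
        intro l _
        congr 1
        exact 𝓐.E_mark_pair hc (fun _ => 1) (fun i => i.elim) hG.meas hHφ.meas l n j m
      simp_rw [h6]
      rw [Finset.sum_const, Finset.card_univ, Fintype.card_fin, nsmul_eq_mul, Finset.mul_sum]
      apply Finset.sum_congr rfl
      intro l _
      ring
    simp_rw [h5]
    rw [Finset.sum_const, Finset.card_univ, Fintype.card_fin, nsmul_eq_mul, Finset.mul_sum]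
    apply Finset.sum_congr rfl
    intro l _
    simp only [Nat.add_sub_cancel]
    push_cast
    ring

lemma cn_Lg_tangent_aux (𝓐 : Arr k w Empty)
    (hpos : ∀ (ι : Type) [Fintype ι] (A : LM k (Empty ⊕ ι) → ℝ), (∀ L, 0 ≤ A L) → 0 ≤ 𝓐.E ι A)
    {c c' : Fin (k + 1) → ℝ} (hc : ∀ l, 0 ≤ c l) (hc' : ∀ l, 0 ≤ c' l) {τ τ' : ℝ} (hτ : 0 ≤ τ)
    (hτ' : 0 ≤ τ') (hdiag : ∑ l, c l + τ = ∑ l, c' l + τ')
    (ν : Measure ℝ) [IsFiniteMeasure ν] (hν : Integrable (fun θ => θ ^ 2) ν) {φ ψ G : ℝ → ℝ}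
    (hφ : BM φ) (hψ : BM ψ) (hG : BM G) (hφd : φ = fun x => ∫ θ, Real.cos (θ * x) ∂ν)
    (hψd : ψ = fun x => -∫ θ, θ * Real.sin (θ * x) ∂ν)
    (hGd : heat τ ψ = fun x => -G x) (hHφ : BM (heat τ φ)) {a : ℝ} (ha0 : 0 ≤ a) (ha1 : a < 1)
    (hφa : ∀ x, |φ x| ≤ a) :
    𝓐.Lg c (heat τ φ) + 1 / 2 * ∑ l, (c' l - c l) * 𝓐.mark.mark.Q 1 c
      (fun L => lift (lift fun _ => 1) L * lk l (some none) none L) (ext G (ext G noA))
        (heat τ φ) ≤ 𝓐.Lg c' (heat τ' φ) := by
  have bn : ∀ i : Empty, BM (noA i) := fun i => i.elim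
  have s1 := 𝓐.Lg_summable c ha0 ha1 (heat_abs_le hφa τ)
  have s2 := 𝓐.Lg_summable c' ha0 ha1 (heat_abs_le hφa τ')
  have s3 := fun l => 𝓐.mark.mark.Q_summable 1 c
    (fun L => lift (lift fun _ => 1) L * lk l (some none) none L) (BM_ext (BM_ext bn hG) hG)
    ha0 ha1 (heat_abs_le hφa τ)
  have s4 := fun l => tsum_shift 0 (fun n => 𝓐.cnMM c G (heat τ φ) l n) (s3 l)
  have s5 : ∀ l, Summable fun n : ℕ => (n : ℝ) * 𝓐.cnMM c G (heat τ φ) l (n - 1) := by
    intro l
    have h := (s4 l).1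
    simpa using h
  have e5 : ∀ l, ∑' n : ℕ, (n : ℝ) * 𝓐.cnMM c G (heat τ φ) l (n - 1) = 𝓐.mark.mark.Q 1 c
      (fun L => lift (lift fun _ => 1) L * lk l (some none) none L) (ext G (ext G noA))
        (heat τ φ) := by
    intro l
    have h := (s4 l).2
    simp only [Nat.add_zero, Nat.choose_zero_right, Nat.cast_one, one_mul, zero_add] at h
    rw [h]
    rfl
  have s6 : Summable fun n : ℕ => 1 / 2 * ∑ l, (c' l - c l) *
      ((n : ℝ) * 𝓐.cnMM c G (heat τ φ) l (n - 1)) :=
    (summable_sum fun l _ => (s5 l).mul_left (c' l - c l)).mul_left _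
  have e6 : ∑' n : ℕ, 1 / 2 * ∑ l, (c' l - c l) * ((n : ℝ) * 𝓐.cnMM c G (heat τ φ) l (n - 1)) =
      1 / 2 * ∑ l, (c' l - c l) * 𝓐.mark.mark.Q 1 c
      (fun L => lift (lift fun _ => 1) L * lk l (some none) none L) (ext G (ext G noA))
        (heat τ φ) := by
    rw [tsum_mul_left, Summable.tsum_finsetSum fun l _ => (s5 l).mul_left (c' l - c l)]
    congr 1
    apply Finset.sum_congr rfl
    intro l _
    rw [tsum_mul_left, e5]
  rw [← e6]
  unfold Lg
  rw [← s1.tsum_add s6]
  apply (s1.add s6).tsum_le_tsum _ s2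
  intro n
  have h := 𝓐.cn_T_tangent hpos hc hc' hτ hτ' hdiag ν hν hφ hψ hG hφd hψd hGd hHφ n
  have hn : (0 : ℝ) < n + 1 := by (clear * -; positivity)
  have h2 := mul_le_mul_of_nonneg_left h (by positivity : (0 : ℝ) ≤ 1 / ((n : ℝ) + 1))
  refine le_trans (le_of_eq ?_) h2
  rw [mul_add]
  congr 1
  rw [Finset.mul_sum, Finset.mul_sum, Finset.mul_sum]
  apply Finset.sum_congr rfl
  intro l _
  field_simp

/-- Evaluation of the pair functional. -/
lemma cn_QQ_eval (𝓐 : Arr k w Empty) (hw : ∑ l, w l = 1)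
    (hlim : ∀ l, 𝓐.E (Fin 2) (fun L => if L (Sum.inr 0) (Sum.inr 1) = l then 1 else 0) = w l)
    {m v : ℕ → ℝ} (hv : ∀ l, 0 ≤ v l)
    (hm : ∀ l, 1 ≤ l → l ≤ k → 0 < m l) (hmw : ∀ l : Fin (k + 1), up w l = 1 - m l)
    {a : ℝ} (ha : 0 < a) {W : ℝ → ℝ} (hW : ∃ W' W'', CB2 W W' W'') (hWa : ∀ x, a ≤ W x)
    (hW1 : ∀ x, W x ≤ 1) {h : ℝ → ℝ} (hh : ∃ h' h'', CB2 h h' h'') (l : Fin (k + 1)) :
    𝓐.mark.mark.Q 1 (cut v k) (fun L => lift (lift fun _ => 1) L * lk l (some none) none L)
      (ext (fun x => h x * W x) (ext (fun x => h x * W x) noA)) (fun x => 1 - W x) =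
      ∑ l', (if l ≤ l' then w l' * pairVal m v k W h l' else 0) := by
  have ha1 : a ≤ 1 := (hWa 0).trans (hW1 0)
  obtain ⟨W', W'', hW0⟩ := hW
  obtain ⟨h', h'', hh0⟩ := hh
  have hA : (ext (fun x => h x * W x) (ext (fun x => h x * W x) noA) :
      Option (Option Empty) → ℝ → ℝ) = fun _ x => h x * W x := by
    funext i
    rcases i with _ | (_ | i)
    · rfl
    · rfl
    · exact i.elim
  have bA : ∀ _ : Option (Option Empty), BM fun x => h x * W x := fun _ =>
    ⟨(hh0.mul hW0).cont.measurable, (hh0.mul hW0).b0⟩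
  have hχ : (fun L : LM k (Option (Option Empty)) =>
      lift (lift fun _ => 1) L * lk l (some none) none L) =
      fun L => ∑ l' ∈ univ, (if l ≤ l' then (1 : ℝ) else 0) *
        (if L (some none) none = l' then 1 else 0) := by
    funext L
    simp only [lift, one_mul, lk]
    rw [indicator_sum]
    apply Finset.sum_congr rfl
    intro l' _
    split_ifs <;> simp
  rw [hA, hχ, 𝓐.mark.mark.cn_Q_chi_sum 1 (cut v k) univ _ _ bA (by linarith : 0 ≤ 1 - a)
    (by linarith) (fun x => by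
      rw [abs_of_nonneg (by linarith [hW1 x])]
      linarith [hWa x])]
  apply Finset.sum_congr rfl
  intro l' _
  rw [𝓐.mark.mark.Q_eval_two (by simp) (i₀ := some none) (j₀ := none) (by simp) hw hv hm hmw ha
    ⟨W', W'', hW0⟩ hWa hW1 ⟨h', h'', hh0⟩ l', 𝓐.cn_E_two hlim l']
  split_ifs <;> simp

/-- Tangent inequality for the logarithm series: `v' = v''` increments of another path. -/
theorem Lg_tangent {k : ℕ} {w : Fin (k + 1) → ℝ} (𝓐 : Arr k w Empty) (hw : ∑ l, w l = 1)
    (hpos : ∀ (ι : Type) [Fintype ι] (A : LM k (Empty ⊕ ι) → ℝ), (∀ L, 0 ≤ A L) → 0 ≤ 𝓐.E ι A)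
    (hone : 𝓐.E (Fin 1) (fun _ => 1) = 1)
    (hlim : ∀ l, 𝓐.E (Fin 2) (fun L => if L (Sum.inr 0) (Sum.inr 1) = l then 1 else 0) = w l)
    {m v v' : ℕ → ℝ} (hv : ∀ l, 0 ≤ v l) (hv' : ∀ l, 0 ≤ v' l)
    (hm : ∀ l, 1 ≤ l → l ≤ k → 0 < m l) (hmw : ∀ l : Fin (k + 1), up w l = 1 - m l)
    (ν : Measure ℝ) [IsFiniteMeasure ν] (hν : Integrable (fun θ => θ ^ 2) ν)
    {a : ℝ} (ha : 0 < a) {W : ℝ → ℝ} (hWdef : ∀ x, W x = 1 - ∫ θ, Real.cos (θ * x) ∂ν)
    (hWa : ∀ x, a ≤ W x) (hW1 : ∀ x, W x ≤ 1) (hW : ∃ W' W'', CB2 W W' W'')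
    (hνa : ν.real Set.univ ≤ 1 - a)
    {τ τ' : ℝ} (hτ : 0 ≤ τ) (hτ' : 0 ≤ τ')
    (hdiag : ∑ l ∈ Finset.range (k + 1), v l + τ = ∑ l ∈ Finset.range (k + 1), v' l + τ')
    {h : ℝ → ℝ} (hh : ∀ x, h x * W x = ∫ θ, θ * Real.sin (θ * x) ∂ν)
    (hhb : ∃ h' h'', CB2 h h' h'') :
    ∫ z, Real.log (lvW m v' k (flowW 1 τ' W 0) 0 (√(v' 0) * z)) ∂(gaussianReal 0 1) ≤
      ∫ z, Real.log (lvW m v k (flowW 1 τ W 0) 0 (√(v 0) * z)) ∂(gaussianReal 0 1) -
      1 / 2 * ∑ l : Fin (k + 1), w l *
        (∑ i ∈ Finset.range ((l : ℕ) + 1), v' i - ∑ i ∈ Finset.range ((l : ℕ) + 1), v i) *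
        pairVal m v k (flowW 1 τ W 0) (flowh 1 τ W h 0) l := by
  obtain ⟨W', W'', hW0⟩ := hW
  obtain ⟨h', h'', hh0⟩ := hhb
  have ha1 : a ≤ 1 := (hWa 0).trans (hW1 0)
  have hWm : Measurable W := hW0.cont.measurable
  set φ : ℝ → ℝ := fun x => ∫ θ, Real.cos (θ * x) ∂ν with hφd
  set ψ : ℝ → ℝ := fun x => -∫ θ, θ * Real.sin (θ * x) ∂ν with hψd
  have hφW : ∀ x, φ x = 1 - W x := fun x => by rw [hWdef x]; ring
  have hφW' : φ = fun x => 1 - W x := funext hφW
  have hφ : BM φ := by
    rw [hφW']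
    exact (BM.const 1).sub ⟨hWm, hW0.b0⟩
  have hψW : ψ = fun x => -(h x * W x) := by
    funext x
    rw [hh x]
  have bhW : BM fun x => h x * W x := ⟨(hh0.mul hW0).cont.measurable, (hh0.mul hW0).b0⟩
  have hψ : BM ψ := by
    rw [hψW]
    exact bhW.neg
  have hφa : ∀ x, |φ x| ≤ 1 - a := fun x => by
    rw [hφW, abs_of_nonneg (by linarith [hW1 x])]
    linarith [hWa x]
  -- the flows with exponent one are heat flows
  have e1 : ∀ t x, flowW 1 t W 0 x = heat t W x := by
    intro t x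
    unfold flowW
    simp only [Real.rpow_one, sub_zero, div_one]
  have e2 : ∀ t x, flowh 1 t W h 0 x * flowW 1 t W 0 x = heat t (fun y => h y * W y) x := by
    intro t x
    rw [e1]
    unfold flowh
    simp only [Real.rpow_one, sub_zero]
    have h1 : a ≤ heat t W x := by
      rw [← e1]
      exact (flowW_mem one_pos ha hWm hWa hW1 x).1
    have h2 : heat t W x ≠ 0 := (ha.trans_le h1).ne'
    exact div_mul_cancel₀ _ h2
  have e3 : ∀ t, heat t φ = fun x => 1 - flowW 1 t W 0 x := by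
    intro t
    funext x
    rw [e1, hφW']
    unfold heat
    obtain ⟨C, hC⟩ := hW0.b0
    rw [integral_sub (integrable_const _) (integrable_heat hWm hC t x)]
    simp
  have e4 : heat τ ψ = fun x => -(flowh 1 τ W h 0 x * flowW 1 τ W 0 x) := by
    funext x
    rw [e2, hψW]
    unfold heat
    rw [integral_neg]
  have cW := fun t => flowW_cb2 (m := 1) (σ := t) (t := 0) one_pos ha hW0 hWa hW1
  have ch := fun t => flowh_cb2 (m := 1) (σ := t) (t := 0) one_pos ha hW0 hWa hW1 hh0
  have mW := fun t x => flowW_mem (m := 1) (σ := t) (t := 0) one_pos ha hWm hWa hW1 x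
  obtain ⟨V', V'', hV⟩ := cW τ
  obtain ⟨g', g'', hg⟩ := ch τ
  have hG : BM fun x => flowh 1 τ W h 0 x * flowW 1 τ W 0 x :=
    ⟨(hg.mul hV).cont.measurable, (hg.mul hV).b0⟩
  have hHφ : BM (heat τ φ) := by
    rw [e3]
    exact (BM.const 1).sub ⟨hV.cont.measurable, hV.b0⟩
  have hsum : ∀ u : ℕ → ℝ, ∑ l, (cut u k : Fin (k + 1) → ℝ) l = ∑ l ∈ Finset.range (k + 1), u l := by
    intro u
    have h1 := cn_sum_cut u (Fin.last k)
    simp only [Fin.le_last, if_true, Fin.val_last] at h1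
    exact h1
  have key := 𝓐.cn_Lg_tangent_aux hpos (cut_nonneg hv k) (cut_nonneg hv' k) hτ hτ'
    (by rw [hsum, hsum]; exact hdiag) ν hν hφ hψ hG hφd hψd e4 hHφ (by linarith : 0 ≤ 1 - a)
    (by linarith) hφa
  rw [e3 τ, e3 τ', 𝓐.Lg_eval hw hv hm hmw ha (cW τ) (fun x => (mW τ x).1) (fun x => (mW τ x).2),
    𝓐.Lg_eval hw hv' hm hmw ha (cW τ') (fun x => (mW τ' x).1) (fun x => (mW τ' x).2), hone,
    one_mul, one_mul] at key
  have hsumQ : ∑ l, ((cut v' k : Fin (k + 1) → ℝ) l - (cut v k : Fin (k + 1) → ℝ) l) *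
      𝓐.mark.mark.Q 1 (cut v k) (fun L => lift (lift fun _ => 1) L * lk l (some none) none L)
      (ext (fun x => flowh 1 τ W h 0 x * flowW 1 τ W 0 x)
        (ext (fun x => flowh 1 τ W h 0 x * flowW 1 τ W 0 x) noA)) (fun x => 1 - flowW 1 τ W 0 x) =
      ∑ l : Fin (k + 1), w l *
        (∑ i ∈ Finset.range ((l : ℕ) + 1), v' i - ∑ i ∈ Finset.range ((l : ℕ) + 1), v i) *
        pairVal m v k (flowW 1 τ W 0) (flowh 1 τ W h 0) l := by
    have h1 : ∀ l, 𝓐.mark.mark.Q 1 (cut v k)
        (fun L => lift (lift fun _ => 1) L * lk l (some none) none L)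
        (ext (fun x => flowh 1 τ W h 0 x * flowW 1 τ W 0 x)
        (ext (fun x => flowh 1 τ W h 0 x * flowW 1 τ W 0 x) noA)) (fun x => 1 - flowW 1 τ W 0 x) =
        ∑ l', (if l ≤ l' then w l' * pairVal m v k (flowW 1 τ W 0) (flowh 1 τ W h 0) l' else 0) :=
      fun l => 𝓐.cn_QQ_eval hw hlim hv hm hmw ha (cW τ) (fun x => (mW τ x).1)
        (fun x => (mW τ x).2) (ch τ) l
    simp_rw [h1, Finset.mul_sum]
    rw [Finset.sum_comm]
    apply Finset.sum_congr rfl
    intro l' _
    rw [← cn_sum_cut v' l', ← cn_sum_cut v l', ← Finset.sum_sub_distrib, Finset.mul_sum,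
      Finset.sum_mul]
    apply Finset.sum_congr rfl
    intro l _
    split_ifs <;> ring
  rw [hsumQ] at key
  linarith

end Arr

end Vale.Agent.P157.Par
end

section

open MeasureTheory ProbabilityTheory

namespace Vale.Agent.P367.Gap

lemma gauss_tilt (a : ℝ) : gaussianReal (-a) 1
    = (gaussianReal 0 1).withDensity (fun x => ENNReal.ofReal (Real.exp (-(a * x) - a ^ 2 / 2))) := by
  rw [gaussianReal_of_var_ne_zero _ one_ne_zero, gaussianReal_of_var_ne_zero _ one_ne_zero,
    ← withDensity_mul _ (measurable_gaussianPDF 0 1) (by fun_prop)]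
  congr 1
  funext x
  simp only [Pi.mul_apply, gaussianPDF_def]
  rw [← ENNReal.ofReal_mul (gaussianPDFReal_nonneg _ _ _)]
  congr 1
  simp only [gaussianPDFReal_def]
  have e : Real.exp (-(x - -a) ^ 2 / (2 * ((1 : NNReal) : ℝ)))
      = Real.exp (-(x - 0) ^ 2 / (2 * ((1 : NNReal) : ℝ))) * Real.exp (-(a * x) - a ^ 2 / 2) := by
    rw [← Real.exp_add]
    congr 1
    push_cast
    ring
  rw [e]
  ring

lemma integrable_exp_affine (a b : ℝ) :
    Integrable (fun x => Real.exp (a * x + b)) (gaussianReal 0 1) := by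
  have h : Integrable (fun x => Real.exp (a * x)) (gaussianReal 0 1) :=
    integrable_exp_mul_gaussianReal a
  have := h.mul_const (Real.exp b)
  refine this.congr (Filter.Eventually.of_forall fun x => ?_)
  simp only [← Real.exp_add]

lemma integral_exp_affine (a : ℝ) :
    ∫ x, Real.exp (a * x) ∂(gaussianReal 0 1) = Real.exp (a ^ 2 / 2) := by
  have h := mgf_gaussianReal (p := gaussianReal 0 1) (X := id) (μ := 0) (v := 1) (by simp) a
  simp only [mgf, id] at h
  rw [h]
  congr 1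
  push_cast
  ring

variable {ι : Type*} [Fintype ι]

lemma exp_linear_eq_prod (a : ι → ℝ) (J : ι → ℝ) :
    Real.exp (∑ i, a i * J i) = ∏ i, Real.exp (a i * J i) := Real.exp_sum _ _

lemma integrable_exp_linear (a : ι → ℝ) :
    Integrable (fun J : ι → ℝ => Real.exp (∑ i, a i * J i))
      (Measure.pi fun _ : ι => gaussianReal 0 1) := by
  have h : Integrable (fun J : ι → ℝ => ∏ i, Real.exp (a i * J i))
      (Measure.pi fun _ : ι => gaussianReal 0 1) := by
    apply Integrable.fintype_prod (f := fun i x => Real.exp (a i * x))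
    intro i
    exact integrable_exp_mul_gaussianReal (a i)
  simpa only [exp_linear_eq_prod] using h

lemma integral_exp_linear (a : ι → ℝ) :
    ∫ J, Real.exp (∑ i, a i * J i) ∂(Measure.pi fun _ : ι => gaussianReal 0 1)
      = Real.exp ((∑ i, a i ^ 2) / 2) := by
  simp only [exp_linear_eq_prod]
  have h := integral_fintype_prod_eq_prod (𝕜 := ℝ) (fun (i : ι) (x : ℝ) => Real.exp (a i * x))
    (μ := fun _ => gaussianReal 0 1)
  rw [h]
  simp only [integral_exp_affine]
  rw [← Real.exp_sum, Finset.sum_div]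

lemma pi_tilt (a : ι → ℝ) :
    (Measure.pi fun _ : ι => gaussianReal 0 1).map (fun J => J - a)
      = (Measure.pi fun _ : ι => gaussianReal 0 1).withDensity
        (fun J => ENNReal.ofReal (Real.exp (-(∑ i, a i * J i) - (∑ i, a i ^ 2) / 2))) := by
  have h1 : (Measure.pi fun _ : ι => gaussianReal 0 1).map (fun J => J - a)
      = Measure.pi fun i => gaussianReal (-(a i)) 1 := by
    have e : (fun J : ι → ℝ => J - a) = fun J i => (fun x => x - a i) (J i) := by
      funext J i; rfl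
    have hm : ∀ i, (gaussianReal 0 1).map (fun x => x - a i) = gaussianReal (-(a i)) 1 := by
      intro i
      rw [gaussianReal_map_sub_const]
      simp
    have : ∀ i, SigmaFinite ((gaussianReal 0 1).map (fun x => x - a i)) := by
      intro i
      rw [hm i]
      infer_instance
    rw [e, Measure.pi_map_pi (μ := fun _ : ι => gaussianReal 0 1) (f := fun i x => x - a i)
      (fun i => by fun_prop)]
    congr 1
    funext i
    exact hm i
  rw [h1]
  apply Measure.pi_eq
  intro s hs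
  have hbox : MeasurableSet (Set.univ.pi s) := MeasurableSet.univ_pi hs
  rw [withDensity_apply _ hbox]
  have hexp : ∀ J : ι → ℝ, Real.exp (-(∑ i, a i * J i) - (∑ i, a i ^ 2) / 2)
      = ∏ i, Real.exp (-(a i * J i) - a i ^ 2 / 2) := by
    intro J
    rw [← Real.exp_sum]
    congr 1
    rw [Finset.sum_sub_distrib, Finset.sum_neg_distrib, Finset.sum_div]
  have hint : Integrable (fun J : ι → ℝ => Real.exp (-(∑ i, a i * J i) - (∑ i, a i ^ 2) / 2))
      (Measure.pi fun _ : ι => gaussianReal 0 1) := by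
    simp only [hexp]
    apply Integrable.fintype_prod (f := fun i x => Real.exp (-(a i * x) - a i ^ 2 / 2))
    intro i
    have := integrable_exp_affine (-(a i)) (-(a i ^ 2 / 2))
    refine this.congr (Filter.Eventually.of_forall fun x => ?_)
    ring_nf
  rw [← ofReal_integral_eq_lintegral_ofReal hint.integrableOn
    (Filter.Eventually.of_forall fun x => (Real.exp_pos _).le)]
  rw [← integral_indicator hbox]
  have hind : (Set.univ.pi s).indicator
        (fun J : ι → ℝ => Real.exp (-(∑ i, a i * J i) - (∑ i, a i ^ 2) / 2))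
      = fun J => ∏ i, (s i).indicator (fun x => Real.exp (-(a i * x) - a i ^ 2 / 2)) (J i) := by
    funext J
    by_cases hJ : J ∈ Set.univ.pi s
    · rw [Set.indicator_of_mem hJ, hexp]
      apply Finset.prod_congr rfl
      intro i _
      rw [Set.indicator_of_mem (hJ i (Set.mem_univ i))]
    · rw [Set.indicator_of_notMem hJ]
      simp only [Set.mem_univ_pi, not_forall] at hJ
      obtain ⟨i, hi⟩ := hJ
      symm
      apply Finset.prod_eq_zero (Finset.mem_univ i)
      rw [Set.indicator_of_notMem hi]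
  rw [hind, integral_fintype_prod_eq_prod (𝕜 := ℝ)
    (fun (i : ι) (x : ℝ) => (s i).indicator (fun x => Real.exp (-(a i * x) - a i ^ 2 / 2)) x)
    (μ := fun _ => gaussianReal 0 1)]
  rw [ENNReal.ofReal_prod_of_nonneg]
  · apply Finset.prod_congr rfl
    intro i _
    rw [gauss_tilt, withDensity_apply _ (hs i), integral_indicator (hs i)]
    rw [ofReal_integral_eq_lintegral_ofReal]
    · have := integrable_exp_affine (-(a i)) (-(a i ^ 2 / 2))
      have h2 : Integrable (fun x => Real.exp (-(a i * x) - a i ^ 2 / 2)) (gaussianReal 0 1) := by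
        refine this.congr (Filter.Eventually.of_forall fun x => ?_)
        ring_nf
      exact h2.integrableOn
    · exact Filter.Eventually.of_forall fun x => (Real.exp_pos _).le
  · intro i _
    apply integral_nonneg
    intro x
    apply Set.indicator_nonneg
    intro x _
    exact (Real.exp_pos _).le

/-- Cameron-Martin: translation of a finite product of standard Gaussians. -/
lemma integral_shift (a : ι → ℝ) (f : (ι → ℝ) → ℝ) :
    ∫ J, f (J - a) ∂(Measure.pi fun _ : ι => gaussianReal 0 1)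
      = ∫ J, Real.exp (-(∑ i, a i * J i) - (∑ i, a i ^ 2) / 2) * f J
          ∂(Measure.pi fun _ : ι => gaussianReal 0 1) := by
  have hemb : MeasurableEmbedding (fun J : ι → ℝ => J - a) :=
    (MeasurableEquiv.subRight a).measurableEmbedding
  rw [← hemb.integral_map (μ := Measure.pi fun _ : ι => gaussianReal 0 1) f, pi_tilt,
    integral_withDensity_eq_integral_toReal_smul (by fun_prop)
      (Filter.Eventually.of_forall fun x => ENNReal.ofReal_lt_top)]
  apply integral_congr_ae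
  refine Filter.Eventually.of_forall fun J => ?_
  simp only [smul_eq_mul]
  rw [ENNReal.toReal_ofReal (Real.exp_pos _).le]

end Vale.Agent.P367.Gap
end
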