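import Mathlib
import Vale.Agent.P146.Bdl.B7
import Vale.Agent.P146.Defs

set_option linter.all false

section

/-!
Real number bookkeeping of the main inequality.
-/

namespace Vale.Agent.P146.Sk

lemma real_a1 {β C₁ C₃ E b ε₀ ρ η R P p g V1b Va X Y : ℝ} (hβ : 0 < β) (h1 : 0 ≤ C₁)
    (h3 : 0 ≤ C₃) (hR : 0 ≤ R) (hE : E ≤ R) (hbR : b ≤ R) (hηR : η ≤ R) (hεR : ε₀ + ρ ≤ R)
    (hp : P ≤ p + ε₀) (hg : p - β / 2 * b * C₃ ≤ g) (hV1b : g - ρ ≤ V1b)
    (hVa : Va ≤ P - X + β ^ 2 / 2 * η + β / 2 * (b * C₃) + β / 2 * (C₁ * E))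
    (hT1 : V1b - Va ≤ Y) : X - (2 + β * C₃ + β ^ 2 + β * C₁) * R ≤ Y := by
  have e1 : β / 2 * (C₁ * E) ≤ β / 2 * (C₁ * R) :=
    mul_le_mul_of_nonneg_left (mul_le_mul_of_nonneg_left hE h1) (by linarith only [hβ])
  have e2 : β / 2 * (b * C₃) ≤ β / 2 * (R * C₃) :=
    mul_le_mul_of_nonneg_left (mul_le_mul_of_nonneg_right hbR h3) (by linarith only [hβ])
  have e4 : β ^ 2 / 2 * η ≤ β ^ 2 / 2 * R := mul_le_mul_of_nonneg_left hηR (by positivity)
  have e7 : 0 ≤ β * C₁ * R := by positivity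
  have e8 : 0 ≤ β ^ 2 * R := by positivity
  have e10 : β / 2 * b * C₃ = β / 2 * (b * C₃) := by ring
  rw [e10] at hg
  have f : X - (R + β / 2 * (R * C₃) + β ^ 2 / 2 * R + β / 2 * (R * C₃) + β / 2 * (C₁ * R)) ≤ Y := by
    linarith
  have e9 : R + β / 2 * (R * C₃) + β ^ 2 / 2 * R + β / 2 * (R * C₃) + β / 2 * (C₁ * R) =
      (2 + β * C₃ + β ^ 2 + β * C₁) * R - (R + β ^ 2 * R / 2 + β * C₁ * R / 2) := by ring
  rw [e9] at f
  linarith only [f, e8, e7, hR]

lemma real_a2 {β Q2 M r T1 : ℝ} (hβ : 0 < β) (hr0 : 0 < r) (hQ2 : Q2 ≤ 1)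
    (a1 : β ^ 2 / 4 * Q2 * (1 - (1 - r / 2) ^ 2) - M * r ^ 2 ≤ r / 2 * (β / 2 * T1)) :
    β * Q2 - (β / 4 + 4 * M / β) * r ≤ T1 := by
  have e1 : r / 2 * (β / 2 * T1) = r * (β / 4 * T1) := by ring
  have e2 : β ^ 2 / 4 * Q2 * (1 - (1 - r / 2) ^ 2) - M * r ^ 2 =
      r * (β ^ 2 / 4 * Q2 * (1 - r / 4) - M * r) := by ring
  rw [e1, e2] at a1
  have a3 := le_of_mul_le_mul_left a1 hr0
  have h0 : Q2 * r ≤ 1 * r := mul_le_mul_of_nonneg_right hQ2 hr0.le
  have h1 : β ^ 2 / 16 * (Q2 * r) ≤ β ^ 2 / 16 * (1 * r) :=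
    mul_le_mul_of_nonneg_left h0 (by positivity)
  have a4 : β ^ 2 / 4 * Q2 * (1 - r / 4) = β ^ 2 / 4 * Q2 - β ^ 2 / 16 * (Q2 * r) := by ring
  rw [a4] at a3
  have a5 : β / 4 * (β * Q2 - (β / 4 + 4 * M / β) * r) ≤ β / 4 * T1 := by
    have e3 : β / 4 * (β * Q2 - (β / 4 + 4 * M / β) * r) =
        β ^ 2 / 4 * Q2 - β ^ 2 / 16 * (1 * r) - M * r := by
      field_simp
      ring
    rw [e3]
    linarith only [h1, a3]
  exact le_of_mul_le_mul_left a5 (by positivity)

lemma real_a3 {β C₁ E L r T1 Q2 R2 : ℝ} (hβ : 0 < β) (h1 : 0 ≤ C₁) (hE : E ≤ 2 * r)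
    (a2 : β * Q2 - L * r ≤ T1) (hT1R : T1 ≤ β * R2 + C₁ * E) :
    Q2 - R2 ≤ (L + 2 * C₁) / β * r := by
  have e1 : C₁ * E ≤ C₁ * (2 * r) := mul_le_mul_of_nonneg_left hE h1
  have e2 : β * (Q2 - R2) ≤ (L + 2 * C₁) * r := by linarith
  rw [div_mul_eq_mul_div, le_div_iff₀ hβ]
  linarith

lemma real_a5 {B C₁ E r η c c' D Q2 R2 Qk Rk Tκ : ℝ} (hB : 0 ≤ B) (h1 : 0 ≤ C₁) (hc : 0 ≤ c)
    (hc' : 0 ≤ c') (hE : E ≤ 2 * r) (hη : η ≤ 4 * r)
    (a3 : Q2 - R2 ≤ D * r) (hS : Qk - c * (Q2 - R2) - c' * η ≤ Rk)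
    (hTκR : B * Rk - C₁ * E ≤ Tκ) :
    B * Qk - (B * (c * D + 4 * c') + 2 * C₁) * r ≤ Tκ := by
  have e1 : c * (Q2 - R2) ≤ c * (D * r) := mul_le_mul_of_nonneg_left a3 hc
  have e2 : c' * η ≤ c' * (4 * r) := mul_le_mul_of_nonneg_left hη hc'
  have e3 : Qk - c * (D * r) - c' * (4 * r) ≤ Rk := by linarith
  have e4 : B * (Qk - c * (D * r) - c' * (4 * r)) ≤ B * Rk := mul_le_mul_of_nonneg_left e3 hB
  have e5 : C₁ * E ≤ C₁ * (2 * r) := mul_le_mul_of_nonneg_left hE h1
  have e6 : B * Qk - (B * (c * D + 4 * c') + 2 * C₁) * r =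
      B * (Qk - c * (D * r) - c' * (4 * r)) - C₁ * (2 * r) := by ring
  rw [e6]
  linarith only [e5, e4, hTκR]

lemma real_a7 {β C₁ sd ε₀ ρ η : ℝ} (hβ : 0 < β) (h1 : 0 ≤ C₁) (hsd : 0 ≤ sd) (hε₀ : 0 ≤ ε₀)
    (hρ : 0 < ρ) (hηρ : η ≤ ρ) :
    ε₀ + ρ + β ^ 2 / 2 * η + β / 2 * (C₁ * (sd + ρ)) ≤ (1 + β ^ 2 + β * C₁) * (sd + ε₀ + ρ) := by
  have h0 : 0 ≤ sd + ε₀ + ρ := by linarith
  have e1 : β ^ 2 / 2 * η ≤ β ^ 2 / 2 * (sd + ε₀ + ρ) :=
    mul_le_mul_of_nonneg_left (by linarith) (by positivity)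
  have e2 : β / 2 * (C₁ * (sd + ρ)) ≤ β / 2 * (C₁ * (sd + ε₀ + ρ)) :=
    mul_le_mul_of_nonneg_left (mul_le_mul_of_nonneg_left (by linarith only [hε₀]) h1) (by linarith only [hβ])
  have e3 : 0 ≤ β ^ 2 / 2 * (sd + ε₀ + ρ) := by positivity
  have e4 : 0 ≤ β / 2 * (C₁ * (sd + ε₀ + ρ)) := by positivity
  have e5 : (1 + β ^ 2 + β * C₁) * (sd + ε₀ + ρ) = (sd + ε₀ + ρ) +
      (β ^ 2 / 2 * (sd + ε₀ + ρ) + β ^ 2 / 2 * (sd + ε₀ + ρ)) +
      (β / 2 * (C₁ * (sd + ε₀ + ρ)) + β / 2 * (C₁ * (sd + ε₀ + ρ))) := by ring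
  rw [e5]
  linarith only [e4, e3, e2, e1, hsd]

lemma real_a8 {β C₂ b iN S W ρ Tκ Tcκ P p g V1b V10 ε₀ Z : ℝ} (hβ : 0 < β) (hb : 0 < b)
    (hp : P ≤ p + ε₀) (hV1b : g - ρ ≤ V1b) (hV10 : V10 ≤ P + Z)
    (hTc : V1b ≤ V10 - β / 2 * b * Tcκ) (hTcT : Tκ - C₂ * iN ≤ Tcκ)
    (hiN : β * C₂ * iN ≤ ρ) (a7 : ε₀ + ρ + Z ≤ W * S) :
    b / 2 * (β * Tκ - 2 * W * S / b - ρ) ≤ p - g := by
  have e1 : β / 2 * b * (Tκ - C₂ * iN) ≤ β / 2 * b * Tcκ :=
    mul_le_mul_of_nonneg_left hTcT (by positivity)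
  have e3 : b / 2 * (β * Tκ - 2 * W * S / b - ρ) =
      β / 2 * b * (Tκ - C₂ * iN) - W * S + b / 2 * (β * C₂ * iN - ρ) := by
    field_simp
    ring
  have e4 : b / 2 * (β * C₂ * iN - ρ) ≤ 0 :=
    mul_nonpos_of_nonneg_of_nonpos (by positivity) (by linarith only [hiN])
  rw [e3]
  linarith only [e4, e1, a7, hTc, hV10, hV1b, hp]

/-- The real number part of the main inequality. -/
lemma real_main {β : ℝ} (hβ : 0 < β) {κ : ℕ} {C₁ C₂ C₃ : ℝ} (h1 : 0 ≤ C₁)
    (h3 : 0 ≤ C₃) {sd b ε₀ ρ η r iN P p g V1b V10 Va T1 Tκ Tcκ Q2 Qk R2 Rk : ℝ}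
    (hsd : 0 ≤ sd) (hb : 0 < b) (hb1 : b ≤ 1) (hε₀ : 0 ≤ ε₀) (hρ : 0 < ρ)
    (hηρ : η ≤ ρ) (hr0 : 0 < r) (hr2 : r ≤ 2) (hr : r ^ 2 = b + sd + ε₀ + ρ)
    (hQ2 : Q2 ≤ 1)
    -- the pressure
    (hp : P ≤ p + ε₀)
    -- the free energy without fields at `(1, b)`
    (hg : p - β / 2 * b * C₃ ≤ g)
    -- small strengths
    (hV1b : g - ρ ≤ V1b)
    -- the upper bound at `(1, 0)`
    (hV10 : V10 ≤ P + (β ^ 2 / 2 * η + β / 2 * (C₁ * (sd + ρ))))
    -- the upper bound at `(a, b)`, `a = 1 - r/2`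
    (hVa : Va ≤ P - β ^ 2 / 4 * Q2 * (1 - (1 - r / 2) ^ 2) + β ^ 2 / 2 * η + β / 2 * (b * C₃) +
      β / 2 * (C₁ * (sd + b + ρ)))
    -- the tangent from `(1, b)` to `(a, b)`
    (hT1 : V1b - Va ≤ r / 2 * (β / 2 * T1))
    -- the tangent from `(1, b)` to `(1, 0)`
    (hTc : V1b ≤ V10 - β / 2 * b * Tcκ)
    (hTcT : Tκ - C₂ * iN ≤ Tcκ)
    -- the values at `(1, b)`
    (hT1R : T1 ≤ β * R2 + C₁ * (sd + b + ρ))
    (hTκR : β ^ κ * Rk - C₁ * (sd + b + ρ) ≤ Tκ)
    -- Schur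
    (hS : Qk - ((κ : ℝ) + 1) * κ / 2 * (Q2 - R2) - ((κ : ℝ) + 1) * κ * η ≤ Rk)
    (hiN : β * C₂ * iN ≤ ρ) :
    b / 2 * (β ^ (κ + 1) * Qk -
      (β * (β ^ κ * (((κ : ℝ) + 1) * κ / 2 * ((β / 4 + 4 * (2 + β * C₃ + β ^ 2 + β * C₁) / β +
        2 * C₁) / β) + 4 * (((κ : ℝ) + 1) * κ)) + 2 * C₁)) * r -
      (2 * (1 + β ^ 2 + β * C₁) + 1) * (sd + ε₀ + ρ) / b) ≤ p - g := by
  have hE : sd + b + ρ ≤ r ^ 2 := by linarith only [hr, hε₀]
  have hE2 : r ^ 2 ≤ 2 * r := by
    rw [pow_two]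
    exact mul_le_mul_of_nonneg_right hr2 hr0.le
  have a1 := real_a1 hβ h1 h3 (by positivity) hE (by linarith only [hE, hρ, hsd]) (by linarith only [hE, hηρ, hb, hsd]) (by linarith only [hr, hb, hsd]) hp hg
    hV1b hVa hT1
  have a2 := real_a2 hβ hr0 hQ2 a1
  have a3 := real_a3 hβ h1 (hE.trans hE2) a2 hT1R
  have a5 := real_a5 (B := β ^ κ) (by positivity) h1 (by (clear * -; positivity)) (by positivity)
    (hE.trans hE2) (by linarith only [hE2, hE, hr0, hηρ, hb, hsd]) a3 hS hTκR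
  have a7 := real_a7 hβ h1 hsd hε₀ hρ hηρ
  have a8 := real_a8 hβ hb hp hV1b hV10 hTc hTcT hiN (by rw [← add_assoc]; exact a7)
  refine le_trans (mul_le_mul_of_nonneg_left ?_ (by positivity)) a8
  have a9 := mul_le_mul_of_nonneg_left a5 hβ.le
  have a10 : ρ ≤ (sd + ε₀ + ρ) / b := by
    rw [le_div_iff₀ hb]
    have : ρ * b ≤ ρ * 1 := mul_le_mul_of_nonneg_left hb1 hρ.le
    linarith only [this, hE, hr, hsd]
  have e1 : (2 * (1 + β ^ 2 + β * C₁) + 1) * (sd + ε₀ + ρ) / b =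
      2 * (1 + β ^ 2 + β * C₁) * (sd + ε₀ + ρ) / b + (sd + ε₀ + ρ) / b := by ring
  rw [e1, pow_succ' β κ, mul_assoc β (β ^ κ) Qk]
  rw [mul_sub, ← mul_assoc β (_ + _) r] at a9
  linarith only [a10, a9]

end Vale.Agent.P146.Sk
end

section

open MeasureTheory ProbabilityTheory

namespace Vale.Agent.P146

section OneDim

lemma exp_abs_le (c x : ℝ) :
    Real.exp (c * |x|) ≤ Real.exp (c * x) + Real.exp (-c * x) := by
  rcases abs_cases x with ⟨h, _⟩ | ⟨h, _⟩
  · rw [h]; linarith [Real.exp_pos (-c * x)]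
  · rw [h]
    have : c * -x = -c * x := by ring
    rw [this]; linarith [Real.exp_pos (c * x)]

lemma integrable_exp_abs (c : ℝ) :
    Integrable (fun x : ℝ => Real.exp (c * |x|)) (gaussianReal 0 1) := by
  have h1 : Integrable (fun x : ℝ => Real.exp (c * x)) (gaussianReal 0 1) :=
    integrable_exp_mul_gaussianReal c
  have h2 : Integrable (fun x : ℝ => Real.exp (-c * x)) (gaussianReal 0 1) :=
    integrable_exp_mul_gaussianReal (-c)
  refine Integrable.mono' (h1.add h2) ?_ (ae_of_all _ fun x => ?_)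
  · exact (by fun_prop : Continuous fun x : ℝ => Real.exp (c * |x|)).aestronglyMeasurable
  · rw [Real.norm_eq_abs, abs_of_pos (Real.exp_pos _)]
    exact exp_abs_le c x

lemma integrable_gaussian_iff (f : ℝ → ℝ) :
    Integrable f (gaussianReal 0 1) ↔
      Integrable (fun x => gaussianPDFReal 0 1 x * f x) := by
  rw [gaussianReal_of_var_ne_zero 0 one_ne_zero,
    integrable_withDensity_iff_integrable_smul' (measurable_gaussianPDF 0 1)
      (ae_of_all _ fun x => gaussianPDF_lt_top)]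
  simp only [toReal_gaussianPDF, smul_eq_mul]

lemma hasDerivAt_pdf (x : ℝ) :
    HasDerivAt (gaussianPDFReal 0 1) (-(x * gaussianPDFReal 0 1 x)) x := by
  have h0 : gaussianPDFReal 0 1 = fun x : ℝ => (√(2 * Real.pi))⁻¹ * Real.exp (-x ^ 2 / 2) := by
    ext y; simp [gaussianPDFReal]
  rw [h0]
  have h : HasDerivAt (fun x : ℝ => -x ^ 2 / 2) (-x) x := by
    have := (((hasDerivAt_id' x).fun_pow 2).fun_neg).div_const (2 : ℝ)
    refine this.congr_deriv ?_
    simp only [Nat.cast_ofNat, Nat.add_one_sub_one, pow_one, mul_one]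
    linarith
  have h2 := (h.exp).const_mul ((√(2 * Real.pi))⁻¹)
  refine h2.congr_deriv ?_
  ring

lemma stein (f f' : ℝ → ℝ) (hd : ∀ x, HasDerivAt f (f' x) x) (hf' : Continuous f')
    (C c : ℝ) (hC : ∀ x, |f x| ≤ C * Real.exp (c * |x|))
    (hC' : ∀ x, |f' x| ≤ C * Real.exp (c * |x|)) :
    ∫ x, x * f x ∂(gaussianReal 0 1) = ∫ x, f' x ∂(gaussianReal 0 1) := by
  have hfc : Continuous f := continuous_iff_continuousAt.2 fun x => (hd x).continuousAt
  have hC0 : 0 ≤ C := by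
    have := (abs_nonneg _).trans (hC 0)
    simpa using this
  have i1 : Integrable f (gaussianReal 0 1) :=
    Integrable.mono' ((integrable_exp_abs c).const_mul C) hfc.aestronglyMeasurable
      (ae_of_all _ fun x => by rw [Real.norm_eq_abs]; exact hC x)
  have i2 : Integrable f' (gaussianReal 0 1) :=
    Integrable.mono' ((integrable_exp_abs c).const_mul C) hf'.aestronglyMeasurable
      (ae_of_all _ fun x => by rw [Real.norm_eq_abs]; exact hC' x)
  have i3 : Integrable (fun x => x * f x) (gaussianReal 0 1) := by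
    refine Integrable.mono' ((integrable_exp_abs (c + 1)).const_mul C)
      (continuous_id.mul hfc).aestronglyMeasurable (ae_of_all _ fun x => ?_)
    rw [Real.norm_eq_abs, abs_mul]
    have h1 : |x| ≤ Real.exp |x| := by
      have := Real.add_one_le_exp |x|; linarith
    calc |x| * |f x| ≤ Real.exp |x| * (C * Real.exp (c * |x|)) :=
          mul_le_mul h1 (hC x) (abs_nonneg _) (Real.exp_pos _).le
      _ = C * Real.exp ((c + 1) * |x|) := by
          rw [show (c + 1) * |x| = |x| + c * |x| by ring, Real.exp_add]; ring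
  rw [integral_gaussianReal_eq_integral_smul one_ne_zero,
    integral_gaussianReal_eq_integral_smul one_ne_zero]
  simp only [smul_eq_mul]
  have key := integral_mul_deriv_eq_deriv_mul_of_integrable
    (u := f) (v := gaussianPDFReal 0 1) (u' := f')
    (v' := fun x => -(x * gaussianPDFReal 0 1 x))
    (fun x _ => hd x) (fun x _ => hasDerivAt_pdf x) ?_ ?_ ?_
  · have e1 : ∫ x, gaussianPDFReal 0 1 x * (x * f x)
        = - ∫ x, f x * -(x * gaussianPDFReal 0 1 x) := by
      rw [← integral_neg]; congr 1; ext x; ring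
    rw [e1, key, neg_neg]
    congr 1; ext x; ring
  · have := ((integrable_gaussian_iff _).1 i3).neg
    refine this.congr (ae_of_all _ fun x => ?_)
    simp only [Pi.neg_apply, Pi.mul_apply]; ring
  · refine ((integrable_gaussian_iff _).1 i2).congr (ae_of_all _ fun x => ?_)
    simp only [Pi.mul_apply]; ring
  · refine ((integrable_gaussian_iff _).1 i1).congr (ae_of_all _ fun x => ?_)
    simp only [Pi.mul_apply]; ring

end OneDim

section MultiDim

variable {ι : Type*} [Fintype ι]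

/-- The standard Gaussian measure on `ι → ℝ`. -/
noncomputable def gpi (ι : Type*) [Fintype ι] : Measure (ι → ℝ) :=
  Measure.pi fun _ => gaussianReal 0 1

instance : IsProbabilityMeasure (gpi ι) := by unfold gpi; infer_instance

/-- Continuous functions of at most exponential growth. -/
structure Dom (f : (ι → ℝ) → ℝ) : Prop where
  cont : Continuous f
  bound : ∃ C c : ℝ, 0 ≤ C ∧ 0 ≤ c ∧ ∀ g, |f g| ≤ C * Real.exp (c * ∑ i, |g i|)

lemma sum_abs_nonneg (g : ι → ℝ) : 0 ≤ ∑ i, |g i| :=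
  Finset.sum_nonneg fun i _ => abs_nonneg _

lemma Dom.add {f h : (ι → ℝ) → ℝ} (hf : Dom f) (hh : Dom h) : Dom (fun g => f g + h g) := by
  obtain ⟨C, c, hC, hc, hb⟩ := hf.bound
  obtain ⟨C', c', hC', hc', hb'⟩ := hh.bound
  refine ⟨hf.cont.add hh.cont, C + C', max c c', by positivity, le_max_of_le_left hc,
    fun g => ?_⟩
  have s := sum_abs_nonneg g
  calc |f g + h g| ≤ |f g| + |h g| := abs_add_le _ _
    _ ≤ C * Real.exp (c * ∑ i, |g i|) + C' * Real.exp (c' * ∑ i, |g i|) :=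
        add_le_add (hb g) (hb' g)
    _ ≤ C * Real.exp (max c c' * ∑ i, |g i|) + C' * Real.exp (max c c' * ∑ i, |g i|) := by
        gcongr
        · exact le_max_left _ _
        · exact le_max_right _ _
    _ = (C + C') * Real.exp (max c c' * ∑ i, |g i|) := by ring

lemma Dom.mul {f h : (ι → ℝ) → ℝ} (hf : Dom f) (hh : Dom h) : Dom (fun g => f g * h g) := by
  obtain ⟨C, c, hC, hc, hb⟩ := hf.bound
  obtain ⟨C', c', hC', hc', hb'⟩ := hh.bound
  refine ⟨hf.cont.mul hh.cont, C * C', c + c', by positivity, by positivity,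
    fun g => ?_⟩
  calc |f g * h g| = |f g| * |h g| := abs_mul _ _
    _ ≤ (C * Real.exp (c * ∑ i, |g i|)) * (C' * Real.exp (c' * ∑ i, |g i|)) :=
        mul_le_mul (hb g) (hb' g) (abs_nonneg _) (by positivity)
    _ = (C * C') * Real.exp ((c + c') * ∑ i, |g i|) := by
        rw [add_mul, Real.exp_add]; ring

lemma Dom.of_bounded {f : (ι → ℝ) → ℝ} (hf : Continuous f) (C : ℝ) (hb : ∀ g, |f g| ≤ C) :
    Dom f := by
  have hC : 0 ≤ C := (abs_nonneg _).trans (hb 0)
  exact ⟨hf, C, 0, hC, le_rfl, fun g => by simpa using hb g⟩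

lemma Dom.const (a : ℝ) : Dom (fun _ : ι → ℝ => a) :=
  Dom.of_bounded continuous_const |a| fun _ => le_rfl

lemma Dom.coord (e : ι) : Dom (fun g : ι → ℝ => g e) := by
  refine ⟨continuous_apply e, 1, 1, zero_le_one, zero_le_one, fun g => ?_⟩
  have h1 : |g e| ≤ ∑ i, |g i| := Finset.single_le_sum (f := fun i => |g i|)
    (fun _ _ => abs_nonneg _) (Finset.mem_univ e)
  have := Real.add_one_le_exp (∑ i, |g i|)
  rw [one_mul, one_mul]; linarith

lemma Dom.const_mul {f : (ι → ℝ) → ℝ} (a : ℝ) (hf : Dom f) : Dom (fun g => a * f g) :=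
  (Dom.const a).mul hf

lemma Dom.neg {f : (ι → ℝ) → ℝ} (hf : Dom f) : Dom (fun g => - f g) := by
  simpa using hf.const_mul (-1)

lemma Dom.sub {f h : (ι → ℝ) → ℝ} (hf : Dom f) (hh : Dom h) : Dom (fun g => f g - h g) := by
  simpa [sub_eq_add_neg] using hf.add hh.neg

lemma Dom.sum {κ : Type*} (s : Finset κ) {f : κ → (ι → ℝ) → ℝ} (hf : ∀ k ∈ s, Dom (f k)) :
    Dom (fun g => ∑ k ∈ s, f k g) := by
  classical
  induction s using Finset.induction_on with
  | empty => simpa using Dom.const (ι := ι) 0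
  | insert a s ha ih =>
    simp only [Finset.sum_insert ha]
    exact (hf a (Finset.mem_insert_self _ _)).add
      (ih fun k hk => hf k (Finset.mem_insert_of_mem hk))

lemma Dom.prod {κ : Type*} (s : Finset κ) {f : κ → (ι → ℝ) → ℝ} (hf : ∀ k ∈ s, Dom (f k)) :
    Dom (fun g => ∏ k ∈ s, f k g) := by
  classical
  induction s using Finset.induction_on with
  | empty => simpa using Dom.const (ι := ι) 1
  | insert a s ha ih =>
    simp only [Finset.prod_insert ha]
    exact (hf a (Finset.mem_insert_self _ _)).mul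
      (ih fun k hk => hf k (Finset.mem_insert_of_mem hk))

lemma Dom.congr {f h : (ι → ℝ) → ℝ} (hf : Dom f) (e : ∀ g, h g = f g) : Dom h := by
  have : h = f := funext e
  rwa [this]

lemma Dom.pow {f : (ι → ℝ) → ℝ} (hf : Dom f) (k : ℕ) : Dom (fun g => f g ^ k) := by
  induction k with
  | zero => simpa using Dom.const (ι := ι) 1
  | succ k ih => simpa [pow_succ] using ih.mul hf

lemma integrable_exp_sum (c : ℝ) :
    Integrable (fun g : ι → ℝ => Real.exp (c * ∑ i, |g i|)) (gpi ι) := by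
  have h : Integrable (fun g : ι → ℝ => ∏ i, Real.exp (c * |g i|)) (gpi ι) :=
    Integrable.fintype_prod (f := fun _ x => Real.exp (c * |x|))
      (fun _ => integrable_exp_abs c)
  refine h.congr (ae_of_all _ fun g => ?_)
  simp only
  rw [← Real.exp_sum, Finset.mul_sum]

lemma Dom.integrable {f : (ι → ℝ) → ℝ} (hf : Dom f) : Integrable f (gpi ι) := by
  obtain ⟨C, c, hC, hc, hb⟩ := hf.bound
  exact Integrable.mono' ((integrable_exp_sum c).const_mul C) hf.cont.aestronglyMeasurable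
    (ae_of_all _ fun g => by rw [Real.norm_eq_abs]; exact hb g)

lemma int_add {f h : (ι → ℝ) → ℝ} (hf : Dom f) (hh : Dom h) :
    ∫ g, (f g + h g) ∂(gpi ι) = ∫ g, f g ∂(gpi ι) + ∫ g, h g ∂(gpi ι) :=
  integral_add hf.integrable hh.integrable

lemma int_sub {f h : (ι → ℝ) → ℝ} (hf : Dom f) (hh : Dom h) :
    ∫ g, (f g - h g) ∂(gpi ι) = ∫ g, f g ∂(gpi ι) - ∫ g, h g ∂(gpi ι) :=
  integral_sub hf.integrable hh.integrable

lemma int_mono {f h : (ι → ℝ) → ℝ} (hf : Dom f) (hh : Dom h) (hle : ∀ g, f g ≤ h g) :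
    ∫ g, f g ∂(gpi ι) ≤ ∫ g, h g ∂(gpi ι) :=
  integral_mono hf.integrable hh.integrable hle

lemma int_sum {κ : Type*} (s : Finset κ) {f : κ → (ι → ℝ) → ℝ} (hf : ∀ k ∈ s, Dom (f k)) :
    ∫ g, (∑ k ∈ s, f k g) ∂(gpi ι) = ∑ k ∈ s, ∫ g, f k g ∂(gpi ι) :=
  integral_finsetSum _ fun k hk => (hf k hk).integrable

lemma int_comb {κ : Type*} (s : Finset κ) {f1 f2 f4 : (ι → ℝ) → ℝ} {f3 : κ → (ι → ℝ) → ℝ}
    (h1 : Dom f1) (h2 : Dom f2) (h3 : ∀ k, Dom (f3 k)) (h4 : Dom f4) (a b : ℝ) :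
    ∫ g, a * (f1 g + f2 g + ∑ k ∈ s, f3 k g - b * f4 g) ∂(gpi ι)
      = a * (∫ g, f1 g ∂(gpi ι) + ∫ g, f2 g ∂(gpi ι) + ∑ k ∈ s, ∫ g, f3 k g ∂(gpi ι)
        - b * ∫ g, f4 g ∂(gpi ι)) := by
  have hs : Dom (fun g => ∑ k ∈ s, f3 k g) := Dom.sum s fun k _ => h3 k
  rw [integral_const_mul, int_sub ((h1.add h2).add hs) (h4.const_mul b),
    int_add (h1.add h2) hs, int_add h1 h2, int_sum s fun k _ => h3 k, integral_const_mul]

variable [DecidableEq ι]

omit [Fintype ι] in
lemma measurable_upd (e : ι) :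
    Measurable (fun p : (ι → ℝ) × ℝ => Function.update p.1 e p.2) := by
  refine measurable_pi_lambda _ fun i => ?_
  by_cases h : i = e
  · subst h; simpa using measurable_snd
  · simp only [Function.update_of_ne h]
    exact (measurable_pi_apply i).comp measurable_fst

lemma measurePreserving_upd (e : ι) :
    MeasurePreserving (fun p : (ι → ℝ) × ℝ => Function.update p.1 e p.2)
      ((gpi ι).prod (gaussianReal 0 1)) (gpi ι) := by
  refine ⟨measurable_upd e, ?_⟩
  unfold gpi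
  symm
  refine Measure.pi_eq fun s hs => ?_
  rw [Measure.map_apply (measurable_upd e) (MeasurableSet.univ_pi hs)]
  have hpre : (fun p : (ι → ℝ) × ℝ => Function.update p.1 e p.2) ⁻¹' (Set.univ.pi s)
      = (Set.univ.pi (Function.update s e Set.univ)) ×ˢ (s e) := by
    ext p
    simp only [Set.mem_preimage, Set.mem_univ_pi, Set.mem_prod]
    constructor
    · intro h
      refine ⟨fun i => ?_, ?_⟩
      · by_cases hi : i = e
        · subst hi; simp
        · have := h i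
          rw [Function.update_of_ne hi] at this
          rw [Function.update_of_ne hi]; exact this
      · have := h e; simpa using this
    · rintro ⟨h1, h2⟩ i
      by_cases hi : i = e
      · subst hi; simpa using h2
      · have := h1 i
        rw [Function.update_of_ne hi] at this
        rw [Function.update_of_ne hi]; exact this
  rw [hpre, Measure.prod_prod, Measure.pi_pi]
  have h3 : (∏ i, (gaussianReal 0 1) (Function.update s e Set.univ i))
      = ∏ i ∈ Finset.univ.erase e, (gaussianReal 0 1) (s i) := by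
    rw [← Finset.mul_prod_erase Finset.univ _ (Finset.mem_univ e)]
    simp only [Function.update_self, measure_univ, one_mul]
    refine Finset.prod_congr rfl fun i hi => ?_
    rw [Function.update_of_ne (Finset.ne_of_mem_erase hi)]
  rw [h3, mul_comm]
  exact Finset.mul_prod_erase Finset.univ (fun i => (gaussianReal 0 1) (s i))
    (Finset.mem_univ e)

lemma integral_upd (e : ι) {G : (ι → ℝ) → ℝ} (hG : Integrable G (gpi ι)) :
    ∫ g, G g ∂(gpi ι) = ∫ g, (∫ t, G (Function.update g e t) ∂(gaussianReal 0 1)) ∂(gpi ι) := by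
  have hmp := measurePreserving_upd (ι := ι) e
  have h1 : ∫ g, G g ∂(gpi ι)
      = ∫ p : (ι → ℝ) × ℝ, G (Function.update p.1 e p.2) ∂((gpi ι).prod (gaussianReal 0 1)) := by
    conv_lhs => rw [← hmp.map_eq]
    rw [integral_map hmp.measurable.aemeasurable]
    rw [hmp.map_eq]; exact hG.aestronglyMeasurable
  rw [h1]
  refine integral_prod _ ?_
  exact hmp.integrable_comp_of_integrable hG

/-- Gaussian integration by parts in the coordinate `e`. -/
lemma ibp (e : ι) {Φ Φ' : (ι → ℝ) → ℝ} (hΦ : Dom Φ) (hΦ' : Dom Φ')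
    (hd : ∀ g t, HasDerivAt (fun t => Φ (Function.update g e t))
      (Φ' (Function.update g e t)) t) :
    ∫ g, g e * Φ g ∂(gpi ι) = ∫ g, Φ' g ∂(gpi ι) := by
  rw [integral_upd e ((Dom.coord e).mul hΦ).integrable, integral_upd e hΦ'.integrable]
  congr 1
  ext g
  simp only [Function.update_self]
  obtain ⟨C, c, hC, hc, hb⟩ := hΦ.bound
  obtain ⟨C', c', hC', hc', hb'⟩ := hΦ'.bound
  set M : ℝ := Real.exp (max c c' * ∑ i, |g i|) with hM
  have hs : ∀ t, ∑ i, |Function.update g e t i| ≤ ∑ i, |g i| + |t| := by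
    intro t
    have h1 : ∑ i, |Function.update g e t i|
        = |t| + ∑ i ∈ Finset.univ.erase e, |g i| := by
      rw [← Finset.add_sum_erase Finset.univ _ (Finset.mem_univ e)]
      simp only [Function.update_self]
      congr 1
      refine Finset.sum_congr rfl fun i hi => ?_
      rw [Function.update_of_ne (Finset.ne_of_mem_erase hi)]
    have h2 : ∑ i ∈ Finset.univ.erase e, |g i| ≤ ∑ i, |g i| :=
      Finset.sum_le_sum_of_subset_of_nonneg (Finset.erase_subset _ _)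
        fun i _ _ => abs_nonneg _
    rw [h1]; linarith
  have hcont : Continuous fun t : ℝ => Φ' (Function.update g e t) :=
    hΦ'.cont.comp (continuous_const.update e continuous_id)
  refine stein (fun t => Φ (Function.update g e t)) (fun t => Φ' (Function.update g e t))
    (fun t => hd g t) hcont (max C C' * M) (max c c') (fun t => ?_) (fun t => ?_)
  · calc |Φ (Function.update g e t)|
        ≤ C * Real.exp (c * ∑ i, |Function.update g e t i|) := hb _
      _ ≤ max C C' * Real.exp (max c c' * (∑ i, |g i| + |t|)) := by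
          have := sum_abs_nonneg (Function.update g e t)
          have h5 := hs t
          have hm : (0 : ℝ) ≤ max c c' := le_max_of_le_left hc
          gcongr
          · exact le_max_left _ _
          · exact le_max_left _ _
      _ = max C C' * M * Real.exp (max c c' * |t|) := by
          rw [mul_add, Real.exp_add, hM]; ring
  · calc |Φ' (Function.update g e t)|
        ≤ C' * Real.exp (c' * ∑ i, |Function.update g e t i|) := hb' _
      _ ≤ max C C' * Real.exp (max c c' * (∑ i, |g i| + |t|)) := by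
          have := sum_abs_nonneg (Function.update g e t)
          have h5 := hs t
          have hm : (0 : ℝ) ≤ max c c' := le_max_of_le_left hc
          gcongr
          · exact le_max_right _ _
          · exact le_max_right _ _
      _ = max C C' * M * Real.exp (max c c' * |t|) := by
          rw [mul_add, Real.exp_add, hM]; ring

end MultiDim

end Vale.Agent.P146
end

section

open MeasureTheory ProbabilityTheory

namespace Vale.Agent.P146

variable {ι S : Type*} [Fintype ι] [Fintype S]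

/-- Boltzmann weights with linear part `a` and constant part `c`. -/
noncomputable def wt (a : S → ι → ℝ) (c : S → ℝ) (g : ι → ℝ) (s : S) : ℝ :=
  Real.exp (∑ i, a s i * g i + c s)

noncomputable def zz (a : S → ι → ℝ) (c : S → ℝ) (g : ι → ℝ) : ℝ := ∑ s, wt a c g s

/-- Gibbs average. -/
noncomputable def gav (a : S → ι → ℝ) (c : S → ℝ) (f : S → ℝ) (g : ι → ℝ) : ℝ :=
  (∑ s, f s * wt a c g s) / zz a c g

section basics

variable (a : S → ι → ℝ) (c : S → ℝ)

lemma wt_pos (g : ι → ℝ) (s : S) : 0 < wt a c g s := Real.exp_pos _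

lemma zz_pos [Nonempty S] (g : ι → ℝ) : 0 < zz a c g :=
  Finset.sum_pos (fun s _ => wt_pos a c g s) Finset.univ_nonempty

lemma wt_cont (s : S) : Continuous fun g => wt a c g s := by
  unfold wt; fun_prop

lemma zz_cont : Continuous fun g => zz a c g := by
  unfold zz
  exact continuous_finsetSum _ fun s _ => wt_cont a c s

lemma gav_cont [Nonempty S] (f : S → ℝ) : Continuous fun g => gav a c f g := by
  unfold gav
  refine Continuous.div ?_ (zz_cont a c) fun g => (zz_pos a c g).ne'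
  exact continuous_finsetSum _ fun s _ => (wt_cont a c s).const_mul _

lemma abs_gav_le [Nonempty S] {f : S → ℝ} {B : ℝ} (hf : ∀ s, |f s| ≤ B) (g : ι → ℝ) :
    |gav a c f g| ≤ B := by
  unfold gav
  rw [abs_div, abs_of_pos (zz_pos a c g), div_le_iff₀ (zz_pos a c g)]
  calc |∑ s, f s * wt a c g s| ≤ ∑ s, |f s * wt a c g s| := Finset.abs_sum_le_sum_abs _ _
    _ ≤ ∑ s, B * wt a c g s := by
        refine Finset.sum_le_sum fun s _ => ?_
        rw [abs_mul, abs_of_pos (wt_pos a c g s)]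
        exact mul_le_mul_of_nonneg_right (hf s) (wt_pos a c g s).le
    _ = B * zz a c g := by rw [zz, Finset.mul_sum]

lemma gav_mono [Nonempty S] {f h : S → ℝ} (hf : ∀ s, f s ≤ h s) (g : ι → ℝ) :
    gav a c f g ≤ gav a c h g := by
  unfold gav
  refine div_le_div_of_nonneg_right ?_ (zz_pos a c g).le
  exact Finset.sum_le_sum fun s _ => mul_le_mul_of_nonneg_right (hf s) (wt_pos a c g s).le

lemma gav_nonneg [Nonempty S] {f : S → ℝ} (hf : ∀ s, 0 ≤ f s) (g : ι → ℝ) :
    0 ≤ gav a c f g := by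
  unfold gav
  exact div_nonneg (Finset.sum_nonneg fun s _ => mul_nonneg (hf s) (wt_pos a c g s).le)
    (zz_pos a c g).le

lemma gav_const [Nonempty S] (b : ℝ) (g : ι → ℝ) : gav a c (fun _ => b) g = b := by
  unfold gav
  rw [← Finset.mul_sum, ← zz, mul_div_assoc, div_self (zz_pos a c g).ne', mul_one]

lemma gav_add (f h : S → ℝ) (g : ι → ℝ) :
    gav a c (fun s => f s + h s) g = gav a c f g + gav a c h g := by
  unfold gav
  rw [← add_div, ← Finset.sum_add_distrib]
  congr 1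
  exact Finset.sum_congr rfl fun s _ => by ring

lemma gav_sub (f h : S → ℝ) (g : ι → ℝ) :
    gav a c (fun s => f s - h s) g = gav a c f g - gav a c h g := by
  unfold gav
  rw [← sub_div, ← Finset.sum_sub_distrib]
  congr 1
  exact Finset.sum_congr rfl fun s _ => by ring

lemma gav_const_mul (b : ℝ) (f : S → ℝ) (g : ι → ℝ) :
    gav a c (fun s => b * f s) g = b * gav a c f g := by
  unfold gav
  rw [← mul_div_assoc, Finset.mul_sum]
  congr 1
  exact Finset.sum_congr rfl fun s _ => by ring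

lemma gav_sum {κ : Type*} (t : Finset κ) (f : κ → S → ℝ) (g : ι → ℝ) :
    gav a c (fun s => ∑ k ∈ t, f k s) g = ∑ k ∈ t, gav a c (f k) g := by
  unfold gav
  rw [← Finset.sum_div]
  congr 1
  rw [Finset.sum_comm]
  exact Finset.sum_congr rfl fun s _ => by rw [Finset.sum_mul]

lemma gav_dom [Nonempty S] (f : S → ℝ) : Dom (fun g => gav a c f g) := by
  have hb : ∀ s, |f s| ≤ ∑ s, |f s| := fun s =>
    Finset.single_le_sum (f := fun s => |f s|) (fun i _ => abs_nonneg _) (Finset.mem_univ s)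
  exact Dom.of_bounded (gav_cont a c f) (∑ s, |f s|) (fun g => abs_gav_le a c hb g)

lemma exponent_bound (g : ι → ℝ) (s : S) :
    |∑ i, a s i * g i + c s| ≤ (∑ s, ∑ i, |a s i|) * ∑ i, |g i| + ∑ s, |c s| := by
  have hA : ∀ i, |a s i| ≤ ∑ s, ∑ i, |a s i| := fun i => by
    calc |a s i| ≤ ∑ i, |a s i| := Finset.single_le_sum (f := fun i => |a s i|)
          (fun i _ => abs_nonneg _) (Finset.mem_univ i)
      _ ≤ ∑ s, ∑ i, |a s i| := Finset.single_le_sum (f := fun s => ∑ i, |a s i|)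
          (fun i _ => Finset.sum_nonneg fun _ _ => abs_nonneg _) (Finset.mem_univ s)
  have hc : |c s| ≤ ∑ s, |c s| := Finset.single_le_sum (f := fun s => |c s|)
    (fun i _ => abs_nonneg _) (Finset.mem_univ s)
  calc |∑ i, a s i * g i + c s| ≤ |∑ i, a s i * g i| + |c s| := abs_add_le _ _
    _ ≤ ∑ i, |a s i * g i| + |c s| := by gcongr; exact Finset.abs_sum_le_sum_abs _ _
    _ ≤ ∑ i, (∑ s, ∑ i, |a s i|) * |g i| + ∑ s, |c s| := by
        gcongr with i
        rw [abs_mul]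
        exact mul_le_mul_of_nonneg_right (hA i) (abs_nonneg _)
    _ = _ := by rw [Finset.mul_sum]

lemma log_zz_bound [Nonempty S] (g : ι → ℝ) :
    |Real.log (zz a c g)| ≤ (∑ s, ∑ i, |a s i|) * ∑ i, |g i| + ∑ s, |c s|
      + Real.log (Fintype.card S) := by
  set E := (∑ s, ∑ i, |a s i|) * ∑ i, |g i| + ∑ s, |c s| with hE
  have hcard : (1 : ℝ) ≤ Fintype.card S := by
    exact_mod_cast Fintype.card_pos
  have hup : zz a c g ≤ Fintype.card S * Real.exp E := by
    unfold zz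
    calc ∑ s, wt a c g s ≤ ∑ _s : S, Real.exp E := by
          refine Finset.sum_le_sum fun s _ => Real.exp_le_exp.2 ?_
          exact (le_abs_self _).trans (exponent_bound a c g s)
      _ = Fintype.card S * Real.exp E := by simp
  obtain ⟨s0⟩ := (inferInstance : Nonempty S)
  have hlow : Real.exp (-E) ≤ zz a c g := by
    calc Real.exp (-E) ≤ wt a c g s0 := by
          refine Real.exp_le_exp.2 ?_
          exact (neg_le_neg (exponent_bound a c g s0)).trans (neg_abs_le _)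
      _ ≤ zz a c g := Finset.single_le_sum (f := fun s => wt a c g s)
          (fun s _ => (wt_pos a c g s).le) (Finset.mem_univ s0)
  have hl0 : 0 ≤ Real.log (Fintype.card S : ℝ) := Real.log_nonneg hcard
  rw [abs_le]
  constructor
  · have := Real.log_le_log (Real.exp_pos _) hlow
    rw [Real.log_exp] at this
    linarith
  · have := Real.log_le_log (zz_pos a c g) hup
    rw [Real.log_mul (by positivity) (Real.exp_pos _).ne', Real.log_exp] at this
    linarith

lemma log_zz_cont [Nonempty S] : Continuous fun g => Real.log (zz a c g) :=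
  (zz_cont a c).log fun g => (zz_pos a c g).ne'

lemma log_zz_dom [Nonempty S] : Dom (fun g => Real.log (zz a c g)) := by
  set A := ∑ s, ∑ i, |a s i| with hA
  have hA0 : 0 ≤ A := Finset.sum_nonneg fun _ _ => Finset.sum_nonneg fun _ _ => abs_nonneg _
  set B := ∑ s, |c s| + Real.log (Fintype.card S) with hB
  have hB0 : 0 ≤ B := by
    have h1 : (0 : ℝ) ≤ ∑ s, |c s| := Finset.sum_nonneg fun _ _ => abs_nonneg _
    have h2 : 0 ≤ Real.log (Fintype.card S : ℝ) :=
      Real.log_nonneg (by exact_mod_cast Fintype.card_pos)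
    linarith
  refine ⟨log_zz_cont a c, A + B, 1, by (clear * -; positivity), zero_le_one, fun g => ?_⟩
  have h := log_zz_bound a c g
  have h0 := sum_abs_nonneg g
  have h1 := Real.add_one_le_exp (∑ i, |g i|)
  have h2 : (∑ i, |g i|) ≤ Real.exp (∑ i, |g i|) := by linarith
  have h3 : 1 ≤ Real.exp (∑ i, |g i|) := by linarith
  calc |Real.log (zz a c g)| ≤ A * (∑ i, |g i|) + B := by rw [hB]; linarith
    _ ≤ A * Real.exp (∑ i, |g i|) + B * Real.exp (∑ i, |g i|) := by
        gcongr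
        exact le_mul_of_one_le_right hB0 h3
    _ = (A + B) * Real.exp (1 * ∑ i, |g i|) := by rw [one_mul]; ring

end basics

section deriv

variable [DecidableEq ι] (a : S → ι → ℝ) (c : S → ℝ)

lemma hasDerivAt_exponent (g : ι → ℝ) (e : ι) (s : S) (t : ℝ) :
    HasDerivAt (fun t => ∑ i, a s i * Function.update g e t i + c s) (a s e) t := by
  have h : ∀ i ∈ Finset.univ, HasDerivAt (fun t => a s i * Function.update g e t i)
      (a s i * (Pi.single e (1 : ℝ) : ι → ℝ) i) t := by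
    intro i _
    refine HasDerivAt.const_mul _ ?_
    have := hasDerivAt_update g e t
    exact (hasDerivAt_pi.1 this) i
  have h2 := (HasDerivAt.fun_sum h).add_const (c s)
  refine h2.congr_deriv ?_
  rw [Finset.sum_eq_single e]
  · simp
  · intro i _ hi; simp [Pi.single_eq_of_ne hi]
  · intro h; exact absurd (Finset.mem_univ e) h

lemma hasDerivAt_wt (g : ι → ℝ) (e : ι) (s : S) (t : ℝ) :
    HasDerivAt (fun t => wt a c (Function.update g e t) s)
      (a s e * wt a c (Function.update g e t) s) t := by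
  have := (hasDerivAt_exponent a c g e s t).exp
  refine this.congr_deriv ?_
  unfold wt; ring

lemma hasDerivAt_num (f : S → ℝ) (g : ι → ℝ) (e : ι) (t : ℝ) :
    HasDerivAt (fun t => ∑ s, f s * wt a c (Function.update g e t) s)
      (∑ s, f s * a s e * wt a c (Function.update g e t) s) t := by
  have h : ∀ s ∈ Finset.univ, HasDerivAt (fun t => f s * wt a c (Function.update g e t) s)
      (f s * a s e * wt a c (Function.update g e t) s) t := by
    intro s _
    refine ((hasDerivAt_wt a c g e s t).const_mul (f s)).congr_deriv ?_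
    ring
  exact HasDerivAt.fun_sum h

lemma hasDerivAt_zz (g : ι → ℝ) (e : ι) (t : ℝ) :
    HasDerivAt (fun t => zz a c (Function.update g e t))
      (∑ s, a s e * wt a c (Function.update g e t) s) t := by
  have := hasDerivAt_num a c (fun _ => 1) g e t
  simpa [zz] using this

lemma hasDerivAt_log_zz [Nonempty S] (g : ι → ℝ) (e : ι) (t : ℝ) :
    HasDerivAt (fun t => Real.log (zz a c (Function.update g e t)))
      (gav a c (fun s => a s e) (Function.update g e t)) t := by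
  exact (hasDerivAt_zz a c g e t).log (zz_pos a c _).ne'

lemma hasDerivAt_gav [Nonempty S] (f : S → ℝ) (g : ι → ℝ) (e : ι) (t : ℝ) :
    HasDerivAt (fun t => gav a c f (Function.update g e t))
      (gav a c (fun s => f s * a s e) (Function.update g e t)
        - gav a c f (Function.update g e t)
          * gav a c (fun s => a s e) (Function.update g e t)) t := by
  have h := (hasDerivAt_num a c f g e t).fun_div (hasDerivAt_zz a c g e t)
    (zz_pos a c (Function.update g e t)).ne'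
  refine h.congr_deriv ?_
  unfold gav
  have hz := (zz_pos a c (Function.update g e t)).ne'
  field_simp

end deriv

end Vale.Agent.P146
end

section

/-! Selection of the parameters: the deterministic part. -/

open MeasureTheory Filter Topology

namespace Vale.Agent.P157.Par

/-- A step function is integrable on bounded intervals. -/
lemma floor_intervalIntegrable (g : ℕ → ℝ) (a b : ℝ) :
    IntervalIntegrable (fun t : ℝ => g ⌊t⌋₊) volume a b := by
  rw [intervalIntegrable_iff]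
  refine Measure.integrableOn_of_bounded (M := ∑ k ∈ Finset.range (⌊max a b⌋₊ + 1), |g k|)
    (by rw [Set.uIoc, Real.volume_Ioc]; exact ENNReal.ofReal_ne_top)
    ((measurable_from_nat (f := g)).comp Nat.measurable_floor).aestronglyMeasurable ?_
  refine (ae_restrict_iff' measurableSet_uIoc).2 (Filter.Eventually.of_forall fun t ht => ?_)
  rw [Real.norm_eq_abs]
  have h1 : ⌊t⌋₊ ≤ ⌊max a b⌋₊ := Nat.floor_le_floor ht.2
  exact Finset.single_le_sum (f := fun k => |g k|) (fun k _ => abs_nonneg _)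
    (Finset.mem_range.2 (by omega))

lemma floor_intervalIntegrable_add (g : ℕ → ℝ) (y a b : ℝ) :
    IntervalIntegrable (fun t : ℝ => g ⌊y + t⌋₊) volume a b := by
  have h := (floor_intervalIntegrable g (y + a) (y + b)).comp_add_left y
  simpa using h

lemma abs_sub_le_of_step {g : ℕ → ℝ} {C : ℝ} (hg : ∀ m, |g (m + 1) - g m| ≤ C) (m n : ℕ) :
    |g m - g n| ≤ C * |(m : ℝ) - n| := by
  have key : ∀ (n k : ℕ), |g (n + k) - g n| ≤ C * k := by
    intro n k
    induction k with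
    | zero => simp
    | succ k ih =>
      have h1 := hg (n + k)
      have h2 := abs_sub_le (g (n + k + 1)) (g (n + k)) (g n)
      push_cast
      rw [← add_assoc]
      linarith
  rcases le_total n m with h | h
  · obtain ⟨k, rfl⟩ := Nat.exists_eq_add_of_le h
    have h1 := key n k
    have h2 : |((n + k : ℕ) : ℝ) - n| = k := by push_cast; simp
    rw [h2]; exact h1
  · obtain ⟨k, rfl⟩ := Nat.exists_eq_add_of_le h
    have h1 := key m k
    have h2 : |(m : ℝ) - ((m + k : ℕ) : ℝ)| = k := by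
      push_cast; rw [sub_add_cancel_left, abs_neg]; simp
    rw [h2, abs_sub_comm]; exact h1

lemma abs_floor_sub_le (t t' : ℝ) : |((⌊t⌋₊ : ℕ) : ℝ) - (⌊t'⌋₊ : ℕ)| ≤ |t - t'| + 1 := by
  have h : ∀ t t' : ℝ, ((⌊t⌋₊ : ℕ) : ℝ) - (⌊t'⌋₊ : ℕ) ≤ |t - t'| + 1 := by
    intro t t'
    have h1 := le_abs_self (t - t')
    have h2 := Nat.lt_floor_add_one t'
    have h3 : (0 : ℝ) ≤ ((⌊t'⌋₊ : ℕ) : ℝ) := Nat.cast_nonneg _
    have h4 := abs_nonneg (t - t')
    rcases le_total 0 t with ht | ht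
    · have h5 := Nat.floor_le ht
      linarith
    · rw [Nat.floor_of_nonpos ht, Nat.cast_zero]
      linarith
  refine abs_le.2 ⟨?_, h t t'⟩
  have := h t' t
  rw [abs_sub_comm] at this
  linarith

lemma abs_floor_step {g : ℕ → ℝ} {C : ℝ} (hC : 0 ≤ C) (hg : ∀ m, |g (m + 1) - g m| ≤ C)
    (t t' : ℝ) : |g ⌊t⌋₊ - g ⌊t'⌋₊| ≤ C * (|t - t'| + 1) :=
  (abs_sub_le_of_step hg _ _).trans (mul_le_mul_of_nonneg_left (abs_floor_sub_le t t') hC)

/-- A short integral of a step function. -/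
lemma short_integral {g : ℕ → ℝ} {C : ℝ} (hC : 0 ≤ C) (hg : ∀ m, |g (m + 1) - g m| ≤ C)
    {a b y r : ℝ} (hab : a ≤ b) (hr : ∀ t ∈ Set.Icc a b, |t - y| ≤ r) :
    |(∫ t in a..b, g ⌊t⌋₊) - (b - a) * g ⌊y⌋₊| ≤ (b - a) * (C * (r + 1)) := by
  have h1 : (∫ t in a..b, g ⌊t⌋₊) - (b - a) * g ⌊y⌋₊ = ∫ t in a..b, (g ⌊t⌋₊ - g ⌊y⌋₊) := by
    rw [intervalIntegral.integral_sub (floor_intervalIntegrable g a b)
      intervalIntegrable_const, intervalIntegral.integral_const, smul_eq_mul]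
  rw [h1]
  have h2 := intervalIntegral.norm_integral_le_of_norm_le_const (a := a) (b := b)
    (f := fun t => g ⌊t⌋₊ - g ⌊y⌋₊) (C := C * (r + 1)) (fun t ht => by
      rw [Set.uIoc_of_le hab] at ht
      rw [Real.norm_eq_abs]
      refine (abs_floor_step hC hg t y).trans (mul_le_mul_of_nonneg_left ?_ hC)
      have := hr t ⟨ht.1.le, ht.2⟩
      linarith)
  rw [Real.norm_eq_abs, abs_of_nonneg (sub_nonneg.2 hab)] at h2
  linarith

/-- Shifting the window by `α` costs `α` times the window average of the unit increments. -/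
lemma window_shift {g : ℕ → ℝ} {C : ℝ} (hC : 0 ≤ C) (hg : ∀ m, |g (m + 1) - g m| ≤ C)
    {α x L : ℝ} (hα : 0 < α) :
    α * (∫ θ in (0 : ℝ)..L, (g ⌊x + α + θ⌋₊ - g (⌊x + α + θ⌋₊ - 1))) -
        2 * α * C * (2 * α + 3) ≤
      ∫ θ in (0 : ℝ)..L, (g ⌊x + α + θ⌋₊ - g ⌊x + θ⌋₊) := by
  have e1 : ∫ θ in (0 : ℝ)..L, (g ⌊x + α + θ⌋₊ - g ⌊x + θ⌋₊) =
      (∫ t in (x + L)..(x + L + α), g ⌊t⌋₊) - ∫ t in x..(x + α), g ⌊t⌋₊ := by
    rw [intervalIntegral.integral_sub (floor_intervalIntegrable_add g _ _ _)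
      (floor_intervalIntegrable_add g _ _ _)]
    rw [intervalIntegral.integral_comp_add_left (fun t => g ⌊t⌋₊),
      intervalIntegral.integral_comp_add_left (fun t => g ⌊t⌋₊)]
    have h1 := intervalIntegral.integral_add_adjacent_intervals
      (floor_intervalIntegrable g (x + 0) (x + α)) (floor_intervalIntegrable g (x + α) (x + L + α))
    have h2 := intervalIntegral.integral_add_adjacent_intervals
      (floor_intervalIntegrable g (x + 0) (x + L)) (floor_intervalIntegrable g (x + L) (x + L + α))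
    have h3 : x + α + L = x + L + α := by ring
    simp only [add_zero] at h1 h2 ⊢
    rw [h3]
    linarith
  have e2 : ∫ θ in (0 : ℝ)..L, (g ⌊x + α + θ⌋₊ - g (⌊x + α + θ⌋₊ - 1)) =
      (∫ t in (x + α + L - 1)..(x + α + L), g ⌊t⌋₊) - ∫ t in (x + α - 1)..(x + α), g ⌊t⌋₊ := by
    have h0 : ∀ θ : ℝ, g (⌊x + α + θ⌋₊ - 1) = g ⌊(x + α - 1) + θ⌋₊ := by
      intro θ
      rw [← Nat.floor_sub_one]
      congr 2
      ring
    simp only [h0]
    rw [intervalIntegral.integral_sub (floor_intervalIntegrable_add g _ _ _)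
      (floor_intervalIntegrable_add g _ _ _)]
    rw [intervalIntegral.integral_comp_add_left (fun t => g ⌊t⌋₊),
      intervalIntegral.integral_comp_add_left (fun t => g ⌊t⌋₊)]
    have h1 := intervalIntegral.integral_add_adjacent_intervals
      (floor_intervalIntegrable g (x + α - 1) (x + α))
      (floor_intervalIntegrable g (x + α) (x + α + L))
    have h2 := intervalIntegral.integral_add_adjacent_intervals
      (floor_intervalIntegrable g (x + α - 1) (x + α + L - 1))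
      (floor_intervalIntegrable g (x + α + L - 1) (x + α + L))
    have h3 : x + α - 1 + L = x + α + L - 1 := by ring
    simp only [add_zero]
    rw [h3]
    linarith
  rw [e1, e2]
  have b1 := short_integral hC hg (a := x + L) (b := x + L + α) (y := x + L) (r := α)
    (by linarith) (fun t ht => by
      rw [abs_of_nonneg (by linarith [ht.1])]; linarith [ht.2])
  have b2 := short_integral hC hg (a := x) (b := x + α) (y := x) (r := α)
    (by linarith) (fun t ht => by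
      rw [abs_of_nonneg (by linarith [ht.1])]; linarith [ht.2])
  have b3 := short_integral hC hg (a := x + α + L - 1) (b := x + α + L) (y := x + L)
    (r := α + 1) (by linarith) (fun t ht => by
      rw [abs_le]; constructor <;> linarith [ht.1, ht.2])
  have b4 := short_integral hC hg (a := x + α - 1) (b := x + α) (y := x)
    (r := α + 1) (by linarith) (fun t ht => by
      rw [abs_le]; constructor <;> linarith [ht.1, ht.2])
  have s1 : x + L + α - (x + L) = α := by ring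
  have s2 : x + α - x = α := by ring
  have s3 : x + α + L - (x + α + L - 1) = 1 := by ring
  have s4 : x + α - (x + α - 1) = 1 := by ring
  rw [s1] at b1
  rw [s2] at b2
  rw [s3] at b3
  rw [s4] at b4
  rw [abs_le] at b1 b2 b3 b4
  have b5 : (∫ t in (x + α + L - 1)..(x + α + L), g ⌊t⌋₊) -
      (∫ t in (x + α - 1)..(x + α), g ⌊t⌋₊) ≤
      g ⌊x + L⌋₊ - g ⌊x⌋₊ + 2 * (C * (α + 1 + 1)) := by
    linarith [b3.2, b4.1]
  have b6 := mul_le_mul_of_nonneg_left b5 hα.le
  have b7 : α * (g ⌊x + L⌋₊ - g ⌊x⌋₊) - 2 * (α * (C * (α + 1))) ≤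
      (∫ t in (x + L)..(x + L + α), g ⌊t⌋₊) - ∫ t in x..(x + α), g ⌊t⌋₊ := by
    have := b1.1
    have := b2.2
    linarith only [b1, b2]
  linarith only [b1, b2, b6]

/-- If a sequence is close to `(N + 1) m (N + 1)` and `m` is frequently less than `p + ε`, then
its increments are frequently at most `p + ε`. -/
lemma frequently_increment_le {A m κ : ℕ → ℝ} {p : ℝ}
    (hA : ∀ N, |A N - ((N : ℝ) + 1) * m (N + 1)| ≤ κ N)
    (hκ : Tendsto (fun N : ℕ => κ N / ((N : ℝ) + 1)) atTop (𝓝 0))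
    (hp : ∀ ε > 0, ∃ᶠ N in atTop, m N < p + ε) {ε : ℝ} (hε : 0 < ε) (N₀ : ℕ) :
    ∃ N, N₀ ≤ N ∧ A (N + 1) - A N ≤ p + ε := by
  by_contra hcon
  push Not at hcon
  have h1 : ∀ k : ℕ, A N₀ + k * (p + ε) ≤ A (N₀ + k) := by
    intro k
    induction k with
    | zero => simp
    | succ k ih =>
      have := hcon (N₀ + k) (by omega)
      push_cast
      rw [← add_assoc]
      linarith
  -- lower bound for `m`
  have h2 : ∀ k : ℕ, (A N₀ + k * (p + ε) - κ (N₀ + k)) / (((N₀ + k : ℕ) : ℝ) + 1) ≤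
      m (N₀ + k + 1) := by
    intro k
    have hpos : (0 : ℝ) < ((N₀ + k : ℕ) : ℝ) + 1 := by positivity
    rw [div_le_iff₀ hpos]
    have h3 := (abs_le.1 (hA (N₀ + k))).2
    have h4 := h1 k
    linarith
  have h3 : Tendsto (fun k : ℕ => (A N₀ + k * (p + ε) - κ (N₀ + k)) /
      (((N₀ + k : ℕ) : ℝ) + 1)) atTop (𝓝 (p + ε)) := by
    have t1 : Tendsto (fun k : ℕ => (A N₀ - (N₀ + 1) * (p + ε)) * (1 / (((N₀ + k : ℕ) : ℝ) + 1)))
        atTop (𝓝 ((A N₀ - (N₀ + 1) * (p + ε)) * 0)) := by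
      refine Tendsto.const_mul _ ?_
      have := tendsto_one_div_add_atTop_nhds_zero_nat (𝕜 := ℝ)
      exact this.comp (tendsto_add_atTop_nat N₀ |>.congr fun k => by ring)
    have t2 : Tendsto (fun k : ℕ => κ (N₀ + k) / (((N₀ + k : ℕ) : ℝ) + 1)) atTop (𝓝 0) :=
      hκ.comp (tendsto_add_atTop_nat N₀ |>.congr fun k => by ring)
    have t3 := (t1.sub t2).add_const (p + ε)
    rw [mul_zero, sub_zero, zero_add] at t3
    refine t3.congr fun k => ?_
    have hpos : (((N₀ + k : ℕ) : ℝ) + 1) ≠ 0 := by positivity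
    field_simp
    push_cast
    ring
  have h4 : ∀ᶠ k : ℕ in atTop, p + ε / 2 < m (N₀ + k + 1) := by
    filter_upwards [h3.eventually (lt_mem_nhds (show p + ε / 2 < p + ε by linarith))] with k hk
    exact hk.trans_le (h2 k)
  obtain ⟨k₀, hk₀⟩ := eventually_atTop.1 h4
  obtain ⟨N, hN, hmN⟩ := (frequently_atTop.1 (hp (ε / 2) (by linarith))) (N₀ + k₀ + 1)
  have := hk₀ (N - N₀ - 1) (by omega)
  have e : N₀ + (N - N₀ - 1) + 1 = N := by omega
  rw [e] at this
  linarith only [hmN, this]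

/-- The window average. -/
noncomputable def wav (L : ℝ) (g : ℕ → ℝ) (x : ℝ) : ℝ :=
  1 / L * ∫ θ in (0 : ℝ)..L, g ⌊x + θ⌋₊

lemma wav_close {g : ℕ → ℝ} {C : ℝ} (hC : 0 ≤ C) (hg : ∀ m, |g (m + 1) - g m| ≤ C)
    {x L : ℝ} (hL : 1 ≤ L) : |wav L g x - g ⌊x⌋₊| ≤ C * (L + 1) := by
  have hL0 : 0 < L := by linarith
  have h := short_integral hC hg (a := x) (b := x + L) (y := x) (r := L) (by linarith)
    (fun t ht => by rw [abs_of_nonneg (by linarith [ht.1])]; linarith [ht.2])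
  unfold wav
  rw [intervalIntegral.integral_comp_add_left (fun t => g ⌊t⌋₊), add_zero]
  have s1 : x + L - x = L := by ring
  rw [s1] at h
  have e : 1 / L * (∫ t in x..(x + L), g ⌊t⌋₊) - g ⌊x⌋₊ =
      1 / L * ((∫ t in x..(x + L), g ⌊t⌋₊) - L * g ⌊x⌋₊) := by
    field_simp
  rw [e, abs_mul, abs_of_pos (by positivity : 0 < 1 / L)]
  calc 1 / L * |(∫ t in x..(x + L), g ⌊t⌋₊) - L * g ⌊x⌋₊|
      ≤ 1 / L * (L * (C * (L + 1))) := mul_le_mul_of_nonneg_left h (by positivity)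
    _ = C * (L + 1) := by field_simp

/-- The deterministic selection lemma: for a window length `L` large enough, the window averages
of spin increments plus `α` times pattern increments are frequently at most `p + ε`. -/
theorem window_selection {a c : ℕ → ℕ → ℝ} {C α p : ℝ} {m κ : ℕ → ℝ} (hC : 0 ≤ C) (hα : 0 < α)
    (ha : ∀ N M, |a N (M + 1) - a N M| ≤ C)
    (hc : ∀ N M, c N M ≤ a (N + 1) M - a N M)
    (hm : ∀ N : ℕ, |a N ⌊α * ((N + 1 : ℕ) : ℝ)⌋₊ - ((N : ℝ) + 1) * m (N + 1)| ≤ κ N)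
    (hκ : Tendsto (fun N : ℕ => κ N / ((N : ℝ) + 1)) atTop (𝓝 0))
    (hp : ∀ ε > 0, ∃ᶠ N in atTop, m N < p + ε) {ε : ℝ} (hε : 0 < ε) :
    ∃ L : ℝ, 1 ≤ L ∧ ∀ N₀ : ℕ, ∃ N, N₀ ≤ N ∧
      1 / L * (∫ θ in (0 : ℝ)..L, (c N ⌊α * ((N + 2 : ℕ) : ℝ) + θ⌋₊ +
        α * (a N ⌊α * ((N + 2 : ℕ) : ℝ) + θ⌋₊ - a N (⌊α * ((N + 2 : ℕ) : ℝ) + θ⌋₊ - 1)))) ≤
      p + ε := by
  set K : ℝ := 2 * α * C * (2 * α + 3) with hK
  have hK0 : 0 ≤ K := by positivity
  obtain ⟨L, hL1, hL2⟩ : ∃ L : ℝ, 1 ≤ L ∧ K / L ≤ ε / 2 := by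
    refine ⟨max 1 (2 * K / ε), le_max_left _ _, ?_⟩
    have h1 : (0 : ℝ) < max 1 (2 * K / ε) := lt_of_lt_of_le one_pos (le_max_left _ _)
    rw [div_le_iff₀ h1]
    have h2 : 2 * K / ε ≤ max 1 (2 * K / ε) := le_max_right _ _
    have h3 := mul_le_mul_of_nonneg_left h2 (show 0 ≤ ε / 2 by linarith)
    have h4 : ε / 2 * (2 * K / ε) = K := by field_simp
    linarith only [h3, h4]
  have hL0 : 0 < L := by linarith
  refine ⟨L, hL1, fun N₀ => ?_⟩
  obtain ⟨N, hN, hinc⟩ := frequently_increment_le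
    (A := fun N => wav L (a N) (α * ((N + 1 : ℕ) : ℝ))) (m := m)
    (κ := fun N => κ N + C * (L + 1)) (p := p) (fun N => by
      have h1 := wav_close hC (ha N) (x := α * ((N + 1 : ℕ) : ℝ)) hL1
      have h2 := hm N
      have h3 := abs_sub_le (wav L (a N) (α * ((N + 1 : ℕ) : ℝ)))
        (a N ⌊α * ((N + 1 : ℕ) : ℝ)⌋₊) (((N : ℝ) + 1) * m (N + 1))
      linarith) (by
      have t1 : Tendsto (fun N : ℕ => C * (L + 1) * (1 / ((N : ℝ) + 1))) atTop
          (𝓝 (C * (L + 1) * 0)) := tendsto_one_div_add_atTop_nhds_zero_nat.const_mul _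
      have t2 := hκ.add t1
      rw [mul_zero, add_zero] at t2
      refine t2.congr fun N => ?_
      have : ((N : ℝ) + 1) ≠ 0 := by positivity
      field_simp) hp (show 0 < ε / 2 by linarith) N₀
  refine ⟨N, hN, ?_⟩
  set x : ℝ := α * ((N + 1 : ℕ) : ℝ) with hx
  have hx' : α * ((N + 2 : ℕ) : ℝ) = x + α := by rw [hx]; push_cast; ring
  have hx'' : α * ((N + 1 + 1 : ℕ) : ℝ) = x + α := by rw [hx]; push_cast; ring
  simp only [hx''] at hinc
  rw [hx']
  have hw := window_shift hC (ha N) (x := x) (L := L) hα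
  -- splitting of the increment
  have i1 : ∀ (N : ℕ) (y : ℝ), IntervalIntegrable (fun t : ℝ => a N ⌊y + t⌋₊) volume 0 L :=
    fun N y => floor_intervalIntegrable_add (a N) y 0 L
  have i2 : IntervalIntegrable (fun t : ℝ => c N ⌊x + α + t⌋₊) volume 0 L :=
    floor_intervalIntegrable_add (c N) _ 0 L
  have i3 : IntervalIntegrable (fun t : ℝ => a N ⌊x + α + t⌋₊ - a N (⌊x + α + t⌋₊ - 1))
      volume 0 L :=
    floor_intervalIntegrable_add (fun k => a N k - a N (k - 1)) _ 0 L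
  have s1 : (∫ θ in (0 : ℝ)..L, c N ⌊x + α + θ⌋₊) ≤
      (∫ θ in (0 : ℝ)..L, a (N + 1) ⌊x + α + θ⌋₊) - ∫ θ in (0 : ℝ)..L, a N ⌊x + α + θ⌋₊ := by
    rw [← intervalIntegral.integral_sub (i1 _ _) (i1 _ _)]
    exact intervalIntegral.integral_mono_on hL0.le i2 ((i1 _ _).sub (i1 _ _))
      fun t _ => hc N _
  have s2 : (∫ θ in (0 : ℝ)..L, (a N ⌊x + α + θ⌋₊ - a N ⌊x + θ⌋₊)) =
      (∫ θ in (0 : ℝ)..L, a N ⌊x + α + θ⌋₊) - ∫ θ in (0 : ℝ)..L, a N ⌊x + θ⌋₊ :=
    intervalIntegral.integral_sub (i1 _ _) (i1 _ _)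
  rw [intervalIntegral.integral_add i2 (i3.const_mul α), intervalIntegral.integral_const_mul]
  rw [s2] at hw
  have h5 : 1 / L * ((∫ θ in (0 : ℝ)..L, c N ⌊x + α + θ⌋₊) +
      α * ∫ θ in (0 : ℝ)..L, (a N ⌊x + α + θ⌋₊ - a N (⌊x + α + θ⌋₊ - 1))) ≤
      1 / L * (((∫ θ in (0 : ℝ)..L, a (N + 1) ⌊x + α + θ⌋₊) -
        ∫ θ in (0 : ℝ)..L, a N ⌊x + θ⌋₊) + K) := by
    refine mul_le_mul_of_nonneg_left ?_ (by positivity)
    linarith only [s1, hw]
  refine h5.trans ?_
  have h6 : 1 / L * (((∫ θ in (0 : ℝ)..L, a (N + 1) ⌊x + α + θ⌋₊) -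
        ∫ θ in (0 : ℝ)..L, a N ⌊x + θ⌋₊) + K) =
      (wav L (a (N + 1)) (x + α) - wav L (a N) x) + K / L := by
    unfold wav
    ring
  rw [h6]
  linarith only [hinc, hL2]

/-- The deterministic selection lemma, with a single number `M` of patterns. -/
theorem window_selection' {a c : ℕ → ℕ → ℝ} {C α p : ℝ} {m κ : ℕ → ℝ} (hC : 0 ≤ C) (hα : 0 < α)
    (ha : ∀ N M, |a N (M + 1) - a N M| ≤ C)
    (hc : ∀ N M, c N M ≤ a (N + 1) M - a N M)
    (hm : ∀ N : ℕ, |a N ⌊α * ((N + 1 : ℕ) : ℝ)⌋₊ - ((N : ℝ) + 1) * m (N + 1)| ≤ κ N)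
    (hκ : Tendsto (fun N : ℕ => κ N / ((N : ℝ) + 1)) atTop (𝓝 0))
    (hp : ∀ ε > 0, ∃ᶠ N in atTop, m N < p + ε) {ε : ℝ} (hε : 0 < ε) :
    ∃ L : ℝ, 1 ≤ L ∧ ∀ N₀ : ℕ, ∃ N M : ℕ, N₀ ≤ N ∧ α * ((N : ℝ) + 2) - 1 ≤ M ∧
      (M : ℝ) ≤ α * ((N : ℝ) + 2) + L ∧
      c N M + α * (a N M - a N (M - 1)) ≤ p + 2 * ε := by
  obtain ⟨L, hL, h⟩ := window_selection hC hα ha hc hm hκ hp hε
  have hL0 : 0 < L := by linarith
  refine ⟨L, hL, fun N₀ => ?_⟩
  obtain ⟨N, hN, hint⟩ := h N₀
  by_contra hcon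
  push Not at hcon
  have hlow : ∀ θ ∈ Set.Icc (0 : ℝ) L, p + 2 * ε ≤ c N ⌊α * ((N + 2 : ℕ) : ℝ) + θ⌋₊ +
      α * (a N ⌊α * ((N + 2 : ℕ) : ℝ) + θ⌋₊ -
        a N (⌊α * ((N + 2 : ℕ) : ℝ) + θ⌋₊ - 1)) := by
    intro θ hθ
    have hpos : 0 ≤ α * ((N + 2 : ℕ) : ℝ) + θ := add_nonneg (by positivity) hθ.1
    have h1 := Nat.floor_le hpos
    have h2 := Nat.lt_floor_add_one (α * ((N + 2 : ℕ) : ℝ) + θ)
    push_cast at h1 h2 ⊢
    refine (hcon N _ hN ?_ ?_).le
    · linarith [hθ.1]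
    · linarith [hθ.2]
  have hi : IntervalIntegrable (fun θ : ℝ => c N ⌊α * ((N + 2 : ℕ) : ℝ) + θ⌋₊ +
      α * (a N ⌊α * ((N + 2 : ℕ) : ℝ) + θ⌋₊ -
        a N (⌊α * ((N + 2 : ℕ) : ℝ) + θ⌋₊ - 1))) volume 0 L :=
    floor_intervalIntegrable_add (fun k => c N k + α * (a N k - a N (k - 1))) _ 0 L
  have h3 := intervalIntegral.integral_mono_on hL0.le
    (intervalIntegrable_const (c := p + 2 * ε)) hi hlow
  rw [intervalIntegral.integral_const, smul_eq_mul, sub_zero] at h3
  have h4 := mul_le_mul_of_nonneg_left h3 (show 0 ≤ 1 / L by positivity)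
  have h5 : 1 / L * (L * (p + 2 * ε)) = p + 2 * ε := by field_simp
  linarith only [h5, h4, hint, hε]

end Vale.Agent.P157.Par
end

section

/-! A lower bound for the cavity form of the spin increment. -/

open MeasureTheory ProbabilityTheory Filter Topology

namespace Vale.Agent.P157.Par

open Vale.Agent.P367.GT (gM)

set_option linter.unusedSectionVars false

section Abstract

variable {X : Type} [Fintype X] [Nonempty X]

lemma logw_pos {w : X → ℝ} (hw : ∀ x, 0 ≤ w x) (hw1 : ∑ x, w x = 1) (E : X → ℝ) :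
    0 < ∑ x, w x * Real.exp (E x) := by
  obtain ⟨x, -, hx⟩ : ∃ x ∈ Finset.univ, 0 < w x := by
    by_contra hcon
    push Not at hcon
    have : ∑ x, w x ≤ 0 := Finset.sum_nonpos fun x hx => hcon x hx
    linarith
  exact lt_of_lt_of_le (mul_pos hx (Real.exp_pos (E x)))
    (Finset.single_le_sum (f := fun x => w x * Real.exp (E x))
      (fun y _ => mul_nonneg (hw y) (Real.exp_pos _).le) (Finset.mem_univ x))

lemma logw_bound {w : X → ℝ} (hw : ∀ x, 0 ≤ w x) (hw1 : ∑ x, w x = 1) (E : X → ℝ) :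
    |Real.log (∑ x, w x * Real.exp (E x))| ≤ ∑ x, |E x| := by
  set M := ∑ y, |E y| with hM
  have hEy : ∀ y, |E y| ≤ M := fun y => Finset.single_le_sum (f := fun y => |E y|)
    (fun y _ => abs_nonneg _) (Finset.mem_univ y)
  have h1 : Real.exp (-M) ≤ ∑ y, w y * Real.exp (E y) := by
    rw [← one_mul (Real.exp (-M)), ← hw1, Finset.sum_mul]
    refine Finset.sum_le_sum fun y _ => mul_le_mul_of_nonneg_left (Real.exp_le_exp.2 ?_) (hw y)
    linarith [neg_abs_le (E y), hEy y]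
  have h2 : ∑ y, w y * Real.exp (E y) ≤ Real.exp M := by
    rw [← one_mul (Real.exp M), ← hw1, Finset.sum_mul]
    refine Finset.sum_le_sum fun y _ => mul_le_mul_of_nonneg_left (Real.exp_le_exp.2 ?_) (hw y)
    linarith [le_abs_self (E y), hEy y]
  have l1 := Real.log_le_log (Real.exp_pos _) h1
  have l2 := Real.log_le_log (logw_pos hw hw1 E) h2
  rw [Real.log_exp] at l1 l2
  rw [abs_le]
  constructor <;> linarith

variable {Ω Λ : Type} [MeasurableSpace Ω] [MeasurableSpace Λ] {P : Measure Ω}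
  [IsProbabilityMeasure P] {ρ : Measure Λ} [IsProbabilityMeasure ρ]

lemma integrable_logw {w : Ω → X → ℝ} (hwm : ∀ x, Measurable fun ω => w ω x)
    (hw : ∀ ω x, 0 ≤ w ω x) (hw1 : ∀ ω, ∑ x, w ω x = 1) {E : Ω → X → ℝ}
    (hE : ∀ x, Integrable (fun ω => E ω x) P) :
    Integrable (fun ω => Real.log (∑ x, w ω x * Real.exp (E ω x))) P := by
  refine Integrable.mono' (g := fun ω => ∑ x, |E ω x|)
    (integrable_finsetSum _ fun y _ => (hE y).abs) ?_
    (Filter.Eventually.of_forall fun ω => logw_bound (hw ω) (hw1 ω) (E ω))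
  refine (Real.measurable_log.comp_aemeasurable ?_).aestronglyMeasurable
  exact Finset.aemeasurable_fun_sum _ fun y _ => ((hwm y).aemeasurable).mul
    (Real.measurable_exp.comp_aemeasurable (hE y).aestronglyMeasurable.aemeasurable)

lemma sel_log_cosh_nonneg (y : ℝ) : 0 ≤ Real.log (Real.cosh y) :=
  Real.log_nonneg (Real.one_le_cosh y)

lemma sel_cosh_le_exp_abs (y : ℝ) : Real.cosh y ≤ Real.exp |y| := by
  rw [Real.cosh_eq]
  have h1 : Real.exp y ≤ Real.exp |y| := Real.exp_le_exp.2 (le_abs_self y)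
  have h2 : Real.exp (-y) ≤ Real.exp |y| := Real.exp_le_exp.2 (neg_le_abs y)
  linarith

lemma sel_log_cosh_le (y : ℝ) : Real.log (Real.cosh y) ≤ |y| := by
  have h := Real.log_le_log (Real.cosh_pos y) (sel_cosh_le_exp_abs y)
  rwa [Real.log_exp] at h

/-- The cosine hyperbolic only increases the free energy. -/
lemma cav_first {w : Ω → X → ℝ} (hwm : ∀ x, Measurable fun ω => w ω x)
    (hw : ∀ ω x, 0 ≤ w ω x) (hw1 : ∀ ω, ∑ x, w ω x = 1) {B : Ω → X → ℝ}
    (hB : ∀ x, Integrable (fun ω => B ω x) P) {Y : Ω × Λ → X → ℝ}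
    (hY : ∀ x, Integrable (fun z => Y z x) (P.prod ρ)) :
    ∫ ω, Real.log (∑ x, w ω x * Real.exp (B ω x)) ∂P ≤
      ∫ z : Ω × Λ, Real.log (∑ x, w z.1 x * (Real.exp (B z.1 x) * Real.cosh (Y z x)))
        ∂(P.prod ρ) := by
  have e1 : ∫ ω, Real.log (∑ x, w ω x * Real.exp (B ω x)) ∂P =
      ∫ z : Ω × Λ, Real.log (∑ x, w z.1 x * Real.exp (B z.1 x)) ∂(P.prod ρ) := by
    rw [integral_fun_fst (fun ω => Real.log (∑ x, w ω x * Real.exp (B ω x)))]
    simp
  have e2 : ∀ z : Ω × Λ, ∑ x, w z.1 x * (Real.exp (B z.1 x) * Real.cosh (Y z x)) =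
      ∑ x, w z.1 x * Real.exp (B z.1 x + Real.log (Real.cosh (Y z x))) := fun z =>
    Finset.sum_congr rfl fun x _ => by
      rw [Real.exp_add, Real.exp_log (Real.cosh_pos _)]
  have hB' : ∀ x, Integrable (fun z : Ω × Λ => B z.1 x) (P.prod ρ) := fun x =>
    (hB x).comp_fst ρ
  have hL : ∀ x, Integrable (fun z : Ω × Λ => Real.log (Real.cosh (Y z x))) (P.prod ρ) := by
    intro x
    refine Integrable.mono' (hY x).abs ?_ (Filter.Eventually.of_forall fun z => ?_)
    · exact (Real.measurable_log.comp_aemeasurable (Real.measurable_cosh.comp_aemeasurable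
        (hY x).aestronglyMeasurable.aemeasurable)).aestronglyMeasurable
    · rw [Real.norm_eq_abs, abs_of_nonneg (sel_log_cosh_nonneg _)]
      exact sel_log_cosh_le _
  rw [e1]
  simp only [e2]
  refine integral_mono (integrable_logw (fun x => (hwm x).comp measurable_fst)
    (fun z x => hw z.1 x) (fun z => hw1 z.1) hB')
    (integrable_logw (fun x => (hwm x).comp measurable_fst)
    (fun z x => hw z.1 x) (fun z => hw1 z.1) fun x => (hB' x).add (hL x)) fun z => ?_
  refine Real.log_le_log (logw_pos (hw z.1) (hw1 z.1) _) ?_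
  refine Finset.sum_le_sum fun x _ => mul_le_mul_of_nonneg_left (Real.exp_le_exp.2 ?_) (hw _ _)
  linarith [sel_log_cosh_nonneg (Y z x)]

/-- An independent field with bounded exponential moments increases the free energy by at
most `K`. -/
lemma cav_second {w : Ω → X → ℝ} (hwm : ∀ x, Measurable fun ω => w ω x)
    (hw : ∀ ω x, 0 ≤ w ω x) (hw1 : ∀ ω, ∑ x, w ω x = 1) {B : Ω → X → ℝ}
    (hB : ∀ x, Integrable (fun ω => B ω x) P) {Y : Ω × Λ → X → ℝ}
    (hY : ∀ x, Integrable (fun z => Y z x) (P.prod ρ)) {K : ℝ}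
    (hYω : ∀ ω x, Integrable (fun l => Y (ω, l) x) ρ)
    (hE : ∀ ω x, Integrable (fun l => Real.exp (Y (ω, l) x)) ρ)
    (hK : ∀ ω x, ∫ l, Real.exp (Y (ω, l) x) ∂ρ ≤ 1 + K) :
    ∫ z : Ω × Λ, Real.log (∑ x, w z.1 x * Real.exp (B z.1 x + Y z x)) ∂(P.prod ρ) ≤
      ∫ ω, Real.log (∑ x, w ω x * Real.exp (B ω x)) ∂P + K := by
  have hB' : ∀ x, Integrable (fun z : Ω × Λ => B z.1 x) (P.prod ρ) := fun x =>
    (hB x).comp_fst ρ
  have hI : Integrable (fun z : Ω × Λ => Real.log (∑ x, w z.1 x * Real.exp (B z.1 x + Y z x)))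
      (P.prod ρ) := integrable_logw (fun x => (hwm x).comp measurable_fst)
    (fun z x => hw z.1 x) (fun z => hw1 z.1) fun x => (hB' x).add (hY x)
  rw [integral_prod _ hI]
  have hJ : Integrable (fun ω => Real.log (∑ x, w ω x * Real.exp (B ω x))) P :=
    integrable_logw hwm hw hw1 hB
  have e1 : ∫ ω, Real.log (∑ x, w ω x * Real.exp (B ω x)) ∂P + K =
      ∫ ω, (Real.log (∑ x, w ω x * Real.exp (B ω x)) + K) ∂P := by
    rw [integral_add hJ (integrable_const _)]
    simp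
  rw [e1]
  refine integral_mono hI.integral_prod_left (hJ.add (integrable_const _)) fun ω => ?_
  -- fixed `ω`
  simp only
  set Z := ∑ x, w ω x * Real.exp (B ω x) with hZ
  have hZ0 : 0 < Z := logw_pos (hw ω) (hw1 ω) _
  have pt : ∀ l, Real.log (∑ x, w ω x * Real.exp (B ω x + Y (ω, l) x)) ≤
      Real.log Z + (∑ x, w ω x * Real.exp (B ω x) / Z * Real.exp (Y (ω, l) x) - 1) := by
    intro l
    set T := ∑ x, w ω x * Real.exp (B ω x + Y (ω, l) x) with hT
    have hT0 : 0 < T := logw_pos (hw ω) (hw1 ω) _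
    have h1 := Real.log_le_sub_one_of_pos (show 0 < T / Z by (clear * - hT0 hZ0; positivity))
    rw [Real.log_div hT0.ne' hZ0.ne'] at h1
    have h2 : T / Z = ∑ x, w ω x * Real.exp (B ω x) / Z * Real.exp (Y (ω, l) x) := by
      rw [hT, Finset.sum_div]
      exact Finset.sum_congr rfl fun x _ => by rw [Real.exp_add]; ring
    linarith only [h2, h1]
  have hi1 : Integrable (fun l => Real.log (∑ x, w ω x * Real.exp (B ω x + Y (ω, l) x))) ρ :=
    integrable_logw (w := fun _ => w ω) (fun x => measurable_const) (fun _ => hw ω)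
      (fun _ => hw1 ω) fun x => (integrable_const _).add (hYω ω x)
  have hi3 : Integrable (fun l => ∑ x, w ω x * Real.exp (B ω x) / Z * Real.exp (Y (ω, l) x))
      ρ := integrable_finsetSum _ fun x _ => (hE ω x).const_mul _
  have hi4 : Integrable (fun l => ∑ x, w ω x * Real.exp (B ω x) / Z *
      Real.exp (Y (ω, l) x) - 1) ρ := hi3.sub (integrable_const _)
  have hi2 : Integrable (fun l => Real.log Z +
      (∑ x, w ω x * Real.exp (B ω x) / Z * Real.exp (Y (ω, l) x) - 1)) ρ :=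
    (integrable_const _).add hi4
  refine (integral_mono hi1 hi2 pt).trans ?_
  have e2 : ∫ l, (Real.log Z + (∑ x, w ω x * Real.exp (B ω x) / Z *
      Real.exp (Y (ω, l) x) - 1)) ∂ρ = Real.log Z + (∑ x, w ω x * Real.exp (B ω x) / Z *
      ∫ l, Real.exp (Y (ω, l) x) ∂ρ - 1) := by
    rw [integral_add (integrable_const _) hi4, integral_sub hi3 (integrable_const _),
      integral_finsetSum _ fun x _ => (hE ω x).const_mul _]
    simp only [integral_const_mul, integral_const, probReal_univ, one_smul]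
  rw [e2]
  have h3 : ∑ x, w ω x * Real.exp (B ω x) / Z * ∫ l, Real.exp (Y (ω, l) x) ∂ρ ≤
      ∑ x, w ω x * Real.exp (B ω x) / Z * (1 + K) :=
    Finset.sum_le_sum fun x _ => mul_le_mul_of_nonneg_left (hK ω x)
      (div_nonneg (mul_nonneg (hw _ _) (Real.exp_pos _).le) hZ0.le)
  have h4 : ∑ x, w ω x * Real.exp (B ω x) / Z * (1 + K) = 1 + K := by
    rw [← Finset.sum_mul, ← Finset.sum_div, ← hZ, div_self hZ0.ne', one_mul]
  linarith

end Abstract

/-- Exponential moments of a Gaussian linear form. -/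
lemma exp_lin_gM {ι : Type} [Fintype ι] (v : ι → ℝ) :
    Integrable (fun h : ι → ℝ => Real.exp (∑ i, v i * h i)) (gM ι) ∧
      ∫ h, Real.exp (∑ i, v i * h i) ∂(gM ι) = Real.exp ((∑ i, v i ^ 2) / 2) := by
  have e : (fun h : ι → ℝ => Real.exp (∑ i, v i * h i)) =
      fun h => ∏ i, (fun (i : ι) (y : ℝ) => Real.exp (v i * y)) i (h i) := by
    funext h
    rw [Real.exp_sum]
  rw [e]
  refine ⟨Integrable.fintype_prod (f := fun (i : ι) (y : ℝ) => Real.exp (v i * y))
    fun i => integrable_exp_mul_gaussianReal (v i), ?_⟩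
  have h1 := integral_fintype_prod_eq_prod (𝕜 := ℝ) (μ := fun _ : ι => gaussianReal 0 1)
    (fun (i : ι) (y : ℝ) => Real.exp (v i * y))
  have h2 : ∀ i, ∫ y, Real.exp (v i * y) ∂(gaussianReal 0 1) = Real.exp (v i ^ 2 / 2) := by
    intro i
    have h3 := mgf_gaussianReal (p := gaussianReal 0 1) (X := fun y => y) (μ := 0) (v := 1)
      (by simp) (v i)
    rw [mgf] at h3
    rw [h3]
    simp
  rw [h1]
  simp only [h2]
  rw [← Real.exp_sum, Finset.sum_div]

/-- Exponential moments of a family of Gaussian linear forms. -/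
lemma exp_lin_pi {M d : ℕ} (v : Fin M → Fin d → ℝ) :
    Integrable (fun h : Fin M → Fin d → ℝ => Real.exp (∑ a, ∑ i, v a i * h a i))
      (Measure.pi fun _ => gM (Fin d)) ∧
      ∫ h : Fin M → Fin d → ℝ, Real.exp (∑ a, ∑ i, v a i * h a i)
        ∂(Measure.pi fun _ => gM (Fin d)) = Real.exp ((∑ a, ∑ i, v a i ^ 2) / 2) := by
  have e : (fun h : Fin M → Fin d → ℝ => Real.exp (∑ a, ∑ i, v a i * h a i)) =
      fun h => ∏ a, (fun (a : Fin M) (y : Fin d → ℝ) => Real.exp (∑ i, v a i * y i)) a (h a) := by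
    funext h
    rw [Real.exp_sum]
  rw [e]
  refine ⟨Integrable.fintype_prod
    (f := fun (a : Fin M) (y : Fin d → ℝ) => Real.exp (∑ i, v a i * y i))
    fun a => (exp_lin_gM (v a)).1, ?_⟩
  have h1 := integral_fintype_prod_eq_prod (𝕜 := ℝ) (μ := fun _ : Fin M => gM (Fin d))
    (fun (a : Fin M) (y : Fin d → ℝ) => Real.exp (∑ i, v a i * y i))
  rw [h1]
  simp only [(exp_lin_gM _).2]
  rw [← Real.exp_sum, Finset.sum_div]

section Cube

lemma sel_integrable_coord {ι : Type} [Fintype ι] (e : ι) :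
    Integrable (fun J : ι → ℝ => J e) (gM ι) :=
  integrable_comp_eval (μ := fun _ : ι => gaussianReal 0 1) (i := e) (f := fun x => x)
    ((memLp_id_gaussianReal 1).integrable le_rfl)

variable {N M : ℕ}

lemma sel_measurable_cubeS (x : Fin (N + 1) → Bool) :
    Measurable fun g : Fin (N + 1) → ℝ => cubeS g x := by
  unfold cubeS
  fun_prop

lemma sel_integrable_cubeS_one (x : Fin (N + 1) → Bool) :
    Integrable (fun g : Fin (N + 1) → ℝ => cubeS g x) (gM (Fin (N + 1))) := by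
  unfold cubeS
  exact integrable_finsetSum _ fun i _ =>
    (sel_integrable_coord (ι := Fin (N + 1)) i).mul_const _

lemma sel_integrable_cubeS (x : Fin (N + 1) → Bool) (a : Fin M) :
    Integrable (fun g : Fin M → Fin (N + 1) → ℝ => cubeS (g a) x)
      (Measure.pi fun _ => gM (Fin (N + 1))) :=
  integrable_comp_eval (μ := fun _ : Fin M => gM (Fin (N + 1))) (i := a)
    (f := fun g => cubeS g x) (sel_integrable_cubeS_one x)

lemma cavY_eq (δ : ℝ) (f1 : ℝ → ℝ) (S : Fin M → ℝ) (h : Fin M → Fin (N + 1) → ℝ)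
    (x : Fin (N + 1) → Bool) :
    cavY δ f1 S (fun a => cubeS (h a) x) =
      ∑ a, ∑ i, (√δ * f1 (S a) * cubeφ N x i) * h a i := by
  unfold cavY cubeS
  refine Finset.sum_congr rfl fun a _ => ?_
  rw [Finset.mul_sum]
  exact Finset.sum_congr rfl fun i _ => by ring

lemma sum_cubeφ_sq (x : Fin (N + 1) → Bool) : ∑ i, cubeφ N x i ^ 2 = 1 := by
  simp only [cubeφ_sq]
  rw [Finset.sum_const, Finset.card_univ, Fintype.card_fin, nsmul_eq_mul]
  push_cast
  field_simp

/-- The cavity form of the spin increment is bounded below. -/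
theorem cubeDN_ge {f f1 f2 f3 : ℝ → ℝ} {C : ℝ} (hf : CB3 C f f1 f2 f3) (hfm : Measurable f)
    (N M P : ℕ) (s : ℝ) (u : Fin P → ℝ) :
    -(Real.exp (M * (1 / ((N : ℝ) + 2)) * C ^ 2 / 2) - 1) ≤
      cubeDN f f1 f2 hfm C hf.b0 N M P s u := by
  set δ : ℝ := 1 / ((N : ℝ) + 2) with hδ
  have hδ0 : 0 ≤ δ := by positivity
  have hC0 : 0 ≤ C := (abs_nonneg _).trans (hf.b0 0)
  have hf1c : Continuous f1 := continuous_iff_continuousAt.2 fun x => (hf.d2 x).continuousAt
  have hf2c : Continuous f2 := continuous_iff_continuousAt.2 fun x => (hf.d3 x).continuousAt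
  have hf1m := hf1c.measurable
  have hf2m := hf2c.measurable
  set S := (cubeBase f hfm C hf.b0 N M).sys P s u with hS
  let PP : Measure ((Fin M → Fin (N + 1) → ℝ) × (GI P (N + 1) → ℝ)) :=
    (Measure.pi fun _ : Fin M => gM (Fin (N + 1))).prod (gM (GI P (N + 1)))
  let w : ((Fin M → Fin (N + 1) → ℝ) × (GI P (N + 1) → ℝ)) → (Fin (N + 1) → Bool) → ℝ :=
    fun ω x => S.w ω x
  have hwm : ∀ x, Measurable fun ω => w ω x := fun x => S.hw x
  have hw0 : ∀ ω x, 0 ≤ w ω x := fun ω x => S.w0 ω x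
  have hw1 : ∀ ω, ∑ x, w ω x = 1 := fun ω => S.w1 ω
  have hS1 : ∀ (x : Fin (N + 1) → Bool) (a : Fin M), Integrable
      (fun ω : (Fin M → Fin (N + 1) → ℝ) × (GI P (N + 1) → ℝ) => cubeS (ω.1 a) x) PP :=
    fun x a => (sel_integrable_cubeS x a).comp_fst _
  have hSm : ∀ (x : Fin (N + 1) → Bool) (a : Fin M), Measurable
      (fun ω : (Fin M → Fin (N + 1) → ℝ) × (GI P (N + 1) → ℝ) => cubeS (ω.1 a) x) :=
    fun x a => (sel_measurable_cubeS x).comp ((measurable_pi_apply a).comp measurable_fst)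
  have hB : ∀ x, Integrable (fun ω : (Fin M → Fin (N + 1) → ℝ) × (GI P (N + 1) → ℝ) =>
      cavB δ f1 f2 fun a => cubeS (ω.1 a) x) PP := by
    intro x
    unfold cavB
    refine integrable_finsetSum _ fun a _ => ?_
    refine Integrable.const_mul ?_ _
    refine Integrable.sub ?_ ?_
    · exact Integrable.mono' (g := fun _ => C) (integrable_const _)
        (hf2m.comp (hSm x a)).aestronglyMeasurable
        (Filter.Eventually.of_forall fun ω => by rw [Real.norm_eq_abs]; exact hf.b2 _)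
    · refine Integrable.mono' (g := fun ω => |cubeS (ω.1 a) x| * C) ((hS1 x a).abs.mul_const C)
        ((hSm x a).mul (hf1m.comp (hSm x a))).aestronglyMeasurable
        (Filter.Eventually.of_forall fun ω => ?_)
      rw [Real.norm_eq_abs, abs_mul]
      exact mul_le_mul_of_nonneg_left (hf.b1 _) (abs_nonneg _)
  -- first term
  have hY1 : ∀ x, Integrable (fun z : ((Fin M → Fin (N + 1) → ℝ) × (GI P (N + 1) → ℝ)) ×
      (Fin M → ℝ) => cavY δ f1 (fun a => cubeS (z.1.1 a) x) z.2) (PP.prod (gM (Fin M))) := by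
    intro x
    unfold cavY
    refine integrable_finsetSum _ fun a _ => ?_
    have hi : Integrable (fun z : ((Fin M → Fin (N + 1) → ℝ) × (GI P (N + 1) → ℝ)) ×
        (Fin M → ℝ) => z.2 a) (PP.prod (gM (Fin M))) :=
      (sel_integrable_coord (ι := Fin M) a).comp_snd _
    refine Integrable.mono' (g := fun z => √δ * C * |z.2 a|) (hi.abs.const_mul _)
      (((measurable_const.mul (hf1m.comp ((hSm x a).comp measurable_fst))).mul
        ((measurable_pi_apply a).comp measurable_snd)).aestronglyMeasurable)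
      (Filter.Eventually.of_forall fun z => ?_)
    rw [Real.norm_eq_abs, abs_mul, abs_mul, abs_of_nonneg (Real.sqrt_nonneg _)]
    exact mul_le_mul_of_nonneg_right (mul_le_mul_of_nonneg_left (hf.b1 _)
      (Real.sqrt_nonneg _)) (abs_nonneg _)
  have h1 := cav_first (P := PP) (ρ := gM (Fin M)) hwm hw0 hw1
    (B := fun ω x => cavB δ f1 f2 fun a => cubeS (ω.1 a) x) hB
    (Y := fun z x => cavY δ f1 (fun a => cubeS (z.1.1 a) x) z.2) hY1
  -- second term
  have hi2 : ∀ (x : Fin (N + 1) → Bool) (a : Fin M), Integrable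
      (fun z : ((Fin M → Fin (N + 1) → ℝ) × (GI P (N + 1) → ℝ)) ×
        (Fin M → Fin (N + 1) → ℝ) => cubeS (z.2 a) x)
      (PP.prod (Measure.pi fun _ : Fin M => gM (Fin (N + 1)))) :=
    fun x a => (sel_integrable_cubeS x a).comp_snd _
  have hY2 : ∀ x, Integrable (fun z : ((Fin M → Fin (N + 1) → ℝ) × (GI P (N + 1) → ℝ)) ×
      (Fin M → Fin (N + 1) → ℝ) =>
        cavY δ f1 (fun a => cubeS (z.1.1 a) x) (fun a => cubeS (z.2 a) x))
      (PP.prod (Measure.pi fun _ : Fin M => gM (Fin (N + 1)))) := by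
    intro x
    unfold cavY
    refine integrable_finsetSum _ fun a _ => ?_
    refine Integrable.mono' (g := fun z => √δ * C * |cubeS (z.2 a) x|)
      ((hi2 x a).abs.const_mul _)
      (((measurable_const.mul (hf1m.comp ((hSm x a).comp measurable_fst))).mul
        ((sel_measurable_cubeS x).comp
          ((measurable_pi_apply a).comp measurable_snd))).aestronglyMeasurable)
      (Filter.Eventually.of_forall fun z => ?_)
    rw [Real.norm_eq_abs, abs_mul, abs_mul, abs_of_nonneg (Real.sqrt_nonneg _)]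
    exact mul_le_mul_of_nonneg_right (mul_le_mul_of_nonneg_left (hf.b1 _)
      (Real.sqrt_nonneg _)) (abs_nonneg _)
  have h2 := cav_second (P := PP) (ρ := Measure.pi fun _ : Fin M => gM (Fin (N + 1)))
    hwm hw0 hw1 (B := fun ω x => cavB δ f1 f2 fun a => cubeS (ω.1 a) x) hB
    (Y := fun z x => cavY δ f1 (fun a => cubeS (z.1.1 a) x) (fun a => cubeS (z.2 a) x)) hY2
    (K := Real.exp (M * δ * C ^ 2 / 2) - 1) (fun ω x => by
      simp only [cavY_eq]
      exact integrable_finsetSum _ fun a _ => integrable_finsetSum _ fun i _ =>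
        (integrable_comp_eval (μ := fun _ : Fin M => gM (Fin (N + 1))) (i := a)
          (f := fun g => g i) (sel_integrable_coord (ι := Fin (N + 1)) i)).const_mul _)
    (fun ω x => by
      simp only [cavY_eq]
      exact (exp_lin_pi _).1)
    (fun ω x => by
      simp only [cavY_eq]
      rw [(exp_lin_pi _).2]
      have e : ∑ a : Fin M, ∑ i, (√δ * f1 (cubeS (ω.1 a) x) * cubeφ N x i) ^ 2 =
          ∑ a : Fin M, δ * f1 (cubeS (ω.1 a) x) ^ 2 := by
        refine Finset.sum_congr rfl fun a _ => ?_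
        have : ∀ i, (√δ * f1 (cubeS (ω.1 a) x) * cubeφ N x i) ^ 2 =
            δ * f1 (cubeS (ω.1 a) x) ^ 2 * cubeφ N x i ^ 2 := fun i => by
          rw [mul_pow, mul_pow, Real.sq_sqrt hδ0]
        simp only [this]
        rw [← Finset.mul_sum, sum_cubeφ_sq, mul_one]
      rw [e]
      have e2 : ∑ a : Fin M, δ * f1 (cubeS (ω.1 a) x) ^ 2 ≤ ∑ _a : Fin M, δ * C ^ 2 :=
        Finset.sum_le_sum fun a _ => mul_le_mul_of_nonneg_left
          (sq_le_sq' (by linarith [(abs_le.1 (hf.b1 (cubeS (ω.1 a) x))).1])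
            (abs_le.1 (hf.b1 (cubeS (ω.1 a) x))).2) hδ0
      rw [Finset.sum_const, Finset.card_univ, Fintype.card_fin, nsmul_eq_mul] at e2
      have e3 := Real.exp_le_exp.2 (show (∑ a : Fin M, δ * f1 (cubeS (ω.1 a) x) ^ 2) / 2 ≤
        M * δ * C ^ 2 / 2 by linarith)
      linarith)
  have h3 : cubeDN f f1 f2 hfm C hf.b0 N M P s u =
      (∫ z : ((Fin M → Fin (N + 1) → ℝ) × (GI P (N + 1) → ℝ)) × (Fin M → ℝ),
        Real.log (∑ x, w z.1 x * (Real.exp (cavB δ f1 f2 fun a => cubeS (z.1.1 a) x) *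
          Real.cosh (cavY δ f1 (fun a => cubeS (z.1.1 a) x) z.2))) ∂(PP.prod (gM (Fin M)))) -
      ∫ z : ((Fin M → Fin (N + 1) → ℝ) × (GI P (N + 1) → ℝ)) × (Fin M → Fin (N + 1) → ℝ),
        Real.log (∑ x, w z.1 x * Real.exp ((cavB δ f1 f2 fun a => cubeS (z.1.1 a) x) +
          cavY δ f1 (fun a => cubeS (z.1.1 a) x) fun a => cubeS (z.2 a) x))
        ∂(PP.prod (Measure.pi fun _ : Fin M => gM (Fin (N + 1)))) := rfl
  rw [h3]
  linarith

end Cube

end Vale.Agent.P157.Par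
end

section

/-! Concentration, flatness and monotonicity for the perturbed perceptron on the cube. -/

open MeasureTheory ProbabilityTheory Filter Topology

namespace Vale.Agent.P157.Par

open Vale.Agent.P367.GT (gM)

set_option linter.unusedSectionVars false

/-! Monotonicity of the expected free energy in the perturbation. -/

/-- The expected free energy is monotone in one parameter. -/
lemma Base.elz_mono_one (B : Base) {P : ℕ} {s : ℝ} (hs : 0 ≤ s) (u : Fin P → ℝ) (q : Fin P)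
    {a b : ℝ} (ha : 0 ≤ a) (hab : a ≤ b) :
    B.elz s (Function.update u q a) ≤ B.elz s (Function.update u q b) := by
  rcases hab.eq_or_lt with h | h
  · rw [h]
  · have h1 := (B.elz_slope s u hs q h).1
    have h2 := B.mh_nonneg P s (Function.update u q a) hs q
      (by rw [Function.update_self]; exact ha)
    have h3 := B.kap_nonneg s hs q
    have h4 : 0 ≤ (b - a) * (B.kap s q * B.mh P s (Function.update u q a) q) :=
      mul_nonneg (by linarith) (mul_nonneg h3 h2)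
    linarith

/-- The expected free energy is monotone in the parameters. -/
lemma Base.elz_mono_u (B : Base) {P : ℕ} {s : ℝ} (hs : 0 ≤ s) {u u' : Fin P → ℝ}
    (hu : ∀ q, 0 ≤ u q) (huu : ∀ q, u q ≤ u' q) : B.elz s u ≤ B.elz s u' := by
  classical
  have key : ∀ T : Finset (Fin P), B.elz s u ≤ B.elz s (fun q => if q ∈ T then u' q else u q) := by
    intro T
    induction T using Finset.induction_on with
    | empty => simp
    | insert q T hq ih =>
      refine ih.trans ?_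
      set v : Fin P → ℝ := fun r => if r ∈ T then u' r else u r with hv
      have e1 : v = Function.update v q (u q) := by
        funext r
        rcases eq_or_ne r q with h | h
        · subst h
          rw [Function.update_self, hv]
          simp [hq]
        · rw [Function.update_of_ne h]
      have e2 : (fun r => if r ∈ insert q T then u' r else u r) =
          Function.update v q (u' q) := by
        funext r
        rcases eq_or_ne r q with h | h
        · subst h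
          rw [Function.update_self]
          simp
        · rw [Function.update_of_ne h, hv]
          simp [h]
      rw [e2]
      have h1 := B.elz_mono_one hs v q (hu q) (huu q)
      rw [← e1] at h1
      exact h1
  have h := key Finset.univ
  simpa using h

/-- The expected free energy is monotone in the strength of the perturbation. -/
lemma Base.elz_mono_s (B : Base) {P : ℕ} {s s' : ℝ} (hs : 0 ≤ s) (hss : s ≤ s')
    (hs' : 0 < s') {u : Fin P → ℝ} (hu : ∀ q, 0 ≤ u q) : B.elz s u ≤ B.elz s' u := by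
  have e : B.coef P s u = B.coef P s' (fun q => s / s' * u q) := by
    funext e x
    unfold Base.coef
    field_simp
  have e1 : B.elz s u = B.elz s' (fun q => s / s' * u q) := by
    unfold Base.elz Base.lz
    rw [e]
  rw [e1]
  have h1 : s / s' ≤ 1 := (div_le_one hs').2 hss
  have h0 : 0 ≤ s / s' := by positivity
  exact B.elz_mono_u hs'.le (fun q => mul_nonneg h0 (hu q))
    fun q => mul_le_of_le_one_left (hu q) h1

lemma Base.Conc.mono {B : Base} {v v' : ℝ} (h : B.Conc v) (hv : v ≤ v') : B.Conc v' :=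
  fun g hg hg2 hgd => (h g hg hg2 hgd).trans hv

section Cube

variable {f : ℝ → ℝ} (hfm : Measurable f) {C : ℝ} (hC : ∀ x, |f x| ≤ C)

lemma cubeBase_d (N M : ℕ) : ((cubeBase f hfm C hC N M).d : ℝ) = (N : ℝ) + 1 := by
  change (((N + 1 : ℕ)) : ℝ) = _
  push_cast
  ring

lemma cubeBase_flat (N M : ℕ) (x : (cubeBase f hfm C hC N M).X)
    (i : Fin (cubeBase f hfm C hC N M).d) :
    (cubeBase f hfm C hC N M).φ x i ^ 2 ≤ 1 / (cubeBase f hfm C hC N M).d := by
  rw [cubeBase_d]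
  exact (cubeφ_sq N x i).le

lemma cubeBase_conc (N M : ℕ) : (cubeBase f hfm C hC N M).Conc (M * (2 * C) ^ 2) := by
  refine conc_patBase _ _ _ _ _ _ _ _ fun ω a e x => ?_
  have h1 : ∀ η : Fin M → Fin (N + 1) → ℝ, ∑ b, f (cubeS (η b) x) =
      f (cubeS (η a) x) + ∑ b ∈ Finset.univ.erase a, f (cubeS (η b) x) := fun η =>
    (Finset.add_sum_erase _ _ (Finset.mem_univ a)).symm
  rw [h1, h1]
  have h2 : ∑ b ∈ Finset.univ.erase a, f (cubeS (Function.update ω a e b) x) =
      ∑ b ∈ Finset.univ.erase a, f (cubeS (ω b) x) :=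
    Finset.sum_congr rfl fun b hb => by
      rw [Function.update_of_ne (Finset.ne_of_mem_erase hb)]
  rw [h2, add_sub_add_right_eq_sub]
  refine (abs_sub _ _).trans ?_
  linarith [hC (cubeS (Function.update ω a e a) x), hC (cubeS (ω a) x)]

/-- The strength of the perturbation. -/
noncomputable def sN (N : ℕ) : ℝ := ((N : ℝ) + 1) ^ (3 / 8 : ℝ)

lemma sN_ge (N : ℕ) : 1 ≤ sN N :=
  Real.one_le_rpow (by linarith [(Nat.cast_nonneg N : (0 : ℝ) ≤ N)]) (by norm_num)

lemma sN_mono {N N' : ℕ} (h : N ≤ N') : sN N ≤ sN N' := by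
  unfold sN
  exact Real.rpow_le_rpow (by positivity) (by
    have : (N : ℝ) ≤ N' := by exact_mod_cast h
    linarith) (by norm_num)

lemma sN_sq (N : ℕ) : sN N ^ 2 = ((N : ℝ) + 1) ^ (3 / 4 : ℝ) := by
  unfold sN
  rw [← Real.rpow_natCast, ← Real.rpow_mul (by positivity)]
  norm_num

lemma sN_sq_le (N : ℕ) : sN N ^ 2 ≤ (N : ℝ) + 1 := by
  rw [sN_sq]
  nth_rewrite 2 [← Real.rpow_one ((N : ℝ) + 1)]
  exact Real.rpow_le_rpow_of_exponent_le (by linarith [(Nat.cast_nonneg N : (0 : ℝ) ≤ N)])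
    (by norm_num)

lemma sqrt_le_sN_sq (N : ℕ) : √((N : ℝ) + 1) ≤ sN N ^ 2 := by
  rw [sN_sq, Real.sqrt_eq_rpow]
  exact Real.rpow_le_rpow_of_exponent_le (by linarith [(Nat.cast_nonneg N : (0 : ℝ) ≤ N)])
    (by norm_num)

lemma sqrt_sqrt_div_sN (N : ℕ) : √(√((N : ℝ) + 1)) / sN N = ((N : ℝ) + 1) ^ (-(1 / 8) : ℝ) := by
  unfold sN
  rw [Real.sqrt_eq_rpow, Real.sqrt_eq_rpow, ← Real.rpow_mul (by positivity),
    ← Real.rpow_sub (by positivity)]
  norm_num

lemma tendsto_sqrt_sqrt_div_sN :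
    Tendsto (fun N : ℕ => √(√((N : ℝ) + 1)) / sN N) atTop (𝓝 0) := by
  simp only [sqrt_sqrt_div_sN]
  have h := tendsto_rpow_neg_atTop (show (0 : ℝ) < 1 / 8 by norm_num)
  exact h.comp (tendsto_natCast_atTop_atTop.atTop_add tendsto_const_nhds)

lemma tendsto_sN_sq_div : Tendsto (fun N : ℕ => sN N ^ 2 / ((N : ℝ) + 1)) atTop (𝓝 0) := by
  have e : ∀ N : ℕ, sN N ^ 2 / ((N : ℝ) + 1) = ((N : ℝ) + 1) ^ (-(1 / 4) : ℝ) := by
    intro N
    rw [sN_sq]
    nth_rewrite 2 [← Real.rpow_one ((N : ℝ) + 1)]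
    rw [← Real.rpow_sub (by positivity)]
    norm_num
  simp only [e]
  have h := tendsto_rpow_neg_atTop (show (0 : ℝ) < 1 / 4 by norm_num)
  exact h.comp (tendsto_natCast_atTop_atTop.atTop_add tendsto_const_nhds)

/-- The average over the parameters of the fluctuation. -/
lemma cubeBase_dev_le {N M P : ℕ} (q : Fin P) {A : ℝ} (hA : 0 ≤ A)
    (hM : (M : ℝ) * (2 * C) ^ 2 ≤ A * ((N : ℝ) + 1)) :
    ∫ u, (cubeBase f hfm C hC N M).dev P (sN N) u q ((cubeBase f hfm C hC N M).mh P (sN N) u q)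
      ∂(nuP P) ≤ 2 ^ ((q : ℕ) + 1) * (15 + 3 * √(3 + A)) * √(√((N : ℝ) + 1)) := by
  have h := (cubeBase f hfm C hC N M).integral_dev_le_sqrt (sN N) (sN_ge N) q hA
    ((cubeBase_conc hfm hC N M).mono (by rw [cubeBase_d]; exact hM)) (cubeBase_flat hfm hC N M)
    (by rw [cubeBase_d]; exact sN_sq_le N) (by rw [cubeBase_d]; exact sqrt_le_sN_sq N)
  rw [cubeBase_d] at h
  exact h

end Cube

end Vale.Agent.P157.Par
end

section

/-! Selection of the parameters. -/

open MeasureTheory ProbabilityTheory Filter Topology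

namespace Vale.Agent.P157.Par

open Vale.Agent.P367.GT (gM)

set_option linter.unusedSectionVars false

section Sel

variable {f f1 f2 f3 : ℝ → ℝ} {C : ℝ}

/-- The increment for one more pattern is bounded. -/
lemma abs_dM_le (hfm : Measurable f) (hC : ∀ x, |f x| ≤ C) (N M P : ℕ) (s : ℝ)
    (u : Fin P → ℝ) : |((cubeBase f hfm C hC N M).sys P s u).dM f| ≤ C := by
  set S := (cubeBase f hfm C hC N M).sys P s u with hS
  unfold Sys.dM
  have : Nonempty S.X := inferInstanceAs (Nonempty (Fin (N + 1) → Bool))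
  have hb : ∀ z : S.Ω × (Fin S.d → ℝ),
      ‖Real.log (∑ x, S.w z.1 x * Real.exp (f (∑ i, z.2 i * S.φ x i)))‖ ≤ C := by
    intro z
    rw [Real.norm_eq_abs]
    have hpos := logw_pos (S.w0 z.1) (S.w1 z.1) fun x => f (∑ i, z.2 i * S.φ x i)
    have h1 : Real.exp (-C) ≤ ∑ x, S.w z.1 x * Real.exp (f (∑ i, z.2 i * S.φ x i)) := by
      rw [← one_mul (Real.exp (-C)), ← S.w1 z.1, Finset.sum_mul]
      refine Finset.sum_le_sum fun y _ =>
        mul_le_mul_of_nonneg_left (Real.exp_le_exp.2 ?_) (S.w0 _ _)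
      linarith [neg_abs_le (f (∑ i, z.2 i * S.φ y i)), hC (∑ i, z.2 i * S.φ y i)]
    have h2 : ∑ x, S.w z.1 x * Real.exp (f (∑ i, z.2 i * S.φ x i)) ≤ Real.exp C := by
      rw [← one_mul (Real.exp C), ← S.w1 z.1, Finset.sum_mul]
      refine Finset.sum_le_sum fun y _ =>
        mul_le_mul_of_nonneg_left (Real.exp_le_exp.2 ?_) (S.w0 _ _)
      linarith [le_abs_self (f (∑ i, z.2 i * S.φ y i)), hC (∑ i, z.2 i * S.φ y i)]
    have l1 := Real.log_le_log (Real.exp_pos _) h1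
    have l2 := Real.log_le_log hpos h2
    rw [Real.log_exp] at l1 l2
    rw [abs_le]
    exact ⟨l1, l2⟩
  have h := norm_integral_le_of_norm_le_const (μ := S.P.prod (gM (Fin S.d)))
    (Filter.Eventually.of_forall hb)
  rw [Real.norm_eq_abs] at h
  simpa using h

/-- The average of the expected free energy over the parameters. -/
noncomputable def eav (f : ℝ → ℝ) (hfm : Measurable f) (C : ℝ) (hC : ∀ x, |f x| ≤ C)
    (P N M : ℕ) (s : ℝ) : ℝ :=
  ∫ u, (cubeBase f hfm C hC N M).elz s u ∂(nuP P)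

lemma int_elz (hfm : Measurable f) (hC : ∀ x, |f x| ≤ C) (P N M : ℕ) (s : ℝ) :
    Integrable (fun u : Fin P → ℝ => (cubeBase f hfm C hC N M).elz s u) (nuP P) :=
  int_nuP ((cubeBase f hfm C hC N M).cont_elz s)

lemma eav_step (hfm : Measurable f) (hC : ∀ x, |f x| ≤ C) (P N M : ℕ) (s : ℝ) :
    |eav f hfm C hC P N (M + 1) s - eav f hfm C hC P N M s| ≤ C := by
  unfold eav
  rw [← integral_sub (int_elz hfm hC P N (M + 1) s) (int_elz hfm hC P N M s)]
  have h := norm_integral_le_of_norm_le_const (μ := nuP P) (C := C)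
    (f := fun u => (cubeBase f hfm C hC N (M + 1)).elz s u -
      (cubeBase f hfm C hC N M).elz s u)
    (Filter.Eventually.of_forall fun u => by
      rw [pattern_increment, Real.norm_eq_abs]
      exact abs_dM_le hfm hC N M P s u)
  rw [Real.norm_eq_abs] at h
  simpa using h

lemma eav_mono (hfm : Measurable f) (hC : ∀ x, |f x| ≤ C) (P N M : ℕ) {s s' : ℝ}
    (hs : 0 ≤ s) (hss : s ≤ s') (hs' : 0 < s') :
    eav f hfm C hC P N M s ≤ eav f hfm C hC P N M s' := by
  unfold eav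
  refine integral_mono_ae (int_elz hfm hC P N M s) (int_elz hfm hC P N M s') ?_
  filter_upwards [ae_nuP P] with u hu
  exact (cubeBase f hfm C hC N M).elz_mono_s hs hss hs' fun q => by linarith [(hu q).1]

lemma eav_pert (hfm : Measurable f) (hC : ∀ x, |f x| ≤ C) (P N M : ℕ) {s : ℝ} (hs : 0 ≤ s) :
    |eav f hfm C hC P N M s - (N + 1) * Real.log 2 -
      ∫ g, ((N : ℝ) + 1) * pressure (cube (N + 1)) f g ∂(patterns M (N + 1))| ≤ s ^ 2 := by
  unfold eav
  set c : ℝ := (N + 1) * Real.log 2 +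
    ∫ g, ((N : ℝ) + 1) * pressure (cube (N + 1)) f g ∂(patterns M (N + 1)) with hc
  have e : ∫ u, ((cubeBase f hfm C hC N M).elz s u - c) ∂(nuP P) =
      ∫ u, (cubeBase f hfm C hC N M).elz s u ∂(nuP P) - c := by
    rw [integral_sub (int_elz hfm hC P N M s) (integrable_const _)]
    simp
  have h := norm_integral_le_of_norm_le_const (μ := nuP P) (C := s ^ 2)
    (f := fun u => (cubeBase f hfm C hC N M).elz s u - c) (by
      filter_upwards [ae_nuP P] with u hu
      rw [Real.norm_eq_abs, hc, ← sub_sub]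
      exact elz_pert hfm C hC N M P s u hs fun q => ⟨by linarith [(hu q).1], (hu q).2⟩)
  rw [Real.norm_eq_abs, e] at h
  rw [hc] at h
  rw [sub_sub]
  simpa using h

/-- The combination of free energies to be minimized. -/
noncomputable def selX (f : ℝ → ℝ) (hfm : Measurable f) (C : ℝ) (hC : ∀ x, |f x| ≤ C) (α : ℝ)
    (N M P : ℕ) (u : Fin P → ℝ) : ℝ :=
  (cubeBase f hfm C hC (N + 1) (M + 1)).elz (sN N) u -
      (cubeBase f hfm C hC N (M + 1)).elz (sN N) u - Real.log 2 +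
    α * ((cubeBase f hfm C hC N (M + 1)).elz (sN N) u - (cubeBase f hfm C hC N M).elz (sN N) u)

/-- The fluctuation of one process. -/
noncomputable def devq (f : ℝ → ℝ) (hfm : Measurable f) (C : ℝ) (hC : ∀ x, |f x| ≤ C)
    (N M P : ℕ) (q : Fin P) (u : Fin P → ℝ) : ℝ :=
  (cubeBase f hfm C hC N M).dev P (sN N) u q ((cubeBase f hfm C hC N M).mh P (sN N) u q)

lemma int_devq (hfm : Measurable f) (hC : ∀ x, |f x| ≤ C) (N M P : ℕ) (q : Fin P) :
    Integrable (devq f hfm C hC N M P q) (nuP P) :=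
  int_nuP ((cubeBase f hfm C hC N M).cont_dev (sN N) q)

lemma devq_nonneg (hfm : Measurable f) (hC : ∀ x, |f x| ≤ C) (N M P : ℕ) (q : Fin P)
    (u : Fin P → ℝ) : 0 ≤ devq f hfm C hC N M P q u :=
  (cubeBase f hfm C hC N M).dev_nonneg (sN N) u q _

/-- The total fluctuation. -/
noncomputable def selD (f : ℝ → ℝ) (hfm : Measurable f) (C : ℝ) (hC : ∀ x, |f x| ≤ C)
    (N M P : ℕ) (u : Fin P → ℝ) : ℝ :=
  ∑ q, (devq f hfm C hC N M P q u + devq f hfm C hC N (M + 1) P q u)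

lemma int_selX (hfm : Measurable f) (hC : ∀ x, |f x| ≤ C) (α : ℝ) (N M P : ℕ) :
    Integrable (selX f hfm C hC α N M P) (nuP P) :=
  (((int_elz hfm hC P (N + 1) (M + 1) (sN N)).sub
      (int_elz hfm hC P N (M + 1) (sN N))).sub (integrable_const _)).add
      (((int_elz hfm hC P N (M + 1) (sN N)).sub
        (int_elz hfm hC P N M (sN N))).const_mul α)

lemma integral_selX (hfm : Measurable f) (hC : ∀ x, |f x| ≤ C) (α : ℝ) (N M P : ℕ) :
    ∫ u, selX f hfm C hC α N M P u ∂(nuP P) =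
      (eav f hfm C hC P (N + 1) (M + 1) (sN N) -
        eav f hfm C hC P N (M + 1) (sN N) - Real.log 2) +
        α * (eav f hfm C hC P N (M + 1) (sN N) - eav f hfm C hC P N M (sN N)) := by
  have j1 := int_elz hfm hC P (N + 1) (M + 1) (sN N)
  have j2 := int_elz hfm hC P N (M + 1) (sN N)
  have j3 := int_elz hfm hC P N M (sN N)
  have j12 : Integrable (fun u : Fin P → ℝ => (cubeBase f hfm C hC (N + 1) (M + 1)).elz (sN N) u -
      (cubeBase f hfm C hC N (M + 1)).elz (sN N) u) (nuP P) := j1.sub j2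
  have j23 : Integrable (fun u : Fin P → ℝ => (cubeBase f hfm C hC N (M + 1)).elz (sN N) u -
      (cubeBase f hfm C hC N M).elz (sN N) u) (nuP P) := j2.sub j3
  have j12' : Integrable (fun u : Fin P → ℝ => (cubeBase f hfm C hC (N + 1) (M + 1)).elz (sN N) u -
      (cubeBase f hfm C hC N (M + 1)).elz (sN N) u - Real.log 2) (nuP P) :=
    j12.sub (integrable_const _)
  unfold selX eav
  rw [integral_add j12' (j23.const_mul α),
    integral_sub j12 (integrable_const _), integral_const_mul, integral_sub j1 j2,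
    integral_sub j2 j3]
  simp

lemma integral_selD_le (hfm : Measurable f) (hC : ∀ x, |f x| ≤ C) (N M P : ℕ) {A : ℝ}
    (hA : 0 ≤ A) (hM0 : (M : ℝ) * (2 * C) ^ 2 ≤ A * ((N : ℝ) + 1))
    (hM1 : (((M + 1 : ℕ)) : ℝ) * (2 * C) ^ 2 ≤ A * ((N : ℝ) + 1)) :
    ∫ u, selD f hfm C hC N M P u ∂(nuP P) ≤
      2 * (∑ q : Fin P, 2 ^ ((q : ℕ) + 1) * (15 + 3 * √(3 + A))) * √(√((N : ℝ) + 1)) := by
  have hd : ∀ q, Integrable (fun u => devq f hfm C hC N M P q u +
      devq f hfm C hC N (M + 1) P q u) (nuP P) := fun q =>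
    (int_devq hfm hC N M P q).add (int_devq hfm hC N (M + 1) P q)
  unfold selD
  rw [integral_finsetSum _ fun q _ => hd q]
  have h : ∀ q : Fin P, ∫ u, (devq f hfm C hC N M P q u +
      devq f hfm C hC N (M + 1) P q u) ∂(nuP P) ≤
      2 * (2 ^ ((q : ℕ) + 1) * (15 + 3 * √(3 + A)) * √(√((N : ℝ) + 1))) := fun q => by
    rw [integral_add (int_devq hfm hC N M P q) (int_devq hfm hC N (M + 1) P q)]
    have h0 := cubeBase_dev_le hfm hC q hA hM0
    have h1 := cubeBase_dev_le hfm hC q hA hM1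
    unfold devq
    linarith
  refine (Finset.sum_le_sum fun q _ => h q).trans (le_of_eq ?_)
  rw [← Finset.mul_sum, ← Finset.sum_mul]
  ring

/-- Choice of the parameters of the perturbation. -/
lemma select_u (hfm : Measurable f) (hC : ∀ x, |f x| ≤ C) {α : ℝ} (N M P : ℕ) {A : ℝ}
    (hA : 0 ≤ A) (hM0 : (M : ℝ) * (2 * C) ^ 2 ≤ A * ((N : ℝ) + 1))
    (hM1 : (((M + 1 : ℕ)) : ℝ) * (2 * C) ^ 2 ≤ A * ((N : ℝ) + 1)) {p ε lam K0 : ℝ}
    (hε : 0 < ε) (hε1 : ε ≤ 1) (hlam : lam = (|p| + 3 + K0) / ε) (hK0 : 0 ≤ K0)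
    (g1 : lam * (2 * ∑ q : Fin P, 2 ^ ((q : ℕ) + 1) * (15 + 3 * √(3 + A))) *
      (√(√((N : ℝ) + 1)) / sN N) ≤ ε)
    (hsel : (eav f hfm C hC P (N + 1) (M + 1) (sN N) -
        eav f hfm C hC P N (M + 1) (sN N) - Real.log 2) +
        α * (eav f hfm C hC P N (M + 1) (sN N) - eav f hfm C hC P N M (sN N)) ≤ p + 2 * ε)
    (hlow : ∀ u : Fin P → ℝ, (∀ q, 1 ≤ u q ∧ u q ≤ 2) → -K0 ≤ selX f hfm C hC α N M P u) :
    ∃ u : Fin P → ℝ, (∀ q, 1 ≤ u q ∧ u q ≤ 2) ∧ (∀ q, devq f hfm C hC N M P q u ≤ ε * sN N) ∧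
      (∀ q, devq f hfm C hC N (M + 1) P q u ≤ ε * sN N) ∧
      selX f hfm C hC α N M P u ≤ p + 3 * ε := by
  have hs1 := sN_ge N
  have hs0 : 0 < sN N := by linarith
  have hlam0 : 0 < lam := by
    have := abs_nonneg p
    have : 0 < |p| + 3 + K0 := by linarith only [hK0, this]
    rw [hlam]
    positivity
  have hX := int_selX hfm hC α N M P
  have hDv : Integrable (selD f hfm C hC N M P) (nuP P) :=
    integrable_finsetSum _ fun q _ =>
      (int_devq hfm hC N M P q).add (int_devq hfm hC N (M + 1) P q)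
  have hY : Integrable (fun u => selX f hfm C hC α N M P u +
      lam / sN N * selD f hfm C hC N M P u) (nuP P) := hX.add (hDv.const_mul _)
  have iY : ∫ u, (selX f hfm C hC α N M P u + lam / sN N * selD f hfm C hC N M P u) ∂(nuP P) ≤
      p + 3 * ε := by
    rw [integral_add hX (hDv.const_mul _), integral_const_mul, integral_selX]
    have h1 := mul_le_mul_of_nonneg_left (integral_selD_le hfm hC N M P hA hM0 hM1)
      (show 0 ≤ lam / sN N by positivity)
    have h2 : lam / sN N * (2 * (∑ q : Fin P, 2 ^ ((q : ℕ) + 1) * (15 + 3 * √(3 + A))) *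
        √(√((N : ℝ) + 1))) =
        lam * (2 * ∑ q : Fin P, 2 ^ ((q : ℕ) + 1) * (15 + 3 * √(3 + A))) *
          (√(√((N : ℝ) + 1)) / sN N) := by ring
    linarith only [hfm, hC, g1, hsel, h1, h2]
  obtain ⟨u, hu, hYu⟩ := exists_notMem_null_le_integral hY (ae_iff.1 (ae_nuP P))
  have hu' : ∀ q, 1 ≤ u q ∧ u q ≤ 2 := by simpa using hu
  have hYu' := hYu.trans iY
  have hXK := hlow u hu'
  have hDv0 : 0 ≤ selD f hfm C hC N M P u := Finset.sum_nonneg fun q _ =>
    add_nonneg (devq_nonneg hfm hC N M P q u) (devq_nonneg hfm hC N (M + 1) P q u)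
  have hDvle : selD f hfm C hC N M P u ≤ ε * sN N := by
    have h1 : lam / sN N * selD f hfm C hC N M P u ≤ |p| + 3 + K0 := by
      have := le_abs_self p
      linarith only [hfm, hC, hε1, iY, hYu, hXK, this]
    have h2 : |p| + 3 + K0 = lam * ε := by rw [hlam]; field_simp
    rw [h2, div_mul_eq_mul_div, div_le_iff₀ hs0, mul_assoc] at h1
    exact le_of_mul_le_mul_left h1 hlam0
  have hsingle : ∀ q, devq f hfm C hC N M P q u + devq f hfm C hC N (M + 1) P q u ≤
      selD f hfm C hC N M P u := fun q =>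
    Finset.single_le_sum (f := fun q => devq f hfm C hC N M P q u +
      devq f hfm C hC N (M + 1) P q u)
      (fun q _ => add_nonneg (devq_nonneg hfm hC N M P q u)
        (devq_nonneg hfm hC N (M + 1) P q u)) (Finset.mem_univ q)
  refine ⟨u, hu', fun q => ?_, fun q => ?_, ?_⟩
  · have := hsingle q
    have := devq_nonneg hfm hC N (M + 1) P q u
    linarith
  · have := hsingle q
    have := devq_nonneg hfm hC N M P q u
    linarith
  · have h1 : 0 ≤ lam / sN N * selD f hfm C hC N M P u := by positivity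
    linarith only [hfm, hC, iY, hYu, h1]

/-- Comparison with the cavity form, and lower bound. -/
lemma selX_low (hf : CB3 C f f1 f2 f3) (hfm : Measurable f) {α D ε : ℝ} (hα : 0 < α)
    (hD0 : 0 ≤ D) {N M P : ℕ}
    (hD : ∀ u : Fin P → ℝ, (∀ q, 0 ≤ u q ∧ u q ≤ 2) →
      |(cubeBase f hfm C hf.b0 (N + 1) (M + 1)).elz (sN N) u -
        (cubeBase f hfm C hf.b0 N (M + 1)).elz (sN N) u -
        Real.log 2 - cubeDN f f1 f2 hfm C hf.b0 N (M + 1) P (sN N) u| ≤
      D * (((M + 1 : ℕ) : ℝ) * (1 / ((N : ℝ) + 2) * √(1 / ((N : ℝ) + 2))) +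
        sN N ^ 2 / ((N : ℝ) + 1)))
    (hMδ : ((M : ℝ) + 1) * (1 / ((N : ℝ) + 2)) ≤ α + 1)
    (g2 : D * ((α + 1) * √(1 / ((N : ℝ) + 2)) + sN N ^ 2 / ((N : ℝ) + 1)) ≤ ε)
    {u : Fin P → ℝ} (hu : ∀ q, 1 ≤ u q ∧ u q ≤ 2) :
    cubeDN f f1 f2 hfm C hf.b0 N (M + 1) P (sN N) u +
      α * ((cubeBase f hfm C hf.b0 N M).sys P (sN N) u).dM f - ε ≤
        selX f hfm C hf.b0 α N M P u ∧
    -(Real.exp ((α + 1) * C ^ 2 / 2) - 1) - α * C ≤
      cubeDN f f1 f2 hfm C hf.b0 N (M + 1) P (sN N) u +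
      α * ((cubeBase f hfm C hf.b0 N M).sys P (sN N) u).dM f := by
  have hspin := hD u fun q => ⟨by linarith [(hu q).1], (hu q).2⟩
  have hMc : (((M + 1 : ℕ)) : ℝ) = (M : ℝ) + 1 := by push_cast; ring
  have herr : D * (((M + 1 : ℕ) : ℝ) * (1 / ((N : ℝ) + 2) * √(1 / ((N : ℝ) + 2))) +
      sN N ^ 2 / ((N : ℝ) + 1)) ≤ ε := by
    refine le_trans (mul_le_mul_of_nonneg_left ?_ hD0) g2
    rw [hMc, ← mul_assoc]
    have := mul_le_mul_of_nonneg_right hMδ (Real.sqrt_nonneg (1 / ((N : ℝ) + 2)))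
    linarith only [this]
  have hdM := abs_le.1 (abs_dM_le hfm hf.b0 N M P (sN N) u)
  constructor
  · have h1 := (abs_le.1 (hspin.trans herr)).1
    unfold selX
    rw [pattern_increment hfm C hf.b0 N M P (sN N) u]
    linarith only [hfm, hf, h1]
  · have hDNlow : -(Real.exp ((α + 1) * C ^ 2 / 2) - 1) ≤
        cubeDN f f1 f2 hfm C hf.b0 N (M + 1) P (sN N) u := by
      refine le_trans ?_ (cubeDN_ge hf hfm N (M + 1) P (sN N) u)
      rw [neg_le_neg_iff, hMc]
      have h0 : ((M : ℝ) + 1) * (1 / ((N : ℝ) + 2)) * C ^ 2 / 2 ≤ (α + 1) * C ^ 2 / 2 := by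
        have := mul_le_mul_of_nonneg_right hMδ (sq_nonneg C)
        linarith only [this]
      have := Real.exp_le_exp.2 h0
      linarith only [this]
    have h1 : -(α * C) ≤ α * ((cubeBase f hfm C hf.b0 N M).sys P (sN N) u).dM f := by
      have := mul_le_mul_of_nonneg_left hdM.1 hα.le
      linarith only [hfm, hf, this]
    linarith only [hfm, hf, hDNlow, h1]

/-- Selection of the size and of the number of patterns. -/
lemma selection_N (hf : CB3 C f f1 f2 f3) (hfm : Measurable f) {α p : ℝ} (hα : 0 < α)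
    (hp : ∀ ε > 0, ∃ᶠ N in atTop, meanPressure cube α f N < p + ε) {ε : ℝ} (hε : 0 < ε)
    (P : ℕ) :
    ∃ L : ℝ, 1 ≤ L ∧ ∀ N₀ : ℕ, ∃ N M : ℕ, N₀ ≤ N ∧ α * ((N : ℝ) + 2) - 1 ≤ M ∧
      (M : ℝ) ≤ α * ((N : ℝ) + 2) + L ∧
      (eav f hfm C hf.b0 P (N + 1) M (sN N) - eav f hfm C hf.b0 P N M (sN N) -
      Real.log 2) + α * (eav f hfm C hf.b0 P N M (sN N) -
        eav f hfm C hf.b0 P N (M - 1) (sN N)) ≤ p + 2 * ε := by
  have hC0 : 0 ≤ C := (abs_nonneg _).trans (hf.b0 0)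
  obtain ⟨L, hL1, hL⟩ := window_selection'
    (a := fun N M => eav f hfm C hf.b0 P N M (sN N) - (N + 1) * Real.log 2)
    (c := fun N M => eav f hfm C hf.b0 P (N + 1) M (sN N) - eav f hfm C hf.b0 P N M (sN N) -
      Real.log 2) (C := C) (α := α) (p := p) (m := fun N => meanPressure cube α f N)
    (κ := fun N => sN N ^ 2) hC0 hα
    (fun N M => by
      rw [sub_sub_sub_cancel_right]
      exact eav_step hfm hf.b0 P N M (sN N))
    (fun N M => by
      have h := eav_mono hfm hf.b0 P (N + 1) M (s := sN N) (s' := sN (N + 1))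
        (by linarith [sN_ge N]) (sN_mono (Nat.le_succ N)) (by linarith [sN_ge (N + 1)])
      push_cast
      linarith)
    (fun N => by
      have h := eav_pert hfm hf.b0 P N ⌊α * ((N + 1 : ℕ) : ℝ)⌋₊ (s := sN N)
        (by linarith [sN_ge N])
      have e : ((N : ℝ) + 1) * meanPressure cube α f (N + 1) =
          ∫ g, ((N : ℝ) + 1) * pressure (cube (N + 1)) f g
            ∂(patterns ⌊α * ((N + 1 : ℕ) : ℝ)⌋₊ (N + 1)) := by
        unfold meanPressure
        rw [integral_const_mul]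
      rw [e]
      exact h)
    tendsto_sN_sq_div hp hε
  refine ⟨L, hL1, fun N₀ => ?_⟩
  obtain ⟨N, M, h1, h2, h3, h4⟩ := hL N₀
  refine ⟨N, M, h1, h2, h3, ?_⟩
  rw [sub_sub_sub_cancel_right] at h4
  exact h4

/-- The conditions on large `N`. -/
lemma large_N (α D L Kl ε : ℝ) (hα : 0 < α) (hε : 0 < ε) (N₀ : ℕ) :
    ∃ N₁ : ℕ, ∀ N, N₁ ≤ N → Kl * (√(√((N : ℝ) + 1)) / sN N) ≤ ε ∧
      D * ((α + 1) * √(1 / ((N : ℝ) + 2)) + sN N ^ 2 / ((N : ℝ) + 1)) ≤ ε ∧
      (2 * α + L + 2) / (N : ℝ) ≤ ε ∧ L ≤ (N : ℝ) ∧ 2 ≤ α * N ∧ 1 ≤ N ∧ N₀ ≤ N := by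
  have l1 : ∀ᶠ N : ℕ in atTop, Kl * (√(√((N : ℝ) + 1)) / sN N) ≤ ε := by
    have h := (tendsto_sqrt_sqrt_div_sN).const_mul Kl
    rw [mul_zero] at h
    exact h.eventually (ge_mem_nhds hε)
  have l2 : ∀ᶠ N : ℕ in atTop, D * ((α + 1) * √(1 / ((N : ℝ) + 2)) +
      sN N ^ 2 / ((N : ℝ) + 1)) ≤ ε := by
    have h1 : Tendsto (fun N : ℕ => √(1 / ((N : ℝ) + 2))) atTop (𝓝 0) := by
      have h2 : Tendsto (fun N : ℕ => 1 / ((N : ℝ) + 2)) atTop (𝓝 0) := by
        have := (tendsto_const_div_atTop_nhds_zero_nat (1 : ℝ)).comp (tendsto_add_atTop_nat 2)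
        refine this.congr fun N => ?_
        simp only [Function.comp_apply]
        push_cast
        rfl
      have h3 := h2.sqrt
      rwa [Real.sqrt_zero] at h3
    have h := ((h1.const_mul (α + 1)).add tendsto_sN_sq_div).const_mul D
    rw [mul_zero, add_zero, mul_zero] at h
    exact h.eventually (ge_mem_nhds hε)
  have l3 : ∀ᶠ N : ℕ in atTop, (2 * α + L + 2) / (N : ℝ) ≤ ε :=
    (tendsto_const_div_atTop_nhds_zero_nat (2 * α + L + 2)).eventually (ge_mem_nhds hε)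
  have l4 : ∀ᶠ N : ℕ in atTop, L ≤ (N : ℝ) :=
    tendsto_natCast_atTop_atTop.eventually_ge_atTop L
  have l5 : ∀ᶠ N : ℕ in atTop, 2 / α ≤ (N : ℝ) :=
    tendsto_natCast_atTop_atTop.eventually_ge_atTop (2 / α)
  obtain ⟨N₁, hN₁⟩ := eventually_atTop.1 (l1.and (l2.and (l3.and (l4.and (l5.and
    ((eventually_ge_atTop 1).and (eventually_ge_atTop N₀)))))))
  refine ⟨N₁, fun N hN => ?_⟩
  obtain ⟨g1, g2, g3, g4, g5, g6, g7⟩ := hN₁ N hN
  exact ⟨g1, g2, g3, g4, by rwa [div_le_iff₀' hα] at g5, g6, g7⟩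

/-- Selection of the size, of the number of patterns and of the parameters of the perturbation. -/
theorem selection_step (hf : CB3 C f f1 f2 f3) (hfm : Measurable f) {α p : ℝ} (hα : 0 < α)
    (hp : ∀ ε > 0, ∃ᶠ N in atTop, meanPressure cube α f N < p + ε) {ε : ℝ} (hε : 0 < ε)
    (hε1 : ε ≤ 1) (P N₀ : ℕ) :
    ∃ (N M : ℕ) (u : Fin P → ℝ), N₀ ≤ N ∧ |(M : ℝ) / N - α| ≤ ε ∧ (∀ q, 1 ≤ u q) ∧
      (∀ q, devq f hfm C hf.b0 N M P q u ≤ ε * sN N) ∧
      (∀ q, devq f hfm C hf.b0 N (M + 1) P q u ≤ ε * sN N) ∧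
      cubeDN f f1 f2 hfm C hf.b0 N (M + 1) P (sN N) u +
        α * ((cubeBase f hfm C hf.b0 N M).sys P (sN N) u).dM f ≤ p + 4 * ε := by
  have hC0 : 0 ≤ C := (abs_nonneg _).trans (hf.b0 0)
  obtain ⟨D, hD0, hD⟩ := spin_increment hf hfm
  obtain ⟨L, hL1, hL⟩ := selection_N hf hfm hα hp hε P
  have hL0 : 0 < L := by linarith
  -- constants
  set A : ℝ := (2 * C) ^ 2 * (2 * α + L + 1) with hA
  have hA0 : 0 ≤ A := by positivity
  set K0 : ℝ := (Real.exp ((α + 1) * C ^ 2 / 2) - 1) + 1 + α * C with hK0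
  have hK00 : 0 ≤ K0 := by
    have h1 : 0 ≤ (α + 1) * C ^ 2 / 2 := by positivity
    have h2 := Real.one_le_exp h1
    have h3 : 0 ≤ α * C := by positivity
    linarith only [h2, h3]
  obtain ⟨N₁, hN₁⟩ := large_N α D L ((|p| + 3 + K0) / ε *
    (2 * ∑ q : Fin P, 2 ^ ((q : ℕ) + 1) * (15 + 3 * √(3 + A)))) ε hα hε N₀
  obtain ⟨N, M₁, hN, hM1, hM2, hsel⟩ := hL N₁
  obtain ⟨g1, g2, g3, g4, g5, hN1, hN0⟩ := hN₁ N hN
  have hNr : (1 : ℝ) ≤ N := by exact_mod_cast hN1
  -- `M₁ = M + 1`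
  have hM1pos : 1 ≤ M₁ := by
    have h2 : (1 : ℝ) ≤ M₁ := by linarith only [hα, hM1, g5]
    exact_mod_cast h2
  obtain ⟨M, rfl⟩ : ∃ M, M₁ = M + 1 := ⟨M₁ - 1, by omega⟩
  have hMc : (((M + 1 : ℕ)) : ℝ) = (M : ℝ) + 1 := by push_cast; ring
  rw [hMc] at hM1 hM2
  rw [Nat.add_sub_cancel] at hsel
  have hMr0 : (0 : ℝ) ≤ M := Nat.cast_nonneg M
  -- bounds on the number of patterns
  have hMA : ((M : ℝ) + 1) ≤ (2 * α + L + 1) * ((N : ℝ) + 1) := by nlinarith only [hL1, g4, g5, hM2]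
  have hMA1 : (((M + 1 : ℕ)) : ℝ) * (2 * C) ^ 2 ≤ A * ((N : ℝ) + 1) := by
    rw [hMc, hA]
    linarith only [mul_nonneg (sub_nonneg.2 hMA) (sq_nonneg (2 * C))]
  have hMA0 : (M : ℝ) * (2 * C) ^ 2 ≤ A * ((N : ℝ) + 1) := by
    rw [hMc] at hMA1
    linarith only [hMA1, sq_nonneg (2 * C)]
  have hNp2 : (0 : ℝ) < (N : ℝ) + 2 := by linarith only [hL1, g4]
  have hMδ : ((M : ℝ) + 1) * (1 / ((N : ℝ) + 2)) ≤ α + 1 := by
    rw [mul_one_div, div_le_iff₀ hNp2]
    linarith only [g4, hM2]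
  have hlow : ∀ u : Fin P → ℝ, (∀ q, 1 ≤ u q ∧ u q ≤ 2) → _ := fun u hu =>
    selX_low hf hfm (u := u) hα hD0 (fun u hu => hD N (M + 1) P (sN N) u
      (by linarith only [sN_ge N]) hu) hMδ g2 hu
  obtain ⟨u, hu, hd0, hd1, hX⟩ := select_u hfm hf.b0 (α := α) N M P hA0 hMA0 hMA1 hε hε1 rfl
    hK00 g1 hsel (fun u hu => by
      obtain ⟨h1, h2⟩ := hlow u hu
      linarith only [hfm, hf, hε1, h1, h2])
  refine ⟨N, M, u, hN0, ?_, fun q => (hu q).1, hd0, hd1, ?_⟩
  · have h1 : |(M : ℝ) - α * N| ≤ 2 * α + L + 2 := by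
      rw [abs_le]
      constructor <;> linarith only [hα, hL1, hM1, hM2]
    have h2 : (M : ℝ) / N - α = ((M : ℝ) - α * N) / N := by field_simp
    rw [h2, abs_div, abs_of_pos (show (0 : ℝ) < N by linarith only [hL1, g4])]
    exact (div_le_div_of_nonneg_right h1 (by linarith only [hL1, g4])).trans g3
  · have h1 := (hlow u hu).1
    linarith only [hfm, hf, hX, h1]

/-- Selection of the parameters along a sequence. -/
theorem exists_selection {f f1 f2 f3 : ℝ → ℝ} {C : ℝ} (hf : CB3 C f f1 f2 f3)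
    (hfm : Measurable f) {α p : ℝ} (hα : 0 < α)
    (hp : ∀ ε > 0, ∃ᶠ N in atTop, meanPressure cube α f N < p + ε) :
    ∃ (N M P : ℕ → ℕ) (s : ℕ → ℝ) (u : ∀ j, Fin (P j) → ℝ),
      Tendsto N atTop atTop ∧
      Tendsto (fun j => (M j : ℝ) / (N j : ℝ)) atTop (𝓝 α) ∧
      (∀ p : ℕ, AsympGG (hyperfilter ℕ) (fun j =>
        (cubeBase f hfm C hf.b0 (N j) (M j)).sys (P j) (s j) (u j)) (fun x => x ^ p)) ∧
      (∀ p : ℕ, AsympGG (hyperfilter ℕ) (fun j =>
        (cubeBase f hfm C hf.b0 (N j) (M j + 1)).sys (P j) (s j) (u j)) (fun x => x ^ p)) ∧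
      ∀ ε > 0, ∀ᶠ j in atTop,
        cubeDN f f1 f2 hfm C hf.b0 (N j) (M j + 1) (P j) (s j) (u j) +
          α * ((cubeBase f hfm C hf.b0 (N j) (M j)).sys (P j) (s j) (u j)).dM f ≤ p + ε := by
  have key : ∀ j : ℕ, ∃ (N M : ℕ) (u : Fin j → ℝ), j ≤ N ∧
      |(M : ℝ) / N - α| ≤ 1 / ((j : ℝ) + 1) ∧ (∀ q, 1 ≤ u q) ∧
      (∀ q, devq f hfm C hf.b0 N M j q u ≤ 1 / ((j : ℝ) + 1) * sN N) ∧
      (∀ q, devq f hfm C hf.b0 N (M + 1) j q u ≤ 1 / ((j : ℝ) + 1) * sN N) ∧
      cubeDN f f1 f2 hfm C hf.b0 N (M + 1) j (sN N) u +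
        α * ((cubeBase f hfm C hf.b0 N M).sys j (sN N) u).dM f ≤
          p + 4 * (1 / ((j : ℝ) + 1)) := fun j =>
    selection_step hf hfm hα hp (by positivity)
      (by rw [div_le_one (by positivity)]; linarith [(Nat.cast_nonneg j : (0 : ℝ) ≤ j)]) j j
  choose N M u hN hM hu hd0 hd1 hdn using key
  have h0 : Tendsto (fun j : ℕ => 1 / ((j : ℝ) + 1)) atTop (𝓝 0) :=
    tendsto_one_div_add_atTop_nhds_zero_nat
  have hU : (hyperfilter ℕ : Filter ℕ) ≤ atTop := by
    rw [← Nat.cofinite_eq_atTop]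
    exact hyperfilter_le_cofinite
  have hsmall : ∀ ε > 0, ∀ᶠ j : ℕ in (hyperfilter ℕ : Filter ℕ), 1 / ((j : ℝ) + 1) ≤ ε :=
    fun ε hε => (h0.eventually (ge_mem_nhds hε)).filter_mono hU
  refine ⟨N, M, fun j => j, fun j => sN (N j), u, ?_, ?_, ?_, ?_, ?_⟩
  · exact tendsto_atTop_mono hN tendsto_id
  · rw [tendsto_iff_norm_sub_tendsto_zero]
    exact squeeze_zero (fun _ => norm_nonneg _) (fun j => by
      rw [Real.norm_eq_abs]; exact hM j) h0
  · intro r
    refine asympGG_of_dev (fun j => cubeBase f hfm C hf.b0 (N j) (M j)) (fun j => j)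
      (fun j => sN (N j)) u (Filter.Eventually.of_forall fun j => by linarith [sN_ge (N j)])
      (Filter.Eventually.of_forall hu)
      (fun j q => (cubeBase f hfm C hf.b0 (N j) (M j)).mh j (sN (N j)) (u j) q)
      (fun r => (eventually_gt_atTop r).filter_mono hU) (fun r ε hε => ?_) r
    filter_upwards [hsmall ε hε] with j hj h
    exact (hd0 j ⟨r, h⟩).trans (mul_le_mul_of_nonneg_right hj (by linarith [sN_ge (N j)]))
  · intro r
    refine asympGG_of_dev (fun j => cubeBase f hfm C hf.b0 (N j) (M j + 1)) (fun j => j)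
      (fun j => sN (N j)) u (Filter.Eventually.of_forall fun j => by linarith [sN_ge (N j)])
      (Filter.Eventually.of_forall hu)
      (fun j q => (cubeBase f hfm C hf.b0 (N j) (M j + 1)).mh j (sN (N j)) (u j) q)
      (fun r => (eventually_gt_atTop r).filter_mono hU) (fun r ε hε => ?_) r
    filter_upwards [hsmall ε hε] with j hj h
    exact (hd1 j ⟨r, h⟩).trans (mul_le_mul_of_nonneg_right hj (by linarith [sN_ge (N j)]))
  · intro ε hε
    have h1 : Tendsto (fun j : ℕ => 4 * (1 / ((j : ℝ) + 1))) atTop (𝓝 0) := by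
      have := h0.const_mul 4
      rwa [mul_zero] at this
    filter_upwards [h1.eventually (ge_mem_nhds hε)] with j hj
    have := hdn j
    linarith

end Sel

end Vale.Agent.P157.Par
end

section

open MeasureTheory ProbabilityTheory

namespace Vale.Agent.P146

/-- real value of the spin at `v` -/
noncomputable def sp {n : ℕ} (σ : Fin n → ℤˣ) (v : Fin n) : ℝ := ((σ v : ℤ) : ℝ)

lemma sp_sq {n : ℕ} (σ : Fin n → ℤˣ) (v : Fin n) : sp σ v * sp σ v = 1 := by
  unfold sp
  have : ((σ v : ℤ)) * (σ v : ℤ) = 1 := by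
    rw [← Units.val_mul, Int.units_mul_self, Units.val_one]
  exact_mod_cast this

lemma abs_sp {n : ℕ} (σ : Fin n → ℤˣ) (v : Fin n) : |sp σ v| = 1 := by
  have h := sp_sq σ v
  have h2 : |sp σ v| * |sp σ v| = 1 := by rw [← abs_mul, h, abs_one]
  nlinarith [abs_nonneg (sp σ v)]

/-- spin product -/
noncomputable def chi {n : ℕ} (A : Finset (Fin n)) (σ : Fin n → ℤˣ) : ℝ := ∏ v ∈ A, sp σ v

lemma abs_chi {n : ℕ} (A : Finset (Fin n)) (σ : Fin n → ℤˣ) : |chi A σ| = 1 := by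
  unfold chi
  rw [Finset.abs_prod]
  exact Finset.prod_eq_one fun v _ => abs_sp σ v

lemma chi_empty {n : ℕ} (σ : Fin n → ℤˣ) : chi ∅ σ = 1 := by simp [chi]

lemma chi_eq_univ {n : ℕ} (A : Finset (Fin n)) (σ : Fin n → ℤˣ) :
    chi A σ = ∏ v, if v ∈ A then sp σ v else 1 := by
  unfold chi
  rw [Finset.prod_ite_mem, Finset.univ_inter]

lemma chi_symmDiff {n : ℕ} (A B : Finset (Fin n)) (σ : Fin n → ℤˣ) :
    chi (symmDiff A B) σ = chi A σ * chi B σ := by
  rw [chi_eq_univ, chi_eq_univ, chi_eq_univ, ← Finset.prod_mul_distrib]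
  refine Finset.prod_congr rfl fun v _ => ?_
  have := sp_sq σ v
  by_cases h1 : v ∈ A <;> by_cases h2 : v ∈ B <;>
    simp [Finset.mem_symmDiff, h1, h2, this]

/-- the two sites of a pair -/
def ps {n : ℕ} (p : Pair n) : Finset (Fin n) := {p.1.1, p.1.2}

lemma ps_card {n : ℕ} (p : Pair n) : (ps p).card = 2 :=
  Finset.card_pair p.2.ne

lemma chi_ps {n : ℕ} (p : Pair n) (σ : Fin n → ℤˣ) :
    chi (ps p) σ = sp σ p.1.1 * sp σ p.1.2 := by
  unfold chi ps
  rw [Finset.prod_pair p.2.ne]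

/-- coefficients of the SK Hamiltonian at inverse temperature `β` -/
noncomputable def ska (n : ℕ) (β : ℝ) (σ : Fin n → ℤˣ) (p : Pair n) : ℝ :=
  (β / Real.sqrt n) * chi (ps p) σ

lemma ska_sum (n : ℕ) (β : ℝ) (σ : Fin n → ℤˣ) (g : Pair n → ℝ) :
    ∑ p, ska n β σ p * g p = β * hamiltonian n g σ := by
  unfold ska hamiltonian
  rw [Finset.mul_sum, Finset.mul_sum]
  refine Finset.sum_congr rfl fun p _ => ?_
  rw [chi_ps]
  unfold sp
  ring

/-- Gibbs average of a spin function -/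
noncomputable def avf (n : ℕ) (β : ℝ) (f : (Fin n → ℤˣ) → ℝ) (g : Pair n → ℝ) : ℝ :=
  gav (ska n β) (fun _ => 0) f g

/-- Gibbs average of a spin product -/
noncomputable def av (n : ℕ) (β : ℝ) (A : Finset (Fin n)) (g : Pair n → ℝ) : ℝ :=
  avf n β (chi A) g

lemma partitionFn_eq (n : ℕ) (β : ℝ) (g : Pair n → ℝ) :
    partitionFn n β g = zz (ska n β) (fun _ => 0) g := by
  unfold partitionFn zz wt
  refine Finset.sum_congr rfl fun σ _ => ?_
  rw [ska_sum, add_zero]

lemma freeEnergy_eq (n : ℕ) (β : ℝ) (g : Pair n → ℝ) :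
    freeEnergy n β g = Real.log (zz (ska n β) (fun _ => 0) g) := by
  unfold freeEnergy
  rw [partitionFn_eq]

lemma freeEnergy_dom (n : ℕ) (β : ℝ) : Dom (freeEnergy n β) :=
  (log_zz_dom (ska n β) (fun _ => 0)).congr fun g => freeEnergy_eq n β g

lemma av_dom (n : ℕ) (β : ℝ) (A : Finset (Fin n)) : Dom (av n β A) :=
  gav_dom _ _ _

lemma abs_av_le (n : ℕ) (β : ℝ) (A : Finset (Fin n)) (g : Pair n → ℝ) :
    |av n β A g| ≤ 1 :=
  abs_gav_le _ _ (fun s => (abs_chi A s).le) g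

lemma av_empty (n : ℕ) (β : ℝ) (g : Pair n → ℝ) : av n β ∅ g = 1 := by
  unfold av avf
  have : (chi (∅ : Finset (Fin n))) = fun _ => (1 : ℝ) := by
    ext σ; exact chi_empty σ
  rw [this]
  exact gav_const _ _ 1 g

lemma hasDerivAt_freeEnergy (n : ℕ) (β : ℝ) (g : Pair n → ℝ) (p : Pair n) (t : ℝ) :
    HasDerivAt (fun t => freeEnergy n β (Function.update g p t))
      ((β / Real.sqrt n) * av n β (ps p) (Function.update g p t)) t := by
  have h := hasDerivAt_log_zz (ska n β) (fun _ => 0) g p t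
  have e : (fun t => freeEnergy n β (Function.update g p t))
      = fun t => Real.log (zz (ska n β) (fun _ => 0) (Function.update g p t)) := by
    ext t; exact freeEnergy_eq n β _
  rw [e]
  refine h.congr_deriv ?_
  unfold av avf
  rw [← gav_const_mul]
  rfl

lemma hasDerivAt_av (n : ℕ) (β : ℝ) (A : Finset (Fin n)) (g : Pair n → ℝ) (p : Pair n)
    (t : ℝ) :
    HasDerivAt (fun t => av n β A (Function.update g p t))
      ((β / Real.sqrt n) * (av n β (symmDiff A (ps p)) (Function.update g p t)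
        - av n β A (Function.update g p t) * av n β (ps p) (Function.update g p t))) t := by
  have h := hasDerivAt_gav (ska n β) (fun _ => 0) (chi A) g p t
  refine h.congr_deriv ?_
  unfold av avf
  have e1 : (fun s => chi A s * ska n β s p)
      = fun s => (β / Real.sqrt n) * chi (symmDiff A (ps p)) s := by
    ext s; rw [chi_symmDiff]; unfold ska; ring
  have e2 : (fun s => ska n β s p) = fun s => (β / Real.sqrt n) * chi (ps p) s := by
    ext s; rfl
  rw [e1, e2, gav_const_mul, gav_const_mul]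
  ring

end Vale.Agent.P146
end
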