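import Vale.Agent.P146.Bdl.B1
import Vale.Agent.P146.Bdl.B2
import Vale.Agent.P146.Defs
import Vale.Agent.P146.Bdl.B21
import Vale.Agent.P146.Bdl.B19
import Vale.Agent.P146.Bdl.B6
import Vale.Agent.P146.Bdl.B4
import Vale.Agent.P146.Bdl.B13
import Vale.Agent.P146.Bdl.B18

set_option linter.all false

section

/-!
# P146, module VAR: the disorder as a function of `z`
-/

open MeasureTheory ProbabilityTheory Finset Matrix Filter Topology

namespace Vale.Agent.P146.Sk

open Vale.Agent.P157.Lv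
open Vale.Agent.P157.Par (lin integral_lin_congr)

set_option linter.all false

variable {N : ℕ}

/-- the disorder `g_p = (z_p + z_{p'})/√2` -/
noncomputable def phi (z : Ix N → ℝ) (p : Pair N) : ℝ := (z p.1 + z (p.1.2, p.1.1)) / √2

lemma measurable_phi : Measurable (phi (N := N)) := by
  unfold phi; fun_prop

lemma lin_one (g : Pair N → ℝ) :
    Vale.Agent.P157.Par.lin (fun a b : Pair N => if b = a then (1 : ℝ) else 0) g = g := by
  funext a
  simp [Vale.Agent.P157.Par.lin]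

lemma lin_phi (z : Ix N → ℝ) :
    Vale.Agent.P157.Par.lin (fun (p : Pair N) (e : Ix N) => (if e = p.1 then (1 : ℝ) / √2 else 0) +
      (if e = (p.1.2, p.1.1) then (1 : ℝ) / √2 else 0)) z = phi z := by
  funext p
  simp only [Vale.Agent.P157.Par.lin, add_mul, sum_add_distrib, ite_mul, zero_mul, sum_ite_eq', mem_univ, if_true, phi]
  ring

/-- change of variables -/
theorem integral_disorder {G : (Pair N → ℝ) → ℝ} (hG : Measurable G) :
    ∫ g, G g ∂(disorder N) = ∫ z, G (phi z) ∂(gI (Ix N)) := by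
  have h := integral_lin_congr (J := Pair N) (K := Pair N) (K' := Ix N)
    (U := fun a b : Pair N => if b = a then (1 : ℝ) else 0)
    (V := fun (p : Pair N) (e : Ix N) => (if e = p.1 then (1 : ℝ) / √2 else 0) +
      (if e = (p.1.2, p.1.1) then (1 : ℝ) / √2 else 0)) ?_ hG
  · simp only [lin_one, lin_phi] at h
    exact h
  · intro p q
    have hs : (√2 : ℝ) * √2 = 2 := Real.mul_self_sqrt (by norm_num)
    have hs0 : (√2 : ℝ) ≠ 0 := by positivity
    have hs2 : (1 / √2 : ℝ) * (1 / √2) = 1 / 2 := by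
      rw [one_div_mul_one_div, hs]
    simp only [Vale.Agent.P157.Par.gram, mul_add, add_mul, sum_add_distrib, ite_mul, zero_mul, mul_ite, mul_zero,
      sum_ite_eq', mem_univ, if_true, mul_one, one_mul]
    have h1 : (q = p) ↔ (q.1 = p.1) := Subtype.ext_iff
    have hp := p.2
    have hq := q.2
    have h2 : ¬ (q.1 = (p.1.2, p.1.1)) := by
      intro h
      rw [Prod.ext_iff] at h
      have := h.1; have := h.2
      simp only at *
      omega
    have h3 : ¬ ((q.1.2, q.1.1) = p.1) := by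
      intro h
      rw [Prod.ext_iff] at h
      have := h.1; have := h.2
      simp only at *
      omega
    have h4 : ((q.1.2, q.1.1) = (p.1.2, p.1.1)) ↔ (q.1 = p.1) := by
      constructor
      · intro h
        rw [Prod.ext_iff] at h ⊢
        exact ⟨h.2, h.1⟩
      · intro h
        rw [h]
    rw [if_neg h2, if_neg h3, hs2]
    simp only [h1, h4]
    split_ifs <;> norm_num

end Vale.Agent.P146.Sk
end

section

/-!
# P146, module VAR: lower bound for the variance of the free energy by the correlations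
`(β/N) E ⟨σ·U_p(W)σ⟩`
-/

open MeasureTheory ProbabilityTheory Finset Matrix Filter Topology Polynomial

namespace Vale.Agent.P146.Sk.Vr

open Vale.Agent.P146.Sk Vale.Agent.P157.Lv

set_option linter.all false

variable {N : ℕ} {I : Finset ℕ} {γ : ℕ → ℝ}

/-- the spins as real numbers -/
def sg (σ : Fin N → ℤˣ) (i : Fin N) : ℝ := ((σ i : ℤ) : ℝ)

/-- the quadratic form of `A` -/
def qf (A : Matrix (Fin N) (Fin N) ℝ) (σ : Fin N → ℤˣ) : ℝ :=
  ∑ e : Ix N, A e.1 e.2 * (sg σ e.1 * sg σ e.2)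

/-- Gibbs average for the energy `(β/2) σ·Wσ` -/
noncomputable def gb (β : ℝ) (z : Ix N → ℝ) (f : (Fin N → ℤˣ) → ℝ) : ℝ :=
  (∑ σ, f σ * Real.exp (β / 2 * qf (Wm N z) σ)) / ∑ σ, Real.exp (β / 2 * qf (Wm N z) σ)

/-- the correlation `(β/N) E ⟨σ·U_p(W)σ⟩` -/
noncomputable def corr (β : ℝ) (p N : ℕ) : ℝ :=
  β / N * ∫ z, gb β z (fun σ => qf (Um (Wm N z) p) σ) ∂(gI (Ix N))

/-- coefficients of the energy -/
noncomputable def cf (N : ℕ) (β : ℝ) (σ : Fin N → ℤˣ) (e : Ix N) : ℝ :=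
  β / √(2 * (N : ℝ)) * (sg σ e.1 * sg σ e.2)

lemma sg_sq (σ : Fin N → ℤˣ) (i : Fin N) : sg σ i * sg σ i = 1 := by
  unfold sg
  rcases Int.units_eq_one_or (σ i) with h | h <;> simp [h]

lemma en_eq (β : ℝ) (z : Ix N → ℝ) (σ : Fin N → ℤˣ) :
    β / 2 * qf (Wm N z) σ = ∑ e, cf N β σ e * z e + 0 := by
  set c : ℝ := √(2 * (N : ℝ)) with hc
  have h1 : qf (Wm N z) σ = ∑ e : Ix N, (z (e.1, e.2) * (sg σ e.1 * sg σ e.2) / c +
      z (e.2, e.1) * (sg σ e.2 * sg σ e.1) / c) := by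
    unfold qf
    refine sum_congr rfl fun e _ => ?_
    simp only [Wm, Matrix.of_apply, ← hc]
    ring
  rw [h1, sum_add_distrib, sum_Ix_swap (fun i j => z (i, j) * (sg σ i * sg σ j) / c), add_zero,
    ← two_mul, ← mul_assoc, mul_sum]
  refine sum_congr rfl fun e _ => ?_
  simp only [cf, ← hc, Prod.mk.eta]
  ring

lemma gb_eq (β : ℝ) (z : Ix N → ℝ) (f : (Fin N → ℤˣ) → ℝ) :
    gb β z f = Vale.Agent.P146.gav (cf N β) (fun _ => 0) f z := by
  unfold gb Vale.Agent.P146.gav zz wt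
  simp only [en_eq]

/-- the free energy with the diagonal terms -/
noncomputable def F0 (β : ℝ) (z : Ix N → ℝ) : ℝ :=
  Real.log (∑ σ : Fin N → ℤˣ, Real.exp (β / 2 * qf (Wm N z) σ))

lemma F0_eq (β : ℝ) (z : Ix N → ℝ) : F0 β z = Real.log (zz (cf N β) (fun _ => 0) z) := by
  unfold F0 zz wt
  simp only [en_eq]

lemma pd_F0 (β : ℝ) (e : Ix N) : PD e (F0 (N := N) β) (fun z => gb β z (fun σ => cf N β σ e)) := by
  intro y x
  have h := hasDerivAt_log_zz (cf N β) (fun _ => 0) y e x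
  simp only [← F0_eq] at h
  show HasDerivAt _ (gb β (Function.update y e x) _) x
  rw [gb_eq]
  exact h

lemma eg_F0 (β : ℝ) : EG (F0 (N := N) β) := by
  have h1 : (F0 (N := N) β) = fun z => Real.log (zz (cf N β) (fun _ => 0) z) := by
    funext z; exact F0_eq β z
  have hm : Measurable (F0 (N := N) β) := by
    rw [h1]; exact (log_zz_cont _ _).measurable
  have h2 : EG (fun z : Ix N → ℝ => (∑ s, ∑ i, |cf N β s i|) * ∑ i, |z i| +
      (∑ s : Fin N → ℤˣ, |(0 : ℝ)| + Real.log (Fintype.card (Fin N → ℤˣ)))) :=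
    ((EG.sum _ fun i _ => (EG.coord i).abs).const_mul _).add (EG.const _)
  refine h2.mono hm fun z => ?_
  have h3 := log_zz_bound (cf N β) (fun _ => (0 : ℝ)) z
  rw [F0_eq]
  refine h3.trans ((le_abs_self _).trans (le_of_eq ?_))
  congr 1
  ring

lemma eg_gb (β : ℝ) (f : (Fin N → ℤˣ) → ℝ) : EG (fun z : Ix N → ℝ => gb β z f) := by
  have h1 : (fun z : Ix N → ℝ => gb β z f) = fun z => Vale.Agent.P146.gav (cf N β) (fun _ => 0) f z := by
    funext z; exact gb_eq β z f
  rw [h1]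
  have hb : ∀ s, |f s| ≤ ∑ s, |f s| := fun s =>
    Finset.single_le_sum (f := fun s => |f s|) (fun i _ => abs_nonneg _) (Finset.mem_univ s)
  exact EG.of_bdd (gav_cont _ _ _).measurable fun z => abs_gav_le _ _ hb z

lemma gb_qf (β : ℝ) (z : Ix N → ℝ) (A : Matrix (Fin N) (Fin N) ℝ) :
    gb β z (fun σ => qf A σ) = ∑ e : Ix N, A e.1 e.2 * gb β z (fun σ => sg σ e.1 * sg σ e.2) := by
  unfold gb qf
  simp only [mul_div_assoc', sum_mul, mul_sum]
  rw [← sum_div, sum_comm]
  congr 1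
  refine sum_congr rfl fun e _ => sum_congr rfl fun σ _ => ?_
  ring

lemma eg_gb_qf (β : ℝ) {A : (Ix N → ℝ) → Matrix (Fin N) (Fin N) ℝ} (hA : EGM A) :
    EG (fun z => gb β z (fun σ => qf (A z) σ)) := by
  simp only [gb_qf]
  exact EG.sum _ fun e _ => (hA _ _).mul (eg_gb _ _)

lemma gb_cf (β : ℝ) (z : Ix N → ℝ) (e : Ix N) : gb β z (fun σ => cf N β σ e) =
    β / √(2 * (N : ℝ)) * gb β z (fun σ => sg σ e.1 * sg σ e.2) := by
  unfold gb cf
  rw [← mul_div_assoc, mul_sum]
  congr 1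
  refine sum_congr rfl fun σ _ => ?_
  ring

/-- the derivative of the trace -/
lemma pd_trW (e : Ix N) : PD e (fun z => (Wm N z).trace)
    (fun _ => (if e.1 = e.2 then 2 / √(2 * (N : ℝ)) else 0)) := by
  refine (pdm_Wm e).trace.congr fun z => ?_
  unfold Matrix.trace Em
  simp only [Matrix.diag_apply, Matrix.of_apply]
  rw [← sum_div]
  have h1 : ∀ i : Fin N, ((if (i, i) = e then (1 : ℝ) else 0) + (if (i, i) = e then 1 else 0)) =
      if i = e.1 then (if e.1 = e.2 then 2 else 0) else 0 := by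
    intro i
    rcases e with ⟨a, b⟩
    simp only [Prod.mk.injEq]
    by_cases h : i = a
    · subst h
      by_cases h' : i = b
      · simp [h']; norm_num
      · simp [h']
    · simp [h]
  simp only [h1, sum_ite_eq', mem_univ, if_true]
  split_ifs <;> simp

lemma sum_Ix_pair (f : Fin N → Fin N → ℝ) (hf : ∀ i j, f i j = f j i) :
    ∑ e : Ix N, f e.1 e.2 = ∑ i, f i i + 2 * ∑ p : Pair N, f p.1.1 p.1.2 := by
  have h1 : ∀ e : Ix N, f e.1 e.2 = (if e.1 = e.2 then f e.1 e.2 else 0) +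
      ((if e.1 < e.2 then f e.1 e.2 else 0) + (if e.2 < e.1 then f e.2 e.1 else 0)) := by
    intro e
    rcases lt_trichotomy e.1 e.2 with h | h | h
    · simp [h, h.ne, h.not_gt]
    · simp [h]
    · simp [h, h.ne', h.not_gt, hf e.1 e.2]
  rw [sum_congr rfl fun e _ => h1 e, sum_add_distrib, sum_add_distrib,
    sum_Ix_swap (fun i j => if i < j then f i j else 0), ← two_mul]
  congr 1
  · rw [Fintype.sum_prod_type]
    refine sum_congr rfl fun i _ => ?_
    simp
  · congr 1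
    rw [← sum_filter, ← Finset.sum_subtype (univ.filter fun e : Ix N => e.1 < e.2) (by simp)
      (fun e : Ix N => f e.1 e.2)]

/-- the free energy of the SK model in the coordinates `z` -/
lemma free_phi (hN : 0 < N) (β : ℝ) (z : Ix N → ℝ) :
    freeEnergy N β (phi z) = F0 β z - β / 2 * (Wm N z).trace := by
  have hN' : (0 : ℝ) < N := by exact_mod_cast hN
  have h1 : ∀ σ : Fin N → ℤˣ, β * hamiltonian N (phi z) σ =
      β / 2 * qf (Wm N z) σ - β / 2 * (Wm N z).trace := by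
    intro σ
    have h2 : qf (Wm N z) σ = (Wm N z).trace + 2 * ∑ p : Pair N,
        Wm N z p.1.1 p.1.2 * (sg σ p.1.1 * sg σ p.1.2) := by
      unfold qf
      rw [sum_Ix_pair (fun i j => Wm N z i j * (sg σ i * sg σ j))]
      · congr 1
        unfold Matrix.trace
        refine sum_congr rfl fun i _ => ?_
        rw [sg_sq, mul_one, Matrix.diag_apply]
      · intro i j
        rw [mul_comm (sg σ i), ← Matrix.transpose_apply (Wm N z), Wm_transpose]
    rw [h2, hamiltonian]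
    have h3 : (1 / √(N : ℝ)) * ∑ p : Pair N, phi z p * ((σ p.1.1 : ℤ) : ℝ) * ((σ p.1.2 : ℤ) : ℝ) =
        ∑ p : Pair N, Wm N z p.1.1 p.1.2 * (sg σ p.1.1 * sg σ p.1.2) := by
      rw [mul_sum]
      refine sum_congr rfl fun p _ => ?_
      simp only [phi, Wm, Matrix.of_apply, sg, Prod.mk.eta]
      rw [Real.sqrt_mul (by norm_num : (0 : ℝ) ≤ 2)]
      ring
    rw [h3]
    ring
  have h4 : partitionFn N β (phi z) = Real.exp (-(β / 2 * (Wm N z).trace)) *
      ∑ σ : Fin N → ℤˣ, Real.exp (β / 2 * qf (Wm N z) σ) := by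
    unfold partitionFn
    rw [mul_sum]
    refine sum_congr rfl fun σ _ => ?_
    rw [h1, ← Real.exp_add]
    congr 1
    ring
  have h5 : 0 < ∑ σ : Fin N → ℤˣ, Real.exp (β / 2 * qf (Wm N z) σ) :=
    sum_pos (fun _ _ => Real.exp_pos _) univ_nonempty
  unfold freeEnergy F0
  rw [h4, Real.log_mul (Real.exp_pos _).ne' h5.ne', Real.log_exp]
  ring

/-- the free energy -/
noncomputable def F1 (β : ℝ) (z : Ix N → ℝ) : ℝ := F0 β z - β / 2 * (Wm N z).trace

/-- the derivative of the free energy -/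
noncomputable def F1' (β : ℝ) (e : Ix N) (z : Ix N → ℝ) : ℝ :=
  gb β z (fun σ => cf N β σ e) - β / 2 * (if e.1 = e.2 then 2 / √(2 * (N : ℝ)) else 0)

lemma pd_F1 (β : ℝ) (e : Ix N) : PD e (F1 (N := N) β) (F1' β e) :=
  (pd_F0 β e).sub ((pd_trW e).const_mul _)

lemma eg_F1 (β : ℝ) : EG (F1 (N := N) β) := (eg_F0 β).sub ((egm_Wm.trace).const_mul _)

lemma eg_F1' (β : ℝ) (e : Ix N) : EG (F1' (N := N) β e) :=
  (eg_gb _ _).sub (EG.const _)

/-- the covariance of the free energy with the divergence -/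
theorem int_F1_dv (hN : 0 < N) (β : ℝ) : ∫ z, F1 β z * dv N I γ z ∂(gI (Ix N)) =
    (1 / 2) * ∑ i ∈ I, γ i * corr β (i + 1) N - (β / 2) * ∫ z, tp N (gp I γ) z ∂(gI (Ix N)) := by
  have hN' : (0 : ℝ) < N := by exact_mod_cast hN
  set c : ℝ := √(2 * (N : ℝ)) with hc
  have hc0 : 0 < c := Real.sqrt_pos.2 (by positivity)
  have hc2 : c * c = 2 * N := Real.mul_self_sqrt (by positivity)
  have h4 : (1 / c) * (1 / c) = 1 / (2 * (N : ℝ)) := by
    rw [one_div_mul_one_div, hc2]
  rw [ibp_dv hN (eg_F1 β) (fun e => pd_F1 β e) (fun e => eg_F1' β e), ← hc]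
  have h1 : ∀ z : Ix N → ℝ, (1 / c) * ∑ e : Ix N, F1' β e z * (aeval (Wm N z) (gp I γ)) e.1 e.2 =
      (β / (2 * N)) * (gb β z (fun σ => qf (aeval (Wm N z) (gp I γ)) σ) -
        (aeval (Wm N z) (gp I γ)).trace) := by
    intro z
    rw [gb_qf]
    have h2 : ∀ e : Ix N, F1' β e z * (aeval (Wm N z) (gp I γ)) e.1 e.2 =
        (β / c) * ((aeval (Wm N z) (gp I γ)) e.1 e.2 * gb β z (fun σ => sg σ e.1 * sg σ e.2)) -
        (β / c) * (if e.1 = e.2 then (aeval (Wm N z) (gp I γ)) e.1 e.2 else 0) := by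
      intro e
      rw [F1', gb_cf, ← hc]
      split_ifs
      · field_simp
      · ring
    simp only [h2]
    rw [sum_sub_distrib, ← mul_sum, ← mul_sum]
    have h3 : ∑ e : Ix N, (if e.1 = e.2 then (aeval (Wm N z) (gp I γ)) e.1 e.2 else 0) =
        (aeval (Wm N z) (gp I γ)).trace := by
      rw [Fintype.sum_prod_type]
      unfold Matrix.trace
      refine sum_congr rfl fun i _ => ?_
      simp
    rw [h3]
    have h5 : β / (2 * (N : ℝ)) = (1 / c) * (β / c) := by
      rw [← mul_one_div β, ← h4]; ring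
    rw [h5]
    ring
  rw [← integral_const_mul]
  simp only [h1]
  rw [integral_const_mul, integral_sub (eg_gb_qf β (egm_aeval _)).integrable (eg_T _).integrable]
  have h6 : ∀ z : Ix N → ℝ, gb β z (fun σ => qf (aeval (Wm N z) (gp I γ)) σ) =
      ∑ i ∈ I, γ i * gb β z (fun σ => qf (Um (Wm N z) (i + 1)) σ) := by
    intro z
    simp only [gb_qf, gp, map_sum, map_mul, aeval_C, ← Algebra.smul_def, Matrix.sum_apply, sum_mul,
      mul_sum, Matrix.smul_apply, smul_eq_mul, Um_eq_aeval]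
    rw [sum_comm]
    refine sum_congr rfl fun i _ => sum_congr rfl fun e _ => ?_
    ring
  simp only [h6]
  rw [integral_finsetSum _ fun i _ => ((eg_gb_qf β (egm_Um _)).const_mul _).integrable]
  simp only [integral_const_mul]
  unfold corr tp
  rw [integral_div, mul_sub, mul_sum, mul_sum]
  congr 1
  · refine sum_congr rfl fun i _ => ?_
    ring
  · ring

lemma int_dv (hN : 0 < N) : ∫ z, dv N I γ z ∂(gI (Ix N)) = 0 := by
  have h := ibp_dv (I := I) (γ := γ) hN (F := fun _ => 1) (F' := fun _ _ => 0) (EG.const _)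
    (fun e => PD.const _) (fun e => EG.const _)
  simpa using h

/-- the variance of the free energy -/
lemma var_free (hN : 0 < N) (β : ℝ) : Var[freeEnergy N β; disorder N] =
    ∫ z, (F1 β z - ∫ z, F1 β z ∂(gI (Ix N))) ^ 2 ∂(gI (Ix N)) := by
  have hm : Measurable (freeEnergy N β) := by
    unfold freeEnergy partitionFn hamiltonian
    fun_prop
  have h1 : ∫ g, freeEnergy N β g ∂(disorder N) = ∫ z, F1 β z ∂(gI (Ix N)) := by
    rw [integral_disorder hm]
    congr 1
    funext z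
    exact free_phi hN β z
  rw [variance_eq_integral hm.aemeasurable, h1, integral_disorder (by fun_prop)]
  congr 1
  funext z
  rw [free_phi hN β z, F1]

lemma var_ge_of (hN : 0 < N) (β t : ℝ) : 2 * t * ∫ z, F1 β z * dv N I γ z ∂(gI (Ix N)) -
    t ^ 2 * ∫ z, dv N I γ z * dv N I γ z ∂(gI (Ix N)) ≤ Var[freeEnergy N β; disorder N] := by
  rw [var_free hN]
  generalize ∫ z, F1 β z ∂(gI (Ix N)) = m
  have e1 : EG (fun z : Ix N → ℝ => F1 β z - m) := (eg_F1 β).sub (EG.const _)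
  have e2 : EG (fun z : Ix N → ℝ => (F1 β z - m) ^ 2) := e1.pow 2
  have e3 : EG (fun z : Ix N → ℝ => dv N I γ z * dv N I γ z) := eg_dv.mul eg_dv
  have e4 : EG (fun z : Ix N → ℝ => F1 β z * dv N I γ z) := (eg_F1 β).mul eg_dv
  have h0 : 0 ≤ ∫ z, (F1 β z - m - t * dv N I γ z) ^ 2 ∂(gI (Ix N)) :=
    integral_nonneg fun z => sq_nonneg _
  have h1 : ∫ z, (F1 β z - m - t * dv N I γ z) ^ 2 ∂(gI (Ix N)) =
      ∫ z, (F1 β z - m) ^ 2 ∂(gI (Ix N)) - 2 * t * ∫ z, F1 β z * dv N I γ z ∂(gI (Ix N)) +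
      2 * t * m * ∫ z, dv N I γ z ∂(gI (Ix N)) +
      t ^ 2 * ∫ z, dv N I γ z * dv N I γ z ∂(gI (Ix N)) := by
    rw [← integral_const_mul, ← integral_const_mul, ← integral_const_mul,
      ← integral_sub e2.integrable (e4.const_mul _).integrable,
      ← integral_add (e2.sub (e4.const_mul _)).integrable (eg_dv.const_mul _).integrable,
      ← integral_add ((e2.sub (e4.const_mul _)).add (eg_dv.const_mul _)).integrable
        (e3.const_mul _).integrable]
    congr 1
    funext z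
    ring
  rw [int_dv hN] at h1
  linarith only [h1, h0]

/-- lower bound for the variance by the correlations -/
theorem var_ge {β c : ℝ} (hβ : 0 ≤ β) (hc : 0 ≤ c) (I : Finset ℕ)
    (h : ∀ i ∈ I, ∀ ε > 0, ∀ᶠ N in atTop, c - ε ≤ corr β (i + 1) N) {ε : ℝ} (hε : 0 < ε) :
    ∀ᶠ N in atTop, c ^ 2 / 2 * ∑ i ∈ I, (1 : ℝ) / (i + 2) - ε ≤
      Var[freeEnergy N β; disorder N] := by
  set γ : ℕ → ℝ := fun i => 1 / ((i : ℝ) + 2) with hγ
  set L : ℝ := ∑ i ∈ I, γ i with hL
  have hγ0 : ∀ i, 0 < γ i := fun i => by rw [hγ]; positivity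
  have hL0 : 0 ≤ L := sum_nonneg fun i _ => (hγ0 i).le
  set δ : ℝ := ε / (c ^ 2 + c * L + c * β + 1) with hδ
  have hδ0 : 0 < δ := by (clear * - hε hc hβ; positivity)
  have h1 : ∀ᶠ N in atTop, ∀ i ∈ I, c - δ ≤ corr β (i + 1) N := by
    rw [Finset.eventually_all]
    exact fun i hi => h i hi δ hδ0
  have h2 : ∀ᶠ N in atTop, ∫ z, tp N (gp I γ) z ∂(gI (Ix N)) ≤ δ := by
    have h3 : Lam (gp I γ) = 0 := by
      unfold gp
      rw [Lam_sum]
      refine sum_eq_zero fun i _ => ?_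
      rw [Lam_C_mul, Lam_Sp, if_neg (by omega), mul_zero]
    have h4 := (Lam_spec (gp I γ)).int
    rw [h3] at h4
    exact (h4.eventually (gt_mem_nhds hδ0)).mono fun N hN => hN.le
  have h5 : (1 / 2) * ∑ i ∈ I, ((i : ℝ) + 2) * γ i ^ 2 = L / 2 := by
    rw [hL, one_div_mul_eq_div]
    congr 1
    refine sum_congr rfl fun i _ => ?_
    rw [hγ]
    field_simp
  have h6 : ∀ᶠ N in atTop, ∫ z, dv N I γ z * dv N I γ z ∂(gI (Ix N)) ≤ L / 2 + δ := by
    have h7 := lim_dv_sq (I := I) (γ := γ)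
    rw [h5] at h7
    exact (h7.eventually (gt_mem_nhds (by linarith only [hδ0] : L / 2 < L / 2 + δ))).mono fun N hN => hN.le
  filter_upwards [h1, h2, h6, eventually_gt_atTop 0] with N h1 h2 h6 hN
  refine le_trans ?_ (var_ge_of (I := I) (γ := γ) hN β c)
  rw [int_F1_dv hN]
  have h8 : (c - δ) * L ≤ ∑ i ∈ I, γ i * corr β (i + 1) N := by
    rw [hL, mul_sum]
    refine sum_le_sum fun i hi => ?_
    rw [mul_comm]
    exact mul_le_mul_of_nonneg_left (h1 i hi) (hγ0 i).le
  have h9 : β / 2 * ∫ z, tp N (gp I γ) z ∂(gI (Ix N)) ≤ β / 2 * δ :=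
    mul_le_mul_of_nonneg_left h2 (by linarith only [hβ])
  have h10 : c ^ 2 * ∫ z, dv N I γ z * dv N I γ z ∂(gI (Ix N)) ≤ c ^ 2 * (L / 2 + δ) :=
    mul_le_mul_of_nonneg_left h6 (sq_nonneg c)
  have h11 : 2 * c * ((1 / 2) * ((c - δ) * L) - β / 2 * δ) ≤
      2 * c * ((1 / 2) * ∑ i ∈ I, γ i * corr β (i + 1) N -
        β / 2 * ∫ z, tp N (gp I γ) z ∂(gI (Ix N))) :=
    mul_le_mul_of_nonneg_left (by linarith only [h9, h8]) (by positivity)
  have h12 : ε = δ * (c ^ 2 + c * L + c * β + 1) := by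
    rw [hδ]; field_simp
  have h13 : c * δ * (L + β + c) ≤ ε := by
    rw [h12]
    linarith only [hδ0]
  linarith only [h12, h11, h10, hδ0]

lemma harm_shift (M : ℕ) : ∑ i ∈ range M, (1 : ℝ) / ((i : ℝ) + 1) =
    ∑ i ∈ Finset.Icc 1 M, (1 : ℝ) / ((i : ℝ) + 2) + 3 / 2 -
      (1 / ((M : ℝ) + 1) + 1 / ((M : ℝ) + 2)) := by
  induction M with
  | zero => norm_num
  | succ M ih =>
    rw [sum_range_succ, ih, Finset.sum_Icc_succ_top (by omega)]
    push_cast
    have e1 : (M : ℝ) + 1 + 2 = M + 3 := by ring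
    have e2 : (M : ℝ) + 1 + 1 = M + 2 := by ring
    rw [e1, e2]
    ring

/-- if all the correlations are bounded below then the variance diverges -/
theorem var_tendsto {β c : ℝ} (hβ : 0 ≤ β) (hc : 0 < c)
    (h : ∀ p, 2 ≤ p → ∀ ε > 0, ∀ᶠ N in atTop, c - ε ≤ corr β p N) :
    Tendsto (fun N => Var[freeEnergy N β; disorder N]) atTop atTop := by
  rw [tendsto_atTop]
  intro B
  have h1 : Tendsto (fun M : ℕ => ∑ i ∈ range M, (1 : ℝ) / ((i : ℝ) + 1)) atTop atTop :=
    Real.tendsto_sum_range_one_div_nat_succ_atTop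
  have h2 := (h1.eventually_ge_atTop ((B + 1) * 2 / c ^ 2 + 2)).exists
  obtain ⟨M, hM⟩ := h2
  have h3 : (B + 1) * 2 / c ^ 2 ≤ ∑ i ∈ Finset.Icc 1 M, (1 : ℝ) / ((i : ℝ) + 2) := by
    rw [harm_shift] at hM
    have : 0 ≤ 1 / ((M : ℝ) + 1) + 1 / ((M : ℝ) + 2) := by positivity
    linarith
  have h4 := var_ge hβ hc.le (Finset.Icc 1 M) (fun i hi ε hε => h (i + 1)
    (by have := (Finset.mem_Icc.1 hi).1; omega) ε hε) one_pos
  filter_upwards [h4] with N hN
  have h5 : (B + 1) ≤ c ^ 2 / 2 * ∑ i ∈ Finset.Icc 1 M, (1 : ℝ) / ((i : ℝ) + 2) := by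
    have := mul_le_mul_of_nonneg_left h3 (by positivity : (0 : ℝ) ≤ c ^ 2 / 2)
    refine le_trans (le_of_eq ?_) this
    field_simp
  linarith only [h5, hN]

end Vale.Agent.P146.Sk.Vr
end

section

/-!
# P146: spreading of the free energy at every centering (integration by parts)
-/

open MeasureTheory ProbabilityTheory Finset Matrix Filter Topology Polynomial

namespace Vale.Agent.P146.Sk.Vr

open Vale.Agent.P146.Sk Vale.Agent.P157.Lv

set_option linter.all false

variable {N : ℕ} {I : Finset ℕ} {γ : ℕ → ℝ}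

/-- the random correlation `(β/N) ⟨σ·U_p(W)σ⟩` -/
noncomputable def ck (β : ℝ) (p : ℕ) (z : Ix N → ℝ) : ℝ :=
  β / N * gb β z (fun σ => qf (Um (Wm N z) p) σ)

lemma eg_ck (β : ℝ) (p : ℕ) : EG (ck (N := N) β p) := (eg_gb_qf β (egm_Um p)).const_mul _

/-- the derivative of the free energy in the direction of the vector field -/
lemma grad_F1 (hN : 0 < N) (β : ℝ) (z : Ix N → ℝ) : (1 / √(2 * (N : ℝ))) *
    ∑ e : Ix N, F1' β e z * (aeval (Wm N z) (gp I γ)) e.1 e.2 =
    (1 / 2) * ∑ i ∈ I, γ i * ck β (i + 1) z - (β / 2) * tp N (gp I γ) z := by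
  have hN' : (0 : ℝ) < N := by exact_mod_cast hN
  set c : ℝ := √(2 * (N : ℝ)) with hc
  have hc0 : 0 < c := Real.sqrt_pos.2 (by positivity)
  have hc2 : c * c = 2 * N := Real.mul_self_sqrt (by positivity)
  have h4 : (1 / c) * (1 / c) = 1 / (2 * (N : ℝ)) := by
    rw [one_div_mul_one_div, hc2]
  have h1 : (1 / c) * ∑ e : Ix N, F1' β e z * (aeval (Wm N z) (gp I γ)) e.1 e.2 =
      (β / (2 * N)) * (gb β z (fun σ => qf (aeval (Wm N z) (gp I γ)) σ) -
        (aeval (Wm N z) (gp I γ)).trace) := by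
    rw [gb_qf]
    have h2 : ∀ e : Ix N, F1' β e z * (aeval (Wm N z) (gp I γ)) e.1 e.2 =
        (β / c) * ((aeval (Wm N z) (gp I γ)) e.1 e.2 * gb β z (fun σ => sg σ e.1 * sg σ e.2)) -
        (β / c) * (if e.1 = e.2 then (aeval (Wm N z) (gp I γ)) e.1 e.2 else 0) := by
      intro e
      rw [F1', gb_cf, ← hc]
      split_ifs
      · field_simp
      · ring
    simp only [h2]
    rw [sum_sub_distrib, ← mul_sum, ← mul_sum]
    have h3 : ∑ e : Ix N, (if e.1 = e.2 then (aeval (Wm N z) (gp I γ)) e.1 e.2 else 0) =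
        (aeval (Wm N z) (gp I γ)).trace := by
      rw [Fintype.sum_prod_type]
      unfold Matrix.trace
      refine sum_congr rfl fun i _ => ?_
      simp
    rw [h3]
    have h5 : β / (2 * (N : ℝ)) = (1 / c) * (β / c) := by
      rw [← mul_one_div β, ← h4]; ring
    rw [h5]
    ring
  have h6 : gb β z (fun σ => qf (aeval (Wm N z) (gp I γ)) σ) =
      ∑ i ∈ I, γ i * gb β z (fun σ => qf (Um (Wm N z) (i + 1)) σ) := by
    simp only [gb_qf, gp, map_sum, map_mul, aeval_C, ← Algebra.smul_def, Matrix.sum_apply, sum_mul,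
      mul_sum, Matrix.smul_apply, smul_eq_mul, Um_eq_aeval]
    rw [sum_comm]
    refine sum_congr rfl fun i _ => sum_congr rfl fun e _ => ?_
    ring
  rw [h1, h6]
  unfold ck tp
  rw [mul_sub, mul_sum, mul_sum]
  congr 1
  · refine sum_congr rfl fun i _ => ?_
    ring
  · ring

/-- the loss in the lower bound -/
noncomputable def loss (I : Finset ℕ) (γ : ℕ → ℝ) (β : ℝ) (z : Ix N → ℝ) : ℝ :=
  (1 / 2) * ∑ i ∈ I, γ i * max (1 - ck β (i + 1) z) 0 + (β / 2) * |tp N (gp I γ) z|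

lemma eg_max (β : ℝ) (p : ℕ) : EG (fun z : Ix N → ℝ => max (1 - ck β p z) 0) := by
  have h := (EG.const (ι := Ix N) 1).sub (eg_ck (N := N) β p)
  refine h.mono (h.meas.max measurable_const) fun z => ?_
  rw [abs_of_nonneg (le_max_right _ _)]
  exact max_le (le_abs_self _) (abs_nonneg _)

lemma eg_loss (β : ℝ) : EG (loss (N := N) I γ β) :=
  ((EG.sum _ fun i _ => (eg_max β _).const_mul _).const_mul _).add ((eg_tp _).abs.const_mul _)

lemma loss_nonneg {β : ℝ} (hβ : 0 ≤ β) (hγ : ∀ i, 0 ≤ γ i) (z : Ix N → ℝ) : 0 ≤ loss I γ β z := by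
  unfold loss
  have h1 : 0 ≤ ∑ i ∈ I, γ i * max (1 - ck β (i + 1) z) 0 :=
    sum_nonneg fun i _ => mul_nonneg (hγ i) (le_max_right _ _)
  positivity

lemma grad_ge {β : ℝ} (hβ : 0 ≤ β) (hγ : ∀ i, 0 ≤ γ i) (z : Ix N → ℝ) :
    (1 / 2) * ∑ i ∈ I, γ i - loss I γ β z ≤
      (1 / 2) * ∑ i ∈ I, γ i * ck β (i + 1) z - (β / 2) * tp N (gp I γ) z := by
  have h1 : ∑ i ∈ I, γ i - ∑ i ∈ I, γ i * max (1 - ck β (i + 1) z) 0 ≤
      ∑ i ∈ I, γ i * ck β (i + 1) z := by
    rw [← sum_sub_distrib]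
    refine sum_le_sum fun i _ => ?_
    have h2 : 1 - ck β (i + 1) z ≤ max (1 - ck β (i + 1) z) 0 := le_max_left _ _
    have h3 := mul_le_mul_of_nonneg_left h2 (hγ i)
    linarith
  have h4 : (β / 2) * tp N (gp I γ) z ≤ (β / 2) * |tp N (gp I γ) z| :=
    mul_le_mul_of_nonneg_left (le_abs_self _) (by linarith)
  unfold loss
  linarith only [h4, h1]

/-- the key inequality: small ball probabilities of the free energy -/
theorem small_ball (hN : 0 < N) {β K t : ℝ} (hβ : 0 ≤ β) (hK : 0 < K) (ht : 0 < t)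
    (hγ : ∀ i, 0 ≤ γ i) (a : ℝ) :
    (1 / (2 * K)) * ((1 / 2) * ∑ i ∈ I, γ i) *
      (disorder N).real {g | |freeEnergy N β g - a| ≤ K} ≤
    (Real.pi / 2) * (t / 2 + (∫ z, dv N I γ z * dv N I γ z ∂(gI (Ix N))) / (2 * t)) +
      (1 / K) * ∫ z, loss I γ β z ∂(gI (Ix N)) := by
  set L : ℝ := (1 / 2) * ∑ i ∈ I, γ i with hL
  have hL0 : 0 ≤ L := by
    have : 0 ≤ ∑ i ∈ I, γ i := sum_nonneg fun i _ => hγ i
    positivity
  -- the test function
  set ψ : ℝ → ℝ := fun x => Real.arctan ((x - a) / K) with hψ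
  set ψ' : ℝ → ℝ := fun x => (1 / K) * (1 / (1 + ((x - a) / K) ^ 2)) with hψ'
  have hd : ∀ x, HasDerivAt ψ (ψ' x) x := by
    intro x
    have h1 : HasDerivAt (fun x : ℝ => (x - a) / K) (1 / K) x :=
      ((hasDerivAt_id x).sub_const a).div_const K
    have h2 := h1.arctan
    refine h2.congr_deriv ?_
    rw [hψ']
    ring
  have hψ'0 : ∀ x, 0 ≤ ψ' x := fun x => by
    simp only [hψ']; positivity
  have hψ'1 : ∀ x, ψ' x ≤ 1 / K := fun x => by
    simp only [hψ']
    have : 1 / (1 + ((x - a) / K) ^ 2) ≤ 1 := by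
      rw [div_le_one (by positivity)]
      linarith only [sq_nonneg ((x - a) / K)]
    calc (1 / K) * (1 / (1 + ((x - a) / K) ^ 2)) ≤ (1 / K) * 1 :=
          mul_le_mul_of_nonneg_left this (by positivity)
      _ = 1 / K := mul_one _
  have hψ'2 : ∀ x, |x - a| ≤ K → 1 / (2 * K) ≤ ψ' x := fun x hx => by
    simp only [hψ']
    have h1 : ((x - a) / K) ^ 2 ≤ 1 := by
      rw [div_pow, div_le_one (by positivity), ← sq_abs]
      exact pow_le_pow_left₀ (abs_nonneg _) hx 2
    have h2 : (1 : ℝ) / 2 ≤ 1 / (1 + ((x - a) / K) ^ 2) := by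
      apply one_div_le_one_div_of_le (by positivity)
      linarith only [h1]
    calc 1 / (2 * K) = (1 / K) * (1 / 2) := by field_simp
      _ ≤ _ := mul_le_mul_of_nonneg_left h2 (by positivity)
  have hψb : ∀ x, |ψ x| ≤ Real.pi / 2 := fun x => by
    simp only [hψ]
    rw [abs_le]
    exact ⟨(Real.neg_pi_div_two_lt_arctan _).le, (Real.arctan_lt_pi_div_two _).le⟩
  have hψm : Measurable ψ := by
    rw [hψ]; exact Real.continuous_arctan.measurable.comp (by fun_prop)
  have hψ'm : Measurable ψ' := by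
    rw [hψ']; fun_prop
  -- integration by parts
  have e1 : EG (fun z : Ix N → ℝ => ψ (F1 β z)) :=
    EG.of_bdd (hψm.comp (eg_F1 β).meas) fun z => hψb _
  have e2 : EG (fun z : Ix N → ℝ => ψ' (F1 β z)) :=
    EG.of_bdd (hψ'm.comp (eg_F1 β).meas) (C := 1 / K) fun z => by
      rw [abs_of_nonneg (hψ'0 _)]; exact hψ'1 _
  have hp : ∀ e : Ix N, PD e (fun z => ψ (F1 β z)) (fun z => ψ' (F1 β z) * F1' β e z) :=
    fun e => (pd_F1 β e).comp hd
  have h1 := ibp_dv (I := I) (γ := γ) hN e1 hp (fun e => e2.mul (eg_F1' β e))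
  have h2 : (1 / √(2 * (N : ℝ))) * ∫ z, ∑ e : Ix N, ψ' (F1 β z) * F1' β e z *
      (aeval (Wm N z) (gp I γ)) e.1 e.2 ∂(gI (Ix N)) = ∫ z, ψ' (F1 β z) *
      ((1 / 2) * ∑ i ∈ I, γ i * ck β (i + 1) z - (β / 2) * tp N (gp I γ) z) ∂(gI (Ix N)) := by
    rw [← integral_const_mul]
    congr 1
    funext z
    rw [← grad_F1 hN, mul_left_comm, mul_sum, mul_sum]
    rw [mul_sum]
    refine sum_congr rfl fun e _ => ?_
    ring
  rw [h2] at h1
  -- upper bound
  have h3 : ∫ z, ψ (F1 β z) * dv N I γ z ∂(gI (Ix N)) ≤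
      (Real.pi / 2) * (t / 2 + (∫ z, dv N I γ z * dv N I γ z ∂(gI (Ix N))) / (2 * t)) := by
    have h4 : ∀ z : Ix N → ℝ, ψ (F1 β z) * dv N I γ z ≤
        (Real.pi / 2) * (t / 2 + 1 / (2 * t) * (dv N I γ z * dv N I γ z)) := by
      intro z
      have h5 : |dv N I γ z| ≤ t / 2 + 1 / (2 * t) * (dv N I γ z * dv N I γ z) := by
        have h6 : t / 2 + 1 / (2 * t) * (dv N I γ z * dv N I γ z) - |dv N I γ z| =
            1 / (2 * t) * (|dv N I γ z| - t) ^ 2 := by
          rw [← abs_mul_abs_self (dv N I γ z)]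
          field_simp
          ring
        have h7 : 0 ≤ 1 / (2 * t) * (|dv N I γ z| - t) ^ 2 := by (clear * - ht; positivity)
        linarith only [h7, h6]
      calc ψ (F1 β z) * dv N I γ z ≤ |ψ (F1 β z) * dv N I γ z| := le_abs_self _
        _ = |ψ (F1 β z)| * |dv N I γ z| := abs_mul _ _
        _ ≤ (Real.pi / 2) * |dv N I γ z| := mul_le_mul_of_nonneg_right (hψb _) (abs_nonneg _)
        _ ≤ _ := mul_le_mul_of_nonneg_left h5 (by positivity)
    have e3 : EG (fun z : Ix N → ℝ => dv N I γ z * dv N I γ z) := eg_dv.mul eg_dv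
    calc ∫ z, ψ (F1 β z) * dv N I γ z ∂(gI (Ix N)) ≤
        ∫ z, (Real.pi / 2) * (t / 2 + 1 / (2 * t) * (dv N I γ z * dv N I γ z)) ∂(gI (Ix N)) :=
          integral_mono (e1.mul eg_dv).integrable
            (((EG.const _).add (e3.const_mul _)).const_mul _).integrable h4
      _ = _ := by
          rw [integral_const_mul, integral_add (integrable_const _) (e3.const_mul _).integrable,
            integral_const_mul, integral_const]
          simp only [probReal_univ, one_smul]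
          ring
  -- lower bound
  have hm : Measurable (freeEnergy N β) := by
    unfold freeEnergy partitionFn hamiltonian
    fun_prop
  have hms : MeasurableSet {g | |freeEnergy N β g - a| ≤ K} :=
    measurableSet_le (by fun_prop) measurable_const
  have h5 : (disorder N).real {g | |freeEnergy N β g - a| ≤ K} =
      ∫ z, ({x : ℝ | |x - a| ≤ K}.indicator 1 (F1 β z) : ℝ) ∂(gI (Ix N)) := by
    have h6 := integral_indicator_one (μ := disorder N) hms
    rw [← h6, integral_disorder (measurable_one.indicator hms)]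
    congr 1
    funext z
    simp only [Set.indicator, Set.mem_setOf_eq, Pi.one_apply, free_phi hN β z, F1]
  have hms2 : MeasurableSet {x : ℝ | |x - a| ≤ K} := measurableSet_le (by fun_prop) measurable_const
  have e4 : EG (fun z : Ix N → ℝ => ({x : ℝ | |x - a| ≤ K}.indicator 1 (F1 β z) : ℝ)) := by
    refine EG.of_bdd ((measurable_one.indicator hms2).comp (eg_F1 β).meas) (C := 1) fun z => ?_
    by_cases hz : |F1 β z - a| ≤ K
    · rw [Set.indicator_of_mem (by exact hz), Pi.one_apply, abs_one]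
    · rw [Set.indicator_of_notMem (by exact hz), abs_zero]
      exact zero_le_one
  have h7 : ∀ z : Ix N → ℝ, L * (1 / (2 * K)) * ({x : ℝ | |x - a| ≤ K}.indicator 1 (F1 β z) : ℝ) -
      (1 / K) * loss I γ β z ≤ ψ' (F1 β z) *
      ((1 / 2) * ∑ i ∈ I, γ i * ck β (i + 1) z - (β / 2) * tp N (gp I γ) z) := by
    intro z
    have h8 := mul_le_mul_of_nonneg_left (grad_ge (I := I) hβ hγ z) (hψ'0 (F1 β z))
    have h9 : ψ' (F1 β z) * loss I γ β z ≤ (1 / K) * loss I γ β z :=
      mul_le_mul_of_nonneg_right (hψ'1 _) (loss_nonneg hβ hγ z)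
    have h10 : L * (1 / (2 * K)) * ({x : ℝ | |x - a| ≤ K}.indicator 1 (F1 β z) : ℝ) ≤
        ψ' (F1 β z) * L := by
      by_cases hz : |F1 β z - a| ≤ K
      · rw [Set.indicator_of_mem (by exact hz), Pi.one_apply, mul_one, mul_comm]
        exact mul_le_mul_of_nonneg_right (hψ'2 _ hz) hL0
      · rw [Set.indicator_of_notMem (by exact hz), mul_zero]
        exact mul_nonneg (hψ'0 _) hL0
    rw [mul_sub, ← hL] at h8
    linarith only [h10, h9, h8]
  have h11 : L * (1 / (2 * K)) * ∫ z, ({x : ℝ | |x - a| ≤ K}.indicator 1 (F1 β z) : ℝ)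
      ∂(gI (Ix N)) - (1 / K) * ∫ z, loss I γ β z ∂(gI (Ix N)) ≤ ∫ z, ψ' (F1 β z) *
      ((1 / 2) * ∑ i ∈ I, γ i * ck β (i + 1) z - (β / 2) * tp N (gp I γ) z) ∂(gI (Ix N)) := by
    rw [← integral_const_mul, ← integral_const_mul, ← integral_sub (e4.const_mul _).integrable
      ((eg_loss β).const_mul _).integrable]
    refine integral_mono ((e4.const_mul _).sub ((eg_loss β).const_mul _)).integrable
      (e2.mul (((EG.sum _ fun i _ => (eg_ck β _).const_mul _).const_mul _).sub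
        ((eg_tp _).const_mul _))).integrable h7
  rw [h5, mul_comm (1 / (2 * K)) L]
  linarith only [h11, h3, h1]

/-- `∫ |(1/N) tr g(W)| → 0` -/
lemma lim_abs_tp (I : Finset ℕ) (γ : ℕ → ℝ) :
    Tendsto (fun N : ℕ => ∫ z, |tp N (gp I γ) z| ∂(gI (Ix N))) atTop (𝓝 0) := by
  have h3 : Lam (gp I γ) = 0 := by
    unfold gp
    rw [Lam_sum]
    refine sum_eq_zero fun i _ => ?_
    rw [Lam_C_mul, Lam_Sp, if_neg (by omega), mul_zero]
  have h4 := (Lam_spec (gp I γ)).mul_int (Lam_spec (gp I γ))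
  rw [h3, mul_zero] at h4
  rw [Metric.tendsto_atTop] at h4 ⊢
  intro ε hε
  obtain ⟨N₀, hN₀⟩ := h4 (ε ^ 2 / 2) (by positivity)
  refine ⟨N₀, fun N hN => ?_⟩
  have h5 := hN₀ N hN
  rw [Real.dist_eq, sub_zero] at h5 ⊢
  have h6 : ∀ z : Ix N → ℝ, |tp N (gp I γ) z| ≤ ε / 4 + 1 / ε * (tp N (gp I γ) z *
      tp N (gp I γ) z) := by
    intro z
    rw [← abs_mul_abs_self (tp N (gp I γ) z)]
    have h7 : ε / 4 + 1 / ε * (|tp N (gp I γ) z| * |tp N (gp I γ) z|) - |tp N (gp I γ) z| =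
        1 / ε * (|tp N (gp I γ) z| - ε / 2) ^ 2 := by
      field_simp
      ring
    have h8 : 0 ≤ 1 / ε * (|tp N (gp I γ) z| - ε / 2) ^ 2 := by positivity
    linarith only [h8, h7]
  have e1 : EG (fun z : Ix N → ℝ => tp N (gp I γ) z * tp N (gp I γ) z) := (eg_tp _).mul (eg_tp _)
  have h9 : ∫ z, |tp N (gp I γ) z| ∂(gI (Ix N)) ≤
      ε / 4 + 1 / ε * ∫ z, tp N (gp I γ) z * tp N (gp I γ) z ∂(gI (Ix N)) := by
    calc ∫ z, |tp N (gp I γ) z| ∂(gI (Ix N)) ≤
        ∫ z, (ε / 4 + 1 / ε * (tp N (gp I γ) z * tp N (gp I γ) z)) ∂(gI (Ix N)) :=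
          integral_mono (eg_tp _).abs.integrable
            ((EG.const _).add (e1.const_mul _)).integrable h6
      _ = _ := by
          rw [integral_add (integrable_const _) (e1.const_mul _).integrable, integral_const_mul,
            integral_const]
          simp only [probReal_univ, one_smul]
  rw [abs_of_nonneg (integral_nonneg fun z => abs_nonneg _)]
  have h10 : 1 / ε * ∫ z, tp N (gp I γ) z * tp N (gp I γ) z ∂(gI (Ix N)) ≤ ε / 2 := by
    calc _ ≤ 1 / ε * (ε ^ 2 / 2) :=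
          mul_le_mul_of_nonneg_left ((le_abs_self _).trans h5.le) (by positivity)
      _ = ε / 2 := by field_simp
  linarith only [h10, h9, hε]

/-- the loss tends to zero -/
lemma lim_loss {β : ℝ} (I : Finset ℕ) (γ : ℕ → ℝ)
    (h : ∀ i ∈ I, Tendsto (fun N : ℕ => ∫ z : Ix N → ℝ, max (1 - ck β (i + 1) z) 0 ∂(gI (Ix N)))
      atTop (𝓝 0)) :
    Tendsto (fun N : ℕ => ∫ z : Ix N → ℝ, loss I γ β z ∂(gI (Ix N))) atTop (𝓝 0) := by
  have h1 : Tendsto (fun N : ℕ => (1 / 2) * ∑ i ∈ I, γ i *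
      ∫ z : Ix N → ℝ, max (1 - ck β (i + 1) z) 0 ∂(gI (Ix N)) +
      (β / 2) * ∫ z, |tp N (gp I γ) z| ∂(gI (Ix N))) atTop
      (𝓝 ((1 / 2) * ∑ i ∈ I, γ i * 0 + (β / 2) * 0)) :=
    ((tendsto_finsetSum _ fun i hi => (h i hi).const_mul _).const_mul _).add
      ((lim_abs_tp I γ).const_mul _)
  have h2 : (1 / 2) * ∑ i ∈ I, γ i * 0 + (β / 2) * 0 = (0 : ℝ) := by simp
  rw [h2] at h1
  refine h1.congr fun N => ?_
  unfold loss
  rw [integral_add ((EG.sum _ fun i _ => (eg_max β _).const_mul _).const_mul _).integrable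
    ((eg_tp _).abs.const_mul _).integrable, integral_const_mul, integral_const_mul,
    integral_finsetSum _ fun i _ => ((eg_max β _).const_mul _).integrable]
  simp only [integral_const_mul]

/-- **Spreading**: no centering makes the free energy tight. -/
theorem spread {β : ℝ} (hβ : 0 ≤ β) (h : ∀ p, 2 ≤ p → Tendsto (fun N : ℕ =>
    ∫ z : Ix N → ℝ, max (1 - ck β p z) 0 ∂(gI (Ix N))) atTop (𝓝 0)) {K ε : ℝ} (hK : 0 < K)
    (hε : 0 < ε) : ∀ᶠ N : ℕ in atTop, ∀ a : ℝ,
      (disorder N).real {g | |freeEnergy N β g - a| ≤ K} ≤ ε := by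
  -- choose the number of terms
  have h1 : Tendsto (fun M : ℕ => ∑ i ∈ range M, (1 : ℝ) / ((i : ℝ) + 1)) atTop atTop :=
    Real.tendsto_sum_range_one_div_nat_succ_atTop
  obtain ⟨M, hM⟩ := (h1.eventually_ge_atTop (1 + ((8 * K + 4) / ε) ^ 2 + 3 / 2)).exists
  set I := Finset.Icc 1 M with hI
  set γ : ℕ → ℝ := fun i => 1 / ((i : ℝ) + 2) with hγ
  set L : ℝ := ∑ i ∈ I, γ i with hL
  have hγ0 : ∀ i, 0 ≤ γ i := fun i => by rw [hγ]; positivity
  have hLge : 1 + ((8 * K + 4) / ε) ^ 2 ≤ L := by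
    rw [harm_shift] at hM
    have : 0 ≤ 1 / ((M : ℝ) + 1) + 1 / ((M : ℝ) + 2) := by (clear * -; positivity)
    have h2 : L = ∑ i ∈ Finset.Icc 1 M, (1 : ℝ) / ((i : ℝ) + 2) := rfl
    rw [h2]
    linarith
  have hL1 : 1 ≤ L := by
    have : 0 ≤ ((8 * K + 4) / ε) ^ 2 := sq_nonneg _
    linarith only [this, hLge]
  have hs1 : 1 ≤ √L := by
    rw [show (1 : ℝ) = √1 by simp]
    exact Real.sqrt_le_sqrt hL1
  have hs0 : 0 < √L := by linarith only [hs1]
  have hss : √L * √L = L := Real.mul_self_sqrt (by linarith only [hL1])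
  have hs2 : (8 * K + 4) / ε ≤ √L := by
    apply Real.le_sqrt_of_sq_le
    linarith only [hLge]
  have h5 : (1 / 2) * ∑ i ∈ I, ((i : ℝ) + 2) * γ i ^ 2 = L / 2 := by
    rw [hL, one_div_mul_eq_div]
    congr 1
    refine sum_congr rfl fun i _ => ?_
    rw [hγ]
    field_simp
  have h6 : ∀ᶠ N in atTop, ∫ z, dv N I γ z * dv N I γ z ∂(gI (Ix N)) ≤ L / 2 + 1 := by
    have h7 := lim_dv_sq (I := I) (γ := γ)
    rw [h5] at h7
    exact (h7.eventually (gt_mem_nhds (by linarith only [] : L / 2 < L / 2 + 1))).mono fun N hN => hN.le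
  have h8 : ∀ᶠ N : ℕ in atTop, ∫ z : Ix N → ℝ, loss I γ β z ∂(gI (Ix N)) ≤ 1 :=
    ((lim_loss I γ fun i hi => h (i + 1) (by
      have := (Finset.mem_Icc.1 hi).1; omega)).eventually (gt_mem_nhds one_pos)).mono
      fun N hN => hN.le
  filter_upwards [h6, h8, eventually_gt_atTop 0] with N h6 h8 hN
  intro a
  have h9 := small_ball (I := I) (γ := γ) hN hβ hK hs0 hγ0 a
  rw [← hL] at h9
  set P := (disorder N).real {g | |freeEnergy N β g - a| ≤ K} with hP
  set S := ∫ z, dv N I γ z * dv N I γ z ∂(gI (Ix N)) with hS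
  set E := ∫ z, loss I γ β z ∂(gI (Ix N)) with hE
  have h10 : √L / 2 + S / (2 * √L) ≤ 5 / 4 * √L := by
    have : S / (2 * √L) ≤ 3 / 4 * √L := by
      rw [div_le_iff₀ (by (clear * - hL1; positivity))]
      linarith only [h6, hss, hL1]
    linarith only [this]
  have hpi : Real.pi ≤ 16 / 5 := by linarith only [Real.pi_lt_d2]
  have h11 : Real.pi / 2 * (√L / 2 + S / (2 * √L)) ≤ 2 * √L := by
    calc Real.pi / 2 * (√L / 2 + S / (2 * √L)) ≤ Real.pi / 2 * (5 / 4 * √L) :=
          mul_le_mul_of_nonneg_left h10 (by positivity)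
      _ ≤ (16 / 5) / 2 * (5 / 4 * √L) := by gcongr
      _ = 2 * √L := by ring
  have h12 : 1 / K * E ≤ 1 / K := by
    calc 1 / K * E ≤ 1 / K * 1 := mul_le_mul_of_nonneg_left h8 (by positivity)
      _ = 1 / K := mul_one _
  have h13 : 1 / (2 * K) * (1 / 2 * L) * P ≤ 2 * √L + 1 / K := by linarith only [h12, h11, h9]
  have h14 : L * P ≤ 8 * K * √L + 4 := by
    have h15 := mul_le_mul_of_nonneg_left h13 (by positivity : 0 ≤ 4 * K)
    have h16 : 4 * K * (1 / (2 * K) * (1 / 2 * L) * P) = L * P := by field_simp; ring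
    have h17 : 4 * K * (2 * √L + 1 / K) = 8 * K * √L + 4 := by field_simp; ring
    rw [h16, h17] at h15
    exact h15
  have h18 : √L * P ≤ 8 * K + 4 := by
    have h19 : √L * (√L * P) ≤ √L * (8 * K + 4) := by
      calc √L * (√L * P) = L * P := by rw [← mul_assoc, hss]
        _ ≤ 8 * K * √L + 4 := h14
        _ ≤ √L * (8 * K + 4) := by linarith only [hs1]
    exact le_of_mul_le_mul_left h19 hs0
  rw [div_le_iff₀ hε] at hs2
  by_contra hcon
  push Not at hcon
  have h20 : √L * ε < √L * P := mul_lt_mul_of_pos_left hcon hs0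
  linarith only [h20, h18, hs2]

/-- Spreading, as a limit of the supremum over all the centerings. -/
theorem spread_iSup {β : ℝ} (hβ : 0 ≤ β) (h : ∀ p, 2 ≤ p → Tendsto (fun N : ℕ =>
    ∫ z : Ix N → ℝ, max (1 - ck β p z) 0 ∂(gI (Ix N))) atTop (𝓝 0)) (K : ℝ) :
    Tendsto (fun N : ℕ => ⨆ a : ℝ, (disorder N).real {g | |freeEnergy N β g - a| ≤ K}) atTop
      (𝓝 0) := by
  rw [Metric.tendsto_atTop]
  intro ε hε
  obtain ⟨N₀, hN₀⟩ := Filter.eventually_atTop.1
    (spread hβ h (K := max K 1) (by positivity) (half_pos hε))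
  refine ⟨N₀, fun N hN => ?_⟩
  have hpr : IsProbabilityMeasure (disorder N) := by unfold disorder; infer_instance
  have h1 : ∀ a : ℝ, (disorder N).real {g | |freeEnergy N β g - a| ≤ K} ≤ ε / 2 := fun a =>
    (measureReal_mono fun g hg => le_trans hg (le_max_left K 1)).trans (hN₀ N hN a)
  have h2 : (⨆ a : ℝ, (disorder N).real {g | |freeEnergy N β g - a| ≤ K}) ≤ ε / 2 :=
    ciSup_le h1
  have h3 : 0 ≤ ⨆ a : ℝ, (disorder N).real {g | |freeEnergy N β g - a| ≤ K} :=
    Real.iSup_nonneg fun a => measureReal_nonneg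
  rw [Real.dist_eq, sub_zero, abs_of_nonneg h3]
  linarith only [h2, hε]

end Vale.Agent.P146.Sk.Vr
end

section

/-!
# P146, module VAR: the variance diverges if the coefficients `Ck` are bounded below
-/

open MeasureTheory ProbabilityTheory Finset Matrix Filter Topology

namespace Vale.Agent.P146.Sk

open Vale.Agent.P157 (spin)
open Vale.Agent.P157.Lv

variable {N : ℕ}

/-- Booleans and signs. -/
def bsEquiv : Bool ≃ ℤˣ where
  toFun b := if b then 1 else -1
  invFun u := decide (u = 1)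
  left_inv b := by cases b <;> decide
  right_inv u := by
    rcases Int.units_eq_one_or u with h | h <;> subst h <;> decide

/-- Configurations. -/
def cfEquiv (N : ℕ) : (Fin N → Bool) ≃ (Fin N → ℤˣ) := Equiv.piCongrRight fun _ => bsEquiv

lemma sg_cfEquiv (x : Fin N → Bool) (i : Fin N) : Vr.sg (cfEquiv N x) i = spin x i := by
  have h : cfEquiv N x i = bsEquiv (x i) := rfl
  unfold Vr.sg spin
  rw [h]
  cases x i <;> simp [bsEquiv]

lemma qf_cfEquiv (A : Matrix (Fin N) (Fin N) ℝ) (x : Fin N → Bool) :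
    Vr.qf A (cfEquiv N x) = qf A (spin x) := by
  unfold Vr.qf qf
  rw [Fintype.sum_prod_type]
  refine sum_congr rfl fun i _ => sum_congr rfl fun j _ => ?_
  simp only [sg_cfEquiv]
  ring

lemma gb_eq_gav (β : ℝ) (g : Ix N → ℝ) (A : Matrix (Fin N) (Fin N) ℝ) :
    Vr.gb β g (fun σ => Vr.qf A σ) = gav β N g (fun x => qf A (spin x)) := by
  unfold Vr.gb gav
  rw [← Equiv.sum_comp (cfEquiv N), ← Equiv.sum_comp (cfEquiv N)]
  simp only [qf_cfEquiv]
  congr 1
  refine sum_congr rfl fun x _ => ?_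
  ring

lemma corr_eq_Ck (β : ℝ) (κ N : ℕ) : Vr.corr β κ N = Ck β κ N := by
  unfold Vr.corr Ck
  congr 1
  congr 1
  funext g
  exact gb_eq_gav β g _

/-- VAR: the variance diverges if the coefficients are bounded below. -/
theorem var_tendsto_of_Ck {β : ℝ} (hβ : 0 ≤ β)
    (h : ∀ κ : ℕ, 2 ≤ κ → ∀ ε : ℝ, 0 < ε → ∀ᶠ N : ℕ in atTop, 1 - ε ≤ Ck β κ N) :
    Tendsto (fun N => Var[freeEnergy N β; disorder N]) atTop atTop := by
  refine Vr.var_tendsto hβ one_pos fun p hp ε hε => ?_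
  simp only [corr_eq_Ck]
  exact h p hp ε hε

/-- VAR, quantitative form. -/
theorem var_ge_of_Ck {β c : ℝ} (hβ : 0 ≤ β) (hc : 0 ≤ c) (I : Finset ℕ)
    (h : ∀ i ∈ I, ∀ ε > 0, ∀ᶠ N in atTop, c - ε ≤ Ck β (i + 1) N) {ε : ℝ} (hε : 0 < ε) :
    ∀ᶠ N in atTop, c ^ 2 / 2 * ∑ i ∈ I, (1 : ℝ) / (i + 2) - ε ≤
      Var[freeEnergy N β; disorder N] := by
  refine Vr.var_ge hβ hc I (fun i hi ε hε => ?_) hε
  simp only [corr_eq_Ck]
  exact h i hi ε hε

end Vale.Agent.P146.Sk
end

section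

/-!
# P146, lower bound for the SK model: comparison of the perceptron with the SK model, size `N`
-/

open MeasureTheory ProbabilityTheory
open Vale.Agent.P157.Lv (gI EG Lip)
open Vale.Agent.P157 (spin)

namespace Vale.Agent.P146.Sk.Low

set_option linter.unusedSectionVars false

lemma pot_meas {ε lam : ℝ} {f : ℝ → ℝ}
    (hf : ∀ s, Real.exp (f s) = 1 - ε * Real.cos (lam * s)) : Measurable f := by
  have h1 : f = fun s => Real.log (1 - ε * Real.cos (lam * s)) := by
    funext s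
    rw [← hf, Real.log_exp]
  rw [h1]
  exact Real.measurable_log.comp (by fun_prop)

lemma pot_bdd {ε lam : ℝ} (hε : 0 ≤ ε) (hε1 : ε ≤ 1 / 2) {f : ℝ → ℝ}
    (hf : ∀ s, Real.exp (f s) = 1 - ε * Real.cos (lam * s)) (s : ℝ) :
    |f s| ≤ |Real.log (1 / 2)| + |Real.log 2| := by
  have h1 : f s = Real.log (1 - ε * Real.cos (lam * s)) := by rw [← hf, Real.log_exp]
  have h2 : |ε * Real.cos (lam * s)| ≤ 1 / 2 := by
    rw [abs_mul, abs_of_nonneg hε]
    calc ε * |Real.cos (lam * s)| ≤ ε * 1 :=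
          mul_le_mul_of_nonneg_left (Real.abs_cos_le_one _) hε
      _ ≤ 1 / 2 := by linarith
  have h3 := abs_le.1 h2
  have h4 := Real.log_le_log (by norm_num : (0 : ℝ) < 1 / 2)
    (by linarith : (1 : ℝ) / 2 ≤ 1 - ε * Real.cos (lam * s))
  have h5 := Real.log_le_log (by linarith : (0 : ℝ) < 1 - ε * Real.cos (lam * s))
    (by linarith : 1 - ε * Real.cos (lam * s) ≤ 2)
  rw [h1, abs_le]
  have h6 := neg_abs_le (Real.log (1 / 2))
  have h7 := le_abs_self (Real.log 2)
  have h8 := abs_nonneg (Real.log 2)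
  have h9 := abs_nonneg (Real.log (1 / 2))
  constructor <;> linarith

section law

variable {K : Type} [Fintype K] [DecidableEq K] {X : Type} [Fintype X] [DecidableEq X] [Nonempty X]

/-- The sum of two independent copies. -/
lemma law_add (U : X → K → ℝ) {a b c : ℝ} (habc : a ^ 2 + b ^ 2 = c ^ 2) {w : X → ℝ}
    (hw : ∀ x, 0 < w x) :
    ∫ ξ, ∫ ζ, lse w (fun x => a * lf (U x) ξ + b * lf (U x) ζ) ∂(gI K) ∂(gI K) =
      ∫ ξ, lse w (fun x => c * lf (U x) ξ) ∂(gI K) := by
  have i1 : Integrable (fun p : (K → ℝ) × (K → ℝ) =>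
      lse w (fun x => a * lf (U x) p.1 + b * lf (U x) p.2)) ((gI K).prod (gI K)) := by
    refine lse_integrable hw (fun x => ?_) (fun x => ?_)
    · exact (((lf_meas _).comp measurable_fst).const_mul a).add
        (((lf_meas _).comp measurable_snd).const_mul b)
    · exact (((lf_integrable (U x)).const_mul a).comp_fst _).add
        (((lf_integrable (U x)).const_mul b).comp_snd _)
  rw [← integral_prod _ i1]
  have mp := measurePreserving_sumPiEquivProdPi (X := fun _ : K ⊕ K => ℝ)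
    (fun _ : K ⊕ K => gaussianReal 0 1)
  set U' : X → (K ⊕ K) → ℝ := fun x => Sum.elim (fun k => a * U x k) (fun k => b * U x k) with hU'
  have e1 : ∀ ξ : K ⊕ K → ℝ, lse w (fun x => lf (U' x) ξ) =
      (fun p : (K → ℝ) × (K → ℝ) => lse w (fun x => a * lf (U x) p.1 + b * lf (U x) p.2))
        (MeasurableEquiv.sumPiEquivProdPi (fun _ : K ⊕ K => ℝ) ξ) := by
    intro ξ
    simp only
    congr 1
    funext x
    rw [← lf_smul, ← lf_smul]
    simp only [lf, hU', Fintype.sum_sum_type, Sum.elim_inl, Sum.elim_inr]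
    rfl
  have e2 : ∫ ξ, lse w (fun x => lf (U' x) ξ) ∂(gI (K ⊕ K)) =
      ∫ p : (K → ℝ) × (K → ℝ), lse w (fun x => a * lf (U x) p.1 + b * lf (U x) p.2)
        ∂((gI K).prod (gI K)) := by
    simp_rw [e1]
    exact mp.integral_comp' (g := fun p : (K → ℝ) × (K → ℝ) =>
      lse w (fun x => a * lf (U x) p.1 + b * lf (U x) p.2))
  rw [← e2]
  have mF : Measurable fun u : X → ℝ => lse w u := lse_measurable w fun x => measurable_pi_apply x
  have hG : ∀ x y, Vale.Agent.P157.Par.gram U' U' x y =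
      Vale.Agent.P157.Par.gram (fun x k => c * U x k) (fun x k => c * U x k) x y := by
    intro x y
    simp only [Vale.Agent.P157.Par.gram, hU', Fintype.sum_sum_type, Sum.elim_inl, Sum.elim_inr]
    rw [← Finset.sum_add_distrib]
    refine Finset.sum_congr rfl fun k _ => ?_
    linear_combination (U x k * U y k) * habc
  have h := Vale.Agent.P157.Par.integral_lin_congr hG mF
  have e3 : ∀ ξ : K → ℝ, (fun x => c * lf (U x) ξ) =
      Vale.Agent.P157.Par.lin (fun x k => c * U x k) ξ := by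
    intro ξ
    funext x
    rw [← lf_smul]
    rfl
  simp only [e3]
  exact h

/-- The law is symmetric. -/
lemma law_neg (U : X → K → ℝ) (w : X → ℝ) :
    ∫ ξ, lse w (fun x => -lf (U x) ξ) ∂(gI K) = ∫ ξ, lse w (fun x => lf (U x) ξ) ∂(gI K) := by
  have mF : Measurable fun u : X → ℝ => lse w u := lse_measurable w fun x => measurable_pi_apply x
  have hG : ∀ x y, Vale.Agent.P157.Par.gram (fun x k => -1 * U x k) (fun x k => -1 * U x k) x y =
      Vale.Agent.P157.Par.gram U U x y := by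
    intro x y
    simp only [Vale.Agent.P157.Par.gram]
    exact Finset.sum_congr rfl fun k _ => by ring
  have h := Vale.Agent.P157.Par.integral_lin_congr hG mF
  have e3 : ∀ ξ : K → ℝ, (fun x => -lf (U x) ξ) =
      Vale.Agent.P157.Par.lin (fun x k => -1 * U x k) ξ := by
    intro ξ
    funext x
    rw [neg_eq_neg_one_mul, ← lf_smul]
    rfl
  simp only [e3]
  exact h

/-- Convexity of the log-sum-exp function. -/
lemma lse_convex {w : X → ℝ} (hw : ∀ x, 0 < w x) (u v : X → ℝ) {θ : ℝ} (h0 : 0 ≤ θ) (h1 : θ ≤ 1) :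
    lse w (fun x => (1 - θ) * u x + θ * v x) ≤ (1 - θ) * lse w u + θ * lse w v := by
  -- tangent at the intermediate point
  set m : X → ℝ := fun x => (1 - θ) * u x + θ * v x with hm
  have hZ := lse_sum_pos hw m
  set p : X → ℝ := fun x => w x * Real.exp (m x) / ∑ x, w x * Real.exp (m x) with hp
  have hp0 : ∀ x, 0 ≤ p x := fun x => div_nonneg (mul_pos (hw x) (Real.exp_pos _)).le hZ.le
  have hp1 : ∑ x, p x = 1 := by
    rw [hp]
    simp only
    rw [← Finset.sum_div, div_self hZ.ne']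
  have tang : ∀ y : X → ℝ, lse w m + ∑ x, p x * (y x - m x) ≤ lse w y := by
    intro y
    have h2 : Real.exp (∑ x, p x * (y x - m x)) ≤ ∑ x, p x * Real.exp (y x - m x) := by
      have := convexOn_exp.map_sum_le (t := Finset.univ) (w := p) (p := fun x => y x - m x)
        (fun x _ => hp0 x) hp1 (fun x _ => Set.mem_univ _)
      simpa only [smul_eq_mul] using this
    have h3 : ∑ x, p x * Real.exp (y x - m x) =
        (∑ x, w x * Real.exp (y x)) / ∑ x, w x * Real.exp (m x) := by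
      rw [Finset.sum_div]
      refine Finset.sum_congr rfl fun x _ => ?_
      simp only [hp]
      rw [div_mul_eq_mul_div, mul_assoc, ← Real.exp_add]
      congr 3
      ring
    rw [h3, le_div_iff₀ hZ] at h2
    have h4 := Real.log_le_log (mul_pos (Real.exp_pos _) hZ) h2
    rw [Real.log_mul (Real.exp_pos _).ne' hZ.ne', Real.log_exp] at h4
    unfold lse
    linarith
  have h2 := mul_le_mul_of_nonneg_left (tang u) (sub_nonneg.2 h1)
  have h3 := mul_le_mul_of_nonneg_left (tang v) h0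
  have h4 : (1 - θ) * ∑ x, p x * (u x - m x) + θ * ∑ x, p x * (v x - m x) = 0 := by
    rw [Finset.mul_sum, Finset.mul_sum, ← Finset.sum_add_distrib]
    refine Finset.sum_eq_zero fun x _ => ?_
    simp only [hm]
    ring
  have h5 : (1 - θ) * (lse w m + ∑ x, p x * (u x - m x)) + θ * (lse w m + ∑ x, p x * (v x - m x)) =
      lse w m + ((1 - θ) * ∑ x, p x * (u x - m x) + θ * ∑ x, p x * (v x - m x)) := by ring
  linarith

/-- The mean free energy increases with the variance. -/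
lemma lse_mono_var (U : X → K → ℝ) {w : X → ℝ} (hw : ∀ x, 0 < w x) {t : ℝ} (h0 : 0 ≤ t)
    (h1 : t ≤ 1) :
    ∫ ξ, lse w (fun x => t * lf (U x) ξ) ∂(gI K) ≤ ∫ ξ, lse w (fun x => lf (U x) ξ) ∂(gI K) := by
  have i1 : Integrable (fun ξ => lse w (fun x => lf (U x) ξ)) (gI K) :=
    lse_integrable hw (fun x => lf_meas _) (fun x => lf_integrable _)
  have i2 : Integrable (fun ξ => lse w (fun x => -lf (U x) ξ)) (gI K) :=
    lse_integrable hw (fun x => (lf_meas _).neg) (fun x => (lf_integrable _).neg)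
  have i3 : Integrable (fun ξ => lse w (fun x => t * lf (U x) ξ)) (gI K) :=
    lse_integrable hw (fun x => (lf_meas _).const_mul _) (fun x => (lf_integrable _).const_mul _)
  have hpt : ∀ ξ, lse w (fun x => t * lf (U x) ξ) ≤
      (1 - (1 + t) / 2) * lse w (fun x => -lf (U x) ξ) + (1 + t) / 2 * lse w (fun x => lf (U x) ξ) := by
    intro ξ
    have h := lse_convex hw (fun x => -lf (U x) ξ) (fun x => lf (U x) ξ)
      (θ := (1 + t) / 2) (by linarith) (by linarith)
    refine le_trans (le_of_eq ?_) h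
    congr 1
    funext x
    ring
  have i4 : Integrable (fun ξ => (1 - (1 + t) / 2) * lse w (fun x => -lf (U x) ξ)) (gI K) :=
    i2.const_mul _
  have i5 : Integrable (fun ξ => (1 + t) / 2 * lse w (fun x => lf (U x) ξ)) (gI K) := i1.const_mul _
  have h := integral_mono i3 (i4.add i5) hpt
  have e : ∫ ξ, ((1 - (1 + t) / 2) * lse w (fun x => -lf (U x) ξ) +
      (1 + t) / 2 * lse w (fun x => lf (U x) ξ)) ∂(gI K) =
      ∫ ξ, lse w (fun x => lf (U x) ξ) ∂(gI K) := by
    rw [integral_add i4 i5, integral_const_mul, integral_const_mul, law_neg]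
    ring
  rw [← e]
  exact h

lemma lse_normalize {w : X → ℝ} (hw : ∀ x, 0 < w x) (u : X → ℝ) :
    lse w u = Real.log (∑ x, w x) + lse (fun x => w x / ∑ x, w x) u := by
  have hs : 0 < ∑ x, w x := Finset.sum_pos (fun x _ => hw x) Finset.univ_nonempty
  have hw' : ∀ x, 0 < w x / ∑ x, w x := fun x => div_pos (hw x) hs
  unfold lse
  rw [← Real.log_mul hs.ne' (lse_sum_pos hw' u).ne', Finset.mul_sum]
  congr 1
  refine Finset.sum_congr rfl fun x _ => ?_
  field_simp

end law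

/-! ### The perceptron and the SK model -/

variable {N : ℕ}

/-- The pattern vectors. -/
noncomputable def Up (N : ℕ) (x : Fin N → Bool) (i : Fin N) : ℝ := 1 / √(N : ℝ) * spin x i

/-- The vectors of the SK model, of variance one. -/
noncomputable def Us (N : ℕ) (x : Fin N → Bool) (p : Fin N × Fin N) : ℝ :=
  1 / (N : ℝ) * (spin x p.1 * spin x p.2)

lemma spin_sq' (x : Fin N → Bool) (i : Fin N) : spin x i ^ 2 = 1 := by
  unfold spin; split_ifs <;> norm_num

lemma Up_gram (hN : 0 < N) (x y : Fin N → Bool) :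
    ∑ i, Up N x i * Up N y i = 1 / (N : ℝ) * ∑ i, spin x i * spin y i := by
  have h : (√(N : ℝ)) ^ 2 = N := Real.sq_sqrt (Nat.cast_nonneg N)
  have hN' : (0 : ℝ) < N := by exact_mod_cast hN
  have h0 : √(N : ℝ) ≠ 0 := (Real.sqrt_pos.2 hN').ne'
  rw [Finset.mul_sum]
  refine Finset.sum_congr rfl fun i _ => ?_
  unfold Up
  have : 1 / √(N : ℝ) * spin x i * (1 / √(N : ℝ) * spin y i) =
      1 / (√(N : ℝ)) ^ 2 * (spin x i * spin y i) := by
    field_simp
  rw [this, h]

lemma Up_sq (hN : 0 < N) (x : Fin N → Bool) : ∑ i, Up N x i ^ 2 = 1 := by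
  have h := Up_gram hN x x
  have hN' : (0 : ℝ) < N := by exact_mod_cast hN
  simp only [← sq, spin_sq'] at h
  rw [h]
  simp
  field_simp

lemma Us_gram (x y : Fin N → Bool) :
    ∑ p, Us N x p * Us N y p = (1 / (N : ℝ) * ∑ i, spin x i * spin y i) ^ 2 := by
  rw [Fintype.sum_prod_type, mul_pow, sq (∑ i, spin x i * spin y i), Finset.sum_mul_sum,
    Finset.mul_sum]
  refine Finset.sum_congr rfl fun i _ => ?_
  rw [Finset.mul_sum]
  refine Finset.sum_congr rfl fun j _ => ?_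
  unfold Us
  ring

lemma Us_sq (hN : 0 < N) (x : Fin N → Bool) : ∑ p, Us N x p ^ 2 = 1 := by
  have h := Us_gram x x
  have h2 := Up_sq hN x
  have h3 := Up_gram hN x x
  simp only [← sq] at h h3
  rw [h, ← h3, h2, one_pow]

/-- The constants. -/
noncomputable def cc (ε lam : ℝ) : ℝ := ε ^ 2 / 2 * Real.exp (-lam ^ 2) * lam ^ 4

/-- The constants. -/
noncomputable def kk (ε lam : ℝ) : ℝ :=
  -(ε * Real.exp (-lam ^ 2 / 2)) - ε ^ 2 / 2 * Real.exp (-lam ^ 2) - cc ε lam / 2 + 2 * ε ^ 3 +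
    96 * cc ε lam ^ 2

/-- One pattern is replaced by one slice. -/
lemma one_pattern (hN : 0 < N) {ε lam : ℝ} (hε : 0 ≤ ε) (hε1 : ε ≤ 1 / 2)
    (hc : cc ε lam ≤ 1 / 8) {f : ℝ → ℝ}
    (hf : ∀ s, Real.exp (f s) = 1 - ε * Real.cos (lam * s)) {w : (Fin N → Bool) → ℝ}
    (hw : ∀ x, 0 < w x) :
    ∫ ξ, lse w (fun x => f (lf (Up N x) ξ)) ∂(gI (Fin N)) ≤
      ∫ ξ, lse w (fun x => √(cc ε lam) * lf (Us N x) ξ) ∂(gI (Fin N × Fin N)) + kk ε lam := by
  have hcc : 0 ≤ cc ε lam := by unfold cc; positivity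
  have hs : 0 < ∑ x, w x := Finset.sum_pos (fun x _ => hw x) Finset.univ_nonempty
  have hw' : ∀ x, 0 < w x / ∑ x, w x := fun x => div_pos (hw x) hs
  have hw1 : ∑ x, w x / ∑ x, w x = 1 := by rw [← Finset.sum_div, div_self hs.ne']
  have h1 := pat_upper (Up N) (Up_sq hN) hε hε1 hf hw' hw1
  have hU : ∀ x, ∑ p, (√(cc ε lam) * Us N x p) ^ 2 = cc ε lam := by
    intro x
    simp only [mul_pow, Real.sq_sqrt hcc]
    rw [← Finset.mul_sum, Us_sq hN, mul_one]
  have h2 := gau_lower (fun x p => √(cc ε lam) * Us N x p) hc hU hw' hw1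
  simp only [lf_smul] at h2
  have e1 : ∀ x y : Fin N → Bool, ∑ p, √(cc ε lam) * Us N x p * (√(cc ε lam) * Us N y p) =
      cc ε lam * (∑ i, Up N x i * Up N y i) ^ 2 := by
    intro x y
    rw [Up_gram hN, ← Us_gram, Finset.mul_sum]
    refine Finset.sum_congr rfl fun p _ => ?_
    have : √(cc ε lam) * √(cc ε lam) = cc ε lam := Real.mul_self_sqrt hcc
    linear_combination (Us N x p * Us N y p) * this
  simp only [e1] at h2
  set Q := ∑ x, ∑ y, w x / (∑ x, w x) * (w y / ∑ x, w x) * (∑ i, Up N x i * Up N y i) ^ 2 with hQ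
  have e2 : ∑ x, ∑ y, w x / (∑ x, w x) * (w y / ∑ x, w x) *
      (cc ε lam * (∑ i, Up N x i * Up N y i) ^ 2) = cc ε lam * Q := by
    rw [hQ, Finset.mul_sum]
    refine Finset.sum_congr rfl fun x _ => ?_
    rw [Finset.mul_sum]
    exact Finset.sum_congr rfl fun y _ => by ring
  rw [e2] at h2
  have i1 : Integrable (fun ξ => lse (fun x => w x / ∑ x, w x)
      (fun x => √(cc ε lam) * lf (Us N x) ξ)) (gI (Fin N × Fin N)) :=
    lse_integrable hw' (fun x => (lf_meas _).const_mul _) (fun x => (lf_integrable _).const_mul _)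
  have fm := pot_meas hf
  have i2 : Integrable (fun ξ => lse (fun x => w x / ∑ x, w x)
      (fun x => f (lf (Up N x) ξ))) (gI (Fin N)) :=
    lse_integrable hw' (fun x => fm.comp (lf_meas _)) fun x =>
      (EG.of_bdd (fm.comp (lf_meas _)) fun ξ => pot_bdd hε hε1 hf _).integrable
  simp only [lse_normalize hw]
  rw [integral_add (integrable_const _) i1, integral_add (integrable_const _) i2]
  simp only [integral_const, probReal_univ, smul_eq_mul, one_mul]
  have e3 : ε ^ 2 / 2 * Real.exp (-lam ^ 2) * (1 + lam ^ 4 / 2 * Q) =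
      ε ^ 2 / 2 * Real.exp (-lam ^ 2) + cc ε lam * Q / 2 := by
    unfold cc; ring
  rw [e3] at h1
  unfold kk
  linarith only [h1, h2]

/-- **Comparison of the perceptron with the SK model.** -/
theorem perceptron_le (hN : 0 < N) {ε lam : ℝ} (hε : 0 ≤ ε) (hε1 : ε ≤ 1 / 2)
    (hc : cc ε lam ≤ 1 / 8) {f : ℝ → ℝ}
    (hf : ∀ s, Real.exp (f s) = 1 - ε * Real.cos (lam * s)) (A : ℕ) {w : (Fin N → Bool) → ℝ}
    (hw : ∀ x, 0 < w x) :
    ∫ g : Fin A → Fin N → ℝ, lse w (fun x => ∑ a, f (lf (Up N x) (g a)))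
      ∂(Measure.pi fun _ => gI (Fin N)) ≤
      ∫ ξ, lse w (fun x => √(A * cc ε lam) * lf (Us N x) ξ) ∂(gI (Fin N × Fin N)) +
        A * kk ε lam := by
  have hcc : 0 ≤ cc ε lam := by unfold cc; positivity
  have fm := pot_meas hf
  refine tele (gI (Fin N)) (gI (Fin N × Fin N)) (U := fun g x => f (lf (Up N x) g))
    (V := fun A ξ x => √(A * cc ε lam) * lf (Us N x) ξ)
    (fun x => fm.comp (lf_meas _))
    (fun x => (EG.of_bdd (fm.comp (lf_meas _)) fun ξ => pot_bdd hε hε1 hf _).integrable)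
    (fun A x => (lf_meas _).const_mul _) (fun A x => (lf_integrable _).const_mul _)
    (fun ω x => by simp) (κ := kk ε lam) (fun A w hw => ?_) A w hw
  have h1 : ∀ ξ : Fin N × Fin N → ℝ,
      ∫ ω, lse w (fun x => √(A * cc ε lam) * lf (Us N x) ξ + f (lf (Up N x) ω)) ∂(gI (Fin N)) ≤
      ∫ ζ, lse w (fun x => √(A * cc ε lam) * lf (Us N x) ξ + √(cc ε lam) * lf (Us N x) ζ)
        ∂(gI (Fin N × Fin N)) + kk ε lam := by
    intro ξ
    simp only [lse_add]
    exact one_pattern hN hε hε1 hc hf fun x => mul_pos (hw x) (Real.exp_pos _)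
  have i1 : Integrable (fun p : (Fin N × Fin N → ℝ) × (Fin N → ℝ) =>
      lse w (fun x => √(A * cc ε lam) * lf (Us N x) p.1 + f (lf (Up N x) p.2)))
      ((gI (Fin N × Fin N)).prod (gI (Fin N))) := by
    refine lse_integrable hw (fun x => ?_) (fun x => ?_)
    · exact (((lf_meas _).comp measurable_fst).const_mul _).add
        ((fm.comp (lf_meas _)).comp measurable_snd)
    · exact (((lf_integrable (Us N x)).const_mul _).comp_fst _).add
        ((EG.of_bdd (fm.comp (lf_meas (Up N x))) fun ξ => pot_bdd hε hε1 hf _).integrable.comp_snd _)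
  have i2 : Integrable (fun p : (Fin N × Fin N → ℝ) × (Fin N × Fin N → ℝ) =>
      lse w (fun x => √(A * cc ε lam) * lf (Us N x) p.1 + √(cc ε lam) * lf (Us N x) p.2))
      ((gI (Fin N × Fin N)).prod (gI (Fin N × Fin N))) := by
    refine lse_integrable hw (fun x => ?_) (fun x => ?_)
    · exact (((lf_meas _).comp measurable_fst).const_mul _).add
        (((lf_meas _).comp measurable_snd).const_mul _)
    · exact (((lf_integrable (Us N x)).const_mul _).comp_fst _).add
        (((lf_integrable (Us N x)).const_mul _).comp_snd _)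
  have i3 : Integrable (fun ξ => ∫ ζ, lse w (fun x => √(A * cc ε lam) * lf (Us N x) ξ +
      √(cc ε lam) * lf (Us N x) ζ) ∂(gI (Fin N × Fin N)) + kk ε lam) (gI (Fin N × Fin N)) :=
    i2.integral_prod_left.add (integrable_const _)
  have h2 := integral_mono i1.integral_prod_left i3 h1
  refine h2.trans (le_of_eq ?_)
  rw [integral_add i2.integral_prod_left (integrable_const _),
    law_add (Us N) (c := √((A + 1 : ℕ) * cc ε lam)) ?_ hw]
  · simp
  · rw [Real.sq_sqrt (by positivity), Real.sq_sqrt hcc, Real.sq_sqrt (by positivity)]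
    push_cast
    ring

/-- The pressure of the SK model. -/
noncomputable def skP (β : ℝ) (N : ℕ) : ℝ :=
  1 / N * ∫ ξ, lse (fun _ : Fin N → Bool => Real.exp (-(N * Real.log 2)))
    (fun x => β / √(2 * N) * ∑ i, ∑ j, ξ (i, j) * (spin x i * spin x j)) ∂(gI (Fin N × Fin N))

lemma skP_eq {β : ℝ} (hN : 0 < N) :
    skP β N = 1 / N * ∫ ξ, lse (fun _ : Fin N → Bool => Real.exp (-(N * Real.log 2)))
      (fun x => √(N / 2) * β * lf (Us N x) ξ) ∂(gI (Fin N × Fin N)) := by
  unfold skP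
  congr 2
  funext ξ
  congr 1
  funext x
  have hN' : (0 : ℝ) < N := by exact_mod_cast hN
  have e1 : lf (Us N x) ξ = 1 / N * ∑ i, ∑ j, ξ (i, j) * (spin x i * spin x j) := by
    unfold lf Us
    rw [Fintype.sum_prod_type, Finset.mul_sum]
    refine Finset.sum_congr rfl fun i _ => ?_
    rw [Finset.mul_sum]
    exact Finset.sum_congr rfl fun j _ => by ring
  rw [e1, ← mul_assoc]
  congr 1
  have h2 : √(2 * (N : ℝ)) * √(N / 2) = N := by
    rw [← Real.sqrt_mul (by positivity)]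
    have : 2 * (N : ℝ) * (N / 2) = N ^ 2 := by ring
    rw [this, Real.sqrt_sq hN'.le]
  have h3 : 0 < √(2 * (N : ℝ)) := Real.sqrt_pos.2 (by positivity)
  rw [div_eq_iff h3.ne']
  have : √(N / 2 : ℝ) * β * (1 / N) * √(2 * N) = (√(2 * (N : ℝ)) * √(N / 2)) * (β / N) := by ring
  rw [this, h2]
  field_simp

/-- **Comparison of the perceptron with the SK model, per spin.** -/
theorem perceptron_le_sk (hN : 0 < N) {ε lam β : ℝ} (hε : 0 ≤ ε) (hε1 : ε ≤ 1 / 2) (hβ : 0 < β)
    (hc : cc ε lam ≤ 1 / 8) {f : ℝ → ℝ}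
    (hf : ∀ s, Real.exp (f s) = 1 - ε * Real.cos (lam * s)) {A : ℕ}
    (hA : A * cc ε lam ≤ N / 2 * β ^ 2) :
    1 / N * ∫ g : Fin A → Fin N → ℝ, Real.log (∑ x : Fin N → Bool, Real.exp (-(N * Real.log 2) +
        ∑ b, f (1 / √(N : ℝ) * ∑ i, spin x i * g b i)))
        ∂(Measure.pi fun _ => Measure.pi fun _ => gaussianReal 0 1) ≤
      skP β N + A / N * kk ε lam := by
  have hN' : (0 : ℝ) < N := by exact_mod_cast hN
  have hcc : 0 ≤ cc ε lam := by unfold cc; positivity
  set w : (Fin N → Bool) → ℝ := fun _ => Real.exp (-(N * Real.log 2)) with hw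
  have hw0 : ∀ x, 0 < w x := fun _ => Real.exp_pos _
  have h1 := perceptron_le hN hε hε1 hc hf A hw0
  have e1 : ∫ g : Fin A → Fin N → ℝ, Real.log (∑ x : Fin N → Bool, Real.exp (-(N * Real.log 2) +
        ∑ b, f (1 / √(N : ℝ) * ∑ i, spin x i * g b i)))
        ∂(Measure.pi fun _ => Measure.pi fun _ => gaussianReal 0 1) =
      ∫ g : Fin A → Fin N → ℝ, lse w (fun x => ∑ a, f (lf (Up N x) (g a)))
      ∂(Measure.pi fun _ => gI (Fin N)) := by
    refine integral_congr_ae (Filter.Eventually.of_forall fun g => ?_)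
    simp only [lse, hw]
    congr 1
    refine Finset.sum_congr rfl fun x _ => ?_
    rw [← Real.exp_add]
    congr 2
    refine Finset.sum_congr rfl fun b _ => ?_
    congr 1
    unfold lf Up
    rw [Finset.mul_sum]
    exact Finset.sum_congr rfl fun i _ => by ring
  rw [e1, skP_eq hN]
  have hB : 0 < √(N / 2 : ℝ) * β := mul_pos (Real.sqrt_pos.2 (by positivity)) hβ
  have h2 : √(A * cc ε lam) ≤ √(N / 2 : ℝ) * β := by
    rw [Real.sqrt_le_left hB.le, mul_pow, Real.sq_sqrt (by positivity)]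
    exact hA
  have h3 := lse_mono_var (fun x p => √(N / 2 : ℝ) * β * Us N x p) hw0
    (t := √(A * cc ε lam) / (√(N / 2 : ℝ) * β)) (by (clear * - hN hβ; positivity)) ((div_le_one hB).2 h2)
  simp only [lf_smul] at h3
  have e2 : ∀ (x : Fin N → Bool) (ξ : Fin N × Fin N → ℝ),
      √(A * cc ε lam) / (√(N / 2 : ℝ) * β) * (√(N / 2 : ℝ) * β * lf (Us N x) ξ) =
      √(A * cc ε lam) * lf (Us N x) ξ := by
    intro x ξ
    field_simp
  simp only [e2] at h3
  have h4 := mul_le_mul_of_nonneg_left (h1.trans (add_le_add h3 le_rfl))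
    (show (0 : ℝ) ≤ 1 / N by positivity)
  refine h4.trans (le_of_eq ?_)
  rw [mul_add]
  congr 1
  ring

end Vale.Agent.P146.Sk.Low
end

section

/-!
# P146 / Pw2: competitors on the uniform grid of exponents
-/

set_option linter.all false

open MeasureTheory ProbabilityTheory Filter Topology Set

namespace Vale.Agent.P146.Pw2

open Vale.Agent.P157.Par
open Vale.Agent.P146.Gap

/-! ### cascades -/

theorem grid_congr {m r r' : ℕ → ℝ} : ∀ (c : ℕ) (F : ℝ → ℝ), (∀ l ≤ c, r l = r' l) →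
    cascade m r c F = cascade m r' c F := by
  intro c
  induction c with
  | zero => intro F _; rfl
  | succ c ih =>
    intro F h
    rw [cascade_succ_def, cascade_succ_def, h (c + 1) le_rfl, h c (Nat.le_succ c)]
    exact ih _ fun l hl => h l (hl.trans (Nat.le_succ c))

theorem grid_const {m r : ℕ → ℝ} {L : ℕ} : ∀ (d : ℕ) (F : ℝ → ℝ),
    (∀ l, 1 ≤ l → l ≤ L + d → 0 < m l) → (∀ l, L ≤ l → l ≤ L + d → r l = r L) →
    cascade m r (L + d) F = cascade m r L F := by
  intro d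
  induction d with
  | zero => intro F _ _; rfl
  | succ d ih =>
    intro F hm h
    have e : L + (d + 1) = (L + d) + 1 := rfl
    rw [e, cascade_succ_def, h (L + d + 1) (by omega) (by omega), h (L + d) (by omega) (by omega),
      sub_self, comp_gstep_zero (hm (L + d + 1) (by omega) (by omega)).ne']
    exact ih F (fun l a b => hm l a (by omega)) (fun l a b => h l a (by omega))

/-- Increasing the path by a constant above the level `L`. -/
theorem grid_insert {m r r' : ℕ → ℝ} {L d : ℕ} {v : ℝ} {F : ℝ → ℝ} {K : NNReal}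
    (hF : LipschitzWith K F) (hv : 0 ≤ v)
    (hm : ∀ l, 1 ≤ l → l ≤ L + 1 + d → 0 < m l) (h1 : ∀ l ≤ L, r' l = r l)
    (h2 : ∀ l, L + 1 ≤ l → l ≤ L + 1 + d → r' l = r l + v)
    (h3 : ∀ l, L + 1 ≤ l → l ≤ L + 1 + d → r l = r (L + 1)) (h4 : r L ≤ r (L + 1)) :
    cascade m r' (L + 1 + d) F = cascade m r (L + 1 + d) (gstep (m (L + 1)) v F) := by
  rw [grid_const d F hm (fun l a b => by rw [h2 l a b, h3 l a b, h2 (L + 1) le_rfl (by omega)]),
    grid_const d _ hm h3, cascade_succ_def, cascade_succ_def,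
    comp_add (hm (L + 1) (by omega) (by omega)) (by linarith) hv hF,
    h2 (L + 1) le_rfl (by omega), h1 L le_rfl]
  have e : r (L + 1) + v - r L = r (L + 1) - r L + v := by ring
  rw [e]
  exact grid_congr L _ h1

theorem grid_le {g v c : ℝ} (hg : 0 < g) {F G : ℝ → ℝ} {K K' : NNReal} (hF : LipschitzWith K F)
    (hG : LipschitzWith K' G) (h : ∀ x, F x ≤ G x + c) (x : ℝ) :
    gstep g v F x ≤ gstep g v G x + c := by
  unfold gstep
  have h1 : ∫ z, Real.exp (g * F (x + √v * z)) ∂(gaussianReal 0 1) ≤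
      Real.exp (g * c) * ∫ z, Real.exp (g * G (x + √v * z)) ∂(gaussianReal 0 1) := by
    rw [← integral_const_mul]
    refine integral_mono (comp_int hF g v x) ((comp_int hG g v x).const_mul _) fun z => ?_
    simp only []
    rw [← Real.exp_add]
    refine Real.exp_le_exp.2 ?_
    have := mul_le_mul_of_nonneg_left (h (x + √v * z)) hg.le
    linarith
  have h2 := comp_pos hF g v x
  have h3 := comp_pos hG g v x
  have h4 := Real.log_le_log h2 h1
  rw [Real.log_mul (Real.exp_pos _).ne' h3.ne', Real.log_exp] at h4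
  have h5 : 1 / g * (g * c) = c := by field_simp
  calc 1 / g * Real.log (∫ z, Real.exp (g * F (x + √v * z)) ∂(gaussianReal 0 1))
      ≤ 1 / g * (g * c + Real.log (∫ z, Real.exp (g * G (x + √v * z)) ∂(gaussianReal 0 1))) :=
        mul_le_mul_of_nonneg_left h4 (by positivity)
    _ = _ := by rw [mul_add, h5]; ring

theorem grid_casc_le {c : ℝ} {m r : ℕ → ℝ} : ∀ (k : ℕ) (F G : ℝ → ℝ), LipschitzWith 1 F →
    LipschitzWith 1 G → (∀ l, 1 ≤ l → l ≤ k → 0 < m l) → (∀ x, F x ≤ G x + c) →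
    ∀ x, cascade m r k F x ≤ cascade m r k G x + c := by
  intro k
  induction k with
  | zero => intro F G _ _ _ h; exact h
  | succ k ih =>
    intro F G hF hG hm h
    rw [cascade_succ_def, cascade_succ_def]
    have h0 := hm (k + 1) (by omega) le_rfl
    exact ih _ _ (comp_lip h0 hF) (comp_lip h0 hG) (fun l a b => hm l a (by omega))
      (grid_le h0 hF hG h)

theorem grid_adm_lip {C : ℝ} {F : ℝ → ℝ} (h : Adm C F) : LipschitzWith 1 F := by
  have h1 := (adm_ec h).sm.lip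
  refine LipschitzWith.of_dist_le_mul fun x y => ?_
  rw [Real.dist_eq, Real.dist_eq]
  simpa using h1 x y

/-! ### the grid -/

/-- The last index below the exponent `m l` of the grid. -/
noncomputable def gJ (n k : ℕ) (μ : ℕ → ℝ) (l : ℕ) : ℕ :=
  @Nat.findGreatest (fun i => μ i ≤ gm n l) (Classical.decPred _) k

theorem gJ_le (n k : ℕ) (μ : ℕ → ℝ) (l : ℕ) : gJ n k μ l ≤ k :=
  @Nat.findGreatest_le (fun i => μ i ≤ gm n l) (Classical.decPred _) k

theorem grid_gm_nonneg (n l : ℕ) : 0 ≤ gm n l := by unfold gm; positivity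

theorem grid_gm_mono {n l l' : ℕ} (h : l ≤ l') : gm n l ≤ gm n l' := by
  unfold gm
  have : (l : ℝ) ≤ l' := by exact_mod_cast h
  gcongr

theorem grid_gm_pos {n l : ℕ} (h : 1 ≤ l) : 0 < gm n l := by
  unfold gm
  have : (0 : ℝ) < l := by exact_mod_cast h
  positivity

theorem grid_gm_top (n : ℕ) : gm n (n + 1) = 1 := (gm_exponents n).2.1

theorem gJ_spec {n k : ℕ} {μ : ℕ → ℝ} (hμ : Exponents k μ) (l : ℕ) :
    μ (gJ n k μ l) ≤ gm n l := by
  have h : μ 0 ≤ gm n l := by rw [hμ.1]; exact grid_gm_nonneg n l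
  exact @Nat.findGreatest_spec 0 (fun i => μ i ≤ gm n l) (Classical.decPred _) k (Nat.zero_le k) h

theorem le_gJ {n k : ℕ} {μ : ℕ → ℝ} {l i : ℕ} (hi : i ≤ k) (h : μ i ≤ gm n l) :
    i ≤ gJ n k μ l :=
  @Nat.le_findGreatest i (fun i => μ i ≤ gm n l) (Classical.decPred _) k hi h

theorem grid_exp_mono {k : ℕ} {μ : ℕ → ℝ} (hμ : Exponents k μ) {i j : ℕ} (hij : i ≤ j)
    (hj : j ≤ k + 1) : μ i ≤ μ j := by
  obtain ⟨d, rfl⟩ := Nat.exists_eq_add_of_le hij
  induction d with
  | zero => exact le_rfl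
  | succ d ih =>
    exact (ih (by omega) (by omega)).trans (hμ.2.2 (i + d) (by omega)).le

theorem gJ_lt {n k : ℕ} {μ : ℕ → ℝ} (hμ : Exponents k μ) {l i : ℕ} (hi : i ≤ k)
    (h : gm n l < μ i) : gJ n k μ l < i := by
  by_contra hc
  have h1 := grid_exp_mono hμ (not_lt.1 hc) ((gJ_le n k μ l).trans (Nat.le_succ k))
  have h2 := gJ_spec (n := n) hμ l
  linarith

theorem gJ_mono {n k : ℕ} {μ : ℕ → ℝ} (hμ : Exponents k μ) {l l' : ℕ} (h : l ≤ l') :
    gJ n k μ l ≤ gJ n k μ l' :=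
  le_gJ (gJ_le n k μ l) ((gJ_spec hμ l).trans (grid_gm_mono h))

theorem gJ_top {n k : ℕ} {μ : ℕ → ℝ} (hμ : Exponents k μ) : gJ n k μ (n + 1) = k := by
  refine le_antisymm (gJ_le _ _ _ _) (le_gJ le_rfl ?_)
  rw [grid_gm_top, ← hμ.2.1]
  exact (hμ.2.2 k le_rfl).le

theorem gJ_zero {n k : ℕ} {μ : ℕ → ℝ} (hμ : Exponents k μ) : gJ n k μ 0 = 0 := by
  by_contra hc
  have h1 : 1 ≤ gJ n k μ 0 := Nat.one_le_iff_ne_zero.2 hc
  have h2 := grid_exp_mono hμ h1 ((gJ_le n k μ 0).trans (Nat.le_succ k))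
  have h3 := gJ_spec (n := n) hμ 0
  have h4 : gm n 0 = 0 := by simp [gm]
  have h5 := hμ.2.2 0 (Nat.zero_le k)
  rw [hμ.1] at h5
  rw [h4] at h3
  linarith

theorem grid_path_mono {k : ℕ} {p : ℕ → ℝ} (hp : Path k p) {i j : ℕ} (hij : i ≤ j) (hj : j ≤ k) :
    p i ≤ p j := by
  obtain ⟨d, rfl⟩ := Nat.exists_eq_add_of_le hij
  induction d with
  | zero => exact le_rfl
  | succ d ih =>
    exact (ih (by omega) (by omega)).trans (hp.2 (i + d) (by omega))

/-- The rounding of an exponent. -/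
theorem grid_ceil {n : ℕ} {x : ℝ} (hx : 0 < x) (hx1 : x ≤ 1) : ∃ L : ℕ, L ≤ n ∧
    gm n L < x ∧ x ≤ gm n (L + 1) := by
  have hn : (0 : ℝ) < (n : ℝ) + 1 := by positivity
  have hpos : 0 < ⌈x * (n + 1)⌉₊ := Nat.ceil_pos.2 (by positivity)
  refine ⟨⌈x * (n + 1)⌉₊ - 1, ?_, ?_, ?_⟩
  · have h1 : ⌈x * ((n : ℝ) + 1)⌉₊ ≤ n + 1 := by
      rw [Nat.ceil_le]
      push_cast
      nlinarith
    omega
  · unfold gm
    rw [div_lt_iff₀ hn]
    have h1 := Nat.ceil_lt_add_one (a := x * ((n : ℝ) + 1)) (by positivity)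
    have h2 : ((⌈x * ((n : ℝ) + 1)⌉₊ - 1 : ℕ) : ℝ) = (⌈x * ((n : ℝ) + 1)⌉₊ : ℝ) - 1 := by
      rw [Nat.cast_sub hpos, Nat.cast_one]
    rw [h2]
    linarith
  · rw [Nat.sub_add_cancel hpos]
    unfold gm
    rw [le_div_iff₀ hn]
    exact Nat.le_ceil _

/-- The comparison of the cascades. -/
theorem grid_casc {b : ℝ} {n k : ℕ} {μ p : ℕ → ℝ} (hμ : Exponents k μ) (hp : Path k p) :
    ∀ j, j ≤ k → ∀ (C : ℝ) (F : ℝ → ℝ), Adm C F → ∀ x,
      cascade (gm n) (fun l => b ^ 2 * p (min j (gJ n k μ l))) (n + 1) F x ≤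
        cascade μ (fun l => b ^ 2 * p l) j F x + b ^ 2 * (p j - p 0) / (2 * (n + 1)) := by
  have hgp : ∀ l, 1 ≤ l → 0 < gm n l := fun l hl => grid_gm_pos hl
  have hn : (0 : ℝ) < (n : ℝ) + 1 := by positivity
  intro j
  induction j with
  | zero =>
    intro _ C F hF x
    have e1 : (fun l => b ^ 2 * p (min 0 (gJ n k μ l))) = fun _ => b ^ 2 * p 0 := by
      funext l
      rw [Nat.zero_min]
    have e2 := grid_const (m := gm n) (r := fun _ => b ^ 2 * p 0) (L := 0) (n + 1) F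
      (fun l a _ => hgp l a) (fun l _ _ => rfl)
    rw [Nat.zero_add] at e2
    rw [e1, e2]
    have e3 : cascade (gm n) (fun _ => b ^ 2 * p 0) 0 F x = F x := rfl
    have e4 : cascade μ (fun l => b ^ 2 * p l) 0 F x = F x := rfl
    rw [e3, e4, sub_self, mul_zero, zero_div, add_zero]
  | succ j ih =>
    intro hj C F hF x
    have hμ0 : 0 < μ (j + 1) := by
      have h1 := hμ.2.2 0 (Nat.zero_le k)
      rw [hμ.1] at h1
      exact h1.trans_le (grid_exp_mono hμ (by omega) (by omega))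
    have hμ1 : μ (j + 1) ≤ 1 := by
      rw [← hμ.2.1]
      exact grid_exp_mono hμ (by omega) le_rfl
    have hv : 0 ≤ b ^ 2 * (p (j + 1) - p j) :=
      mul_nonneg (sq_nonneg b) (sub_nonneg.2 (hp.2 j (by omega)))
    obtain ⟨L, hLn, hL1, hL2⟩ := grid_ceil (n := n) hμ0 hμ1
    obtain ⟨d, hd⟩ := Nat.exists_eq_add_of_le hLn
    have hnd : n + 1 = L + 1 + d := by omega
    have hlow : ∀ l ≤ L, gJ n k μ l ≤ j := by
      intro l hl
      have := gJ_lt (n := n) hμ hj ((grid_gm_mono hl).trans_lt hL1)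
      omega
    have hhigh : ∀ l, L + 1 ≤ l → j + 1 ≤ gJ n k μ l := fun l hl =>
      le_gJ hj (hL2.trans (grid_gm_mono hl))
    have hins := grid_insert (m := gm n) (r := fun l => b ^ 2 * p (min j (gJ n k μ l)))
      (r' := fun l => b ^ 2 * p (min (j + 1) (gJ n k μ l))) (L := L) (d := d)
      (v := b ^ 2 * (p (j + 1) - p j)) (grid_adm_lip hF) hv (fun l a _ => hgp l a)
      (fun l hl => by
        have h1 := hlow l hl
        rw [min_eq_right (by omega), min_eq_right h1])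
      (fun l a _ => by
        have h1 := hhigh l a
        rw [min_eq_left h1, min_eq_left (by omega)]
        ring)
      (fun l a _ => by
        have h1 := hhigh l a
        have h2 := hhigh (L + 1) le_rfl
        rw [min_eq_left (by omega), min_eq_left (by omega)])
      (by
        refine mul_le_mul_of_nonneg_left (grid_path_mono hp ?_ ?_) (sq_nonneg b)
        · exact min_le_min_left j (gJ_mono hμ (Nat.le_succ L))
        · exact (min_le_left _ _).trans (by omega))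
    rw [← hnd] at hins
    rw [hins]
    have hA : Adm (C * Real.exp (2 * μ (j + 1) * (b ^ 2 * (p (j + 1) - p j))))
        (gstep (μ (j + 1)) (b ^ 2 * (p (j + 1) - p j)) F) := hF.step hμ0 hμ1 hv
    have hg1 : gm n (L + 1) ≤ 1 := by
      rw [← grid_gm_top n]
      exact grid_gm_mono (by omega)
    have hstep : ∀ y, gstep (gm n (L + 1)) (b ^ 2 * (p (j + 1) - p j)) F y ≤
        gstep (μ (j + 1)) (b ^ 2 * (p (j + 1) - p j)) F y +
          b ^ 2 * (p (j + 1) - p j) / (2 * (n + 1)) := by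
      intro y
      have h1 := gstep_exp_lip hF hμ0 hL2 hg1 hv y
      have h2 : gm n (L + 1) - μ (j + 1) ≤ 1 / (n + 1) := by
        have := gm_sub n L
        linarith only [this, hL1]
      have h3 : 1 / 2 * (gm n (L + 1) - μ (j + 1)) * (b ^ 2 * (p (j + 1) - p j)) ≤
          1 / 2 * (1 / (n + 1)) * (b ^ 2 * (p (j + 1) - p j)) :=
        mul_le_mul_of_nonneg_right (mul_le_mul_of_nonneg_left h2 (by norm_num)) hv
      have h4 : 1 / 2 * (1 / ((n : ℝ) + 1)) * (b ^ 2 * (p (j + 1) - p j)) =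
          b ^ 2 * (p (j + 1) - p j) / (2 * (n + 1)) := by
        field_simp
      linarith only [h4, h3, h1]
    have h1 := grid_casc_le (m := gm n) (r := fun l => b ^ 2 * p (min j (gJ n k μ l))) (n + 1) _ _
      (comp_lip (hgp (L + 1) (by omega)) (grid_adm_lip hF)) (grid_adm_lip hA)
      (fun l a _ => hgp l a) hstep x
    have h2 := ih (by omega) _ _ hA x
    have h3 : cascade μ (fun l => b ^ 2 * p l) (j + 1) F =
        cascade μ (fun l => b ^ 2 * p l) j
          (gstep (μ (j + 1)) (b ^ 2 * (p (j + 1) - p j)) F) := by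
      rw [cascade_succ_def]
      have e : b ^ 2 * p (j + 1) - b ^ 2 * p j = b ^ 2 * (p (j + 1) - p j) := by ring
      rw [e]
    rw [h3]
    refine h1.trans ?_
    have h4 : b ^ 2 * (p (j + 1) - p 0) / (2 * ((n : ℝ) + 1)) =
        b ^ 2 * (p j - p 0) / (2 * (n + 1)) + b ^ 2 * (p (j + 1) - p j) / (2 * (n + 1)) := by
      rw [← add_div]
      congr 1
      ring
    rw [h4]
    linarith only [h2]

/-- The comparison of the sums. -/
theorem grid_sum {n k : ℕ} {μ f : ℕ → ℝ} (hμ : Exponents k μ) (hf : ∀ l < k, f l ≤ f (l + 1)) :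
    ∀ j, j ≤ k → ∑ l ∈ Finset.range (n + 1), (gm n (l + 1) - gm n l) * f (min j (gJ n k μ l)) ≤
      ∑ l ∈ Finset.range (k + 1), (μ (l + 1) - μ l) * f (min j l) := by
  intro j
  induction j with
  | zero =>
    intro _
    simp only [Nat.zero_min]
    rw [← Finset.sum_mul, ← Finset.sum_mul, Finset.sum_range_sub, Finset.sum_range_sub,
      grid_gm_top, hμ.2.1, hμ.1]
    have h4 : gm n 0 = 0 := by simp [gm]
    rw [h4]
  | succ j ih =>
    intro hj
    have hμ0 : 0 < μ (j + 1) := by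
      have h1 := hμ.2.2 0 (Nat.zero_le k)
      rw [hμ.1] at h1
      exact h1.trans_le (grid_exp_mono hμ (by omega) (by omega))
    have hμ1 : μ (j + 1) ≤ 1 := by
      rw [← hμ.2.1]
      exact grid_exp_mono hμ (by omega) le_rfl
    obtain ⟨L, hLn, hL1, hL2⟩ := grid_ceil (n := n) hμ0 hμ1
    have hlow : ∀ l ≤ L, gJ n k μ l ≤ j := by
      intro l hl
      have := gJ_lt (n := n) hμ hj ((grid_gm_mono hl).trans_lt hL1)
      omega
    have hhigh : ∀ l, L + 1 ≤ l → j + 1 ≤ gJ n k μ l := fun l hl =>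
      le_gJ hj (hL2.trans (grid_gm_mono hl))
    have hfj : 0 ≤ f (j + 1) - f j := sub_nonneg.2 (hf j (by omega))
    -- the grid
    have e1 : ∑ l ∈ Finset.range (n + 1),
        (gm n (l + 1) - gm n l) * f (min (j + 1) (gJ n k μ l)) =
        ∑ l ∈ Finset.range (n + 1), (gm n (l + 1) - gm n l) * f (min j (gJ n k μ l)) +
          (1 - gm n (L + 1)) * (f (j + 1) - f j) := by
      obtain ⟨d, hd⟩ := Nat.exists_eq_add_of_le hLn
      have hnd : n + 1 = (L + 1) + d := by omega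
      have s1 : ∀ l ∈ Finset.range (L + 1), (gm n (l + 1) - gm n l) *
          f (min (j + 1) (gJ n k μ l)) = (gm n (l + 1) - gm n l) * f (min j (gJ n k μ l)) := by
        intro l hl
        have h1 := hlow l (by have := Finset.mem_range.1 hl; omega)
        rw [min_eq_right (by omega), min_eq_right h1]
      have s2 : ∀ l ∈ Finset.range d, (gm n (L + 1 + l + 1) - gm n (L + 1 + l)) *
          f (min (j + 1) (gJ n k μ (L + 1 + l))) = (gm n (L + 1 + l + 1) - gm n (L + 1 + l)) *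
          f (min j (gJ n k μ (L + 1 + l))) + (gm n (L + 1 + (l + 1)) - gm n (L + 1 + l)) *
            (f (j + 1) - f j) := by
        intro l _
        have h1 := hhigh (L + 1 + l) (by omega)
        rw [min_eq_left h1, min_eq_left (by omega)]
        have e : L + 1 + (l + 1) = L + 1 + l + 1 := rfl
        rw [e]
        ring
      rw [hnd, Finset.sum_range_add _ (L + 1) d, Finset.sum_range_add _ (L + 1) d,
        Finset.sum_congr rfl s1,
        Finset.sum_congr rfl s2, Finset.sum_add_distrib, ← Finset.sum_mul,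
        Finset.sum_range_sub (fun l => gm n (L + 1 + l)) d, ← hnd, grid_gm_top, Nat.add_zero]
      ring
    have e2 : ∑ l ∈ Finset.range (k + 1), (μ (l + 1) - μ l) * f (min (j + 1) l) =
        ∑ l ∈ Finset.range (k + 1), (μ (l + 1) - μ l) * f (min j l) +
          (1 - μ (j + 1)) * (f (j + 1) - f j) := by
      obtain ⟨d, hd⟩ := Nat.exists_eq_add_of_le hj
      have hnd : k + 1 = (j + 1) + (d + 1) := by omega
      have s1 : ∀ l ∈ Finset.range (j + 1), (μ (l + 1) - μ l) * f (min (j + 1) l) =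
          (μ (l + 1) - μ l) * f (min j l) := by
        intro l hl
        have h1 := Finset.mem_range.1 hl
        rw [min_eq_right (by omega), min_eq_right (by omega)]
      have s2 : ∀ l ∈ Finset.range (d + 1), (μ (j + 1 + l + 1) - μ (j + 1 + l)) *
          f (min (j + 1) (j + 1 + l)) = (μ (j + 1 + l + 1) - μ (j + 1 + l)) *
          f (min j (j + 1 + l)) + (μ (j + 1 + (l + 1)) - μ (j + 1 + l)) *
            (f (j + 1) - f j) := by
        intro l _
        rw [min_eq_left (by omega), min_eq_left (by omega)]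
        have e : j + 1 + (l + 1) = j + 1 + l + 1 := rfl
        rw [e]
        ring
      rw [hnd, Finset.sum_range_add _ (j + 1) (d + 1), Finset.sum_range_add _ (j + 1) (d + 1),
        Finset.sum_congr rfl s1,
        Finset.sum_congr rfl s2, Finset.sum_add_distrib, ← Finset.sum_mul,
        Finset.sum_range_sub (fun l => μ (j + 1 + l)) (d + 1), ← hnd, hμ.2.1, Nat.add_zero]
      ring
    rw [e1, e2]
    have h1 := ih (by omega)
    have h2 : (1 - gm n (L + 1)) * (f (j + 1) - f j) ≤ (1 - μ (j + 1)) * (f (j + 1) - f j) :=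
      mul_le_mul_of_nonneg_right (by linarith only [hL2]) hfj
    linarith

/-- Every path is rounded to the uniform grid of exponents. -/
theorem grid_path (b : ℝ) (n : ℕ) {k : ℕ} {μ p : ℕ → ℝ} (hμ : Exponents k μ) (hp : Path k p)
    (hp1 : p k ≤ 1) : ∃ q : ℕ → ℝ, Path n q ∧ q n ≤ 1 ∧
      SKpar b n (gm n) q ≤ SKpar b k μ p + b ^ 2 / (2 * (n + 1)) := by
  have hn : (0 : ℝ) < (n : ℝ) + 1 := by positivity
  have hp0 : ∀ l ≤ k, 0 ≤ p l := fun l hl => hp.1.trans (grid_path_mono hp (Nat.zero_le l) hl)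
  refine ⟨fun l => p (gJ n k μ l), ⟨hp0 _ (gJ_le _ _ _ _), fun l _ =>
    grid_path_mono hp (gJ_mono hμ (Nat.le_succ l)) (gJ_le _ _ _ _)⟩,
    (grid_path_mono hp (gJ_le _ _ _ _) le_rfl).trans hp1, ?_⟩
  have hJ : ∀ l, min k (gJ n k μ l) = gJ n k μ l := fun l => min_eq_right (gJ_le _ _ _ _)
  -- the sums
  have hs := grid_sum (n := n) (f := fun l => p l ^ 2) hμ (fun l hl =>
    pow_le_pow_left₀ (hp0 l hl.le) (hp.2 l hl) 2) k le_rfl
  have hs2 : ∑ l ∈ Finset.range (k + 1), (μ (l + 1) - μ l) * p (min k l) ^ 2 =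
      ∑ l ∈ Finset.range (k + 1), (μ (l + 1) - μ l) * p l ^ 2 := by
    refine Finset.sum_congr rfl fun l hl => ?_
    rw [min_eq_right (by have := Finset.mem_range.1 hl; omega)]
  simp only [hJ] at hs
  rw [hs2] at hs
  -- the cascades
  have hc := grid_casc (b := b) (n := n) hμ hp k le_rfl 2 lc adm_lc
  simp only [hJ] at hc
  have hv : 0 ≤ b ^ 2 * p k - b ^ 2 * p (gJ n k μ n) := by
    have := mul_le_mul_of_nonneg_left (grid_path_mono hp (gJ_le n k μ n) le_rfl) (sq_nonneg b)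
    linarith
  have h2 : ∀ x, cascade (gm n) (fun l => b ^ 2 * p (gJ n k μ l)) (n + 1) lc x =
      cascade (gm n) (fun l => b ^ 2 * p (gJ n k μ l)) n lc x +
        (b ^ 2 * p k - b ^ 2 * p (gJ n k μ n)) / 2 := by
    intro x
    rw [cascade_succ_def, grid_gm_top, gJ_top hμ, minb_lc_step hv,
      minb_cascade_const (fun l a _ => grid_gm_pos a) (fun l _ c => by
        rw [← grid_gm_top n]; exact grid_gm_mono (by omega)) (fun l _ =>
        mul_le_mul_of_nonneg_left (grid_path_mono hp (gJ_mono hμ (Nat.le_succ l)) (gJ_le _ _ _ _))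
          (sq_nonneg b)) adm_lc]
  have hL : ∀ (m r : ℕ → ℝ) (c : ℕ), (∀ l, 1 ≤ l → l ≤ c → 0 < m l) →
      Integrable (fun z => cascade m r c lc (√(r 0) * z)) (gaussianReal 0 1) := fun m r c h =>
    comp_int_lip (comp_casc_lip (F := lc) c lc (grid_adm_lip adm_lc) h) (r 0)
  have hspin : spinPart n (gm n) (fun l => b ^ 2 * p (gJ n k μ l)) ≤
      spinPart k μ (fun l => b ^ 2 * p l) + b ^ 2 / (2 * (n + 1)) := by
    have hl : spinPart n (gm n) (fun l => b ^ 2 * p (gJ n k μ l)) =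
        ∫ z, cascade (gm n) (fun l => b ^ 2 * p (gJ n k μ l)) n lc (√(b ^ 2 * p 0) * z)
          ∂(gaussianReal 0 1) - b ^ 2 * p (gJ n k μ n) / 2 := by
      unfold spinPart
      simp only [gJ_zero hμ]
      rfl
    have hr : spinPart k μ (fun l => b ^ 2 * p l) =
        ∫ z, cascade μ (fun l => b ^ 2 * p l) k lc (√(b ^ 2 * p 0) * z)
          ∂(gaussianReal 0 1) - b ^ 2 * p k / 2 := rfl
    have hi1 := hL (gm n) (fun l => b ^ 2 * p (gJ n k μ l)) n (fun l a _ => grid_gm_pos a)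
    simp only [gJ_zero hμ] at hi1
    have hi2 := hL μ (fun l => b ^ 2 * p l) k (fun l a c => by
      have h1 := hμ.2.2 0 (Nat.zero_le k)
      rw [hμ.1] at h1
      exact h1.trans_le (grid_exp_mono hμ a (by omega)))
    have hkey : ∀ x, cascade (gm n) (fun l => b ^ 2 * p (gJ n k μ l)) n lc x ≤
        cascade μ (fun l => b ^ 2 * p l) k lc x + (b ^ 2 / (2 * (n + 1)) -
          (b ^ 2 * p k - b ^ 2 * p (gJ n k μ n)) / 2) := by
      intro x
      have h3 := hc x
      rw [h2 x] at h3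
      have h4 : b ^ 2 * (p k - p 0) / (2 * ((n : ℝ) + 1)) ≤ b ^ 2 / (2 * (n + 1)) := by
        refine div_le_div_of_nonneg_right ?_ (by positivity)
        refine mul_le_of_le_one_right (sq_nonneg b) ?_
        linarith only [hp0 0 (Nat.zero_le k), hp1]
      linarith only [h4, h3]
    have hint := integral_mono hi1 (hi2.add (integrable_const
      (b ^ 2 / (2 * (n + 1)) - (b ^ 2 * p k - b ^ 2 * p (gJ n k μ n)) / 2)))
      (fun z => hkey (√(b ^ 2 * p 0) * z))
    rw [integral_add' hi2 (integrable_const _)] at hint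
    simp only [integral_const, probReal_univ, one_smul] at hint
    rw [hl, hr]
    linarith
  unfold SKpar
  have h5 : b ^ 2 / 4 * (1 + ∑ l ∈ Finset.range (n + 1), (gm n (l + 1) - gm n l) *
      p (gJ n k μ l) ^ 2) ≤ b ^ 2 / 4 * (1 + ∑ l ∈ Finset.range (k + 1), (μ (l + 1) - μ l) *
      p l ^ 2) := mul_le_mul_of_nonneg_left (by linarith) (by (clear * -; positivity))
  linarith only [h5, hspin]

/-- Every path is rounded to the uniform grid of exponents. -/
theorem grid {b : ℝ} (hb : 0 < b) {k : ℕ} {μ p : ℕ → ℝ} (hμ : Exponents k μ) (hp : Path k p)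
    (hp1 : p k ≤ 1) (n : ℕ) : ∃ q : ℕ → ℝ, Path n q ∧ q n ≤ 1 ∧
      SKpar b n (gm n) q ≤ SKpar b k μ p + b ^ 2 / (n + 1) := by
  obtain ⟨q, h1, h2, h3⟩ := grid_path b n hμ hp hp1
  refine ⟨q, h1, h2, h3.trans ?_⟩
  have hn : (0 : ℝ) < (n : ℝ) + 1 := by positivity
  have h4 : b ^ 2 / (2 * ((n : ℝ) + 1)) ≤ b ^ 2 / (n + 1) :=
    div_le_div_of_nonneg_left (sq_nonneg b) hn (by linarith)
  linarith only [h4]

/-- The competitor on the uniform grid. -/
theorem grid_bpath {b : ℝ} (hb : 0 < b) (n : ℕ) {k : ℕ} {μ p : ℕ → ℝ} (hμ : Exponents k μ)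
    (hp : Path k p) (hp1 : p k ≤ 1) : ∃ r : ℕ → ℝ, BPath b n r ∧
      SKr b n (gm n) r ≤ SKpar b k μ p + 2 * b ^ 2 / (n + 1) := by
  obtain ⟨q, hq, hq1, h1⟩ := grid_path b n hμ hp hp1
  obtain ⟨r, hr, h2⟩ := zero_start hb (gm_exponents n) hq hq1
  refine ⟨r, hr, h2.trans ?_⟩
  have h3 : gm n 1 = 1 / (n + 1) := by simp [gm]
  have hn : (0 : ℝ) < (n : ℝ) + 1 := by positivity
  rw [h3]
  have h4 : b ^ 2 / (2 * ((n : ℝ) + 1)) + 1 / (n + 1) * b ^ 2 ≤ 2 * b ^ 2 / (n + 1) := by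
    rw [div_add' _ _ _ (by positivity), div_le_div_iff₀ (by positivity) (by positivity)]
    field_simp
    linarith only []
  linarith

end Vale.Agent.P146.Pw2
end
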