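import Vale.Agent.P146.Bdl.B19
import Vale.Agent.P146.Bdl.B20
import Vale.Agent.P146.Bdl.B22
import Vale.Agent.P146.Bdl.B29

set_option linter.all false

section

set_option linter.all false

/-!
Module I: for a convex function `F` of a standard Gaussian vector one exponential moment
controls the variance (`var_le_of_exp_moment`).
-/

open MeasureTheory ProbabilityTheory

namespace Vale.Agent.P146.Ub.Cv

variable {ι : Type*} [Fintype ι]

/-- `c x + s y` -/
def mix (c s : ℝ) (x y : ι → ℝ) : ι → ℝ := fun i => c * x i + s * y i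

omit [Fintype ι] in
lemma mix_apply (c s : ℝ) (x y : ι → ℝ) (i : ι) : mix c s x y i = c * x i + s * y i := rfl

/-! ### Gaussian measure facts -/

lemma map_mix_one {c s : ℝ} (h : c ^ 2 + s ^ 2 = 1) :
    ((gaussianReal 0 1).prod (gaussianReal 0 1)).map (fun p : ℝ × ℝ => c * p.1 + s * p.2) =
      gaussianReal 0 1 := by
  have h1 : ((gaussianReal 0 1).prod (gaussianReal 0 1)).map
      (fun p : ℝ × ℝ => c * p.1 + s * p.2) =
      ((gaussianReal 0 1).map (fun x => c * x)).conv ((gaussianReal 0 1).map (fun x => s * x)) := by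
    rw [Measure.conv, Measure.map_prod_map _ _ (by fun_prop) (by fun_prop),
      Measure.map_map (by fun_prop) (by fun_prop)]
    rfl
  rw [h1, gaussianReal_map_const_mul, gaussianReal_map_const_mul, gaussianReal_conv_gaussianReal]
  congr 1
  · simp
  · ext
    simp [h]

lemma measurable_mix (c s : ℝ) :
    Measurable (fun p : (ι → ℝ) × (ι → ℝ) => mix c s p.1 p.2) := by
  unfold mix
  fun_prop

/-- rotation invariance -/
lemma mp_mix {c s : ℝ} (h : c ^ 2 + s ^ 2 = 1) :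
    MeasurePreserving (fun p : (ι → ℝ) × (ι → ℝ) => mix c s p.1 p.2)
      ((gpi ι).prod (gpi ι)) (gpi ι) := by
  have h1 := MeasureTheory.measurePreserving_arrowProdEquivProdArrow ℝ ℝ ι
    (fun _ => gaussianReal 0 1) (fun _ => gaussianReal 0 1)
  have h2 : MeasurePreserving (fun q : ι → ℝ × ℝ => fun i => c * (q i).1 + s * (q i).2)
      (Measure.pi fun _ => (gaussianReal 0 1).prod (gaussianReal 0 1)) (gpi ι) := by
    refine ⟨by fun_prop, ?_⟩
    have h3 := Measure.pi_map_pi (μ := fun _ : ι => (gaussianReal 0 1).prod (gaussianReal 0 1))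
      (f := fun _ (p : ℝ × ℝ) => c * p.1 + s * p.2)
      (by
        intro i
        exact (by fun_prop : Measurable fun p : ℝ × ℝ => c * p.1 + s * p.2).aemeasurable)
    unfold gpi
    rw [map_mix_one h] at h3
    exact h3
  have h4 := h2.comp (h1.symm)
  exact h4

/-! ### three blocks -/

/-- index set of three independent copies -/
abbrev J3 (ι : Type*) : Type _ := ι ⊕ (ι ⊕ ι)

/-- first block -/
def pu (g : J3 ι → ℝ) : ι → ℝ := fun i => g (Sum.inl i)
/-- second block -/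
def pv (g : J3 ι → ℝ) : ι → ℝ := fun i => g (Sum.inr (Sum.inl i))
/-- third block -/
def pw (g : J3 ι → ℝ) : ι → ℝ := fun i => g (Sum.inr (Sum.inr i))

lemma mp_split (ι κ : Type*) [Fintype ι] [Fintype κ] :
    MeasurePreserving (fun g : ι ⊕ κ → ℝ => ((fun i => g (Sum.inl i)), fun j => g (Sum.inr j)))
      (gpi (ι ⊕ κ)) ((gpi ι).prod (gpi κ)) := by
  have h := MeasureTheory.measurePreserving_sumPiEquivProdPi (X := fun _ : ι ⊕ κ => ℝ)
    (fun _ : ι ⊕ κ => gaussianReal 0 1)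
  exact h

lemma mp3 : MeasurePreserving (fun g : J3 ι → ℝ => (pu g, (pv g, pw g))) (gpi (J3 ι))
    ((gpi ι).prod ((gpi ι).prod (gpi ι))) := by
  have h1 := mp_split ι (ι ⊕ ι)
  have h2 := mp_split ι ι
  have h3 := (MeasurePreserving.id (gpi ι)).prod h2
  exact h3.comp h1

lemma mp_pu : MeasurePreserving (pu : (J3 ι → ℝ) → ι → ℝ) (gpi (J3 ι)) (gpi ι) :=
  measurePreserving_fst.comp mp3

lemma mp_vw : MeasurePreserving (fun g : J3 ι → ℝ => (pv g, pw g)) (gpi (J3 ι))
    ((gpi ι).prod (gpi ι)) :=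
  measurePreserving_snd.comp mp3

lemma mp_uv : MeasurePreserving (fun g : J3 ι → ℝ => (pu g, pv g)) (gpi (J3 ι))
    ((gpi ι).prod (gpi ι)) := by
  have h1 : MeasurePreserving (Prod.map id Prod.fst :
      (ι → ℝ) × ((ι → ℝ) × (ι → ℝ)) → (ι → ℝ) × (ι → ℝ))
      ((gpi ι).prod ((gpi ι).prod (gpi ι))) ((gpi ι).prod (gpi ι)) :=
    (MeasurePreserving.id (gpi ι)).prod measurePreserving_fst
  exact h1.comp mp3

section upd

variable [DecidableEq ι] (g : J3 ι → ℝ) (i : ι) (t c s : ℝ) (x y : ι → ℝ)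

omit [Fintype ι] in
lemma pu_u : pu (Function.update g (Sum.inl i) t) = Function.update (pu g) i t := by
  funext j
  unfold pu
  by_cases h : j = i
  · subst h; simp
  · rw [Function.update_of_ne h, Function.update_of_ne (by simpa using h)]

omit [Fintype ι] in
lemma pv_u : pv (Function.update g (Sum.inl i) t) = pv g := by
  funext j
  unfold pv
  rw [Function.update_of_ne (by simp)]

omit [Fintype ι] in
lemma pw_u : pw (Function.update g (Sum.inl i) t) = pw g := by
  funext j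
  unfold pw
  rw [Function.update_of_ne (by simp)]

omit [Fintype ι] in
lemma pu_v : pu (Function.update g (Sum.inr (Sum.inl i)) t) = pu g := by
  funext j
  unfold pu
  rw [Function.update_of_ne (by simp)]

omit [Fintype ι] in
lemma pv_v : pv (Function.update g (Sum.inr (Sum.inl i)) t) = Function.update (pv g) i t := by
  funext j
  unfold pv
  by_cases h : j = i
  · subst h; simp
  · rw [Function.update_of_ne h, Function.update_of_ne (by simpa using h)]

omit [Fintype ι] in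
lemma pw_v : pw (Function.update g (Sum.inr (Sum.inl i)) t) = pw g := by
  funext j
  unfold pw
  rw [Function.update_of_ne (by simp)]

omit [Fintype ι] in
lemma mix_upd_left : mix c s (Function.update x i t) y =
    Function.update (mix c s x y) i (c * t + s * y i) := by
  funext j
  by_cases h : j = i
  · subst h; simp [mix]
  · rw [Function.update_of_ne h, mix_apply, Function.update_of_ne h]; rfl

omit [Fintype ι] in
lemma mix_upd_right : mix c s x (Function.update y i t) =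
    Function.update (mix c s x y) i (c * x i + s * t) := by
  funext j
  by_cases h : j = i
  · subst h; simp [mix]
  · rw [Function.update_of_ne h, mix_apply, Function.update_of_ne h]; rfl

end upd

lemma sum_J3 (g : J3 ι → ℝ) :
    ∑ j, |g j| = ∑ i, |pu g i| + (∑ i, |pv g i| + ∑ i, |pw g i|) := by
  rw [Fintype.sum_sum_type, Fintype.sum_sum_type]
  rfl

lemma sum_mix_le {c s : ℝ} (hc : |c| ≤ 1) (hs : |s| ≤ 1) (x y : ι → ℝ) :
    ∑ i, |mix c s x y i| ≤ ∑ i, |x i| + ∑ i, |y i| := by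
  rw [← Finset.sum_add_distrib]
  refine Finset.sum_le_sum fun i _ => ?_
  rw [mix_apply]
  refine (abs_add_le _ _).trans ?_
  rw [abs_mul, abs_mul]
  have h1 := mul_le_mul_of_nonneg_right hc (abs_nonneg (x i))
  have h2 := mul_le_mul_of_nonneg_right hs (abs_nonneg (y i))
  linarith

lemma sum_uv_le {c s : ℝ} (hc : |c| ≤ 1) (hs : |s| ≤ 1) (g : J3 ι → ℝ) :
    ∑ i, |mix c s (pu g) (pv g) i| ≤ ∑ j, |g j| := by
  have h := sum_mix_le hc hs (pu g) (pv g)
  have h2 := sum_abs_nonneg (pw g)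
  rw [sum_J3]
  linarith

lemma sum_uw_le {c s : ℝ} (hc : |c| ≤ 1) (hs : |s| ≤ 1) (g : J3 ι → ℝ) :
    ∑ i, |mix c s (pu g) (pw g) i| ≤ ∑ j, |g j| := by
  have h := sum_mix_le hc hs (pu g) (pw g)
  have h2 := sum_abs_nonneg (pv g)
  rw [sum_J3]
  linarith

omit [Fintype ι] in
lemma cont_pu : Continuous (pu : (J3 ι → ℝ) → ι → ℝ) := by
  unfold pu; fun_prop
omit [Fintype ι] in
lemma cont_pv : Continuous (pv : (J3 ι → ℝ) → ι → ℝ) := by
  unfold pv; fun_prop
omit [Fintype ι] in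
lemma cont_pw : Continuous (pw : (J3 ι → ℝ) → ι → ℝ) := by
  unfold pw; fun_prop

omit [Fintype ι] in
lemma cont_mix {Y : Type*} [TopologicalSpace Y] {c s : Y → ℝ} {x y : Y → ι → ℝ}
    (hc : Continuous c) (hs : Continuous s) (hx : Continuous x) (hy : Continuous y) :
    Continuous fun z => mix (c z) (s z) (x z) (y z) := by
  unfold mix
  refine continuous_pi fun i => ?_
  have h1 := (continuous_apply i).comp hx
  have h2 := (continuous_apply i).comp hy
  exact (hc.mul h1).add (hs.mul h2)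

lemma dom_uv {f : (ι → ℝ) → ℝ} (hf : Dom f) {c s : ℝ} (hc : |c| ≤ 1) (hs : |s| ≤ 1) :
    Dom (fun g : J3 ι → ℝ => f (mix c s (pu g) (pv g))) := by
  obtain ⟨C, k, hC, hk, hb⟩ := hf.bound
  refine ⟨hf.cont.comp (cont_mix continuous_const continuous_const cont_pu cont_pv),
    C, k, hC, hk, fun g => (hb _).trans ?_⟩
  have := sum_uv_le hc hs g
  gcongr

lemma dom_uw {f : (ι → ℝ) → ℝ} (hf : Dom f) {c s : ℝ} (hc : |c| ≤ 1) (hs : |s| ≤ 1) :
    Dom (fun g : J3 ι → ℝ => f (mix c s (pu g) (pw g))) := by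
  obtain ⟨C, k, hC, hk, hb⟩ := hf.bound
  refine ⟨hf.cont.comp (cont_mix continuous_const continuous_const cont_pu cont_pw),
    C, k, hC, hk, fun g => (hb _).trans ?_⟩
  have := sum_uw_le hc hs g
  gcongr

lemma Dom.exp_mul_sum (C k : ℝ) (hC : 0 ≤ C) (hk : 0 ≤ k) :
    Dom (fun g : ι → ℝ => C * Real.exp (k * ∑ i, |g i|)) := by
  refine ⟨by fun_prop, C, k, hC, hk, fun g => ?_⟩
  rw [abs_of_nonneg (by positivity)]

lemma Dom.sumabs : Dom (fun g : ι → ℝ => ∑ i, |g i|) := by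
  refine ⟨by fun_prop, 1, 1, zero_le_one, zero_le_one, fun g => ?_⟩
  rw [abs_of_nonneg (sum_abs_nonneg g), one_mul, one_mul]
  have := Real.add_one_le_exp (∑ i, |g i|)
  linarith

/-! ### the covariance formula -/

/-- regularity of a function, its gradient and the diagonal of its Hessian -/
structure Reg (F : (ι → ℝ) → ℝ) (G H : ι → (ι → ℝ) → ℝ) (B : ℝ) [DecidableEq ι] : Prop where
  F_dom : Dom F
  G_dom : ∀ i, Dom (G i)
  H_dom : ∀ i, Dom (H i)
  G_bd : ∀ i g, |G i g| ≤ B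
  F_diff : ∀ g, HasFDerivAt F
    (∑ i, G i g • ContinuousLinearMap.proj (R := ℝ) (φ := fun _ : ι => ℝ) i) g
  G_diff : ∀ i g t, HasDerivAt (fun t => G i (Function.update g i t))
    (H i (Function.update g i t)) t

section cov

variable [DecidableEq ι] {F : (ι → ℝ) → ℝ} {G H : ι → (ι → ℝ) → ℝ} {B : ℝ}

lemma Reg.path (h : Reg F G H B) {p : ℝ → ι → ℝ} {p' : ι → ℝ} {t : ℝ}
    (hp : HasDerivAt p p' t) : HasDerivAt (fun t => F (p t)) (∑ i, G i (p t) * p' i) t := by
  have h1 := (h.F_diff (p t)).comp_hasDerivAt t hp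
  refine h1.congr_deriv ?_
  simp

lemma Reg.coord (h : Reg F G H B) (g : ι → ℝ) (i : ι) (t : ℝ) :
    HasDerivAt (fun t => F (Function.update g i t)) (G i (Function.update g i t)) t := by
  refine (h.path (hasDerivAt_update g i t)).congr_deriv ?_
  rw [Finset.sum_eq_single i]
  · simp
  · intro j _ hj
    simp [Pi.single_eq_of_ne hj]
  · intro hi
    exact absurd (Finset.mem_univ i) hi

lemma hasDerivAt_mix (x y : ι → ℝ) (θ : ℝ) :
    HasDerivAt (fun θ => mix (Real.cos θ) (Real.sin θ) x y)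
      (fun i => -Real.sin θ * x i + Real.cos θ * y i) θ := by
  refine hasDerivAt_pi.2 fun i => ?_
  exact ((Real.hasDerivAt_cos θ).mul_const (x i)).add ((Real.hasDerivAt_sin θ).mul_const (y i))

/-- `E F(a) F(b)` for two copies which share the first block -/
noncomputable def KK (F : (ι → ℝ) → ℝ) (θ : ℝ) : ℝ :=
  ∫ g : J3 ι → ℝ, F (mix (Real.cos θ) (Real.sin θ) (pu g) (pv g)) *
    F (mix (Real.cos θ) (Real.sin θ) (pu g) (pw g)) ∂(gpi (J3 ι))

/-- `E ∇F(a)·∇F(b)` -/
noncomputable def phi (G : ι → (ι → ℝ) → ℝ) (θ : ℝ) : ℝ :=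
  ∫ g : J3 ι → ℝ, ∑ i, G i (mix (Real.cos θ) (Real.sin θ) (pu g) (pv g)) *
    G i (mix (Real.cos θ) (Real.sin θ) (pu g) (pw g)) ∂(gpi (J3 ι))

/-- the derivative of the integrand of `KK` -/
noncomputable def dK (F : (ι → ℝ) → ℝ) (G : ι → (ι → ℝ) → ℝ) (θ : ℝ) (g : J3 ι → ℝ) : ℝ :=
  (∑ i, G i (mix (Real.cos θ) (Real.sin θ) (pu g) (pv g)) *
      (-Real.sin θ * pu g i + Real.cos θ * pv g i)) *
      F (mix (Real.cos θ) (Real.sin θ) (pu g) (pw g)) +
    F (mix (Real.cos θ) (Real.sin θ) (pu g) (pv g)) *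
      (∑ i, G i (mix (Real.cos θ) (Real.sin θ) (pu g) (pw g)) *
        (-Real.sin θ * pu g i + Real.cos θ * pw g i))

omit [DecidableEq ι] in
lemma lin_bd (hG : ∀ i g, |G i g| ≤ B) (hB : 0 ≤ B) (θ : ℝ) (z x y : ι → ℝ) :
    |∑ i, G i z * (-Real.sin θ * x i + Real.cos θ * y i)| ≤
      B * (∑ i, |x i| + ∑ i, |y i|) := by
  refine (Finset.abs_sum_le_sum_abs _ _).trans ?_
  rw [← Finset.sum_add_distrib, Finset.mul_sum]
  refine Finset.sum_le_sum fun i _ => ?_
  rw [abs_mul]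
  refine mul_le_mul (hG i z) ?_ (abs_nonneg _) hB
  refine (abs_add_le _ _).trans ?_
  rw [abs_mul, abs_mul, abs_neg]
  have h1 := mul_le_mul_of_nonneg_right (Real.abs_sin_le_one θ) (abs_nonneg (x i))
  have h2 := mul_le_mul_of_nonneg_right (Real.abs_cos_le_one θ) (abs_nonneg (y i))
  linarith

lemma dom_comb (h : Reg F G H B) (θ : ℝ) :
    Dom (dK F G θ) := by
  have hc := Real.abs_cos_le_one θ
  have hs := Real.abs_sin_le_one θ
  unfold dK
  refine Dom.add (Dom.mul (Dom.sum _ fun i _ => Dom.mul (dom_uv (h.G_dom i) hc hs) ?_)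
    (dom_uw h.F_dom hc hs)) (Dom.mul (dom_uv h.F_dom hc hs)
    (Dom.sum _ fun i _ => Dom.mul (dom_uw (h.G_dom i) hc hs) ?_))
  · exact ((Dom.coord (Sum.inl i)).const_mul _).add ((Dom.coord (Sum.inr (Sum.inl i))).const_mul _)
  · exact ((Dom.coord (Sum.inl i)).const_mul _).add ((Dom.coord (Sum.inr (Sum.inr i))).const_mul _)

lemma hasDerivAt_KK_aux (h : Reg F G H B) (θ : ℝ) :
    HasDerivAt (KK F) (∫ g, dK F G θ g ∂(gpi (J3 ι))) θ := by
  obtain ⟨C, k, hC, hk, hb⟩ := h.F_dom.bound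
  have hB : ∀ i g, |G i g| ≤ |B| := fun i g => (h.G_bd i g).trans (le_abs_self B)
  have key := hasDerivAt_integral_of_dominated_loc_of_deriv_le (μ := gpi (J3 ι)) (𝕜 := ℝ)
    (F := fun θ (g : J3 ι → ℝ) => F (mix (Real.cos θ) (Real.sin θ) (pu g) (pv g)) *
      F (mix (Real.cos θ) (Real.sin θ) (pu g) (pw g)))
    (F' := fun θ g => dK F G θ g) (x₀ := θ)
    (s := Metric.ball θ 1)
    (bound := fun g => 2 * ((|B| * ∑ j, |g j|) * (C * Real.exp (k * ∑ j, |g j|))))
    (Metric.ball_mem_nhds θ one_pos)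
    (Filter.Eventually.of_forall fun y => ((dom_uv h.F_dom (Real.abs_cos_le_one y)
      (Real.abs_sin_le_one y)).mul (dom_uw h.F_dom (Real.abs_cos_le_one y)
      (Real.abs_sin_le_one y))).cont.aestronglyMeasurable)
    ((dom_uv h.F_dom (Real.abs_cos_le_one θ) (Real.abs_sin_le_one θ)).mul
      (dom_uw h.F_dom (Real.abs_cos_le_one θ) (Real.abs_sin_le_one θ))).integrable
    (dom_comb h θ).cont.aestronglyMeasurable
    (Filter.Eventually.of_forall fun g y _ => by
      rw [Real.norm_eq_abs]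
      have hc := Real.abs_cos_le_one y
      have hs := Real.abs_sin_le_one y
      have hS : 0 ≤ ∑ j, |g j| := sum_abs_nonneg g
      have f1 : |F (mix (Real.cos y) (Real.sin y) (pu g) (pv g))| ≤
          C * Real.exp (k * ∑ j, |g j|) := by
        refine (hb _).trans ?_
        have := sum_uv_le hc hs g
        gcongr
      have f2 : |F (mix (Real.cos y) (Real.sin y) (pu g) (pw g))| ≤
          C * Real.exp (k * ∑ j, |g j|) := by
        refine (hb _).trans ?_
        have := sum_uw_le hc hs g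
        gcongr
      have l1 := lin_bd hB (abs_nonneg B) y (mix (Real.cos y) (Real.sin y) (pu g) (pv g))
        (pu g) (pv g)
      have l2 := lin_bd hB (abs_nonneg B) y (mix (Real.cos y) (Real.sin y) (pu g) (pw g))
        (pu g) (pw g)
      have e1 : ∑ i, |pu g i| + ∑ i, |pv g i| ≤ ∑ j, |g j| := by
        rw [sum_J3]; linarith [sum_abs_nonneg (pw g)]
      have e2 : ∑ i, |pu g i| + ∑ i, |pw g i| ≤ ∑ j, |g j| := by
        rw [sum_J3]; linarith [sum_abs_nonneg (pv g)]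
      have l1' := l1.trans (mul_le_mul_of_nonneg_left e1 (abs_nonneg B))
      have l2' := l2.trans (mul_le_mul_of_nonneg_left e2 (abs_nonneg B))
      unfold dK
      refine (abs_add_le _ _).trans ?_
      rw [abs_mul, abs_mul]
      have q1 := mul_le_mul l1' f2 (abs_nonneg _) (by positivity)
      have q2 := mul_le_mul f1 l2' (abs_nonneg _) (by positivity)
      linarith)
    (by
      have hd : Dom (fun g : J3 ι → ℝ =>
          2 * ((|B| * ∑ j, |g j|) * (C * Real.exp (k * ∑ j, |g j|)))) :=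
        ((Dom.sumabs.const_mul |B|).mul (Dom.exp_mul_sum C k hC hk)).const_mul 2
      exact hd.integrable)
    (Filter.Eventually.of_forall fun g y _ => by
      have p1 := h.path (hasDerivAt_mix (pu g) (pv g) y)
      have p2 := h.path (hasDerivAt_mix (pu g) (pw g) y)
      exact p1.mul p2)
  exact key.2

end cov

section ibp3

variable [DecidableEq ι] {F : (ι → ℝ) → ℝ} {G H : ι → (ι → ℝ) → ℝ} {B : ℝ}

omit [Fintype ι] in
lemma pu_w (g : J3 ι → ℝ) (i : ι) (t : ℝ) :
    pu (Function.update g (Sum.inr (Sum.inr i)) t) = pu g := by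
  funext j
  unfold pu
  rw [Function.update_of_ne (by simp)]

omit [Fintype ι] in
lemma pv_w (g : J3 ι → ℝ) (i : ι) (t : ℝ) :
    pv (Function.update g (Sum.inr (Sum.inr i)) t) = pv g := by
  funext j
  unfold pv
  rw [Function.update_of_ne (by simp)]

omit [Fintype ι] in
lemma pw_w (g : J3 ι → ℝ) (i : ι) (t : ℝ) :
    pw (Function.update g (Sum.inr (Sum.inr i)) t) = Function.update (pw g) i t := by
  funext j
  unfold pw
  by_cases h : j = i
  · subst h; simp
  · rw [Function.update_of_ne h, Function.update_of_ne (by simpa using h)]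

lemma lin_deriv (a b t : ℝ) : HasDerivAt (fun t => a * t + b) a t := by
  simpa using ((hasDerivAt_id t).const_mul a).add_const b

lemma lin_deriv' (a b t : ℝ) : HasDerivAt (fun t => b + a * t) a t := by
  simpa using ((hasDerivAt_id t).const_mul a).const_add b

lemma comp_upd {f f' : (ι → ℝ) → ℝ} {i : ι} {z : ι → ℝ}
    (hf : ∀ t, HasDerivAt (fun t => f (Function.update z i t)) (f' (Function.update z i t)) t)
    {q : ℝ → ℝ} {a t : ℝ} (hq : HasDerivAt q a t) :
    HasDerivAt (fun t => f (Function.update z i (q t)))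
      (f' (Function.update z i (q t)) * a) t :=
  (hf (q t)).comp t hq

/-- integration by parts, first copy -/
lemma ibp_uv (h : Reg F G H B) {c s : ℝ} (hc : |c| ≤ 1) (hs : |s| ≤ 1) (i : ι) :
    ∫ g : J3 ι → ℝ, (G i (mix c s (pu g) (pv g)) * (-s * pu g i + c * pv g i)) *
        F (mix c s (pu g) (pw g)) ∂(gpi (J3 ι)) =
      -(s * c) * ∫ g : J3 ι → ℝ, G i (mix c s (pu g) (pv g)) * G i (mix c s (pu g) (pw g))
        ∂(gpi (J3 ι)) := by
  have dGa : Dom (fun g : J3 ι → ℝ => G i (mix c s (pu g) (pv g))) := dom_uv (h.G_dom i) hc hs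
  have dHa : Dom (fun g : J3 ι → ℝ => H i (mix c s (pu g) (pv g))) := dom_uv (h.H_dom i) hc hs
  have dFb : Dom (fun g : J3 ι → ℝ => F (mix c s (pu g) (pw g))) := dom_uw h.F_dom hc hs
  have dGb : Dom (fun g : J3 ι → ℝ => G i (mix c s (pu g) (pw g))) := dom_uw (h.G_dom i) hc hs
  have i1 : ∫ g : J3 ι → ℝ, g (Sum.inl i) * (G i (mix c s (pu g) (pv g)) *
      F (mix c s (pu g) (pw g))) ∂(gpi (J3 ι)) =
      ∫ g : J3 ι → ℝ, (c * (H i (mix c s (pu g) (pv g)) * F (mix c s (pu g) (pw g))) +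
        c * (G i (mix c s (pu g) (pv g)) * G i (mix c s (pu g) (pw g)))) ∂(gpi (J3 ι)) := by
    refine ibp (Sum.inl i) (dGa.mul dFb) (((dHa.mul dFb).const_mul c).add
      ((dGa.mul dGb).const_mul c)) fun g t => ?_
    simp only [pu_u, pv_u, pw_u, mix_upd_left]
    have d1 := comp_upd (f := G i) (f' := H i) (i := i) (z := mix c s (pu g) (pv g))
      (fun t => h.G_diff i _ t) (lin_deriv c (s * pv g i) t)
    have d2 := comp_upd (f := F) (f' := G i) (i := i) (z := mix c s (pu g) (pw g))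
      (fun t => h.coord _ i t) (lin_deriv c (s * pw g i) t)
    refine (d1.mul d2).congr_deriv ?_
    ring
  have i2 : ∫ g : J3 ι → ℝ, g (Sum.inr (Sum.inl i)) * (G i (mix c s (pu g) (pv g)) *
      F (mix c s (pu g) (pw g))) ∂(gpi (J3 ι)) =
      ∫ g : J3 ι → ℝ, s * (H i (mix c s (pu g) (pv g)) * F (mix c s (pu g) (pw g)))
        ∂(gpi (J3 ι)) := by
    refine ibp (Sum.inr (Sum.inl i)) (dGa.mul dFb) ((dHa.mul dFb).const_mul s) fun g t => ?_
    simp only [pu_v, pv_v, pw_v, mix_upd_right]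
    have d1 := comp_upd (f := G i) (f' := H i) (i := i) (z := mix c s (pu g) (pv g))
      (fun t => h.G_diff i _ t) (lin_deriv' s (c * pu g i) t)
    refine (d1.mul_const _).congr_deriv ?_
    ring
  have e0 : ∀ g : J3 ι → ℝ, (G i (mix c s (pu g) (pv g)) * (-s * pu g i + c * pv g i)) *
        F (mix c s (pu g) (pw g)) =
      (-s) * (g (Sum.inl i) * (G i (mix c s (pu g) (pv g)) * F (mix c s (pu g) (pw g)))) +
      c * (g (Sum.inr (Sum.inl i)) * (G i (mix c s (pu g) (pv g)) *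
        F (mix c s (pu g) (pw g)))) := by
    intro g
    unfold pu pv
    ring
  simp_rw [e0]
  rw [int_add (((Dom.coord _).mul (dGa.mul dFb)).const_mul _)
    (((Dom.coord _).mul (dGa.mul dFb)).const_mul _), integral_const_mul, integral_const_mul,
    i1, i2, int_add ((dHa.mul dFb).const_mul c) ((dGa.mul dGb).const_mul c),
    integral_const_mul, integral_const_mul, integral_const_mul]
  ring

/-- integration by parts, second copy -/
lemma ibp_uw (h : Reg F G H B) {c s : ℝ} (hc : |c| ≤ 1) (hs : |s| ≤ 1) (i : ι) :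
    ∫ g : J3 ι → ℝ, F (mix c s (pu g) (pv g)) *
        (G i (mix c s (pu g) (pw g)) * (-s * pu g i + c * pw g i)) ∂(gpi (J3 ι)) =
      -(s * c) * ∫ g : J3 ι → ℝ, G i (mix c s (pu g) (pv g)) * G i (mix c s (pu g) (pw g))
        ∂(gpi (J3 ι)) := by
  have dGa : Dom (fun g : J3 ι → ℝ => G i (mix c s (pu g) (pv g))) := dom_uv (h.G_dom i) hc hs
  have dFa : Dom (fun g : J3 ι → ℝ => F (mix c s (pu g) (pv g))) := dom_uv h.F_dom hc hs
  have dHb : Dom (fun g : J3 ι → ℝ => H i (mix c s (pu g) (pw g))) := dom_uw (h.H_dom i) hc hs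
  have dGb : Dom (fun g : J3 ι → ℝ => G i (mix c s (pu g) (pw g))) := dom_uw (h.G_dom i) hc hs
  have i1 : ∫ g : J3 ι → ℝ, g (Sum.inl i) * (F (mix c s (pu g) (pv g)) *
      G i (mix c s (pu g) (pw g))) ∂(gpi (J3 ι)) =
      ∫ g : J3 ι → ℝ, (c * (F (mix c s (pu g) (pv g)) * H i (mix c s (pu g) (pw g))) +
        c * (G i (mix c s (pu g) (pv g)) * G i (mix c s (pu g) (pw g)))) ∂(gpi (J3 ι)) := by
    refine ibp (Sum.inl i) (dFa.mul dGb) (((dFa.mul dHb).const_mul c).add
      ((dGa.mul dGb).const_mul c)) fun g t => ?_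
    simp only [pu_u, pv_u, pw_u, mix_upd_left]
    have d1 := comp_upd (f := G i) (f' := H i) (i := i) (z := mix c s (pu g) (pw g))
      (fun t => h.G_diff i _ t) (lin_deriv c (s * pw g i) t)
    have d2 := comp_upd (f := F) (f' := G i) (i := i) (z := mix c s (pu g) (pv g))
      (fun t => h.coord _ i t) (lin_deriv c (s * pv g i) t)
    refine (d2.mul d1).congr_deriv ?_
    ring
  have i2 : ∫ g : J3 ι → ℝ, g (Sum.inr (Sum.inr i)) * (F (mix c s (pu g) (pv g)) *
      G i (mix c s (pu g) (pw g))) ∂(gpi (J3 ι)) =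
      ∫ g : J3 ι → ℝ, s * (F (mix c s (pu g) (pv g)) * H i (mix c s (pu g) (pw g)))
        ∂(gpi (J3 ι)) := by
    refine ibp (Sum.inr (Sum.inr i)) (dFa.mul dGb) ((dFa.mul dHb).const_mul s) fun g t => ?_
    simp only [pu_w, pv_w, pw_w, mix_upd_right]
    have d1 := comp_upd (f := G i) (f' := H i) (i := i) (z := mix c s (pu g) (pw g))
      (fun t => h.G_diff i _ t) (lin_deriv' s (c * pu g i) t)
    refine (d1.const_mul _).congr_deriv ?_
    ring
  have e0 : ∀ g : J3 ι → ℝ, F (mix c s (pu g) (pv g)) *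
        (G i (mix c s (pu g) (pw g)) * (-s * pu g i + c * pw g i)) =
      (-s) * (g (Sum.inl i) * (F (mix c s (pu g) (pv g)) * G i (mix c s (pu g) (pw g)))) +
      c * (g (Sum.inr (Sum.inr i)) * (F (mix c s (pu g) (pv g)) *
        G i (mix c s (pu g) (pw g)))) := by
    intro g
    unfold pu pw
    ring
  simp_rw [e0]
  rw [int_add (((Dom.coord _).mul (dFa.mul dGb)).const_mul _)
    (((Dom.coord _).mul (dFa.mul dGb)).const_mul _), integral_const_mul, integral_const_mul,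
    i1, i2, int_add ((dFa.mul dHb).const_mul c) ((dGa.mul dGb).const_mul c),
    integral_const_mul, integral_const_mul, integral_const_mul]
  ring

lemma int_dK (h : Reg F G H B) (θ : ℝ) :
    ∫ g, dK F G θ g ∂(gpi (J3 ι)) = -(2 * Real.sin θ * Real.cos θ) * phi G θ := by
  have hc := Real.abs_cos_le_one θ
  have hs := Real.abs_sin_le_one θ
  have dl1 : ∀ i, Dom (fun g : J3 ι → ℝ => -Real.sin θ * pu g i + Real.cos θ * pv g i) :=
    fun i => ((Dom.coord (Sum.inl i)).const_mul _).add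
      ((Dom.coord (Sum.inr (Sum.inl i))).const_mul _)
  have dl2 : ∀ i, Dom (fun g : J3 ι → ℝ => -Real.sin θ * pu g i + Real.cos θ * pw g i) :=
    fun i => ((Dom.coord (Sum.inl i)).const_mul _).add
      ((Dom.coord (Sum.inr (Sum.inr i))).const_mul _)
  have d1 : ∀ i, Dom (fun g : J3 ι → ℝ =>
      (G i (mix (Real.cos θ) (Real.sin θ) (pu g) (pv g)) *
      (-Real.sin θ * pu g i + Real.cos θ * pv g i)) *
      F (mix (Real.cos θ) (Real.sin θ) (pu g) (pw g))) := fun i =>
    ((dom_uv (h.G_dom i) hc hs).mul (dl1 i)).mul (dom_uw h.F_dom hc hs)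
  have d2 : ∀ i, Dom (fun g : J3 ι → ℝ =>
      F (mix (Real.cos θ) (Real.sin θ) (pu g) (pv g)) *
      (G i (mix (Real.cos θ) (Real.sin θ) (pu g) (pw g)) *
      (-Real.sin θ * pu g i + Real.cos θ * pw g i))) := fun i =>
    (dom_uv h.F_dom hc hs).mul ((dom_uw (h.G_dom i) hc hs).mul (dl2 i))
  unfold dK
  simp_rw [Finset.sum_mul, Finset.mul_sum]
  rw [int_add (Dom.sum _ fun i _ => d1 i) (Dom.sum _ fun i _ => d2 i),
    int_sum _ fun i _ => d1 i, int_sum _ fun i _ => d2 i]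
  unfold phi
  rw [int_sum _ fun i _ => (dom_uv (h.G_dom i) hc hs).mul (dom_uw (h.G_dom i) hc hs),
    Finset.mul_sum, ← Finset.sum_add_distrib]
  refine Finset.sum_congr rfl fun i _ => ?_
  rw [ibp_uv h hc hs i, ibp_uw h hc hs i]
  ring

lemma hasDerivAt_KK (h : Reg F G H B) (θ : ℝ) :
    HasDerivAt (KK F) (-(2 * Real.sin θ * Real.cos θ) * phi G θ) θ := by
  rw [← int_dK h]
  exact hasDerivAt_KK_aux h θ

lemma KK_zero (hF : Dom F) : KK F 0 = ∫ g, F g ^ 2 ∂(gpi ι) := by
  unfold KK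
  have e : ∀ x y : ι → ℝ, mix (Real.cos 0) (Real.sin 0) x y = x := by
    intro x y
    funext i
    simp [mix]
  simp_rw [e]
  have h1 := mp_pu (ι := ι)
  have h2 : ∫ g : J3 ι → ℝ, F (pu g) ^ 2 ∂(gpi (J3 ι)) = ∫ z, F z ^ 2 ∂(gpi ι) := by
    rw [← h1.map_eq, integral_map h1.measurable.aemeasurable]
    exact (hF.cont.pow 2).aestronglyMeasurable
  rw [← h2]
  refine integral_congr_ae (Filter.Eventually.of_forall fun g => ?_)
  simp only [sq]

lemma KK_pi (hF : Dom F) : KK F (Real.pi / 2) = (∫ g, F g ∂(gpi ι)) ^ 2 := by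
  unfold KK
  have e : ∀ x y : ι → ℝ, mix (Real.cos (Real.pi / 2)) (Real.sin (Real.pi / 2)) x y = y := by
    intro x y
    funext i
    simp [mix]
  simp_rw [e]
  have h1 := mp_vw (ι := ι)
  have h2 : ∫ g : J3 ι → ℝ, F (pv g) * F (pw g) ∂(gpi (J3 ι)) =
      ∫ q : (ι → ℝ) × (ι → ℝ), F q.1 * F q.2 ∂((gpi ι).prod (gpi ι)) := by
    rw [← h1.map_eq, integral_map h1.measurable.aemeasurable]
    exact ((hF.cont.comp continuous_fst).mul (hF.cont.comp continuous_snd)).aestronglyMeasurable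
  rw [h2, integral_prod_mul, sq]

end ibp3

/-! ### the convexity inequality -/

lemma exp_integral_le {Ω : Type*} [MeasurableSpace Ω] {μ : Measure Ω} [IsProbabilityMeasure μ]
    {f : Ω → ℝ} (hf : Integrable f μ) (he : Integrable (fun w => Real.exp (f w)) μ) :
    Real.exp (∫ w, f w ∂μ) ≤ ∫ w, Real.exp (f w) ∂μ := by
  set m := ∫ w, f w ∂μ with hm
  have h1 : ∫ w, Real.exp m * (f w + (1 - m)) ∂μ = Real.exp m := by
    rw [integral_const_mul, integral_add hf (integrable_const _), ← hm]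
    simp
  calc Real.exp m = ∫ w, Real.exp m * (f w + (1 - m)) ∂μ := h1.symm
    _ ≤ ∫ w, Real.exp (f w) ∂μ := by
        refine integral_mono ((hf.add (integrable_const _)).const_mul _) he fun w => ?_
        have h2 := Real.add_one_le_exp (f w - m)
        have h3 : Real.exp (f w) = Real.exp m * Real.exp (f w - m) := by
          rw [← Real.exp_add]; congr 1; ring
        simp only
        rw [h3]
        refine mul_le_mul_of_nonneg_left ?_ (Real.exp_pos m).le
        linarith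

/-- continuous functions of linear growth -/
structure Lin (f : (ι → ℝ) → ℝ) : Prop where
  cont : Continuous f
  bound : ∃ a b : ℝ, 0 ≤ a ∧ 0 ≤ b ∧ ∀ g, |f g| ≤ a + b * ∑ i, |g i|

lemma Lin.dom {f : (ι → ℝ) → ℝ} (h : Lin f) : Dom f := by
  obtain ⟨a, b, ha, hb, hf⟩ := h.bound
  refine ⟨h.cont, a + b, 1, by positivity, zero_le_one, fun g => (hf g).trans ?_⟩
  have h0 := sum_abs_nonneg g
  have h1 := Real.add_one_le_exp (∑ i, |g i|)
  rw [one_mul]
  nlinarith [mul_le_mul_of_nonneg_left (show (1 : ℝ) ≤ Real.exp (∑ i, |g i|) by linarith) ha,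
    mul_le_mul_of_nonneg_left (show (∑ i, |g i|) ≤ Real.exp (∑ i, |g i|) by linarith) hb]

lemma Lin.dom_exp {f : (ι → ℝ) → ℝ} (h : Lin f) : Dom (fun g => Real.exp (f g)) := by
  obtain ⟨a, b, ha, hb, hf⟩ := h.bound
  refine ⟨Real.continuous_exp.comp h.cont, Real.exp a, b, (Real.exp_pos a).le, hb, fun g => ?_⟩
  rw [abs_of_pos (Real.exp_pos _), ← Real.exp_add]
  exact Real.exp_le_exp.2 ((le_abs_self _).trans (hf g))

lemma Lin.add {f h : (ι → ℝ) → ℝ} (hf : Lin f) (hh : Lin h) : Lin (fun g => f g + h g) := by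
  obtain ⟨a, b, ha, hb, h1⟩ := hf.bound
  obtain ⟨a', b', ha', hb', h2⟩ := hh.bound
  refine ⟨hf.cont.add hh.cont, a + a', b + b', by positivity, by positivity, fun g => ?_⟩
  have := (abs_add_le (f g) (h g)).trans (add_le_add (h1 g) (h2 g))
  linarith

lemma Lin.const_mul {f : (ι → ℝ) → ℝ} (r : ℝ) (hf : Lin f) : Lin (fun g => r * f g) := by
  obtain ⟨a, b, ha, hb, h1⟩ := hf.bound
  refine ⟨hf.cont.const_mul r, |r| * a, |r| * b, by positivity, by positivity, fun g => ?_⟩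
  rw [abs_mul]
  have := mul_le_mul_of_nonneg_left (h1 g) (abs_nonneg r)
  linarith

lemma Lin.const (r : ℝ) : Lin (fun _ : ι → ℝ => r) :=
  ⟨continuous_const, |r|, 0, abs_nonneg r, le_rfl, fun g => by simp⟩

lemma Lin.coord (i : ι) : Lin (fun g : ι → ℝ => g i) :=
  ⟨continuous_apply i, 0, 1, le_rfl, zero_le_one, fun g => by
    have h1 : |g i| ≤ ∑ i, |g i| := Finset.single_le_sum (f := fun i => |g i|)
      (fun _ _ => abs_nonneg _) (Finset.mem_univ i)
    linarith⟩

lemma Lin.of_bounded {f : (ι → ℝ) → ℝ} (hf : Continuous f) (C : ℝ) (hb : ∀ g, |f g| ≤ C) :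
    Lin f :=
  ⟨hf, C, 0, (abs_nonneg _).trans (hb 0), le_rfl, fun g => by simpa using hb g⟩

lemma Lin.sum {κ : Type*} (s : Finset κ) {f : κ → (ι → ℝ) → ℝ} (hf : ∀ k ∈ s, Lin (f k)) :
    Lin (fun g => ∑ k ∈ s, f k g) := by
  classical
  induction s using Finset.induction_on with
  | empty => simpa using Lin.const (ι := ι) 0
  | insert a s ha ih =>
    simp only [Finset.sum_insert ha]
    exact (hf a (Finset.mem_insert_self _ _)).add
      (ih fun k hk => hf k (Finset.mem_insert_of_mem hk))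

lemma Lin.fix {f : (ι → ℝ) → ℝ} (hf : Lin f) {c s : ℝ} (hc : |c| ≤ 1) (hs : |s| ≤ 1)
    (z : ι → ℝ) : Lin (fun y => f (mix c s z y)) := by
  obtain ⟨a, b, ha, hb, h1⟩ := hf.bound
  refine ⟨hf.cont.comp (cont_mix continuous_const continuous_const continuous_const
    continuous_id), a + b * ∑ i, |z i|, b, ?_, hb, fun y => (h1 _).trans ?_⟩
  · have := sum_abs_nonneg z
    positivity
  · have := mul_le_mul_of_nonneg_left (sum_mix_le hc hs z y) hb
    linarith

/-- functions of linear growth of a mixture of two copies -/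
lemma Lin.mix2 {f : (ι → ℝ) → ℝ} (hf : Lin f) {c s : ℝ} (h : c ^ 2 + s ^ 2 = 1) :
    Integrable (fun q : (ι → ℝ) × (ι → ℝ) => f (mix c s q.1 q.2)) ((gpi ι).prod (gpi ι)) ∧
    Integrable (fun q : (ι → ℝ) × (ι → ℝ) => Real.exp (f (mix c s q.1 q.2)))
      ((gpi ι).prod (gpi ι)) :=
  ⟨(mp_mix h).integrable_comp_of_integrable hf.dom.integrable,
    (mp_mix h).integrable_comp_of_integrable (g := fun z => Real.exp (f z))
      hf.dom_exp.integrable⟩

section convex

variable [DecidableEq ι] {F : (ι → ℝ) → ℝ} {G H : ι → (ι → ℝ) → ℝ} {B : ℝ}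

omit [DecidableEq ι] in
/-- Cameron-Martin in the form used below -/
lemma int_shift (u : ι → ℝ) (f : (ι → ℝ) → ℝ) :
    ∫ y, f y ∂(gpi ι) =
      ∫ y, Real.exp (-(∑ i, u i * y i) - (∑ i, u i ^ 2) / 2) * f (fun i => y i + u i)
        ∂(gpi ι) := by
  have h := Vale.Agent.P367.Gap.integral_shift (ι := ι) (-u)
    (fun J => Real.exp (-(∑ i, u i * J i) + (∑ i, u i ^ 2) / 2) * f J)
  unfold gpi
  have e1 : ∀ J : ι → ℝ, Real.exp (-(∑ i, (-u) i * J i) - (∑ i, (-u) i ^ 2) / 2) *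
      (Real.exp (-(∑ i, u i * J i) + (∑ i, u i ^ 2) / 2) * f J) = f J := by
    intro J
    rw [← mul_assoc, ← Real.exp_add]
    have e2 : -(∑ i, (-u) i * J i) - (∑ i, (-u) i ^ 2) / 2 +
        (-(∑ i, u i * J i) + (∑ i, u i ^ 2) / 2) = 0 := by
      have e3 : ∑ i, (-u) i * J i = -∑ i, u i * J i := by
        rw [← Finset.sum_neg_distrib]
        exact Finset.sum_congr rfl fun i _ => by simp
      have e4 : ∑ i, (-u) i ^ 2 = ∑ i, u i ^ 2 :=
        Finset.sum_congr rfl fun i _ => by simp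
      rw [e3, e4]
      ring
    rw [e2, Real.exp_zero, one_mul]
  simp_rw [e1] at h
  rw [← h]
  refine integral_congr_ae (Filter.Eventually.of_forall fun J => ?_)
  simp only
  have e5 : (J - -u) = fun i => J i + u i := by
    funext i
    simp
  rw [e5]
  congr 2
  have e6 : ∑ i, u i * (J i + u i) = ∑ i, u i * J i + ∑ i, u i ^ 2 := by
    rw [← Finset.sum_add_distrib]
    exact Finset.sum_congr rfl fun i _ => by ring
  rw [e6]
  ring

end convex

lemma int_mix {c s : ℝ} (h : c ^ 2 + s ^ 2 = 1) {f : (ι → ℝ) → ℝ} (hf : Continuous f) :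
    ∫ q : (ι → ℝ) × (ι → ℝ), f (mix c s q.1 q.2) ∂((gpi ι).prod (gpi ι)) =
      ∫ g, f g ∂(gpi ι) := by
  have h1 := mp_mix (ι := ι) h
  conv_rhs => rw [← h1.map_eq]
  rw [integral_map h1.measurable.aemeasurable]
  rw [h1.map_eq]
  exact hf.aestronglyMeasurable

section convex2

variable {F : (ι → ℝ) → ℝ} {G : ι → (ι → ℝ) → ℝ} {B : ℝ}

lemma int_coord_zero (i : ι) : ∫ g : ι → ℝ, g i ∂(gpi ι) = 0 := by
  classical
  have h := ibp (ι := ι) i (Φ := fun _ => 1) (Φ' := fun _ => 0) (Dom.const 1) (Dom.const 0)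
    (fun g t => hasDerivAt_const t 1)
  simpa using h

lemma Lin.fix_shift {f : (ι → ℝ) → ℝ} (hf : Lin f) {c s : ℝ} (hc : |c| ≤ 1) (hs : |s| ≤ 1)
    (z u : ι → ℝ) : Lin (fun y => f (mix c s z (fun i => y i + u i))) := by
  obtain ⟨a, b, ha, hb, h1⟩ := hf.bound
  refine ⟨hf.cont.comp (cont_mix continuous_const continuous_const continuous_const
    (by fun_prop)), a + b * (∑ i, |z i| + ∑ i, |u i|), b, ?_, hb, fun y => (h1 _).trans ?_⟩
  · have := sum_abs_nonneg z
    have := sum_abs_nonneg u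
    positivity
  · have h2 := sum_mix_le hc hs z (fun i => y i + u i)
    have h3 : ∑ i, |y i + u i| ≤ ∑ i, |y i| + ∑ i, |u i| := by
      rw [← Finset.sum_add_distrib]
      exact Finset.sum_le_sum fun i _ => abs_add_le _ _
    have := mul_le_mul_of_nonneg_left (h2.trans (add_le_add_right h3 (∑ i, |z i|))) hb
    linarith

/-- the conditional inequality -/
lemma cond_ineq (hF : Lin F) (hG : ∀ i, Lin (G i))
    (hconv : ∀ z w : ι → ℝ, F z + ∑ i, G i z * w i ≤ F (fun i => z i + w i))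
    {c s x : ℝ} (hc : |c| ≤ 1) (hs : |s| ≤ 1) (hx : 0 ≤ x) (z : ι → ℝ) :
    Real.exp (x * (∫ y, F (mix c s z y) ∂(gpi ι)) +
        x ^ 2 * s ^ 2 / 2 * ∑ i, (∫ y, G i (mix c s z y) ∂(gpi ι)) ^ 2) ≤
      ∫ y, Real.exp (x * F (mix c s z y)) ∂(gpi ι) := by
  set Γ : ι → ℝ := fun i => ∫ y, G i (mix c s z y) ∂(gpi ι) with hΓ
  set u : ι → ℝ := fun i => x * s * Γ i with hu
  have lF : Lin (fun y => F (mix c s z y)) := hF.fix hc hs z
  have lG : ∀ i, Lin (fun y => G i (mix c s z y)) := fun i => (hG i).fix hc hs z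
  have l1 : Lin (fun y : ι → ℝ => x * F (mix c s z y) + ∑ i, (x * s * u i) * G i (mix c s z y)) :=
    (lF.const_mul x).add (Lin.sum _ fun i _ => (lG i).const_mul _)
  have l2 : Lin (fun y : ι → ℝ => ∑ i, (-u i) * y i + -((∑ i, u i ^ 2) / 2)) :=
    (Lin.sum _ fun i _ => (Lin.coord i).const_mul _).add (Lin.const _)
  have l3 := l1.add l2
  rw [int_shift u (fun y => Real.exp (x * F (mix c s z y)))]
  have j1 := exp_integral_le l3.dom.integrable l3.dom_exp.integrable
  have e1 : ∫ y : ι → ℝ, ((x * F (mix c s z y) + ∑ i, (x * s * u i) * G i (mix c s z y)) +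
      (∑ i, (-u i) * y i + -((∑ i, u i ^ 2) / 2))) ∂(gpi ι) =
      x * (∫ y, F (mix c s z y) ∂(gpi ι)) + x ^ 2 * s ^ 2 / 2 * ∑ i, Γ i ^ 2 := by
    rw [int_add l1.dom l2.dom, int_add (lF.const_mul x).dom
      (Lin.sum _ fun i _ => (lG i).const_mul _).dom, int_add
      (Lin.sum _ fun i _ => (Lin.coord i).const_mul _).dom (Lin.const _).dom,
      int_sum _ fun i _ => ((lG i).const_mul _).dom,
      int_sum _ fun i _ => ((Lin.coord i).const_mul _).dom]
    simp_rw [integral_const_mul, int_coord_zero]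
    have e2 : ∑ i, x * s * u i * ∫ g, G i (mix c s z g) ∂(gpi ι) =
        x ^ 2 * s ^ 2 * ∑ i, Γ i ^ 2 := by
      rw [Finset.mul_sum]
      refine Finset.sum_congr rfl fun i _ => ?_
      simp only [hu, hΓ]
      ring
    have e3 : ∑ i, u i ^ 2 = x ^ 2 * s ^ 2 * ∑ i, Γ i ^ 2 := by
      rw [Finset.mul_sum]
      refine Finset.sum_congr rfl fun i _ => ?_
      simp only [hu]
      ring
    rw [e2, e3]
    simp
    ring
  rw [e1] at j1
  refine j1.trans (integral_mono l3.dom_exp.integrable ?_ fun y => ?_)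
  · have l4 : Lin (fun y : ι → ℝ => x * F (mix c s z (fun i => y i + u i)) +
        (∑ i, (-u i) * y i + -((∑ i, u i ^ 2) / 2))) :=
      ((hF.fix_shift hc hs z u).const_mul x).add l2
    refine (l4.dom_exp.integrable).congr (Filter.Eventually.of_forall fun y => ?_)
    simp only
    rw [← Real.exp_add]
    congr 1
    have e4 : ∑ i, -u i * y i = -∑ i, u i * y i := by
      rw [← Finset.sum_neg_distrib]
      exact Finset.sum_congr rfl fun i _ => by ring
    rw [e4]
    ring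
  · simp only
    rw [← Real.exp_add]
    refine Real.exp_le_exp.2 ?_
    have h1 := hconv (mix c s z y) (fun i => s * u i)
    have e5 : (fun i => mix c s z y i + s * u i) = mix c s z (fun i => y i + u i) := by
      funext i
      simp only [mix_apply]
      ring
    rw [e5] at h1
    have h2 := mul_le_mul_of_nonneg_left h1 hx
    have e6 : x * (F (mix c s z y) + ∑ i, G i (mix c s z y) * (s * u i)) =
        x * F (mix c s z y) + ∑ i, x * s * u i * G i (mix c s z y) := by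
      rw [mul_add, Finset.mul_sum]
      congr 1
      exact Finset.sum_congr rfl fun i _ => by ring
    have e4 : ∑ i, -u i * y i = -∑ i, u i * y i := by
      rw [← Finset.sum_neg_distrib]
      exact Finset.sum_congr rfl fun i _ => by ring
    rw [e6] at h2
    rw [e4]
    linarith

/-- the unconditional inequality -/
lemma total_ineq (hF : Lin F) (hG : ∀ i, Lin (G i)) (hB : ∀ i g, |G i g| ≤ B)
    (hconv : ∀ z w : ι → ℝ, F z + ∑ i, G i z * w i ≤ F (fun i => z i + w i))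
    {c s x : ℝ} (hcs : c ^ 2 + s ^ 2 = 1) (hx : 0 ≤ x) :
    Real.exp (x * (∫ g, F g ∂(gpi ι)) +
        x ^ 2 * s ^ 2 / 2 * ∑ i, ∫ z, (∫ y, G i (mix c s z y) ∂(gpi ι)) ^ 2 ∂(gpi ι)) ≤
      ∫ g, Real.exp (x * F g) ∂(gpi ι) := by
  have hc : |c| ≤ 1 := by
    rw [abs_le]; constructor <;> nlinarith [sq_nonneg s]
  have hs : |s| ≤ 1 := by
    rw [abs_le]; constructor <;> nlinarith [sq_nonneg c]
  have mF := hF.mix2 hcs
  have mE := (hF.const_mul x).mix2 hcs
  have mG := fun i => ((hG i).mix2 hcs).1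
  have iF : Integrable (fun z => ∫ y, F (mix c s z y) ∂(gpi ι)) (gpi ι) := mF.1.integral_prod_left
  have iG : ∀ i, Integrable (fun z => ∫ y, G i (mix c s z y) ∂(gpi ι)) (gpi ι) :=
    fun i => (mG i).integral_prod_left
  have iG2 : ∀ i, Integrable (fun z => (∫ y, G i (mix c s z y) ∂(gpi ι)) ^ 2) (gpi ι) := by
    intro i
    refine Integrable.mono' (integrable_const (B ^ 2)) ((iG i).1.pow 2)
      (Filter.Eventually.of_forall fun z => ?_)
    rw [Real.norm_eq_abs, abs_pow]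
    have h1 : |∫ y, G i (mix c s z y) ∂(gpi ι)| ≤ B := by
      have h2 := norm_integral_le_of_norm_le_const (μ := gpi ι)
        (f := fun y => G i (mix c s z y)) (C := B)
        (Filter.Eventually.of_forall fun y => by rw [Real.norm_eq_abs]; exact hB i _)
      simpa using h2
    exact pow_le_pow_left₀ (abs_nonneg _) h1 2
  have iE : Integrable (fun z => ∫ y, Real.exp (x * F (mix c s z y)) ∂(gpi ι)) (gpi ι) :=
    mE.2.integral_prod_left
  have i3 : Integrable (fun z => x * (∫ y, F (mix c s z y) ∂(gpi ι)) +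
        x ^ 2 * s ^ 2 / 2 * ∑ i, (∫ y, G i (mix c s z y) ∂(gpi ι)) ^ 2) (gpi ι) :=
    (iF.const_mul x).add ((integrable_finsetSum _ fun i _ => iG2 i).const_mul _)
  have i4 : Integrable (fun z => Real.exp (x * (∫ y, F (mix c s z y) ∂(gpi ι)) +
        x ^ 2 * s ^ 2 / 2 * ∑ i, (∫ y, G i (mix c s z y) ∂(gpi ι)) ^ 2)) (gpi ι) := by
    refine Integrable.mono' iE (Real.continuous_exp.comp_aestronglyMeasurable i3.1)
      (Filter.Eventually.of_forall fun z => ?_)
    rw [Real.norm_eq_abs, abs_of_pos (Real.exp_pos _)]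
    exact cond_ineq hF hG hconv hc hs hx z
  have j1 := exp_integral_le i3 i4
  have e1 : ∫ z, (x * (∫ y, F (mix c s z y) ∂(gpi ι)) +
        x ^ 2 * s ^ 2 / 2 * ∑ i, (∫ y, G i (mix c s z y) ∂(gpi ι)) ^ 2) ∂(gpi ι) =
      x * (∫ g, F g ∂(gpi ι)) +
        x ^ 2 * s ^ 2 / 2 * ∑ i, ∫ z, (∫ y, G i (mix c s z y) ∂(gpi ι)) ^ 2 ∂(gpi ι) := by
    rw [integral_add (iF.const_mul x)
      ((integrable_finsetSum _ fun i _ => iG2 i).const_mul _), integral_const_mul,
      integral_const_mul, integral_finsetSum _ fun i _ => iG2 i]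
    congr 2
    rw [← integral_prod _ mF.1]
    exact int_mix hcs hF.cont
  have e2 : ∫ z, (∫ y, Real.exp (x * F (mix c s z y)) ∂(gpi ι)) ∂(gpi ι) =
      ∫ g, Real.exp (x * F g) ∂(gpi ι) := by
    rw [← integral_prod _ mE.2]
    exact int_mix hcs (hF.const_mul x).dom_exp.cont
  rw [e1] at j1
  rw [← e2]
  exact j1.trans (integral_mono i4 iE fun z => cond_ineq hF hG hconv hc hs hx z)

end convex2

section final

variable [DecidableEq ι] {F : (ι → ℝ) → ℝ} {G H : ι → (ι → ℝ) → ℝ} {B : ℝ}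

omit [DecidableEq ι] in
lemma int_J3 {f : (ι → ℝ) × ((ι → ℝ) × (ι → ℝ)) → ℝ} (hf : Continuous f) :
    ∫ g : J3 ι → ℝ, f (pu g, (pv g, pw g)) ∂(gpi (J3 ι)) =
      ∫ q, f q ∂((gpi ι).prod ((gpi ι).prod (gpi ι))) := by
  have h1 := mp3 (ι := ι)
  conv_rhs => rw [← h1.map_eq]
  rw [integral_map h1.measurable.aemeasurable]
  rw [h1.map_eq]
  exact hf.aestronglyMeasurable

omit [DecidableEq ι] in
lemma phi_eq (hG : ∀ i, Dom (G i)) (θ : ℝ) :
    phi G θ = ∑ i, ∫ z, (∫ y, G i (mix (Real.cos θ) (Real.sin θ) z y) ∂(gpi ι)) ^ 2 ∂(gpi ι) := by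
  have hc := Real.abs_cos_le_one θ
  have hs := Real.abs_sin_le_one θ
  unfold phi
  rw [int_sum _ fun i _ => (dom_uv (hG i) hc hs).mul (dom_uw (hG i) hc hs)]
  refine Finset.sum_congr rfl fun i _ => ?_
  set f : (ι → ℝ) × ((ι → ℝ) × (ι → ℝ)) → ℝ := fun q =>
    G i (mix (Real.cos θ) (Real.sin θ) q.1 q.2.1) * G i (mix (Real.cos θ) (Real.sin θ) q.1 q.2.2)
    with hf
  have cf : Continuous f :=
    ((hG i).cont.comp (cont_mix continuous_const continuous_const continuous_fst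
      (continuous_fst.comp continuous_snd))).mul
    ((hG i).cont.comp (cont_mix continuous_const continuous_const continuous_fst
      (continuous_snd.comp continuous_snd)))
  have i1 : Integrable f ((gpi ι).prod ((gpi ι).prod (gpi ι))) := by
    rw [← (mp3 (ι := ι)).integrable_comp cf.aestronglyMeasurable]
    exact ((dom_uv (hG i) hc hs).mul (dom_uw (hG i) hc hs)).integrable
  have e1 := int_J3 cf
  have e2 : ∫ g : J3 ι → ℝ, f (pu g, (pv g, pw g)) ∂(gpi (J3 ι)) =
      ∫ g : J3 ι → ℝ, G i (mix (Real.cos θ) (Real.sin θ) (pu g) (pv g)) *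
        G i (mix (Real.cos θ) (Real.sin θ) (pu g) (pw g)) ∂(gpi (J3 ι)) := rfl
  rw [← e2, e1, integral_prod _ i1]
  refine integral_congr_ae (Filter.Eventually.of_forall fun z => ?_)
  simp only [hf]
  rw [integral_prod_mul (fun y => G i (mix (Real.cos θ) (Real.sin θ) z y))
    (fun y => G i (mix (Real.cos θ) (Real.sin θ) z y)), sq]

omit [DecidableEq ι] in
lemma phi_le (hG : ∀ i, Dom (G i)) {M : ℝ} (hM : ∀ g, ∑ i, G i g ^ 2 ≤ M) (θ : ℝ) :
    phi G θ ≤ M := by
  have hc := Real.abs_cos_le_one θ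
  have hs := Real.abs_sin_le_one θ
  have h1 : phi G θ ≤ ∫ _g : J3 ι → ℝ, M ∂(gpi (J3 ι)) := by
    refine int_mono (Dom.sum _ fun i _ => (dom_uv (hG i) hc hs).mul (dom_uw (hG i) hc hs))
      (Dom.const M) fun g => ?_
    have h2 := hM (mix (Real.cos θ) (Real.sin θ) (pu g) (pv g))
    have h3 := hM (mix (Real.cos θ) (Real.sin θ) (pu g) (pw g))
    have h4 : ∑ i, G i (mix (Real.cos θ) (Real.sin θ) (pu g) (pv g)) *
        G i (mix (Real.cos θ) (Real.sin θ) (pu g) (pw g)) ≤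
        ∑ i, (G i (mix (Real.cos θ) (Real.sin θ) (pu g) (pv g)) ^ 2 / 2 +
          G i (mix (Real.cos θ) (Real.sin θ) (pu g) (pw g)) ^ 2 / 2) := by
      refine Finset.sum_le_sum fun i _ => ?_
      linarith only [sq_nonneg (G i (mix (Real.cos θ) (Real.sin θ) (pu g) (pv g)) - G i (mix (Real.cos θ) (Real.sin θ) (pu g) (pw g)))]
    rw [Finset.sum_add_distrib, ← Finset.sum_div, ← Finset.sum_div] at h4
    linarith
  simpa using h1

/-- **Variance from one exponential moment**, convex functions of a Gaussian vector. -/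
theorem var_le_of_exp_moment (h : Reg F G H B) (hF : Lin F)
    (hconv : ∀ z w : ι → ℝ, F z + ∑ i, G i z * w i ≤ F (fun i => z i + w i))
    {M : ℝ} (hM : ∀ g, ∑ i, G i g ^ 2 ≤ M) {x A : ℝ} (hx : 0 < x)
    (hexp : ∫ g, Real.exp (x * F g) ∂(gpi ι) ≤
      Real.exp (x * (∫ g, F g ∂(gpi ι)) + x ^ 2 * A / 2)) {u : ℝ} (hu : 0 < u) (hu1 : u ≤ 1) :
    0 ≤ A ∧ ∫ g, F g ^ 2 ∂(gpi ι) - (∫ g, F g ∂(gpi ι)) ^ 2 ≤ M * u + A * (-Real.log u) := by
  have hG : ∀ i, Lin (G i) := fun i => Lin.of_bounded (h.G_dom i).cont B (h.G_bd i)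
  -- the two bounds on phi
  have b0 : ∀ θ, 0 ≤ phi G θ := by
    intro θ
    rw [phi_eq h.G_dom]
    exact Finset.sum_nonneg fun i _ => integral_nonneg fun z => sq_nonneg _
  have b1 : ∀ θ, Real.sin θ ^ 2 * phi G θ ≤ A := by
    intro θ
    have h1 := total_ineq hF hG h.G_bd hconv (c := Real.cos θ) (s := Real.sin θ)
      (by rw [add_comm]; exact Real.sin_sq_add_cos_sq θ) hx.le
    rw [← phi_eq h.G_dom] at h1
    have h2 := Real.exp_le_exp.1 (h1.trans hexp)
    have h3 : x ^ 2 / 2 * (Real.sin θ ^ 2 * phi G θ) ≤ x ^ 2 / 2 * A := by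
      have e : x ^ 2 * Real.sin θ ^ 2 / 2 * phi G θ =
        x ^ 2 / 2 * (Real.sin θ ^ 2 * phi G θ) := by ring
      rw [e] at h2
      linarith only [h2]
    exact le_of_mul_le_mul_left h3 (by positivity)
  have b2 : ∀ θ, phi G θ ≤ M := phi_le h.G_dom hM
  have hA : 0 ≤ A := by
    have h1 := b1 (Real.pi / 2)
    have h2 := b0 (Real.pi / 2)
    rw [Real.sin_pi_div_two] at h1
    linarith
  refine ⟨hA, ?_⟩
  have hpi : (0 : ℝ) ≤ Real.pi / 2 := by positivity
  have dsq : ∀ θ, HasDerivAt (fun θ => Real.sin θ ^ 2) (2 * Real.sin θ * Real.cos θ) θ := by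
    intro θ
    refine ((Real.hasDerivAt_sin θ).fun_pow 2).congr_deriv ?_
    simp
  have sc : ∀ θ, 0 ≤ θ → θ ≤ Real.pi / 2 → 0 ≤ Real.sin θ ∧ 0 ≤ Real.cos θ := fun θ h0 h1 =>
    ⟨Real.sin_nonneg_of_nonneg_of_le_pi h0 (by linarith [Real.pi_pos]),
      Real.cos_nonneg_of_neg_pi_div_two_le_of_le (by linarith [Real.pi_pos]) h1⟩
  -- the angle
  set t := Real.arcsin (√u) with ht
  have hsu : 0 < √u := Real.sqrt_pos.2 hu
  have hsu1 : √u ≤ 1 := by
    rw [Real.sqrt_le_iff]; constructor <;> linarith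
  have hst : Real.sin t = √u := Real.sin_arcsin (by linarith) hsu1
  have hst2 : Real.sin t ^ 2 = u := by rw [hst, Real.sq_sqrt hu.le]
  have ht0 : 0 < t := Real.arcsin_pos.2 hsu
  have ht1 : t ≤ Real.pi / 2 := Real.arcsin_le_pi_div_two _
  -- first piece
  have p1 : KK F 0 ≤ KK F t + M * u := by
    set D : ℝ → ℝ := fun θ => KK F θ + M * Real.sin θ ^ 2 with hD
    have dD : ∀ θ, HasDerivAt D (-(2 * Real.sin θ * Real.cos θ) * phi G θ +
        M * (2 * Real.sin θ * Real.cos θ)) θ := fun θ =>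
      (hasDerivAt_KK h θ).add ((dsq θ).const_mul M)
    have mono : MonotoneOn D (Set.Icc 0 t) := by
      refine monotoneOn_of_deriv_nonneg (convex_Icc _ _)
        (fun θ _ => (dD θ).continuousAt.continuousWithinAt)
        (fun θ _ => (dD θ).differentiableAt.differentiableWithinAt) fun θ hθ => ?_
      rw [interior_Icc] at hθ
      rw [(dD θ).deriv]
      obtain ⟨s0, c0⟩ := sc θ hθ.1.le (hθ.2.le.trans ht1)
      have h5 : -(2 * Real.sin θ * Real.cos θ) * phi G θ +
          M * (2 * Real.sin θ * Real.cos θ) =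
          (2 * Real.sin θ * Real.cos θ) * (M - phi G θ) := by ring
      rw [h5]
      exact mul_nonneg (by (clear * - s0 c0; positivity)) (by linarith [b2 θ])
    have h6 := mono (Set.left_mem_Icc.2 ht0.le) (Set.right_mem_Icc.2 ht0.le) ht0.le
    simp only [hD] at h6
    rw [hst2, Real.sin_zero] at h6
    linarith
  -- second piece
  have p2 : KK F t ≤ KK F (Real.pi / 2) + A * (-Real.log u) := by
    set D : ℝ → ℝ := fun θ => KK F θ + A * Real.log (Real.sin θ ^ 2) with hD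
    have spos : ∀ θ ∈ Set.Icc t (Real.pi / 2), 0 < Real.sin θ := fun θ hθ =>
      Real.sin_pos_of_pos_of_lt_pi (ht0.trans_le hθ.1) (by linarith [hθ.2, Real.pi_pos])
    have dD : ∀ θ ∈ Set.Icc t (Real.pi / 2), HasDerivAt D
        (-(2 * Real.sin θ * Real.cos θ) * phi G θ +
        A * ((2 * Real.sin θ * Real.cos θ) / Real.sin θ ^ 2)) θ := fun θ hθ =>
      (hasDerivAt_KK h θ).add (((dsq θ).log (pow_pos (spos θ hθ) 2).ne').const_mul A)
    have mono : MonotoneOn D (Set.Icc t (Real.pi / 2)) := by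
      refine monotoneOn_of_deriv_nonneg (convex_Icc _ _)
        (fun θ hθ => (dD θ hθ).continuousAt.continuousWithinAt)
        (fun θ hθ => (dD θ (interior_subset hθ)).differentiableAt.differentiableWithinAt)
        fun θ hθ => ?_
      have hθ' := interior_subset hθ
      rw [(dD θ hθ').deriv]
      obtain ⟨s0, c0⟩ := sc θ (ht0.le.trans hθ'.1) hθ'.2
      have s1 := spos θ hθ'
      have h4 : phi G θ ≤ A / Real.sin θ ^ 2 := by
        rw [le_div_iff₀ (pow_pos s1 2)]
        linarith [b1 θ]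
      have h5 : -(2 * Real.sin θ * Real.cos θ) * phi G θ +
          A * ((2 * Real.sin θ * Real.cos θ) / Real.sin θ ^ 2) =
          (2 * Real.sin θ * Real.cos θ) * (A / Real.sin θ ^ 2 - phi G θ) := by
        field_simp
        ring
      rw [h5]
      exact mul_nonneg (by (clear * - s1 c0; positivity)) (by linarith only [h4])
    have h6 := mono (Set.left_mem_Icc.2 ht1) (Set.right_mem_Icc.2 ht1) ht1
    simp only [hD] at h6
    rw [hst2, Real.sin_pi_div_two] at h6
    norm_num at h6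
    linarith only [h6]
  rw [KK_zero h.F_dom] at p1
  rw [KK_pi h.F_dom] at p2
  linarith

end final

/-! ### log-partition functions and the SK free energy -/

section logzz

variable {S : Type*} [Fintype S] [Nonempty S] (a : S → ι → ℝ) (c : S → ℝ)

lemma log_zz_lin : Lin (fun g => Real.log (zz a c g)) := by
  refine ⟨log_zz_cont a c, ∑ s, |c s| + Real.log (Fintype.card S), ∑ s, ∑ i, |a s i|, ?_,
    Finset.sum_nonneg fun _ _ => Finset.sum_nonneg fun _ _ => abs_nonneg _, fun g => ?_⟩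
  · have h1 : (0 : ℝ) ≤ ∑ s, |c s| := Finset.sum_nonneg fun _ _ => abs_nonneg _
    have h2 : 0 ≤ Real.log (Fintype.card S : ℝ) :=
      Real.log_nonneg (by exact_mod_cast Fintype.card_pos)
    linarith
  · have := log_zz_bound a c g
    linarith

lemma log_zz_fderiv (g : ι → ℝ) :
    HasFDerivAt (fun g => Real.log (zz a c g))
      (∑ i, gav a c (fun s => a s i) g •
        ContinuousLinearMap.proj (R := ℝ) (φ := fun _ : ι => ℝ) i) g := by
  have h1 : ∀ s, HasFDerivAt (fun g : ι → ℝ => ∑ i, a s i * g i + c s)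
      (∑ i, a s i • ContinuousLinearMap.proj (R := ℝ) (φ := fun _ : ι => ℝ) i) g := by
    intro s
    refine (HasFDerivAt.fun_sum fun i _ => ?_).add_const (c s)
    exact (ContinuousLinearMap.proj (R := ℝ) (φ := fun _ : ι => ℝ) i).hasFDerivAt.const_mul (a s i)
  have h2 : HasFDerivAt (fun g : ι → ℝ => zz a c g)
      (∑ s, wt a c g s •
        ∑ i, a s i • ContinuousLinearMap.proj (R := ℝ) (φ := fun _ : ι => ℝ) i) g := by
    unfold zz
    exact HasFDerivAt.fun_sum fun s _ => (h1 s).exp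
  refine (h2.log (zz_pos a c g).ne').congr_fderiv ?_
  ext v
  simp only [_root_.smul_apply, _root_.sum_apply,
    ContinuousLinearMap.proj_apply, smul_eq_mul]
  unfold gav
  rw [Finset.mul_sum]
  simp_rw [Finset.mul_sum, div_mul_eq_mul_div, Finset.sum_mul]
  rw [Finset.sum_comm]
  refine Finset.sum_congr rfl fun i _ => ?_
  rw [Finset.sum_div]
  refine Finset.sum_congr rfl fun s _ => ?_
  ring

/-- the tangent inequality for log-partition functions -/
lemma log_zz_tangent (z w : ι → ℝ) :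
    Real.log (zz a c z) + ∑ i, gav a c (fun s => a s i) z * w i ≤
      Real.log (zz a c (fun i => z i + w i)) := by
  set m : ℝ := ∑ i, gav a c (fun s => a s i) z * w i with hm
  have hz := zz_pos a c z
  have e1 : ∀ s, wt a c (fun i => z i + w i) s = wt a c z s * Real.exp (∑ i, a s i * w i) := by
    intro s
    unfold wt
    rw [← Real.exp_add]
    congr 1
    simp_rw [mul_add]
    rw [Finset.sum_add_distrib]
    ring
  have e2 : ∑ s, wt a c z s * (∑ i, a s i * w i) = m * zz a c z := by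
    have h1 : ∀ i, gav a c (fun s => a s i) z * w i * zz a c z =
        ∑ s, wt a c z s * (a s i * w i) := by
      intro i
      unfold gav
      rw [div_mul_eq_mul_div, div_mul_cancel₀ _ hz.ne', Finset.sum_mul]
      exact Finset.sum_congr rfl fun s _ => by ring
    rw [hm, Finset.sum_mul]
    simp_rw [h1, Finset.mul_sum]
    exact Finset.sum_comm
  have h3 : Real.exp m * zz a c z ≤ zz a c (fun i => z i + w i) := by
    have h4 : ∑ s, wt a c z s * (Real.exp m * (∑ i, a s i * w i + (1 - m))) ≤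
        zz a c (fun i => z i + w i) := by
      unfold zz
      simp_rw [e1]
      refine Finset.sum_le_sum fun s _ => mul_le_mul_of_nonneg_left ?_ (wt_pos a c z s).le
      have h5 := Real.add_one_le_exp (∑ i, a s i * w i - m)
      have h6 : Real.exp (∑ i, a s i * w i) =
          Real.exp m * Real.exp (∑ i, a s i * w i - m) := by
        rw [← Real.exp_add]; congr 1; ring
      rw [h6]
      refine mul_le_mul_of_nonneg_left ?_ (Real.exp_pos m).le
      linarith
    have h7 : ∑ s, wt a c z s * (Real.exp m * (∑ i, a s i * w i + (1 - m))) =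
        Real.exp m * zz a c z := by
      have h8 : ∀ s, wt a c z s * (Real.exp m * (∑ i, a s i * w i + (1 - m))) =
          Real.exp m * (wt a c z s * (∑ i, a s i * w i)) +
            Real.exp m * (1 - m) * wt a c z s := by
        intro s; ring
      simp_rw [h8]
      rw [Finset.sum_add_distrib, ← Finset.mul_sum, ← Finset.mul_sum, e2]
      unfold zz
      ring
    rw [h7] at h4
    exact h4
  have h9 := Real.log_le_log (by positivity) h3
  rw [Real.log_mul (Real.exp_pos m).ne' hz.ne', Real.log_exp] at h9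
  linarith

end logzz

section sk

variable (n : ℕ) (β : ℝ)

/-- gradient of the free energy -/
noncomputable def gradF (p : Pair n) (g : Pair n → ℝ) : ℝ :=
  (β / Real.sqrt n) * av n β (ps p) g

/-- diagonal of the Hessian of the free energy -/
noncomputable def hessF (p : Pair n) (g : Pair n → ℝ) : ℝ :=
  (β / Real.sqrt n) * ((β / Real.sqrt n) * (av n β (symmDiff (ps p) (ps p)) g -
    av n β (ps p) g * av n β (ps p) g))

lemma gradF_eq (p : Pair n) (g : Pair n → ℝ) :
    gav (ska n β) (fun _ => 0) (fun s => ska n β s p) g = gradF n β p g := by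
  unfold gradF av avf
  rw [← gav_const_mul]
  rfl

lemma reg_freeEnergy : Reg (freeEnergy n β) (gradF n β) (hessF n β) |β / Real.sqrt n| where
  F_dom := freeEnergy_dom n β
  G_dom p := (av_dom n β (ps p)).const_mul _
  H_dom p := ((((av_dom n β _).sub ((av_dom n β _).mul (av_dom n β _)))).const_mul _).const_mul _
  G_bd p g := by
    unfold gradF
    rw [abs_mul]
    exact mul_le_of_le_one_right (abs_nonneg _) (abs_av_le n β _ g)
  F_diff g := by
    have h := log_zz_fderiv (ska n β) (fun _ => 0) g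
    have e : (fun g => Real.log (zz (ska n β) (fun _ => 0) g)) = freeEnergy n β := by
      funext g; exact (freeEnergy_eq n β g).symm
    rw [e] at h
    simp_rw [gradF_eq] at h
    exact h
  G_diff p g t := (hasDerivAt_av n β (ps p) g p t).const_mul _

lemma lin_freeEnergy : Lin (freeEnergy n β) := by
  have e : (fun g => Real.log (zz (ska n β) (fun _ => 0) g)) = freeEnergy n β := by
    funext g; exact (freeEnergy_eq n β g).symm
  rw [← e]
  exact log_zz_lin (ska n β) (fun _ => 0)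

lemma tangent_freeEnergy (z w : Pair n → ℝ) :
    freeEnergy n β z + ∑ p, gradF n β p z * w p ≤ freeEnergy n β (fun p => z p + w p) := by
  have h := log_zz_tangent (ska n β) (fun _ => 0) z w
  simp_rw [gradF_eq] at h
  rw [freeEnergy_eq, freeEnergy_eq]
  exact h

lemma card_pair_le : (Fintype.card (Pair n) : ℝ) ≤ (n : ℝ) ^ 2 / 2 := by
  have h1 : Fintype.card (Pair n) + Fintype.card (Pair n) ≤ n ^ 2 := by
    have h2 : Fintype.card (Pair n ⊕ Pair n) ≤ Fintype.card (Fin n × Fin n) := by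
      refine Fintype.card_le_of_injective
        (fun q : Pair n ⊕ Pair n => Sum.elim (fun p => p.1) (fun p => (p.1.2, p.1.1)) q) ?_
      rintro (p | p) (q | q) hpq
      · simp only [Sum.elim_inl] at hpq
        rw [Subtype.ext hpq]
      · simp only [Sum.elim_inl, Sum.elim_inr] at hpq
        have h3 := p.2
        have h4 := q.2
        rw [hpq] at h3
        exact absurd h3 (not_lt.2 h4.le)
      · simp only [Sum.elim_inl, Sum.elim_inr] at hpq
        have h3 := p.2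
        have h4 := q.2
        rw [← hpq] at h4
        exact absurd h4 (not_lt.2 h3.le)
      · simp only [Sum.elim_inr, Prod.mk.injEq] at hpq
        rw [Subtype.ext (Prod.ext hpq.2 hpq.1)]
    rw [Fintype.card_sum, Fintype.card_prod, Fintype.card_fin] at h2
    rw [sq]
    exact h2
  have h5 : ((Fintype.card (Pair n) + Fintype.card (Pair n) : ℕ) : ℝ) ≤ ((n ^ 2 : ℕ) : ℝ) := by
    exact_mod_cast h1
  push_cast at h5
  linarith only [h5]

lemma sum_gradF_sq (g : Pair n → ℝ) : ∑ p, gradF n β p g ^ 2 ≤ β ^ 2 * n / 2 := by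
  rcases Nat.eq_zero_or_pos n with h0 | hn
  · subst h0
    have : IsEmpty (Pair 0) := ⟨fun p => p.1.1.elim0⟩
    simp
  · have hn' : (0 : ℝ) < n := by exact_mod_cast hn
    calc ∑ p, gradF n β p g ^ 2 ≤ ∑ _p : Pair n, β ^ 2 / n := by
          refine Finset.sum_le_sum fun p _ => ?_
          unfold gradF
          rw [mul_pow, div_pow, Real.sq_sqrt hn'.le]
          refine mul_le_of_le_one_right (by positivity) ?_
          rw [← sq_abs]
          exact pow_le_one₀ (abs_nonneg _) (abs_av_le n β _ g)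
      _ = Fintype.card (Pair n) * (β ^ 2 / n) := by simp
      _ ≤ ((n : ℝ) ^ 2 / 2) * (β ^ 2 / n) :=
          mul_le_mul_of_nonneg_right (card_pair_le n) (by positivity)
      _ = β ^ 2 * n / 2 := by field_simp

/-- **Module I for the SK free energy.**  One exponential moment bounds the variance. -/
theorem var_freeEnergy_le {x A : ℝ} (hx : 0 < x)
    (hexp : ∫ g, Real.exp (x * freeEnergy n β g) ∂(disorder n) ≤
      Real.exp (x * (∫ g, freeEnergy n β g ∂(disorder n)) + x ^ 2 * A / 2))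
    {u : ℝ} (hu : 0 < u) (hu1 : u ≤ 1) :
    0 ≤ A ∧ Var[freeEnergy n β; disorder n] ≤ β ^ 2 * n / 2 * u + A * (-Real.log u) := by
  have h := var_le_of_exp_moment (reg_freeEnergy n β) (lin_freeEnergy n β)
    (tangent_freeEnergy n β) (sum_gradF_sq n β) hx hexp hu hu1
  have hd := freeEnergy_dom n β
  have hm : MemLp (freeEnergy n β) 2 (gpi (Pair n)) := by
    rw [memLp_two_iff_integrable_sq hd.cont.aestronglyMeasurable]
    exact (hd.pow 2).integrable
  have e : Var[freeEnergy n β; disorder n] =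
      ∫ g, freeEnergy n β g ^ 2 ∂(gpi (Pair n)) - (∫ g, freeEnergy n β g ∂(gpi (Pair n))) ^ 2 :=
    variance_eq_sub (μ := gpi (Pair n)) hm
  rw [e]
  exact h

end sk

end Vale.Agent.P146.Ub.Cv
end

section

/-!
# P146, polynomial lower bound, Parisi side: the gap theorem with a rate (GAPR)
-/

open MeasureTheory ProbabilityTheory Filter Topology Set

namespace Vale.Agent.P146.Pw2

open Vale.Agent.P157.Par
open Vale.Agent.P146.Gap

theorem gap_real_rate {b S C : ℝ} (hb : 0 < b) (hC : 0 ≤ C) :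
    ∃ c₀ > 0, ∀ δ : ℝ, 0 < δ → δ ≤ 1 → ∀ η₀ : ℝ, η₀ ≤ c₀ * δ ^ 3 → ∀ (s₁ : ℝ) (R M M1 M2 : ℝ → ℝ), 0 < s₁ → s₁ ≤ S →
      ContinuousOn R (Icc 0 s₁) → ContinuousOn M (Icc 0 s₁) → ContinuousOn M1 (Icc 0 s₁) →
      (∀ τ ∈ Ioo 0 s₁, HasDerivAt R (M τ) τ) → (∀ τ ∈ Ioo 0 s₁, HasDerivAt M (M1 τ) τ) →
      (∀ τ ∈ Ioo 0 s₁, HasDerivAt M1 (M2 τ) τ) → (∀ τ ∈ Ioo 0 s₁, 0 ≤ M2 τ) →
      (∀ τ ∈ Icc 0 s₁, M1 τ ≤ C) → R 0 = 0 → R s₁ ≤ s₁ / b ^ 2 →
      s₁ ^ 2 / (2 * b ^ 2) - η₀ * s₁ ^ 2 ≤ ∫ τ in (0 : ℝ)..s₁, R τ →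
      (1 - δ) / b ^ 2 ≤ M 0 := by
  obtain ⟨c, hc⟩ : ∃ c : ℝ, c = 1 / b ^ 2 := ⟨_, rfl⟩
  have hc0 : 0 < c := by rw [hc]; positivity
  refine ⟨min (c / 8) (c * (c / (2 * (C + 1))) ^ 2 / (8 * (S ^ 2 + 1))), by positivity, ?_⟩
  intro δ hδ hδ1 η₀ hη₀ s R M M1 M2 hs hsS cR cM cM1 dR dM dM1 hM2 hM1 hR0 hRs hint
  obtain ⟨D, hD⟩ : ∃ D : ℝ, D = δ * c / (2 * (C + 1)) := ⟨_, rfl⟩
  have hD0 : 0 < D := by rw [hD]; positivity
  have hη₁ : η₀ ≤ min (δ * c / 8) (δ * c * D ^ 2 / (8 * (S ^ 2 + 1))) := by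
    have hδ3 : 0 < δ ^ 3 := by positivity
    refine hη₀.trans (le_min ?_ ?_)
    · calc min (c / 8) (c * (c / (2 * (C + 1))) ^ 2 / (8 * (S ^ 2 + 1))) * δ ^ 3
          ≤ c / 8 * δ ^ 3 := mul_le_mul_of_nonneg_right (min_le_left _ _) hδ3.le
        _ ≤ c / 8 * δ := by
          refine mul_le_mul_of_nonneg_left ?_ (by positivity)
          calc δ ^ 3 ≤ δ ^ 1 := pow_le_pow_of_le_one hδ.le hδ1 (by norm_num)
            _ = δ := pow_one δ
        _ = _ := by ring
    · calc min (c / 8) (c * (c / (2 * (C + 1))) ^ 2 / (8 * (S ^ 2 + 1))) * δ ^ 3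
          ≤ c * (c / (2 * (C + 1))) ^ 2 / (8 * (S ^ 2 + 1)) * δ ^ 3 :=
            mul_le_mul_of_nonneg_right (min_le_right _ _) hδ3.le
        _ = _ := by rw [hD]; ring
  have hint : s ^ 2 / (2 * b ^ 2) - min (δ * c / 8) (δ * c * D ^ 2 / (8 * (S ^ 2 + 1))) * s ^ 2 ≤
      ∫ τ in (0 : ℝ)..s, R τ := by
    refine le_trans ?_ hint
    have := mul_le_mul_of_nonneg_right hη₁ (sq_nonneg s)
    linarith only [this]
  by_contra hcon
  push Not at hcon
  have e1 : (1 - δ) / b ^ 2 = c - δ * c := by rw [hc]; ring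
  rw [e1] at hcon
  have hM1mono : MonotoneOn M1 (Icc 0 s) := by
    refine monotoneOn_of_deriv_nonneg (convex_Icc 0 s) cM1 ?_ ?_
    · rw [interior_Icc]
      exact fun τ hτ => (dM1 τ hτ).differentiableAt.differentiableWithinAt
    · rw [interior_Icc]
      intro τ hτ
      rw [(dM1 τ hτ).deriv]; exact hM2 τ hτ
  have hkd : ∀ τ ∈ Ioo 0 s, HasDerivAt (fun t => M t - c) (M1 τ) τ := fun τ hτ =>
    (dM τ hτ).sub_const c
  have hconv : ConvexOn ℝ (Icc 0 s) (fun t => M t - c) := by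
    refine MonotoneOn.convexOn_of_deriv (convex_Icc 0 s) (cM.sub continuousOn_const) ?_ ?_
    · rw [interior_Icc]
      exact fun τ hτ => (hkd τ hτ).differentiableAt.differentiableWithinAt
    · rw [interior_Icc]
      intro x hx y hy hxy
      rw [(hkd x hx).deriv, (hkd y hy).deriv]
      exact hM1mono (Ioo_subset_Icc_self hx) (Ioo_subset_Icc_self hy) hxy
  have hd : ∀ τ ∈ Ioo 0 s, HasDerivAt (fun t => R t - c * t) (M τ - c) τ := by
    intro τ hτ
    have := (dR τ hτ).sub ((hasDerivAt_id τ).const_mul c)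
    rw [mul_one] at this
    exact this
  have hcont : ContinuousOn (fun t => R t - c * t) (Icc 0 s) := cR.sub (by fun_prop)
  have hk0 : M 0 - c < 0 := by
    have : 0 < δ * c := by positivity
    linarith only [this, hcon]
  have hneg : ∀ t ∈ Icc 0 s, R t - c * t ≤ 0 := by
    refine real_nonpos hs hcont hd hconv hk0 (by simp [hR0]) ?_
    have e2 : s / b ^ 2 = c * s := by rw [hc]; ring
    rw [e2] at hRs
    linarith only [hRs]
  have hkb : ∀ τ ∈ Ioo 0 s, τ ≤ D → M τ - c ≤ -(δ * c / 2) := by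
    intro τ hτ hτD
    have h1 : MonotoneOn (fun t => C * t - (M t - c)) (Icc 0 s) := by
      refine monotoneOn_of_deriv_nonneg (convex_Icc 0 s) ?_ ?_ ?_
      · exact ContinuousOn.sub (by fun_prop) (cM.sub continuousOn_const)
      · rw [interior_Icc]
        intro τ hτ
        exact (((hasDerivAt_id τ).const_mul C).sub (hkd τ hτ)).differentiableAt.differentiableWithinAt
      · rw [interior_Icc]
        intro τ hτ
        have e3 : deriv (fun t => C * t - (M t - c)) τ = C * 1 - M1 τ :=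
          (((hasDerivAt_id τ).const_mul C).sub (hkd τ hτ)).deriv
        rw [e3]
        have := hM1 τ (Ioo_subset_Icc_self hτ)
        linarith only [this]
    have h2 := h1 (left_mem_Icc.2 hs.le) (Ioo_subset_Icc_self hτ) hτ.1.le
    simp only [mul_zero] at h2
    have h3 : C * τ ≤ δ * c / 2 := by
      have h4 : C * τ ≤ C * D := mul_le_mul_of_nonneg_left hτD hC
      have h5 : (C + 1) * D = δ * c / 2 := by rw [hD]; field_simp
      linarith only [h5, h4, hD0]
    linarith only [h3, h2, hcon]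
  have hI := real_integral hs hD0 (by positivity : 0 ≤ δ * c / 2) hcont hd hkb (by simp [hR0]) hneg
  have hsplit : ∫ τ in (0 : ℝ)..s, (R τ - c * τ) = (∫ τ in (0 : ℝ)..s, R τ) - c * s ^ 2 / 2 := by
    rw [intervalIntegral.integral_sub, intervalIntegral.integral_const_mul, integral_id]
    · ring
    · apply ContinuousOn.intervalIntegrable
      rw [uIcc_of_le hs.le]
      exact cR
    · exact (by fun_prop : Continuous fun τ : ℝ => c * τ).intervalIntegrable _ _
  rw [hsplit] at hI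
  have e4 : s ^ 2 / (2 * b ^ 2) = c * s ^ 2 / 2 := by rw [hc]; ring
  rw [e4] at hint
  have hkey : δ * c / 4 * (min s D) ^ 2 ≤
      min (δ * c / 8) (δ * c * D ^ 2 / (8 * (S ^ 2 + 1))) * s ^ 2 := by
    linarith only [hI, hint]
  have hs2 : 0 < s ^ 2 := by positivity
  have hδc : 0 < δ * c := by positivity
  rcases le_total s D with h | h
  · rw [min_eq_left h] at hkey
    have h1 : min (δ * c / 8) (δ * c * D ^ 2 / (8 * (S ^ 2 + 1))) * s ^ 2 ≤ δ * c / 8 * s ^ 2 :=
      mul_le_mul_of_nonneg_right (min_le_left _ _) hs2.le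
    linarith only [mul_pos (sub_pos.2 hs2) (sub_pos.2 hδc), mul_nonneg (sub_nonneg.2 hδ1) (sub_nonneg.2 h1), mul_nonneg (sub_nonneg.2 hδ1) (sub_nonneg.2 hkey), mul_nonneg (le_of_lt (sub_pos.2 hδ)) (sub_nonneg.2 h1), mul_nonneg (le_of_lt (sub_pos.2 hδ)) (sub_nonneg.2 hkey)]
  · rw [min_eq_right h] at hkey
    have h1 : min (δ * c / 8) (δ * c * D ^ 2 / (8 * (S ^ 2 + 1))) * s ^ 2 ≤
        δ * c * D ^ 2 / (8 * (S ^ 2 + 1)) * (S ^ 2 + 1) := by
      have h2 : s ^ 2 ≤ S ^ 2 + 1 := by (by_contra nlg; linarith only [nlg, mul_nonneg (sub_nonneg.2 hsS) (sub_nonneg.2 h), mul_nonneg (sub_nonneg.2 hsS) (le_of_lt (sub_pos.2 hD0)), mul_nonneg (sub_nonneg.2 hsS) (sub_nonneg.2 hsS), mul_nonneg (le_of_lt (sub_pos.2 (not_le.1 nlg))) (sub_nonneg.2 hδ1), mul_pos (sub_pos.2 (not_le.1 nlg)) (sub_pos.2 hδ)])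
      exact mul_le_mul (min_le_right _ _) h2 hs2.le (by (clear * - hδ hc0 hD0; positivity))
    have h3 : δ * c * D ^ 2 / (8 * (S ^ 2 + 1)) * (S ^ 2 + 1) = δ * c * D ^ 2 / 8 := by
      field_simp
    rw [h3] at h1
    have h4 : 0 < δ * c * D ^ 2 := by positivity
    linarith only [h4, h1, hkey]

theorem gap_rate {b : ℝ} (hb : 1 < b) : ∃ C : ℝ, 1 ≤ C ∧ ∀ (n : ℕ) (m r : ℕ → ℝ) (h δ : ℝ),
    Exponents n m → (∀ l ≤ n, m (l + 1) - m l ≤ h) → IsMin b n m r → 0 < δ → δ ≤ 1 →
    C * h ≤ δ ^ 3 → (1 - δ) / b ^ 2 ≤ iteratedDeriv 2 (cascade m r n lc) 0 ^ 2 := by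
  have hb0 : 0 < b := by linarith
  have hb2 : 1 ≤ b ^ 2 := by (by_contra nlg; linarith [mul_pos (sub_pos.2 hb) (sub_pos.2 hb0), mul_pos (sub_pos.2 (not_le.1 nlg)) (sub_pos.2 hb0), mul_nonneg (sq_nonneg (b : ℝ)) (le_of_lt (sub_pos.2 hb))])
  set C0 : ℝ := 2 * Real.exp (2 * b ^ 2) with hC0
  have hC0p : 0 < C0 := by positivity
  obtain ⟨c₀, hc₀, hreal'⟩ := gap_real_rate (b := b) (S := b ^ 2)
    (C := (C0 * Real.exp (2 * b ^ 2)) ^ 2) hb0 (by positivity)
  obtain ⟨K, hK, htilt⟩ := Rf_tilt (b ^ 2)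
  refine ⟨max 1 (K / (2 * c₀)), le_max_left _ _, ?_⟩
  rintro k m r h δ hm hinc ⟨hr, hmin⟩ hδ hδ1 hCh
  have hKh : K * h ≤ 2 * (c₀ * δ ^ 3) := by
    have h1 : h * (K / (2 * c₀)) ≤ δ ^ 3 := by
      have h2 : 0 ≤ h := by
        have := hinc 0 (Nat.zero_le _)
        have := hm.2.2 0 (Nat.zero_le _)
        linarith
      calc h * (K / (2 * c₀)) ≤ h * max 1 (K / (2 * c₀)) :=
            mul_le_mul_of_nonneg_left (le_max_right _ _) h2
        _ ≤ _ := by rw [mul_comm]; exact hCh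
    have h3 : K * h = 2 * (c₀ * (h * (K / (2 * c₀)))) := by field_simp
    rw [h3]
    have := mul_le_mul_of_nonneg_left h1 hc₀.le
    linarith only [this]
  obtain ⟨η₀, hη₀⟩ : ∃ η₀ : ℝ, η₀ = c₀ * δ ^ 3 := ⟨_, rfl⟩
  have hη0p : 0 < η₀ := by rw [hη₀]; positivity
  have hreal := hreal' δ hδ hδ1 η₀ hη₀.le
  by_cases hne : r k = 0
  · have h1 := gapn_cascade_zero hm hr.2.1 hr.1 hne lc k le_rfl
    rw [h1, gapn_lc_deriv2, one_pow, div_le_one (by positivity)]
    linarith
  have hrk : 0 < r k := lt_of_le_of_ne (hr.1 ▸ gapn_path_le hr.2.1 (Nat.zero_le k) le_rfl)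
    (Ne.symm hne)
  obtain ⟨j, F, hj1, hjk, hrj, hF, hcas, hup, hdown⟩ := first_block hb0 hm hr hmin hrk
  have hg : 0 < m j := gapn_exp_pos hm hj1 (by omega)
  have hgg : m j < m (j + 1) := hm.2.2 j hjk
  have hg'1 : m (j + 1) ≤ 1 := gapn_exp_le_one hm (by omega)
  have hg1 : m j ≤ 1 := hgg.le.trans hg'1
  have hg' : 0 < m (j + 1) := hg.trans hgg
  have hs : r j ≤ b ^ 2 := (gapn_path_le hr.2.1 hjk le_rfl).trans hr.2.2
  have hA := hF.adm
  rw [hcas, ← Mf_zero hA hg hg1 hrj.le]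
  refine hreal (r j) (Rf (m j) (m j) (r j) F) (Mf (m j) (r j) F) (M1f (m j) (r j) F)
    (M2f (m j) (r j) F) hrj hs (Rf_cont hA hg hg1 hg hg1) (Mf_cont hA hg hg1) (M1f_cont hA hg hg1)
    (fun τ hτ => Rf_hasDerivAt hA hg hg1 hτ) (fun τ hτ => Mf_hasDerivAt hA hg hg1 hτ)
    (fun τ hτ => M1f_hasDerivAt hA hg hg1 hτ)
    (fun τ hτ => gapn_M2f_nonneg hF hg hgg.le hg'1 hτ) ?_ (Rf_zero hA hg hg1 _ hrj.le) ?_ ?_
  · intro τ hτ
    refine (M1f_le hA hg hg1 hτ).trans ?_
    refine pow_le_pow_left₀ (by positivity) ?_ 2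
    refine mul_le_mul_of_nonneg_left ?_ hC0p.le
    exact Real.exp_le_exp.2 (by linarith only [hs])
  · rcases hdown with h | ⟨g₂, v, F₂, hg2, hg21, hv, hA2, ⟨c, hc⟩, hmin2⟩
    · refine (Rf_le_one hA hg hg1 hg ⟨hrj.le, le_rfl⟩).trans (le_of_eq ?_)
      rw [h, div_self (by positivity)]
    · rw [gapn_Rf_const hg.ne' hc]
      exact vari_down hb0 hA2 hg hg2 hg21 hrj hv hmin2
  · have h1 := vari_up hb0 hA hg hgg hg'1 hrj hup
    have h2 : ∫ τ in (0 : ℝ)..(r j), Rf (m (j + 1)) (m j) (r j) F τ ≤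
        ∫ τ in (0 : ℝ)..(r j), (Rf (m j) (m j) (r j) F τ + K * (m (j + 1) - m j) * τ) := by
      refine intervalIntegral.integral_mono_on hrj.le ?_ ?_ ?_
      · exact (Rf_cont hA hg hg1 hg' hg'1).intervalIntegrable_of_Icc hrj.le
      · exact ContinuousOn.intervalIntegrable_of_Icc hrj.le
          ((Rf_cont hA hg hg1 hg hg1).add (by fun_prop))
      · intro τ hτ
        exact htilt _ _ _ _ F hA hg hgg.le hg'1 hs τ hτ
    have h3 : ∫ τ in (0 : ℝ)..(r j), (Rf (m j) (m j) (r j) F τ + K * (m (j + 1) - m j) * τ) =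
        (∫ τ in (0 : ℝ)..(r j), Rf (m j) (m j) (r j) F τ)
          + K * (m (j + 1) - m j) * (r j ^ 2 / 2) := by
      rw [intervalIntegral.integral_add
        ((Rf_cont hA hg hg1 hg hg1).intervalIntegrable_of_Icc hrj.le)
        (ContinuousOn.intervalIntegrable_of_Icc hrj.le (by fun_prop)),
        intervalIntegral.integral_const_mul, integral_id]
      ring
    have h4 : K * (m (j + 1) - m j) ≤ 2 * η₀ := by
      have h5 := hinc j hjk
      have h6 : K * (m (j + 1) - m j) ≤ K * h := mul_le_mul_of_nonneg_left h5 hK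
      rw [hη₀]
      linarith only [h6, hKh]
    have h7 : K * (m (j + 1) - m j) * (r j ^ 2 / 2) ≤ η₀ * r j ^ 2 := by
      have := mul_le_mul_of_nonneg_right h4 (show 0 ≤ r j ^ 2 / 2 by positivity)
      linarith only [this]
    linarith only [h7, h3, h2, h1]

end Vale.Agent.P146.Pw2
end

section

/-! # P146, polynomial lower bound, Parisi side: the conclusion from `t1m` and `split_zero` -/

open MeasureTheory ProbabilityTheory Filter Topology Set

namespace Vale.Agent.P146.Pw2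

open Vale.Agent.P157.Par
open Vale.Agent.P146.Gap
open Vale.Agent.P146.Sk (chi PSK GoodPath trp)
open Vale.Agent.P166.F (Lam)

theorem t1f_trp (K : ℕ) (m q : ℕ → ℝ) :
    trp K m q 2 = 1 - ∑ l ∈ Finset.range (K + 1), (m (l + 1) - m l) * q l ^ 2 := by
  simp [trp, Vale.Agent.P146.Sk.hpow, Vale.Agent.P146.Sk.hm, sq]

/-- the dual inequality -/
theorem t1f_good {b : ℝ} (hb : 0 < b) {n : ℕ} {m r r' : ℕ → ℝ} (hm : Exponents n m)
    (hr : BPath b n r) (hr' : Path n r') : spinPart n m r'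
        + 1 / 2 * ∑ l ∈ Finset.range (n + 1), (m (l + 1) - m l) * r' l * spR n m r l
        + b ^ 2 / 4 * (1 - ∑ l ∈ Finset.range (n + 1), (m (l + 1) - m l) * spR n m r l ^ 2) ≤
      SKr b n m r := by
  have hp : ∀ l ∈ Finset.range (n + 1), 0 ≤ m (l + 1) - m l := fun l hl =>
    (sub_pos.2 (hm.2.2 l (Nat.lt_succ_iff.1 (Finset.mem_range.1 hl)))).le
  have ht := tangent_path hm hr.2.1 hr'
  have hamgm : ∑ l ∈ Finset.range (n + 1), (m (l + 1) - m l) * (r l * spR n m r l) / 2 ≤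
      ∑ l ∈ Finset.range (n + 1), ((m (l + 1) - m l) * r l ^ 2 / (4 * b ^ 2)
        + b ^ 2 / 4 * ((m (l + 1) - m l) * spR n m r l ^ 2)) := by
    refine Finset.sum_le_sum fun l hl => ?_
    have h5 : r l * spR n m r l / 2 ≤ r l ^ 2 / (4 * b ^ 2) + b ^ 2 / 4 * spR n m r l ^ 2 := by
      have h6 : 0 ≤ (r l / b - b * spR n m r l) ^ 2 := sq_nonneg _
      have h7 : (r l / b - b * spR n m r l) ^ 2 = r l ^ 2 / b ^ 2 - 2 * (r l * spR n m r l)
          + b ^ 2 * spR n m r l ^ 2 := by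
        field_simp
        ring
      have h8 : r l ^ 2 / (4 * b ^ 2) = r l ^ 2 / b ^ 2 / 4 := by
        field_simp
      rw [h8]
      linarith only [h7, h6]
    have := mul_le_mul_of_nonneg_left h5 (hp l hl)
    calc (m (l + 1) - m l) * (r l * spR n m r l) / 2
        = (m (l + 1) - m l) * (r l * spR n m r l / 2) := by ring
      _ ≤ _ := this
      _ = _ := by ring
  rw [Finset.sum_add_distrib, ← Finset.sum_div, ← Finset.sum_div, ← Finset.mul_sum] at hamgm
  have e1 : ∑ l ∈ Finset.range (n + 1), (m (l + 1) - m l) * spR n m r l * (r' l - r l) =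
      ∑ l ∈ Finset.range (n + 1), (m (l + 1) - m l) * r' l * spR n m r l -
        ∑ l ∈ Finset.range (n + 1), (m (l + 1) - m l) * (r l * spR n m r l) := by
    rw [← Finset.sum_sub_distrib]
    exact Finset.sum_congr rfl fun l _ => by ring
  rw [e1] at ht
  unfold SKr
  linarith

/-- `Λ(u) ≥ χ - u m_{L+1}`, `L` the last level with `q_L ≤ u` -/
theorem t1f_lam {n : ℕ} {m q : ℕ → ℝ} (hm : Exponents n m) (hq : ∀ l ≤ n, 0 ≤ q l) (hq0 : q 0 = 0)
    {u : ℝ} (hu : 0 ≤ u) : ∃ L ≤ n, q L ≤ u ∧ Sk.chi n m q - u * m (L + 1) ≤ Lam n m q u := by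
  classical
  have hp : ∀ l ∈ Finset.range (n + 1), 0 ≤ m (l + 1) - m l := fun l hl =>
    (sub_pos.2 (hm.2.2 l (Nat.lt_succ_iff.1 (Finset.mem_range.1 hl)))).le
  have hsum : ∑ l ∈ Finset.range (n + 1), (m (l + 1) - m l) = 1 := by
    rw [Finset.sum_range_sub, hm.2.1, hm.1, sub_zero]
  obtain ⟨L, hL⟩ : ∃ L, L = Nat.findGreatest (fun l => q l ≤ u) n := ⟨_, rfl⟩
  have hLn : L ≤ n := hL ▸ Nat.findGreatest_le n
  have hLu : q L ≤ u := by
    rw [hL]
    exact Nat.findGreatest_spec (P := fun l => q l ≤ u) (Nat.zero_le n) (by rw [hq0]; exact hu)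
  have hLg : ∀ l, L < l → l ≤ n → u < q l := fun l h1 h2 =>
    not_le.1 (Nat.findGreatest_is_greatest (P := fun l => q l ≤ u) (hL ▸ h1) h2)
  refine ⟨L, hLn, hLu, ?_⟩
  have e1 : Sk.chi n m q - Lam n m q u =
      ∑ l ∈ Finset.range (n + 1), (m (l + 1) - m l) * (u - q l + max (q l - u) 0) := by
    have e2 : ∑ l ∈ Finset.range (n + 1), (m (l + 1) - m l) * (u - q l + max (q l - u) 0) =
        (∑ l ∈ Finset.range (n + 1), (m (l + 1) - m l)) * u -
        ∑ l ∈ Finset.range (n + 1), (m (l + 1) - m l) * q l +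
        ∑ l ∈ Finset.range (n + 1), (m (l + 1) - m l) * max (q l - u) 0 := by
      rw [Finset.sum_mul, ← Finset.sum_sub_distrib, ← Finset.sum_add_distrib]
      exact Finset.sum_congr rfl fun l _ => by ring
    rw [e2, hsum]
    unfold Sk.chi Lam
    ring
  have h1 : ∑ l ∈ Finset.range (n + 1), (m (l + 1) - m l) * (u - q l + max (q l - u) 0) ≤
      ∑ l ∈ Finset.range (n + 1), if l ≤ L then (m (l + 1) - m l) * u else 0 := by
    refine Finset.sum_le_sum fun l hl => ?_
    have hln : l ≤ n := Nat.lt_succ_iff.1 (Finset.mem_range.1 hl)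
    split_ifs with h
    · refine mul_le_mul_of_nonneg_left ?_ (hp l hl)
      rcases le_total (q l) u with h2 | h2
      · rw [max_eq_right (by linarith only [h2])]
        linarith [hq l hln]
      · rw [max_eq_left (by linarith)]
        linarith
    · have h2 := hLg l (not_le.1 h) hln
      rw [max_eq_left (by linarith)]
      have : u - q l + (q l - u) = 0 := by ring
      rw [this, mul_zero]
  have h2 : (∑ l ∈ Finset.range (n + 1), if l ≤ L then (m (l + 1) - m l) * u else 0) =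
      u * m (L + 1) := by
    rw [← Finset.sum_filter]
    have e3 : (Finset.range (n + 1)).filter (fun l => l ≤ L) = Finset.range (L + 1) := by
      ext l
      simp only [Finset.mem_filter, Finset.mem_range]
      omega
    rw [e3, ← Finset.sum_mul, Finset.sum_range_sub, hm.1, sub_zero, mul_comm]
  linarith

theorem t1q_of {β : ℝ} (hβ : 1 < β)
    (hM : ∃ C : ℝ, 1 ≤ C ∧ ∀ t : ℝ, 0 < t → t ≤ 1 / C → ∀ (n : ℕ)
      (r : ℕ → ℝ), C ≤ ((n : ℝ) + 1) * t ^ 27 → IsMin β n (gm n) r →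
      ∀ L ≤ n, r L ≤ β ^ 2 * t ^ 8 → gm n (L + 1) ≤ C * t)
    (hS : ∃ C : ℝ, 1 ≤ C ∧ ∀ (n : ℕ) (r : ℕ → ℝ),
      IsMin β n (gm n) r →
      iteratedDeriv 2 (cascade (gm n) r n lc) 0 ^ 2 ≤ 1 / β ^ 2 + C / (n + 1)) :
    ∃ C : ℝ, 1 ≤ C ∧ ∀ t : ℝ, 0 < t → t ≤ 1 / C → ∀ n : ℕ,
    C ≤ ((n : ℝ) + 1) * t ^ 27 → ∀ (k : ℕ) (μ p : ℕ → ℝ), Exponents k μ → Path k p → p k ≤ 1 →
    ∃ q : ℕ → ℝ, Path n q ∧ q n ≤ 1 ∧ GoodPath β n (gm n) q (PSK β k μ p + C / (n + 1)) ∧
      β * Sk.chi n (gm n) q ≤ 1 + C / (n + 1) ∧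
      ∀ u ∈ Set.Icc (0 : ℝ) (t ^ 8), 1 - C * t ^ 9 ≤ β * Lam n (gm n) q u := by
  obtain ⟨C1, hC1, h1⟩ := hM
  obtain ⟨C2, hC2, h2⟩ := hS
  obtain ⟨C3, hC3, h3⟩ := gap_rate hβ
  have hβ0 : 0 < β := by linarith
  have hβ2 : 0 < β ^ 2 := by positivity
  have p1 : 0 < C2 * β ^ 2 := by positivity
  have p2 : 0 < β * C1 := by positivity
  obtain ⟨C, hC⟩ : ∃ C : ℝ, C = C1 + C3 + 2 * β ^ 2 + C2 * β ^ 2 + 1 + β * C1 := ⟨_, rfl⟩
  have hCC1 : C1 ≤ C := by rw [hC]; linarith
  have hCC3 : C3 ≤ C := by rw [hC]; linarith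
  have hCβ : 2 * β ^ 2 ≤ C := by rw [hC]; linarith
  have hCC2 : C2 * β ^ 2 ≤ C := by rw [hC]; linarith
  have hCu : 1 + β * C1 ≤ C := by rw [hC]; linarith
  have hC1' : 1 ≤ C := hC1.trans hCC1
  refine ⟨C, hC1', ?_⟩
  intro t ht htC n hn k μ p hμ hp hp1
  have hn0 : (0 : ℝ) < (n : ℝ) + 1 := by positivity
  have ht1 : t ≤ 1 := htC.trans (by
    rw [div_le_one (by linarith)]
    exact hC1')
  have htC1 : t ≤ 1 / C1 := htC.trans (one_div_le_one_div_of_le (by linarith) hCC1)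
  have hgm := gm_exponents n
  obtain ⟨r0, hr0, hS0⟩ := grid_bpath hβ0 n hμ hp hp1
  obtain ⟨r, hr, hmin⟩ := exists_min hβ0 hgm
  have hIs : IsMin β n (gm n) r := ⟨hr, hmin⟩
  have hfix := stat_fix hβ0 hgm hr hmin
  obtain ⟨q, hq⟩ : ∃ q : ℕ → ℝ, q = spR n (gm n) r := ⟨_, rfl⟩
  have hq0 : ∀ l ≤ n, 0 ≤ q l := fun l hl => by rw [hq]; exact spR_nonneg hgm hr.2.1 hl
  have hqz : q 0 = 0 := by rw [hq]; exact spR_zero hgm hr.2.1 hr.1
  have hp' : ∀ l ∈ Finset.range (n + 1), 0 ≤ gm n (l + 1) - gm n l := fun l hl =>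
    (sub_pos.2 (hgm.2.2 l (Nat.lt_succ_iff.1 (Finset.mem_range.1 hl)))).le
  have hchi : iteratedDeriv 2 (cascade (gm n) r n lc) 0 = Sk.chi n (gm n) q := by
    rw [second_deriv_eq hgm hr.2.1 hr.1, hq]
    rfl
  have hchi0 : 0 ≤ Sk.chi n (gm n) q := by
    unfold Sk.chi
    have h4 : ∑ l ∈ Finset.range (n + 1), (gm n (l + 1) - gm n l) * q l ≤
        ∑ l ∈ Finset.range (n + 1), (gm n (l + 1) - gm n l) := by
      refine Finset.sum_le_sum fun l hl => ?_
      have h5 := (spR_lt_one hgm hr.2.1 (Nat.lt_succ_iff.1 (Finset.mem_range.1 hl))).le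
      rw [← hq] at h5
      exact mul_le_of_le_one_right (hp' l hl) h5
    rw [Finset.sum_range_sub, hgm.2.1, hgm.1] at h4
    linarith only [h4]
  refine ⟨q, ⟨hq0 0 (Nat.zero_le _), fun l hl => ?_⟩, ?_, ?_, ?_, ?_⟩
  · rw [hq]
    exact spR_mono hgm hr.2.1 hl
  · rw [hq]
    exact (spR_lt_one hgm hr.2.1 le_rfl).le
  · intro r' hr'
    have h4 := t1f_good hβ0 hgm hr hr'
    have h5 := hmin r0 hr0
    rw [t1f_trp]
    have h6 : SKpar β k μ p = PSK β k μ p := rfl
    have h7 : 2 * β ^ 2 / ((n : ℝ) + 1) ≤ C / (n + 1) := div_le_div_of_nonneg_right hCβ hn0.le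
    rw [← hq] at h4
    linarith only [h7, h6, h5, h4, hS0]
  · have h4 := h2 n r hIs
    rw [hchi] at h4
    have h5 : (β * Sk.chi n (gm n) q) ^ 2 ≤ 1 + C / (n + 1) := by
      have h6 := mul_le_mul_of_nonneg_left h4 hβ2.le
      have e : β ^ 2 * (1 / β ^ 2 + C2 / (n + 1)) = 1 + C2 * β ^ 2 / (n + 1) := by
        field_simp
      rw [e] at h6
      have h7 : C2 * β ^ 2 / ((n : ℝ) + 1) ≤ C / (n + 1) := div_le_div_of_nonneg_right hCC2 hn0.le
      rw [mul_pow]
      linarith only [h7, h6]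
    rcases le_total (β * Sk.chi n (gm n) q) 1 with h6 | h6
    · have : 0 ≤ C / ((n : ℝ) + 1) := by (clear * - hC1'; positivity)
      linarith only [this, h6]
    · (by_contra nlg; linarith only [nlg, mul_nonneg (sub_nonneg.2 h6) (sub_nonneg.2 h6), mul_nonneg (sub_nonneg.2 ht1) (sub_nonneg.2 h6), mul_nonneg (sub_nonneg.2 ht1) (sub_nonneg.2 h5), mul_nonneg (le_of_lt (sub_pos.2 ht)) (sub_nonneg.2 h6), mul_nonneg (le_of_lt (sub_pos.2 ht)) (sub_nonneg.2 h5), mul_nonneg (le_of_lt (sub_pos.2 (not_le.1 nlg))) (sub_nonneg.2 ht1), mul_pos (sub_pos.2 (not_le.1 nlg)) (sub_pos.2 ht)])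
  · intro u hu
    obtain ⟨L, hL, hLu, hLam⟩ := t1f_lam hgm hq0 hqz hu.1
    have h4 : gm n (L + 1) ≤ C1 * t := by
      refine h1 t ht htC1 n r (hCC1.trans hn) hIs L hL ?_
      rw [hfix L hL, ← hq]
      exact mul_le_mul_of_nonneg_left (hLu.trans hu.2) hβ2.le
    have ht9 : 0 < t ^ 9 := by positivity
    have h5 : (1 - t ^ 9) / β ^ 2 ≤ Sk.chi n (gm n) q ^ 2 := by
      rw [← hchi]
      refine h3 n (gm n) r (1 / (n + 1)) (t ^ 9) hgm (fun l _ => (gm_sub n l).le) hIs ht9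
        (pow_le_one₀ ht.le ht1) ?_
      rw [mul_one_div, div_le_iff₀ hn0, ← pow_mul]
      norm_num only
      have := hCC3.trans hn
      linarith only [hn, hC, p2, p1, hβ2, hC1]
    have h6 : 1 - t ^ 9 ≤ (β * Sk.chi n (gm n) q) ^ 2 := by
      rw [div_le_iff₀ hβ2] at h5
      rw [mul_pow]
      linarith only [h5]
    have h7 : 1 - t ^ 9 ≤ β * Sk.chi n (gm n) q := by
      have h8 : 0 ≤ β * Sk.chi n (gm n) q := mul_nonneg hβ0.le hchi0
      rcases le_total (β * Sk.chi n (gm n) q) 1 with h9 | h9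
      · (by_contra nlg; linarith only [nlg, mul_nonneg (sub_nonneg.2 h8) (sub_nonneg.2 h9), mul_nonneg (sub_nonneg.2 h6) (sub_nonneg.2 h9), mul_nonneg (sub_nonneg.2 h6) (sub_nonneg.2 h8), mul_nonneg (le_of_lt (sub_pos.2 (not_le.1 nlg))) (sub_nonneg.2 ht1), mul_pos (sub_pos.2 (not_le.1 nlg)) (sub_pos.2 ht)])
      · linarith only [h9, ht9]
    have h8 : u * gm n (L + 1) ≤ C1 * t ^ 9 := by
      calc u * gm n (L + 1) ≤ t ^ 8 * (C1 * t) := mul_le_mul hu.2 h4 (grid_gm_nonneg _ _)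
            (by positivity)
        _ = C1 * t ^ 9 := by ring
    have h9 : β * Sk.chi n (gm n) q - β * (C1 * t ^ 9) ≤ β * Lam n (gm n) q u := by
      rw [← mul_sub]
      exact mul_le_mul_of_nonneg_left (by linarith only [h8, hLam]) hβ0.le
    have h10 : (1 + β * C1) * t ^ 9 ≤ C * t ^ 9 := mul_le_mul_of_nonneg_right hCu ht9.le
    have e : (1 + β * C1) * t ^ 9 = t ^ 9 + β * (C1 * t ^ 9) := by ring
    linarith only [h10, h9, h7]

end Vale.Agent.P146.Pw2
end
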