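import Vale.Agent.P146.Bdl.B6
import Vale.Agent.P146.Bdl.B4

set_option linter.all false

section

/-!
One step of the upper bound: the cost of one pattern at the optimal strengths.
-/

open MeasureTheory ProbabilityTheory Filter Topology

namespace Vale.Agent.P157.Lv

set_option linter.unusedSectionVars false

open Par (incr Path Exponents cascade gstep patternPart spinPart parisi topN lw)

section General

variable {ι X : Type} [Fintype ι] [DecidableEq ι] [Fintype X] [DecidableEq X] [Nonempty X]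
  {S : Sy ι X} {D : ι → (ι → ℝ) → X → ℝ} {N : ℕ} {φ : X → Fin N → ℝ} {zc : ℕ → Fin N → ι}
  {s : ℕ → ℝ}

/-- The path of the overlaps, the last value being replaced by `1`. -/
noncomputable def stR (S : Sy ι X) (φ : X → Fin N → ℝ) : ℕ → ℝ :=
  fun l => if l < S.K then S.Rl φ l else 1

lemma stR_last (S : Sy ι X) (φ : X → Fin N → ℝ) : stR S φ S.K = 1 := by
  simp [stR]

lemma st_mono (F : Fld S D φ zc s) {l : ℕ} (hl : l < S.K) : S.Rl φ l ≤ S.Rl φ (l + 1) := by
  have h := F.Rl_sub hl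
  have h2 : 0 ≤ 1 / N * S.Ex (fun z _ => ∑ i, (S.mg φ (l + 1) i z - S.mg φ l i z) ^ 2) := by
    rw [← Sy.Ex_const_mul, ← F.hreg.Ex_const 0]
    refine F.hreg.Ex_mono (Sy.Nh.fst (EG.const 0)) (Sy.Nh.fst (EG.const_mul _ (EG.sum _ fun i _ =>
      ((Fld.eg_mg F.hreg hl i).sub (Fld.eg_mg F.hreg hl.le i)).pow 2))) fun z _ => ?_
    have := F.N_pos
    positivity
  linarith only [h, h2]

lemma st_path (F : Fld S D φ zc s) : Path S.K (stR S φ) := by
  refine ⟨?_, fun l hl => ?_⟩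
  · unfold stR
    split_ifs with h
    · exact F.Rl_nonneg (Nat.zero_le _)
    · exact zero_le_one
  · unfold stR
    rw [if_pos hl]
    split_ifs with h
    · exact st_mono F hl
    · exact F.Rl_le_one hl.le

lemma st_le (F : Fld S D φ zc s) {l : ℕ} (hl : l ≤ S.K) : S.Rl φ l ≤ stR S φ l := by
  unfold stR
  split_ifs with h
  · exact le_rfl
  · exact F.Rl_le_one hl

lemma st_p_nonneg (hS : S.Reg) {l : ℕ} (hl : l ≤ S.K) : 0 ≤ S.p l :=
  sub_nonneg.2 (hS.mono l hl)

lemma st_sum_p (hS : S.Reg) : ∑ l ∈ Finset.range (S.K + 1), S.p l = 1 := by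
  unfold Sy.p
  rw [Finset.sum_range_sub, hS.mK, hS.m0, sub_zero]

/-- The total cost of the fluctuations of the overlaps. -/
lemma st_pair (F : Fld S D φ zc s) {δ E : ℝ} (hE : 0 ≤ E) (hδ : ∀ l ≤ S.K, S.p l ≤ δ)
    (hy : ∀ l < S.K, S.pairEx l (fun x x' => (Rov φ x x' - S.Rl φ l) ^ 2) ≤
      2 * (S.Rl φ (l + 1) - S.Rl φ l) + E) :
    ∑ l ∈ Finset.range (S.K + 1), S.p l * S.pairEx l (fun x x' => |Rov φ x x' - stR S φ l|) ≤
      √(2 * δ) + 2 * δ + √E := by
  have hS := F.hreg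
  have hp : ∀ l ≤ S.K, 0 ≤ S.p l := fun l hl => st_p_nonneg hS hl
  have hsum := st_sum_p hS
  have hδ0 : 0 ≤ δ := (hp S.K le_rfl).trans (hδ S.K le_rfl)
  rw [Finset.sum_range_succ] at hsum ⊢
  have hsum' : ∑ l ∈ Finset.range S.K, S.p l ≤ 1 := by
    have := hp S.K le_rfl
    linarith
  have hsum0 : 0 ≤ ∑ l ∈ Finset.range S.K, S.p l :=
    Finset.sum_nonneg fun l hl => hp l (Finset.mem_range.1 hl).le
  -- the last level
  have hlast : S.p S.K * S.pairEx S.K (fun x x' => |Rov φ x x' - stR S φ S.K|) ≤ 2 * δ := by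
    have h1 : S.pairEx S.K (fun x x' => |Rov φ x x' - stR S φ S.K|) ≤ 2 := by
      rw [← hS.pairEx_const le_rfl 2]
      refine hS.pairEx_mono le_rfl fun x x' => ?_
      have := abs_le.1 (F.abs_Rov_le x x')
      rw [stR_last, abs_le]
      constructor <;> linarith [this.1, this.2]
    have h0 := hp S.K le_rfl
    have hd := hδ S.K le_rfl
    calc S.p S.K * S.pairEx S.K (fun x x' => |Rov φ x x' - stR S φ S.K|) ≤ S.p S.K * 2 :=
          mul_le_mul_of_nonneg_left h1 h0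
      _ ≤ 2 * δ := by linarith
  -- one level
  have hone : ∀ l < S.K, S.pairEx l (fun x x' => |Rov φ x x' - stR S φ l|) ≤
      √(2 * (S.Rl φ (l + 1) - S.Rl φ l)) + √E := by
    intro l hl
    have e : stR S φ l = S.Rl φ l := by
      unfold stR
      rw [if_pos hl]
    rw [e]
    refine (hS.pairEx_abs_le hl.le (fun x x' => Rov φ x x' - S.Rl φ l)).trans ?_
    refine (Real.sqrt_le_sqrt (hy l hl)).trans ?_
    have h0 : 0 ≤ 2 * (S.Rl φ (l + 1) - S.Rl φ l) := by
      have := st_mono F hl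
      linarith
    rw [Real.sqrt_le_left (by positivity), add_sq, Real.sq_sqrt h0, Real.sq_sqrt hE]
    have := mul_nonneg (Real.sqrt_nonneg (2 * (S.Rl φ (l + 1) - S.Rl φ l))) (Real.sqrt_nonneg E)
    linarith
  have h1 : ∑ l ∈ Finset.range S.K, S.p l * S.pairEx l (fun x x' => |Rov φ x x' - stR S φ l|) ≤
      ∑ l ∈ Finset.range S.K, S.p l * √(2 * (S.Rl φ (l + 1) - S.Rl φ l)) +
        ∑ l ∈ Finset.range S.K, S.p l * √E := by
    rw [← Finset.sum_add_distrib]
    refine Finset.sum_le_sum fun l hl => ?_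
    rw [← mul_add]
    exact mul_le_mul_of_nonneg_left (hone l (Finset.mem_range.1 hl))
      (hp l (Finset.mem_range.1 hl).le)
  have h2 : ∑ l ∈ Finset.range S.K, S.p l * √E ≤ √E := by
    rw [← Finset.sum_mul]
    exact mul_le_of_le_one_left (Real.sqrt_nonneg _) hsum'
  have h3 : ∑ l ∈ Finset.range S.K, S.p l * √(2 * (S.Rl φ (l + 1) - S.Rl φ l)) ≤ √(2 * δ) := by
    have e : ∀ l ∈ Finset.range S.K, S.p l * √(2 * (S.Rl φ (l + 1) - S.Rl φ l)) =
        √(S.p l) * √(S.p l * (2 * (S.Rl φ (l + 1) - S.Rl φ l))) := by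
      intro l hl
      have h0 := hp l (Finset.mem_range.1 hl).le
      rw [Real.sqrt_mul h0, ← mul_assoc, Real.mul_self_sqrt h0]
    rw [Finset.sum_congr rfl e]
    have hd : ∀ l ∈ Finset.range S.K, 0 ≤ S.p l * (2 * (S.Rl φ (l + 1) - S.Rl φ l)) := by
      intro l hl
      have h0 := hp l (Finset.mem_range.1 hl).le
      have := st_mono F (Finset.mem_range.1 hl)
      exact mul_nonneg h0 (by linarith)
    have hcs := Finset.sum_mul_sq_le_sq_mul_sq (Finset.range S.K) (fun l => √(S.p l))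
      (fun l => √(S.p l * (2 * (S.Rl φ (l + 1) - S.Rl φ l))))
    have e1 : ∑ l ∈ Finset.range S.K, √(S.p l) ^ 2 = ∑ l ∈ Finset.range S.K, S.p l :=
      Finset.sum_congr rfl fun l hl => Real.sq_sqrt (hp l (Finset.mem_range.1 hl).le)
    have e2 : ∑ l ∈ Finset.range S.K, √(S.p l * (2 * (S.Rl φ (l + 1) - S.Rl φ l))) ^ 2 =
        ∑ l ∈ Finset.range S.K, S.p l * (2 * (S.Rl φ (l + 1) - S.Rl φ l)) :=
      Finset.sum_congr rfl fun l hl => Real.sq_sqrt (hd l hl)
    rw [e1, e2] at hcs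
    have e3 : ∑ l ∈ Finset.range S.K, S.p l * (2 * (S.Rl φ (l + 1) - S.Rl φ l)) ≤ 2 * δ := by
      have h5 : ∑ l ∈ Finset.range S.K, S.p l * (2 * (S.Rl φ (l + 1) - S.Rl φ l)) ≤
          ∑ l ∈ Finset.range S.K, δ * (2 * (S.Rl φ (l + 1) - S.Rl φ l)) := by
        refine Finset.sum_le_sum fun l hl => ?_
        have := st_mono F (Finset.mem_range.1 hl)
        exact mul_le_mul_of_nonneg_right (hδ l (Finset.mem_range.1 hl).le) (by linarith)
      have h6 : ∑ l ∈ Finset.range S.K, δ * (2 * (S.Rl φ (l + 1) - S.Rl φ l)) =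
          2 * δ * (S.Rl φ S.K - S.Rl φ 0) := by
        rw [← Finset.sum_range_sub (fun l => S.Rl φ l), Finset.mul_sum]
        refine Finset.sum_congr rfl fun l _ => ?_
        ring
      have h7 := F.Rl_le_one le_rfl
      have h8 := F.Rl_nonneg (Nat.zero_le S.K)
      rw [h6] at h5
      refine h5.trans ?_
      calc 2 * δ * (S.Rl φ S.K - S.Rl φ 0) ≤ 2 * δ * 1 :=
            mul_le_mul_of_nonneg_left (by linarith) (by linarith)
        _ = 2 * δ := mul_one _
    refine Real.le_sqrt_of_sq_le (hcs.trans ?_)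
    have e0 : 0 ≤ ∑ l ∈ Finset.range S.K, S.p l * (2 * (S.Rl φ (l + 1) - S.Rl φ l)) :=
      Finset.sum_nonneg hd
    calc (∑ l ∈ Finset.range S.K, S.p l) *
          ∑ l ∈ Finset.range S.K, S.p l * (2 * (S.Rl φ (l + 1) - S.Rl φ l)) ≤
          1 * ∑ l ∈ Finset.range S.K, S.p l * (2 * (S.Rl φ (l + 1) - S.Rl φ l)) :=
          mul_le_mul_of_nonneg_right hsum' e0
      _ ≤ 2 * δ := by linarith
  linarith

/-- The means of a concentrated observable in two systems with close energies. -/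
lemma st_mean (hS : S.Reg) {H' : (ι → ℝ) → X → ℝ} (hS' : (S.wH H').Reg) {B : ℝ}
    (hB : ∀ z x, |H' z x - S.H z x| ≤ B) {h : (ι → ℝ) → X → ℝ} (hh : Nh h) {c ε : ℝ}
    (hc : S.Ex (fun z x => |h z x - c|) ≤ ε) (hB0 : 0 ≤ B) (hε : 0 ≤ ε) :
    (S.wH H').Ex (fun z x => |h z x - c|) ≤ Real.exp (2 * B) * ε ∧
      |(S.wH H').Ex h - S.Ex h| ≤ 2 * Real.exp (2 * B) * ε := by
  have hn : Nh (fun z x => |h z x - c|) := Sy.Nh.abs (Sy.Nh.sub hh (Sy.Nh.fst (EG.const c)))
  have h1 : (S.wH H').Ex (fun z x => |h z x - c|) ≤ Real.exp (2 * B) * ε :=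
    (hS.Ex_pert_le hS' hB hn fun z x => abs_nonneg _).trans
      (mul_le_mul_of_nonneg_left hc (Real.exp_pos _).le)
  refine ⟨h1, ?_⟩
  have key : ∀ {S : Sy ι X}, S.Reg → |S.Ex h - c| ≤ S.Ex (fun z x => |h z x - c|) := by
    intro S hS
    have h2 := hS.abs_Ex_le (Sy.Nh.sub hh (Sy.Nh.fst (EG.const c)))
    rw [hS.Ex_sub hh (Sy.Nh.fst (EG.const c)), hS.Ex_const] at h2
    exact h2
  have h2 := abs_le.1 ((key hS).trans hc)
  have h3 := abs_le.1 ((key hS').trans h1)
  have h4 : (1 : ℝ) ≤ Real.exp (2 * B) := Real.one_le_exp (by linarith)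
  have h5 : ε ≤ Real.exp (2 * B) * ε := le_mul_of_one_le_left hε h4
  rw [abs_le]
  constructor <;> linarith [h2.1, h2.2, h3.1, h3.2]

end General

variable {X : Type} [Fintype X] [DecidableEq X] [Nonempty X] {A N K : ℕ}
  {m q : ℕ → ℝ} {f f' f'' : ℝ → ℝ} {B C₁ C₂ : ℝ} {u : X → ℝ} {φ : X → Fin N → ℝ}
  {s : ℕ → ℝ} {a : ℕ} {η : ℝ}

/-- The error of one step. -/
noncomputable def erS (B C₁ η σ π δ ε : ℝ) : ℝ :=
  1 / 2 * C₁ ^ 2 * (η + 2 * Real.exp (2 * B) * ε / σ) +
    1 / 2 * C₁ ^ 2 * Real.exp (6 * B) *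
      (√(2 * δ) + 2 * δ + √(20 * (Real.exp (2 * B) * ε) / (σ * π)))

/-- One pattern at the optimal strengths. -/
theorem opt_step (h : MD K m f f' f'' B C₁ C₂ u φ) (ha : a < A)
    (ho : IsOpt A K m q η f u φ (a + 1) s) (hq : Path K q) (hq1 : q K ≤ 1) (hη : 0 < η)
    {σ π δ ε : ℝ} (hσ : 0 < σ) (hπ : 0 < π) (hε : 0 ≤ ε) (hs : ∀ j ≤ K, σ ≤ s j)
    (hp : ∀ l ≤ K, π ≤ m (l + 1) - m l) (hd : ∀ l ≤ K, m (l + 1) - m l ≤ δ)
    (hc : ∀ j ≤ K, ∃ c : ℝ,
      (mdl A K m f u φ s (a + 1)).Ex (fun z x => |hz φ zco j z x - c|) ≤ ε) :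
    (mdl A K m f u φ s (a + 1)).fe - (mdl A K m f u φ s a).fe ≤
      patternPart f K m q + erS B C₁ η σ π δ ε := by
  have hB0 : 0 ≤ B := (abs_nonneg (f 0)).trans (h.hB 0)
  have hs0 : ∀ l ≤ K, 0 ≤ s l := fun l hl => (ho.pos l hl).le
  have F : Fld (mdl A K m f u φ s a) (enD f' φ s a) φ zco s := mdl_fld h hs0
  have F' : Fld (mdl A K m f u φ s (a + 1)) (enD f' φ s (a + 1)) φ zco s := mdl_fld h hs0
  have hn := mdl_new (s := s) h ha
  set S := mdl A K m f u φ s a with hSdef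
  set S' := mdl A K m f u φ s (a + 1) with hSdef'
  have hK : S.K = K := rfl
  have hK' : S'.K = K := rfl
  have hpS : ∀ l, S.p l = m (l + 1) - m l := fun l => rfl
  have hS := F.hreg
  have hS' := F'.hreg
  have eS' : S' = S.wH (fun z x => S.H z x + f (pf φ (gco (⟨a, ha⟩ : Fin A)) z x)) := mdl_succ ha
  -- the system `S` as a perturbation of `S'`
  have eS : S = S'.wH (fun z x => S.H z x) := by
    rw [eS']
    rfl
  have hdiff : ∀ z x, |S.H z x - S'.H z x| ≤ B := by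
    intro z x
    rw [eS']
    show |S.H z x - (S.H z x + f (pf φ (gco (⟨a, ha⟩ : Fin A)) z x))| ≤ B
    rw [sub_add_cancel_left, abs_neg]
    exact h.hB _
  have hSr : (S'.wH (fun z x => S.H z x)).Reg := by
    rw [← eS]
    exact hS
  have hzn : ∀ j, Nh (hz φ (zco (A := A) (N := N) (K := K)) j) := fun j => F.nh_hz j
  have hmean : ∀ j ≤ K, ∃ c : ℝ, S.Ex (fun z x => |hz φ zco j z x - c|) ≤ Real.exp (2 * B) * ε ∧
      |S.Ex (hz φ zco j) - S'.Ex (hz φ zco j)| ≤ 2 * Real.exp (2 * B) * ε := by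
    intro j hj
    obtain ⟨c, hc'⟩ := hc j hj
    have := st_mean hS' hSr hdiff (hzn j) hc' hB0 hε
    rw [← eS] at this
    exact ⟨c, this⟩
  -- the cost of the pattern
  have hR := st_path F
  have hR1 : stR S φ S.K = 1 := stR_last S φ
  have h1 := pattern_step F hn h.hf h.hB hR hR1
  have h2 : (S.wH fun z x => S.H z x + f (tf (yco (A := A) (N := N) (K := K)) S.K (stR S φ) z)).fe =
      S.fe + ∫ x, cascade S.m (stR S φ) S.K f (√(stR S φ 0) * x) ∂(gaussianReal 0 1) :=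
    fe_add_tree F.reg hn.yl hn.Dy hR h.hf.lip
  have h3 := patternPart_eq_of_one (k := K) (m := m) hR1 f
  have h4 : ∑ l ∈ Finset.range (S.K + 1), S.p l * S.pairEx l
      (fun x x' => |Rov φ x x' - stR S φ l|) ≤
      √(2 * δ) + 2 * δ + √(20 * (Real.exp (2 * B) * ε) / (σ * π)) := by
    refine st_pair F (by (clear * - hε hσ hπ; positivity)) hd fun l hl => ?_
    exact F.sync (by positivity) hσ hs hπ hp (fun l hl => (hmean l hl).imp fun c hc => hc.1) hl
  -- comparison of the paths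
  have h5 : patternPart f K m (stR S φ) ≤ patternPart f K m q +
      1 / 2 * C₁ ^ 2 * (η + 2 * Real.exp (2 * B) * ε / σ) := by
    refine pattern_schur h.hm hq hq1 hR hR1.le h.hf (by (clear * - hη hε hσ; positivity)) fun j hj => ?_
    obtain ⟨c, -, hc2⟩ := hmean j hj
    have e1 := F.Ex_hz hj
    have e2 := F'.Ex_hz hj
    have e3 := ho.tails h hj
    rw [e1, e2, ← mul_sub, sub_sub_sub_cancel_left, abs_mul, abs_of_nonneg (hs0 j hj)] at hc2
    have hsj := hs j hj
    have hsj0 := ho.pos j hj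
    have e4 : |∑ i ∈ Finset.Ico j (K + 1), (m (i + 1) - m i) * S'.Rl φ i -
        ∑ i ∈ Finset.Ico j (K + 1), (m (i + 1) - m i) * S.Rl φ i| ≤
        2 * Real.exp (2 * B) * ε / σ := by
      rw [le_div_iff₀ hσ, mul_comm _ σ]
      exact (mul_le_mul_of_nonneg_right hsj (abs_nonneg _)).trans hc2
    have e5 := (abs_le.1 e4).2
    have e6 : ∑ l ∈ Finset.Ico j (K + 1), (m (l + 1) - m l) * (S'.Rl φ l - q l) =
        ∑ l ∈ Finset.Ico j (K + 1), (m (l + 1) - m l) * S'.Rl φ l -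
          ∑ l ∈ Finset.Ico j (K + 1), (m (l + 1) - m l) * q l := by
      rw [← Finset.sum_sub_distrib]
      exact Finset.sum_congr rfl fun l _ => mul_sub _ _ _
    have e7 : ∑ l ∈ Finset.Ico j (K + 1), (m (l + 1) - m l) * S.Rl φ l -
          ∑ l ∈ Finset.Ico j (K + 1), (m (l + 1) - m l) * q l ≤
        ∑ l ∈ Finset.Ico j (K + 1), (m (l + 1) - m l) * (stR S φ l - q l) := by
      rw [← Finset.sum_sub_distrib]
      refine Finset.sum_le_sum fun l hl => ?_
      rw [← mul_sub]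
      have hlK : l ≤ K := by
        rw [Finset.mem_Ico] at hl
        omega
      refine mul_le_mul_of_nonneg_left ?_ (sub_nonneg.2 (hS.mono l hlK))
      exact sub_le_sub_right (st_le F hlK) _
    have e8 : 0 ≤ η / s j ^ 3 := by positivity
    rw [e6] at e3
    linarith only [e3, e5, e7, e8]
  have h6 : (S'.fe) = (S.wH fun z x => S.H z x + f (pf φ (gco (⟨a, ha⟩ : Fin A)) z x)).fe := by
    rw [← eS']
  have h7 : 1 / 2 * C₁ ^ 2 * Real.exp (6 * B) *
        ∑ l ∈ Finset.range (S.K + 1), S.p l * S.pairEx l (fun x x' => |Rov φ x x' - stR S φ l|) ≤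
      1 / 2 * C₁ ^ 2 * Real.exp (6 * B) *
      (√(2 * δ) + 2 * δ + √(20 * (Real.exp (2 * B) * ε) / (σ * π))) :=
    mul_le_mul_of_nonneg_left h4 (by (clear * -; positivity))
  have h8 : ∫ x, cascade S.m (stR S φ) S.K f (√(stR S φ 0) * x) ∂(gaussianReal 0 1) =
      patternPart f K m (stR S φ) := h3.symm
  rw [h2, h8, ← h6] at h1
  unfold erS
  linarith only [h7, h5, h1]

end Vale.Agent.P157.Lv
end

section

/-!
Refinement of the exponents: each level is split into `n` levels. Block averages of paths.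
-/

open MeasureTheory ProbabilityTheory Filter Topology

namespace Vale.Agent.P157.Lv

set_option linter.unusedSectionVars false

open Par (incr Path Exponents cascade gstep patternPart spinPart parisi)

/-- The refined exponents: `m' l = m (l / n) + ((l % n) / n) (m (l / n + 1) - m (l / n))`. -/
noncomputable def rfm (n : ℕ) (m : ℕ → ℝ) : ℕ → ℝ := fun l =>
  m (l / n) + ((l % n : ℕ) : ℝ) / n * (m (l / n + 1) - m (l / n))

/-- The refined path. -/
def rfp (n : ℕ) (q : ℕ → ℝ) : ℕ → ℝ := fun l => q (l / n)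

/-- The number of the last level: `(k + 1) n - 1`. -/
def rfk (n k : ℕ) : ℕ := (k + 1) * n - 1

/-- The block averages of a path. -/
noncomputable def bav (n : ℕ) (r : ℕ → ℝ) : ℕ → ℝ := fun b => 1 / n * ∑ i ∈ Finset.range n, r (b * n + i)

variable {n k : ℕ} {m q r : ℕ → ℝ}

/-- A step with increment zero does nothing. -/
lemma gstep_zero {m : ℝ} (hm : m ≠ 0) (F : ℝ → ℝ) : gstep m 0 F = F := by
  funext x
  unfold gstep
  simp only [Real.sqrt_zero, zero_mul, add_zero, integral_const, probReal_univ, one_smul,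
    Real.log_exp]
  field_simp

lemma rf_rfk_succ (hn : 0 < n) : rfk n k + 1 = (k + 1) * n := by
  unfold rfk
  have : 0 < (k + 1) * n := by positivity
  omega

lemma rf_div (b : ℕ) {i : ℕ} (hi : i < n) : (b * n + i) / n = b := by
  have hn : 0 < n := by omega
  rw [mul_comm, Nat.mul_add_div hn, Nat.div_eq_of_lt hi, add_zero]

lemma rf_mod (b : ℕ) {i : ℕ} (hi : i < n) : (b * n + i) % n = i := by
  rw [mul_comm, Nat.mul_add_mod, Nat.mod_eq_of_lt hi]

lemma rf_div_le (hn : 0 < n) {l : ℕ} (hl : l ≤ rfk n k) : l / n ≤ k := by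
  have h1 := rf_rfk_succ (k := k) hn
  have h2 : l / n < k + 1 := (Nat.div_lt_iff_lt_mul hn).2 (by omega)
  omega

lemma rf_decomp (hn : 0 < n) (l : ℕ) : ∃ b i, i < n ∧ l = b * n + i ∧ l / n = b := by
  refine ⟨l / n, l % n, Nat.mod_lt _ hn, ?_, rfl⟩
  have := Nat.div_add_mod l n
  rw [mul_comm] at this
  exact this.symm

lemma rf_rfm_block (b : ℕ) {i : ℕ} (hn : 0 < n) (hi : i ≤ n) :
    rfm n m (b * n + i) = m b + (i : ℝ) / n * (m (b + 1) - m b) := by
  have hn' : (n : ℝ) ≠ 0 := by exact_mod_cast hn.ne'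
  rcases hi.eq_or_lt with h | h
  · subst h
    have e : b * i + i = (b + 1) * i + 0 := by ring
    have h1 : (b * i + i) / i = b + 1 := by rw [e]; exact rf_div (b + 1) hn
    have h2 : (b * i + i) % i = 0 := by rw [e]; exact rf_mod (b + 1) hn
    unfold rfm
    rw [h1, h2]
    simp only [Nat.cast_zero, zero_div, zero_mul, add_zero]
    rw [div_self hn']
    ring
  · unfold rfm
    rw [rf_div b h, rf_mod b h]

lemma rf_sub_block (b : ℕ) {i : ℕ} (hi : i < n) :
    rfm n m (b * n + i + 1) - rfm n m (b * n + i) = 1 / n * (m (b + 1) - m b) := by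
  have hn : 0 < n := by omega
  have h1 := rf_rfm_block (m := m) b hn (i := i + 1) (by omega)
  have h2 := rf_rfm_block (m := m) b hn (i := i) hi.le
  rw [← add_assoc] at h1
  rw [h1, h2]
  push_cast
  ring

theorem rfm_sub (hn : 0 < n) (hm : Exponents k m) {l : ℕ} (hl : l ≤ rfk n k) :
    rfm n m (l + 1) - rfm n m l = 1 / n * (m (l / n + 1) - m (l / n)) := by
  obtain ⟨b, i, hi, hl1, hb⟩ := rf_decomp hn l
  rw [hb, hl1]
  exact rf_sub_block b hi

theorem rfm_exponents (hn : 0 < n) (hm : Exponents k m) : Exponents (rfk n k) (rfm n m) := by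
  refine ⟨?_, ?_, ?_⟩
  · have h := rf_rfm_block (m := m) 0 hn (i := 0) (by omega)
    simp only [zero_mul, add_zero, Nat.cast_zero, zero_div] at h
    rw [h]
    exact hm.1
  · have h := rf_rfm_block (m := m) (k + 1) hn (i := 0) (by omega)
    simp only [add_zero, Nat.cast_zero, zero_div, zero_mul] at h
    rw [rf_rfk_succ hn, h]
    exact hm.2.1
  · intro l hl
    have h1 := rfm_sub hn hm hl
    have h2 := hm.2.2 (l / n) (rf_div_le hn hl)
    have h3 : 0 < 1 / (n : ℝ) * (m (l / n + 1) - m (l / n)) := by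
      have : (0 : ℝ) < n := by exact_mod_cast hn
      have h4 : 0 < m (l / n + 1) - m (l / n) := by linarith
      positivity
    linarith

lemma rf_exp_nonneg (hm : Exponents k m) : ∀ j ≤ k + 1, 0 ≤ m j := by
  intro j
  induction j with
  | zero => intro _; exact hm.1.ge
  | succ j ih =>
    intro hj
    have h1 := ih (by omega)
    have h2 := hm.2.2 j (by omega)
    linarith

lemma rf_exp_le_one (hm : Exponents k m) : ∀ d ≤ k + 1, m (k + 1 - d) ≤ 1 := by
  intro d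
  induction d with
  | zero => intro _; exact hm.2.1.le
  | succ d ih =>
    intro hd
    have h1 := ih (by omega)
    have h2 := hm.2.2 (k + 1 - (d + 1)) (by omega)
    have e : k + 1 - (d + 1) + 1 = k + 1 - d := by omega
    rw [e] at h2
    linarith only [h2, h1]

theorem rfm_mesh (hn : 0 < n) (hm : Exponents k m) {l : ℕ} (hl : l ≤ rfk n k) :
    rfm n m (l + 1) - rfm n m l ≤ 1 / n := by
  rw [rfm_sub hn hm hl]
  have hb := rf_div_le hn hl
  generalize l / n = c at hb ⊢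
  have h1 := rf_exp_nonneg hm c (by omega)
  have h2 := rf_exp_le_one hm (k + 1 - (c + 1)) (by omega)
  have e : k + 1 - (k + 1 - (c + 1)) = c + 1 := by omega
  rw [e] at h2
  have hn' : (0 : ℝ) < n := by exact_mod_cast hn
  calc 1 / (n : ℝ) * (m (c + 1) - m c) ≤ 1 / (n : ℝ) * 1 :=
        mul_le_mul_of_nonneg_left (by linarith only [h2, h1]) (by positivity)
    _ = 1 / n := mul_one _

theorem rfp_path (hn : 0 < n) (hq : Path k q) : Path (rfk n k) (rfp n q) := by
  refine ⟨?_, ?_⟩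
  · unfold rfp
    rw [Nat.zero_div]
    exact hq.1
  · intro l hl
    unfold rfp
    have h1 : (l + 1) / n ≤ k := rf_div_le hn (by omega)
    rw [Nat.succ_div] at h1 ⊢
    split_ifs at h1 ⊢
    · exact hq.2 (l / n) (by omega)
    · exact le_rfl

theorem rfp_last (hn : 0 < n) : rfp n q (rfk n k) = q k := by
  unfold rfp
  have h1 : rfk n k = k * n + (n - 1) := by
    have h := rf_rfk_succ (k := k) hn
    have : (k + 1) * n = k * n + n := by ring
    omega
  rw [h1, rf_div k (by omega)]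

lemma rf_path_mono (hr : Path k r) : ∀ j d, j + d ≤ k → r j ≤ r (j + d) := by
  intro j d
  induction d with
  | zero => intro _; exact le_rfl
  | succ d ih =>
    intro h
    have h1 := ih (by omega)
    have h2 := hr.2 (j + d) (by omega)
    exact h1.trans h2

lemma rf_path_nonneg (hr : Path k r) {j : ℕ} (hj : j ≤ k) : 0 ≤ r j := by
  have h := rf_path_mono hr 0 j (by omega)
  rw [zero_add] at h
  exact hr.1.trans h

lemma rf_lt (hn : 0 < n) {b i : ℕ} (hb : b ≤ k) (hi : i < n) : b * n + i ≤ rfk n k := by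
  have h := rf_rfk_succ (k := k) hn
  have h2 : (b + 1) * n ≤ (k + 1) * n := Nat.mul_le_mul_right _ (by omega)
  have h3 : (b + 1) * n = b * n + n := by ring
  omega

theorem bav_path (hn : 0 < n) (hr : Path (rfk n k) r) : Path k (bav n r) := by
  have hn' : (0 : ℝ) < n := by exact_mod_cast hn
  refine ⟨?_, ?_⟩
  · unfold bav
    refine mul_nonneg (by positivity) (Finset.sum_nonneg fun i hi => ?_)
    rw [Finset.mem_range] at hi
    exact rf_path_nonneg hr (rf_lt hn (Nat.zero_le k) hi)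
  · intro b hb
    unfold bav
    refine mul_le_mul_of_nonneg_left (Finset.sum_le_sum fun i hi => ?_) (by positivity)
    rw [Finset.mem_range] at hi
    have e : (b + 1) * n + i = b * n + i + n := by ring
    have h1 : (b + 1) * n + i ≤ rfk n k := rf_lt hn (by omega) hi
    rw [e] at h1 ⊢
    exact rf_path_mono hr _ _ h1

lemma rf_rfm_ne (hn : 0 < n) (hm : Exponents k m) {l : ℕ} (h0 : 1 ≤ l) (hl : l ≤ rfk n k + 1) :
    rfm n m l ≠ 0 := by
  have he := rfm_exponents hn hm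
  have h1 := rf_exp_nonneg he (l - 1) (by omega)
  have h2 := he.2.2 (l - 1) (by omega)
  have e : l - 1 + 1 = l := by omega
  rw [e] at h2
  linarith only [h2, h1]

lemma rf_cascade (hn : 0 < n) (hm : Exponents k m) : ∀ b ≤ k, ∀ i < n, ∀ F : ℝ → ℝ,
    cascade (rfm n m) (rfp n q) (b * n + i) F = cascade m q b F := by
  have step : ∀ b ≤ k, (∀ F : ℝ → ℝ, cascade (rfm n m) (rfp n q) (b * n) F = cascade m q b F) →
      ∀ i < n, ∀ F : ℝ → ℝ, cascade (rfm n m) (rfp n q) (b * n + i) F = cascade m q b F := by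
    intro b hb h0 i
    induction i with
    | zero => intro _ F; exact h0 F
    | succ i ih =>
      intro hi F
      have e : b * n + (i + 1) = b * n + i + 1 := by ring
      rw [e, Par.cascade_succ_def]
      have e1 : rfp n q (b * n + i + 1) - rfp n q (b * n + i) = 0 := by
        unfold rfp
        rw [← e, rf_div b hi, rf_div b (by omega : i < n), sub_self]
      have h1 : b * n + (i + 1) ≤ rfk n k := rf_lt hn hb hi
      rw [e1, gstep_zero (rf_rfm_ne hn hm (by omega) (by omega))]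
      exact ih (by omega) F
  intro b
  induction b with
  | zero =>
    intro hb
    refine step 0 hb (fun F => ?_)
    rw [zero_mul]
    rfl
  | succ b ih =>
    intro hb
    refine step (b + 1) hb (fun F => ?_)
    have e : (b + 1) * n = b * n + (n - 1) + 1 := by
      have : (b + 1) * n = b * n + n := by ring
      omega
    rw [e, Par.cascade_succ_def, ih (by omega) (n - 1) (by omega), ← e,
      Par.cascade_succ_def m q b F]
    have e1 : rfm n m ((b + 1) * n) = m (b + 1) := by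
      have h := rf_rfm_block (m := m) (b + 1) hn (i := 0) (by omega)
      simp only [add_zero, Nat.cast_zero, zero_div, zero_mul] at h
      exact h
    have e2 : rfp n q ((b + 1) * n) = q (b + 1) := by
      unfold rfp
      rw [Nat.mul_div_cancel _ hn]
    have e3 : rfp n q (b * n + (n - 1)) = q b := by
      unfold rfp
      rw [rf_div b (by omega)]
    rw [e1, e2, e3]

lemma rf_cascade_top (hn : 0 < n) (hm : Exponents k m) (F : ℝ → ℝ) :
    cascade (rfm n m) (rfp n q) (rfk n k) F = cascade m q k F := by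
  have h1 : rfk n k = k * n + (n - 1) := by
    have h := rf_rfk_succ (k := k) hn
    have : (k + 1) * n = k * n + n := by ring
    omega
  rw [h1]
  exact rf_cascade hn hm k le_rfl (n - 1) (by omega) F

/-- The cascade does not change. -/
theorem patternPart_rf (hn : 0 < n) (hm : Exponents k m) (f : ℝ → ℝ) :
    patternPart f (rfk n k) (rfm n m) (rfp n q) = patternPart f k m q := by
  have h0 : rfp n q 0 = q 0 := by
    unfold rfp
    rw [Nat.zero_div]
  unfold patternPart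
  rw [rf_cascade_top hn hm, rfp_last hn, h0]

theorem spinPart_rf (hn : 0 < n) (hm : Exponents k m) :
    spinPart (rfk n k) (rfm n m) (rfp n r) = spinPart k m r := by
  have h0 : rfp n r 0 = r 0 := by
    unfold rfp
    rw [Nat.zero_div]
  unfold spinPart
  rw [rf_cascade_top hn hm, rfp_last hn, h0]

/-- tails of a nondecreasing sequence minus its average -/
lemma rf_tail_avg (hn : 0 < n) {s : ℕ → ℝ} (hs : ∀ i j, i ≤ j → j < n → s i ≤ s j) {i0 : ℕ}
    (hi0 : i0 < n) :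
    0 ≤ ∑ i ∈ Finset.Ico i0 n, (s i - 1 / n * ∑ j ∈ Finset.range n, s j) := by
  have hn' : (0 : ℝ) < n := by exact_mod_cast hn
  obtain ⟨c, hc⟩ : ∃ c, c = 1 / (n : ℝ) * ∑ j ∈ Finset.range n, s j := ⟨_, rfl⟩
  rw [← hc]
  by_cases h : c ≤ s i0
  · refine Finset.sum_nonneg fun i hi => ?_
    rw [Finset.mem_Ico] at hi
    have := hs i0 i hi.1 hi.2
    linarith
  · push Not at h
    have h0 : ∑ i ∈ Finset.range n, (s i - c) = 0 := by
      rw [Finset.sum_sub_distrib, Finset.sum_const, Finset.card_range, nsmul_eq_mul, hc]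
      field_simp
      ring
    have h1 : ∑ i ∈ Finset.range i0, (s i - c) + ∑ i ∈ Finset.Ico i0 n, (s i - c)
        = ∑ i ∈ Finset.range n, (s i - c) := Finset.sum_range_add_sum_Ico _ hi0.le
    have h2 : ∑ i ∈ Finset.range i0, (s i - c) ≤ 0 := by
      refine Finset.sum_nonpos fun i hi => ?_
      rw [Finset.mem_range] at hi
      have := hs i i0 hi.le hi0
      linarith
    linarith

lemma rf_shift (f : ℕ → ℝ) (a i0 : ℕ) :
    ∑ l ∈ Finset.Ico (a + i0) (a + n), f l = ∑ i ∈ Finset.Ico i0 n, f (a + i) := by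
  rw [add_comm a i0, add_comm a n, ← Finset.sum_Ico_add' f i0 n a]
  exact Finset.sum_congr rfl fun i _ => by rw [add_comm]

/-- The spin part of a path is at most the spin part of its block averages. Proof:
`spin_schur`, the tails of a nondecreasing sequence minus its average are nonnegative. -/
theorem spinPart_bav (hn : 0 < n) (hm : Exponents k m) (hr : Path (rfk n k) r) :
    spinPart (rfk n k) (rfm n m) r ≤ spinPart k m (bav n r) := by
  rw [← spinPart_rf hn hm]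
  refine spin_schur (rfm_exponents hn hm) (rfp_path hn (bav_path hn hr)) hr ?_
  have hn' : (0 : ℝ) < n := by exact_mod_cast hn
  obtain ⟨a, ha⟩ : ∃ a : ℕ → ℝ, a = fun l =>
    (rfm n m (l + 1) - rfm n m l) * (r l - rfp n (bav n r) l) := ⟨_, rfl⟩
  have hblk : ∀ b i, i < n → a (b * n + i) =
      1 / n * (m (b + 1) - m b) * (r (b * n + i) - bav n r b) := by
    intro b i hi
    rw [ha]
    simp only
    rw [rf_sub_block b hi]
    congr 2
    unfold rfp
    rw [rf_div b hi]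
  have hpart : ∀ b ≤ k, ∀ i0 < n, 0 ≤ ∑ l ∈ Finset.Ico (b * n + i0) (b * n + n), a l := by
    intro b hb i0 hi0
    rw [rf_shift a (b * n) i0]
    have h1 : ∑ i ∈ Finset.Ico i0 n, a (b * n + i) = 1 / n * (m (b + 1) - m b) *
        ∑ i ∈ Finset.Ico i0 n, (r (b * n + i) - bav n r b) := by
      rw [Finset.mul_sum]
      refine Finset.sum_congr rfl fun i hi => ?_
      rw [Finset.mem_Ico] at hi
      exact hblk b i hi.2
    rw [h1]
    have h2 := hm.2.2 b hb
    refine mul_nonneg (mul_nonneg (by positivity) (by linarith only [h2])) ?_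
    unfold bav
    refine rf_tail_avg hn (s := fun i => r (b * n + i)) (fun i j hij hj => ?_) hi0
    have h3 : b * n + j ≤ rfk n k := rf_lt hn hb hj
    have h4 := rf_path_mono hr (b * n + i) (j - i) (by omega)
    have e : b * n + i + (j - i) = b * n + j := by omega
    rw [e] at h4
    exact h4
  have hall : ∀ d ≤ k + 1, 0 ≤ ∑ l ∈ Finset.Ico ((k + 1 - d) * n) ((k + 1) * n), a l := by
    intro d
    induction d with
    | zero => intro _; simp
    | succ d ih =>
      intro hd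
      have h1 := ih (by omega)
      obtain ⟨b, hb⟩ : ∃ b, b = k + 1 - (d + 1) := ⟨_, rfl⟩
      have e : k + 1 - d = b + 1 := by omega
      rw [e] at h1
      rw [← hb]
      have h2 := hpart b (by omega) 0 hn
      have e2 : b * n + n = (b + 1) * n := by ring
      rw [add_zero, e2] at h2
      have h3 := Finset.sum_Ico_consecutive a (m := b * n) (n := (b + 1) * n)
        (k := (k + 1) * n) (Nat.mul_le_mul_right _ (by omega)) (Nat.mul_le_mul_right _ (by omega))
      rw [← h3]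
      linarith only [h2, h1]
  intro j hj
  obtain ⟨b, i0, hi0, hj1, hb⟩ := rf_decomp hn j
  have hbk : b ≤ k := by rw [← hb]; exact rf_div_le hn hj
  change 0 ≤ ∑ l ∈ Finset.Ico j (rfk n k + 1),
    (rfm n m (l + 1) - rfm n m l) * (r l - rfp n (bav n r) l)
  have e3 : ∑ l ∈ Finset.Ico j (rfk n k + 1),
      (rfm n m (l + 1) - rfm n m l) * (r l - rfp n (bav n r) l)
      = ∑ l ∈ Finset.Ico j ((k + 1) * n), a l := by
    rw [rf_rfk_succ hn, ha]
  rw [e3, hj1]
  have h2 := hpart b hbk i0 hi0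
  have h4 := hall (k + 1 - (b + 1)) (by omega)
  have e4 : k + 1 - (k + 1 - (b + 1)) = b + 1 := by omega
  rw [e4] at h4
  have e2 : b * n + n = (b + 1) * n := by ring
  rw [e2] at h2
  have h3 := Finset.sum_Ico_consecutive a (m := b * n + i0) (n := (b + 1) * n)
    (k := (k + 1) * n) (by rw [← e2]; omega) (Nat.mul_le_mul_right _ (by omega))
  rw [← h3]
  linarith only [h4, h2]

lemma rf_blk_sum (f : ℕ → ℝ) (K : ℕ) :
    ∑ l ∈ Finset.range (K * n), f l = ∑ b ∈ Finset.range K, ∑ i ∈ Finset.range n, f (b * n + i) := by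
  induction K with
  | zero => simp
  | succ K ih =>
    have e : (K + 1) * n = K * n + n := by ring
    rw [e, Finset.sum_range_add, ih, Finset.sum_range_succ]

/-- Sums against a block constant path. -/
theorem sum_bav (hn : 0 < n) (hm : Exponents k m) :
    ∑ l ∈ Finset.range (rfk n k + 1), (rfm n m (l + 1) - rfm n m l) * r l * rfp n q l =
      ∑ l ∈ Finset.range (k + 1), (m (l + 1) - m l) * bav n r l * q l := by
  rw [rf_rfk_succ hn, rf_blk_sum]
  refine Finset.sum_congr rfl fun b hb => ?_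
  have h1 : ∀ i ∈ Finset.range n, (rfm n m (b * n + i + 1) - rfm n m (b * n + i)) * r (b * n + i) *
      rfp n q (b * n + i) = (m (b + 1) - m b) * q b * (1 / n) * r (b * n + i) := by
    intro i hi
    rw [Finset.mem_range] at hi
    rw [rf_sub_block b hi]
    unfold rfp
    rw [rf_div b hi]
    ring
  rw [Finset.sum_congr rfl h1, ← Finset.mul_sum]
  unfold bav
  ring

end Vale.Agent.P157.Lv
end

section

/-!
The upper bound of the Parisi formula for smooth bounded potentials: assembly.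
-/

open MeasureTheory ProbabilityTheory Filter Topology

namespace Vale.Agent.P157.Lv

set_option linter.unusedSectionVars false

open Par (incr Path Exponents cascade gstep patternPart spinPart parisi topN lw)

/-- A small parameter. -/
lemma up_small {F : ℝ → ℝ} (hF : ContinuousAt F 0) (h0 : F 0 = 0) {ε : ℝ} (hε : 0 < ε) :
    ∃ x : ℝ, 0 < x ∧ x ≤ 1 ∧ F x ≤ ε := by
  have h1 : ∀ᶠ x in 𝓝 (0 : ℝ), F x < ε := by
    have := hF.tendsto
    rw [h0] at this
    exact this (gt_mem_nhds hε)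
  obtain ⟨r, hr, h2⟩ := Metric.eventually_nhds_iff.1 h1
  refine ⟨min (r / 2) 1, by positivity, min_le_right _ _, (h2 ?_).le⟩
  have h3 : min (r / 2) 1 ≤ r / 2 := min_le_left _ _
  have h4 : 0 < min (r / 2) 1 := by positivity
  rw [Real.dist_eq, sub_zero, abs_of_pos h4]
  linarith only [h3, h4]

/-- Positive increments are bounded below. -/
lemma up_inc {K : ℕ} {m : ℕ → ℝ} (hm : Exponents K m) :
    ∃ π : ℝ, 0 < π ∧ ∀ l ≤ K, π ≤ m (l + 1) - m l := by
  obtain ⟨l₀, h1, h2⟩ := Finset.exists_min_image (Finset.range (K + 1)) (fun l => m (l + 1) - m l)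
    ⟨0, by simp⟩
  refine ⟨m (l₀ + 1) - m l₀, ?_, fun l hl => h2 l (by simp; omega)⟩
  have := hm.2.2 l₀ (by simpa [Nat.lt_succ_iff] using h1)
  linarith

variable {X : Type} [Fintype X] [DecidableEq X] [Nonempty X] {A N K : ℕ}
  {m q : ℕ → ℝ} {f f' f'' : ℝ → ℝ} {B C₁ C₂ : ℝ} {u : X → ℝ} {φ : X → Fin N → ℝ}
  {s : ℕ → ℝ} {a : ℕ} {η : ℝ}

lemma Pen_ge (hη : 0 < η) (hs : ∀ j ≤ K, 0 < s j) :
    1 / 2 * ∑ j ∈ Finset.range (K + 1), aco K m q j * s j ^ 2 ≤ Pen K m q η s := by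
  unfold Pen
  rw [Finset.mul_sum]
  refine Finset.sum_le_sum fun j hj => ?_
  have hj' : j ≤ K := by simpa [Nat.lt_succ_iff] using hj
  have h1 : 0 < η / s j := div_pos hη (hs j hj')
  have h2 : 0 ≤ η * s j ^ 2 := by positivity
  linarith only [h2, h1]

lemma Pen_const_le (hm : Exponents K m) (hq : Path K q) {τ : ℝ} (hτ : 0 < τ) (hτ1 : τ ≤ 1) :
    Pen K m q (τ ^ 3) (fun _ => τ) ≤ 2 * (K + 1) * τ ^ 2 := by
  unfold Pen
  have : ∀ j ∈ Finset.range (K + 1),
      1 / 2 * (aco K m q j + τ ^ 3) * τ ^ 2 + τ ^ 3 / τ ≤ 2 * τ ^ 2 := by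
    intro j hj
    have hj' : j ≤ K := by simpa [Nat.lt_succ_iff] using hj
    have h1 := aco_le_one hm hq hj'
    have h2 : τ ^ 3 / τ = τ ^ 2 := by field_simp
    have h3 : τ ^ 3 ≤ 1 := pow_le_one₀ hτ.le hτ1
    rw [h2]
    have h4 : 0 ≤ τ ^ 2 := by positivity
    linarith only [mul_nonneg (sq_nonneg (1 * τ : ℝ)) (sub_nonneg.2 h3), mul_nonneg (sq_nonneg (1 * τ : ℝ)) (sub_nonneg.2 h1)]
  refine (Finset.sum_le_sum this).trans_eq ?_
  simp
  ring

/-- The chain of the optimal values. -/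
theorem chain_le (h : MD K m f f' f'' B C₁ C₂ u φ) (hη : 0 < η) {C e : ℝ}
    (hC : ∀ s : ℕ → ℝ, (∀ j ≤ K, 0 ≤ s j) → Fe A K m f u φ 0 s -
      1 / 2 * ∑ j ∈ Finset.range (K + 1), aco K m q j * s j ^ 2 ≤ C)
    (hstep : ∀ a < A, ∀ s, IsOpt A K m q η f u φ (a + 1) s →
      Fe A K m f u φ (a + 1) s - Fe A K m f u φ a s ≤ e) {a : ℕ} (ha : a ≤ A) :
    ∀ s : ℕ → ℝ, (∀ j ≤ K, 0 < s j) → Ob A K m q η f u φ a s ≤ C + a * e := by
  induction a with
  | zero =>
    intro s hs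
    have h1 := hC s fun j hj => (hs j hj).le
    have h2 := Pen_ge (m := m) (q := q) hη hs
    unfold Ob
    simp only [Nat.cast_zero, zero_mul, add_zero]
    linarith only [h1, h2]
  | succ a ih =>
    intro s hs
    obtain ⟨s', h'⟩ := exists_opt h hη ha hC
    have h1 := h'.max s hs
    have h2 := hstep a (by omega) s' h'
    have h3 := ih (by omega) s' h'.pos
    unfold Ob at h1 h3 ⊢
    push_cast
    linarith only [h1, h2, h3]

/-- The upper bound for given small parameters. -/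
theorem upper_param (h : MD K m f f' f'' B C₁ C₂ u φ) (hq : Path K q) (hq1 : q K ≤ 1)
    (hu : ∑ x, Real.exp (u x) = 1) {τ σ S₀ π δ α₀ Cb ε₁ t C : ℝ} (hτ : 0 < τ) (hτ1 : τ ≤ 1)
    (hB0 : 0 ≤ B) (hCb : 0 ≤ Cb) (hα : 0 ≤ α₀)
    (hσ : σ = τ ^ 3 / (Cb + 2 * α₀ * B + 3 * (K + 1))) (hS : S₀ = 1 / τ ^ 3 + 1 / σ ^ 2)
    (hπ : 0 < π) (hp : ∀ l ≤ K, π ≤ m (l + 1) - m l) (hδ : ∀ l ≤ K, m (l + 1) - m l ≤ δ)
    (hA : (A : ℝ) ≤ α₀ * N) (hCC : C ≤ Cb)
    (hC : ∀ s : ℕ → ℝ, (∀ j ≤ K, 0 ≤ s j) → Fe A K m f u φ 0 s -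
      1 / 2 * ∑ j ∈ Finset.range (K + 1), aco K m q j * s j ^ 2 ≤ C)
    (hε : 0 ≤ ε₁) (ht : 0 < t) (ht1 : t ≤ 1) (ht2 : t ≤ σ / 2)
    (herr : √((2 + 3 / σ ^ 3) / (m 1 * N)) + (2 + 3 / σ ^ 3) * t +
        4 * √(2 * (α₀ * C₁ ^ 2 + (S₀ + 1) ^ 2) / N) / t ≤ ε₁) :
    Fe A K m f u φ A (fun _ => 0) ≤ C + A / N * patternPart f K m q +
      α₀ * erS B C₁ (τ ^ 3) σ π δ ε₁ + 2 * (K + 1) * τ ^ 2 := by
  have hN : (0 : ℝ) < N := by exact_mod_cast h.N0
  have hη : 0 < τ ^ 3 := by positivity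
  have hη1 : τ ^ 3 ≤ 1 := pow_le_one₀ hτ.le hτ1
  have hden : 0 < Cb + 2 * α₀ * B + 3 * ((K : ℝ) + 1) := by (clear * - hCb hα hB0; positivity)
  have hσ0 : 0 < σ := by rw [hσ]; (clear * - hτ hCb hα hB0; positivity)
  have hδ0 : 0 ≤ δ := hπ.le.trans ((hp 0 (Nat.zero_le _)).trans (hδ 0 (Nat.zero_le _)))
  have hlow : ∀ a ≤ A, ∀ s, IsOpt A K m q (τ ^ 3) f u φ a s → ∀ j ≤ K, σ ≤ s j := by
    intro a ha s hs j hj
    have h1 := hs.lower h hq hq1 hη hη1 ha hu hC hj
    have h2 : (a : ℝ) * B / N ≤ α₀ * B := by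
      rw [div_le_iff₀ hN]
      have : (a : ℝ) ≤ α₀ * N := le_trans (by exact_mod_cast ha) hA
      linarith only [mul_nonneg (sub_nonneg.2 hB0) (sub_nonneg.2 this)]
    have h3 := hs.pos j hj
    rw [hσ, div_le_iff₀ hden]
    have h4 : C + 2 * ((a : ℝ) * B / N) + 3 * ((K : ℝ) + 1) ≤
        Cb + 2 * α₀ * B + 3 * ((K : ℝ) + 1) := by linarith only [hCC, h2]
    linarith only [mul_nonneg (le_of_lt (sub_pos.2 h3)) (sub_nonneg.2 h2), mul_nonneg (sub_nonneg.2 hCC) (le_of_lt (sub_pos.2 h3)), mul_nonneg (mul_self_nonneg (1 : ℝ)) (sub_nonneg.2 h1)]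
  have hstep : ∀ a < A, ∀ s, IsOpt A K m q (τ ^ 3) f u φ (a + 1) s →
      Fe A K m f u φ (a + 1) s - Fe A K m f u φ a s ≤
        (patternPart f K m q + erS B C₁ (τ ^ 3) σ π δ ε₁) / N := by
    intro a ha s hs
    have h1 := hlow (a + 1) (by omega) s hs
    have h2 : s 0 ≤ S₀ := by
      rw [hS]
      exact hs.upper h hq hq1 hη hσ0 (h1 0 (Nat.zero_le _))
    have h3 := opt_step h ha hs hq hq1 hη hσ0 hπ hε h1 hp hδ (fun j hj => by
      obtain ⟨c, hc⟩ := hs.conc h hq hq1 hη hη1 hσ0 h1 h2 hA hj ht ht1 ht2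
      exact ⟨c, hc.trans herr⟩)
    have h4 : Fe A K m f u φ (a + 1) s - Fe A K m f u φ a s =
        ((mdl A K m f u φ s (a + 1)).fe - (mdl A K m f u φ s a).fe) / N := by
      unfold Fe
      ring
    rw [h4]
    exact div_le_div_of_nonneg_right h3 hN.le
  have h1 := chain_le h hη hC hstep le_rfl (fun _ => τ) (fun _ _ => hτ)
  have h2 := Fe_zero_le (A := A) (a := A) h (fun _ => τ)
  have h3 := Pen_const_le h.hm hq hτ hτ1
  unfold Ob at h1
  have her : 0 ≤ erS B C₁ (τ ^ 3) σ π δ ε₁ := by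
    unfold erS
    (clear * - hτ hε hσ0 hδ0; positivity)
  have h4 : (A : ℝ) * ((patternPart f K m q + erS B C₁ (τ ^ 3) σ π δ ε₁) / N) ≤
      A / N * patternPart f K m q + α₀ * erS B C₁ (τ ^ 3) σ π δ ε₁ := by
    have h5 : (A : ℝ) / N ≤ α₀ := by rwa [div_le_iff₀ hN]
    have h6 : (A : ℝ) * ((patternPart f K m q + erS B C₁ (τ ^ 3) σ π δ ε₁) / N) =
      A / N * patternPart f K m q + A / N * erS B C₁ (τ ^ 3) σ π δ ε₁ := by
      field_simp
    rw [h6]
    linarith only [mul_le_mul_of_nonneg_right h5 her]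
  linarith only [h1, h2, h3, h4]

/-- **The upper bound, uniformly in the system.** -/
theorem upper_unif (hm : Exponents K m) (hq : Path K q) (hq1 : q K ≤ 1)
    (hf : Pot f f' f'' C₁ C₂) (hB : ∀ x, |f x| ≤ B) {δ : ℝ}
    (hδ : ∀ l ≤ K, m (l + 1) - m l ≤ δ) {α₀ Cb ε : ℝ} (hα : 0 ≤ α₀) (hε : 0 < ε) :
    ∃ N₀ : ℕ, ∀ N : ℕ, N₀ ≤ N → ∀ (X : Type) [Fintype X] [DecidableEq X] [Nonempty X]
      (u : X → ℝ) (φ : X → Fin N → ℝ), ∑ x, Real.exp (u x) = 1 → (∀ x, ∑ i, φ x i ^ 2 = N) →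
      ∀ A : ℕ, (A : ℝ) ≤ α₀ * N → ∀ C ≤ Cb, (∀ s : ℕ → ℝ, (∀ j ≤ K, 0 ≤ s j) →
        1 / N * topN m (fun l => ∑ j ∈ Finset.range (l + 1), s j ^ 2) K (lw φ 1 u) -
          1 / 2 * ∑ j ∈ Finset.range (K + 1), aco K m q j * s j ^ 2 ≤ C) →
        1 / N * ∫ g : Fin A → Fin N → ℝ,
          Real.log (∑ x, Real.exp (u x + ∑ b, f (1 / √(N : ℝ) * ∑ i, φ x i * g b i)))
            ∂(Measure.pi fun _ => Measure.pi fun _ => gaussianReal 0 1) ≤
          C + A / N * patternPart f K m q +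
            α₀ * (1 / 2 * C₁ ^ 2 * Real.exp (6 * B) * (√(2 * δ) + 2 * δ)) + ε := by
  have hB0 : 0 ≤ B := (abs_nonneg _).trans (hB 0)
  obtain ⟨π, hπ, hp⟩ := up_inc hm
  -- the parameter `τ`
  obtain ⟨τ, hτ, hτ1, hτ2⟩ := up_small (F := fun τ : ℝ =>
    α₀ * (1 / 2 * C₁ ^ 2 * τ ^ 3) + 2 * (K + 1) * τ ^ 2)
    (by fun_prop) (by simp) (ε := ε / 2) (by positivity)
  set Cb' : ℝ := max Cb 0 with hCb'
  have hCb0 : 0 ≤ Cb' := le_max_right _ _
  set σ : ℝ := τ ^ 3 / (Cb' + 2 * α₀ * B + 3 * (K + 1)) with hσ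
  have hσ0 : 0 < σ := by rw [hσ]; (clear * - hτ hα hB0; positivity)
  set S₀ : ℝ := 1 / τ ^ 3 + 1 / σ ^ 2 with hS
  -- the parameter `ε₁`
  obtain ⟨ε₁, hε₁, -, hε₂⟩ := up_small (F := fun x : ℝ =>
    α₀ * (1 / 2 * C₁ ^ 2 * (2 * Real.exp (2 * B) * x / σ) +
      1 / 2 * C₁ ^ 2 * Real.exp (6 * B) * √(20 * (Real.exp (2 * B) * x) / (σ * π))))
    (by fun_prop) (by simp) (ε := ε / 2) (by positivity)
  -- the parameter `t`
  obtain ⟨t, ht, ht1, ht2⟩ := up_small (F := fun t : ℝ => (2 + 3 / σ ^ 3) * t + 2 * t / σ)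
    (by fun_prop) (by simp) (ε := min (ε₁ / 2) 1) (by positivity)
  have ht3 : (2 + 3 / σ ^ 3) * t ≤ ε₁ / 2 := by
    have h1 : 0 ≤ 2 * t / σ := by positivity
    have h2 := min_le_left (ε₁ / 2) 1
    linarith only [ht2, h1, h2]
  have ht4 : t ≤ σ / 2 := by
    have h1 : 0 ≤ (2 + 3 / σ ^ 3) * t := by (clear * - hτ hα hB0 ht; positivity)
    have h2 := min_le_right (ε₁ / 2) 1
    have h3 : 2 * t / σ ≤ 1 := by linarith only [ht2, h1, h2]
    rw [div_le_one hσ0] at h3
    linarith only [h3]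
  -- the number `N`
  have hlim : Tendsto (fun N : ℕ => √((2 + 3 / σ ^ 3) / (m 1 * N)) +
      4 * √(2 * (α₀ * C₁ ^ 2 + (S₀ + 1) ^ 2) / N) / t) atTop (𝓝 0) := by
    have hN : Tendsto (fun N : ℕ => (N : ℝ)⁻¹) atTop (𝓝 0) :=
      tendsto_inv_atTop_zero.comp tendsto_natCast_atTop_atTop
    have h1 : Tendsto (fun N : ℕ => √((2 + 3 / σ ^ 3) / m 1 * (N : ℝ)⁻¹) +
      4 * √(2 * (α₀ * C₁ ^ 2 + (S₀ + 1) ^ 2) * (N : ℝ)⁻¹) / t) atTop
      (𝓝 (√((2 + 3 / σ ^ 3) / m 1 * 0) +
        4 * √(2 * (α₀ * C₁ ^ 2 + (S₀ + 1) ^ 2) * 0) / t)) :=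
      ((hN.const_mul _).sqrt).add ((((hN.const_mul _).sqrt).const_mul _).div_const _)
    simp only [mul_zero, Real.sqrt_zero, zero_div, add_zero] at h1
    refine h1.congr fun N => ?_
    have e1 : (2 + 3 / σ ^ 3) / (m 1 * (N : ℝ)) = (2 + 3 / σ ^ 3) / m 1 * (N : ℝ)⁻¹ := by
      rw [div_mul_eq_div_div, div_eq_mul_inv]
    have e2 : 2 * (α₀ * C₁ ^ 2 + (S₀ + 1) ^ 2) / (N : ℝ) =
        2 * (α₀ * C₁ ^ 2 + (S₀ + 1) ^ 2) * (N : ℝ)⁻¹ := div_eq_mul_inv _ _
    rw [e1, e2]
  obtain ⟨N₀, hN₀⟩ := eventually_atTop.1 (hlim.eventually (gt_mem_nhds (half_pos hε₁)))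
  refine ⟨max N₀ 1, fun N hN X _ _ _ u φ hu hφ A hA C hCC hC => ?_⟩
  have hN1 : 0 < N := lt_of_lt_of_le one_pos ((le_max_right _ _).trans hN)
  have hMD : MD K m f f' f'' B C₁ C₂ u φ := ⟨hm, hf, hB, hN1, hφ⟩
  have hC' : ∀ s : ℕ → ℝ, (∀ j ≤ K, 0 ≤ s j) → Fe A K m f u φ 0 s -
      1 / 2 * ∑ j ∈ Finset.range (K + 1), aco K m q j * s j ^ 2 ≤ C := by
    intro s hs
    rw [Fe_no_pattern hMD hs]
    exact hC s hs
  have herr := hN₀ N ((le_max_left _ _).trans hN)
  have key := upper_param (A := A) hMD hq hq1 hu hτ hτ1 hB0 hCb0 hα hσ hS hπ hp hδ hA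
    (hCC.trans (le_max_left _ _)) hC' hε₁.le ht ht1 ht4 (by linarith only [ht3, herr])
  rw [Fe_no_field hMD] at key
  refine key.trans ?_
  unfold erS
  linarith only [hτ2, hε₂]

/-- The mean pressure on the cube. -/
theorem meanPressure_cube_eq (f : ℝ → ℝ) (α : ℝ) (N : ℕ) :
    meanPressure cube α f N = 1 / N * ∫ g : Fin ⌊α * N⌋₊ → Fin N → ℝ,
      Real.log (∑ x : Fin N → Bool, Real.exp (-(N * Real.log 2) +
        ∑ b, f (1 / √(N : ℝ) * ∑ i, spin x i * g b i)))
        ∂(Measure.pi fun _ => Measure.pi fun _ => gaussianReal 0 1) := by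
  unfold meanPressure patterns
  rw [← integral_const_mul]
  refine integral_congr_ae (ae_of_all _ fun g => ?_)
  simp only
  unfold pressure
  rw [integral_cube, Finset.mul_sum]
  congr 2
  refine Finset.sum_congr rfl fun x _ => ?_
  rw [Real.exp_add]
  congr 1
  · rw [Real.exp_neg, mul_comm, Real.exp_mul, Real.exp_log (by norm_num), Real.rpow_natCast,
      one_div, inv_pow]
  · congr 1
    refine Finset.sum_congr rfl fun a _ => ?_
    congr 1
    rw [div_eq_inv_mul, one_div]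
    congr 1
    exact Finset.sum_congr rfl fun i _ => mul_comm _ _

/-- **The upper bound for smooth bounded potentials.** -/
theorem upper_smooth (hf : Pot f f' f'' C₁ C₂) (hB : ∀ x, |f x| ≤ B) {α : ℝ} (hα : 0 ≤ α) {k : ℕ}
    (hm : Exponents k m) (hq : Path k q) (hq1 : q k ≤ 1) {C : ℝ}
    (hC : ∀ r, Par.Path k r → parisi α f k m q r ≤ C) {ε : ℝ} (hε : 0 < ε) :
    ∀ᶠ N in atTop, meanPressure cube α f N ≤ C + ε := by
  obtain ⟨δ, hδ, -, hδ2⟩ := up_small (F := fun δ : ℝ =>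
    α * (1 / 2 * C₁ ^ 2 * Real.exp (6 * B) * (√(2 * δ) + 2 * δ))) (by fun_prop) (by simp)
    (ε := ε / 3) (by positivity)
  obtain ⟨n, hn⟩ := exists_nat_ge (1 / δ)
  have hn0 : (0 : ℝ) < n := (by positivity : (0 : ℝ) < 1 / δ).trans_le hn
  have hn1 : 0 < n := by exact_mod_cast hn0
  have hnδ : 1 / (n : ℝ) ≤ δ := by
    rw [div_le_iff₀ hn0]
    rw [div_le_iff₀ hδ] at hn
    linarith only [hn]
  set K := rfk n k with hK
  set m' := rfm n m with hm'
  set q' := rfp n q with hq'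
  set Ψ := patternPart f k m q with hΨ
  have hm1 : Exponents K m' := rfm_exponents hn1 hm
  obtain ⟨N₀, hN₀⟩ := upper_unif (q := q') hm1 (rfp_path hn1 hq)
    (by rw [hq', hK, rfp_last hn1]; exact hq1) hf hB
    (δ := δ) (fun l hl => (rfm_mesh hn1 hm hl).trans hnδ) (α₀ := α) (Cb := C - α * Ψ)
    (ε := ε / 3) hα (by positivity)
  obtain ⟨N₁, hN₁⟩ := exists_nat_ge (3 * |Ψ| / ε)
  filter_upwards [eventually_ge_atTop (max (max N₀ N₁) 1)] with N hN
  have hN2 : 0 < N := lt_of_lt_of_le one_pos ((le_max_right _ _).trans hN)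
  have hN3 : (0 : ℝ) < N := by exact_mod_cast hN2
  have hN4 : N₀ ≤ N := (le_max_left _ _).trans ((le_max_left _ _).trans hN)
  have hN5 : N₁ ≤ N := (le_max_right _ _).trans ((le_max_left _ _).trans hN)
  rw [meanPressure_cube_eq]
  have hA : ((⌊α * N⌋₊ : ℕ) : ℝ) ≤ α * N := Nat.floor_le (by positivity)
  have hu : ∑ _x : Fin N → Bool, Real.exp (-(N * Real.log 2)) = 1 := by
    rw [Finset.sum_const, Finset.card_univ, Fintype.card_fun, Fintype.card_bool, Fintype.card_fin,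
      nsmul_eq_mul, Real.exp_neg, mul_comm (N : ℝ), Real.exp_mul, Real.exp_log (by norm_num),
      Real.rpow_natCast]
    push_cast
    exact mul_inv_cancel₀ (by positivity)
  have hφ : ∀ x : Fin N → Bool, ∑ i, spin x i ^ 2 = N := by
    intro x
    simp [pow_two, spin_sq]
  have key := hN₀ N hN4 (Fin N → Bool) (fun _ => -(N * Real.log 2)) spin hu hφ ⌊α * N⌋₊ hA
    (C - α * Ψ) le_rfl (fun s hs => by
      rw [Par.topN_spin hm1, sum_aco]
      set r := fun l => ∑ j ∈ Finset.range (l + 1), s j ^ 2 with hr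
      have hrp : Par.Path K r := by
        refine ⟨by simp only [hr]; positivity, fun l hl => ?_⟩
        simp only [hr]
        rw [Finset.sum_range_succ _ (l + 1)]
        have := sq_nonneg (s (l + 1))
        linarith only [this]
      have h1 := spinPart_bav hn1 hm hrp
      have h2 := hC (bav n r) (bav_path hn1 hrp)
      have h3 := sum_bav (q := q) (r := r) hn1 hm
      unfold parisi at h2
      have h4 : ∑ j ∈ Finset.range (K + 1), s j ^ 2 = r K := rfl
      have h5 : ∀ l, ∑ j ∈ Finset.range (l + 1), s j ^ 2 = r l := fun l => rfl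
      simp only [h5]
      rw [h3]
      have h6 : 1 / (N : ℝ) * (N * (spinPart K m' r + r K / 2)) = spinPart K m' r + r K / 2 := by
        field_simp
      rw [h6]
      linarith only [h1, h2])
  refine key.trans ?_
  rw [hm', hq', hK, patternPart_rf hn1 hm, ← hΨ]
  have h1 : ((⌊α * N⌋₊ : ℕ) : ℝ) / N * Ψ ≤ α * Ψ + ε / 3 := by
    have h2 : |((⌊α * N⌋₊ : ℕ) : ℝ) / N - α| ≤ 1 / N := by
      have h3 := Nat.lt_floor_add_one (α * N)
      have e : ((⌊α * N⌋₊ : ℕ) : ℝ) / N - α = (((⌊α * N⌋₊ : ℕ) : ℝ) - α * N) / N := by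
        field_simp
      rw [e, abs_div, abs_of_pos hN3, div_le_div_iff_of_pos_right hN3, abs_le]
      constructor <;> linarith only [h3, hA]
    have h3 : (((⌊α * N⌋₊ : ℕ) : ℝ) / N - α) * Ψ ≤ 1 / N * |Ψ| :=
      (le_abs_self _).trans (by
        rw [abs_mul]
        exact mul_le_mul_of_nonneg_right h2 (abs_nonneg _))
    have h4 : 1 / (N : ℝ) * |Ψ| ≤ ε / 3 := by
      have h5 : 3 * |Ψ| / ε ≤ N := hN₁.trans (by exact_mod_cast hN5)
      rw [div_le_iff₀ hε] at h5
      rw [one_div, inv_mul_le_iff₀ hN3]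
      linarith only [h5]
    linarith only [h3, h4]
  linarith only [hδ2, h1]

end Vale.Agent.P157.Lv
end
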