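import Vale.Agent.P146.Bdl.B6
import Vale.Agent.P146.Bdl.B11
import Vale.Agent.P146.Defs
import Vale.Agent.P146.Bdl.B5
import Vale.Agent.P146.Bdl.B4
import Vale.Agent.P146.Bdl.B21
import Vale.Agent.P146.Bdl.B19

set_option linter.all false

section

/-!
LIN: linear Gaussian systems. The energy is `∑ a x e * z e + c`.
-/

open MeasureTheory ProbabilityTheory Filter Topology

namespace Vale.Agent.P146.Ub

set_option linter.unusedSectionVars false

open Vale.Agent.P157 Vale.Agent.P157.Lv Vale.Agent.P157.Lv.Sy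
open Vale.Agent.P157.Par (Path Exponents incr)

variable {ι X : Type} [Fintype ι] [DecidableEq ι] [Fintype X] [DecidableEq X] [Nonempty X]

/-- The linear system with the coefficients `a`. -/
noncomputable def ls (lev : ι → ℕ) (K : ℕ) (m : ℕ → ℝ) (c : ℝ) (a : X → ι → ℝ) : Sy ι X :=
  ⟨lev, K, m, fun z x => lin (a x) z + c⟩

/-- The covariance of two linear fields at the level `l`. -/
noncomputable def cv (lev : ι → ℕ) (l : ℕ) (a b : X → ι → ℝ) (x x' : X) : ℝ :=
  ∑ e, if lev e ≤ l then a x e * b x' e else 0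

variable {lev : ι → ℕ} {K : ℕ} {m : ℕ → ℝ} {c : ℝ} {a b α β : X → ι → ℝ}

theorem ls_regD (hm : Exponents K m) (hl : ∀ e, lev e ≤ K) (c : ℝ) (a : X → ι → ℝ) :
    (ls lev K m c a).RegD (fun e _ x => a x e) where
  m0 := hm.1
  mK := hm.2.1
  mono := fun l hl => (hm.2.2 l hl).le
  pos := by
    have h := hm.2.2 0 (Nat.zero_le _)
    rw [hm.1] at h
    exact h
  lev := hl
  lip := fun x => by
    refine ⟨∑ e, |a x e|, Finset.sum_nonneg fun e _ => abs_nonneg _, fun y y' => ?_⟩
    show |lin (a x) y + c - (lin (a x) y' + c)| ≤ _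
    rw [add_sub_add_right_eq_sub, li2_lin_sub]
    exact li2_lin (a x) (y - y')
  pd := fun e x => by
    have h := (lin_pd (a x) e).add (PD.const (e := e) c)
    exact h.congr fun _ => add_zero _
  md := fun e x => measurable_const
  bd := ⟨∑ x, ∑ e, |a x e|, fun e z x => by
    have h1 : |a x e| ≤ ∑ e, |a x e| :=
      Finset.single_le_sum (f := fun e => |a x e|) (fun e _ => abs_nonneg _) (Finset.mem_univ e)
    exact h1.trans (Finset.single_le_sum (f := fun x => ∑ e, |a x e|)
      (fun x _ => Finset.sum_nonneg fun e _ => abs_nonneg _) (Finset.mem_univ x))⟩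

/-- Two replicas. -/
theorem ls_pair {R : Sy ι X} (hR : R.Reg) {l : ℕ} (hl : l ≤ R.K) (u v : X → ℝ) :
    R.Ex (fun z x => u x * R.T l (fun _ x => v x) z) = R.pairEx l (fun x x' => u x * v x') := by
  have h1 : R.Ex (fun z x => u x * R.T l (fun _ x => v x) z) =
      R.Ex (fun z _ => R.T l (fun _ x => v x) z * R.T l (fun _ x => u x) z) := by
    rw [hR.Ex_mul_T hl (R.dep_T l _) (hR.eg_T hl (Nh.snd v)) (Nh.snd u)]
    congr 1
    funext z x
    ring
  rw [h1, pairEx]
  congr 1
  funext z _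
  rw [hR.T_pr hl, hR.T_pr hl, Finset.sum_mul_sum, Finset.sum_comm]
  refine Finset.sum_congr rfl fun x _ => Finset.sum_congr rfl fun x' _ => ?_
  ring

theorem ls_T_sq {R : Sy ι X} (hR : R.Reg) {l : ℕ} (hl : l ≤ R.K) (v : X → ℝ) :
    R.Ex (fun z _ => R.T l (fun _ x => v x) z ^ 2) = R.pairEx l (fun x x' => v x * v x') := by
  rw [← ls_pair hR hl]
  have h := hR.Ex_mul_T hl (R.dep_T l (fun _ x => v x)) (hR.eg_T hl (Nh.snd v)) (Nh.snd v)
  have e1 : (fun (z : ι → ℝ) (_ : X) => R.T l (fun _ x => v x) z ^ 2) =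
      fun z _ => R.T l (fun _ x => v x) z * R.T l (fun _ x => v x) z := by
    funext z _
    rw [pow_two]
  have e2 : (fun (z : ι → ℝ) (x : X) => v x * R.T l (fun _ x => v x) z) =
      fun z x => R.T l (fun _ x => v x) z * v x := by
    funext z x
    rw [mul_comm]
  rw [e1, e2, h]

theorem ls_pair_sum {R : Sy ι X} (hR : R.Reg) {l : ℕ} (hl : l ≤ R.K) {κ : Type} (s : Finset κ)
    (ψ : κ → X → X → ℝ) :
    R.pairEx l (fun x x' => ∑ i ∈ s, ψ i x x') = ∑ i ∈ s, R.pairEx l (ψ i) := by
  classical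
  induction s using Finset.induction_on with
  | empty => simpa using hR.pairEx_const hl 0
  | insert i s hi ih =>
    rw [Finset.sum_insert hi, ← ih, ← hR.pairEx_add hl]
    simp only [Finset.sum_insert hi]

/-- Integration by parts: the mean of a linear observable. -/
theorem ls_Ex_lin (hm : Exponents K m) (hl : ∀ e, lev e ≤ K) (c : ℝ) (a b : X → ι → ℝ) :
    (ls lev K m c a).Ex (fun z x => lin (b x) z) =
      (ls lev K m c a).Ex (fun _ x => ∑ e, b x e * a x e) -
      ∑ l ∈ Finset.range (K + 1), (m (l + 1) - m l) *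
        (ls lev K m c a).pairEx l (cv lev l b a) := by
  have hR := ls_regD hm hl c a
  obtain ⟨R, hRd⟩ : ∃ R, R = ls lev K m c a := ⟨_, rfl⟩
  rw [← hRd] at hR ⊢
  have hK : R.K = K := by rw [hRd]; rfl
  have hlv : R.lev = lev := by rw [hRd]; rfl
  have hp : ∀ l, R.p l = m (l + 1) - m l := fun l => by rw [hRd]; rfl
  have hT : ∀ e, ∀ l ∈ Finset.Ico (R.lev e) (R.K + 1),
      Nh fun (z : ι → ℝ) (x : X) => R.p l * (b x e * R.T l (fun _ x => a x e) z) := by
    intro e l hl'
    have := (Finset.mem_Ico.1 hl').2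
    exact Nh.const_mul _ (Nh.mul (Nh.snd fun x => b x e)
      (Nh.fst (hR.toReg.eg_T (by omega) (Nh.snd fun x => a x e))))
  have h1 : ∀ e, R.Ex (fun z x => z e * b x e) = R.Ex (fun _ x => b x e * a x e) -
      ∑ l ∈ Finset.range (K + 1), if lev e ≤ l then
        (m (l + 1) - m l) * R.pairEx l (fun x x' => b x e * a x' e) else 0 := by
    intro e
    rw [hR.ibp e (h := fun _ x => b x e) (h' := fun _ _ => 0) (fun x => PD.const _)
      (Nh.snd fun x => b x e) (fun _ => EG.const 0)]
    have e1 : (fun (z : ι → ℝ) (x : X) => (0 : ℝ) + b x e * (a x e -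
        ∑ l ∈ Finset.Ico (R.lev e) (R.K + 1), R.p l * R.T l (fun _ x => a x e) z)) =
        fun z x => b x e * a x e - ∑ l ∈ Finset.Ico (R.lev e) (R.K + 1),
          R.p l * (b x e * R.T l (fun _ x => a x e) z) := by
      funext z x
      rw [zero_add, mul_sub, Finset.mul_sum]
      congr 1
      refine Finset.sum_congr rfl fun l _ => ?_
      ring
    rw [e1, hR.toReg.Ex_sub (Nh.snd fun x => b x e * a x e) (Nh.sum _ (hT e)),
      hR.toReg.Ex_sum _ (hT e)]
    congr 1
    have e3 : Finset.Ico (R.lev e) (R.K + 1) =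
        (Finset.range (K + 1)).filter fun l => lev e ≤ l := by
      ext l
      simp only [Finset.mem_Ico, Finset.mem_filter, Finset.mem_range, hK, hlv]
      omega
    rw [← Finset.sum_filter, ← e3]
    refine Finset.sum_congr rfl fun l hl' => ?_
    have := (Finset.mem_Ico.1 hl').2
    rw [R.Ex_const_mul, hp, ls_pair hR.toReg (by omega) (fun x => b x e) (fun x => a x e)]
  have h2 : (fun (z : ι → ℝ) (x : X) => lin (b x) z) = fun z x => ∑ e, z e * b x e := by
    funext z x
    exact Finset.sum_congr rfl fun e _ => mul_comm _ _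
  have h3 : ∀ e ∈ (Finset.univ : Finset ι), Nh fun (z : ι → ℝ) (x : X) => z e * b x e :=
    fun e _ => Nh.mul (Nh.fst (EG.coord e)) (Nh.snd fun x => b x e)
  rw [h2, hR.toReg.Ex_sum _ h3]
  simp only [h1]
  rw [Finset.sum_sub_distrib, ← hR.toReg.Ex_sum _ (fun e _ => Nh.snd fun x => b x e * a x e),
    Finset.sum_comm]
  congr 1
  refine Finset.sum_congr rfl fun l hl' => ?_
  have hl'' : l ≤ R.K := by
    have := Finset.mem_range.1 hl'
    omega
  unfold cv
  rw [ls_pair_sum hR.toReg hl'', Finset.mul_sum]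
  refine Finset.sum_congr rfl fun e _ => ?_
  split_ifs
  · rfl
  · rw [hR.toReg.pairEx_const hl'', mul_zero]

theorem ls_wH (lev : ι → ℕ) (K : ℕ) (m : ℕ → ℝ) (c : ℝ) (a : X → ι → ℝ)
    (H : (ι → ℝ) → X → ℝ) (a' : X → ι → ℝ) (h : ∀ z x, H z x = lin (a' x) z + c) :
    (ls lev K m c a).wH H = ls lev K m c a' := by
  unfold Sy.wH ls
  congr 1
  funext z x
  exact h z x

theorem lin_add' (a b : ι → ℝ) (z : ι → ℝ) : lin (fun e => a e + b e) z = lin a z + lin b z := by
  unfold lin
  rw [← Finset.sum_add_distrib]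
  refine Finset.sum_congr rfl fun e _ => ?_
  ring

theorem lin_smul' (r : ℝ) (a : ι → ℝ) (z : ι → ℝ) : lin (fun e => r * a e) z = r * lin a z := by
  unfold lin
  rw [Finset.mul_sum]
  refine Finset.sum_congr rfl fun e _ => ?_
  ring

/-- Jensen. -/
theorem ls_jensen (hm : Exponents K m) (hl : ∀ e, lev e ≤ K) (c : ℝ) (a b : X → ι → ℝ) :
    (ls lev K m c a).Ex (fun z x => lin (b x) z) ≤
      (ls lev K m c (a + b)).fe - (ls lev K m c a).fe := by
  have hR := ls_regD hm hl c a
  have hR' := ls_regD hm hl c (a + b)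
  have e : (ls lev K m c a).wH (fun z x => lin ((a + b) x) z + c) = ls lev K m c (a + b) := rfl
  have h := hR.toReg.jensen (H' := fun z x => lin ((a + b) x) z + c) (by rw [e]; exact hR'.toReg)
  rw [e] at h
  have e1 : (fun (z : ι → ℝ) (x : X) => lin ((a + b) x) z + c - (ls lev K m c a).H z x) =
      fun z x => lin (b x) z := by
    funext z x
    show lin (fun e => a x e + b x e) z + c - (lin (a x) z + c) = _
    rw [lin_add']
    ring
  rwa [e1] at h

/-- An independent field increases the free energy. -/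
theorem ls_le_add (hm : Exponents K m) (hl : ∀ e, lev e ≤ K) (c : ℝ)
    (hab : ∀ e x x', b x e * a x' e = 0) :
    (ls lev K m c a).fe ≤ (ls lev K m c (a + b)).fe := by
  have hR := ls_regD hm hl c a
  have h := ls_jensen hm hl c a b
  rw [ls_Ex_lin hm hl c a b] at h
  have e1 : (fun (_ : ι → ℝ) (x : X) => ∑ e, b x e * a x e) = fun _ _ => 0 := by
    funext z x
    exact Finset.sum_eq_zero fun e _ => hab e x x
  have e2 : ∀ l, cv lev l b a = fun _ _ => 0 := by
    intro l
    funext x x'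
    unfold cv
    refine Finset.sum_eq_zero fun e _ => ?_
    rw [hab, ite_self]
  have e3 : ∑ l ∈ Finset.range (K + 1), (m (l + 1) - m l) *
        (ls lev K m c a).pairEx l (cv lev l b a) = 0 := by
    refine Finset.sum_eq_zero fun l hl' => ?_
    have hl'' : l ≤ (ls lev K m c a).K := by
      have := Finset.mem_range.1 hl'
      show l ≤ K
      omega
    rw [e2, hR.toReg.pairEx_const hl'', mul_zero]
  rw [e1, hR.toReg.Ex_const, e3, sub_zero] at h
  linarith

/-- The interpolated coefficients. -/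
noncomputable def ith (a α β : X → ι → ℝ) (θ : ℝ) : X → ι → ℝ :=
  fun x e => a x e + (Real.sin θ * α x e + Real.cos θ * β x e)

theorem lin_ith (a α β : X → ι → ℝ) (θ : ℝ) (x : X) (z : ι → ℝ) :
    lin (ith a α β θ x) z = lin (a x) z + itU α β θ z x := by
  unfold ith itU
  rw [lin_add', lin_add', lin_smul', lin_smul']

/-- **Interpolation** (`int_le` with `f = id`). -/
theorem ls_interp (hm : Exponents K m) (hl : ∀ e, lev e ≤ K) (c : ℝ)
    (hαβ : ∀ e x x', α x e * β x' e = 0) (hαa : ∀ e x x', α x e * a x' e = 0)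
    (hβa : ∀ e x x', β x e * a x' e = 0) {B : ℝ}
    (hB : ∀ θ, 0 ≤ θ → θ ≤ Real.pi / 2 →
      (ls lev K m c (ith a α β θ)).Ex (fun _ x => ∑ e, (α x e ^ 2 - β x e ^ 2)) -
        ∑ l ∈ Finset.range (K + 1), (m (l + 1) - m l) *
          (ls lev K m c (ith a α β θ)).pairEx l (fun x x' => cv lev l α α x x' - cv lev l β β x x')
      ≤ B) :
    (ls lev K m c (a + α)).fe - (ls lev K m c (a + β)).fe ≤ B / 2 := by
  have hR := ls_regD hm hl c a
  have hf : Pot (fun x : ℝ => x) (fun _ => 1) (fun _ => 0) 1 0 :=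
    ⟨fun x => hasDerivAt_id x, fun x => hasDerivAt_const x 1, fun _ => by simp, fun _ => by simp⟩
  have hs : Lv.Sep (fun e (_ : ι → ℝ) x => a x e) α β := by
    refine ⟨hαβ, fun e x h z y => ?_⟩
    rcases h with h | h
    · exact (mul_eq_zero.mp (hαa e x y)).resolve_left h
    · exact (mul_eq_zero.mp (hβa e x y)).resolve_left h
  have hw : ∀ θ, (ls lev K m c a).wH (it (ls lev K m c a).H (fun x : ℝ => x) α β θ) =
      ls lev K m c (ith a α β θ) := by
    intro θ
    refine ls_wH _ _ _ _ _ _ _ fun z x => ?_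
    rw [lin_ith]
    show lin (a x) z + c + itU α β θ z x = _
    ring
  have hb : ∀ θ, 0 ≤ θ → θ ≤ Real.pi / 2 →
      brk (ls lev K m c a) (fun x : ℝ => x) (fun _ => 1) (fun _ => 0) α β θ ≤ B := by
    intro θ h0 h1
    refine le_trans (le_of_eq ?_) (hB θ h0 h1)
    unfold brk
    rw [hw θ]
    have hRθ := ls_regD hm hl c (ith a α β θ)
    obtain ⟨R, hRd⟩ : ∃ R, R = ls lev K m c (ith a α β θ) := ⟨_, rfl⟩
    rw [← hRd] at hRθ ⊢
    have hK : R.K = K := by rw [hRd]; rfl
    congr 1
    · congr 1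
      funext z x
      rw [Finset.sum_sub_distrib]
      ring
    · show ∑ l ∈ Finset.range (K + 1), (m (l + 1) - m l) * _ = _
      refine Finset.sum_congr rfl fun l hl' => ?_
      have hl'' : l ≤ R.K := by
        have := Finset.mem_range.1 hl'
        omega
      congr 1
      have e1 : (fun x x' => cv lev l α α x x' - cv lev l β β x x') =
          fun x x' => ∑ e, if lev e ≤ l then α x e * α x' e - β x e * β x' e else 0 := by
        funext x x'
        unfold cv
        rw [← Finset.sum_sub_distrib]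
        refine Finset.sum_congr rfl fun e _ => ?_
        split_ifs
        · rfl
        · rw [sub_zero]
      rw [e1, ls_pair_sum hRθ.toReg hl'']
      refine Finset.sum_congr rfl fun e _ => ?_
      show (if lev e ≤ l then _ else (0 : ℝ)) = _
      split_ifs
      · simp only [one_mul]
        rw [ls_T_sq hRθ.toReg hl'' (fun x => α x e), ls_T_sq hRθ.toReg hl'' (fun x => β x e)]
        have h5 := hRθ.toReg.pairEx_add hl'' (fun x x' => α x e * α x' e)
          (fun x x' => -1 * (β x e * β x' e))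
        rw [hRθ.toReg.pairEx_const_mul l (-1)] at h5
        have e2 : (fun x x' => α x e * α x' e + -1 * (β x e * β x' e)) =
            fun x x' => α x e * α x' e - β x e * β x' e := by
          funext x x'
          ring
        rw [e2] at h5
        rw [h5]
        ring
      · rw [hRθ.toReg.pairEx_const hl'']
  have h := int_le hR hf hs hb
  rw [hw, hw] at h
  have e3 : ith a α β (Real.pi / 2) = a + α := by
    funext x e
    simp [ith]
  have e4 : ith a α β 0 = a + β := by
    funext x e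
    simp [ith]
  rwa [e3, e4] at h

/-- The upper bound for an independent field. -/
theorem ls_add_le (hm : Exponents K m) (hl : ∀ e, lev e ≤ K) (c : ℝ)
    (hab : ∀ e x x', b x e * a x' e = 0) {V : ℝ} (hV : ∀ x, ∑ e, b x e ^ 2 ≤ V) :
    (ls lev K m c (a + b)).fe ≤ (ls lev K m c a).fe + V / 2 := by
  have h := ls_interp (α := b) (β := 0) (a := a) (B := V) hm hl c (fun e x x' => by simp)
    hab (fun e x x' => by simp) ?_
  · rw [add_zero] at h
    linarith
  · intro θ h0 h1
    have hRθ := (ls_regD hm hl c (ith a b 0 θ)).toReg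
    have hK : (ls lev K m c (ith a b 0 θ)).K = K := rfl
    have e1 : (ls lev K m c (ith a b 0 θ)).Ex (fun _ x => ∑ e, (b x e ^ 2 -
        (0 : X → ι → ℝ) x e ^ 2)) ≤ V := by
      rw [← hRθ.Ex_const V]
      refine hRθ.Ex_mono (Nh.snd fun x => ∑ e, (b x e ^ 2 - (0 : X → ι → ℝ) x e ^ 2))
        (fun _ => EG.const V) fun z x => ?_
      simpa using hV x
    have e2 : 0 ≤ ∑ l ∈ Finset.range (K + 1), (m (l + 1) - m l) *
          (ls lev K m c (ith a b 0 θ)).pairEx l (fun x x' => cv lev l b b x x' -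
            cv lev l (0 : X → ι → ℝ) 0 x x') := by
      refine Finset.sum_nonneg fun l hl' => ?_
      have hl1 : l ≤ K := by
        have := Finset.mem_range.1 hl'
        omega
      refine mul_nonneg (by linarith [hm.2.2 l hl1]) ?_
      have e3 : (fun x x' => cv lev l b b x x' - cv lev l (0 : X → ι → ℝ) 0 x x') =
          fun x x' => ∑ e, if lev e ≤ l then b x e * b x' e else 0 := by
        funext x x'
        simp [cv]
      rw [e3, ls_pair_sum hRθ (by rw [hK]; exact hl1)]
      refine Finset.sum_nonneg fun e _ => ?_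
      split_ifs
      · rw [← ls_T_sq hRθ (by rw [hK]; exact hl1) (fun x => b x e), ← hRθ.Ex_const 0]
        exact hRθ.Ex_mono (fun _ => EG.const 0)
          (Nh.pow (Nh.fst (hRθ.eg_T (by rw [hK]; exact hl1) (Nh.snd fun x => b x e))) 2)
          fun z x => sq_nonneg _
      · rw [hRθ.pairEx_const (by rw [hK]; exact hl1)]
    linarith

/-- The variance of the free energy. -/
theorem ls_var (hm : Exponents K m) (hl : ∀ e, lev e ≤ K) (c : ℝ) {V : ℝ}
    (hV : ∀ x, ∑ e, (if lev e = 0 then a x e ^ 2 else 0) ≤ V) :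
    ∫ z, ((ls lev K m c a).lg 0 z - (ls lev K m c a).fe) ^ 2 ∂(gI ι) ≤ 2 * V :=
  (ls_regD hm hl c a).var_lg_zero fun _ x => hV x

end Vale.Agent.P146.Ub
end

section

/-!
(R): the SK systems with tree fields, all on the same Gaussian coordinates and the same
configurations `Fin n → Bool`. The stage `N ≤ n` uses the pairs `i < j < N` and the fields of the
sites `i < N`.
-/

open MeasureTheory ProbabilityTheory Filter Topology

namespace Vale.Agent.P146.Ub

open Vale.Agent.P157 Vale.Agent.P157.Lv Vale.Agent.P157.Lv.Sy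
open Vale.Agent.P157.Par (Path Exponents incr)
open Vale.Agent.P146 (Pair)

/-- The coordinates: the disorder, the fields and the cavity tree. -/
abbrev RI (n K : ℕ) : Type := Pair n ⊕ ((Fin (K + 1) × Fin n) ⊕ Fin (K + 1))

variable {n K : ℕ}

/-- The levels. -/
def rlev : RI n K → ℕ
  | Sum.inl _ => 0
  | Sum.inr (Sum.inl p) => p.1
  | Sum.inr (Sum.inr l) => l

/-- The spin at the site `N`. -/
noncomputable def sp (N : ℕ) (x : Fin n → Bool) : ℝ := if h : N < n then spin x ⟨N, h⟩ else 0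

/-- The disorder of the pairs `i < j < M`, with the factor `γ`. -/
noncomputable def dsk (M : ℕ) (γ : ℝ) : (Fin n → Bool) → RI n K → ℝ
  | x, Sum.inl p => if (p.1.2 : ℕ) < M then γ * (spin x p.1.1 * spin x p.1.2) else 0
  | _, Sum.inr _ => 0

/-- The fields of the sites `i < N`. -/
noncomputable def fd (N : ℕ) (s : ℕ → ℝ) : (Fin n → Bool) → RI n K → ℝ
  | _, Sum.inl _ => 0
  | x, Sum.inr (Sum.inl p) => if (p.2 : ℕ) < N then s p.1 * spin x p.2 else 0
  | _, Sum.inr (Sum.inr _) => 0

/-- The field of the site `N`. -/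
noncomputable def nfd (N : ℕ) (s : ℕ → ℝ) : (Fin n → Bool) → RI n K → ℝ
  | _, Sum.inl _ => 0
  | x, Sum.inr (Sum.inl p) => if (p.2 : ℕ) = N then s p.1 * spin x p.2 else 0
  | _, Sum.inr (Sum.inr _) => 0

/-- The disorder of the pairs `i < N`, `j = N`, with the factor `γ`. -/
noncomputable def cav (N : ℕ) (γ : ℝ) : (Fin n → Bool) → RI n K → ℝ
  | x, Sum.inl p => if (p.1.2 : ℕ) = N then γ * (spin x p.1.1 * spin x p.1.2) else 0
  | _, Sum.inr _ => 0

/-- The tree field with the path `R` acting on the spin `N`, with the factor `γ`. -/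
noncomputable def tre (N : ℕ) (γ : ℝ) (R : ℕ → ℝ) : (Fin n → Bool) → RI n K → ℝ
  | _, Sum.inl _ => 0
  | _, Sum.inr (Sum.inl _) => 0
  | x, Sum.inr (Sum.inr l) => γ * √(incr R l) * sp N x

section eqs

variable (M N : ℕ) (γ : ℝ) (s R : ℕ → ℝ) (x : Fin n → Bool)

theorem dsk_a (p : Pair n) : dsk (K := K) M γ x (Sum.inl p) =
    if (p.1.2 : ℕ) < M then γ * (spin x p.1.1 * spin x p.1.2) else 0 := rfl

theorem dsk_b (e : (Fin (K + 1) × Fin n) ⊕ Fin (K + 1)) : dsk M γ x (Sum.inr e) = 0 := rfl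

theorem fd_a (p : Pair n) : fd (K := K) N s x (Sum.inl p) = 0 := rfl

theorem fd_b (p : Fin (K + 1) × Fin n) : fd N s x (Sum.inr (Sum.inl p)) =
    if (p.2 : ℕ) < N then s p.1 * spin x p.2 else 0 := rfl

theorem fd_c (l : Fin (K + 1)) : fd N s x (Sum.inr (Sum.inr l)) = 0 := rfl

theorem nfd_a (p : Pair n) : nfd (K := K) N s x (Sum.inl p) = 0 := rfl

theorem nfd_b (p : Fin (K + 1) × Fin n) : nfd N s x (Sum.inr (Sum.inl p)) =
    if (p.2 : ℕ) = N then s p.1 * spin x p.2 else 0 := rfl

theorem nfd_c (l : Fin (K + 1)) : nfd N s x (Sum.inr (Sum.inr l)) = 0 := rfl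

theorem cav_a (p : Pair n) : cav (K := K) N γ x (Sum.inl p) =
    if (p.1.2 : ℕ) = N then γ * (spin x p.1.1 * spin x p.1.2) else 0 := rfl

theorem cav_b (e : (Fin (K + 1) × Fin n) ⊕ Fin (K + 1)) : cav N γ x (Sum.inr e) = 0 := rfl

theorem tre_a (p : Pair n) : tre (K := K) N γ R x (Sum.inl p) = 0 := rfl

theorem tre_b (p : Fin (K + 1) × Fin n) : tre N γ R x (Sum.inr (Sum.inl p)) = 0 := rfl

theorem tre_c (l : Fin (K + 1)) : tre N γ R x (Sum.inr (Sum.inr l)) =
    γ * √(incr R l) * sp N x := rfl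

end eqs

/-- The additive constant. -/
noncomputable def lc (n : ℕ) : ℝ := -(n * Real.log 2)

/-- The coefficients of the stage `N` with the fields `s`. -/
noncomputable def st (β : ℝ) (N : ℕ) (s : ℕ → ℝ) : (Fin n → Bool) → RI n K → ℝ :=
  dsk N (β / √N) + fd N s

/-- The same with the temperature of the stage `N + 1`. -/
noncomputable def sc (β : ℝ) (N : ℕ) (s : ℕ → ℝ) : (Fin n → Bool) → RI n K → ℝ :=
  dsk N (β / √((N + 1 : ℕ) : ℝ)) + fd N s

/-- The systems. -/
noncomputable def SN (n : ℕ) (K : ℕ) (m : ℕ → ℝ) (β : ℝ) (N : ℕ) (s : ℕ → ℝ) :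
    Sy (RI n K) (Fin n → Bool) := ls rlev K m (lc n) (st β N s)

/-- The coefficients of the interpolating systems. -/
noncomputable def tc (β : ℝ) (N : ℕ) (s R : ℕ → ℝ) (θ : ℝ) : (Fin n → Bool) → RI n K → ℝ :=
  ith (sc β N s) (tre N β R) (cav N (β / √((N + 1 : ℕ) : ℝ))) θ

noncomputable def SC (n : ℕ) (K : ℕ) (m : ℕ → ℝ) (β : ℝ) (N : ℕ) (s : ℕ → ℝ) :
    Sy (RI n K) (Fin n → Bool) := ls rlev K m (lc n) (sc β N s)

/-- The interpolating systems: tree field at `θ = π / 2`, cavity field at `θ = 0`. -/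
noncomputable def ST (n : ℕ) (K : ℕ) (m : ℕ → ℝ) (β : ℝ) (N : ℕ) (s R : ℕ → ℝ) (θ : ℝ) :
    Sy (RI n K) (Fin n → Bool) := ls rlev K m (lc n) (tc β N s R θ)

/-- The free energy of the stage `N`. -/
noncomputable def AN (n : ℕ) (K : ℕ) (m : ℕ → ℝ) (β : ℝ) (N : ℕ) (s : ℕ → ℝ) : ℝ :=
  (SN n K m β N s).fe

/-- The spins of the first `N` sites. -/
noncomputable def ph {N : ℕ} (hN : N ≤ n) (x : Fin n → Bool) (i : Fin N) : ℝ :=
  spin x (Fin.castLE hN i)

/-- The coordinates of the fields. -/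
def zc {N : ℕ} (hN : N ≤ n) (l : ℕ) (i : Fin N) : RI n K :=
  Sum.inr (Sum.inl (Fin.ofNat (K + 1) l, Fin.castLE hN i))

/-- The second differences of the free energy in the strength `j`. -/
noncomputable def dl (n : ℕ) (K : ℕ) (m : ℕ → ℝ) (β : ℝ) (N : ℕ) (s : ℕ → ℝ) (t : ℝ) (j : ℕ) : ℝ :=
  AN n K m β N (Function.update s j (s j + t)) + AN n K m β N (Function.update s j (s j - t)) -
    2 * AN n K m β N s

/-- The error of the concentration of the field `j`. -/
noncomputable def ej (n : ℕ) (K : ℕ) (m : ℕ → ℝ) (β : ℝ) (N : ℕ) (s : ℕ → ℝ) (t : ℝ) (j : ℕ) : ℝ :=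
  1 / (N * t) * (2 * dl n K m β N s t j + 3 * β ^ 2 + Real.log 2 / m 1 +
    3 * √(2 * ((2 * β ^ 2 + 4) * N)))

/-- The sum of the errors. -/
noncomputable def ee (n : ℕ) (K : ℕ) (m : ℕ → ℝ) (β : ℝ) (N : ℕ) (s : ℕ → ℝ) (t : ℝ) : ℝ :=
  ∑ j ∈ Finset.range (K + 1), ej n K m β N s t j

/-- The exponents `l / (K + 1)`. -/
noncomputable def me (K : ℕ) : ℕ → ℝ := fun l => l / (K + 1 : ℕ)

/-- The total error of the overlaps as a function of `ε = ee`, at the strengths at least `σ`. -/
noncomputable def wE (K : ℕ) (σ ε : ℝ) : ℝ :=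
  √(2 / (K + 1 : ℕ)) + 2 / (K + 1 : ℕ) + √(20 * ε * (K + 1 : ℕ) / σ) + 2 * (K + 1 : ℕ) * ε / σ

theorem me_exp (K : ℕ) : Exponents K (me K) := by
  refine ⟨by simp [me], ?_, fun l _ => ?_⟩
  · unfold me
    exact div_self (by positivity)
  · unfold me
    have : (0 : ℝ) < ((K + 1 : ℕ) : ℝ) := by positivity
    push_cast
    gcongr
    linarith

theorem rlev_le (e : RI n K) : rlev e ≤ K := by
  rcases e with p | p | l
  · exact Nat.zero_le _
  · exact Nat.le_of_lt_succ p.1.2
  · exact Nat.le_of_lt_succ l.2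

end Vale.Agent.P146.Ub
end

section

/-!
(R), module REG, second half: covariances and disjointness of the coordinates.
-/

open MeasureTheory ProbabilityTheory Filter Topology

namespace Vale.Agent.P146.Ub

set_option linter.all false

open Vale.Agent.P157 Vale.Agent.P157.Lv Vale.Agent.P157.Lv.Sy
open Vale.Agent.P157.Par (Path Exponents incr)
open Vale.Agent.P146 (Pair)

variable {n K N : ℕ} {m s R : ℕ → ℝ} {β θ : ℝ}

theorem rc_spin_sq (x : Fin n → Bool) (i : Fin n) : spin x i * spin x i = 1 := by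
  unfold spin
  split_ifs <;> norm_num

theorem rc_sum_lt (hN : N ≤ n) (f : Fin n → ℝ) :
    ∑ i : Fin n, (if (i : ℕ) < N then f i else 0) = ∑ i : Fin N, f (Fin.castLE hN i) := by
  obtain ⟨k, rfl⟩ := Nat.exists_eq_add_of_le hN
  rw [Fin.sum_univ_add]
  have h1 : ∀ i : Fin N, (if ((Fin.castAdd k i : Fin (N + k)) : ℕ) < N then f (Fin.castAdd k i)
      else 0) = f (Fin.castLE hN i) := by
    intro i
    rw [if_pos (by simp)]
    rfl
  have h2 : ∀ i : Fin k, (if ((Fin.natAdd N i : Fin (N + k)) : ℕ) < N then f (Fin.natAdd N i)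
      else 0) = 0 := by
    intro i
    rw [if_neg (by simp)]
  simp only [h1, h2, Finset.sum_const_zero, add_zero]

theorem rc_pair (F : Fin n → Fin n → ℝ) :
    ∑ p : Pair n, F p.1.1 p.1.2 = ∑ i, ∑ j, if i < j then F i j else 0 := by
  rw [← Fintype.sum_prod_type' (f := fun i j : Fin n => if i < j then F i j else 0),
    ← Finset.sum_filter]
  symm
  exact Finset.sum_subtype _ (fun q => by simp) (fun q : Fin n × Fin n => F q.1 q.2)

theorem rc_pair_sq (U : Fin n → ℝ) :
    ∑ p : Pair n, U p.1.1 * U p.1.2 = ((∑ i, U i) ^ 2 - ∑ i, U i * U i) / 2 := by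
  rw [rc_pair fun i j => U i * U j]
  have h1 : (∑ i, U i) ^ 2 = ∑ i, ∑ j, U i * U j := by
    rw [sq, Finset.sum_mul_sum]
  have h2 : ∑ i, ∑ j, U i * U j = (∑ i, ∑ j, if i < j then U i * U j else 0) +
      (∑ i, ∑ j, if j < i then U i * U j else 0) + ∑ i, U i * U i := by
    rw [← Finset.sum_add_distrib, ← Finset.sum_add_distrib]
    apply Finset.sum_congr rfl
    intro i _
    have h3 : U i * U i = ∑ j, if i = j then U i * U j else 0 := by
      rw [Finset.sum_ite_eq]
      simp
    rw [h3, ← Finset.sum_add_distrib, ← Finset.sum_add_distrib]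
    apply Finset.sum_congr rfl
    intro j _
    rcases lt_trichotomy i j with h | h | h
    · rw [if_pos h, if_neg h.not_gt, if_neg h.ne]
      ring
    · subst h
      simp
    · rw [if_neg h.not_gt, if_pos h, if_neg h.ne']
      ring
  have h4 : (∑ i, ∑ j, if j < i then U i * U j else 0) =
      ∑ i, ∑ j, if i < j then U i * U j else 0 := by
    rw [Finset.sum_comm]
    apply Finset.sum_congr rfl
    intro i _
    apply Finset.sum_congr rfl
    intro j _
    rw [mul_comm]
  rw [h1, h2, h4]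
  ring

theorem rc_NRov (hN : N ≤ n) (x x' : Fin n → Bool) :
    (N : ℝ) * Rov (ph hN) x x' =
      ∑ i : Fin n, (if (i : ℕ) < N then spin x i * spin x' i else 0) := by
  rw [rc_sum_lt hN fun i => spin x i * spin x' i]
  unfold Rov ph
  rcases Nat.eq_zero_or_pos N with h | h
  · subst h
    simp
  · have : (N : ℝ) ≠ 0 := by positivity
    field_simp

theorem rc_NRov_self (hN : N ≤ n) (x : Fin n → Bool) : (N : ℝ) * Rov (ph hN) x x = N := by
  rw [rc_NRov hN x x, rc_sum_lt hN fun i => spin x i * spin x i]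
  simp only [rc_spin_sq]
  simp

theorem rc_sum_eq_cv (a b : (Fin n → Bool) → RI n K → ℝ) (x : Fin n → Bool) :
    ∑ e, a x e * b x e = cv rlev K a b x x := by
  unfold cv
  apply Finset.sum_congr rfl
  intro e _
  rw [if_pos (rlev_le e)]

theorem cv_dsk (hN : N ≤ n) (l : ℕ) (γ γ' : ℝ) (x x' : Fin n → Bool) :
    cv rlev l (dsk (K := K) N γ) (dsk N γ') x x' =
      γ * γ' * ((N * Rov (ph hN) x x') ^ 2 - N) / 2 := by
  unfold cv
  rw [Fintype.sum_sum_type]
  have h0 : ∑ e : (Fin (K + 1) × Fin n) ⊕ Fin (K + 1),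
      (if rlev (Sum.inr e : RI n K) ≤ l then dsk N γ x (Sum.inr e) * dsk N γ' x' (Sum.inr e)
        else 0) = 0 := by
    apply Finset.sum_eq_zero
    intro e _
    simp [dsk_a, dsk_b]
  rw [h0, add_zero]
  set U : Fin n → ℝ := fun i => if (i : ℕ) < N then spin x i * spin x' i else 0 with hU
  have h1 : ∀ p : Pair n, (if rlev (Sum.inl p : RI n K) ≤ l then
      dsk N γ x (Sum.inl p : RI n K) * dsk N γ' x' (Sum.inl p : RI n K) else 0) =
      γ * γ' * (U p.1.1 * U p.1.2) := by
    intro p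
    rw [if_pos (show rlev (Sum.inl p : RI n K) ≤ l from Nat.zero_le _)]
    have hp : (p.1.1 : ℕ) < p.1.2 := p.2
    simp only [dsk_a, dsk_b, hU]
    by_cases h : (p.1.2 : ℕ) < N
    · rw [if_pos h, if_pos h, if_pos (hp.trans h), if_pos h]
      ring
    · rw [if_neg h, if_neg h, if_neg h]
      ring
  simp only [h1]
  rw [← Finset.mul_sum, rc_pair_sq, rc_NRov hN x x']
  have h2 : ∑ i, U i * U i = N := by
    have : ∀ i, U i * U i = if (i : ℕ) < N then (1 : ℝ) else 0 := by
      intro i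
      simp only [hU]
      split_ifs
      · have e1 := rc_spin_sq x i
        have e2 := rc_spin_sq x' i
        calc spin x i * spin x' i * (spin x i * spin x' i) =
            (spin x i * spin x i) * (spin x' i * spin x' i) := by ring
          _ = 1 := by rw [e1, e2, one_mul]
      · ring
    simp only [this]
    rw [rc_sum_lt hN fun _ => (1 : ℝ)]
    simp
  rw [h2]
  ring

theorem sum_dsk (hN : N ≤ n) (γ γ' : ℝ) (x : Fin n → Bool) :
    ∑ e, dsk (K := K) N γ x e * dsk N γ' x e = γ * γ' * ((N : ℝ) ^ 2 - N) / 2 := by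
  rw [rc_sum_eq_cv (dsk (K := K) N γ) (dsk N γ') x, cv_dsk hN, rc_NRov_self hN]

theorem sp_eq (hN : N < n) (x : Fin n → Bool) : sp N x = spin x ⟨N, hN⟩ := by
  unfold sp
  rw [dif_pos hN]

theorem sp_sq (hN : N < n) (x : Fin n → Bool) : sp N x ^ 2 = 1 := by
  rw [sp_eq hN, sq, rc_spin_sq]

theorem cv_cav (hN : N < n) (l : ℕ) (γ : ℝ) (x x' : Fin n → Bool) :
    cv rlev l (cav (K := K) N γ) (cav N γ) x x' =
      γ ^ 2 * (sp N x * sp N x') * (N * Rov (ph hN.le) x x') := by
  unfold cv
  rw [Fintype.sum_sum_type]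
  have h0 : ∑ e : (Fin (K + 1) × Fin n) ⊕ Fin (K + 1),
      (if rlev (Sum.inr e : RI n K) ≤ l then cav N γ x (Sum.inr e) * cav N γ x' (Sum.inr e)
        else 0) = 0 := by
    apply Finset.sum_eq_zero
    intro e _
    simp [cav_a, cav_b]
  rw [h0, add_zero]
  set G : Fin n → Fin n → ℝ := fun i j => if (j : ℕ) = N then
    γ ^ 2 * ((spin x i * spin x' i) * (spin x j * spin x' j)) else 0 with hG
  have h1 : ∀ p : Pair n, (if rlev (Sum.inl p : RI n K) ≤ l then
      cav N γ x (Sum.inl p : RI n K) * cav N γ x' (Sum.inl p : RI n K) else 0) =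
      G p.1.1 p.1.2 := by
    intro p
    rw [if_pos (show rlev (Sum.inl p : RI n K) ≤ l from Nat.zero_le _)]
    simp only [cav_a, cav_b, hG]
    by_cases h : (p.1.2 : ℕ) = N
    · rw [if_pos h, if_pos h, if_pos h]
      ring
    · rw [if_neg h, if_neg h, if_neg h]
      ring
  simp only [h1]
  rw [rc_pair G, rc_NRov hN.le x x', Finset.mul_sum, sp_eq hN, sp_eq hN]
  apply Finset.sum_congr rfl
  intro i _
  rw [Finset.sum_eq_single (⟨N, hN⟩ : Fin n)]
  · by_cases h : (i : ℕ) < N
    · rw [if_pos (show i < ⟨N, hN⟩ from h), if_pos h]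
      simp only [hG]
      rw [if_pos trivial]
      ring
    · rw [if_neg (show ¬ i < ⟨N, hN⟩ from h), if_neg h, mul_zero]
  · intro j _ hj
    have hj' : (j : ℕ) ≠ N := fun h => hj (Fin.ext h)
    simp only [hG]
    rw [if_neg hj']
    simp
  · intro h
    exact absurd (Finset.mem_univ _) h

theorem sum_cav (hN : N < n) (γ : ℝ) (x : Fin n → Bool) :
    ∑ e, cav (K := K) N γ x e ^ 2 = γ ^ 2 * N := by
  have h := rc_sum_eq_cv (cav (K := K) N γ) (cav N γ) x
  simp only [sq]
  rw [h, cv_cav hN, rc_NRov_self hN.le]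
  have := sp_sq hN x
  rw [sq] at this
  rw [this]
  ring

theorem rc_incr_nonneg (hR : Path K R) {l : ℕ} (hl : l ≤ K) : 0 ≤ incr R l := by
  cases l with
  | zero => exact hR.1
  | succ l =>
    have := hR.2 l (by omega)
    show 0 ≤ R (l + 1) - R l
    linarith

theorem rc_sum_incr (R : ℕ → ℝ) (l : ℕ) : ∑ i ∈ Finset.range (l + 1), incr R i = R l := by
  induction l with
  | zero => rw [Finset.sum_range_one]; rfl
  | succ l ih =>
    rw [Finset.sum_range_succ, ih]
    show R l + (R (l + 1) - R l) = R (l + 1)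
    ring

theorem cv_tre (hN : N < n) {l : ℕ} (hl : l ≤ K) (γ : ℝ) (hR : Path K R) (x x' : Fin n → Bool) :
    cv rlev l (tre (K := K) N γ R) (tre N γ R) x x' = γ ^ 2 * (sp N x * sp N x') * R l := by
  unfold cv
  rw [Fintype.sum_sum_type, Fintype.sum_sum_type]
  have h0 : ∑ e : Pair n,
      (if rlev (Sum.inl e : RI n K) ≤ l then tre (K := K) N γ R x (Sum.inl e) *
        tre (K := K) N γ R x' (Sum.inl e) else 0) = 0 := by
    apply Finset.sum_eq_zero
    intro e _
    simp [tre_a, tre_b, tre_c]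
  have h1 : ∑ e : Fin (K + 1) × Fin n,
      (if rlev (Sum.inr (Sum.inl e) : RI n K) ≤ l then tre (K := K) N γ R x (Sum.inr (Sum.inl e)) *
        tre (K := K) N γ R x' (Sum.inr (Sum.inl e)) else 0) = 0 := by
    apply Finset.sum_eq_zero
    intro e _
    simp [tre_a, tre_b, tre_c]
  rw [h0, h1, zero_add, zero_add]
  have h2 : ∀ i : Fin (K + 1), (if rlev (Sum.inr (Sum.inr i) : RI n K) ≤ l then
      tre N γ R x (Sum.inr (Sum.inr i) : RI n K) * tre N γ R x' (Sum.inr (Sum.inr i) : RI n K)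
      else 0) = (fun i : ℕ => if i ≤ l then γ ^ 2 * (sp N x * sp N x') * incr R i else 0) i := by
    intro i
    by_cases h : (i : ℕ) ≤ l
    · rw [if_pos (show rlev (Sum.inr (Sum.inr i) : RI n K) ≤ l from h)]
      simp only [tre_a, tre_b, tre_c]
      rw [if_pos h]
      have hi := rc_incr_nonneg hR (h.trans hl)
      have hs := Real.mul_self_sqrt hi
      calc γ * √(incr R ↑i) * sp N x * (γ * √(incr R ↑i) * sp N x') =
          γ ^ 2 * (sp N x * sp N x') * (√(incr R ↑i) * √(incr R ↑i)) := by ring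
        _ = _ := by rw [hs]
    · rw [if_neg (show ¬ rlev (Sum.inr (Sum.inr i) : RI n K) ≤ l from h)]
      simp only
      rw [if_neg h]
  simp only [h2]
  rw [Fin.sum_univ_eq_sum_range
    (fun i : ℕ => if i ≤ l then γ ^ 2 * (sp N x * sp N x') * incr R i else 0) (K + 1),
    ← Finset.sum_filter]
  have h3 : (Finset.range (K + 1)).filter (fun i => i ≤ l) = Finset.range (l + 1) := by
    ext i
    simp only [Finset.mem_filter, Finset.mem_range]
    omega
  rw [h3, ← Finset.mul_sum, rc_sum_incr]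

theorem sum_tre (hN : N < n) (γ : ℝ) (hR : Path K R) (x : Fin n → Bool) :
    ∑ e, tre (K := K) N γ R x e ^ 2 = γ ^ 2 * R K := by
  have h := rc_sum_eq_cv (tre (K := K) N γ R) (tre N γ R) x
  simp only [sq]
  rw [h, cv_tre hN le_rfl γ hR]
  have := sp_sq hN x
  rw [sq] at this
  rw [this]
  ring

/-! ### Disjointness of the coordinates -/

theorem dj_dsk_fd (γ : ℝ) (M : ℕ) (e : RI n K) (x x' : Fin n → Bool) :
    dsk M γ x e * fd N s x' e = 0 := by
  rcases e with p | p | l <;> simp [dsk_a, dsk_b, fd_a, fd_b, fd_c]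

theorem dj_tre_cav (γ γ' : ℝ) (e : RI n K) (x x' : Fin n → Bool) :
    tre N γ R x e * cav N γ' x' e = 0 := by
  rcases e with p | p | l <;> simp [tre_a, tre_b, tre_c, cav_a, cav_b]

theorem dj_tre_sc (γ : ℝ) (e : RI n K) (x x' : Fin n → Bool) :
    tre N γ R x e * sc β N s x' e = 0 := by
  rcases e with p | p | l <;> simp [tre_a, tre_b, tre_c, sc, dsk_a, dsk_b, fd_a, fd_b, fd_c]

theorem dj_cav_sc (γ : ℝ) (e : RI n K) (x x' : Fin n → Bool) :
    cav N γ x e * sc β N s x' e = 0 := by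
  rcases e with p | p | l
  · by_cases h : (p.1.2 : ℕ) = N
    · have h2 : ¬ (p.1.2 : ℕ) < N := by omega
      simp [sc, dsk_a, dsk_b, fd_a, fd_b, fd_c, h2]
    · simp [cav_a, cav_b, h]
  · simp [cav_a, cav_b]
  · simp [cav_a, cav_b]

end Vale.Agent.P146.Ub
end

section

/-!
(R), module FACT: dropping the field of the new spin, the factorization of the tree field, and the
free energy without fields.
-/

open MeasureTheory ProbabilityTheory Filter Topology

namespace Vale.Agent.P146.Ub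

set_option linter.unusedSectionVars false

open Vale.Agent.P157 Vale.Agent.P157.Lv Vale.Agent.P157.Lv.Sy
open Vale.Agent.P157.Par (Path Exponents incr spinPart)
open Vale.Agent.P146 (Pair freeEnergy disorder)

variable {n K N : ℕ} {m s R : ℕ → ℝ} {β : ℝ}

/-- The decomposition of the stage `N + 1`. -/
theorem st_succ (hN : N + 1 ≤ n) (β : ℝ) (s : ℕ → ℝ) :
    (st β (N + 1) s : (Fin n → Bool) → RI n K → ℝ) =
      (sc β N s + cav N (β / √((N + 1 : ℕ) : ℝ))) + nfd N s := by
  funext x e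
  rcases e with p | p | l
  · simp only [st, sc, dsk_a, dsk_b, fd_a, fd_b, fd_c, cav_a, cav_b, nfd_a, nfd_b, nfd_c, Pi.add_apply]
    by_cases h1 : (p.1.2 : ℕ) < N
    · rw [if_pos (Nat.lt_succ_of_lt h1), if_pos h1, if_neg h1.ne]
      ring
    · by_cases h2 : (p.1.2 : ℕ) = N
      · rw [if_pos (by omega), if_neg h1, if_pos h2]
        ring
      · rw [if_neg (by omega), if_neg h1, if_neg h2]
        ring
  · simp only [st, sc, dsk_a, dsk_b, fd_a, fd_b, fd_c, cav_a, cav_b, nfd_a, nfd_b, nfd_c, Pi.add_apply]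
    by_cases h1 : (p.2 : ℕ) < N
    · rw [if_pos (Nat.lt_succ_of_lt h1), if_pos h1, if_neg h1.ne]
      ring
    · by_cases h2 : (p.2 : ℕ) = N
      · rw [if_pos (by omega), if_neg h1, if_pos h2]
        ring
      · rw [if_neg (by omega), if_neg h1, if_neg h2]
        ring
  · simp only [st, sc, dsk_a, dsk_b, fd_a, fd_b, fd_c, cav_a, cav_b, nfd_a, nfd_b, nfd_c, Pi.add_apply]
    ring

/-- (G1) The field of the new spin can be dropped (`ls_le_add`). -/
theorem AN_succ_ge (hN : N + 1 ≤ n) (hm : Exponents K m) (β : ℝ) (s : ℕ → ℝ) :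
    (ls rlev K m (lc n) (sc β N s + cav N (β / √((N + 1 : ℕ) : ℝ))) :
      Sy (RI n K) (Fin n → Bool)).fe ≤ AN n K m β (N + 1) s := by
  unfold AN SN
  rw [st_succ hN]
  refine ls_le_add hm rlev_le (lc n) ?_
  intro e x x'
  rcases e with p | p | l
  · simp only [nfd_a, nfd_b, nfd_c, zero_mul]
  · simp only [nfd_a, nfd_b, nfd_c, sc, dsk_a, dsk_b, fd_a, fd_b, fd_c, cav_a, cav_b, Pi.add_apply]
    by_cases h : (p.2 : ℕ) = N
    · rw [if_pos h, if_neg (by omega)]
      ring
    · rw [if_neg h, zero_mul]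
  · simp only [nfd_a, nfd_b, nfd_c, zero_mul]

/-- The coordinates of the cavity tree. -/
def yt (n K : ℕ) (l : ℕ) : RI n K := Sum.inr (Sum.inr (Fin.ofNat (K + 1) l))

lemma rf_lin (a : RI n K → ℝ) (z : RI n K → ℝ) :
    lin a z = ∑ p, a (Sum.inl p) * z (Sum.inl p) +
      (∑ p, a (Sum.inr (Sum.inl p)) * z (Sum.inr (Sum.inl p)) +
        ∑ l, a (Sum.inr (Sum.inr l)) * z (Sum.inr (Sum.inr l))) := by
  unfold lin
  rw [Fintype.sum_sum_type, Fintype.sum_sum_type]

lemma rf_lin_add (a b : RI n K → ℝ) (z : RI n K → ℝ) : lin (a + b) z = lin a z + lin b z := by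
  unfold lin
  rw [← Finset.sum_add_distrib]
  refine Finset.sum_congr rfl fun e _ => ?_
  rw [Pi.add_apply]
  ring

lemma rf_lin_tre (hβ : 0 ≤ β) (R : ℕ → ℝ) (x : Fin n → Bool) (z : RI n K → ℝ) :
    lin (tre N β R x) z = sp N x * tf (yt n K) K (fun l => β ^ 2 * R l) z := by
  rw [tf_scale hβ, rf_lin]
  have e1 : ∑ p : Pair n, (tre N β R x : RI n K → ℝ) (Sum.inl p) * z (Sum.inl p) = 0 :=
    Finset.sum_eq_zero fun p _ => by simp only [tre_a, tre_b, tre_c, zero_mul]
  have e2 : ∑ p : Fin (K + 1) × Fin n, (tre N β R x : RI n K → ℝ) (Sum.inr (Sum.inl p)) *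
      z (Sum.inr (Sum.inl p)) = 0 :=
    Finset.sum_eq_zero fun p _ => by simp only [tre_a, tre_b, tre_c, zero_mul]
  rw [e1, e2, zero_add, zero_add]
  unfold tf
  rw [Finset.sum_range, Finset.mul_sum, Finset.mul_sum]
  refine Finset.sum_congr rfl fun l _ => ?_
  have e3 : yt n K (l : ℕ) = Sum.inr (Sum.inr l) := by
    unfold yt
    congr 2
    exact Fin.ext (Nat.mod_eq_of_lt l.2)
  rw [e3]
  simp only [tre_a, tre_b, tre_c]
  ring

/-- The flip of the spin at the site `N`. -/
def rflip (hN : N < n) : (Fin n → Bool) ≃ (Fin n → Bool) where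
  toFun x := Function.update x ⟨N, hN⟩ (!(x ⟨N, hN⟩))
  invFun x := Function.update x ⟨N, hN⟩ (!(x ⟨N, hN⟩))
  left_inv x := by simp
  right_inv x := by simp

lemma sp_pm (hN : N < n) (x : Fin n → Bool) : sp N x = 1 ∨ sp N x = -1 := by
  unfold sp spin
  rw [dif_pos hN]
  by_cases h : x ⟨N, hN⟩
  · left; simp [h]
  · right; simp [h]

lemma sp_flip (hN : N < n) (x : Fin n → Bool) : sp N (rflip hN x) = -sp N x := by
  unfold sp spin
  rw [dif_pos hN, dif_pos hN]
  by_cases h : x ⟨N, hN⟩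
  · simp [rflip, h]
  · simp [rflip, h]

lemma spin_flip (hN : N < n) (x : Fin n → Bool) {i : Fin n} (hi : (i : ℕ) ≠ N) :
    spin (rflip hN x) i = spin x i := by
  unfold spin
  have h : (rflip hN x) i = x i := by
    show Function.update x ⟨N, hN⟩ (!(x ⟨N, hN⟩)) i = x i
    rw [Function.update_of_ne]
    intro h
    exact hi (by rw [h])
  rw [h]

lemma sc_flip (hN : N < n) (β : ℝ) (s : ℕ → ℝ) (x : Fin n → Bool) :
    (sc β N s (rflip hN x) : RI n K → ℝ) = sc β N s x := by
  funext e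
  rcases e with p | p | l
  · simp only [sc, dsk_a, dsk_b, fd_a, fd_b, fd_c, Pi.add_apply]
    by_cases h : (p.1.2 : ℕ) < N
    · have h1 : (p.1.1 : ℕ) < (p.1.2 : ℕ) := p.2
      rw [if_pos h, if_pos h, spin_flip hN x (by omega), spin_flip hN x (by omega)]
    · rw [if_neg h, if_neg h]
  · simp only [sc, dsk_a, dsk_b, fd_a, fd_b, fd_c, Pi.add_apply]
    by_cases h : (p.2 : ℕ) < N
    · rw [if_pos h, if_pos h, spin_flip hN x (by omega)]
    · rw [if_neg h, if_neg h]
  · simp only [sc, dsk_a, dsk_b, fd_a, fd_b, fd_c, Pi.add_apply]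

/-- (G2) The tree field (flip of the spin `N`: the energy `sc β N s` does not depend on it, so
`top` does not change when `x_N u` is replaced by `log cosh u`; then `fe_add_tree` with
`F x = log cosh (β x)` and the scaling of the cascade). -/
theorem fe_tre (hN : N < n) (hm : Exponents K m) (hβ : 0 ≤ β) (hR : Path K R) (s : ℕ → ℝ) :
    (ls rlev K m (lc n) (sc β N s + tre N β R) : Sy (RI n K) (Fin n → Bool)).fe =
      (SC n K m β N s).fe + (spinPart K m (fun l => β ^ 2 * R l) + β ^ 2 * R K / 2) := by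
  have hS := ls_regD (X := Fin n → Bool) hm (rlev_le (n := n)) (lc n) (sc β N s)
  have hR' : Path K (fun l => β ^ 2 * R l) :=
    ⟨mul_nonneg (sq_nonneg β) hR.1, fun l hl => mul_le_mul_of_nonneg_left (hR.2 l hl) (sq_nonneg β)⟩
  have hy : ∀ l ≤ K, (rlev (yt n K l) : ℕ) = l := by
    intro l hl
    show ((Fin.ofNat (K + 1) l : Fin (K + 1)) : ℕ) = l
    exact Nat.mod_eq_of_lt (by omega)
  have hD : ∀ l ≤ K, ∀ (z : RI n K → ℝ) (x : Fin n → Bool), sc β N s x (yt n K l) = 0 := by
    intro l _ z x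
    simp only [yt, sc, dsk_a, dsk_b, fd_a, fd_b, fd_c, Pi.add_apply, add_zero]
  have hH : ∀ z x, (ls rlev K m (lc n) (sc β N s) : Sy (RI n K) (Fin n → Bool)).H z (rflip hN x) =
      (ls rlev K m (lc n) (sc β N s) : Sy (RI n K) (Fin n → Bool)).H z x := by
    intro z x
    show lin (sc β N s (rflip hN x)) z + lc n = lin (sc β N s x) z + lc n
    rw [sc_flip]
  have key := fe_spin_tree hS (rflip hN) (sp N) (sp_pm hN) (sp_flip hN) hH (y := yt n K) hy hD hR'
  have e : (ls rlev K m (lc n) (sc β N s + tre N β R) : Sy (RI n K) (Fin n → Bool)) =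
      (ls rlev K m (lc n) (sc β N s) : Sy (RI n K) (Fin n → Bool)).wH (fun z x =>
        (ls rlev K m (lc n) (sc β N s) : Sy (RI n K) (Fin n → Bool)).H z x +
          sp N x * tf (yt n K) K (fun l => β ^ 2 * R l) z) := by
    have e1 : (fun (z : RI n K → ℝ) (x : Fin n → Bool) =>
        lin ((sc β N s + tre N β R : (Fin n → Bool) → RI n K → ℝ) x) z + lc n) =
        fun z x => lin (sc β N s x) z + lc n +
          sp N x * tf (yt n K) K (fun l => β ^ 2 * R l) z := by
      funext z x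
      rw [Pi.add_apply, rf_lin_add, rf_lin_tre hβ]
      ring
    show (⟨rlev, K, m, fun (z : RI n K → ℝ) (x : Fin n → Bool) =>
      lin ((sc β N s + tre N β R : (Fin n → Bool) → RI n K → ℝ) x) z + lc n⟩ :
        Sy (RI n K) (Fin n → Bool)) = _
    rw [e1]
    rfl
  rw [e]
  exact key

/-- The marginal of the first coordinates. -/
lemma rf_marginal {A B : Type} [Fintype A] [Fintype B] (f : (A → ℝ) → ℝ)
    (hf : AEStronglyMeasurable f (Measure.pi fun _ : A => gaussianReal 0 1)) :
    ∫ z, f (fun p => z (Sum.inl p)) ∂(gI (A ⊕ B)) =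
      ∫ g, f g ∂(Measure.pi fun _ : A => gaussianReal 0 1) := by
  have h1 := measurePreserving_sumPiEquivProdPi (ι := A) (ι' := B)
    (X := fun _ => ℝ) (fun _ => gaussianReal 0 1)
  have h2 : MeasurePreserving (Prod.fst : (A → ℝ) × (B → ℝ) → (A → ℝ))
      ((Measure.pi fun _ : A => gaussianReal 0 1).prod (Measure.pi fun _ : B => gaussianReal 0 1))
      (Measure.pi fun _ : A => gaussianReal 0 1) := measurePreserving_fst
  have h3 := h2.comp h1
  have h4 : (Prod.fst ∘ (MeasurableEquiv.sumPiEquivProdPi fun _ : A ⊕ B => ℝ)) =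
      fun (z : A ⊕ B → ℝ) (p : A) => z (Sum.inl p) := rfl
  rw [h4] at h3
  rw [← h3.map_eq, integral_map h3.measurable.aemeasurable (by rw [h3.map_eq]; exact hf)]

/-- The signs as units. -/
def bu : Bool ≃ ℤˣ where
  toFun b := if b then 1 else -1
  invFun u := decide (u = 1)
  left_inv b := by cases b <;> simp
  right_inv u := by
    rcases Int.units_eq_one_or u with h | h
    · simp [h]
    · simp [h]

lemma bu_cast (b : Bool) : (((bu b : ℤˣ) : ℤ) : ℝ) = if b then 1 else -1 := by
  cases b <;> simp [bu]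

/-- (K) Without fields: the mean free energy of the problem. -/
theorem AN_zero (hn : 0 < n) (hm : Exponents K m) (β : ℝ) :
    AN n K m β n (fun _ => 0) = ∫ g, freeEnergy n β g ∂(disorder n) - n * Real.log 2 := by
  have hS := ls_regD (X := Fin n → Bool) hm (rlev_le (n := n)) (lc n)
    (st β n (fun _ => 0))
  have hst : ∀ (x : Fin n → Bool) (z : RI n K → ℝ), lin (st β n (fun _ => 0) x) z =
      ∑ p : Pair n, β / √n * (spin x p.1.1 * spin x p.1.2) * z (Sum.inl p) := by
    intro x z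
    rw [rf_lin]
    have e1 : ∑ p : Fin (K + 1) × Fin n, st β n (fun _ => 0) x (Sum.inr (Sum.inl p)) *
        z (Sum.inr (Sum.inl p)) = 0 :=
      Finset.sum_eq_zero fun p _ => by
        simp only [st, dsk_a, dsk_b, fd_a, fd_b, fd_c, Pi.add_apply, zero_mul, ite_self, add_zero]
    have e2 : ∑ l : Fin (K + 1), st β n (fun _ => 0) x (Sum.inr (Sum.inr l)) *
        z (Sum.inr (Sum.inr l)) = 0 :=
      Finset.sum_eq_zero fun p _ => by
        simp only [st, dsk_a, dsk_b, fd_a, fd_b, fd_c, Pi.add_apply, zero_mul, add_zero]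
    rw [e1, e2, add_zero, add_zero]
    refine Finset.sum_congr rfl fun p _ => ?_
    simp only [st, dsk_a, dsk_b, fd_a, fd_b, fd_c, Pi.add_apply, add_zero]
    rw [if_pos p.1.2.2]
  have htop : ∀ z : RI n K → ℝ, (SN n K m β n (fun _ => 0)).top z =
      freeEnergy n β (fun p => z (Sum.inl p)) - n * Real.log 2 := by
    intro z
    show Real.log (∑ x : Fin n → Bool, Real.exp (lin (st β n (fun _ => 0) x) z + lc n)) = _
    have e1 : ∀ x : Fin n → Bool, Real.exp (lin (st β n (fun _ => 0) x) z + lc n) =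
        Real.exp (lin (st β n (fun _ => 0) x) z) * Real.exp (lc n) := fun x => Real.exp_add _ _
    simp only [e1]
    rw [← Finset.sum_mul, Real.log_mul (Finset.sum_pos (fun x _ => Real.exp_pos _)
      Finset.univ_nonempty).ne' (Real.exp_pos _).ne', Real.log_exp]
    have e2 : ∑ x : Fin n → Bool, Real.exp (lin (st β n (fun _ => 0) x) z) =
        partitionFn n β (fun p => z (Sum.inl p)) := by
      unfold partitionFn
      rw [← Equiv.sum_comp (Equiv.arrowCongr (Equiv.refl (Fin n)) bu)]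
      refine Finset.sum_congr rfl fun x _ => ?_
      congr 1
      rw [hst]
      unfold hamiltonian
      rw [← mul_assoc, Finset.mul_sum]
      refine Finset.sum_congr rfl fun p _ => ?_
      have e3 : ∀ i : Fin n, (((Equiv.arrowCongr (Equiv.refl (Fin n)) bu x i : ℤˣ) : ℤ) : ℝ) =
          spin x i := by
        intro i
        have e4 : Equiv.arrowCongr (Equiv.refl (Fin n)) bu x i = bu (x i) := rfl
        rw [e4, bu_cast]
        rfl
      rw [e3, e3]
      ring
    rw [e2]
    unfold freeEnergy lc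
    ring
  have hdep : ∀ x : Fin n → Bool, Dep (SN n K m β n (fun _ => 0)).lev 0
      fun z => (SN n K m β n (fun _ => 0)).H z x := by
    intro x z w
    show lin (st β n (fun _ => 0) x) (mix rlev 0 z w) + lc n = lin (st β n (fun _ => 0) x) z + lc n
    rw [hst, hst]
    rfl
  have h1 : AN n K m β n (fun _ => 0) = ∫ z, (SN n K m β n (fun _ => 0)).top z ∂(gI (RI n K)) :=
    fe_level_zero hS.toReg hdep
  rw [h1]
  simp only [htop]
  have hd := (freeEnergy_dom n β)
  have h2 : Integrable (fun z : RI n K → ℝ => freeEnergy n β (fun p => z (Sum.inl p)))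
      (gI (RI n K)) := by
    have h3 := measurePreserving_sumPiEquivProdPi (ι := Pair n)
      (ι' := (Fin (K + 1) × Fin n) ⊕ Fin (K + 1)) (X := fun _ => ℝ) (fun _ => gaussianReal 0 1)
    have h4 : MeasurePreserving (Prod.fst : (Pair n → ℝ) × (((Fin (K + 1) × Fin n) ⊕ Fin (K + 1)) → ℝ)
        → (Pair n → ℝ)) _ _ := measurePreserving_fst (μ := Measure.pi fun _ : Pair n => gaussianReal 0 1)
        (ν := Measure.pi fun _ : (Fin (K + 1) × Fin n) ⊕ Fin (K + 1) => gaussianReal 0 1)
    exact (h4.comp h3).integrable_comp_of_integrable hd.integrable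
  rw [integral_sub h2 (integrable_const _)]
  congr 1
  · exact rf_marginal (freeEnergy n β) hd.cont.aestronglyMeasurable
  · simp

end Vale.Agent.P146.Ub
end
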