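import Vale.Agent.P146.Bdl.B7
import Vale.Agent.P157.ParDefs
import Vale.Agent.P146.Bdl.B4

set_option linter.all false

section

/-! Truncation of the two cavity terms. -/

open MeasureTheory ProbabilityTheory Filter Topology

namespace Vale.Agent.P157.Par

open Vale.Agent.P367.GT (gM)

/-! ### The truncated identity -/

lemma trn_hasDerivAt_tanh (x : ℝ) : HasDerivAt Real.tanh (1 - Real.tanh x ^ 2) x := by
  have hc : Real.cosh x ≠ 0 := (Real.cosh_pos x).ne'
  have h := (Real.hasDerivAt_sinh x).div (Real.hasDerivAt_cosh x) hc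
  have e : Real.tanh = fun y => Real.sinh y / Real.cosh y := by
    funext y; exact Real.tanh_eq_sinh_div_cosh y
  rw [e]
  refine HasDerivAt.congr_deriv h ?_
  field_simp

lemma trn_tanh_nonneg {x : ℝ} (hx : 0 ≤ x) : 0 ≤ Real.tanh x := by
  rw [Real.tanh_eq_sinh_div_cosh]
  exact div_nonneg (Real.sinh_nonneg_iff.2 hx) (Real.cosh_pos x).le

lemma trn_tanh_le_self {x : ℝ} (hx : 0 ≤ x) : Real.tanh x ≤ x := by
  have hd : ∀ y, HasDerivAt (fun y : ℝ => y - Real.tanh y) (1 - (1 - Real.tanh y ^ 2)) y :=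
    fun y => (hasDerivAt_id y).sub (trn_hasDerivAt_tanh y)
  have hm : MonotoneOn (fun y : ℝ => y - Real.tanh y) (Set.Ici 0) := by
    apply monotoneOn_of_deriv_nonneg (convex_Ici 0)
    · exact fun y _ => (hd y).continuousAt.continuousWithinAt
    · exact fun y _ => (hd y).differentiableAt.differentiableWithinAt
    · intro y _
      rw [(hd y).deriv]
      have := sq_nonneg (Real.tanh y)
      linarith
  have h := hm (Set.mem_Ici.2 le_rfl) (Set.mem_Ici.2 hx) hx
  simp only [Real.tanh_zero] at h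
  linarith

lemma trn_self_sub_tanh_le {x : ℝ} (hx : 0 ≤ x) : x - Real.tanh x ≤ x ^ 3 / 3 := by
  have hd : ∀ y, HasDerivAt (fun y : ℝ => y ^ 3 / 3 - (y - Real.tanh y))
      (y ^ 2 - (1 - (1 - Real.tanh y ^ 2))) y := by
    intro y
    have h1 : HasDerivAt (fun y : ℝ => y ^ 3 / 3) (y ^ 2) y :=
      HasDerivAt.congr_deriv ((hasDerivAt_pow 3 y).div_const 3) (by norm_num)
    exact h1.sub ((hasDerivAt_id y).sub (trn_hasDerivAt_tanh y))
  have hm : MonotoneOn (fun y : ℝ => y ^ 3 / 3 - (y - Real.tanh y)) (Set.Ici 0) := by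
    apply monotoneOn_of_deriv_nonneg (convex_Ici 0)
    · exact fun y _ => (hd y).continuousAt.continuousWithinAt
    · exact fun y _ => (hd y).differentiableAt.differentiableWithinAt
    · intro y hy
      rw [(hd y).deriv]
      have hy0 : 0 ≤ y := by simpa using (interior_subset hy)
      have h1 := trn_tanh_le_self hy0
      have h2 := trn_tanh_nonneg hy0
      linarith only [mul_nonneg (sub_nonneg.2 h1) (sub_nonneg.2 h2), mul_nonneg (sub_nonneg.2 h1) (sub_nonneg.2 h1)]
  have h := hm (Set.mem_Ici.2 le_rfl) (Set.mem_Ici.2 hx) hx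
  simp only [Real.tanh_zero] at h
  linarith

lemma trn_abs_tanh_le (x : ℝ) : |Real.tanh x| ≤ |x| := by
  rcases le_total 0 x with h | h
  · rw [abs_of_nonneg (trn_tanh_nonneg h), abs_of_nonneg h]; exact trn_tanh_le_self h
  · have h' : 0 ≤ -x := by linarith
    have h1 := trn_tanh_le_self h'
    have h2 := trn_tanh_nonneg h'
    rw [Real.tanh_neg] at h1 h2
    rw [abs_of_nonpos (by linarith), abs_of_nonpos h]; exact h1

lemma trn_abs_sub_tanh_le (x : ℝ) : |x - Real.tanh x| ≤ |x| ^ 3 / 3 := by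
  rcases le_total 0 x with h | h
  · rw [abs_of_nonneg (by linarith [trn_tanh_le_self h]), abs_of_nonneg h]; exact trn_self_sub_tanh_le h
  · have h' : 0 ≤ -x := by linarith
    have h1 := trn_tanh_le_self h'
    have h2 := trn_self_sub_tanh_le h'
    rw [Real.tanh_neg] at h1 h2
    rw [abs_of_nonpos (by linarith), abs_of_nonpos h]; linarith

lemma abs_trn_le {T : ℝ} (hT : 0 < T) (y : ℝ) : |trn T y| ≤ |y| := by
  unfold trn
  rw [abs_mul, abs_of_pos hT]
  have h := trn_abs_tanh_le (y / T)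
  rw [abs_div, abs_of_pos hT] at h
  calc T * |Real.tanh (y / T)| ≤ T * (|y| / T) := mul_le_mul_of_nonneg_left h hT.le
    _ = |y| := by field_simp

lemma abs_sub_trn_le {T : ℝ} (hT : 0 < T) (y : ℝ) : |y - trn T y| ≤ |y| ^ 3 / (3 * T ^ 2) := by
  unfold trn
  have e : y - T * Real.tanh (y / T) = T * (y / T - Real.tanh (y / T)) := by
    field_simp
  rw [e, abs_mul, abs_of_pos hT]
  have h := trn_abs_sub_tanh_le (y / T)
  rw [abs_div, abs_of_pos hT] at h
  calc T * |y / T - Real.tanh (y / T)| ≤ T * ((|y| / T) ^ 3 / 3) :=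
        mul_le_mul_of_nonneg_left h hT.le
    _ = |y| ^ 3 / (3 * T ^ 2) := by field_simp

lemma measurable_trn (T : ℝ) : Measurable (trn T) := by
  have h : Continuous Real.tanh :=
    continuous_iff_continuousAt.2 fun x => (trn_hasDerivAt_tanh x).continuousAt
  unfold trn
  exact (h.comp (continuous_id.div_const T)).measurable.const_mul T

/-! ### Log-sums with probability weights -/

section det

variable {X : Type} [Fintype X]

lemma tr_logsum_abs_le {w : X → ℝ} (hw0 : ∀ x, 0 ≤ w x) (hw1 : ∑ x, w x = 1) (E : X → ℝ) :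
    |Real.log (∑ x, w x * Real.exp (E x))| ≤ ∑ x, |E x| := by
  set M := ∑ x, |E x| with hM
  have hE : ∀ x, |E x| ≤ M := fun x => Finset.single_le_sum (f := fun x => |E x|)
    (fun x _ => abs_nonneg _) (Finset.mem_univ x)
  have h1 : Real.exp (-M) ≤ ∑ x, w x * Real.exp (E x) := by
    calc Real.exp (-M) = ∑ x, w x * Real.exp (-M) := by rw [← Finset.sum_mul, hw1, one_mul]
      _ ≤ _ := Finset.sum_le_sum fun x _ => mul_le_mul_of_nonneg_left
        (Real.exp_le_exp.2 (by linarith [neg_abs_le (E x), hE x])) (hw0 x)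
  have h2 : ∑ x, w x * Real.exp (E x) ≤ Real.exp M := by
    calc ∑ x, w x * Real.exp (E x) ≤ ∑ x, w x * Real.exp M :=
          Finset.sum_le_sum fun x _ => mul_le_mul_of_nonneg_left
            (Real.exp_le_exp.2 (by linarith [le_abs_self (E x), hE x])) (hw0 x)
      _ = Real.exp M := by rw [← Finset.sum_mul, hw1, one_mul]
  have hS : 0 < ∑ x, w x * Real.exp (E x) := lt_of_lt_of_le (Real.exp_pos _) h1
  have l1 := Real.log_le_log (Real.exp_pos _) h1
  have l2 := Real.log_le_log hS h2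
  rw [Real.log_exp] at l1 l2
  exact abs_le.2 ⟨l1, l2⟩

lemma tr_sum_pos {w : X → ℝ} (hw0 : ∀ x, 0 ≤ w x) (hw1 : ∑ x, w x = 1) {g : X → ℝ}
    (hg : ∀ x, 0 < g x) : 0 < ∑ x, w x * g x := by
  have h0 : ∀ x, 0 ≤ w x * g x := fun x => mul_nonneg (hw0 x) (hg x).le
  rcases (Finset.sum_nonneg fun x _ => h0 x : 0 ≤ ∑ x, w x * g x).lt_or_eq with h | h
  · exact h
  · exfalso
    have h1 := (Finset.sum_eq_zero_iff_of_nonneg fun x _ => h0 x).1 h.symm
    have h2 : ∀ x, w x = 0 := fun x => by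
      rcases mul_eq_zero.1 (h1 x (Finset.mem_univ x)) with h | h
      · exact h
      · exact absurd h (hg x).ne'
    simp [h2] at hw1

/-- Jensen for `log` with weights of mass `Q`. -/
lemma tr_jensen {w : X → ℝ} (hw0 : ∀ x, 0 ≤ w x) (hw1 : ∑ x, w x = 1) {g : X → ℝ}
    (hg : ∀ x, 0 < g x) (u : X → ℝ) :
    (∑ x, w x * (u x * g x)) / (∑ x, w x * g x) ≤
      Real.log (∑ x, w x * (Real.exp (u x) * g x)) - Real.log (∑ x, w x * g x) := by
  set Q := ∑ x, w x * g x with hQ
  have hQ0 : 0 < Q := tr_sum_pos hw0 hw1 hg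
  set m := (∑ x, w x * (u x * g x)) / Q with hm
  have h1 : Q * Real.exp m ≤ ∑ x, w x * (Real.exp (u x) * g x) := by
    have h2 : ∀ x, w x * g x * (Real.exp m * (u x - m + 1)) ≤ w x * (Real.exp (u x) * g x) := by
      intro x
      have h3 : Real.exp m * (u x - m + 1) ≤ Real.exp (u x) := by
        have h4 := Real.add_one_le_exp (u x - m)
        calc Real.exp m * (u x - m + 1) ≤ Real.exp m * Real.exp (u x - m) :=
              mul_le_mul_of_nonneg_left h4 (Real.exp_pos _).le
          _ = Real.exp (u x) := by rw [← Real.exp_add]; congr 1; ring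
      calc w x * g x * (Real.exp m * (u x - m + 1)) ≤ w x * g x * Real.exp (u x) :=
            mul_le_mul_of_nonneg_left h3 (mul_nonneg (hw0 x) (hg x).le)
        _ = _ := by ring
    have h5 : ∑ x, w x * g x * (Real.exp m * (u x - m + 1)) = Q * Real.exp m := by
      have e : ∀ x, w x * g x * (Real.exp m * (u x - m + 1)) =
          Real.exp m * (w x * (u x * g x)) + Real.exp m * (1 - m) * (w x * g x) := by
        intro x; ring
      simp_rw [e]
      rw [Finset.sum_add_distrib, ← Finset.mul_sum, ← Finset.mul_sum, ← hQ]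
      have : ∑ x, w x * (u x * g x) = m * Q := by rw [hm]; field_simp
      rw [this]; ring
    rw [← h5]
    exact Finset.sum_le_sum fun x _ => h2 x
  have h6 := Real.log_le_log (mul_pos hQ0 (Real.exp_pos _)) h1
  rw [Real.log_mul hQ0.ne' (Real.exp_pos _).ne', Real.log_exp] at h6
  linarith

/-- The deterministic part of `trunc_cosh`. -/
lemma tr_cosh_det {w : X → ℝ} (hw0 : ∀ x, 0 ≤ w x) (hw1 : ∑ x, w x = 1) (B Y : X → ℝ) (b : ℝ)
    {T : ℝ} (hT : 0 < T) :
    b + Real.log (∑ x, w x * Real.exp (Real.log (Real.cosh (trn T (Y x))))) -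
        ∑ x, w x * (|B x - b| * Real.cosh (Y x)) ≤
      Real.log (∑ x, w x * (Real.exp (B x) * Real.cosh (Y x))) := by
  have hG1 : ∀ x, 1 ≤ Real.cosh (trn T (Y x)) := fun x => Real.one_le_cosh _
  have hG0 : ∀ x, 0 < Real.cosh (trn T (Y x)) := fun x => Real.cosh_pos _
  have hGY : ∀ x, Real.cosh (trn T (Y x)) ≤ Real.cosh (Y x) := fun x =>
    Real.cosh_le_cosh.2 (abs_trn_le hT (Y x))
  have e1 : ∀ x, Real.exp (Real.log (Real.cosh (trn T (Y x)))) = Real.cosh (trn T (Y x)) :=
    fun x => Real.exp_log (hG0 x)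
  simp_rw [e1]
  set Q := ∑ x, w x * Real.cosh (trn T (Y x)) with hQ
  have hQ1 : 1 ≤ Q := by
    rw [← hw1, hQ]
    exact Finset.sum_le_sum fun x _ => by linarith only [mul_nonneg (sub_nonneg.2 (hw0 x)) (sub_nonneg.2 (hG1 x))]
  have hJ := tr_jensen hw0 hw1 hG0 (fun x => B x - b)
  rw [← hQ] at hJ
  -- lower bound of the quotient
  have h1 : -(∑ x, w x * (|B x - b| * Real.cosh (Y x))) ≤
      (∑ x, w x * ((B x - b) * Real.cosh (trn T (Y x)))) / Q := by
    have h2 : -(∑ x, w x * (|B x - b| * Real.cosh (Y x))) ≤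
        ∑ x, w x * ((B x - b) * Real.cosh (trn T (Y x))) := by
      rw [← Finset.sum_neg_distrib]
      refine Finset.sum_le_sum fun x _ => ?_
      have h3 : -(|B x - b| * Real.cosh (Y x)) ≤ (B x - b) * Real.cosh (trn T (Y x)) := by
        have h4 := neg_abs_le (B x - b)
        have h5 := mul_le_mul_of_nonneg_left (hGY x) (abs_nonneg (B x - b))
        have h6 := mul_le_mul_of_nonneg_right h4 (hG0 x).le
        linarith
      have h7 := mul_le_mul_of_nonneg_left h3 (hw0 x)
      linarith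
    rcases le_total 0 (∑ x, w x * ((B x - b) * Real.cosh (trn T (Y x)))) with h | h
    · have h3 : 0 ≤ (∑ x, w x * ((B x - b) * Real.cosh (trn T (Y x)))) / Q :=
        div_nonneg h (by linarith)
      have h4 : 0 ≤ ∑ x, w x * (|B x - b| * Real.cosh (Y x)) :=
        Finset.sum_nonneg fun x _ => mul_nonneg (hw0 x)
          (mul_nonneg (abs_nonneg _) (Real.cosh_pos _).le)
      linarith
    · have h3 : (∑ x, w x * ((B x - b) * Real.cosh (trn T (Y x)))) ≤
          (∑ x, w x * ((B x - b) * Real.cosh (trn T (Y x)))) / Q := by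
        rw [le_div_iff₀ (by linarith)]
        nlinarith only [hQ1, h]
      linarith
  -- remove the truncation and the shift
  have h8 : b + Real.log (∑ x, w x * (Real.exp (B x - b) * Real.cosh (trn T (Y x)))) ≤
      Real.log (∑ x, w x * (Real.exp (B x) * Real.cosh (Y x))) := by
    have hp : 0 < ∑ x, w x * (Real.exp (B x - b) * Real.cosh (trn T (Y x))) :=
      tr_sum_pos hw0 hw1 fun x => mul_pos (Real.exp_pos _) (hG0 x)
    have h9 : Real.exp b * (∑ x, w x * (Real.exp (B x - b) * Real.cosh (trn T (Y x)))) ≤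
        ∑ x, w x * (Real.exp (B x) * Real.cosh (Y x)) := by
      rw [Finset.mul_sum]
      refine Finset.sum_le_sum fun x _ => ?_
      have e : Real.exp b * (w x * (Real.exp (B x - b) * Real.cosh (trn T (Y x)))) =
          w x * (Real.exp (B x) * Real.cosh (trn T (Y x))) := by
        have : Real.exp (B x) = Real.exp b * Real.exp (B x - b) := by
          rw [← Real.exp_add]; congr 1; ring
        rw [this]; ring
      rw [e]
      exact mul_le_mul_of_nonneg_left
        (mul_le_mul_of_nonneg_left (hGY x) (Real.exp_pos _).le) (hw0 x)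
    have h10 := Real.log_le_log (mul_pos (Real.exp_pos b) hp) h9
    rwa [Real.log_mul (Real.exp_pos _).ne' hp.ne', Real.log_exp] at h10
  linarith

lemma tr_abs_exp_sub_le (a c M : ℝ) (ha : a ≤ M) (hc : c ≤ M) :
    |Real.exp a - Real.exp c| ≤ |a - c| * Real.exp M := by
  rcases le_total a c with h | h
  · rw [abs_of_nonpos (by linarith [Real.exp_le_exp.2 h]), abs_of_nonpos (by linarith)]
    have h1 := Real.add_one_le_exp (a - c)
    have h2 : Real.exp a = Real.exp c * Real.exp (a - c) := by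
      rw [← Real.exp_add]; congr 1; ring
    have h3 := Real.exp_le_exp.2 hc
    have h4 := Real.exp_pos c
    rw [h2]
    linarith only [mul_nonneg (sub_nonneg.2 h1) (le_of_lt (sub_pos.2 h4)), mul_nonneg (sub_nonneg.2 h) (sub_nonneg.2 h3)]
  · rw [abs_of_nonneg (by linarith [Real.exp_le_exp.2 h]), abs_of_nonneg (by linarith)]
    have h1 := Real.add_one_le_exp (c - a)
    have h2 : Real.exp c = Real.exp a * Real.exp (c - a) := by
      rw [← Real.exp_add]; congr 1; ring
    have h3 := Real.exp_le_exp.2 ha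
    have h4 := Real.exp_pos a
    rw [h2]
    linarith only [mul_nonneg (sub_nonneg.2 h1) (le_of_lt (sub_pos.2 h4)), mul_nonneg (sub_nonneg.2 h) (sub_nonneg.2 h3)]

/-- pointwise bound of the error terms -/
lemma tr_term_bound {u p q T : ℝ} (hT : 1 ≤ T) :
    |Real.exp (u + p) - Real.exp (trn T p)| * Real.exp |q| ≤
      |Real.exp u - 1| * ((Real.exp (2 * |p|) + Real.exp (2 * |q|)) / 2) +
        1 / T ^ 2 * (Real.exp (4 * |p|) + Real.exp (2 * |q|)) := by
  have hT0 : 0 < T := by linarith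
  have hp := abs_nonneg p
  have hq := abs_nonneg q
  have h1 : |Real.exp (u + p) - Real.exp (trn T p)| ≤
      |Real.exp u - 1| * Real.exp |p| + |p| ^ 3 / (3 * T ^ 2) * Real.exp |p| := by
    have e : Real.exp (u + p) - Real.exp (trn T p) =
        (Real.exp u - 1) * Real.exp p + (Real.exp p - Real.exp (trn T p)) := by
      rw [Real.exp_add]; ring
    rw [e]
    refine (abs_add_le _ _).trans (add_le_add ?_ ?_)
    · rw [abs_mul, abs_of_pos (Real.exp_pos p)]
      exact mul_le_mul_of_nonneg_left (Real.exp_le_exp.2 (le_abs_self p)) (abs_nonneg _)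
    · refine (tr_abs_exp_sub_le p (trn T p) |p| (le_abs_self p)
        ((le_abs_self _).trans (abs_trn_le hT0 p))).trans ?_
      exact mul_le_mul_of_nonneg_right (abs_sub_trn_le hT0 p) (Real.exp_pos _).le
  have h2 : Real.exp |p| * Real.exp |q| ≤ (Real.exp (2 * |p|) + Real.exp (2 * |q|)) / 2 := by
    have e1 : Real.exp (2 * |p|) = Real.exp |p| ^ 2 := by
      rw [← Real.exp_nat_mul]; norm_num
    have e2 : Real.exp (2 * |q|) = Real.exp |q| ^ 2 := by
      rw [← Real.exp_nat_mul]; norm_num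
    rw [e1, e2]
    linarith only [sq_nonneg (Real.exp |p| - Real.exp |q|)]
  have h3 : |p| ^ 3 ≤ 6 * Real.exp |p| := by
    have h := Real.pow_div_factorial_le_exp |p| hp 3
    have e : ((Nat.factorial 3 : ℕ) : ℝ) = 6 := by norm_num [Nat.factorial]
    rw [e] at h
    linarith only [h]
  have h4 : |p| ^ 3 / (3 * T ^ 2) * Real.exp |p| * Real.exp |q| ≤
      1 / T ^ 2 * (Real.exp (4 * |p|) + Real.exp (2 * |q|)) := by
    have e1 : Real.exp (4 * |p|) = (Real.exp |p| ^ 2) ^ 2 := by
      rw [← pow_mul, ← Real.exp_nat_mul]; norm_num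
    have e2 : Real.exp (2 * |q|) = Real.exp |q| ^ 2 := by
      rw [← Real.exp_nat_mul]; norm_num
    have h5 : 2 * (Real.exp |p| ^ 2 * Real.exp |q|) ≤ Real.exp (4 * |p|) + Real.exp (2 * |q|) := by
      rw [e1, e2]
      linarith only [sq_nonneg (Real.exp |p| ^ 2 - Real.exp |q|)]
    have h6 : |p| ^ 3 * (Real.exp |p| * Real.exp |q|) ≤
        6 * Real.exp |p| * (Real.exp |p| * Real.exp |q|) :=
      mul_le_mul_of_nonneg_right h3 (by positivity)
    have h7 : |p| ^ 3 / (3 * T ^ 2) * Real.exp |p| * Real.exp |q| =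
        1 / T ^ 2 * ((|p| ^ 3 * (Real.exp |p| * Real.exp |q|)) / 3) := by
      field_simp
    rw [h7]
    apply mul_le_mul_of_nonneg_left _ (by positivity)
    linarith only [h5, h6]
  calc |Real.exp (u + p) - Real.exp (trn T p)| * Real.exp |q|
      ≤ (|Real.exp u - 1| * Real.exp |p| + |p| ^ 3 / (3 * T ^ 2) * Real.exp |p|) *
        Real.exp |q| := mul_le_mul_of_nonneg_right h1 (Real.exp_pos _).le
    _ = |Real.exp u - 1| * (Real.exp |p| * Real.exp |q|) +
        |p| ^ 3 / (3 * T ^ 2) * Real.exp |p| * Real.exp |q| := by ring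
    _ ≤ _ := add_le_add (mul_le_mul_of_nonneg_left h2 (abs_nonneg _)) h4

/-- The deterministic part of `trunc_id`. -/
lemma tr_id_det {w : X → ℝ} (hw0 : ∀ x, 0 ≤ w x) (hw1 : ∑ x, w x = 1) (B Y : X → ℝ) (b : ℝ)
    {T : ℝ} (hT : 1 ≤ T) :
    Real.log (∑ x, w x * Real.exp (B x + Y x)) ≤
      b + Real.log (∑ x, w x * Real.exp (trn T (Y x))) +
        ∑ x, ∑ y, w x * w y * (|Real.exp (B x - b) - 1| *
          ((Real.exp (2 * |Y x|) + Real.exp (2 * |Y y|)) / 2) +
          1 / T ^ 2 * (Real.exp (4 * |Y x|) + Real.exp (2 * |Y y|))) := by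
  have hT0 : 0 < T := by linarith
  set p := ∑ x, w x * Real.exp (B x - b + Y x) with hp
  set q := ∑ x, w x * Real.exp (trn T (Y x)) with hq
  have hp0 : 0 < p := tr_sum_pos hw0 hw1 fun x => Real.exp_pos _
  have hq0 : 0 < q := tr_sum_pos hw0 hw1 fun x => Real.exp_pos _
  have e1 : ∑ x, w x * Real.exp (B x + Y x) = Real.exp b * p := by
    rw [hp, Finset.mul_sum]
    refine Finset.sum_congr rfl fun x _ => ?_
    have : Real.exp (B x + Y x) = Real.exp b * Real.exp (B x - b + Y x) := by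
      rw [← Real.exp_add]; congr 1; ring
    rw [this]; ring
  rw [e1, Real.log_mul (Real.exp_pos _).ne' hp0.ne', Real.log_exp]
  have h1 : Real.log p - Real.log q ≤ |p - q| * q⁻¹ := by
    have h2 : Real.log p - Real.log q = Real.log (p / q) := by
      rw [Real.log_div hp0.ne' hq0.ne']
    have h3 := Real.log_le_sub_one_of_pos (div_pos hp0 hq0)
    have h4 : p / q - 1 = (p - q) * q⁻¹ := by field_simp
    rw [h2]
    calc Real.log (p / q) ≤ (p - q) * q⁻¹ := by rw [← h4]; exact h3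
      _ ≤ |p - q| * q⁻¹ := mul_le_mul_of_nonneg_right (le_abs_self _) (inv_nonneg.2 hq0.le)
  have h2 : |p - q| ≤ ∑ x, w x * |Real.exp (B x - b + Y x) - Real.exp (trn T (Y x))| := by
    rw [hp, hq, ← Finset.sum_sub_distrib]
    refine (Finset.abs_sum_le_sum_abs _ _).trans (Finset.sum_le_sum fun x _ => ?_)
    rw [← mul_sub, abs_mul, abs_of_nonneg (hw0 x)]
  have h3 : q⁻¹ ≤ ∑ y, w y * Real.exp |Y y| := by
    refine (Lin.inv_sum_le hw0 hw1 (fun x => Real.exp_pos (trn T (Y x))) hq hq0).trans ?_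
    refine Finset.sum_le_sum fun y _ => mul_le_mul_of_nonneg_left ?_ (hw0 y)
    rw [← Real.exp_neg]
    exact Real.exp_le_exp.2 ((neg_le_abs _).trans (abs_trn_le hT0 _))
  have h4 : |p - q| * q⁻¹ ≤
      (∑ x, w x * |Real.exp (B x - b + Y x) - Real.exp (trn T (Y x))|) *
        ∑ y, w y * Real.exp |Y y| :=
    mul_le_mul h2 h3 (inv_nonneg.2 hq0.le)
      (Finset.sum_nonneg fun x _ => mul_nonneg (hw0 x) (abs_nonneg _))
  have h5 : (∑ x, w x * |Real.exp (B x - b + Y x) - Real.exp (trn T (Y x))|) *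
        (∑ y, w y * Real.exp |Y y|) ≤
      ∑ x, ∑ y, w x * w y * (|Real.exp (B x - b) - 1| *
          ((Real.exp (2 * |Y x|) + Real.exp (2 * |Y y|)) / 2) +
          1 / T ^ 2 * (Real.exp (4 * |Y x|) + Real.exp (2 * |Y y|))) := by
    rw [Finset.sum_mul_sum]
    refine Finset.sum_le_sum fun x _ => Finset.sum_le_sum fun y _ => ?_
    have h6 := tr_term_bound (u := B x - b) (p := Y x) (q := Y y) hT
    calc w x * |Real.exp (B x - b + Y x) - Real.exp (trn T (Y x))| * (w y * Real.exp |Y y|) =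
          w x * w y * (|Real.exp (B x - b + Y x) - Real.exp (trn T (Y x))| * Real.exp |Y y|) := by
          ring
      _ ≤ _ := mul_le_mul_of_nonneg_left h6 (mul_nonneg (hw0 x) (hw0 y))
  linarith only [h1, h4, h5]

end det

/-! ### Integrated versions -/

section TRUNC

variable {X K : Type} [Fintype X] [Fintype K] [DecidableEq K]

omit [Fintype X] [DecidableEq K] in
lemma tr_measurable_lin (κ : X → K → ℝ) (x : X) : Measurable fun z : K → ℝ => lin κ z x := by
  unfold lin; fun_prop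

omit [Fintype X] in
lemma tr_integrable_lin (κ : X → K → ℝ) (x : X) :
    Integrable (fun z : K → ℝ => lin κ z x) (gM K) := by
  have h := Cube.integrable_lin (Y := Unit) (K := K) (fun _ => κ x) ()
  exact h

omit [Fintype X] in
lemma tr_exp_lin (κ : X → K → ℝ) (x : X) (t : ℝ) :
    Integrable (fun z : K → ℝ => Real.exp (t * lin κ z x)) (gM K) ∧
      ∫ z, Real.exp (t * lin κ z x) ∂(gM K) = Real.exp (t ^ 2 * (∑ c, κ x c ^ 2) / 2) := by
  have e : ∀ z : K → ℝ, t * lin κ z x = lin (fun (_ : Unit) c => t * κ x c) z () := by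
    intro z
    unfold lin
    rw [Finset.mul_sum]
    exact Finset.sum_congr rfl fun c _ => by ring
  simp_rw [e]
  refine ⟨Cube.integrable_exp_lin (Y := Unit) (K := K) (fun _ c => t * κ x c) (), ?_⟩
  rw [Cube.integral_exp_lin (Y := Unit) (K := K) (fun _ c => t * κ x c) ()]
  congr 1
  rw [Finset.mul_sum]
  congr 1
  exact Finset.sum_congr rfl fun c _ => by ring

omit [Fintype X] in
lemma tr_exp_abs_lin (κ : X → K → ℝ) (x : X) {A : ℝ} (hκ : ∑ c, κ x c ^ 2 ≤ A) {t : ℝ}
    (_ht : 0 ≤ t) :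
    Integrable (fun z : K → ℝ => Real.exp (t * |lin κ z x|)) (gM K) ∧
      ∫ z, Real.exp (t * |lin κ z x|) ∂(gM K) ≤ 2 * Real.exp (t ^ 2 * A / 2) := by
  obtain ⟨i1, v1⟩ := tr_exp_lin κ x t
  obtain ⟨i2, v2⟩ := tr_exp_lin κ x (-t)
  have hle : ∀ z : K → ℝ, Real.exp (t * |lin κ z x|) ≤
      Real.exp (t * lin κ z x) + Real.exp (-t * lin κ z x) := by
    intro z
    rcases le_total 0 (lin κ z x) with h | h
    · rw [abs_of_nonneg h]
      linarith [Real.exp_pos (-t * lin κ z x)]
    · rw [abs_of_nonpos h]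
      have : t * -lin κ z x = -t * lin κ z x := by ring
      rw [this]
      linarith [Real.exp_pos (t * lin κ z x)]
  have hm : Measurable fun z : K → ℝ => Real.exp (t * |lin κ z x|) := by
    have := tr_measurable_lin κ x
    fun_prop
  have hi : Integrable (fun z : K → ℝ => Real.exp (t * |lin κ z x|)) (gM K) := by
    refine Integrable.mono' (i1.add i2) hm.aestronglyMeasurable
      (Filter.Eventually.of_forall fun z => ?_)
    rw [Real.norm_eq_abs, abs_of_pos (Real.exp_pos _)]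
    exact hle z
  refine ⟨hi, ?_⟩
  calc ∫ z, Real.exp (t * |lin κ z x|) ∂(gM K)
      ≤ ∫ z, (Real.exp (t * lin κ z x) + Real.exp (-t * lin κ z x)) ∂(gM K) :=
        integral_mono hi (i1.add i2) hle
    _ = Real.exp (t ^ 2 * (∑ c, κ x c ^ 2) / 2) + Real.exp ((-t) ^ 2 * (∑ c, κ x c ^ 2) / 2) := by
        rw [integral_add i1 i2, v1, v2]
    _ = 2 * Real.exp (t ^ 2 * (∑ c, κ x c ^ 2) / 2) := by rw [neg_sq]; ring
    _ ≤ 2 * Real.exp (t ^ 2 * A / 2) := by
        have : t ^ 2 * (∑ c, κ x c ^ 2) ≤ t ^ 2 * A := mul_le_mul_of_nonneg_left hκ (sq_nonneg t)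
        have h2 : Real.exp (t ^ 2 * (∑ c, κ x c ^ 2) / 2) ≤ Real.exp (t ^ 2 * A / 2) :=
          Real.exp_le_exp.2 (by linarith)
        linarith

omit [DecidableEq K] in
/-- integrability of log-sums with probability weights -/
lemma tr_integrable_logsum {w : X → ℝ} (hw0 : ∀ x, 0 ≤ w x) (hw1 : ∑ x, w x = 1)
    {E : (K → ℝ) → X → ℝ} (hm : ∀ x, Measurable fun z => E z x)
    (hE : ∀ x, Integrable (fun z => E z x) (gM K)) :
    Integrable (fun z => Real.log (∑ x, w x * Real.exp (E z x))) (gM K) := by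
  refine Integrable.mono' (g := fun z => ∑ x, |E z x|)
    (integrable_finsetSum _ fun x _ => (hE x).abs) ?_
    (Filter.Eventually.of_forall fun z => tr_logsum_abs_le hw0 hw1 (E z))
  refine (Real.measurable_log.comp ?_).aestronglyMeasurable
  exact Finset.measurable_fun_sum _ fun x _ => (Real.measurable_exp.comp (hm x)).const_mul _

lemma tr_log_cosh_abs_le (y : ℝ) : |Real.log (Real.cosh y)| ≤ |y| := by
  have h1 := Real.one_le_cosh y
  rw [abs_of_nonneg (Real.log_nonneg h1)]
  have h2 : Real.cosh y ≤ Real.exp |y| := by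
    rw [Real.cosh_eq]
    have h3 : Real.exp y ≤ Real.exp |y| := Real.exp_le_exp.2 (le_abs_self y)
    have h4 : Real.exp (-y) ≤ Real.exp |y| := Real.exp_le_exp.2 (neg_le_abs y)
    linarith
  calc Real.log (Real.cosh y) ≤ Real.log (Real.exp |y|) :=
        Real.log_le_log (Real.cosh_pos y) h2
    _ = |y| := Real.log_exp _

omit [Fintype X] [DecidableEq K] in
lemma tr_integral_bsub (b : ℝ) {f g : (K → ℝ) → ℝ} (hf : Integrable f (gM K))
    (hg : Integrable g (gM K)) :
    ∫ z, (b + f z - g z) ∂(gM K) = b + ∫ z, f z ∂(gM K) - ∫ z, g z ∂(gM K) := by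
  have e1 : ∫ z, (b + f z - g z) ∂(gM K) =
      ∫ z, (b + f z) ∂(gM K) - ∫ z, g z ∂(gM K) :=
    integral_sub (f := fun z => b + f z) ((integrable_const b).add hf) hg
  have e2 : ∫ z, (b + f z) ∂(gM K) = ∫ _z, b ∂(gM K) + ∫ z, f z ∂(gM K) :=
    integral_add (f := fun _ => b) (integrable_const b) hf
  rw [e1, e2, integral_const, probReal_univ, one_smul]

omit [Fintype X] [DecidableEq K] in
lemma tr_integral_badd (b : ℝ) {f g : (K → ℝ) → ℝ} (hf : Integrable f (gM K))
    (hg : Integrable g (gM K)) :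
    ∫ z, (b + f z + g z) ∂(gM K) = b + ∫ z, f z ∂(gM K) + ∫ z, g z ∂(gM K) := by
  have e1 : ∫ z, (b + f z + g z) ∂(gM K) =
      ∫ z, (b + f z) ∂(gM K) + ∫ z, g z ∂(gM K) :=
    integral_add (f := fun z => b + f z) ((integrable_const b).add hf) hg
  have e2 : ∫ z, (b + f z) ∂(gM K) = ∫ _z, b ∂(gM K) + ∫ z, f z ∂(gM K) :=
    integral_add (f := fun _ => b) (integrable_const b) hf
  rw [e1, e2, integral_const, probReal_univ, one_smul]

/-- The lower bound for the first cavity term. -/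
theorem trunc_cosh {w : X → ℝ} (hw0 : ∀ x, 0 ≤ w x) (hw1 : ∑ x, w x = 1) (B : X → ℝ)
    {κ : X → K → ℝ} {A : ℝ} (hκ : ∀ x, ∑ c, κ x c ^ 2 ≤ A) (b : ℝ) {T : ℝ} (hT : 0 < T) :
    b + ∫ z, Real.log (∑ x, w x * Real.exp (Real.log (Real.cosh (trn T (lin κ z x))))) ∂(gM K) -
        Real.exp (A / 2) * ∑ x, w x * |B x - b| ≤
      ∫ z, Real.log (∑ x, w x * (Real.exp (B x) * Real.cosh (lin κ z x))) ∂(gM K) := by
  have hml := fun x => tr_measurable_lin κ x
  have mtr := measurable_trn T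
  -- the three integrable functions
  have i1 : Integrable (fun z => Real.log (∑ x, w x *
      Real.exp (Real.log (Real.cosh (trn T (lin κ z x)))))) (gM K) := by
    refine tr_integrable_logsum (E := fun z x => Real.log (Real.cosh (trn T (lin κ z x))))
      hw0 hw1 (fun x => ?_) fun x => ?_
    · exact Real.measurable_log.comp (Real.measurable_cosh.comp (mtr.comp (hml x)))
    · refine Integrable.mono' (tr_integrable_lin κ x).abs
        (Real.measurable_log.comp (Real.measurable_cosh.comp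
          (mtr.comp (hml x)))).aestronglyMeasurable
        (Filter.Eventually.of_forall fun z => ?_)
      rw [Real.norm_eq_abs]
      exact (tr_log_cosh_abs_le _).trans (abs_trn_le hT _)
  have e2 : ∀ z : K → ℝ, ∑ x, w x * (Real.exp (B x) * Real.cosh (lin κ z x)) =
      ∑ x, w x * Real.exp (B x + Real.log (Real.cosh (lin κ z x))) := by
    intro z
    refine Finset.sum_congr rfl fun x _ => ?_
    rw [Real.exp_add, Real.exp_log (Real.cosh_pos _)]
  have i2 : Integrable (fun z => Real.log (∑ x, w x *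
      (Real.exp (B x) * Real.cosh (lin κ z x)))) (gM K) := by
    simp_rw [e2]
    refine tr_integrable_logsum (E := fun z x => B x + Real.log (Real.cosh (lin κ z x)))
      hw0 hw1 (fun x => ?_) fun x => ?_
    · exact (Real.measurable_log.comp (Real.measurable_cosh.comp (hml x))).const_add _
    · refine (integrable_const _).add ?_
      refine Integrable.mono' (tr_integrable_lin κ x).abs
        (Real.measurable_log.comp (Real.measurable_cosh.comp (hml x))).aestronglyMeasurable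
        (Filter.Eventually.of_forall fun z => ?_)
      rw [Real.norm_eq_abs]
      exact tr_log_cosh_abs_le _
  have hcosh : ∀ x, Integrable (fun z => Real.cosh (lin κ z x)) (gM K) ∧
      ∫ z, Real.cosh (lin κ z x) ∂(gM K) ≤ Real.exp (A / 2) := by
    intro x
    obtain ⟨j1, v1⟩ := tr_exp_lin κ x 1
    obtain ⟨j2, v2⟩ := tr_exp_lin κ x (-1)
    have e : ∀ z : K → ℝ, Real.cosh (lin κ z x) =
        (Real.exp (1 * lin κ z x) + Real.exp (-1 * lin κ z x)) / 2 := by
      intro z; rw [Real.cosh_eq]; simp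
    simp_rw [e]
    refine ⟨(j1.add j2).div_const 2, ?_⟩
    rw [integral_div, integral_add j1 j2, v1, v2]
    have h3 : Real.exp (1 ^ 2 * (∑ c, κ x c ^ 2) / 2) ≤ Real.exp (A / 2) :=
      Real.exp_le_exp.2 (by linarith only [hκ x])
    have h4 : Real.exp ((-1) ^ 2 * (∑ c, κ x c ^ 2) / 2) ≤ Real.exp (A / 2) :=
      Real.exp_le_exp.2 (by linarith [hκ x])
    linarith only [h4]
  have i3 : Integrable (fun z => ∑ x, w x * (|B x - b| * Real.cosh (lin κ z x))) (gM K) :=
    integrable_finsetSum _ fun x _ => ((hcosh x).1.const_mul _).const_mul _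
  have hint : ∫ z, (b + Real.log (∑ x, w x *
        Real.exp (Real.log (Real.cosh (trn T (lin κ z x))))) -
        ∑ x, w x * (|B x - b| * Real.cosh (lin κ z x))) ∂(gM K) ≤
      ∫ z, Real.log (∑ x, w x * (Real.exp (B x) * Real.cosh (lin κ z x))) ∂(gM K) :=
    integral_mono (((integrable_const _).add i1).sub i3) i2 fun z =>
      tr_cosh_det hw0 hw1 B (fun x => lin κ z x) b hT
  rw [tr_integral_bsub b i1 i3] at hint
  have h3 : ∫ z, (∑ x, w x * (|B x - b| * Real.cosh (lin κ z x))) ∂(gM K) ≤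
      Real.exp (A / 2) * ∑ x, w x * |B x - b| := by
    rw [integral_finsetSum _ fun x _ => ((hcosh x).1.const_mul _).const_mul _, Finset.mul_sum]
    refine Finset.sum_le_sum fun x _ => ?_
    rw [integral_const_mul, integral_const_mul]
    have h4 := mul_le_mul_of_nonneg_left (hcosh x).2
      (mul_nonneg (hw0 x) (abs_nonneg (B x - b)))
    linarith
  linarith only [h3, hint]

/-- The upper bound for the second cavity term. -/
theorem trunc_id (A : ℝ) : ∃ D : ℝ, ∀ (X K : Type) [Fintype X] [Fintype K] [DecidableEq K]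
    (w : X → ℝ) (_hw0 : ∀ x, 0 ≤ w x) (_hw1 : ∑ x, w x = 1) (B : X → ℝ)
    (κ : X → K → ℝ) (_hκ : ∀ x, ∑ c, κ x c ^ 2 ≤ A) (b T : ℝ) (_hT : 1 ≤ T),
    ∫ z, Real.log (∑ x, w x * Real.exp (B x + lin κ z x)) ∂(gM K) ≤
      b + ∫ z, Real.log (∑ x, w x * Real.exp (trn T (lin κ z x))) ∂(gM K) +
        D * (∑ x, w x * |Real.exp (B x - b) - 1| + 1 / T ^ 2) := by
  refine ⟨4 * Real.exp (8 * A), ?_⟩
  intro X K _ _ _ w hw0 hw1 B κ hκ b T hT
  have hT0 : 0 < T := by linarith
  have hml := fun x => tr_measurable_lin κ x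
  have mtr := measurable_trn T
  have hA : 0 ≤ A := by
    have hne : Nonempty X := by
      by_contra h
      rw [not_nonempty_iff] at h
      simp at hw1
    obtain ⟨x⟩ := hne
    exact (Finset.sum_nonneg fun c _ => sq_nonneg _).trans (hκ x)
  have i1 : Integrable (fun z => Real.log (∑ x, w x * Real.exp (B x + lin κ z x))) (gM K) :=
    tr_integrable_logsum (E := fun z x => B x + lin κ z x) hw0 hw1
      (fun x => (hml x).const_add _) fun x => (integrable_const _).add (tr_integrable_lin κ x)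
  have i2 : Integrable (fun z => Real.log (∑ x, w x * Real.exp (trn T (lin κ z x)))) (gM K) := by
    refine tr_integrable_logsum (E := fun z x => trn T (lin κ z x)) hw0 hw1
      (fun x => mtr.comp (hml x)) fun x => ?_
    refine Integrable.mono' (tr_integrable_lin κ x).abs
      (mtr.comp (hml x)).aestronglyMeasurable (Filter.Eventually.of_forall fun z => ?_)
    rw [Real.norm_eq_abs]
    exact abs_trn_le hT0 _
  have h2 := fun x => tr_exp_abs_lin κ x (hκ x) (t := 2) (by norm_num)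
  have h4 := fun x => tr_exp_abs_lin κ x (hκ x) (t := 4) (by norm_num)
  have j1 : ∀ x y, Integrable (fun z : K → ℝ =>
      (Real.exp (2 * |lin κ z x|) + Real.exp (2 * |lin κ z y|)) / 2) (gM K) := fun x y =>
    ((h2 x).1.add (h2 y).1).div_const 2
  have j2 : ∀ x y, Integrable (fun z : K → ℝ =>
      Real.exp (4 * |lin κ z x|) + Real.exp (2 * |lin κ z y|)) (gM K) := fun x y =>
    (h4 x).1.add (h2 y).1
  have v1 : ∀ x y, ∫ z : K → ℝ,
      (Real.exp (2 * |lin κ z x|) + Real.exp (2 * |lin κ z y|)) / 2 ∂(gM K) ≤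
        2 * Real.exp (8 * A) := by
    intro x y
    rw [integral_div, integral_add (h2 x).1 (h2 y).1]
    have e : Real.exp (2 ^ 2 * A / 2) ≤ Real.exp (8 * A) := Real.exp_le_exp.2 (by linarith)
    have := (h2 x).2
    have := (h2 y).2
    linarith
  have v2 : ∀ x y, ∫ z : K → ℝ,
      (Real.exp (4 * |lin κ z x|) + Real.exp (2 * |lin κ z y|)) ∂(gM K) ≤
        4 * Real.exp (8 * A) := by
    intro x y
    rw [integral_add (h4 x).1 (h2 y).1]
    have e : Real.exp (2 ^ 2 * A / 2) ≤ Real.exp (8 * A) := Real.exp_le_exp.2 (by linarith)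
    have e' : Real.exp (4 ^ 2 * A / 2) = Real.exp (8 * A) := by congr 1; ring
    have h5 := (h4 x).2
    have h6 := (h2 y).2
    rw [e'] at h5
    linarith
  have j3 : ∀ x y, Integrable (fun z : K → ℝ => w x * w y * (|Real.exp (B x - b) - 1| *
          ((Real.exp (2 * |lin κ z x|) + Real.exp (2 * |lin κ z y|)) / 2) +
          1 / T ^ 2 * (Real.exp (4 * |lin κ z x|) + Real.exp (2 * |lin κ z y|)))) (gM K) :=
    fun x y => (((j1 x y).const_mul _).add ((j2 x y).const_mul _)).const_mul _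
  have i3 : Integrable (fun z : K → ℝ => ∑ x, ∑ y, w x * w y * (|Real.exp (B x - b) - 1| *
          ((Real.exp (2 * |lin κ z x|) + Real.exp (2 * |lin κ z y|)) / 2) +
          1 / T ^ 2 * (Real.exp (4 * |lin κ z x|) + Real.exp (2 * |lin κ z y|)))) (gM K) :=
    integrable_finsetSum _ fun x _ => integrable_finsetSum _ fun y _ => j3 x y
  have hint : ∫ z, Real.log (∑ x, w x * Real.exp (B x + lin κ z x)) ∂(gM K) ≤
      ∫ z, (b + Real.log (∑ x, w x * Real.exp (trn T (lin κ z x))) +
        ∑ x, ∑ y, w x * w y * (|Real.exp (B x - b) - 1| *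
          ((Real.exp (2 * |lin κ z x|) + Real.exp (2 * |lin κ z y|)) / 2) +
          1 / T ^ 2 * (Real.exp (4 * |lin κ z x|) + Real.exp (2 * |lin κ z y|)))) ∂(gM K) :=
    integral_mono i1 (((integrable_const _).add i2).add i3) fun z =>
      tr_id_det hw0 hw1 B (fun x => lin κ z x) b hT
  rw [tr_integral_badd b i2 i3] at hint
  have hR : ∫ z, (∑ x, ∑ y, w x * w y * (|Real.exp (B x - b) - 1| *
          ((Real.exp (2 * |lin κ z x|) + Real.exp (2 * |lin κ z y|)) / 2) +
          1 / T ^ 2 * (Real.exp (4 * |lin κ z x|) + Real.exp (2 * |lin κ z y|)))) ∂(gM K) ≤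
      4 * Real.exp (8 * A) * (∑ x, w x * |Real.exp (B x - b) - 1| + 1 / T ^ 2) := by
    rw [integral_finsetSum _ fun x _ => integrable_finsetSum _ fun y _ => j3 x y]
    simp_rw [integral_finsetSum _ fun y _ => j3 _ y]
    have hterm : ∀ x y, ∫ z : K → ℝ, w x * w y * (|Real.exp (B x - b) - 1| *
          ((Real.exp (2 * |lin κ z x|) + Real.exp (2 * |lin κ z y|)) / 2) +
          1 / T ^ 2 * (Real.exp (4 * |lin κ z x|) + Real.exp (2 * |lin κ z y|))) ∂(gM K) ≤
        w x * w y * (4 * Real.exp (8 * A) * (|Real.exp (B x - b) - 1| + 1 / T ^ 2)) := by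
      intro x y
      rw [integral_const_mul, integral_add ((j1 x y).const_mul _) ((j2 x y).const_mul _),
        integral_const_mul, integral_const_mul]
      apply mul_le_mul_of_nonneg_left _ (mul_nonneg (hw0 x) (hw0 y))
      have g1 := mul_le_mul_of_nonneg_left (v1 x y) (abs_nonneg (Real.exp (B x - b) - 1))
      have g2 := mul_le_mul_of_nonneg_left (v2 x y) (by positivity : (0 : ℝ) ≤ 1 / T ^ 2)
      have g3 : 0 ≤ |Real.exp (B x - b) - 1| * Real.exp (8 * A) := by (clear * -; positivity)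
      linarith only [g3, g2, g1]
    calc _ ≤ ∑ x, ∑ y, w x * w y *
          (4 * Real.exp (8 * A) * (|Real.exp (B x - b) - 1| + 1 / T ^ 2)) :=
          Finset.sum_le_sum fun x _ => Finset.sum_le_sum fun y _ => hterm x y
      _ = 4 * Real.exp (8 * A) * (∑ x, w x * |Real.exp (B x - b) - 1| + 1 / T ^ 2) := by
          have e1 : ∀ x, ∑ y, w x * w y *
              (4 * Real.exp (8 * A) * (|Real.exp (B x - b) - 1| + 1 / T ^ 2)) =
              4 * Real.exp (8 * A) * (w x * |Real.exp (B x - b) - 1|) +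
                4 * Real.exp (8 * A) * (1 / T ^ 2) * w x := by
            intro x
            rw [← Finset.sum_mul, ← Finset.mul_sum, hw1]
            ring
          simp_rw [e1]
          rw [Finset.sum_add_distrib, ← Finset.mul_sum, ← Finset.mul_sum, hw1]
          ring
  linarith

end TRUNC

end Vale.Agent.P157.Par
end

section

open MeasureTheory ProbabilityTheory Filter Topology

namespace Vale.Agent.P157.Par

open Vale.Agent.P367.GT (gM)
open Vale.Agent.P157.Par.Cube

set_option linter.unusedSectionVars false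

namespace Dnl

/-- averages of one replica -/
lemma tav_one (S : Sys) (G : S.T → S.X → ℝ) :
    S.tav (n := 1) (fun t x => G t (x 0)) = ∫ ω, ∑ x, S.w ω x * G (S.π ω) x ∂S.P := by
  unfold Sys.tav Sys.av
  congr 1
  funext ω
  rw [← (Equiv.funUnique (Fin 1) S.X).sum_comp]
  apply Finset.sum_congr rfl
  intro x _
  simp

/-- currying of Gaussian vectors -/
lemma mp_curry (M N : ℕ) : MeasurePreserving (MeasurableEquiv.curry (Fin M) (Fin (N + 1)) ℝ)
    (gM (Fin M × Fin (N + 1))) (pm M N) := by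
  refine ⟨(MeasurableEquiv.curry (Fin M) (Fin (N + 1)) ℝ).measurable, ?_⟩
  have h := Measure.infinitePi_map_curry
    (fun (_ : Fin M) (_ : Fin (N + 1)) => gaussianReal 0 1)
  simp_rw [Measure.infinitePi_eq_pi] at h
  exact h

lemma lin_ker1 {M N : ℕ} (δ : ℝ) (f1 : ℝ → ℝ) (t : Fin M → Fin (N + 1) → ℝ) (η : Fin M → ℝ)
    (x : Fin (N + 1) → Bool) :
    lin (ker1 δ f1 t) η x = cavY δ f1 (fun a => cubeS (t a) x) η := rfl

lemma lin_ker2 {M N : ℕ} (δ : ℝ) (f1 : ℝ → ℝ) (t : Fin M → Fin (N + 1) → ℝ)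
    (z : Fin M × Fin (N + 1) → ℝ) (x : Fin (N + 1) → Bool) :
    lin (ker2 δ f1 t) z x = cavY δ f1 (fun a => cubeS (t a) x)
      fun a => cubeS (MeasurableEquiv.curry (Fin M) (Fin (N + 1)) ℝ z a) x := by
  unfold lin ker2 cavY
  rw [Fintype.sum_prod_type]
  apply Finset.sum_congr rfl
  intro a _
  unfold cubeS
  rw [Finset.mul_sum]
  apply Finset.sum_congr rfl
  intro i _
  simp only [MeasurableEquiv.coe_curry, Function.curry_apply]
  ring

lemma sum_ker1 {C : ℝ} {f1 : ℝ → ℝ} (hf1 : ∀ x, |f1 x| ≤ C) {M N : ℕ} {δ : ℝ} (hδ : 0 ≤ δ)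
    (t : Fin M → Fin (N + 1) → ℝ) (x : Fin (N + 1) → Bool) :
    ∑ a, ker1 δ f1 t x a ^ 2 ≤ δ * M * C ^ 2 := by
  unfold ker1
  have h1 : ∀ a : Fin M, (√δ * f1 (cubeS (t a) x)) ^ 2 ≤ δ * C ^ 2 := by
    intro a
    rw [mul_pow, Real.sq_sqrt hδ]
    refine mul_le_mul_of_nonneg_left ?_ hδ
    rw [← sq_abs]
    exact pow_le_pow_left₀ (abs_nonneg _) (hf1 _) 2
  refine (Finset.sum_le_sum fun a _ => h1 a).trans ?_
  rw [Finset.sum_const, Finset.card_univ, Fintype.card_fin, nsmul_eq_mul]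
  apply le_of_eq
  ring

lemma sum_ker2 {C : ℝ} {f1 : ℝ → ℝ} (hf1 : ∀ x, |f1 x| ≤ C) {M N : ℕ} {δ : ℝ} (hδ : 0 ≤ δ)
    (t : Fin M → Fin (N + 1) → ℝ) (x : Fin (N + 1) → Bool) :
    ∑ p, ker2 δ f1 t x p ^ 2 ≤ δ * M * C ^ 2 := by
  refine le_trans (le_of_eq ?_) (sum_ker1 hf1 hδ t x)
  rw [Fintype.sum_prod_type]
  apply Finset.sum_congr rfl
  intro a _
  unfold ker2 ker1
  simp_rw [mul_pow]
  rw [← Finset.mul_sum, sum_cubeφ_sq, mul_one]

lemma int_exp_abs_cubeS (N : ℕ) (t : ℝ) (x : Fin (N + 1) → Bool) :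
    Integrable (fun g : Fin (N + 1) → ℝ => Real.exp (t * |cubeS g x|)) (gM (Fin (N + 1))) := by
  have h : ∀ r : ℝ, Integrable (fun g : Fin (N + 1) → ℝ => Real.exp (r * cubeS g x))
      (gM (Fin (N + 1))) := by
    intro r
    have h1 := integrable_exp_lin (fun (y : Fin (N + 1) → Bool) i => r * cubeφ N y i) x
    refine h1.congr (Filter.Eventually.of_forall fun g => ?_)
    simp only
    congr 1
    unfold lin cubeS
    rw [Finset.mul_sum]
    apply Finset.sum_congr rfl
    intro i _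
    ring
  exact integrable_exp_mul_abs (h t) (h (-t))

section

variable {f f1 f2 f3 : ℝ → ℝ} {C : ℝ}

lemma int_exp_cavB (hf : CB3 C f f1 f2 f3) {δ : ℝ} (hδ : 0 ≤ δ) (M N : ℕ)
    (x : Fin (N + 1) → Bool) :
    Integrable (fun ω : Fin M → Fin (N + 1) → ℝ =>
      Real.exp (cavB δ f1 f2 fun a => cubeS (ω a) x)) (pm M N) := by
  have m1 := (Lin.continuous_f1 hf).measurable
  have m2 := (Lin.continuous_f2 hf).measurable
  unfold cavB
  simp_rw [Real.exp_sum]
  refine Integrable.fintype_prod (f := fun (_ : Fin M) (g : Fin (N + 1) → ℝ) =>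
    Real.exp (δ / 2 * (f2 (cubeS g x) - cubeS g x * f1 (cubeS g x)))) fun a => ?_
  refine Integrable.mono' ((int_exp_abs_cubeS N (δ / 2 * C) x).const_mul
    (Real.exp (δ / 2 * C))) ?_ (Filter.Eventually.of_forall fun g => ?_)
  · have h1 : Measurable fun g : Fin (N + 1) → ℝ => cubeS g x := by unfold cubeS; fun_prop
    have h2 := m1.comp h1
    have h3 := m2.comp h1
    exact (Real.measurable_exp.comp ((h3.sub (h1.mul h2)).const_mul _)).aestronglyMeasurable
  · rw [Real.norm_eq_abs, abs_of_pos (Real.exp_pos _), ← Real.exp_add]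
    apply Real.exp_le_exp.2
    have h1 : f2 (cubeS g x) ≤ C := (le_abs_self _).trans (hf.b2 _)
    have h2 : -(cubeS g x * f1 (cubeS g x)) ≤ C * |cubeS g x| := by
      have h3 : |cubeS g x * f1 (cubeS g x)| ≤ |cubeS g x| * C := by
        rw [abs_mul]
        exact mul_le_mul_of_nonneg_left (hf.b1 _) (abs_nonneg _)
      linarith [neg_abs_le (cubeS g x * f1 (cubeS g x))]
    have h4 : 0 ≤ δ / 2 := by linarith
    have h5 := mul_le_mul_of_nonneg_left (add_le_add h1 h2) h4
    calc _ ≤ δ / 2 * (C + C * |cubeS g x|) := by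
          refine le_trans (le_of_eq ?_) h5
          ring
      _ = _ := by ring

/-- bounded log-sum-exp -/
lemma abs_lse_le {X : Type} [Fintype X] {w : X → ℝ} (hw0 : ∀ x, 0 ≤ w x) (hw1 : ∑ x, w x = 1)
    {E : X → ℝ} {T : ℝ} (hE : ∀ x, |E x| ≤ T) : |Real.log (∑ x, w x * Real.exp (E x))| ≤ T := by
  have h1 : Real.exp (-T) ≤ ∑ x, w x * Real.exp (E x) := by
    calc Real.exp (-T) = ∑ x, w x * Real.exp (-T) := by rw [← Finset.sum_mul, hw1, one_mul]
      _ ≤ _ := Finset.sum_le_sum fun x _ =>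
        mul_le_mul_of_nonneg_left (Real.exp_le_exp.2 (abs_le.1 (hE x)).1) (hw0 x)
  have h2 : ∑ x, w x * Real.exp (E x) ≤ Real.exp T := by
    calc _ ≤ ∑ x, w x * Real.exp T := Finset.sum_le_sum fun x _ =>
        mul_le_mul_of_nonneg_left (Real.exp_le_exp.2 (abs_le.1 (hE x)).2) (hw0 x)
      _ = Real.exp T := by rw [← Finset.sum_mul, hw1, one_mul]
  have h3 : 0 < ∑ x, w x * Real.exp (E x) := (Real.exp_pos _).trans_le h1
  rw [abs_le]
  constructor
  · have := Real.log_le_log (Real.exp_pos _) h1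
    rwa [Real.log_exp] at this
  · have := Real.log_le_log h3 h2
    rwa [Real.log_exp] at this

lemma abs_trn_le {T : ℝ} (hT : 0 < T) (x : ℝ) : |trn T x| ≤ T := by
  unfold trn
  rw [abs_mul, abs_of_pos hT]
  have h : |Real.tanh (x / T)| ≤ 1 := by
    rw [abs_le]
    exact ⟨(Real.neg_one_lt_tanh _).le, (Real.tanh_lt_one _).le⟩
  calc T * |Real.tanh (x / T)| ≤ T * 1 := mul_le_mul_of_nonneg_left h hT.le
    _ = T := mul_one T

lemma abs_logcosh_trn_le {T : ℝ} (hT : 0 < T) (x : ℝ) :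
    |Real.log (Real.cosh (trn T x))| ≤ T := by
  rw [abs_of_nonneg (log_cosh_nonneg _)]
  exact (log_cosh_le _).trans (abs_trn_le hT x)

lemma measurable_trn (T : ℝ) : Measurable (trn T) := by
  unfold trn
  simp_rw [Real.tanh_eq_sinh_div_cosh]
  have h1 : Measurable fun x : ℝ => x / T := measurable_id.div_const T
  exact ((Real.measurable_sinh.comp h1).div (Real.measurable_cosh.comp h1)).const_mul T

section abs

variable {Ω X K : Type} [MeasurableSpace Ω] [Fintype X] [Fintype K] [DecidableEq K]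
  {Q : Measure Ω} [IsProbabilityMeasure Q] {w B : Ω → X → ℝ} {κ : Ω → X → K → ℝ} {A b T : ℝ}

lemma integrable_bdd_lse (hw0 : ∀ ω x, 0 ≤ w ω x) (hw1 : ∀ ω, ∑ x, w ω x = 1)
    (hwm : ∀ x, Measurable fun ω => w ω x) (hκ : ∀ x c, Measurable fun ω => κ ω x c)
    {h : ℝ → ℝ} (hh : Measurable h) (hb : ∀ x, |h x| ≤ T) :
    Integrable (fun z : Ω × (K → ℝ) =>
      Real.log (∑ x, w z.1 x * Real.exp (h (lin (κ z.1) z.2 x)))) (Q.prod (gM K)) := by
  refine Integrable.mono' (integrable_const T) ?_ (Filter.Eventually.of_forall fun z => ?_)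
  · have h1 : ∀ x, Measurable fun z : Ω × (K → ℝ) => lin (κ z.1) z.2 x := by
      intro x
      unfold lin
      refine Finset.measurable_sum _ fun c _ => ?_
      exact ((hκ x c).comp measurable_fst).mul ((measurable_pi_apply c).comp measurable_snd)
    have h2 : Measurable fun z : Ω × (K → ℝ) =>
        ∑ x, w z.1 x * Real.exp (h (lin (κ z.1) z.2 x)) :=
      Finset.measurable_sum _ fun x _ =>
        ((hwm x).comp measurable_fst).mul (Real.measurable_exp.comp (hh.comp (h1 x)))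
    exact (Real.measurable_log.comp h2).aestronglyMeasurable
  · exact abs_lse_le (hw0 z.1) (hw1 z.1) fun x => hb _

lemma lower_cosh (hw0 : ∀ ω x, 0 ≤ w ω x) (hw1 : ∀ ω, ∑ x, w ω x = 1)
    (hwm : ∀ x, Measurable fun ω => w ω x) (hκm : ∀ x c, Measurable fun ω => κ ω x c)
    (hκ : ∀ ω x, ∑ c, κ ω x c ^ 2 ≤ A) (hT : 0 < T)
    (hB : Integrable (fun ω => ∑ x, w ω x * |B ω x - b|) Q)
    (hF : Integrable (fun z : Ω × (K → ℝ) => Real.log (∑ x, w z.1 x *
      (Real.exp (B z.1 x) * Real.cosh (lin (κ z.1) z.2 x)))) (Q.prod (gM K))) :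
    b + (∫ z : Ω × (K → ℝ), Real.log (∑ x, w z.1 x *
        Real.exp (Real.log (Real.cosh (trn T (lin (κ z.1) z.2 x))))) ∂(Q.prod (gM K))) -
        Real.exp (A / 2) * ∫ ω, ∑ x, w ω x * |B ω x - b| ∂Q ≤
      ∫ z : Ω × (K → ℝ), Real.log (∑ x, w z.1 x *
        (Real.exp (B z.1 x) * Real.cosh (lin (κ z.1) z.2 x))) ∂(Q.prod (gM K)) := by
  have hI : Integrable (fun z : Ω × (K → ℝ) =>
      Real.log (∑ x, w z.1 x * Real.exp (Real.log (Real.cosh (trn T (lin (κ z.1) z.2 x))))))
      (Q.prod (gM K)) :=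
    integrable_bdd_lse (T := T) (h := fun y => Real.log (Real.cosh (trn T y))) hw0 hw1 hwm hκm
      (Real.measurable_log.comp (Real.measurable_cosh.comp (measurable_trn T)))
      fun y => abs_logcosh_trn_le hT y
  rw [integral_prod _ hI, integral_prod _ hF]
  rw [← integral_const_mul]
  have e1 : b + (∫ ω : Ω, ∫ z : K → ℝ, Real.log (∑ x, w ω x *
        Real.exp (Real.log (Real.cosh (trn T (lin (κ ω) z x))))) ∂(gM K) ∂Q) =
      ∫ ω : Ω, (b + ∫ z : K → ℝ, Real.log (∑ x, w ω x *
        Real.exp (Real.log (Real.cosh (trn T (lin (κ ω) z x))))) ∂(gM K)) ∂Q := by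
    rw [integral_add (integrable_const _) hI.integral_prod_left]
    simp
  have i1 : Integrable (fun ω : Ω => b + ∫ z : K → ℝ, Real.log (∑ x, w ω x *
      Real.exp (Real.log (Real.cosh (trn T (lin (κ ω) z x))))) ∂(gM K)) Q :=
    (integrable_const b).add hI.integral_prod_left
  rw [e1, ← integral_sub i1 (hB.const_mul _)]
  refine integral_mono (i1.sub (hB.const_mul _)) hF.integral_prod_left fun ω => ?_
  exact trunc_cosh (hw0 ω) (hw1 ω) (B ω) (hκ ω) b hT

lemma upper_id {D : ℝ} (hD : ∀ (X K : Type) [Fintype X] [Fintype K] [DecidableEq K]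
    (w : X → ℝ) (_hw0 : ∀ x, 0 ≤ w x) (_hw1 : ∑ x, w x = 1) (B : X → ℝ)
    (κ : X → K → ℝ) (_hκ : ∀ x, ∑ c, κ x c ^ 2 ≤ A) (b T : ℝ) (_hT : 1 ≤ T),
    ∫ z, Real.log (∑ x, w x * Real.exp (B x + lin κ z x)) ∂(gM K) ≤
      b + ∫ z, Real.log (∑ x, w x * Real.exp (trn T (lin κ z x))) ∂(gM K) +
        D * (∑ x, w x * |Real.exp (B x - b) - 1| + 1 / T ^ 2))
    (hw0 : ∀ ω x, 0 ≤ w ω x) (hw1 : ∀ ω, ∑ x, w ω x = 1)
    (hwm : ∀ x, Measurable fun ω => w ω x) (hκm : ∀ x c, Measurable fun ω => κ ω x c)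
    (hκ : ∀ ω x, ∑ c, κ ω x c ^ 2 ≤ A) (hT : 1 ≤ T)
    (hB : Integrable (fun ω => ∑ x, w ω x * |Real.exp (B ω x - b) - 1|) Q)
    (hF : Integrable (fun z : Ω × (K → ℝ) => Real.log (∑ x, w z.1 x *
      Real.exp (B z.1 x + lin (κ z.1) z.2 x))) (Q.prod (gM K))) :
    ∫ z : Ω × (K → ℝ), Real.log (∑ x, w z.1 x *
        Real.exp (B z.1 x + lin (κ z.1) z.2 x)) ∂(Q.prod (gM K)) ≤
      b + (∫ z : Ω × (K → ℝ), Real.log (∑ x, w z.1 x *
        Real.exp (trn T (lin (κ z.1) z.2 x))) ∂(Q.prod (gM K))) +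
        D * ((∫ ω, ∑ x, w ω x * |Real.exp (B ω x - b) - 1| ∂Q) + 1 / T ^ 2) := by
  have hT0 : 0 < T := lt_of_lt_of_le one_pos hT
  have hI : Integrable (fun z : Ω × (K → ℝ) =>
      Real.log (∑ x, w z.1 x * Real.exp (trn T (lin (κ z.1) z.2 x)))) (Q.prod (gM K)) :=
    integrable_bdd_lse (T := T) (h := trn T) hw0 hw1 hwm hκm (measurable_trn T)
      fun y => abs_trn_le hT0 y
  rw [integral_prod _ hI, integral_prod _ hF]
  have e2 : D * ((∫ ω, ∑ x, w ω x * |Real.exp (B ω x - b) - 1| ∂Q) + 1 / T ^ 2) =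
      ∫ ω, D * ((∑ x, w ω x * |Real.exp (B ω x - b) - 1|) + 1 / T ^ 2) ∂Q := by
    rw [integral_const_mul, integral_add hB (integrable_const _)]
    simp
  have e1 : b + (∫ ω : Ω, ∫ z : K → ℝ, Real.log (∑ x, w ω x *
        Real.exp (trn T (lin (κ ω) z x))) ∂(gM K) ∂Q) =
      ∫ ω : Ω, (b + ∫ z : K → ℝ, Real.log (∑ x, w ω x *
        Real.exp (trn T (lin (κ ω) z x))) ∂(gM K)) ∂Q := by
    rw [integral_add (integrable_const _) hI.integral_prod_left]
    simp
  have i1 : Integrable (fun ω : Ω => b + ∫ z : K → ℝ, Real.log (∑ x, w ω x *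
      Real.exp (trn T (lin (κ ω) z x))) ∂(gM K)) Q :=
    (integrable_const b).add hI.integral_prod_left
  have i2 : Integrable (fun ω : Ω => D * ((∑ x, w ω x * |Real.exp (B ω x - b) - 1|) +
      1 / T ^ 2)) Q :=
    (hB.add (integrable_const (1 / T ^ 2))).const_mul D
  rw [e1, e2, ← integral_add i1 i2]
  refine integral_mono hF.integral_prod_left (i1.add i2) fun ω => ?_
  exact hD X K (w ω) (hw0 ω) (hw1 ω) (B ω) (κ ω) (hκ ω) b T hT

end abs

/-- integrability with the weights -/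
lemma integrable_w (hfm : Measurable f) (hC : ∀ x, |f x| ≤ C) (M N : ℕ) {P : ℕ}
    (s : ℝ) (u : Fin P → ℝ) {H : Type} [MeasurableSpace H] {μ : Measure H}
    [IsProbabilityMeasure μ]
    {A : (Fin M → Fin (N + 1) → ℝ) → H → (Fin (N + 1) → Bool) → ℝ} (hA : ∀ ω η x, 0 < A ω η x)
    (hi : Integrable (fun z : ((Fin M → Fin (N + 1) → ℝ) × (GI P (N + 1) → ℝ)) × H =>
      Real.log (∑ x, Real.exp (EE f s u z.1.1 z.1.2 x) * A z.1.1 z.2 x))
      (((pm M N).prod (gM (GI P (N + 1)))).prod μ)) :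
    Integrable (fun z : ((Fin M → Fin (N + 1) → ℝ) × (GI P (N + 1) → ℝ)) × H =>
      Real.log (∑ x : Fin (N + 1) → Bool, (pS f hfm C hC N M P s u).w z.1 x *
        A z.1.1 z.2 x)) (((pm M N).prod (gM (GI P (N + 1)))).prod μ) := by
  have hlz : Integrable (fun z : (Fin M → Fin (N + 1) → ℝ) × (GI P (N + 1) → ℝ) =>
      Real.log (∑ y, Real.exp (EE f s u z.1 z.2 y))) ((pm M N).prod (gM (GI P (N + 1)))) :=
    integrable_lse (integrable_EE hfm C hC N M s u)
  have hp : ∀ z : ((Fin M → Fin (N + 1) → ℝ) × (GI P (N + 1) → ℝ)) × H,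
      Real.log (∑ x : Fin (N + 1) → Bool, ((cubeBase f hfm C hC N M).sys P s u).w z.1 x *
          A z.1.1 z.2 x) =
      Real.log (∑ x, Real.exp (EE f s u z.1.1 z.1.2 x) * A z.1.1 z.2 x) -
        Real.log (∑ y, Real.exp (EE f s u z.1.1 z.1.2 y)) := by
    intro z
    rw [log_ratio (EE f s u z.1.1 z.1.2) (A z.1.1 z.2) (hA _ _)]
    simp only [w_eq]
    ring
  simp_rw [pS, hp]
  exact hi.sub (hlz.comp_fst _)

lemma w_le_one (S : Sys) (ω : S.Ω) (x : S.X) : S.w ω x ≤ 1 := by
  rw [← S.w1 ω]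
  exact Finset.single_le_sum (f := fun x => S.w ω x) (fun y _ => S.w0 ω y) (Finset.mem_univ x)

/-- integrability of averages -/
lemma integrable_sum_w (S : Sys) {G : S.Ω → S.X → ℝ} (hG : ∀ x, Integrable (fun ω => G ω x) S.P) :
    Integrable (fun ω => ∑ x, S.w ω x * G ω x) S.P := by
  refine integrable_finsetSum _ fun x _ => ?_
  refine (hG x).bdd_mul (c := 1) (S.hw x).aestronglyMeasurable
    (Filter.Eventually.of_forall fun ω => ?_)
  rw [Real.norm_eq_abs, abs_of_nonneg (S.w0 ω x)]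
  exact w_le_one S ω x

lemma fin_arith {I1 I2 X Y b F1 F2 D e q : ℝ} (t1 : b + I1 - e * X ≤ F1)
    (t2 : F2 ≤ b + I2 + D * (Y + q)) (hX : 0 ≤ X) (hY : 0 ≤ Y) (hq : 0 ≤ q) (he : 0 ≤ e)
    (hD : 0 ≤ D) : I1 - I2 - (e + D) * (X + Y + q) ≤ F1 - F2 := by
  linarith only [t1, t2, mul_nonneg he hY, mul_nonneg he hq, mul_nonneg hD hX]

end

end Dnl

open Dnl

/-- Lower bound of the cavity form of the increment by bounded functions of Gaussian fields. -/
theorem cubeDN_trunc (A : ℝ) : ∃ D : ℝ, 0 ≤ D ∧ ∀ (f f1 f2 f3 : ℝ → ℝ) (C : ℝ)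
    (hf : CB3 C f f1 f2 f3) (hfm : Measurable f) (N M P : ℕ) (s : ℝ) (u : Fin P → ℝ),
    1 / ((N : ℝ) + 2) * M * C ^ 2 ≤ A → ∀ b T : ℝ, 1 ≤ T →
    (∫ z : ((Fin M → Fin (N + 1) → ℝ) × (GI P (N + 1) → ℝ)) × (Fin M → ℝ),
      Real.log (∑ x, (pS f hfm C hf.b0 N M P s u).w z.1 x *
        Real.exp (Real.log (Real.cosh
          (trn T (lin (ker1 (1 / ((N : ℝ) + 2)) f1 z.1.1) z.2 x)))))
      ∂((pS f hfm C hf.b0 N M P s u).P.prod (gM (Fin M)))) -
    (∫ z : ((Fin M → Fin (N + 1) → ℝ) × (GI P (N + 1) → ℝ)) × (Fin M × Fin (N + 1) → ℝ),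
      Real.log (∑ x, (pS f hfm C hf.b0 N M P s u).w z.1 x *
        Real.exp (trn T (lin (ker2 (1 / ((N : ℝ) + 2)) f1 z.1.1) z.2 x)))
      ∂((pS f hfm C hf.b0 N M P s u).P.prod (gM (Fin M × Fin (N + 1))))) -
    D * ((pS f hfm C hf.b0 N M P s u).tav (n := 1) (fun t x =>
        |cavB (1 / ((N : ℝ) + 2)) f1 f2 (fun a => cubeS (t a) (x 0)) - b|) +
      (pS f hfm C hf.b0 N M P s u).tav (n := 1) (fun t x =>
        |Real.exp (cavB (1 / ((N : ℝ) + 2)) f1 f2 (fun a => cubeS (t a) (x 0)) - b) - 1|) +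
      1 / T ^ 2) ≤ cubeDN f f1 f2 hfm C hf.b0 N M P s u := by
  obtain ⟨D0, hD0⟩ := trunc_id A
  refine ⟨Real.exp (A / 2) + |D0|, by positivity, ?_⟩
  intro f f1 f2 f3 C hf hfm N M P s u hA b T hT
  have hT0 : 0 < T := lt_of_lt_of_le one_pos hT
  have hD : ∀ (X K : Type) [Fintype X] [Fintype K] [DecidableEq K]
      (w : X → ℝ) (_hw0 : ∀ x, 0 ≤ w x) (_hw1 : ∑ x, w x = 1) (B : X → ℝ)
      (κ : X → K → ℝ) (_hκ : ∀ x, ∑ c, κ x c ^ 2 ≤ A) (b T : ℝ) (_hT : 1 ≤ T),
      ∫ z, Real.log (∑ x, w x * Real.exp (B x + lin κ z x)) ∂(gM K) ≤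
        b + ∫ z, Real.log (∑ x, w x * Real.exp (trn T (lin κ z x))) ∂(gM K) +
          |D0| * (∑ x, w x * |Real.exp (B x - b) - 1| + 1 / T ^ 2) := by
    intro X K _ _ _ w hw0 hw1 B κ hκ b T hT
    refine (hD0 X K w hw0 hw1 B κ hκ b T hT).trans ?_
    have h1 : 0 ≤ ∑ x, w x * |Real.exp (B x - b) - 1| + 1 / T ^ 2 := by
      have : 0 ≤ ∑ x, w x * |Real.exp (B x - b) - 1| :=
        Finset.sum_nonneg fun x _ => mul_nonneg (hw0 x) (abs_nonneg _)
      positivity
    have h2 := mul_le_mul_of_nonneg_right (le_abs_self D0) h1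
    linarith only [h2]
  set δ : ℝ := 1 / ((N : ℝ) + 2) with hδ
  have hδ0 : 0 ≤ δ := by positivity
  set S := pS f hfm C hf.b0 N M P s u with hS
  have m1 := (Lin.continuous_f1 hf).measurable
  -- averages
  have iB : Integrable (fun ω : S.Ω => ∑ x : Fin (N + 1) → Bool, S.w ω x *
      |cavB δ f1 f2 (fun a => cubeS (S.π ω a) x) - b|) S.P := by
    refine integrable_sum_w S (G := fun ω x => |cavB δ f1 f2 (fun a => cubeS (S.π ω a) x) - b|)
      fun x => ?_
    have h := (((integrable_cavB hf δ M N x).sub (integrable_const b)).abs).comp_fst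
      (gM (GI P (N + 1)))
    exact h
  have iE : Integrable (fun ω : S.Ω => ∑ x : Fin (N + 1) → Bool, S.w ω x *
      |Real.exp (cavB δ f1 f2 (fun a => cubeS (S.π ω a) x) - b) - 1|) S.P := by
    refine integrable_sum_w S
      (G := fun ω x => |Real.exp (cavB δ f1 f2 (fun a => cubeS (S.π ω a) x) - b) - 1|)
      fun x => ?_
    have h0 : Integrable (fun ω : Fin M → Fin (N + 1) → ℝ =>
        |Real.exp (cavB δ f1 f2 (fun a => cubeS (ω a) x) - b) - 1|) (pm M N) := by
      have h1 := (int_exp_cavB hf hδ0 M N x).mul_const (Real.exp (-b))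
      refine Integrable.abs (Integrable.sub (h1.congr (Filter.Eventually.of_forall fun ω => ?_))
        (integrable_const 1))
      simp only
      rw [← Real.exp_add, ← sub_eq_add_neg]
    exact h0.comp_fst (gM (GI P (N + 1)))
  have mk1 : ∀ (x : Fin (N + 1) → Bool) (c : Fin M), Measurable
      fun ω : (Fin M → Fin (N + 1) → ℝ) × (GI P (N + 1) → ℝ) => ker1 δ f1 ω.1 x c := by
    intro x c
    unfold ker1
    exact (m1.comp (measurable_cubeS
      (g := fun ω : (Fin M → Fin (N + 1) → ℝ) × (GI P (N + 1) → ℝ) => ω.1 c)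
      (by fun_prop) x)).const_mul _
  have mk2 : ∀ (x : Fin (N + 1) → Bool) (c : Fin M × Fin (N + 1)), Measurable
      fun ω : (Fin M → Fin (N + 1) → ℝ) × (GI P (N + 1) → ℝ) => ker2 δ f1 ω.1 x c := by
    intro x c
    unfold ker2
    exact ((m1.comp (measurable_cubeS
      (g := fun ω : (Fin M → Fin (N + 1) → ℝ) × (GI P (N + 1) → ℝ) => ω.1 c.1)
      (by fun_prop) x)).const_mul _).mul_const _
  -- first term
  have i1 := integrable_w hfm hf.b0 M N s u (A := fun ω η x => A1 δ f1 f2 ω η x)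
    (fun ω η x => A1_pos δ f1 f2 ω η x) (integrable_F1 hf hfm δ M N s u)
  have t1 := lower_cosh (Q := S.P) (w := fun ω (x : Fin (N + 1) → Bool) => S.w ω x)
    (κ := fun ω => ker1 δ f1 (S.π ω))
    (B := fun ω x => cavB δ f1 f2 fun a => cubeS (S.π ω a) x) (A := A) (b := b) (T := T)
    (fun ω x => S.w0 ω x) (fun ω => S.w1 ω) (fun x => S.hw x) mk1
    (fun ω x => (sum_ker1 hf.b1 hδ0 _ x).trans hA) hT0 iB i1
  -- second term
  have i2 := integrable_w hfm hf.b0 M N s u (A := fun ω H x => A2 δ f1 f2 ω H x)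
    (fun ω η x => A2_pos δ f1 f2 ω η x) (integrable_F2 hf hfm δ M N s u)
  have mp : MeasurePreserving (fun z : ((Fin M → Fin (N + 1) → ℝ) × (GI P (N + 1) → ℝ)) ×
      (Fin M × Fin (N + 1) → ℝ) => (z.1, MeasurableEquiv.curry (Fin M) (Fin (N + 1)) ℝ z.2))
      (((pm M N).prod (gM (GI P (N + 1)))).prod (gM (Fin M × Fin (N + 1))))
      (((pm M N).prod (gM (GI P (N + 1)))).prod (pm M N)) :=
    (MeasurePreserving.id _).prod (mp_curry M N)
  have i2' := (mp.integrable_comp i2.aestronglyMeasurable).2 i2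
  have e2 := integral_map (μ := ((pm M N).prod (gM (GI P (N + 1)))).prod
    (gM (Fin M × Fin (N + 1)))) mp.measurable.aemeasurable
    (by rw [mp.map_eq]; exact i2.aestronglyMeasurable)
  rw [mp.map_eq] at e2
  have hp : ∀ z : ((Fin M → Fin (N + 1) → ℝ) × (GI P (N + 1) → ℝ)) ×
      (Fin M × Fin (N + 1) → ℝ),
      Real.log (∑ x : Fin (N + 1) → Bool, S.w z.1 x *
        A2 δ f1 f2 z.1.1 (MeasurableEquiv.curry (Fin M) (Fin (N + 1)) ℝ z.2) x) =
      Real.log (∑ x : Fin (N + 1) → Bool, S.w z.1 x *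
        Real.exp (cavB δ f1 f2 (fun a => cubeS (S.π z.1 a) x) +
          lin (ker2 δ f1 (S.π z.1)) z.2 x)) := by
    intro z
    congr 1
    refine Finset.sum_congr rfl fun x _ => ?_
    have h' : A2 δ f1 f2 z.1.1 (MeasurableEquiv.curry (Fin M) (Fin (N + 1)) ℝ z.2) x =
        Real.exp (cavB δ f1 f2 (fun a => cubeS (z.1.1 a) x) + lin (ker2 δ f1 z.1.1) z.2 x) := by
      rw [lin_ker2]
      rfl
    exact congrArg (S.w z.1 x * ·) h'
  have i2'' : Integrable (fun z : ((Fin M → Fin (N + 1) → ℝ) × (GI P (N + 1) → ℝ)) ×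
      (Fin M × Fin (N + 1) → ℝ) => Real.log (∑ x : Fin (N + 1) → Bool, S.w z.1 x *
        Real.exp (cavB δ f1 f2 (fun a => cubeS (S.π z.1 a) x) +
          lin (ker2 δ f1 (S.π z.1)) z.2 x)))
      (((pm M N).prod (gM (GI P (N + 1)))).prod (gM (Fin M × Fin (N + 1)))) :=
    i2'.congr (Filter.Eventually.of_forall fun z => hp z)
  have t2 := upper_id (Q := S.P) (D := |D0|) hD
    (w := fun ω (x : Fin (N + 1) → Bool) => S.w ω x)
    (κ := fun ω => ker2 δ f1 (S.π ω))
    (B := fun ω x => cavB δ f1 f2 fun a => cubeS (S.π ω a) x) (b := b) (T := T)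
    (fun ω x => S.w0 ω x) (fun ω => S.w1 ω) (fun x => S.hw x) mk2
    (fun ω x => (sum_ker2 hf.b1 hδ0 _ x).trans hA) hT iE i2''
  have e3 : cubeDN f f1 f2 hfm C hf.b0 N M P s u =
      (∫ z : S.Ω × (Fin M → ℝ), Real.log (∑ x : Fin (N + 1) → Bool, S.w z.1 x *
        (Real.exp (cavB δ f1 f2 fun a => cubeS (S.π z.1 a) x) *
          Real.cosh (lin (ker1 δ f1 (S.π z.1)) z.2 x))) ∂(S.P.prod (gM (Fin M)))) -
      ∫ z : S.Ω × (Fin M × Fin (N + 1) → ℝ), Real.log (∑ x : Fin (N + 1) → Bool, S.w z.1 x *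
        Real.exp (cavB δ f1 f2 (fun a => cubeS (S.π z.1 a) x) +
          lin (ker2 δ f1 (S.π z.1)) z.2 x)) ∂(S.P.prod (gM (Fin M × Fin (N + 1)))) := by
    have h1 : cubeDN f f1 f2 hfm C hf.b0 N M P s u =
      (∫ z : S.Ω × (Fin M → ℝ), Real.log (∑ x : Fin (N + 1) → Bool, S.w z.1 x *
        (Real.exp (cavB δ f1 f2 fun a => cubeS (S.π z.1 a) x) *
          Real.cosh (lin (ker1 δ f1 (S.π z.1)) z.2 x))) ∂(S.P.prod (gM (Fin M)))) -
      ∫ z : ((Fin M → Fin (N + 1) → ℝ) × (GI P (N + 1) → ℝ)) × (Fin M → Fin (N + 1) → ℝ),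
        Real.log (∑ x, (pS f hfm C hf.b0 N M P s u).w z.1 x * A2 δ f1 f2 z.1.1 z.2 x)
        ∂(((pm M N).prod (gM (GI P (N + 1)))).prod (pm M N)) := rfl
    exact h1.trans (congrArg₂ (· - ·) rfl
      (e2.trans (integral_congr_ae (Filter.Eventually.of_forall fun z => hp z))))
  have e4 : S.tav (n := 1) (fun t x => |cavB δ f1 f2 (fun a => cubeS (t a) (x 0)) - b|) =
      ∫ ω : S.Ω, ∑ x : Fin (N + 1) → Bool, S.w ω x *
        |cavB δ f1 f2 (fun a => cubeS (S.π ω a) x) - b| ∂S.P :=
    tav_one S fun t x => |cavB δ f1 f2 (fun a => cubeS (t a) x) - b|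
  have e5 : S.tav (n := 1)
      (fun t x => |Real.exp (cavB δ f1 f2 (fun a => cubeS (t a) (x 0)) - b) - 1|) =
      ∫ ω : S.Ω, ∑ x : Fin (N + 1) → Bool, S.w ω x *
        |Real.exp (cavB δ f1 f2 (fun a => cubeS (S.π ω a) x) - b) - 1| ∂S.P :=
    tav_one S fun t x => |Real.exp (cavB δ f1 f2 (fun a => cubeS (t a) x) - b) - 1|
  have n4 : 0 ≤ ∫ ω : S.Ω, ∑ x : Fin (N + 1) → Bool, S.w ω x *
        |cavB δ f1 f2 (fun a => cubeS (S.π ω a) x) - b| ∂S.P :=
    integral_nonneg fun ω => Finset.sum_nonneg fun x _ => mul_nonneg (S.w0 ω x) (abs_nonneg _)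
  have n5 : 0 ≤ ∫ ω : S.Ω, ∑ x : Fin (N + 1) → Bool, S.w ω x *
        |Real.exp (cavB δ f1 f2 (fun a => cubeS (S.π ω a) x) - b) - 1| ∂S.P :=
    integral_nonneg fun ω => Finset.sum_nonneg fun x _ => mul_nonneg (S.w0 ω x) (abs_nonneg _)
  rw [e3, e4, e5]
  have n6 : (0 : ℝ) ≤ 1 / T ^ 2 := by positivity
  have n7 : 0 ≤ Real.exp (A / 2) := (Real.exp_pos _).le
  have n8 : 0 ≤ |D0| := abs_nonneg _
  exact fin_arith t1 t2 n4 n5 n6 n7 n8

end Vale.Agent.P157.Par
end

section

/-! CLSA2: approximation of class A potentials by smooth ones, Lipschitz estimates. -/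

open MeasureTheory ProbabilityTheory Filter Topology

namespace Vale.Agent.P157.Par

/-! ### Approximation -/

lemma ClsB_log_lip {a A B : ℝ} (ha : 0 < a) (hA : a ≤ A) (hB : a ≤ B) :
    |Real.log A - Real.log B| ≤ |A - B| / a := by
  have h1 : ∀ {A B : ℝ}, a ≤ A → a ≤ B → Real.log A - Real.log B ≤ |A - B| / a := by
    intro A B hA hB
    have hA0 := ha.trans_le hA
    have hB0 := ha.trans_le hB
    rw [← Real.log_div hA0.ne' hB0.ne']
    refine (Real.log_le_sub_one_of_pos (div_pos hA0 hB0)).trans ?_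
    have e : A / B - 1 = (A - B) / B := by field_simp
    rw [e]
    calc (A - B) / B ≤ |A - B| / B := by gcongr; exact le_abs_self _
      _ ≤ |A - B| / a := by gcongr
  rw [abs_le]
  constructor
  · have := h1 hB hA
    rw [abs_sub_comm] at this
    linarith
  · exact h1 hA hB

lemma ClsB_integrable_cos (ν : Measure ℝ) [IsFiniteMeasure ν] (s : ℝ) :
    Integrable (fun l : ℝ => Real.cos (l * s)) ν := by
  apply Integrable.mono' (integrable_const (1 : ℝ))
  · exact (by fun_prop : Measurable fun l : ℝ => Real.cos (l * s)).aestronglyMeasurable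
  · exact Filter.Eventually.of_forall fun l => by
      rw [Real.norm_eq_abs]; exact Real.abs_cos_le_one _

lemma ClsB_abs_int_cos_le (ν : Measure ℝ) [IsFiniteMeasure ν] (s : ℝ) :
    |∫ l : ℝ, Real.cos (l * s) ∂ν| ≤ ν.real Set.univ := by
  have h := norm_integral_le_of_norm_le_const (μ := ν) (f := fun l : ℝ => Real.cos (l * s))
    (C := 1) (Filter.Eventually.of_forall fun l => by
      rw [Real.norm_eq_abs]; exact Real.abs_cos_le_one _)
  rwa [Real.norm_eq_abs, one_mul] at h

lemma ClsB_tail (ν : Measure ℝ) [IsFiniteMeasure ν] {δ : ℝ} (hδ : 0 < δ) :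
    ∃ n : ℕ, ν.real (Set.Icc (-(n : ℝ)) n)ᶜ ≤ δ := by
  have hanti : Antitone fun n : ℕ => (Set.Icc (-(n : ℝ)) n)ᶜ := by
    intro m n hmn
    apply Set.compl_subset_compl.mpr
    apply Set.Icc_subset_Icc
    · have : (m : ℝ) ≤ n := by exact_mod_cast hmn
      linarith
    · exact_mod_cast hmn
  have hinter : ⋂ n : ℕ, (Set.Icc (-(n : ℝ)) n)ᶜ = ∅ := by
    rw [Set.eq_empty_iff_forall_notMem]
    intro x hx
    obtain ⟨n, hn⟩ := exists_nat_ge |x|
    have := Set.mem_iInter.mp hx n
    exact this ⟨(abs_le.mp hn).1, (abs_le.mp hn).2⟩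
  have ht := tendsto_measure_iInter_atTop (μ := ν)
    (fun n : ℕ => (measurableSet_Icc (a := -(n : ℝ)) (b := n)).compl.nullMeasurableSet) hanti
    ⟨0, measure_ne_top _ _⟩
  rw [hinter, measure_empty] at ht
  have ht2 : Tendsto (fun n : ℕ => ν.real (Set.Icc (-(n : ℝ)) n)ᶜ) atTop (𝓝 0) := by
    have := (ENNReal.tendsto_toReal (ENNReal.zero_ne_top)).comp ht
    rwa [ENNReal.toReal_zero] at this
  obtain ⟨n, hn⟩ := (ht2.eventually (gt_mem_nhds hδ)).exists
  exact ⟨n, hn.le⟩

/-- Approximation of class A potentials by smooth ones. -/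
theorem classA_approx {ν : Measure ℝ} [IsFiniteMeasure ν] {C₀ : ℝ} (hν : ν.real Set.univ < C₀)
    {f : ℝ → ℝ} (hf : ∀ s : ℝ, Real.exp (f s) = C₀ - ∫ l, Real.cos (l * s) ∂ν) {ε : ℝ}
    (hε : 0 < ε) :
    ∃ (ν' : Measure ℝ) (g : ℝ → ℝ), IsFiniteMeasure ν' ∧ ν'.real Set.univ < C₀ ∧
      Integrable (fun θ : ℝ => θ ^ 4) ν' ∧
      (∀ s : ℝ, Real.exp (g s) = C₀ - ∫ l, Real.cos (l * s) ∂ν') ∧ ∀ s, |g s - f s| ≤ ε := by
  set a : ℝ := C₀ - ν.real Set.univ with ha_def
  have ha : 0 < a := by rw [ha_def]; linarith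
  obtain ⟨n, hn⟩ := ClsB_tail ν (δ := a * ε) (by positivity)
  set S : Set ℝ := Set.Icc (-(n : ℝ)) n with hS
  have hSm : MeasurableSet S := measurableSet_Icc
  have hle : (ν.restrict S).real Set.univ ≤ ν.real Set.univ := by
    rw [measureReal_restrict_apply_univ]
    exact measureReal_mono (Set.subset_univ _)
  have hpos : ∀ s : ℝ, a ≤ C₀ - ∫ l, Real.cos (l * s) ∂(ν.restrict S) := by
    intro s
    have := (abs_le.mp (ClsB_abs_int_cos_le (ν.restrict S) s)).2
    rw [ha_def]; linarith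
  have hpos' : ∀ s : ℝ, a ≤ C₀ - ∫ l, Real.cos (l * s) ∂ν := by
    intro s
    have := (abs_le.mp (ClsB_abs_int_cos_le ν s)).2
    rw [ha_def]; linarith
  refine ⟨ν.restrict S, fun s => Real.log (C₀ - ∫ l, Real.cos (l * s) ∂(ν.restrict S)),
    inferInstance, lt_of_le_of_lt hle hν, ?_, ?_, ?_⟩
  · apply Integrable.mono' (integrable_const ((n : ℝ) ^ 4))
    · exact (by fun_prop : Measurable fun θ : ℝ => θ ^ 4).aestronglyMeasurable
    · filter_upwards [ae_restrict_mem hSm] with θ hθ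
      rw [Real.norm_eq_abs, abs_pow]
      exact pow_le_pow_left₀ (abs_nonneg _) (abs_le.mpr hθ) 4
  · intro s
    exact Real.exp_log (ha.trans_le (hpos s))
  · intro s
    have e1 : f s = Real.log (C₀ - ∫ l, Real.cos (l * s) ∂ν) := by
      rw [← hf s, Real.log_exp]
    simp only
    rw [e1]
    refine (ClsB_log_lip ha (hpos s) (hpos' s)).trans ?_
    rw [div_le_iff₀ ha]
    have e2 : ∫ l, Real.cos (l * s) ∂ν = ∫ l, Real.cos (l * s) ∂(ν.restrict S) +
        ∫ l, Real.cos (l * s) ∂(ν.restrict Sᶜ) :=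
      (integral_add_compl hSm (ClsB_integrable_cos ν s)).symm
    have e3 : C₀ - ∫ l, Real.cos (l * s) ∂(ν.restrict S) - (C₀ - ∫ l, Real.cos (l * s) ∂ν) =
        ∫ l, Real.cos (l * s) ∂(ν.restrict Sᶜ) := by
      rw [e2]; ring
    rw [e3]
    refine (ClsB_abs_int_cos_le (ν.restrict Sᶜ) s).trans ?_
    rw [measureReal_restrict_apply_univ]
    linarith

/-! ### Lipschitz estimates -/

lemma ClsB_log_int {X : Type*} [MeasurableSpace X] {μ : Measure X} [IsProbabilityMeasure μ]
    {F G : X → ℝ} (hF : Integrable (fun x => Real.exp (F x)) μ)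
    (hG : Integrable (fun x => Real.exp (G x)) μ) {ε : ℝ} (h : ∀ x, |G x - F x| ≤ ε) :
    |Real.log (∫ x, Real.exp (G x) ∂μ) - Real.log (∫ x, Real.exp (F x) ∂μ)| ≤ ε := by
  have h1 : ∀ {F G : X → ℝ}, Integrable (fun x => Real.exp (F x)) μ →
      Integrable (fun x => Real.exp (G x)) μ → (∀ x, |G x - F x| ≤ ε) →
      Real.log (∫ x, Real.exp (G x) ∂μ) ≤ ε + Real.log (∫ x, Real.exp (F x) ∂μ) := by
    intro F G hF hG h
    have hFp : 0 < ∫ x, Real.exp (F x) ∂μ := integral_exp_pos hF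
    have hGp : 0 < ∫ x, Real.exp (G x) ∂μ := integral_exp_pos hG
    rw [← Real.log_exp ε, ← Real.log_mul (Real.exp_pos _).ne' hFp.ne']
    apply Real.log_le_log hGp
    rw [← integral_const_mul]
    apply integral_mono hG (hF.const_mul _)
    intro x
    simp only
    rw [← Real.exp_add, Real.exp_le_exp]
    have := (abs_le.mp (h x)).2
    linarith
  rw [abs_le]
  constructor
  · have := h1 hG hF (fun x => by rw [abs_sub_comm]; exact h x)
    linarith
  · have := h1 hF hG h
    linarith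

lemma ClsB_integrable {X : Type*} [MeasurableSpace X] {μ : Measure X} [IsProbabilityMeasure μ]
    {F : X → ℝ} (hF : Measurable F) {D : ℝ} (hD : ∀ x, |F x| ≤ D) :
    Integrable (fun x => Real.exp (F x)) μ := by
  apply Integrable.mono' (integrable_const (Real.exp D))
  · exact (Real.measurable_exp.comp hF).aestronglyMeasurable
  · exact Filter.Eventually.of_forall fun x => by
      rw [Real.norm_eq_abs, Real.abs_exp, Real.exp_le_exp]
      exact (abs_le.mp (hD x)).2

lemma ClsB_integrable' {X : Type*} [MeasurableSpace X] {μ : Measure X} [IsProbabilityMeasure μ]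
    {F : X → ℝ} (hF : Measurable F) {D : ℝ} (hD : ∀ x, |F x| ≤ D) : Integrable F μ := by
  apply Integrable.mono' (integrable_const D) hF.aestronglyMeasurable
  exact Filter.Eventually.of_forall fun x => by
    rw [Real.norm_eq_abs]; exact hD x

/-- The mean pressure is Lipschitz in the potential. -/
theorem meanPressure_lip {f g : ℝ → ℝ} (hf : Measurable f) (hg : Measurable g) {C : ℝ}
    (hfC : ∀ x, |f x| ≤ C) (hgC : ∀ x, |g x| ≤ C) {ε : ℝ} (h : ∀ x, |g x - f x| ≤ ε) {α : ℝ}
    (hα : 0 < α) {N : ℕ} (hN : 0 < N) :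
    |meanPressure cube α g N - meanPressure cube α f N| ≤ α * ε := by
  have hε : 0 ≤ ε := (abs_nonneg _).trans (h 0)
  have hN' : (0 : ℝ) < N := by exact_mod_cast hN
  unfold meanPressure
  set M := ⌊α * N⌋₊ with hM
  have hP : IsProbabilityMeasure (patterns M N) := by unfold patterns; infer_instance
  have hMN : (M : ℝ) ≤ α * N := Nat.floor_le (by positivity)
  have hC : 0 ≤ C := (abs_nonneg _).trans (hfC 0)
  have key : ∀ G : Fin M → Fin N → ℝ,
      |pressure (cube N) g G - pressure (cube N) f G| ≤ α * ε := by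
    intro G
    unfold pressure
    have hm : ∀ {f : ℝ → ℝ}, Measurable f → Measurable fun x : Fin N → ℝ =>
        ∑ a, f ((∑ i, G a i * x i) / √(N : ℝ)) := by
      intro f hf
      exact Finset.measurable_sum _ fun a _ => hf.comp (by fun_prop)
    have hb : ∀ {f : ℝ → ℝ}, (∀ x, |f x| ≤ C) → ∀ x : Fin N → ℝ,
        |∑ a, f ((∑ i, G a i * x i) / √(N : ℝ))| ≤ M * C := by
      intro f hf x
      refine (Finset.abs_sum_le_sum_abs _ _).trans ?_
      refine (Finset.sum_le_sum fun a _ => hf _).trans ?_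
      simp
    have : IsProbabilityMeasure (cube N) := by
      unfold cube
      have : IsProbabilityMeasure
          ((1 / 2 : ENNReal) • (Measure.dirac (1 : ℝ) + Measure.dirac (-1 : ℝ))) := by
        infer_instance
      infer_instance
    have h1 := ClsB_log_int (μ := cube N) (ClsB_integrable (hm hf) (hb hfC))
      (ClsB_integrable (hm hg) (hb hgC)) (ε := M * ε) (by
        intro x
        rw [← Finset.sum_sub_distrib]
        refine (Finset.abs_sum_le_sum_abs _ _).trans ?_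
        refine (Finset.sum_le_sum fun a _ => h _).trans ?_
        simp)
    rw [← mul_sub, abs_mul, abs_of_nonneg (by positivity : (0 : ℝ) ≤ 1 / N)]
    calc 1 / (N : ℝ) * _ ≤ 1 / N * (M * ε) := by gcongr
      _ ≤ 1 / N * (α * N * ε) := by gcongr
      _ = α * ε := by field_simp
  have hmeas : ∀ {f : ℝ → ℝ}, Measurable f →
      Measurable fun G : Fin M → Fin N → ℝ => pressure (cube N) f G := by
    intro f hf
    have : (fun G : Fin M → Fin N → ℝ => pressure (cube N) f G) =
        fun G => 1 / (N : ℝ) * logZ f G := by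
      funext G; exact pressure_cube f G
    rw [this]
    exact (measurable_logZ hf).const_mul _
  have hbd : ∀ {f : ℝ → ℝ}, (∀ x, |f x| ≤ C) → ∀ G : Fin M → Fin N → ℝ,
      |pressure (cube N) f G| ≤ 1 / N * (M * C) := by
    intro f hf G
    rw [pressure_cube, abs_mul, abs_of_nonneg (by positivity : (0 : ℝ) ≤ 1 / N)]
    gcongr
    exact logZ_bdd hf G
  rw [← integral_sub (ClsB_integrable' (hmeas hg) (hbd hgC))
    (ClsB_integrable' (hmeas hf) (hbd hfC))]
  have h2 := norm_integral_le_of_norm_le_const (μ := patterns M N)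
    (f := fun G => pressure (cube N) g G - pressure (cube N) f G) (C := α * ε)
    (Filter.Eventually.of_forall fun G => by rw [Real.norm_eq_abs]; exact key G)
  rw [Real.norm_eq_abs, probReal_univ, mul_one] at h2
  exact h2

lemma ClsB_gstep_meas {m v : ℝ} {F : ℝ → ℝ} (hF : Measurable F) : Measurable (gstep m v F) := by
  unfold gstep
  refine Measurable.const_mul (Real.measurable_log.comp ?_) _
  have : StronglyMeasurable fun x : ℝ => ∫ z, Real.exp (m * F (x + √v * z))
      ∂(gaussianReal 0 1) := by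
    apply StronglyMeasurable.integral_prod_right (f := fun x z => Real.exp (m * F (x + √v * z)))
    apply Measurable.stronglyMeasurable
    apply Real.measurable_exp.comp
    apply Measurable.const_mul
    exact hF.comp (by fun_prop)
  exact this.measurable

lemma ClsB_gstep_lip {m v : ℝ} (hm : 0 < m) {F G : ℝ → ℝ} (hF : Measurable F)
    (hG : Measurable G) {D : ℝ} (hFD : ∀ x, |F x| ≤ D) (hGD : ∀ x, |G x| ≤ D) {ε : ℝ}
    (h : ∀ x, |G x - F x| ≤ ε) (x : ℝ) : |gstep m v G x - gstep m v F x| ≤ ε := by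
  have hb : ∀ {F : ℝ → ℝ}, (∀ x, |F x| ≤ D) → ∀ z : ℝ, |m * F (x + √v * z)| ≤ m * D := by
    intro F hF z
    rw [abs_mul, abs_of_pos hm]
    gcongr
    exact hF _
  have hme : ∀ {F : ℝ → ℝ}, Measurable F → Measurable fun z : ℝ => m * F (x + √v * z) := by
    intro F hF
    exact (hF.comp (by fun_prop)).const_mul _
  have h1 := ClsB_log_int (μ := gaussianReal 0 1) (ClsB_integrable (hme hF) (hb hFD))
    (ClsB_integrable (hme hG) (hb hGD)) (ε := m * ε) (by
      intro z
      rw [← mul_sub, abs_mul, abs_of_pos hm]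
      gcongr
      exact h _)
  unfold gstep
  rw [← mul_sub, abs_mul, abs_of_pos (by positivity : (0 : ℝ) < 1 / m)]
  calc 1 / m * _ ≤ 1 / m * (m * ε) := by gcongr
    _ = ε := by field_simp

lemma ClsB_gstep_bdd {m v : ℝ} (hm : 0 < m) {F : ℝ → ℝ} (hF : Measurable F)
    {D : ℝ} (hFD : ∀ x, |F x| ≤ D) (x : ℝ) : |gstep m v F x| ≤ D := by
  have hD : 0 ≤ D := (abs_nonneg _).trans (hFD 0)
  have h := ClsB_gstep_lip (v := v) hm (F := fun _ => 0) (G := F) measurable_const hF (D := D)
    (fun x => by rw [abs_zero]; exact hD) hFD (ε := D) (fun x => by rw [sub_zero]; exact hFD x) x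
  have h0 : gstep m v (fun _ => 0) x = 0 := by
    unfold gstep
    simp
  rwa [h0, sub_zero] at h

lemma ClsB_cascade {m q : ℕ → ℝ} {D ε : ℝ} : ∀ {k : ℕ}, (∀ l, 1 ≤ l → l ≤ k → 0 < m l) →
    ∀ {F G : ℝ → ℝ}, Measurable F → Measurable G → (∀ x, |F x| ≤ D) → (∀ x, |G x| ≤ D) →
    (∀ x, |G x - F x| ≤ ε) → Measurable (cascade m q k F) ∧ Measurable (cascade m q k G) ∧
    (∀ x, |cascade m q k F x| ≤ D) ∧ (∀ x, |cascade m q k G x| ≤ D) ∧
    ∀ x, |cascade m q k G x - cascade m q k F x| ≤ ε := by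
  intro k
  induction k with
  | zero =>
    intro _ F G hF hG hFD hGD h
    exact ⟨hF, hG, hFD, hGD, h⟩
  | succ k ih =>
    intro hm F G hF hG hFD hGD h
    have hmk := hm (k + 1) (by omega) le_rfl
    exact ih (fun l hl hl' => hm l hl (by omega)) (ClsB_gstep_meas hF) (ClsB_gstep_meas hG)
      (ClsB_gstep_bdd hmk hF hFD) (ClsB_gstep_bdd hmk hG hGD)
      (ClsB_gstep_lip hmk hF hG hFD hGD h)

/-- The pattern part is Lipschitz in the potential. -/
theorem patternPart_lip {f g : ℝ → ℝ} (hf : Measurable f) (hg : Measurable g) {C : ℝ}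
    (hfC : ∀ x, |f x| ≤ C) (hgC : ∀ x, |g x| ≤ C) {ε : ℝ} (h : ∀ x, |g x - f x| ≤ ε)
    {k : ℕ} {m q : ℕ → ℝ} (hm : ∀ l, 1 ≤ l → l ≤ k → 0 < m l) :
    |patternPart g k m q - patternPart f k m q| ≤ ε := by
  have e : ∀ f : ℝ → ℝ, (fun x : ℝ => Real.log (∫ y, Real.exp (f (x + √(1 - q k) * y))
      ∂(gaussianReal 0 1))) = gstep 1 (1 - q k) f := by
    intro f
    funext x
    unfold gstep
    simp
  obtain ⟨h1, h2, h3, h4, h5⟩ := ClsB_cascade (q := q) hm
    (ClsB_gstep_meas (m := 1) (v := 1 - q k) hf) (ClsB_gstep_meas (m := 1) (v := 1 - q k) hg)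
    (ClsB_gstep_bdd one_pos hf hfC) (ClsB_gstep_bdd one_pos hg hgC)
    (ClsB_gstep_lip one_pos hf hg hfC hgC h)
  unfold patternPart
  rw [e f, e g]
  have i1 : Integrable (fun z => cascade m q k (gstep 1 (1 - q k) g) (√(q 0) * z))
      (gaussianReal 0 1) :=
    ClsB_integrable' (h2.comp (by fun_prop : Measurable fun z : ℝ => √(q 0) * z)) (fun z => h4 _)
  have i2 : Integrable (fun z => cascade m q k (gstep 1 (1 - q k) f) (√(q 0) * z))
      (gaussianReal 0 1) :=
    ClsB_integrable' (h1.comp (by fun_prop : Measurable fun z : ℝ => √(q 0) * z)) (fun z => h3 _)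
  rw [← integral_sub i1 i2]
  have h6 := norm_integral_le_of_norm_le_const (μ := gaussianReal 0 1)
    (f := fun z => cascade m q k (gstep 1 (1 - q k) g) (√(q 0) * z) -
      cascade m q k (gstep 1 (1 - q k) f) (√(q 0) * z)) (C := ε)
    (Filter.Eventually.of_forall fun z => by rw [Real.norm_eq_abs]; exact h5 _)
  rw [Real.norm_eq_abs, probReal_univ, mul_one] at h6
  exact h6

end Vale.Agent.P157.Par
end

section

/-!
The pattern part of the Parisi functional is Lipschitz in the potential for the `L¹` distance,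
uniformly in the parameters.
-/

open MeasureTheory ProbabilityTheory Filter Topology

namespace Vale.Agent.P157.Par

/-- Bounded measurable functions are integrable. -/
lemma bp_int {h : ℝ → ℝ} (hh : Measurable h) {C : ℝ} (hC : ∀ x, |h x| ≤ C) :
    Integrable h (gaussianReal 0 1) :=
  (integrable_const C).mono' hh.aestronglyMeasurable
    (Filter.Eventually.of_forall fun x => by rw [Real.norm_eq_abs]; exact hC x)

/-- The sum of two independent Gaussian variables. -/
lemma bp_conv {h : ℝ → ℝ} (hh : Measurable h) {C : ℝ} (hC : ∀ x, |h x| ≤ C) {a v : ℝ}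
    (ha : 0 ≤ a) (hv : 0 ≤ v) :
    ∫ z, ∫ w, h (√a * z + √v * w) ∂(gaussianReal 0 1) ∂(gaussianReal 0 1) =
      ∫ z, h (√(a + v) * z) ∂(gaussianReal 0 1) := by
  have e : ∀ b : ℝ, ∀ hb : 0 ≤ b, (gaussianReal 0 1).map (fun z => √b * z) =
      gaussianReal 0 ⟨b, hb⟩ := by
    intro b hb
    rw [gaussianReal_map_const_mul]
    simp only [mul_zero, mul_one]
    congr 1
    apply NNReal.eq
    simp [Real.sq_sqrt hb]
    rfl
  have e2 : ((gaussianReal 0 1).prod (gaussianReal 0 1)).map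
      (fun p : ℝ × ℝ => √a * p.1 + √v * p.2) =
      (gaussianReal 0 1).map (fun z => √(a + v) * z) := by
    rw [e (a + v) (by positivity)]
    have h1 : ((gaussianReal 0 1).prod (gaussianReal 0 1)).map
        (fun p : ℝ × ℝ => √a * p.1 + √v * p.2) =
        (((gaussianReal 0 1).map (fun z => √a * z)).prod
          ((gaussianReal 0 1).map (fun z => √v * z))).map (fun p : ℝ × ℝ => p.1 + p.2) := by
      rw [Measure.map_prod_map _ _ (by fun_prop) (by fun_prop),
        Measure.map_map (by fun_prop) (by fun_prop)]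
      rfl
    rw [h1, e a ha, e v hv]
    have h2 := gaussianReal_conv_gaussianReal (m₁ := 0) (m₂ := 0) (v₁ := ⟨a, ha⟩) (v₂ := ⟨v, hv⟩)
    unfold Measure.conv at h2
    rw [h2, add_zero]
    rfl
  have hm : Measurable (fun p : ℝ × ℝ => √a * p.1 + √v * p.2) := by fun_prop
  have h3 : ∫ z, h (√(a + v) * z) ∂(gaussianReal 0 1) =
      ∫ p : ℝ × ℝ, h (√a * p.1 + √v * p.2) ∂((gaussianReal 0 1).prod (gaussianReal 0 1)) := by
    rw [← integral_map (φ := fun z => √(a + v) * z) (by fun_prop) hh.aestronglyMeasurable, ← e2,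
      integral_map hm.aemeasurable hh.aestronglyMeasurable]
  rw [h3, integral_prod]
  exact (integrable_const C).mono' (hh.comp hm).aestronglyMeasurable
    (Filter.Eventually.of_forall fun x => by rw [Real.norm_eq_abs]; exact hC _)

variable {F G : ℝ → ℝ} {B : ℝ}

lemma bp_exp_gstep {m v : ℝ} (hm : 0 < m) (hF : Measurable F) (hFB : ∀ x, |F x| ≤ B) (x : ℝ) :
    0 < ∫ z, Real.exp (m * F (x + √v * z)) ∂(gaussianReal 0 1) ∧
    Real.exp (m * gstep m v F x) = ∫ z, Real.exp (m * F (x + √v * z)) ∂(gaussianReal 0 1) := by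
  have hp : 0 < ∫ z, Real.exp (m * F (x + √v * z)) ∂(gaussianReal 0 1) := by
    apply integral_exp_pos
    refine bp_int (C := Real.exp (m * B)) ?_ fun z => ?_
    · exact Real.measurable_exp.comp ((hF.comp (by fun_prop)).const_mul m)
    · rw [abs_of_pos (Real.exp_pos _)]
      gcongr
      exact (le_abs_self _).trans (hFB _)
  refine ⟨hp, ?_⟩
  unfold gstep
  rw [← mul_assoc, mul_one_div_cancel hm.ne', one_mul, Real.exp_log hp]

/-- Jensen's inequality for one step of the cascade. -/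
lemma bp_sub_le {m v : ℝ} (hm : 0 < m) (hF : Measurable F) (hG : Measurable G)
    (hFB : ∀ x, |F x| ≤ B) (hGB : ∀ x, |G x| ≤ B) (x : ℝ) :
    gstep m v F x - gstep m v G x ≤
      (∫ z, (F (x + √v * z) - G (x + √v * z)) * Real.exp (m * F (x + √v * z))
        ∂(gaussianReal 0 1)) / ∫ z, Real.exp (m * F (x + √v * z)) ∂(gaussianReal 0 1) := by
  obtain ⟨hA, -⟩ := bp_exp_gstep (v := v) hm hF hFB x
  obtain ⟨hC, -⟩ := bp_exp_gstep (v := v) hm hG hGB x
  set A := ∫ z, Real.exp (m * F (x + √v * z)) ∂(gaussianReal 0 1) with hAdef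
  set C := ∫ z, Real.exp (m * G (x + √v * z)) ∂(gaussianReal 0 1) with hCdef
  set I := ∫ z, (F (x + √v * z) - G (x + √v * z)) * Real.exp (m * F (x + √v * z))
        ∂(gaussianReal 0 1) with hIdef
  have hmF : Measurable fun z : ℝ => F (x + √v * z) := hF.comp (by fun_prop)
  have hmG : Measurable fun z : ℝ => G (x + √v * z) := hG.comp (by fun_prop)
  have iE : ∀ {H : ℝ → ℝ}, Measurable H → (∀ z, |H z| ≤ B) →
      Integrable (fun z => Real.exp (m * H z)) (gaussianReal 0 1) := by
    intro H hH hHB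
    refine bp_int (C := Real.exp (m * B)) (Real.measurable_exp.comp (hH.const_mul m)) fun z => ?_
    rw [abs_of_pos (Real.exp_pos _)]
    gcongr
    exact (le_abs_self _).trans (hHB _)
  have iF := iE hmF (fun z => hFB _)
  have iG := iE hmG (fun z => hGB _)
  have iI : Integrable (fun z => (F (x + √v * z) - G (x + √v * z)) *
      Real.exp (m * F (x + √v * z))) (gaussianReal 0 1) := by
    refine bp_int (C := (2 * B) * Real.exp (m * B)) ((hmF.sub hmG).mul
      (Real.measurable_exp.comp (hmF.const_mul m))) fun z => ?_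
    rw [abs_mul, abs_of_pos (Real.exp_pos _)]
    have h1 := hFB (x + √v * z)
    have h2 := hGB (x + √v * z)
    have hB : 0 ≤ B := (abs_nonneg _).trans h1
    gcongr
    · calc |F (x + √v * z) - G (x + √v * z)| ≤ |F (x + √v * z)| + |G (x + √v * z)| := abs_sub _ _
        _ ≤ 2 * B := by linarith
    · exact (le_abs_self _).trans h1
  have key : Real.exp (-(m * (I / A))) * A ≤ C := by
    have h1 : ∀ z, Real.exp (-(m * (I / A))) * ((1 + m * (I / A)) * Real.exp (m * F (x + √v * z)) -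
        m * ((F (x + √v * z) - G (x + √v * z)) * Real.exp (m * F (x + √v * z)))) ≤
        Real.exp (m * G (x + √v * z)) := by
      intro z
      have h2 := Real.add_one_le_exp (m * (G (x + √v * z) - F (x + √v * z)) + m * (I / A))
      have h3 : Real.exp (m * G (x + √v * z)) = Real.exp (-(m * (I / A))) *
          (Real.exp (m * F (x + √v * z)) *
          Real.exp (m * (G (x + √v * z) - F (x + √v * z)) + m * (I / A))) := by
        rw [← Real.exp_add, ← Real.exp_add]
        congr 1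
        ring
      rw [h3]
      apply mul_le_mul_of_nonneg_left _ (Real.exp_pos _).le
      calc (1 + m * (I / A)) * Real.exp (m * F (x + √v * z)) -
            m * ((F (x + √v * z) - G (x + √v * z)) * Real.exp (m * F (x + √v * z)))
          = Real.exp (m * F (x + √v * z)) *
            (m * (G (x + √v * z) - F (x + √v * z)) + m * (I / A) + 1) := by ring
        _ ≤ _ := mul_le_mul_of_nonneg_left h2 (Real.exp_pos _).le
    have h4 := integral_mono (((iF.const_mul (1 + m * (I / A))).sub (iI.const_mul m)).const_mul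
      (Real.exp (-(m * (I / A))))) iG h1
    have h5 : ∫ z, Real.exp (-(m * (I / A))) *
        ((1 + m * (I / A)) * Real.exp (m * F (x + √v * z)) -
        m * ((F (x + √v * z) - G (x + √v * z)) * Real.exp (m * F (x + √v * z))))
        ∂(gaussianReal 0 1) = Real.exp (-(m * (I / A))) * A := by
      rw [integral_const_mul, integral_sub (iF.const_mul (1 + m * (I / A))) (iI.const_mul m),
        integral_const_mul, integral_const_mul, ← hAdef, ← hIdef]
      field_simp
      ring
    calc _ = _ := h5.symm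
      _ ≤ _ := h4
  have h6 : Real.log A - Real.log C ≤ m * (I / A) := by
    have h7 := Real.log_le_log (by positivity) key
    rw [Real.log_mul (Real.exp_pos _).ne' hA.ne', Real.log_exp] at h7
    linarith
  unfold gstep
  rw [← mul_sub, ← hAdef, ← hCdef]
  calc 1 / m * (Real.log A - Real.log C) ≤ 1 / m * (m * (I / A)) := by gcongr
    _ = I / A := by field_simp

/-- One step of the induction. -/
lemma bp_step {m m' a v : ℝ} (hm : 0 < m) (hm' : m' ≤ m) (ha : 0 ≤ a) (hv : 0 ≤ v)
    (hF : Measurable F) (hG : Measurable G) (hFB : ∀ x, |F x| ≤ B) (hGB : ∀ x, |G x| ≤ B) :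
    ∫ z, max (gstep m v F (√a * z) - gstep m v G (√a * z)) 0 *
        Real.exp (m' * gstep m v F (√a * z)) ∂(gaussianReal 0 1) ≤
      Real.exp ((m - m') * B) * ∫ z, max (F (√(a + v) * z) - G (√(a + v) * z)) 0 *
        Real.exp (m * F (√(a + v) * z)) ∂(gaussianReal 0 1) := by
  have hB : 0 ≤ B := (abs_nonneg _).trans (hFB 0)
  have hF' := ClsB_gstep_bdd (v := v) hm hF hFB
  have hG' := ClsB_gstep_bdd (v := v) hm hG hGB
  have hmF' : Measurable (gstep m v F) := ClsB_gstep_meas hF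
  have hmG' : Measurable (gstep m v G) := ClsB_gstep_meas hG
  set K : ℝ → ℝ := fun y => max (F y - G y) 0 * Real.exp (m * F y) with hK
  have hKm : Measurable K :=
    ((hF.sub hG).max measurable_const).mul (Real.measurable_exp.comp (hF.const_mul m))
  have hK0 : ∀ y, 0 ≤ K y := fun y => mul_nonneg (le_max_right _ _) (Real.exp_pos _).le
  have hmaxb : ∀ {s t : ℝ}, |s| ≤ B → |t| ≤ B → max (s - t) 0 ≤ 2 * B := by
    intro s t hs ht
    refine max_le ?_ (by positivity)
    have h1 := (abs_le.1 hs).2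
    have h2 := (abs_le.1 ht).1
    linarith
  have hKb : ∀ y, |K y| ≤ (2 * B) * Real.exp (m * B) := by
    intro y
    rw [abs_of_nonneg (hK0 y)]
    apply mul_le_mul (hmaxb (hFB y) (hGB y)) _ (Real.exp_pos _).le (by positivity)
    gcongr
    exact (le_abs_self _).trans (hFB _)
  have hNint : ∀ x, Integrable (fun w => K (x + √v * w)) (gaussianReal 0 1) := fun x =>
    bp_int (hKm.comp (by fun_prop)) fun w => hKb _
  -- pointwise bound
  have hpt : ∀ x, max (gstep m v F x - gstep m v G x) 0 * Real.exp (m' * gstep m v F x) ≤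
      Real.exp ((m - m') * B) * ∫ w, K (x + √v * w) ∂(gaussianReal 0 1) := by
    intro x
    obtain ⟨hA, hA2⟩ := bp_exp_gstep (v := v) hm hF hFB x
    have hN0 : 0 ≤ ∫ w, K (x + √v * w) ∂(gaussianReal 0 1) :=
      integral_nonneg fun w => hK0 _
    have h1 : max (gstep m v F x - gstep m v G x) 0 ≤
        (∫ w, K (x + √v * w) ∂(gaussianReal 0 1)) /
          ∫ z, Real.exp (m * F (x + √v * z)) ∂(gaussianReal 0 1) := by
      refine max_le ((bp_sub_le hm hF hG hFB hGB x).trans ?_) (div_nonneg hN0 hA.le)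
      apply div_le_div_of_nonneg_right _ hA.le
      apply integral_mono _ (hNint x)
      · intro w
        exact mul_le_mul_of_nonneg_right (le_max_left _ _) (Real.exp_pos _).le
      · refine bp_int (C := (2 * B) * Real.exp (m * B)) (((hF.comp (by fun_prop)).sub
          (hG.comp (by fun_prop))).mul (Real.measurable_exp.comp
          ((hF.comp (by fun_prop)).const_mul m))) fun z => ?_
        rw [abs_mul, abs_of_pos (Real.exp_pos _)]
        have h1 := hFB (x + √v * z)
        have h2 := hGB (x + √v * z)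
        gcongr
        · calc |F (x + √v * z) - G (x + √v * z)| ≤ |F (x + √v * z)| + |G (x + √v * z)| :=
                abs_sub _ _
            _ ≤ 2 * B := by linarith
        · exact (le_abs_self _).trans h1
    rw [← hA2] at h1
    calc max (gstep m v F x - gstep m v G x) 0 * Real.exp (m' * gstep m v F x)
        ≤ (∫ w, K (x + √v * w) ∂(gaussianReal 0 1)) / Real.exp (m * gstep m v F x) *
          Real.exp (m' * gstep m v F x) := by gcongr
      _ = (∫ w, K (x + √v * w) ∂(gaussianReal 0 1)) *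
          Real.exp ((m - m') * (- gstep m v F x)) := by
          rw [div_mul_eq_mul_div, mul_div_assoc, ← Real.exp_sub]
          congr 2
          ring
      _ ≤ (∫ w, K (x + √v * w) ∂(gaussianReal 0 1)) * Real.exp ((m - m') * B) := by
          gcongr
          have := (abs_le.1 (hF' x)).1
          linarith
      _ = _ := by ring
  have hmN : Measurable fun x : ℝ => ∫ w, K (x + √v * w) ∂(gaussianReal 0 1) := by
    have : StronglyMeasurable fun x : ℝ => ∫ w, K (x + √v * w) ∂(gaussianReal 0 1) := by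
      apply StronglyMeasurable.integral_prod_right (f := fun x w => K (x + √v * w))
      apply Measurable.stronglyMeasurable
      exact hKm.comp (by fun_prop)
    exact this.measurable
  calc ∫ z, max (gstep m v F (√a * z) - gstep m v G (√a * z)) 0 *
        Real.exp (m' * gstep m v F (√a * z)) ∂(gaussianReal 0 1)
      ≤ ∫ z, Real.exp ((m - m') * B) * ∫ w, K (√a * z + √v * w) ∂(gaussianReal 0 1)
        ∂(gaussianReal 0 1) := by
        apply integral_mono_of_nonneg
        · exact Filter.Eventually.of_forall fun z =>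
            mul_nonneg (le_max_right _ _) (Real.exp_pos _).le
        · refine Integrable.const_mul (bp_int (C := (2 * B) * Real.exp (m * B))
            (hmN.comp (by fun_prop : Measurable fun z : ℝ => √a * z)) fun z => ?_) _
          have h2 := norm_integral_le_of_norm_le_const (μ := gaussianReal 0 1)
            (f := fun w => K (√a * z + √v * w)) (C := (2 * B) * Real.exp (m * B))
            (Filter.Eventually.of_forall fun w => by rw [Real.norm_eq_abs]; exact hKb _)
          rwa [Real.norm_eq_abs, probReal_univ, mul_one] at h2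
        · exact Filter.Eventually.of_forall fun z => hpt _
    _ = Real.exp ((m - m') * B) * ∫ z, K (√(a + v) * z) ∂(gaussianReal 0 1) := by
        rw [integral_const_mul, bp_conv hKm hKb ha hv]

/-- The induction on the levels of the cascade. -/
lemma bp_cascade {m q : ℕ → ℝ} (hm0 : m 0 = 0) (hq0 : 0 ≤ q 0) : ∀ {l : ℕ},
    (∀ j < l, m j < m (j + 1)) → (∀ j < l, q j ≤ q (j + 1)) → ∀ {F G : ℝ → ℝ}, Measurable F →
    Measurable G → (∀ x, |F x| ≤ B) → (∀ x, |G x| ≤ B) →
    ∫ z, cascade m q l F (√(q 0) * z) ∂(gaussianReal 0 1) -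
      ∫ z, cascade m q l G (√(q 0) * z) ∂(gaussianReal 0 1) ≤
      Real.exp (m l * B) * ∫ z, max (F (√(q l) * z) - G (√(q l) * z)) 0 *
        Real.exp (m l * F (√(q l) * z)) ∂(gaussianReal 0 1) := by
  intro l
  induction l with
  | zero =>
    intro _ _ F G hF hG hFB hGB
    have hB : 0 ≤ B := (abs_nonneg _).trans (hFB 0)
    have iF : Integrable (fun z => F (√(q 0) * z)) (gaussianReal 0 1) :=
      bp_int (hF.comp (by fun_prop)) fun z => hFB _
    have iG : Integrable (fun z => G (√(q 0) * z)) (gaussianReal 0 1) :=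
      bp_int (hG.comp (by fun_prop)) fun z => hGB _
    rw [hm0]
    simp only [cascade, zero_mul, Real.exp_zero, one_mul, mul_one]
    rw [← integral_sub iF iG]
    apply integral_mono (iF.sub iG)
    · refine (iF.sub iG).sup (integrable_const 0)
    · intro z
      exact le_max_left _ _
  | succ l ih =>
    intro hm hq F G hF hG hFB hGB
    have hB : 0 ≤ B := (abs_nonneg _).trans (hFB 0)
    have hml : 0 ≤ m l := by
      clear ih hF hG hFB hGB
      have : ∀ j ≤ l, 0 ≤ m j := by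
        intro j
        induction j with
        | zero => intro _; rw [hm0]
        | succ j ihj => intro hj; exact (ihj (by omega)).trans (hm j (by omega)).le
      exact this l le_rfl
    have hql : 0 ≤ q l := by
      have : ∀ j ≤ l, 0 ≤ q j := by
        intro j
        induction j with
        | zero => intro _; exact hq0
        | succ j ihj => intro hj; exact (ihj (by omega)).trans (hq j (by omega))
      exact this l le_rfl
    have hmm : m l < m (l + 1) := hm l (by omega)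
    have hm1 : 0 < m (l + 1) := hml.trans_lt hmm
    have hqv : 0 ≤ q (l + 1) - q l := sub_nonneg.2 (hq l (by omega))
    have h1 := ih (fun j hj => hm j (by omega)) (fun j hj => hq j (by omega))
      (F := gstep (m (l + 1)) (q (l + 1) - q l) F) (G := gstep (m (l + 1)) (q (l + 1) - q l) G)
      (ClsB_gstep_meas hF) (ClsB_gstep_meas hG) (ClsB_gstep_bdd hm1 hF hFB)
      (ClsB_gstep_bdd hm1 hG hGB)
    have h2 := bp_step hm1 hmm.le hql hqv hF hG hFB hGB
    rw [add_sub_cancel] at h2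
    simp only [cascade]
    refine h1.trans ?_
    calc _ ≤ Real.exp (m l * B) * (Real.exp ((m (l + 1) - m l) * B) * _) := by gcongr
      _ = _ := by
        rw [← mul_assoc, ← Real.exp_add]
        congr 2
        ring

/-- The one-sided inequality. -/
lemma bp_pattern_le {f g : ℝ → ℝ} {k : ℕ} {m q : ℕ → ℝ} (hm : Exponents k m) (hq : Path k q)
    (hq1 : q k ≤ 1) (hf : Measurable f) (hg : Measurable g) (hfB : ∀ x, |f x| ≤ B)
    (hgB : ∀ x, |g x| ≤ B) :
    patternPart f k m q - patternPart g k m q ≤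
      Real.exp (2 * B) * ∫ x, |f x - g x| ∂(gaussianReal 0 1) := by
  obtain ⟨hm0, hmk, hmm⟩ := hm
  obtain ⟨hq0, hqm⟩ := hq
  have hB : 0 ≤ B := (abs_nonneg _).trans (hfB 0)
  have e : ∀ f : ℝ → ℝ, (fun x : ℝ => Real.log (∫ y, Real.exp (f (x + √(1 - q k) * y))
      ∂(gaussianReal 0 1))) = gstep 1 (1 - q k) f := by
    intro f
    funext x
    unfold gstep
    simp
  have hqk : 0 ≤ q k := by
    have : ∀ j ≤ k, 0 ≤ q j := by
      intro j
      induction j with
      | zero => intro _; exact hq0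
      | succ j ihj => intro hj; exact (ihj (by omega)).trans (hqm j (by omega))
    exact this k le_rfl
  have hmk1 : m k ≤ 1 := by rw [← hmk]; exact (hmm k le_rfl).le
  unfold patternPart
  rw [e f, e g]
  have h1 := bp_cascade (B := B) hm0 hq0 (l := k) (fun j hj => hmm j hj.le) hqm
    (ClsB_gstep_meas (m := 1) (v := 1 - q k) hf) (ClsB_gstep_meas (m := 1) (v := 1 - q k) hg)
    (ClsB_gstep_bdd one_pos hf hfB) (ClsB_gstep_bdd one_pos hg hgB)
  have h2 := bp_step (m := 1) (m' := m k) (a := q k) (v := 1 - q k) one_pos hmk1 hqk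
    (sub_nonneg.2 hq1) hf hg hfB hgB
  rw [add_sub_cancel] at h2
  simp only [Real.sqrt_one, one_mul] at h2
  have h3 : ∫ z, max (f z - g z) 0 * Real.exp (f z) ∂(gaussianReal 0 1) ≤
      Real.exp B * ∫ x, |f x - g x| ∂(gaussianReal 0 1) := by
    rw [← integral_const_mul]
    apply integral_mono_of_nonneg
    · exact Filter.Eventually.of_forall fun z =>
        mul_nonneg (le_max_right _ _) (Real.exp_pos _).le
    · exact ((bp_int hf hfB).sub (bp_int hg hgB)).abs.const_mul _
    · refine Filter.Eventually.of_forall fun z => ?_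
      simp only
      rw [mul_comm (Real.exp B)]
      apply mul_le_mul (max_le (le_abs_self _) (abs_nonneg _)) _ (Real.exp_pos _).le (abs_nonneg _)
      gcongr
      exact (le_abs_self _).trans (hfB z)
  refine h1.trans ?_
  calc _ ≤ Real.exp (m k * B) * (Real.exp ((1 - m k) * B) *
        (Real.exp B * ∫ x, |f x - g x| ∂(gaussianReal 0 1))) := by
        refine mul_le_mul_of_nonneg_left (h2.trans ?_) (Real.exp_pos _).le
        exact mul_le_mul_of_nonneg_left h3 (Real.exp_pos _).le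
    _ = _ := by
        rw [← mul_assoc, ← mul_assoc, ← Real.exp_add, ← Real.exp_add]
        congr 2
        ring

/-- **The pattern part is Lipschitz in the potential**, uniformly in the parameters. -/
theorem patternPart_lip_L1 {f g : ℝ → ℝ} {k : ℕ} {m q : ℕ → ℝ} (hm : Exponents k m)
    (hq : Path k q) (hq1 : q k ≤ 1) (hf : Measurable f) (hg : Measurable g)
    (hfB : ∀ x, |f x| ≤ B) (hgB : ∀ x, |g x| ≤ B) :
    |patternPart f k m q - patternPart g k m q| ≤
      Real.exp (2 * B) * ∫ x, |f x - g x| ∂(gaussianReal 0 1) := by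
  rw [abs_le]
  constructor
  · have h := bp_pattern_le hm hq hq1 hg hf hgB hfB
    simp only [abs_sub_comm (g _) (f _)] at h
    linarith
  · exact bp_pattern_le hm hq hq1 hf hg hfB hgB

end Vale.Agent.P157.Par
end
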