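import Vale.Agent.P146.Bdl.B17
import Vale.Agent.P146.Bdl.B10
import Vale.Agent.P146.Bdl.B6
import Vale.Agent.P146.Bdl.B16
import Vale.Agent.P146.Bdl.B2
import Vale.Agent.P146.Bdl.B18
import Vale.Agent.P146.Bdl.B13

set_option linter.all false

section

/-!
The Guerra upper bound for the Ising perceptron at every density, for `e^f = C - (positive
definite)`.
-/

open MeasureTheory ProbabilityTheory Filter Topology

namespace Vale.Agent.P157.Par

lemma sum_spin_sq {N : ℕ} (x : Fin N → Bool) : ∑ i, spin x i ^ 2 = N := by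
  have : ∀ i, spin x i ^ 2 = 1 := by intro i; unfold spin; split_ifs <;> norm_num
  simp [this]

section

variable {f : ℝ → ℝ} {ν : Measure ℝ} [IsFiniteMeasure ν] {C₀ : ℝ}

lemma hRs_spin {k N : ℕ} {m r : ℕ → ℝ} (hm : Exponents k m) (hN : 0 < N)
    (u : (Fin N → Bool) → ℝ) (c : ℝ) :
    Path k (Rs m r k (lw spin c u) (bw spin c u)) ∧
      Rs m r k (lw spin c u) (bw spin c u) k ≤ 1 := by
  have hp : ∀ j < k, 0 < m (j + 1) := fun j hj => hm.pos j hj.le
  refine ⟨Rs_path hp (lip_lw spin c u) (eg_bw spin c u), ?_⟩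
  rw [Rs_eq_R1]
  exact R1_le_one hp sum_spin_sq hN c u

/-- The Guerra bound at finite volume. -/
theorem guerra_classA {k N : ℕ} {m r : ℕ → ℝ} (hN : 0 < N)
    (hν : ν.real Set.univ < C₀) (hf : ∀ s : ℝ, Real.exp (f s) = C₀ - ∫ l, Real.cos (l * s) ∂ν)
    (hm : Exponents k m) (hr : Path k r) {α : ℝ} (hM : 0 < ⌊α * N⌋₊) {C : ℝ}
    (hC : ∀ q, Path k q → q k ≤ 1 → (⌊α * N⌋₊ : ℝ) / N * patternPart f k m q +
      1 / 2 * ∑ l ∈ Finset.range (k + 1), (m (l + 1) - m l) * r l * q l ≤ C) :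
    meanPressure cube α f N ≤ C + spinPart k m r +
      r k / 2 * ((1 + Real.log (⌊α * N⌋₊ : ℝ)) / (⌊α * N⌋₊ : ℝ)) := by
  obtain ⟨K, hK⟩ := classA_bdd hν hf
  refine guerra_finite hN hm hr (classA_meas hf) hK (fun u c c' => ?_) (fun u c => ?_)
    (hRs_spin hm hN) hM hC
  · exact field_step hm hr spin sum_spin_sq hN u c c'
  · exact one_pattern hν hf hm sum_spin_sq hN c u

/-- The Guerra bound in the limit. -/
theorem guerra_limit_classA {k : ℕ} {m r : ℕ → ℝ}
    (hν : ν.real Set.univ < C₀) (hf : ∀ s : ℝ, Real.exp (f s) = C₀ - ∫ l, Real.cos (l * s) ∂ν)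
    (hm : Exponents k m) (hr : Path k r) {α : ℝ} (hα : 0 < α) {C : ℝ}
    (hC : ∀ q, Path k q → q k ≤ 1 → parisi α f k m q r ≤ C) {ε : ℝ} (hε : 0 < ε) :
    ∀ᶠ N : ℕ in atTop, meanPressure cube α f N ≤ C + ε := by
  obtain ⟨K, hK⟩ := classA_bdd hν hf
  refine guerra_limit hm hr (classA_meas hf) hK (fun N hN u c c' => ?_) (fun N hN u c => ?_)
    (fun N hN => hRs_spin hm hN) hα hC hε
  · exact field_step hm hr spin sum_spin_sq hN u c c'
  · exact one_pattern hν hf hm sum_spin_sq hN c u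

end

end Vale.Agent.P157.Par
end

section

open MeasureTheory ProbabilityTheory Filter Topology

namespace Vale.Agent.P157.Par

/-- The statement of the lower bound for smooth class A potentials. -/
def LowerBound : Prop :=
  ∀ (ν : Measure ℝ) [IsFiniteMeasure ν] (C₀ : ℝ), ν.real Set.univ < C₀ →
    Integrable (fun θ : ℝ => θ ^ 4) ν → ∀ f : ℝ → ℝ,
    (∀ s : ℝ, Real.exp (f s) = C₀ - ∫ l, Real.cos (l * s) ∂ν) → ∀ α p : ℝ, 0 < α →
    (∀ ε > 0, ∃ᶠ N in atTop, meanPressure cube α f N < p + ε) →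
    ∀ ε > 0, ∃ (k : ℕ) (m r : ℕ → ℝ), Exponents k m ∧ Path k r ∧
      ∀ q, Path k q → q k ≤ 1 → parisi α f k m q r ≤ p + ε

section

variable {ν : Measure ℝ} [IsFiniteMeasure ν] {C₀ : ℝ} {f : ℝ → ℝ} {α : ℝ}

/-- The values of the Parisi functional for fixed exponents and dual path. -/
def vals (α : ℝ) (f : ℝ → ℝ) (k : ℕ) (m r : ℕ → ℝ) : Set ℝ :=
  {y | ∃ q, Path k q ∧ q k ≤ 1 ∧ y = parisi α f k m q r}

lemma Path.le_last {k : ℕ} {q : ℕ → ℝ} (hq : Path k q) {l : ℕ} (hl : l ≤ k) : q l ≤ q k := by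
  induction k with
  | zero =>
    obtain rfl : l = 0 := by omega
    exact le_rfl
  | succ k ih =>
    rcases Nat.le_succ_iff.1 hl with h | h
    · exact (ih ⟨hq.1, fun i hi => hq.2 i (by omega)⟩ h).trans (hq.2 k (by omega))
    · subst h
      exact le_rfl

lemma vals_le {k : ℕ} {m r : ℕ → ℝ} (hf : Measurable f) {K : ℝ} (hK : ∀ x, |f x| ≤ K)
    (hα : 0 < α) (hm : Exponents k m) (hr : Path k r) {y : ℝ} (hy : y ∈ vals α f k m r) :
    y ≤ α * K + spinPart k m r + 1 / 2 * ∑ l ∈ Finset.range (k + 1), (m (l + 1) - m l) * r l := by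
  obtain ⟨q, hq, hq1, rfl⟩ := hy
  unfold parisi
  have h1 : α * patternPart f k m q ≤ α * K :=
    mul_le_mul_of_nonneg_left ((le_abs_self _).trans (abs_patternPart_le hf hK hm q)) hα.le
  have h2 : ∑ l ∈ Finset.range (k + 1), (m (l + 1) - m l) * r l * q l ≤
      ∑ l ∈ Finset.range (k + 1), (m (l + 1) - m l) * r l := by
    refine Finset.sum_le_sum fun l hl => ?_
    have hl' : l ≤ k := by
      have := Finset.mem_range.1 hl
      omega
    have h3 : 0 ≤ (m (l + 1) - m l) * r l :=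
      mul_nonneg (sub_nonneg.2 (hm.2.2 l hl').le) (hr.nonneg l hl')
    have h4 : q l ≤ 1 := (hq.le_last hl').trans hq1
    exact mul_le_of_le_one_right h3 h4
  linarith only [h2, h1]

lemma vals_bdd {k : ℕ} {m r : ℕ → ℝ} (hf : Measurable f) {K : ℝ} (hK : ∀ x, |f x| ≤ K)
    (hα : 0 < α) (hm : Exponents k m) (hr : Path k r) : BddAbove (vals α f k m r) :=
  ⟨_, fun _ hy => vals_le hf hK hα hm hr hy⟩

lemma vals_nonempty (α : ℝ) (f : ℝ → ℝ) (k : ℕ) (m r : ℕ → ℝ) : (vals α f k m r).Nonempty :=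
  ⟨_, fun _ => 0, ⟨le_rfl, fun _ _ => le_rfl⟩, zero_le_one, rfl⟩

/-- The lower bound for all class A potentials. -/
lemma lower_classA (hlow : LowerBound) (hν : ν.real Set.univ < C₀)
    (hf : ∀ s : ℝ, Real.exp (f s) = C₀ - ∫ l, Real.cos (l * s) ∂ν) (hα : 0 < α) {p : ℝ}
    (hp : ∀ ε > 0, ∃ᶠ N in atTop, meanPressure cube α f N < p + ε) {ε : ℝ} (hε : 0 < ε) :
    ∃ (k : ℕ) (m r : ℕ → ℝ), Exponents k m ∧ Path k r ∧
      ∀ q, Path k q → q k ≤ 1 → parisi α f k m q r ≤ p + ε := by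
  obtain ⟨K, hK⟩ := classA_bdd hν hf
  have hδ : 0 < ε / (4 * α) := by positivity
  obtain ⟨ν', g, hfin, hν', h4, hg, hgf⟩ := classA_approx hν hf hδ
  obtain ⟨K', hK'⟩ := classA_bdd hν' hg
  have hfm := classA_meas hf
  have hgm := classA_meas hg
  have hb1 : ∀ x, |f x| ≤ max K K' := fun x => (hK x).trans (le_max_left _ _)
  have hb2 : ∀ x, |g x| ≤ max K K' := fun x => (hK' x).trans (le_max_right _ _)
  have hαδ : α * (ε / (4 * α)) = ε / 4 := by field_simp
  have hp' : ∀ η > 0, ∃ᶠ N in atTop, meanPressure cube α g N < (p + ε / 4) + η := by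
    intro η hη
    refine ((hp η hη).and_eventually (eventually_gt_atTop 0)).mono ?_
    rintro N ⟨h1, h2⟩
    have h3 := (abs_le.1 (meanPressure_lip hfm hgm hb1 hb2 hgf hα h2)).2
    rw [hαδ] at h3
    linarith only [h3, h1]
  obtain ⟨k, m, r, hm, hr, hq⟩ := hlow ν' C₀ hν' h4 g hg α (p + ε / 4) hα hp' (ε / 4) (by positivity)
  refine ⟨k, m, r, hm, hr, fun q h1 h2 => ?_⟩
  have h3 := hq q h1 h2
  have h4 := (abs_le.1 (patternPart_lip (k := k) (m := m) (q := q) hfm hgm hb1 hb2 hgf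
    (fun l hl hl' => by
      obtain ⟨j, rfl⟩ : ∃ j, l = j + 1 := ⟨l - 1, by omega⟩
      exact hm.pos j (by omega)))).1
  unfold parisi at h3 ⊢
  have h5 : α * patternPart f k m q ≤ α * patternPart g k m q + ε / 4 := by
    rw [← hαδ, ← mul_add]
    exact mul_le_mul_of_nonneg_left (by linarith only [h4]) hα.le
  linarith only [h5, h3, hε]

/-- The Parisi formula for class A potentials, from the lower bound. -/
theorem parisi_formula_of (hlow : LowerBound) (hν : ν.real Set.univ < C₀)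
    (hf : ∀ s : ℝ, Real.exp (f s) = C₀ - ∫ l, Real.cos (l * s) ∂ν) (hα : 0 < α) :
    ∃ L : ℝ, Tendsto (fun N => meanPressure cube α f N) atTop (𝓝 L) ∧
      (∀ (k : ℕ) (m r : ℕ → ℝ), Exponents k m → Path k r →
        BddAbove {y | ∃ q, Path k q ∧ q k ≤ 1 ∧ y = parisi α f k m q r}) ∧
      IsGLB {y | ∃ (k : ℕ) (m r : ℕ → ℝ), Exponents k m ∧ Path k r ∧
        IsLUB {y | ∃ q, Path k q ∧ q k ≤ 1 ∧ y = parisi α f k m q r} y} L := by
  obtain ⟨K, hK⟩ := classA_bdd hν hf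
  have hfm := classA_meas hf
  have hbdd : ∀ (k : ℕ) (m r : ℕ → ℝ), Exponents k m → Path k r → BddAbove (vals α f k m r) :=
    fun k m r hm hr => vals_bdd hfm hK hα hm hr
  set G : Set ℝ := {y | ∃ (k : ℕ) (m r : ℕ → ℝ), Exponents k m ∧ Path k r ∧
        IsLUB {y | ∃ q, Path k q ∧ q k ≤ 1 ∧ y = parisi α f k m q r} y} with hG
  -- the upper bound
  have hup : ∀ y ∈ G, ∀ ε > 0, ∀ᶠ N : ℕ in atTop, meanPressure cube α f N ≤ y + ε := by
    rintro y ⟨k, m, r, hm, hr, hy⟩ ε hε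
    exact guerra_limit_classA hν hf hm hr hα (fun q h1 h2 => hy.1 ⟨q, h1, h2, rfl⟩) hε
  have hGne : G.Nonempty := by
    have hm : Exponents 0 (fun n => (n : ℝ)) := by
      refine ⟨by simp, by simp, fun l hl => ?_⟩
      obtain rfl : l = 0 := by omega
      simp
    have hr : Path 0 (fun _ => (0 : ℝ)) := ⟨le_rfl, fun _ _ => le_rfl⟩
    exact ⟨_, 0, _, _, hm, hr, isLUB_csSup (vals_nonempty α f _ _ _) (hbdd _ _ _ hm hr)⟩
  have hlb : ∀ N : ℕ, 0 < N → -(α * K) ≤ meanPressure cube α f N := by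
    intro N hN
    have h0 : ∀ x : ℝ, |(fun _ : ℝ => (0 : ℝ)) x| ≤ K := fun x => by
      simpa using (abs_nonneg _).trans (hK x)
    have h1 := meanPressure_lip (f := fun _ => 0) (g := f) measurable_const hfm h0 hK (ε := K)
      (fun x => by simpa using hK x) hα hN
    have h2 : meanPressure cube α (fun _ => 0) N = 0 := by
      unfold meanPressure pressure
      have : IsProbabilityMeasure (cube N) := by unfold cube; infer_instance
      simp
    rw [h2, sub_zero] at h1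
    exact (abs_le.1 h1).1
  have hGb : BddBelow G := by
    refine ⟨-(α * K), fun y hy => ?_⟩
    refine le_of_forall_pos_le_add fun ε hε => ?_
    obtain ⟨N, h1, h2⟩ := ((hup y hy ε hε).and (eventually_gt_atTop 0)).exists
    exact (hlb N h2).trans h1
  have hglb : IsGLB G (sInf G) := isGLB_csInf hGne hGb
  refine ⟨sInf G, ?_, hbdd, hglb⟩
  rw [tendsto_order]
  constructor
  · intro a ha
    by_contra hcon
    have hfreq : ∀ ε > 0, ∃ᶠ N in atTop, meanPressure cube α f N < a + ε := by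
      intro ε hε
      refine (Filter.not_eventually.1 hcon).mono fun N hN => ?_
      linarith [not_lt.1 hN]
    obtain ⟨k, m, r, hm, hr, hq⟩ := lower_classA hlow hν hf hα hfreq
      (ε := (sInf G - a) / 2) (by linarith)
    have h1 : IsLUB (vals α f k m r) (sSup (vals α f k m r)) :=
      isLUB_csSup (vals_nonempty α f k m r) (hbdd k m r hm hr)
    have h2 : sInf G ≤ sSup (vals α f k m r) := hglb.1 ⟨k, m, r, hm, hr, h1⟩
    have h3 : sSup (vals α f k m r) ≤ a + (sInf G - a) / 2 := by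
      refine csSup_le (vals_nonempty α f k m r) ?_
      rintro _ ⟨q, h1, h2, rfl⟩
      exact hq q h1 h2
    linarith
  · intro a ha
    obtain ⟨y, hy, hya⟩ := (csInf_lt_iff hGb hGne).1 ha
    have h1 : 0 < (a - y) / 2 := by linarith
    filter_upwards [hup y hy _ h1] with N hN
    linarith

end

end Vale.Agent.P157.Par
end

section

/-!
Concentration of the derivative of the free energy without second derivatives, uniform over
bounded perturbations: module (R1).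
-/

open MeasureTheory ProbabilityTheory Filter Topology

namespace Vale.Agent.P146.Ub

open Vale.Agent.P157 Vale.Agent.P157.Lv Vale.Agent.P157.Lv.Sy

variable {ι X : Type} [Fintype ι] [DecidableEq ι] [Fintype X] [DecidableEq X] [Nonempty X]
  {S : Sy ι X}

lemma ub_abs_le_log (v : ℝ) {P : ℝ} (hP : 0 < P) :
    |v| ≤ Real.log P - 1 + (Real.exp v + Real.exp (-v)) / P := by
  have h0 : 0 < Real.exp v + Real.exp (-v) := by positivity
  have h1 : |v| ≤ Real.log (Real.exp v + Real.exp (-v)) := by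
    rw [Real.le_log_iff_exp_le h0]
    rcases abs_cases v with h | h
    · rw [h.1]; linarith [Real.exp_pos (-v)]
    · rw [h.1]; linarith [Real.exp_pos v]
  have h2 : Real.log (Real.exp v + Real.exp (-v)) - Real.log P ≤
      (Real.exp v + Real.exp (-v)) / P - 1 := by
    rw [← Real.log_div h0.ne' hP.ne']
    exact Real.log_le_sub_one_of_pos (by positivity)
  linarith

/-- The thermal part. -/
theorem ub_thermal (hS : S.Reg) {y : (ι → ℝ) → X → ℝ} (hy : Nh y)
    (hreg : ∀ t, (S.pt y t).Reg) {t : ℝ} (ht : 0 < t) (z : ι → ℝ) :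
    S.T 0 (fun z x => |y z x - S.T 0 y z|) z ≤
      1 / t * ((S.pt y t).lg 0 z + (S.pt y (-t)).lg 0 z - 2 * S.lg 0 z) +
        Real.log 2 / (S.m 1 * t) := by
  have hz : (0 : ℕ) ≤ S.K := Nat.zero_le _
  have hm : 0 < S.m 1 := hS.pos
  have hc : 0 < S.m 1 * t := mul_pos hm ht
  obtain ⟨M, hM⟩ : ∃ M, M = S.T 0 y z := ⟨_, rfl⟩
  -- the conditional mean is constant for the conditional average
  have hdep : S.T 0 (fun z x => |y z x - S.T 0 y z|) z = S.T 0 (fun z x => |y z x - M|) z := by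
    have h1 : ∀ w, S.T 0 y (mix S.lev 0 z w) = M := fun w => by rw [hM]; exact dep_T S 0 y z w
    unfold Sy.T J
    refine integral_congr_ae (Filter.Eventually.of_forall fun w => ?_)
    have h2 : (∫ w', S.dn 0 (mix S.lev 0 (mix S.lev 0 z w) w') *
        S.av y (mix S.lev 0 (mix S.lev 0 z w) w') ∂(gI ι)) = M := h1 w
    simp only [Sy.av, Sy.T, J] at h2 ⊢
    rw [h2]
  rw [hdep]
  have hlip := cc_lip hS hreg
  have hNp : ∀ s : ℝ, Nh fun z x => Real.exp (s * y z x) := fun s x => (hlip x).exp_eg s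
  obtain ⟨a, ha⟩ : ∃ a, a = S.T 0 (fun z x => Real.exp (S.m 1 * t * y z x)) z := ⟨_, rfl⟩
  obtain ⟨b, hb⟩ : ∃ b, b = S.T 0 (fun z x => Real.exp (-(S.m 1 * t) * y z x)) z := ⟨_, rfl⟩
  have hTc := fun c : ℝ => hS.T_const (X := X) hz c z
  -- lower bounds for the exponential moments
  have hlow : ∀ s : ℝ, Real.exp (s * M) ≤ S.T 0 (fun z x => Real.exp (s * y z x)) z := by
    intro s
    have h1 := hS.T_mono hz (f := fun z x => Real.exp (s * M) * (1 - s * M) +
        Real.exp (s * M) * s * y z x)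
      (g := fun z x => Real.exp (s * y z x))
      (Nh.add (fun _ => EG.const _) (Nh.const_mul _ hy)) (hNp s) (fun z x => by
        have h2 := Real.add_one_le_exp (s * y z x - s * M)
        have h3 : Real.exp (s * y z x) = Real.exp (s * M) * Real.exp (s * y z x - s * M) := by
          rw [← Real.exp_add]; congr 1; ring
        rw [h3]
        have h4 := mul_le_mul_of_nonneg_left h2 (Real.exp_pos (s * M)).le
        refine le_trans (le_of_eq ?_) h4
        ring) z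
    rw [hS.T_add hz (fun _ => EG.const _) (Nh.const_mul _ hy), hTc, T_const_mul, ← hM] at h1
    refine le_trans (le_of_eq ?_) h1
    ring
  have ha1 := hlow (S.m 1 * t)
  have hb1 := hlow (-(S.m 1 * t))
  rw [← ha] at ha1
  rw [← hb] at hb1
  have ha0 : 0 < a := (Real.exp_pos _).trans_le ha1
  have hb0 : 0 < b := (Real.exp_pos _).trans_le hb1
  -- the normalized moments
  obtain ⟨A, hA⟩ : ∃ A, A = Real.exp (-(S.m 1 * t * M)) * a := ⟨_, rfl⟩
  obtain ⟨B, hB⟩ : ∃ B, B = Real.exp (S.m 1 * t * M) * b := ⟨_, rfl⟩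
  have hA1 : 1 ≤ A := by
    rw [hA, Real.exp_neg, inv_mul_eq_div, one_le_div (Real.exp_pos _)]
    exact ha1
  have hB1 : 1 ≤ B := by
    have h1 := mul_le_mul_of_nonneg_left hb1 (Real.exp_pos (S.m 1 * t * M)).le
    rw [← Real.exp_add] at h1
    have h2 : S.m 1 * t * M + -(S.m 1 * t) * M = 0 := by ring
    rw [h2, Real.exp_zero] at h1
    rw [hB]; exact h1
  have hP : 0 < A + B := by linarith
  -- the main inequality
  have h1 := hS.T_mono hz (f := fun z x => S.m 1 * t * |y z x - M|)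
    (g := fun z x => (Real.log (A + B) - 1) +
      ((Real.exp (-(S.m 1 * t * M)) / (A + B)) * Real.exp (S.m 1 * t * y z x) +
        (Real.exp (S.m 1 * t * M) / (A + B)) * Real.exp (-(S.m 1 * t) * y z x)))
    (Nh.const_mul _ (Nh.abs (Nh.sub hy (fun _ => EG.const _))))
    (Nh.add (fun _ => EG.const _) (Nh.add (Nh.const_mul _ (hNp _)) (Nh.const_mul _ (hNp _))))
    (fun z x => by
      have h2 := ub_abs_le_log (S.m 1 * t * (y z x - M)) hP
      rw [abs_mul, abs_of_pos hc] at h2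
      refine h2.trans (le_of_eq ?_)
      have e1 : Real.exp (S.m 1 * t * (y z x - M)) =
          Real.exp (-(S.m 1 * t * M)) * Real.exp (S.m 1 * t * y z x) := by
        rw [← Real.exp_add]; congr 1; ring
      have e2 : Real.exp (-(S.m 1 * t * (y z x - M))) =
          Real.exp (S.m 1 * t * M) * Real.exp (-(S.m 1 * t) * y z x) := by
        rw [← Real.exp_add]; congr 1; ring
      rw [e1, e2]
      ring) z
  rw [T_const_mul, hS.T_add hz (fun _ => EG.const _)
    (Nh.add (Nh.const_mul _ (hNp _)) (Nh.const_mul _ (hNp _))), hTc,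
    hS.T_add hz (Nh.const_mul _ (hNp _)) (Nh.const_mul _ (hNp _)), T_const_mul, T_const_mul,
    ← ha, ← hb] at h1
  have e3 : Real.exp (-(S.m 1 * t * M)) / (A + B) * a +
      Real.exp (S.m 1 * t * M) / (A + B) * b = 1 := by
    have : Real.exp (-(S.m 1 * t * M)) / (A + B) * a + Real.exp (S.m 1 * t * M) / (A + B) * b =
        (A + B) / (A + B) := by
      rw [hA, hB]; ring
    rw [this, div_self hP.ne']
  have e4 : Real.log (A + B) ≤ Real.log 2 + (Real.log a + Real.log b) := by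
    have h2 : A + B ≤ 2 * (A * B) := by linarith only [mul_nonneg (sub_nonneg.2 hA1) (sub_nonneg.2 hB1), mul_nonneg (mul_self_nonneg (1 : ℝ)) (sub_nonneg.2 hB1), mul_nonneg (mul_self_nonneg (1 : ℝ)) (sub_nonneg.2 hA1)]
    have h3 : A * B = a * b := by
      rw [hA, hB]
      have : Real.exp (-(S.m 1 * t * M)) * a * (Real.exp (S.m 1 * t * M) * b) =
          (Real.exp (-(S.m 1 * t * M)) * Real.exp (S.m 1 * t * M)) * (a * b) := by ring
      rw [this, ← Real.exp_add]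
      simp
    rw [h3] at h2
    refine (Real.log_le_log hP h2).trans (le_of_eq ?_)
    rw [Real.log_mul (by norm_num) (mul_pos ha0 hb0).ne', Real.log_mul ha0.ne' hb0.ne']
  -- the thermal inequalities
  have hth : ∀ s : ℝ, Real.log (S.T 0 (fun z x => Real.exp (S.m 1 * s * y z x)) z) ≤
      S.m 1 * ((S.pt y s).lg 0 z - S.lg 0 z) := by
    intro s
    have h2 := Reg.thermal hS (hreg s) z
    have e5 : (fun (z : ι → ℝ) (x : X) => Real.exp (S.m 1 * ((S.H z x + s * y z x) - S.H z x))) =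
        fun z x => Real.exp (S.m 1 * s * y z x) := by
      funext z x
      congr 1; ring
    rw [e5, one_div, inv_mul_le_iff₀ hm] at h2
    exact h2
  have hth1 := hth t
  have hth2 := hth (-t)
  rw [← ha] at hth1
  have e6 : (fun (z : ι → ℝ) (x : X) => Real.exp (S.m 1 * -t * y z x)) =
      fun z x => Real.exp (-(S.m 1 * t) * y z x) := by
    funext z x
    congr 1; ring
  rw [e6, ← hb] at hth2
  rw [e3] at h1
  have h4 : S.m 1 * t * S.T 0 (fun z x => |y z x - M|) z ≤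
      Real.log 2 + (S.m 1 * ((S.pt y t).lg 0 z - S.lg 0 z) +
        S.m 1 * ((S.pt y (-t)).lg 0 z - S.lg 0 z)) := by linarith only [hth2, hth1, e4, h1]
  have h5 : S.T 0 (fun z x => |y z x - M|) z ≤
      (Real.log 2 + (S.m 1 * ((S.pt y t).lg 0 z - S.lg 0 z) +
        S.m 1 * ((S.pt y (-t)).lg 0 z - S.lg 0 z))) / (S.m 1 * t) := by
    rw [le_div_iff₀ hc]
    linarith only [h4]
  refine h5.trans (le_of_eq ?_)
  field_simp
  ring

/-- **Concentration (R1).** `F0, Fp, Fm` are the values of the free energy of a reference system at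
the strengths `s, s + t, s - t`, and `c₀` is a subgradient at `s`; `S`, `S.pt y t`, `S.pt y (-t)` have
almost the same free energies. -/
theorem conc_abs (hS : S.Reg) {y : (ι → ℝ) → X → ℝ} (hy : Nh y)
    (hreg : ∀ t, (S.pt y t).Reg) {t F0 Fp Fm c₀ B V : ℝ} (ht : 0 < t)
    (h0 : |S.fe - F0| ≤ B) (hp : |(S.pt y t).fe - Fp| ≤ B) (hm : |(S.pt y (-t)).fe - Fm| ≤ B)
    (cp : F0 + t * c₀ ≤ Fp) (cm : F0 - t * c₀ ≤ Fm)
    (hV : ∀ t' ∈ ({0, t, -t} : Set ℝ),
      ∫ z, ((S.pt y t').lg 0 z - (S.pt y t').fe) ^ 2 ∂(gI ι) ≤ V) :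
    S.Ex (fun z x => |y z x - c₀|) ≤
      1 / t * (2 * (Fp + Fm - 2 * F0) + 6 * B + Real.log 2 / S.m 1 + 3 * √V) := by
  have hz : (0 : ℕ) ≤ S.K := Nat.zero_le _
  have hm1 : 0 < S.m 1 := hS.pos
  have hl := fun s => ((hreg s).lip_lg (Nat.zero_le _)).eg
  have hl0 := (hS.lip_lg hz).eg
  have hS0 : S.pt y 0 = S := by
    unfold pt Sy.wH
    simp
  have hV0 := hV 0 (by simp)
  have hVp := hV t (by simp)
  have hVm := hV (-t) (by simp)
  rw [hS0] at hV0
  obtain ⟨a0, ha0⟩ : ∃ a : (ι → ℝ) → ℝ, a = fun z => S.lg 0 z - S.fe := ⟨_, rfl⟩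
  obtain ⟨ap, hap⟩ : ∃ a : (ι → ℝ) → ℝ, a = fun z => (S.pt y t).lg 0 z - (S.pt y t).fe :=
    ⟨_, rfl⟩
  obtain ⟨am, ham⟩ : ∃ a : (ι → ℝ) → ℝ, a = fun z => (S.pt y (-t)).lg 0 z - (S.pt y (-t)).fe :=
    ⟨_, rfl⟩
  have e0 : EG a0 := by rw [ha0]; exact hl0.sub (EG.const _)
  have ep : EG ap := by rw [hap]; exact (hl t).sub (EG.const _)
  have em : EG am := by rw [ham]; exact (hl (-t)).sub (EG.const _)
  have i0 := cc_abs_le (V := V) e0 (by rw [ha0]; exact hV0)
  have ip := cc_abs_le (V := V) ep (by rw [hap]; exact hVp)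
  have im := cc_abs_le (V := V) em (by rw [ham]; exact hVm)
  have hTe := hS.eg_T hz hy
  have hp' := abs_le.1 hp
  have hm' := abs_le.1 hm
  have h0' := abs_le.1 h0
  -- Jensen
  have j1 : ∀ (s : ℝ) (z : ι → ℝ), s * S.T 0 y z ≤ (S.pt y s).lg 0 z - S.lg 0 z := by
    intro s z
    have h1 := Reg.jensen_lg hS (hreg s) hz z
    have e1 : (fun (z : ι → ℝ) (x : X) => (S.H z x + s * y z x) - S.H z x) =
        fun z x => s * y z x := by
      funext z x
      ring
    rw [e1, T_const_mul] at h1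
    exact h1
  -- the disorder part
  have hdis : ∀ z, |S.T 0 y z - c₀| ≤
      1 / t * (Fp + Fm - 2 * F0 + 2 * B) + 1 / t * (|a0 z| + |ap z| + |am z|) := by
    intro z
    have h1 := j1 t z
    have h2 := j1 (-t) z
    have k0 := abs_le.1 (le_refl |a0 z|)
    have kp := abs_le.1 (le_refl |ap z|)
    have km := abs_le.1 (le_refl |am z|)
    have d0 : a0 z = S.lg 0 z - S.fe := by rw [ha0]
    have dp : ap z = (S.pt y t).lg 0 z - (S.pt y t).fe := by rw [hap]
    have dm : am z = (S.pt y (-t)).lg 0 z - (S.pt y (-t)).fe := by rw [ham]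
    have n0 := abs_nonneg (a0 z)
    have np := abs_nonneg (ap z)
    have nm := abs_nonneg (am z)
    have e1 : S.T 0 y z - c₀ = 1 / t * (t * S.T 0 y z - t * c₀) := by
      field_simp
    rw [e1, ← mul_add, abs_mul, abs_of_pos (one_div_pos.2 ht)]
    refine mul_le_mul_of_nonneg_left ?_ (one_div_pos.2 ht).le
    rw [abs_le]
    constructor
    · linarith
    · linarith
  have hd1 : Dep S.lev 0 fun z => |S.T 0 y z - c₀| := by
    intro z w
    have := dep_T S 0 y z w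
    simp only [this]
  have he1 : EG fun z => |S.T 0 y z - c₀| := (hTe.sub (EG.const _)).abs
  have hdis' : S.Ex (fun z _ => |S.T 0 y z - c₀|) ≤
      1 / t * (Fp + Fm - 2 * F0 + 2 * B) + 1 / t * (3 * √V) := by
    rw [hS.Ex_dep hd1 he1]
    refine (integral_mono he1.integrable ((EG.const _).add
      (((e0.abs.add ep.abs).add em.abs).const_mul _)).integrable hdis).trans ?_
    rw [integral_add (integrable_const _) (((e0.abs.add ep.abs).add em.abs).const_mul _).integrable,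
      integral_const, probReal_univ, one_smul, integral_const_mul,
      integral_add (e0.abs.add ep.abs).integrable em.abs.integrable,
      integral_add e0.abs.integrable ep.abs.integrable]
    refine add_le_add le_rfl ?_
    refine mul_le_mul_of_nonneg_left ?_ (one_div_pos.2 ht).le
    linarith only [im, ip, i0]
  -- the thermal part
  have n1 : Nh fun z x => |y z x - S.T 0 y z| := Nh.abs (Nh.sub hy (Nh.fst hTe))
  have hth : S.Ex (fun z x => |y z x - S.T 0 y z|) ≤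
      1 / t * (Fp + Fm - 2 * F0 + 4 * B) + Real.log 2 / (S.m 1 * t) := by
    rw [hS.Ex_eq_T n1]
    refine (integral_mono (hS.eg_T hz n1).integrable
      (((((hl t).add (hl (-t))).sub (hl0.const_mul 2)).const_mul (1 / t)).add
        (EG.const (Real.log 2 / (S.m 1 * t)))).integrable
      (fun z => ub_thermal hS hy hreg ht z)).trans ?_
    rw [integral_add ((((hl t).add (hl (-t))).sub (hl0.const_mul 2)).const_mul (1 / t)).integrable
      (integrable_const _), integral_const, probReal_univ, one_smul, integral_const_mul,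
      integral_sub ((hl t).add (hl (-t))).integrable (hl0.const_mul 2).integrable,
      integral_add (hl t).integrable (hl (-t)).integrable, integral_const_mul]
    refine add_le_add ?_ le_rfl
    refine mul_le_mul_of_nonneg_left ?_ (one_div_pos.2 ht).le
    have e1 : ∫ z, (S.pt y t).lg 0 z ∂(gI ι) = (S.pt y t).fe := rfl
    have e2 : ∫ z, (S.pt y (-t)).lg 0 z ∂(gI ι) = (S.pt y (-t)).fe := rfl
    have e3 : ∫ z, S.lg 0 z ∂(gI ι) = S.fe := rfl
    rw [e1, e2, e3]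
    linarith
  have n2 : Nh (X := X) fun z _ => |S.T 0 y z - c₀| := Nh.fst he1
  have h3 : S.Ex (fun z x => |y z x - c₀|) ≤
      S.Ex (fun z x => |y z x - S.T 0 y z| + |S.T 0 y z - c₀|) :=
    hS.Ex_mono (Nh.abs (Nh.sub hy (fun _ => EG.const c₀))) (Nh.add n1 n2) fun z x => by
      have := abs_add_le (y z x - S.T 0 y z) (S.T 0 y z - c₀)
      rwa [sub_add_sub_cancel] at this
  rw [hS.Ex_add n1 n2] at h3
  refine (h3.trans (add_le_add hth hdis')).trans (le_of_eq ?_)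
  field_simp
  ring

end Vale.Agent.P146.Ub
end

section

/-!
HRES: the resolvent in the hierarchical algebra.
-/

open Filter Topology

namespace Vale.Agent.P146.Pw2

open Vale.Agent.P157.Par (Exponents Path)
open Vale.Agent.P146.Sk
open Vale.Agent.P166.F (Lam)

variable {K : ℕ} {m : ℕ → ℝ}

/-! ### The complex algebra -/

/-- The product of complex hierarchical matrices. -/
noncomputable def hmC (K : ℕ) (m : ℕ → ℝ) (M T : ℂ × (ℕ → ℂ)) : ℂ × (ℕ → ℂ) :=
  (M.1 * T.1 - ∑ i ∈ Finset.range (K + 1), ((m (i + 1) : ℂ) - m i) * (M.2 i * T.2 i),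
   fun l => M.2 l * (T.1 - ∑ i ∈ Finset.Ico (l + 1) (K + 1), ((m (i + 1) : ℂ) - m i) * T.2 i -
        m (l + 1) * T.2 l) +
      (M.1 - ∑ i ∈ Finset.Ico l (K + 1), ((m (i + 1) : ℂ) - m i) * M.2 i) * T.2 l -
      ∑ i ∈ Finset.range l, ((m (i + 1) : ℂ) - m i) * (M.2 i * T.2 i))

/-- The eigenvalues. -/
noncomputable def evC (K : ℕ) (m : ℕ → ℝ) (M : ℂ × (ℕ → ℂ)) (l : ℕ) : ℂ :=
  M.1 - m (l + 1) * M.2 l - ∑ i ∈ Finset.Ico (l + 1) (K + 1), ((m (i + 1) : ℂ) - m i) * M.2 i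

/-- A real matrix as a complex one. -/
def toC (R : ℝ × (ℕ → ℝ)) : ℂ × (ℕ → ℂ) := (R.1, fun l => R.2 l)

theorem evC_sub (M : ℂ × (ℕ → ℂ)) {l : ℕ} (hl : l < K) :
    evC K m M l - evC K m M (l + 1) = m (l + 1) * (M.2 (l + 1) - M.2 l) := by
  unfold evC
  rw [Finset.sum_eq_sum_Ico_succ_bot (show l + 1 < K + 1 by omega)]
  ring

theorem evC_K (hm' : Exponents K m) (M : ℂ × (ℕ → ℂ)) : evC K m M K = M.1 - M.2 K := by
  unfold evC
  rw [hm'.2.1, Finset.Ico_self, Finset.sum_empty]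
  push_cast
  ring

theorem evC_toC (q : ℕ → ℝ) (l : ℕ) : evC K m (toC (1, q)) l = lam K m q l := by
  unfold evC toC lam
  push_cast
  rfl

theorem hmC_sub (M T : ℂ × (ℕ → ℂ)) {l : ℕ} (hl : l < K) :
    (hmC K m M T).2 (l + 1) - (hmC K m M T).2 l =
      evC K m M l * (T.2 (l + 1) - T.2 l) + evC K m T (l + 1) * (M.2 (l + 1) - M.2 l) := by
  simp only [hmC, evC]
  rw [Finset.sum_range_succ,
    Finset.sum_eq_sum_Ico_succ_bot (show l + 1 < K + 1 by omega)
      (fun j => ((m (j + 1) : ℂ) - m j) * M.2 j),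
    Finset.sum_eq_sum_Ico_succ_bot (show l + 1 < K + 1 by omega)
      (fun j => ((m (j + 1) : ℂ) - m j) * T.2 j),
    Finset.sum_eq_sum_Ico_succ_bot (show l < K + 1 by omega)
      (fun j => ((m (j + 1) : ℂ) - m j) * M.2 j),
    Finset.sum_eq_sum_Ico_succ_bot (show l + 1 < K + 1 by omega)
      (fun j => ((m (j + 1) : ℂ) - m j) * M.2 j)]
  ring

theorem evC_mul (hm' : Exponents K m) (M T : ℂ × (ℕ → ℂ)) {l : ℕ} (hl : l ≤ K) :
    evC K m (hmC K m M T) l = evC K m M l * evC K m T l := by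
  revert l
  apply Vale.Agent.P166.F.alg1_down_ind
  · rw [evC_K hm', evC_K hm', evC_K hm']
    simp only [hmC]
    rw [Finset.sum_range_succ, Finset.Ico_self, Finset.sum_empty, hm'.2.1,
      Finset.sum_eq_sum_Ico_succ_bot (show K < K + 1 by omega), Finset.Ico_self,
      Finset.sum_empty, hm'.2.1]
    push_cast
    ring
  · intro l hl ih
    have h1 := evC_sub (m := m) (hmC K m M T) hl
    have h2 := evC_sub (m := m) M hl
    have h3 := evC_sub (m := m) T hl
    rw [hmC_sub M T hl, ih] at h1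
    linear_combination h1 - evC K m M l * h3 - evC K m T (l + 1) * h2

theorem hmC_zero (hm' : Exponents K m) (M T : ℂ × (ℕ → ℂ)) :
    (hmC K m M T).2 0 = evC K m M 0 * T.2 0 + M.2 0 * evC K m T 0 := by
  simp only [hmC, evC]
  rw [Finset.range_zero, Finset.sum_empty,
    Finset.sum_eq_sum_Ico_succ_bot (show 0 < K + 1 by omega), hm'.1]
  push_cast
  ring

/-- The diagonal entry by the eigenvalues. -/
theorem diag_eq (hm' : Exponents K m) (M : ℂ × (ℕ → ℂ)) :
    M.1 = evC K m M K + M.2 0 +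
      ∑ i ∈ Finset.range K, (evC K m M i - evC K m M (i + 1)) / m (i + 1) := by
  have h := hr_expo hm'
  have h3 : ∀ j ≤ K, M.2 j = M.2 0 +
      ∑ i ∈ Finset.range j, (evC K m M i - evC K m M (i + 1)) / m (i + 1) := by
    intro j
    induction j with
    | zero => intro _; simp
    | succ j ih =>
      intro hj
      have h4 := evC_sub (m := m) M (show j < K by omega)
      have h5 : (m (j + 1) : ℂ) ≠ 0 := by
        exact_mod_cast (h.pos' (by omega) (by omega)).ne'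
      rw [Finset.sum_range_succ, ← add_assoc, ← ih (by omega), h4, mul_div_cancel_left₀ _ h5]
      ring
  have h6 := evC_K hm' M
  have h7 := h3 K le_rfl
  linear_combination -h6 + h7

/-- The trace form. -/
noncomputable def tf (K : ℕ) (m : ℕ → ℝ) (M T : ℂ × (ℕ → ℂ)) : ℂ :=
  M.1 * T.1 - ∑ i ∈ Finset.range (K + 1), ((m (i + 1) : ℂ) - m i) * (M.2 i * T.2 i)

theorem tf_eq (hm' : Exponents K m) (M T : ℂ × (ℕ → ℂ)) :
    tf K m M T = evC K m M K * evC K m T K + (evC K m M 0 * T.2 0 + M.2 0 * evC K m T 0) +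
      ∑ i ∈ Finset.range K, (evC K m M i * evC K m T i -
        evC K m M (i + 1) * evC K m T (i + 1)) / m (i + 1) := by
  have h1 := diag_eq hm' (hmC K m M T)
  have h2 : tf K m M T = (hmC K m M T).1 := rfl
  rw [h2, h1, evC_mul hm' M T le_rfl, hmC_zero hm']
  congr 1
  refine Finset.sum_congr rfl fun i hi => ?_
  have hi' := Finset.mem_range.1 hi
  rw [evC_mul hm' M T (by omega), evC_mul hm' M T (by omega)]

/-! ### The resolvent -/

/-- The eigenvalues of the resolvent. -/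
noncomputable def ru (K : ℕ) (m : ℕ → ℝ) (c : ℝ) (ζ : ℂ) (R : ℕ → ℝ) (l : ℕ) : ℂ :=
  1 / (ζ - c * lam K m R l)

/-- The resolvent `(ζ - c R)⁻¹`. -/
noncomputable def rG (K : ℕ) (m : ℕ → ℝ) (c : ℝ) (ζ : ℂ) (R : ℕ → ℝ) : ℂ × (ℕ → ℂ) :=
  (ru K m c ζ R K + (c * R 0 * ru K m c ζ R 0 ^ 2 +
    ∑ i ∈ Finset.range K, (ru K m c ζ R i - ru K m c ζ R (i + 1)) / m (i + 1)),
   fun l => c * R 0 * ru K m c ζ R 0 ^ 2 +
    ∑ i ∈ Finset.range l, (ru K m c ζ R i - ru K m c ζ R (i + 1)) / m (i + 1))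

theorem evC_rG (hm' : Exponents K m) (c : ℝ) (ζ : ℂ) (R : ℕ → ℝ) {l : ℕ} (hl : l ≤ K) :
    evC K m (rG K m c ζ R) l = ru K m c ζ R l := by
  have h := hr_expo hm'
  revert l
  apply Vale.Agent.P166.F.alg1_down_ind
  · rw [evC_K hm']
    simp only [rG]
    ring
  · intro l hl ih
    have h1 := evC_sub (m := m) (rG K m c ζ R) hl
    rw [ih] at h1
    simp only [rG, Finset.sum_range_succ] at h1 ⊢
    have hm : (m (l + 1) : ℂ) ≠ 0 := by exact_mod_cast (h.pos' (by omega) (by omega)).ne'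
    have h2 : (m (l + 1) : ℂ) * ((ru K m c ζ R l - ru K m c ζ R (l + 1)) / m (l + 1)) =
        ru K m c ζ R l - ru K m c ζ R (l + 1) := by
      field_simp
    linear_combination h1 + h2

theorem tf_add (M T S : ℂ × (ℕ → ℂ)) : tf K m M (T + S) = tf K m M T + tf K m M S := by
  unfold tf
  simp only [Prod.fst_add, Prod.snd_add, Pi.add_apply, mul_add, Finset.sum_add_distrib]
  ring

theorem tf_congr {M T S : ℂ × (ℕ → ℂ)} (h1 : T.1 = S.1) (h2 : ∀ l ≤ K, T.2 l = S.2 l) :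
    tf K m M T = tf K m M S := by
  unfold tf
  rw [h1]
  congr 1
  refine Finset.sum_congr rfl fun i hi => ?_
  rw [h2 i (by have := Finset.mem_range.1 hi; omega)]

/-- The diagonal entry of the solution. -/
theorem diag_solve (hm' : Exponents K m) {c : ℝ} {ζ : ℂ} {R : ℕ → ℝ}
    (hz : ∀ l ≤ K, ζ - c * lam K m R l ≠ 0) {D E : ℂ × (ℕ → ℂ)}
    (h1 : ζ * D.1 = c * (hmC K m (toC (1, R)) D).1 + E.1)
    (h2 : ∀ l ≤ K, ζ * D.2 l = c * (hmC K m (toC (1, R)) D).2 l + E.2 l) :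
    D.1 = tf K m (rG K m c ζ R) E := by
  have h3 : ∀ l ≤ K, ζ * evC K m D l = c * evC K m (hmC K m (toC (1, R)) D) l + evC K m E l := by
    intro l hl
    unfold evC
    have e1 : ζ * ∑ i ∈ Finset.Ico (l + 1) (K + 1), ((m (i + 1) : ℂ) - m i) * D.2 i =
        c * ∑ i ∈ Finset.Ico (l + 1) (K + 1), ((m (i + 1) : ℂ) - m i) *
          (hmC K m (toC (1, R)) D).2 i +
        ∑ i ∈ Finset.Ico (l + 1) (K + 1), ((m (i + 1) : ℂ) - m i) * E.2 i := by
      rw [Finset.mul_sum, Finset.mul_sum, ← Finset.sum_add_distrib]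
      refine Finset.sum_congr rfl fun i hi => ?_
      have := h2 i (by have := Finset.mem_Ico.1 hi; omega)
      linear_combination ((m (i + 1) : ℂ) - m i) * this
    linear_combination h1 - (m (l + 1) : ℂ) * h2 l hl - e1
  have h4 : ∀ l ≤ K, ru K m c ζ R l * evC K m E l = evC K m D l := by
    intro l hl
    have e1 := h3 l hl
    rw [evC_mul hm' _ _ hl, evC_toC] at e1
    have e2 : evC K m E l = (ζ - c * lam K m R l) * evC K m D l := by
      linear_combination -e1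
    rw [e2]
    unfold ru
    field_simp [hz l hl]
  have h5 := h2 0 (Nat.zero_le _)
  rw [hmC_zero hm', evC_toC] at h5
  have h6 : (toC (1, R)).2 0 = (R 0 : ℂ) := rfl
  rw [h6] at h5
  have h7 := h4 0 (Nat.zero_le _)
  have h8 : evC K m (rG K m c ζ R) 0 * E.2 0 + (rG K m c ζ R).2 0 * evC K m E 0 = D.2 0 := by
    rw [evC_rG hm' c ζ R (Nat.zero_le _)]
    have e1 : (rG K m c ζ R).2 0 = c * R 0 * ru K m c ζ R 0 ^ 2 := by simp [rG]
    have e2 : E.2 0 = (ζ - c * lam K m R 0) * D.2 0 - c * R 0 * evC K m D 0 := by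
      linear_combination -h5
    have e3 : ru K m c ζ R 0 * (ζ - c * lam K m R 0) = 1 := by
      unfold ru
      field_simp [hz 0 (Nat.zero_le _)]
    rw [e1, e2]
    linear_combination D.2 0 * e3 + (c * R 0 * ru K m c ζ R 0) * h7
  rw [tf_eq hm', h8, evC_rG hm' c ζ R le_rfl, h4 K le_rfl]
  rw [show D.1 = evC K m D K + D.2 0 +
      ∑ i ∈ Finset.range K, (evC K m D i - evC K m D (i + 1)) / m (i + 1) from diag_eq hm' D]
  congr 1
  refine Finset.sum_congr rfl fun i hi => ?_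
  have hi' := Finset.mem_range.1 hi
  rw [evC_rG hm' c ζ R (show i ≤ K by omega), evC_rG hm' c ζ R (show i + 1 ≤ K by omega),
    h4 i (by omega), h4 (i + 1) (by omega)]


/-! ### Bounds -/

/-- The norm. -/
noncomputable def hNC (K : ℕ) (m : ℕ → ℝ) (T : ℂ × (ℕ → ℂ)) : ℝ :=
  ‖T.1‖ + ∑ i ∈ Finset.range (K + 1), (m (i + 1) - m i) * ‖T.2 i‖

theorem lam_le_chi (hm' : Exponents K m) {R : ℕ → ℝ} (hR : Path K R) :
    ∀ l ≤ K, lam K m R l ≤ chi K m R := by
  intro l
  induction l with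
  | zero => intro _; rw [hr_chi_eq hm']
  | succ l ih =>
    intro hl
    exact (hr_lam_succ_le hm' hR (by omega)).trans (ih (by omega))

section Bounds

variable {c κ : ℝ} {ζ : ℂ} {R : ℕ → ℝ}

theorem norm_ge (hm' : Exponents K m) (hR : Path K R) (hR1 : R K ≤ 1) (hc : 0 ≤ c)
    (h : c * chi K m R + κ ≤ ‖ζ‖) {l : ℕ} (hl : l ≤ K) : κ ≤ ‖ζ - c * lam K m R l‖ := by
  have h1 : ‖(c : ℂ) * lam K m R l‖ = c * lam K m R l := by
    rw [norm_mul, Complex.norm_real, Complex.norm_real, Real.norm_eq_abs, Real.norm_eq_abs,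
      abs_of_nonneg hc, abs_of_nonneg (hr_lam_nonneg hm' hR hR1 l hl)]
  have h2 := norm_sub_norm_le ζ ((c : ℂ) * lam K m R l)
  have h3 := mul_le_mul_of_nonneg_left (lam_le_chi hm' hR l hl) hc
  linarith

theorem ne_of (hm' : Exponents K m) (hR : Path K R) (hR1 : R K ≤ 1) (hc : 0 ≤ c) (hκ : 0 < κ)
    (h : c * chi K m R + κ ≤ ‖ζ‖) : ∀ l ≤ K, ζ - c * lam K m R l ≠ 0 := by
  intro l hl h0
  have h1 := norm_ge hm' hR hR1 hc h hl
  rw [h0, norm_zero] at h1
  linarith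

theorem norm_ru (hm' : Exponents K m) (hR : Path K R) (hR1 : R K ≤ 1) (hc : 0 ≤ c) (hκ : 0 < κ)
    (h : c * chi K m R + κ ≤ ‖ζ‖) {l : ℕ} (hl : l ≤ K) : ‖ru K m c ζ R l‖ ≤ 1 / κ := by
  unfold ru
  rw [norm_div, norm_one]
  exact one_div_le_one_div_of_le hκ (norm_ge hm' hR hR1 hc h hl)

theorem ru_sub (hm' : Exponents K m) (hz : ∀ l ≤ K, ζ - c * lam K m R l ≠ 0) {i : ℕ} (hi : i < K) :
    (ru K m c ζ R i - ru K m c ζ R (i + 1)) / m (i + 1) =
      ((c * (R (i + 1) - R i) : ℝ) : ℂ) * (ru K m c ζ R i * ru K m c ζ R (i + 1)) := by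
  have hm : (m (i + 1) : ℂ) ≠ 0 := by
    exact_mod_cast ((hr_expo hm').pos' (show 1 ≤ i + 1 by omega) (by omega)).ne'
  have h1 := hr_lam_sub (m := m) R hi
  have h1' : (lam K m R i : ℂ) - lam K m R (i + 1) = m (i + 1) * (R (i + 1) - R i) := by
    exact_mod_cast congrArg (fun x : ℝ => (x : ℂ)) h1
  have h2 := hz i (by omega)
  have h3 := hz (i + 1) (by omega)
  unfold ru
  rw [div_sub_div _ _ h2 h3, div_div, one_div_mul_one_div, mul_one_div,
    div_eq_div_iff (mul_ne_zero (mul_ne_zero h2 h3) hm) (mul_ne_zero h2 h3)]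
  push_cast
  linear_combination (c * ((ζ - c * lam K m R i) * (ζ - c * lam K m R (i + 1)))) * h1'

theorem norm_rG_e (hm' : Exponents K m) (hR : Path K R) (hR1 : R K ≤ 1) (hc : 0 ≤ c) (hκ : 0 < κ)
    (h : c * chi K m R + κ ≤ ‖ζ‖) {l : ℕ} (hl : l ≤ K) : ‖(rG K m c ζ R).2 l‖ ≤ c / κ ^ 2 := by
  have hz := ne_of hm' hR hR1 hc hκ h
  have key : ∀ l ≤ K, ‖(rG K m c ζ R).2 l‖ ≤ c * R l / κ ^ 2 := by
    intro l
    induction l with
    | zero =>
      intro _
      simp only [rG, Finset.range_zero, Finset.sum_empty, add_zero]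
      rw [norm_mul, norm_mul, norm_pow, Complex.norm_real, Complex.norm_real, Real.norm_eq_abs,
        Real.norm_eq_abs, abs_of_nonneg hc, abs_of_nonneg hR.1]
      have h1 := norm_ru hm' hR hR1 hc hκ h (Nat.zero_le K)
      have h2 : ‖ru K m c ζ R 0‖ ^ 2 ≤ (1 / κ) ^ 2 := pow_le_pow_left₀ (norm_nonneg _) h1 2
      calc c * R 0 * ‖ru K m c ζ R 0‖ ^ 2 ≤ c * R 0 * (1 / κ) ^ 2 :=
            mul_le_mul_of_nonneg_left h2 (mul_nonneg hc hR.1)
        _ = c * R 0 / κ ^ 2 := by field_simp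
    | succ l ih =>
      intro hl
      have e1 : (rG K m c ζ R).2 (l + 1) = (rG K m c ζ R).2 l +
          ((c * (R (l + 1) - R l) : ℝ) : ℂ) * (ru K m c ζ R l * ru K m c ζ R (l + 1)) := by
        rw [← ru_sub hm' hz (show l < K by omega)]
        simp only [rG, Finset.sum_range_succ]
        ring
      rw [e1]
      have h3 : 0 ≤ c * (R (l + 1) - R l) := mul_nonneg hc (sub_nonneg.2 (hR.2 l (by omega)))
      have h4 : ‖((c * (R (l + 1) - R l) : ℝ) : ℂ) * (ru K m c ζ R l * ru K m c ζ R (l + 1))‖ ≤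
          c * (R (l + 1) - R l) * (1 / κ * (1 / κ)) := by
        rw [norm_mul, norm_mul, Complex.norm_real, Real.norm_eq_abs, abs_of_nonneg h3]
        refine mul_le_mul_of_nonneg_left ?_ h3
        exact mul_le_mul (norm_ru hm' hR hR1 hc hκ h (by omega)) (norm_ru hm' hR hR1 hc hκ h hl)
          (norm_nonneg _) (by positivity)
      refine (norm_add_le _ _).trans ((add_le_add (ih (by omega)) h4).trans (le_of_eq ?_))
      field_simp
      ring
  refine (key l hl).trans ?_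
  have h5 : R l ≤ 1 := Vale.Agent.P166.F.fs_le_one (hr_opath hR hR1) hl
  have h6 : c * R l ≤ c * 1 := mul_le_mul_of_nonneg_left h5 hc
  rw [mul_one] at h6
  exact div_le_div_of_nonneg_right h6 (by positivity)

theorem norm_rG_d (hm' : Exponents K m) (hR : Path K R) (hR1 : R K ≤ 1) (hc : 0 ≤ c) (hκ : 0 < κ)
    (h : c * chi K m R + κ ≤ ‖ζ‖) : ‖(rG K m c ζ R).1‖ ≤ 1 / κ + c / κ ^ 2 := by
  have e1 : (rG K m c ζ R).1 = ru K m c ζ R K + (rG K m c ζ R).2 K := rfl
  rw [e1]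
  exact (norm_add_le _ _).trans (add_le_add (norm_ru hm' hR hR1 hc hκ h le_rfl)
    (norm_rG_e hm' hR hR1 hc hκ h le_rfl))

theorem norm_tf_le (hm' : Exponents K m) (hR : Path K R) (hR1 : R K ≤ 1) (hc : 0 ≤ c) (hκ : 0 < κ)
    (h : c * chi K m R + κ ≤ ‖ζ‖) (E : ℂ × (ℕ → ℂ)) :
    ‖tf K m (rG K m c ζ R) E‖ ≤ (1 / κ + c / κ ^ 2) * hNC K m E := by
  unfold tf hNC
  have hB : 0 ≤ 1 / κ := by positivity
  have h1 : ‖(rG K m c ζ R).1 * E.1‖ ≤ (1 / κ + c / κ ^ 2) * ‖E.1‖ := by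
    rw [norm_mul]
    exact mul_le_mul_of_nonneg_right (norm_rG_d hm' hR hR1 hc hκ h) (norm_nonneg _)
  have h2 : ‖∑ i ∈ Finset.range (K + 1), ((m (i + 1) : ℂ) - m i) *
      ((rG K m c ζ R).2 i * E.2 i)‖ ≤
      ∑ i ∈ Finset.range (K + 1), (1 / κ + c / κ ^ 2) * ((m (i + 1) - m i) * ‖E.2 i‖) := by
    refine (norm_sum_le _ _).trans (Finset.sum_le_sum fun i hi => ?_)
    have hi' := Finset.mem_range.1 hi
    have hp := (hr_expo hm').p_nonneg (show i ≤ K by omega)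
    have e1 : ((m (i + 1) : ℂ) - m i) = ((m (i + 1) - m i : ℝ) : ℂ) := by push_cast; rfl
    rw [e1, norm_mul, norm_mul, Complex.norm_real, Real.norm_eq_abs, abs_of_nonneg hp]
    have h3 := norm_rG_e hm' hR hR1 hc hκ h (show i ≤ K by omega)
    have h4 : (m (i + 1) - m i) * (‖(rG K m c ζ R).2 i‖ * ‖E.2 i‖) ≤
        (m (i + 1) - m i) * ((1 / κ + c / κ ^ 2) * ‖E.2 i‖) := by
      refine mul_le_mul_of_nonneg_left (mul_le_mul_of_nonneg_right ?_ (norm_nonneg _)) hp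
      linarith only [h3, hB]
    refine h4.trans (le_of_eq (by ring))
  rw [← Finset.mul_sum] at h2
  rw [mul_add]
  exact (norm_sub_le _ _).trans (add_le_add h1 h2)

end Bounds

/-! ### The integral -/

/-- The integrand. -/
noncomputable def phr (c : ℝ) (ζ : ℂ) (x : ℝ) : ℝ := -(ζ / (ζ - c * x) ^ 2).im

/-- The functional `Φ`. -/
noncomputable def PHr (K : ℕ) (m : ℕ → ℝ) (c : ℝ) (ζ : ℂ) (R : ℕ → ℝ) : ℝ :=
  ∫ s in (0 : ℝ)..1, phr c ζ (Lam K m R s)

theorem sub_ne (c : ℝ) {ζ : ℂ} (hζ : 0 < ζ.im) (x : ℝ) : ζ - c * x ≠ 0 := by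
  intro h
  have : (ζ - c * x).im = 0 := by rw [h]; rfl
  simp at this
  linarith

theorem norm_sub_ge (c : ℝ) (ζ : ℂ) (x : ℝ) : ζ.im ≤ ‖ζ - c * x‖ := by
  have h1 : (ζ - c * x).im = ζ.im := by simp
  rw [← h1]
  exact Complex.im_le_norm _

theorem hasDerivAt_frac (c : ℝ) {ζ : ℂ} (hζ : 0 < ζ.im) (x : ℝ) :
    HasDerivAt (fun x : ℝ => -((x : ℂ) / (ζ - c * x)).im) (phr c ζ x) x := by
  have h1 : HasDerivAt (fun x : ℝ => (x : ℂ)) 1 x := Complex.ofRealCLM.hasDerivAt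
  have h2 : HasDerivAt (fun x : ℝ => ζ - c * (x : ℂ)) (-c) x := by
    have := (h1.const_mul (c : ℂ)).const_sub ζ
    simpa using this
  have h3 := h1.div h2 (sub_ne c hζ x)
  have h4 : HasDerivAt (fun x : ℝ => ((x : ℂ) / (ζ - c * x)).im)
      ((1 * (ζ - c * x) - (x : ℂ) * (-c)) / (ζ - c * x) ^ 2).im x :=
    (Complex.imCLM.hasFDerivAt.comp_hasDerivAt x h3)
  have h5 := h4.neg
  have e1 : phr c ζ x = -((1 * (ζ - c * x) - (x : ℂ) * (-c)) / (ζ - c * x) ^ 2).im := by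
    unfold phr
    congr 3
    ring
  rw [e1]
  exact h5

theorem continuous_phr (c : ℝ) {ζ : ℂ} (hζ : 0 < ζ.im) : Continuous (phr c ζ) := by
  unfold phr
  refine Continuous.neg (Complex.continuous_im.comp (Continuous.div continuous_const ?_ ?_))
  · fun_prop
  · intro x
    exact pow_ne_zero 2 (sub_ne c hζ x)

/-- The imaginary part of the trace form with `R`. -/
theorem tf_im (hm' : Exponents K m) {R : ℕ → ℝ} (hR : Path K R) (hR1 : R K ≤ 1) {c : ℝ} {ζ : ℂ}
    (hζ : 0 < ζ.im) : -(tf K m (rG K m c ζ R) (toC (1, R))).im = PHr K m c ζ R := by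
  unfold PHr
  rw [hr_tr_int hm' hR hR1 (hasDerivAt_frac c hζ) (continuous_phr c hζ), tf_eq hm',
    evC_rG hm' c ζ R le_rfl, evC_rG hm' c ζ R (Nat.zero_le _), evC_toC, evC_toC]
  have e1 : (toC (1, R)).2 0 = (R 0 : ℂ) := rfl
  have e2 : (rG K m c ζ R).2 0 = c * R 0 * ru K m c ζ R 0 ^ 2 := by simp [rG]
  have e3 : ru K m c ζ R 0 * (R 0 : ℂ) + c * R 0 * ru K m c ζ R 0 ^ 2 * lam K m R 0 =
      (R 0 : ℂ) * (ζ / (ζ - c * lam K m R 0) ^ 2) := by
    unfold ru
    field_simp [sub_ne c hζ (lam K m R 0)]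
    ring
  have e4 : ∑ i ∈ Finset.range K, (evC K m (rG K m c ζ R) i * evC K m (toC (1, R)) i -
      evC K m (rG K m c ζ R) (i + 1) * evC K m (toC (1, R)) (i + 1)) / (m (i + 1) : ℂ) =
      ∑ l ∈ Finset.Ico 1 (K + 1), ((lam K m R (l - 1) : ℂ) / (ζ - c * lam K m R (l - 1)) -
        (lam K m R l : ℂ) / (ζ - c * lam K m R l)) / (m l : ℂ) := by
    rw [Finset.sum_Ico_eq_sum_range]
    refine Finset.sum_congr (by simp) fun i hi => ?_
    have hi' := Finset.mem_range.1 hi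
    rw [evC_rG hm' c ζ R (show i ≤ K by omega), evC_rG hm' c ζ R (show i + 1 ≤ K by omega),
      evC_toC, evC_toC, show 1 + i - 1 = i by omega, show 1 + i = i + 1 by omega]
    unfold ru
    congr 2 <;> ring
  rw [e1, e2, e3, e4]
  rw [Complex.add_im, Complex.add_im, Complex.im_sum]
  have e5 : ∀ l : ℕ, (((lam K m R (l - 1) : ℂ) / (ζ - c * lam K m R (l - 1)) -
        (lam K m R l : ℂ) / (ζ - c * lam K m R l)) / (m l : ℂ)).im =
      (((lam K m R (l - 1) : ℂ) / (ζ - c * lam K m R (l - 1))).im -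
        ((lam K m R l : ℂ) / (ζ - c * lam K m R l)).im) / m l := by
    intro l
    rw [Complex.div_ofReal_im, Complex.sub_im]
  simp only [e5]
  rw [Complex.im_ofReal_mul]
  have e6 : ru K m c ζ R K * (lam K m R K : ℂ) =
      (lam K m R K : ℂ) / (ζ - c * lam K m R K) := by
    unfold ru
    ring
  have e7 : ∀ l : ℕ, (-((lam K m R (l - 1) : ℂ) / (ζ - c * lam K m R (l - 1))).im -
      -((lam K m R l : ℂ) / (ζ - c * lam K m R l)).im) / m l =
      -((((lam K m R (l - 1) : ℂ) / (ζ - c * lam K m R (l - 1))).im -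
        ((lam K m R l : ℂ) / (ζ - c * lam K m R l)).im) / m l) := by
    intro l
    ring
  simp only [e7]
  rw [e6, Finset.sum_neg_distrib]
  unfold phr
  simp only [Complex.ofReal_zero, mul_zero, sub_zero, zero_div, Complex.zero_im, neg_zero]
  ring

/-- **The solution of the resolvent equation.** -/
theorem hres_solve (hm' : Exponents K m) {R : ℕ → ℝ} (hR : Path K R) (hR1 : R K ≤ 1) {c κ : ℝ}
    {ζ : ℂ} (hc : 0 ≤ c) (hκ : 0 < κ) (h : c * chi K m R + κ ≤ ‖ζ‖) (hζ : 0 < ζ.im)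
    {T E : ℂ × (ℕ → ℂ)}
    (h1 : ζ * T.1 = 1 + c * (hmC K m (toC (1, R)) T).1 + E.1)
    (h2 : ∀ l ≤ K, ζ * T.2 l = R l + c * (hmC K m (toC (1, R)) T).2 l + E.2 l) :
    |-(T.1).im - PHr K m c ζ R| ≤ (1 / κ + c / κ ^ 2) * hNC K m E := by
  have hz := ne_of hm' hR hR1 hc hκ h
  have e1 : T.1 = tf K m (rG K m c ζ R) (toC (1, R) + E) := by
    refine diag_solve hm' hz ?_ ?_
    · rw [h1]
      simp only [toC, Prod.fst_add, Complex.ofReal_one]
      ring
    · intro l hl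
      rw [h2 l hl]
      simp only [toC, Prod.snd_add, Pi.add_apply]
      ring
  rw [e1, tf_add, Complex.add_im, ← tf_im hm' hR hR1 hζ]
  have e2 : -((tf K m (rG K m c ζ R) (toC (1, R))).im + (tf K m (rG K m c ζ R) E).im) -
      -(tf K m (rG K m c ζ R) (toC (1, R))).im = -(tf K m (rG K m c ζ R) E).im := by ring
  rw [e2, abs_neg]
  exact (Complex.abs_im_le_norm _).trans (norm_tf_le hm' hR hR1 hc hκ h E)

/-- The solution, in the real form: `T = A - i B`. -/
theorem hres_real (hm' : Exponents K m) {R : ℕ → ℝ} (hR : Path K R) (hR1 : R K ≤ 1)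
    {c κ : ℝ} {ζ : ℂ} (hc : 0 ≤ c) (hκ : 0 < κ) (h : c * chi K m R + κ ≤ ‖ζ‖) (hζ : 0 < ζ.im)
    {TA TB : ℝ × (ℕ → ℝ)} {eA eB : ℝ}
    (hA : hN K m (ζ.re • TA + ζ.im • TB - (1, R) - c • hm K m (1, R) TA) ≤ eA)
    (hB : hN K m (ζ.im • TA - ζ.re • TB + c • hm K m (1, R) TB) ≤ eB) :
    |TB.1 - PHr K m c ζ R| ≤ (1 / κ + c / κ ^ 2) * (eA + eB) := by
  obtain ⟨EA, hEA⟩ : ∃ EA : ℝ × (ℕ → ℝ), EA = ζ.re • TA + ζ.im • TB - (1, R) -
    c • hm K m (1, R) TA := ⟨_, rfl⟩
  obtain ⟨EB, hEB⟩ : ∃ EB : ℝ × (ℕ → ℝ), EB = ζ.im • TA - ζ.re • TB + c • hm K m (1, R) TB :=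
    ⟨_, rfl⟩
  rw [← hEA] at hA
  rw [← hEB] at hB
  have hz : ζ = ζ.re + ζ.im * Complex.I := (Complex.re_add_im ζ).symm
  have key := hres_solve hm' hR hR1 hc hκ h hζ
    (T := ((TA.1 : ℂ) - TB.1 * Complex.I, fun l => (TA.2 l : ℂ) - TB.2 l * Complex.I))
    (E := ((EA.1 : ℂ) + EB.1 * Complex.I, fun l => (EA.2 l : ℂ) + EB.2 l * Complex.I)) ?_ ?_
  · have e1 : -((TA.1 : ℂ) - TB.1 * Complex.I).im = TB.1 := by simp
    have e2 : hNC K m ((EA.1 : ℂ) + EB.1 * Complex.I, fun l => (EA.2 l : ℂ) + EB.2 l * Complex.I) ≤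
        hN K m EA + hN K m EB := by
      unfold hNC hN
      have b : ∀ x y : ℝ, ‖(x : ℂ) + y * Complex.I‖ ≤ |x| + |y| := by
        intro x y
        refine (norm_add_le _ _).trans (le_of_eq ?_)
        rw [norm_mul, Complex.norm_I, mul_one, Complex.norm_real, Complex.norm_real]
        rfl
      have b1 := b EA.1 EB.1
      have b2 : ∑ i ∈ Finset.range (K + 1), (m (i + 1) - m i) *
          ‖(EA.2 i : ℂ) + EB.2 i * Complex.I‖ ≤
          ∑ i ∈ Finset.range (K + 1), (m (i + 1) - m i) * |EA.2 i| +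
          ∑ i ∈ Finset.range (K + 1), (m (i + 1) - m i) * |EB.2 i| := by
        rw [← Finset.sum_add_distrib]
        refine Finset.sum_le_sum fun i hi => ?_
        rw [← mul_add]
        exact mul_le_mul_of_nonneg_left (b _ _)
          ((hr_expo hm').p_nonneg (by have := Finset.mem_range.1 hi; omega))
      simp only at b1 b2 ⊢
      linarith
    rw [e1] at key
    refine key.trans (mul_le_mul_of_nonneg_left (e2.trans (add_le_add hA hB)) ?_)
    positivity
  · have f1 : EA.1 = ζ.re * TA.1 + ζ.im * TB.1 - 1 - c * (hm K m (1, R) TA).1 := by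
      rw [hEA]; simp
    have f2 : EB.1 = ζ.im * TA.1 - ζ.re * TB.1 + c * (hm K m (1, R) TB).1 := by
      rw [hEB]; simp
    have f3 : (hmC K m (toC (1, R)) ((TA.1 : ℂ) - TB.1 * Complex.I,
        fun l => (TA.2 l : ℂ) - TB.2 l * Complex.I)).1 =
        ((hm K m (1, R) TA).1 : ℂ) - (hm K m (1, R) TB).1 * Complex.I := by
      simp only [hmC, toC, hm]
      push_cast
      rw [Finset.sum_congr rfl (fun i _ => show ((m (i + 1) : ℂ) - m i) * ((R i : ℂ) *
          ((TA.2 i : ℂ) - TB.2 i * Complex.I)) = ((m (i + 1) : ℂ) - m i) * ((R i : ℂ) * TA.2 i) -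
          ((m (i + 1) : ℂ) - m i) * ((R i : ℂ) * TB.2 i) * Complex.I by ring),
        Finset.sum_sub_distrib, ← Finset.sum_mul]
      ring
    rw [f3]
    simp only [f1, f2]
    push_cast
    linear_combination ((TA.1 : ℂ) - TB.1 * Complex.I) * hz - (ζ.im * TB.1 : ℂ) * Complex.I_sq
  · intro l hl
    have f1 : EA.2 l = ζ.re * TA.2 l + ζ.im * TB.2 l - R l - c * (hm K m (1, R) TA).2 l := by
      rw [hEA]; simp
    have f2 : EB.2 l = ζ.im * TA.2 l - ζ.re * TB.2 l + c * (hm K m (1, R) TB).2 l := by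
      rw [hEB]; simp
    have f3 : (hmC K m (toC (1, R)) ((TA.1 : ℂ) - TB.1 * Complex.I,
        fun l => (TA.2 l : ℂ) - TB.2 l * Complex.I)).2 l =
        ((hm K m (1, R) TA).2 l : ℂ) - (hm K m (1, R) TB).2 l * Complex.I := by
      simp only [hmC, toC, hm]
      push_cast
      have s1 : ∀ s : Finset ℕ, ∑ i ∈ s, ((m (i + 1) : ℂ) - m i) * ((R i : ℂ) *
          ((TA.2 i : ℂ) - TB.2 i * Complex.I)) = ∑ i ∈ s, ((m (i + 1) : ℂ) - m i) *
          ((R i : ℂ) * TA.2 i) - (∑ i ∈ s, ((m (i + 1) : ℂ) - m i) *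
          ((R i : ℂ) * TB.2 i)) * Complex.I := by
        intro s
        rw [Finset.sum_mul, ← Finset.sum_sub_distrib]
        exact Finset.sum_congr rfl fun i _ => by ring
      have s2 : ∀ s : Finset ℕ, ∑ i ∈ s, ((m (i + 1) : ℂ) - m i) *
          ((TA.2 i : ℂ) - TB.2 i * Complex.I) = ∑ i ∈ s, ((m (i + 1) : ℂ) - m i) * TA.2 i -
          (∑ i ∈ s, ((m (i + 1) : ℂ) - m i) * TB.2 i) * Complex.I := by
        intro s
        rw [Finset.sum_mul, ← Finset.sum_sub_distrib]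
        exact Finset.sum_congr rfl fun i _ => by ring
      rw [s1, s2]
      ring
    rw [f3]
    simp only [f1, f2]
    push_cast
    linear_combination ((TA.2 l : ℂ) - TB.2 l * Complex.I) * hz -
      (ζ.im * TB.2 l : ℂ) * Complex.I_sq

/-! ### The functional `Φ` -/

theorem phr_sub_le {c κ : ℝ} {ζ : ℂ} (hc : 0 ≤ c) (hζ : 0 < κ) {x x' : ℝ}
    (n1 : κ ≤ ‖ζ - c * x‖) (n2 : κ ≤ ‖ζ - c * x'‖) :
    |phr c ζ x - phr c ζ x'| ≤ 2 * c * ‖ζ‖ / κ ^ 3 * |x - x'| := by
  have h1 : ζ - c * x ≠ 0 := norm_pos_iff.1 (hζ.trans_le n1)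
  have h2 : ζ - c * x' ≠ 0 := norm_pos_iff.1 (hζ.trans_le n2)
  have e1 : phr c ζ x - phr c ζ x' = -(ζ / (ζ - c * x) ^ 2 - ζ / (ζ - c * x') ^ 2).im := by
    unfold phr
    rw [Complex.sub_im]
    ring
  have e2 : ζ / (ζ - c * x) ^ 2 - ζ / (ζ - c * x') ^ 2 =
      ζ * ((c * (x - x') : ℝ) : ℂ) * (1 / ((ζ - c * x) * (ζ - c * x') ^ 2) +
        1 / ((ζ - c * x) ^ 2 * (ζ - c * x'))) := by
    push_cast
    field_simp
    ring
  have b1 : ‖1 / ((ζ - c * x) * (ζ - c * x') ^ 2)‖ ≤ 1 / κ ^ 3 := by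
    rw [norm_div, norm_one, norm_mul, norm_pow]
    refine one_div_le_one_div_of_le (by positivity) ?_
    calc κ ^ 3 = κ * κ ^ 2 := by ring
      _ ≤ ‖ζ - c * x‖ * ‖ζ - c * x'‖ ^ 2 :=
        mul_le_mul n1 (pow_le_pow_left₀ hζ.le n2 2) (by positivity) (norm_nonneg _)
  have b2 : ‖1 / ((ζ - c * x) ^ 2 * (ζ - c * x'))‖ ≤ 1 / κ ^ 3 := by
    rw [norm_div, norm_one, norm_mul, norm_pow]
    refine one_div_le_one_div_of_le (by positivity) ?_
    calc κ ^ 3 = κ ^ 2 * κ := by ring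
      _ ≤ ‖ζ - c * x‖ ^ 2 * ‖ζ - c * x'‖ :=
        mul_le_mul (pow_le_pow_left₀ hζ.le n1 2) n2 hζ.le (by positivity)
  rw [e1, abs_neg]
  refine (Complex.abs_im_le_norm _).trans ?_
  rw [e2, norm_mul, norm_mul, Complex.norm_real, Real.norm_eq_abs, abs_mul, abs_of_nonneg hc]
  have b3 := (norm_add_le (1 / ((ζ - c * x) * (ζ - c * x') ^ 2))
    (1 / ((ζ - c * x) ^ 2 * (ζ - c * x')))).trans (add_le_add b1 b2)
  refine (mul_le_mul_of_nonneg_left b3 (by (clear * - hc; positivity))).trans (le_of_eq ?_)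
  ring

/-- The Schur inequality for `Φ`. -/
theorem PHr_lip (hm' : Exponents K m) {q R : ℕ → ℝ} (hq : Path K q) (hq1 : q K ≤ 1)
    (hR : Path K R) (hR1 : R K ≤ 1) {η : ℝ} (hη : 0 ≤ η)
    (h : ∀ j ≤ K, -η ≤ ∑ l ∈ Finset.Ico j (K + 1), (m (l + 1) - m l) * (R l - q l))
    {c κ : ℝ} {ζ : ℂ} (hc : 0 ≤ c) (hζ : 0 < κ)
    (nq : ∀ s ∈ Set.Icc (0 : ℝ) 1, κ ≤ ‖ζ - c * Lam K m q s‖)
    (nR : ∀ s ∈ Set.Icc (0 : ℝ) 1, κ ≤ ‖ζ - c * Lam K m R s‖) :
    PHr K m c ζ q - PHr K m c ζ R ≤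
      2 * c * ‖ζ‖ / κ ^ 3 * ((trp K m q 2 - trp K m R 2) / 2 + 2 * η) := by
  have hcq := hr_Lam_continuous (K := K) (m := m) q
  have hcR := hr_Lam_continuous (K := K) (m := m) R
  have hco : ∀ r : ℕ → ℝ, (∀ s ∈ Set.Icc (0 : ℝ) 1, κ ≤ ‖ζ - c * Lam K m r s‖) →
      ContinuousOn (fun s => phr c ζ (Lam K m r s)) (Set.uIcc 0 1) := by
    intro r hr
    have hcr := hr_Lam_continuous (K := K) (m := m) r
    rw [Set.uIcc_of_le zero_le_one]
    unfold phr
    refine ContinuousOn.neg (Complex.continuous_im.comp_continuousOn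
      (ContinuousOn.div continuousOn_const ?_ ?_))
    · refine Continuous.continuousOn ?_
      have : Continuous fun s => ((Lam K m r s : ℝ) : ℂ) := Complex.continuous_ofReal.comp hcr
      fun_prop
    · intro s hs
      exact pow_ne_zero 2 (norm_pos_iff.1 (hζ.trans_le (hr s hs)))
  have e1 : (trp K m q 2 - trp K m R 2) / 2 + 2 * η =
      ∫ s in (0 : ℝ)..1, (Lam K m q s - Lam K m R s + 2 * η) := by
    rw [hr_trp_int hm' hq hq1 one_le_two, hr_trp_int hm' hR hR1 one_le_two,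
      intervalIntegral.integral_add, intervalIntegral.integral_sub]
    · simp only [Nat.cast_ofNat, intervalIntegral.integral_const_mul,
        intervalIntegral.integral_const]
      simp
      ring
    · apply Continuous.intervalIntegrable
      fun_prop
    · apply Continuous.intervalIntegrable
      fun_prop
    · apply Continuous.intervalIntegrable
      fun_prop
    · apply Continuous.intervalIntegrable
      fun_prop
  unfold PHr
  rw [e1, ← intervalIntegral.integral_const_mul, ← intervalIntegral.integral_sub]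
  · refine intervalIntegral.integral_mono_on zero_le_one ?_ ?_ fun s hs => ?_
    · exact ((hco q nq).sub (hco R nR)).intervalIntegrable
    · apply Continuous.intervalIntegrable
      fun_prop
    · have a1 := hr_Lam_le_add hm' hq hq1 hη h s
      have a2 : |Lam K m q s - Lam K m R s| ≤ Lam K m q s - Lam K m R s + 2 * η := by
        rw [abs_le]
        constructor <;> linarith
      have a3 := (le_abs_self _).trans (phr_sub_le (ζ := ζ) hc hζ (nq s hs) (nR s hs))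
      exact a3.trans (mul_le_mul_of_nonneg_left a2 (by (clear * - hc hζ; positivity)))
  · exact (hco q nq).intervalIntegrable
  · exact (hco R nR).intervalIntegrable

theorem Lam_anti (hm' : Exponents K m) (q : ℕ → ℝ) {s t : ℝ} (hst : s ≤ t) :
    Lam K m q t ≤ Lam K m q s := by
  unfold Vale.Agent.P166.F.Lam
  have h1 : ∑ l ∈ Finset.range (K + 1), (m (l + 1) - m l) = 1 := by
    rw [Finset.sum_range_sub m, hm'.2.1, hm'.1, sub_zero]
  have h2 : ∑ l ∈ Finset.range (K + 1), (m (l + 1) - m l) * max (q l - s) 0 ≤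
      ∑ l ∈ Finset.range (K + 1), (m (l + 1) - m l) * (max (q l - t) 0 + (t - s)) := by
    refine Finset.sum_le_sum fun l hl => ?_
    refine mul_le_mul_of_nonneg_left ?_
      ((hr_expo hm').p_nonneg (by have := Finset.mem_range.1 hl; omega))
    refine max_le ?_ ?_
    · linarith [le_max_left (q l - t) 0]
    · linarith [le_max_right (q l - t) 0]
  have h3 : ∑ l ∈ Finset.range (K + 1), (m (l + 1) - m l) * (max (q l - t) 0 + (t - s)) =
      ∑ l ∈ Finset.range (K + 1), (m (l + 1) - m l) * max (q l - t) 0 + (t - s) := by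
    simp only [mul_add, Finset.sum_add_distrib]
    rw [← Finset.sum_mul, h1, one_mul]
  linarith

theorem Lam_zero (hm' : Exponents K m) {q : ℕ → ℝ} (hq : Path K q) (hq1 : q K ≤ 1) :
    Lam K m q 0 = chi K m q := by
  rw [hr_Lam_low hm' hq hq1 hq.1, hr_chi_eq hm']

theorem Lam_le_chi (hm' : Exponents K m) {q : ℕ → ℝ} (hq : Path K q) (hq1 : q K ≤ 1) {s : ℝ}
    (hs : 0 ≤ s) : Lam K m q s ≤ chi K m q := by
  rw [← Lam_zero hm' hq hq1]
  exact Lam_anti hm' q hs

/-- The upper bound of the level zero eigenvalue of a path with larger tails. -/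
theorem chi_le_add (hm' : Exponents K m) {q R : ℕ → ℝ} (hq : Path K q) (hq1 : q K ≤ 1)
    (hR : Path K R) (hR1 : R K ≤ 1) {η : ℝ} (hη : 0 ≤ η)
    (h : ∀ j ≤ K, -η ≤ ∑ l ∈ Finset.Ico j (K + 1), (m (l + 1) - m l) * (R l - q l)) :
    chi K m R ≤ chi K m q + η := by
  rw [← Lam_zero hm' hq hq1, ← Lam_zero hm' hR hR1]
  exact hr_Lam_le_add hm' hq hq1 hη h 0

/-- The lower bound of the integrand. -/
theorem phr_ge {c κ : ℝ} {ζ : ℂ} {x : ℝ} (hx : 0 ≤ c * x)
    (h : c * x + κ ≤ ζ.re) (hζ : 0 < ζ.im) :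
    2 * (c * x) * κ * ζ.im / ((ζ.re - c * x) ^ 2 + ζ.im ^ 2) ^ 2 ≤ phr c ζ x := by
  have hn : 0 < (ζ.re - c * x) ^ 2 + ζ.im ^ 2 := by positivity
  have e1 : phr c ζ x = ζ.im * ((ζ.re - c * x) ^ 2 + ζ.im ^ 2 + 2 * (c * x) * (ζ.re - c * x)) /
      ((ζ.re - c * x) ^ 2 + ζ.im ^ 2) ^ 2 := by
    unfold phr
    have e2 : (ζ - c * x) = ⟨ζ.re - c * x, ζ.im⟩ := by
      apply Complex.ext <;> simp
    rw [e2, Complex.div_im]
    have e3 : ((⟨ζ.re - c * x, ζ.im⟩ : ℂ) ^ 2) = ⟨(ζ.re - c * x) ^ 2 - ζ.im ^ 2,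
        2 * (ζ.re - c * x) * ζ.im⟩ := by
      rw [pow_two]
      apply Complex.ext
      · rw [Complex.mul_re]; ring
      · rw [Complex.mul_im]; ring
    have e4 : Complex.normSq (⟨(ζ.re - c * x) ^ 2 - ζ.im ^ 2,
        2 * (ζ.re - c * x) * ζ.im⟩ : ℂ) = ((ζ.re - c * x) ^ 2 + ζ.im ^ 2) ^ 2 := by
      rw [Complex.normSq_mk]; ring
    rw [e3, e4]
    field_simp
    ring
  rw [e1]
  refine div_le_div_of_nonneg_right ?_ (by positivity)
  have h1 : κ ≤ ζ.re - c * x := by linarith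
  have h2 : 2 * (c * x) * κ ≤ 2 * (c * x) * (ζ.re - c * x) :=
    mul_le_mul_of_nonneg_left h1 (by positivity)
  (by_contra nlg; linarith only [nlg, mul_nonneg (le_of_lt (sub_pos.2 hn)) (sub_nonneg.2 (mul_le_mul_of_nonneg_left h2 hζ.le)), mul_pos (sub_pos.2 (not_le.1 nlg)) (sub_pos.2 hn), mul_nonneg (sq_nonneg ((ζ.re - c * x) ^ 2 + ζ.im ^ 2 : ℝ)) (le_of_lt (sub_pos.2 hζ))])

/-- The lower bound of `Φ`. -/
theorem PHr_ge (hm' : Exponents K m) {q : ℕ → ℝ} (hq : Path K q) (hq1 : q K ≤ 1) {c y : ℝ}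
    {ζ : ℂ} (hc : 0 ≤ c) (hy : 0 < y) (hy1 : y ≤ 1) (hchi : c * chi K m q ≤ 1 + √y / 8)
    (hr : 1 + √y / 2 ≤ ζ.re) (hr' : ζ.re ≤ 1 + 2 * √y) (hi : √y / 2 ≤ ζ.im)
    (hi' : ζ.im ≤ 3 * √y) {v : ℝ} (hv : 0 ≤ v) (hv1 : v ≤ 1)
    (hL : 1 - √y / 8 ≤ c * Lam K m q v) :
    v / (1100 * y) ≤ PHr K m c ζ q := by
  have hsy : 0 < √y := Real.sqrt_pos.2 hy
  have hsy1 : √y ≤ 1 := by rw [← Real.sqrt_one]; exact Real.sqrt_le_sqrt hy1
  have hsq : √y ^ 2 = y := Real.sq_sqrt hy.le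
  have hζ : 0 < ζ.im := by linarith only [hsy, hi]
  have hcq := hr_Lam_continuous (K := K) (m := m) q
  have hph := continuous_phr c hζ
  have hint : ∀ a b : ℝ, IntervalIntegrable (fun s => phr c ζ (Lam K m q s))
      MeasureTheory.volume a b := fun a b => (hph.comp hcq).intervalIntegrable a b
  have hup : ∀ s, 0 ≤ s → c * Lam K m q s + 3 * √y / 8 ≤ ζ.re := by
    intro s hs
    have := mul_le_mul_of_nonneg_left (Lam_le_chi hm' hq hq1 hs) hc
    linarith only [this, hr, hchi]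
  unfold PHr
  rw [← intervalIntegral.integral_add_adjacent_intervals (hint 0 v) (hint v 1)]
  have h1 : 0 ≤ ∫ s in v..1, phr c ζ (Lam K m q s) := by
    refine intervalIntegral.integral_nonneg hv1 fun s hs => ?_
    have hs0 : 0 ≤ s := hv.trans hs.1
    have h2 : 0 ≤ c * Lam K m q s := mul_nonneg hc (hr_Lam_nonneg hm' hq hq1 hs.2)
    refine le_trans ?_ (phr_ge h2 (hup s hs0) hζ)
    (clear * - h2 hy hζ; positivity)
  have h3 : v / (1100 * y) ≤ ∫ s in (0 : ℝ)..v, phr c ζ (Lam K m q s) := by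
    have e1 : v / (1100 * y) = ∫ _s in (0 : ℝ)..v, 1 / (1100 * y) := by
      rw [intervalIntegral.integral_const]
      simp only [sub_zero, smul_eq_mul]
      ring
    rw [e1]
    refine intervalIntegral.integral_mono_on hv (by simp) (hint 0 v) fun s hs => ?_
    have a1 : 1 - √y / 8 ≤ c * Lam K m q s :=
      hL.trans (mul_le_mul_of_nonneg_left (Lam_anti hm' q hs.2) hc)
    have a2 : 0 ≤ c * Lam K m q s := by linarith only [a1, hsy1]
    have a3 := hup s hs.1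
    refine le_trans ?_ (phr_ge a2 a3 hζ)
    obtain ⟨x, hx⟩ : ∃ x, x = c * Lam K m q s := ⟨_, rfl⟩
    rw [← hx] at a1 a2 a3 ⊢
    have b1 : (ζ.re - x) ^ 2 ≤ (17 / 8 * √y) ^ 2 := by
      refine pow_le_pow_left₀ (by linarith only [a3, hsy]) (by linarith only [a1, hr']) 2
    have b2 : ζ.im ^ 2 ≤ (3 * √y) ^ 2 := pow_le_pow_left₀ hζ.le hi' 2
    have b3 : (ζ.re - x) ^ 2 + ζ.im ^ 2 ≤ 14 * y := by
      rw [mul_pow, hsq] at b1 b2
      linarith only [b2, b1, hy]
    have b4 : ((ζ.re - x) ^ 2 + ζ.im ^ 2) ^ 2 ≤ 196 * y ^ 2 := by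
      calc ((ζ.re - x) ^ 2 + ζ.im ^ 2) ^ 2 ≤ (14 * y) ^ 2 :=
            pow_le_pow_left₀ (by (clear * - hζ; positivity)) b3 2
        _ = 196 * y ^ 2 := by ring
    have b5 : 0 < ((ζ.re - x) ^ 2 + ζ.im ^ 2) ^ 2 := by (clear * - hζ; positivity)
    rw [div_le_div_iff₀ (by positivity) b5]
    have b6 : 21 / 64 * y ≤ 2 * x * (3 * √y / 8) * ζ.im := by
      have c1 : 7 / 8 ≤ x := by linarith only [a1, hsy1]
      have c2 : (7 / 4 : ℝ) * (3 * √y / 8) ≤ 2 * x * (3 * √y / 8) :=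
        mul_le_mul_of_nonneg_right (by linarith only [c1]) (by positivity)
      have c3 : (7 / 4 : ℝ) * (3 * √y / 8) * (√y / 2) ≤ 2 * x * (3 * √y / 8) * ζ.im :=
        mul_le_mul c2 hi (by positivity) (by positivity)
      have c4 : (7 / 4 : ℝ) * (3 * √y / 8) * (√y / 2) = 21 / 64 * √y ^ 2 := by ring
      rw [hsq] at c4
      linarith only [c4, c3]
    have b7 : 21 / 64 * y * (1100 * y) ≤ 2 * x * (3 * √y / 8) * ζ.im * (1100 * y) :=
      mul_le_mul_of_nonneg_right b6 (by positivity)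
    linarith only [mul_pos hy hy, b7, b4]
  linarith

/-! ### The statements of the skeleton -/

theorem hres {m R : ℕ → ℝ} (hm' : Exponents K m) (hR : Path K R) (hR1 : R K ≤ 1) {ζ : ℂ}
    {c κ e : ℝ} (hc : 0 ≤ c) (hκ : 0 < κ) (hκ1 : κ ≤ 1) (hi : 0 < ζ.im)
    (hζ : c * chi K m R + κ ≤ ‖ζ‖) {TA TB : ℝ × (ℕ → ℝ)}
    (hA : hN K m (ζ.re • TA + ζ.im • TB - (1, R) - c • hm K m (1, R) TA) ≤ e)
    (hB : hN K m (ζ.im • TA - ζ.re • TB + c • hm K m (1, R) TB) ≤ e) :
    |TB.1 - PHI ζ c K m R| ≤ 8 * (1 + c) / κ ^ 2 * e := by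
  have h1 := hres_real hm' hR hR1 hc hκ hζ hi hA hB
  have h2 : PHI ζ c K m R = PHr K m c ζ R := rfl
  have he : 0 ≤ e := (hN_nonneg hm' _).trans hA
  rw [h2]
  refine h1.trans ?_
  have h3 : 1 / κ ≤ 1 / κ ^ 2 := by
    refine one_div_le_one_div_of_le (by positivity) ?_
    (by_contra nlg; linarith only [nlg, mul_nonneg (le_of_lt (sub_pos.2 hκ)) (sub_nonneg.2 hκ1), mul_nonneg (le_of_lt (sub_pos.2 (not_le.1 nlg))) (sub_nonneg.2 hκ1), mul_pos (sub_pos.2 (not_le.1 nlg)) (sub_pos.2 hκ)])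
  have h4 : 1 / κ + c / κ ^ 2 ≤ (1 + c) / κ ^ 2 := by
    rw [add_div]
    linarith only [h3]
  calc (1 / κ + c / κ ^ 2) * (e + e) ≤ (1 + c) / κ ^ 2 * (e + e) :=
        mul_le_mul_of_nonneg_right h4 (by linarith)
    _ = 2 * ((1 + c) / κ ^ 2 * e) := by ring
    _ ≤ 8 * ((1 + c) / κ ^ 2 * e) := by
        have : 0 ≤ (1 + c) / κ ^ 2 * e := by positivity
        linarith only [this]
    _ = 8 * (1 + c) / κ ^ 2 * e := by ring

/-- comparison of `Φ` for two paths (Schur order) -/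
theorem phi_compare {m q R : ℕ → ℝ} (hm' : Exponents K m) (hq : Path K q) (hq1 : q K ≤ 1)
    (hR : Path K R) (hR1 : R K ≤ 1) {η c κ : ℝ} {ζ : ℂ} (hη : 0 ≤ η) (hc : 0 ≤ c) (hκ : 0 < κ)
    (hζ2 : ‖ζ‖ ≤ 4) (hζ : c * (chi K m q + η) + κ ≤ ζ.re)
    (h : ∀ j ≤ K, -η ≤ ∑ l ∈ Finset.Ico j (K + 1), (m (l + 1) - m l) * (R l - q l)) :
    PHI ζ c K m q - 8 * c / κ ^ 3 * ((trp K m q 2 - trp K m R 2) / 2 + 2 * η) ≤ PHI ζ c K m R := by
  have hge : ∀ x : ℝ, x ≤ chi K m q + η → κ ≤ ‖ζ - c * x‖ := by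
    intro x hx
    refine le_trans ?_ (Complex.re_le_norm _)
    have h1 : (ζ - c * x).re = ζ.re - c * x := by simp
    rw [h1]
    have := mul_le_mul_of_nonneg_left hx hc
    linarith
  have h1 := PHr_lip hm' hq hq1 hR hR1 hη h (ζ := ζ) hc hκ
    (fun s hs => hge _ ((Lam_le_chi hm' hq hq1 hs.1).trans (by linarith)))
    (fun s hs => hge _ ((Lam_le_chi hm' hR hR1 hs.1).trans (chi_le_add hm' hq hq1 hR hR1 hη h)))
  have h2 : ∀ r : ℕ → ℝ, PHI ζ c K m r = PHr K m c ζ r := fun _ => rfl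
  have h3 : 0 ≤ (trp K m q 2 - trp K m R 2) / 2 + 2 * η := by
    have := schur_two hm' hq hq1 hR hR1 hη h
    linarith only [this, hη]
  have h4 : 2 * c * ‖ζ‖ / κ ^ 3 ≤ 8 * c / κ ^ 3 := by
    refine div_le_div_of_nonneg_right ?_ (by positivity)
    linarith only [mul_nonneg (sub_nonneg.2 hc) (sub_nonneg.2 hζ2)]
  have h5 := mul_le_mul_of_nonneg_right h4 h3
  rw [h2, h2]
  linarith only [h5, h1]

/-- the lower bound of `Φ` -/
theorem phi_lower {m q : ℕ → ℝ} (hm' : Exponents K m) (hq : Path K q) (hq1 : q K ≤ 1)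
    {c κ v : ℝ} {ζ : ℂ} (hc : 0 ≤ c) (hκ : 0 < κ) (hκ1 : κ ≤ 1 / 8) (hre : 1 + 4 * κ ≤ ζ.re)
    (hre2 : ζ.re ≤ 1 + 8 * κ) (him : 4 * κ ≤ ζ.im) (him2 : ζ.im ≤ 16 * κ)
    (hchi : c * chi K m q ≤ 1 + κ) (hv : 0 ≤ v) (hv1 : v ≤ 1)
    (hlow : ∀ u ∈ Set.Icc 0 v, 1 - κ ≤ c * Lam K m q u) :
    v / (10 ^ 6 * κ ^ 2) ≤ PHI ζ c K m q := by
  have h2 : PHI ζ c K m q = PHr K m c ζ q := rfl
  have hs : √(64 * κ ^ 2) = 8 * κ := by
    rw [show 64 * κ ^ 2 = (8 * κ) ^ 2 by ring, Real.sqrt_sq (by positivity)]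
  have h1 := PHr_ge hm' hq hq1 (c := c) (y := 64 * κ ^ 2) (ζ := ζ) hc (by positivity)
    (by nlinarith) (by rw [hs]; linarith) (by rw [hs]; linarith) (by rw [hs]; linarith)
    (by rw [hs]; linarith) (by rw [hs]; linarith) hv hv1
    (by rw [hs]; have := hlow v ⟨hv, le_rfl⟩; linarith)
  rw [h2]
  refine le_trans ?_ h1
  refine div_le_div_of_nonneg_left hv (by positivity) ?_
  linarith only [sq_nonneg κ]

end Vale.Agent.P146.Pw2
end

section

/-!
# P146 / Sx: the second invariant of the Parisi flow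

`-(log F'')'' ≥ 2 c F''` with a constant `c` which does not depend on the exponents: the constant
decays at most by the factor `exp (-2 s)` along a step of variance `s`.
-/

open MeasureTheory ProbabilityTheory Filter Topology Set

namespace Vale.Agent.P146.Gap

open Vale.Agent.P157.Par

variable {C g c : ℝ} {F : ℝ → ℝ}

theorem inv_bet_eq (c g : ℝ) (G : ℝ → ℝ) (x : ℝ) :
    bet c G x = bet g G x - 2 * (c - g) * iteratedDeriv 2 G x := by
  unfold bet; ring

/-- Monotonicity in the coefficient. -/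
theorem inv_mono (h : Adm C F) {c c' : ℝ} (hc : c' ≤ c) (hb : ∀ x, 0 ≤ bet c F x) :
    ∀ x, 0 ≤ bet c' F x := by
  intro x
  have h1 := hb x
  rw [inv_bet_eq c c'] at h1
  have h2 := h.pos x
  linarith only [mul_nonneg (sub_nonneg.2 hc) h2.le, h1]

/-- The step when the exponent is small. -/
theorem inv_step (h : Adm C F) (hc0 : 0 < c) (hc1 : c ≤ 1) (hb : ∀ x, 0 ≤ bet c F x) (hg : 0 < g)
    {s : ℝ} (hs : 0 ≤ s) (hgc : g ≤ c * Real.exp (-(2 * s))) :
    ∀ x, 0 ≤ bet (c * Real.exp (-(2 * s))) (gstep g s F) x := by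
  have hexp1 : Real.exp (-(2 * s)) ≤ 1 := Real.exp_le_one_iff.2 (by linarith)
  have hg1 : g ≤ 1 := by
    calc g ≤ c * Real.exp (-(2 * s)) := hgc
      _ ≤ 1 * 1 := mul_le_mul hc1 hexp1 (Real.exp_pos _).le zero_le_one
      _ = 1 := one_mul 1
  rcases hs.eq_or_lt with rfl | hs0
  · intro x
    rw [gstep_zero hg.ne']
    simpa using hb x
  obtain ⟨B, hB0, hB1, hB2⟩ := beta_bound h hg hg1 s
  have hsm : ∀ t, SmB (gstep g t F) := fun t => smB_gstep h.smb hg t
  -- the coefficient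
  have hk0 : ∀ t ∈ Icc 0 s, 0 ≤ c * Real.exp (-(2 * t)) - g := by
    intro t ht
    have h1 : Real.exp (-(2 * s)) ≤ Real.exp (-(2 * t)) :=
      Real.exp_le_exp.2 (by linarith [ht.2])
    have := mul_le_mul_of_nonneg_left h1 hc0.le
    linarith
  have hk1 : ∀ t ∈ Icc 0 s, c * Real.exp (-(2 * t)) - g ≤ 1 := by
    intro t ht
    have h1 : Real.exp (-(2 * t)) ≤ 1 := Real.exp_le_one_iff.2 (by linarith [ht.1])
    have := mul_le_mul hc1 h1 (Real.exp_pos _).le zero_le_one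
    linarith
  have hu : ∀ t ∈ Icc 0 s, ∀ x, 0 < iteratedDeriv 2 (gstep g t F) x ∧
      iteratedDeriv 2 (gstep g t F) x ≤ 1 := by
    intro t ht x
    have hA := h.step hg hg1 ht.1
    exact ⟨hA.pos x, by linarith only [sq_nonneg (iteratedDeriv 1 (gstep g t F) x), hA.le1 x]⟩
  have main := maxp_line (S := s) (B := B + 2)
    (w := fun t x => bet g (gstep g t F) x
      - 2 * (c * Real.exp (-(2 * t)) - g) * iteratedDeriv 2 (gstep g t F) x)
    (ws := fun t x => (1 / 2 * beta_pp g (gstep g t F) x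
        - Yf g (gstep g t F) x * betp g (gstep g t F) x
        - (g * iteratedDeriv 2 (gstep g t F) x + bet g (gstep g t F) x)
          * bet g (gstep g t F) x)
        - ((2 * (-(2 * (c * Real.exp (-(2 * t)))))) * iteratedDeriv 2 (gstep g t F) x
          + 2 * (c * Real.exp (-(2 * t)) - g) * (1 / 2 * iteratedDeriv 4 (gstep g t F) x
            + g * (iteratedDeriv 2 (gstep g t F) x ^ 2
              + iteratedDeriv 1 (gstep g t F) x * iteratedDeriv 3 (gstep g t F) x))))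
    (wx := fun t x => betp g (gstep g t F) x
      - 2 * (c * Real.exp (-(2 * t)) - g) * iteratedDeriv 3 (gstep g t F) x)
    (wxx := fun t x => beta_pp g (gstep g t F) x
      - 2 * (c * Real.exp (-(2 * t)) - g) * iteratedDeriv 4 (gstep g t F) x)
    (b := fun t x => - Yf g (gstep g t F) x)
    (c := fun t x => -(g * iteratedDeriv 2 (gstep g t F) x + bet g (gstep g t F) x
      + 2 * (c * Real.exp (-(2 * t)) - g) * iteratedDeriv 2 (gstep g t F) x))
    hs0 ?_ ?_ ?_ ?_ ?_ ?_ ?_ ?_ ?_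
  · intro x
    have h1 := main s ⟨hs, le_rfl⟩ x
    rw [inv_bet_eq _ g]
    exact h1
  · -- continuity
    refine (beta_cont h hg hg1 s).sub ?_
    refine ContinuousOn.mul ?_ (fj_cont h.smb hg 2).continuousOn
    exact Continuous.continuousOn (by fun_prop)
  · -- bound
    intro t ht x
    have h1 := hB1 t ht x
    obtain ⟨h2, h3⟩ := hu t ht x
    have h4 := hk0 t ht
    have h5 := hk1 t ht
    refine (abs_sub _ _).trans ?_
    have h6 : |2 * (c * Real.exp (-(2 * t)) - g) * iteratedDeriv 2 (gstep g t F) x| ≤ 2 := by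
      rw [abs_of_nonneg (by (clear * - h4 h2; positivity))]
      have : (c * Real.exp (-(2 * t)) - g) * iteratedDeriv 2 (gstep g t F) x ≤ 1 * 1 :=
        mul_le_mul h5 h3 h2.le zero_le_one
      linarith
    linarith
  · intro t ht x
    refine (beta_s h.smb hg ht.1 (beta_pos h hg hg1 ht.1.le x)).sub ?_
    have h1 : HasDerivAt (fun t : ℝ => -(2 * t)) (-2) t :=
      (((hasDerivAt_id' t).const_mul 2).fun_neg).congr_deriv (by ring)
    have h2 : HasDerivAt (fun t : ℝ => 2 * (c * Real.exp (-(2 * t)) - g))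
        (2 * (-(2 * (c * Real.exp (-(2 * t)))))) t :=
      (((h1.exp.const_mul c).sub_const g).const_mul 2).congr_deriv (by ring)
    exact h2.mul (fj_s2 h.smb hg ht.1 x)
  · intro t ht x
    refine (beta_hasDerivAt (hsm t) (beta_pos h hg hg1 ht.1.le x) g).sub ?_
    exact (beta_iter (hsm t) 2 x).const_mul _
  · intro t ht x
    refine (beta_p_hasDerivAt (hsm t) (beta_pos h hg hg1 ht.1.le x) g).sub ?_
    exact (beta_iter (hsm t) 3 x).const_mul _
  · intro t ht x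
    simp only [abs_neg]
    exact (hB2 t ⟨ht.1.le, ht.2.le⟩ x).trans (by linarith)
  · intro t ht x
    have ht' : t ∈ Icc 0 s := ⟨ht.1.le, ht.2.le⟩
    have h1 := hB1 t ht' x
    have h2 := (hu t ht' x).1
    have h3 := neg_abs_le (bet g (gstep g t F) x)
    have h4 : 0 < g * iteratedDeriv 2 (gstep g t F) x := mul_pos hg h2
    have h5 : 0 ≤ 2 * (c * Real.exp (-(2 * t)) - g) * iteratedDeriv 2 (gstep g t F) x :=
      mul_nonneg (mul_nonneg zero_le_two (hk0 t ht')) h2.le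
    linarith
  · intro t ht x
    have ht' : t ∈ Icc 0 s := ⟨ht.1.le, ht.2.le⟩
    obtain ⟨h2, h3⟩ := hu t ht' x
    have h4 := hk0 t ht'
    have h5 := hk1 t ht'
    simp only [Yf]
    obtain ⟨u, hu'⟩ : ∃ u, u = iteratedDeriv 2 (gstep g t F) x := ⟨_, rfl⟩
    obtain ⟨a1, ha1⟩ : ∃ a, a = iteratedDeriv 1 (gstep g t F) x := ⟨_, rfl⟩
    obtain ⟨a3, ha3⟩ : ∃ a, a = iteratedDeriv 3 (gstep g t F) x := ⟨_, rfl⟩
    obtain ⟨a4, ha4⟩ : ∃ a, a = iteratedDeriv 4 (gstep g t F) x := ⟨_, rfl⟩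
    obtain ⟨b0, hb0⟩ : ∃ a, a = bet g (gstep g t F) x := ⟨_, rfl⟩
    obtain ⟨b1, hb1⟩ : ∃ a, a = betp g (gstep g t F) x := ⟨_, rfl⟩
    obtain ⟨b2, hb2⟩ : ∃ a, a = beta_pp g (gstep g t F) x := ⟨_, rfl⟩
    obtain ⟨κ, hκ⟩ : ∃ k, k = c * Real.exp (-(2 * t)) - g := ⟨_, rfl⟩
    have hce : c * Real.exp (-(2 * t)) = κ + g := by rw [hκ]; ring
    rw [← hu'] at h2 h3 ⊢
    rw [← hκ] at h4 h5
    rw [← ha1, ← ha3, ← ha4, ← hb0, ← hb1, ← hb2, hce]
    have e1 : κ + g - g = κ := by ring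
    rw [e1]
    obtain ⟨z, hz⟩ : ∃ z, z = a3 / u := ⟨_, rfl⟩
    have ha3z : a3 = z * u := by rw [hz]; field_simp
    rw [← hz, ha3z]
    have k1 : 0 ≤ κ * u * z ^ 2 := by (clear * - h4 h2; positivity)
    have k2 : κ * u ≤ 1 := by (by_contra nlg; linarith only [nlg, mul_nonneg (sub_nonneg.2 h5) (sub_nonneg.2 h4), mul_nonneg (sub_nonneg.2 h5) (sub_nonneg.2 h5), mul_nonneg (sub_nonneg.2 h3) (sub_nonneg.2 h4), mul_pos (sub_pos.2 (not_le.1 nlg)) (sub_pos.2 h2), mul_nonneg (le_of_lt (sub_pos.2 (not_le.1 nlg))) (sub_nonneg.2 h3)])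
    have k3 : 0 ≤ (κ + g) * (1 - κ * u) := mul_nonneg (by linarith) (by linarith)
    have k4 : 0 ≤ u * ((κ + g) * (1 - κ * u)) := mul_nonneg h2.le k3
    linarith only [k4, k1]
  · intro x
    rw [gstep_zero hg.ne']
    have := hb x
    rw [inv_bet_eq c g] at this
    simpa using this

/-- One step in the invariant class. -/
theorem inv_good {g' : ℝ} (h : Good g' C F) (hc0 : 0 < c) (hc1 : c ≤ 1)
    (hb : ∀ x, 0 ≤ bet c F x) (hg : 0 < g) (hgg : g ≤ g') (hg'1 : g' ≤ 1) {s : ℝ} (hs : 0 ≤ s) :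
    ∀ x, 0 ≤ bet (c * Real.exp (-(2 * s))) (gstep g s F) x := by
  rcases le_total g (c * Real.exp (-(2 * s))) with h1 | h1
  · exact inv_step h.adm hc0 hc1 hb hg hs h1
  · have h2 := h.step hg hgg hg'1 hs
    exact inv_mono h2.adm h1 h2.bet_nonneg

/-- The functions of the recursion. -/
theorem inv_cascade {n : ℕ} {m r : ℕ → ℝ} (h : Good g C F) (hg1 : g ≤ 1) (hc0 : 0 < c)
    (hc1 : c ≤ 1) (hb : ∀ x, 0 ≤ bet c F x)
    (hm0 : ∀ l, 1 ≤ l → l ≤ n → 0 < m l) (hmm : ∀ l, 1 ≤ l → l < n → m l ≤ m (l + 1))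
    (hmg : ∀ l, 1 ≤ l → l ≤ n → m l ≤ g) (hr : ∀ l < n, r l ≤ r (l + 1)) :
    ∀ x, 0 ≤ bet (c * Real.exp (-(2 * (r n - r 0)))) (cascade m r n F) x := by
  induction n generalizing F C g c with
  | zero =>
    have e : cascade m r 0 F = F := rfl
    rw [e, sub_self, mul_zero, neg_zero, Real.exp_zero, mul_one]
    exact hb
  | succ n ih =>
    have hv : 0 ≤ r (n + 1) - r n := sub_nonneg.2 (hr n (Nat.lt_succ_self n))
    have hmc := hm0 (n + 1) (by omega) le_rfl
    have hmg' := hmg (n + 1) (by omega) le_rfl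
    have hm1 : m (n + 1) ≤ 1 := hmg'.trans hg1
    have hchain' : ∀ j l, 1 ≤ l → l + j ≤ n + 1 → m l ≤ m (l + j) := by
      intro j
      induction j with
      | zero => exact fun l _ _ => le_rfl
      | succ j ihj =>
        intro l hl hlj
        exact (ihj l hl (by omega)).trans (hmm (l + j) (by omega) (by omega))
    have hchain : ∀ l, 1 ≤ l → l ≤ n + 1 → m l ≤ m (n + 1) := by
      intro l hl hln
      have := hchain' (n + 1 - l) l hl (by omega)
      rwa [Nat.add_sub_cancel' hln] at this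
    have hexp : Real.exp (-(2 * (r (n + 1) - r n))) ≤ 1 := Real.exp_le_one_iff.2 (by linarith)
    have h1 := ih (h.step hmc hmg' hg1 hv) hm1
      (c := c * Real.exp (-(2 * (r (n + 1) - r n)))) (by positivity)
      (by
        calc c * Real.exp (-(2 * (r (n + 1) - r n))) ≤ 1 * 1 :=
              mul_le_mul hc1 hexp (Real.exp_pos _).le zero_le_one
          _ = 1 := one_mul 1)
      (inv_good h hc0 hc1 hb hmc hmg' hg1 hv)
      (fun l a b => hm0 l a (by omega)) (fun l a b => hmm l a (by omega))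
      (fun l a b => hchain l a (by omega)) (fun l a => hr l (by omega))
    rw [cascade_succ_def]
    have e : c * Real.exp (-(2 * (r (n + 1) - r n))) * Real.exp (-(2 * (r n - r 0))) =
        c * Real.exp (-(2 * (r (n + 1) - r 0))) := by
      rw [mul_assoc, ← Real.exp_add]
      congr 2
      ring
    rwa [e] at h1

theorem inv_lc (x : ℝ) : 0 ≤ bet 1 lc x := good_lc.bet_nonneg x

/-- `F''' ≤ -2 c F' F''` on the half line. -/
theorem inv_d3 (h : Adm C F) (hb : ∀ x, 0 ≤ bet c F x) {x : ℝ} (hx : 0 ≤ x) :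
    iteratedDeriv 3 F x ≤ -(2 * c * iteratedDeriv 1 F x * iteratedDeriv 2 F x) := by
  have h1 : 0 ≤ -(iteratedDeriv 3 F x / iteratedDeriv 2 F x) / 2 - c * iteratedDeriv 1 F x := by
    refine GoodX.good_mono (fun x => Good.D_hasDerivAt h c x) ?_
      (fun y _ => div_nonneg (hb y) (by norm_num)) hx
    rw [GoodX.good_odd h.even (j := 3) (by decide), GoodX.good_odd h.even (j := 1) (by decide)]
    simp
  have h2 := h.pos x
  have h3 : iteratedDeriv 3 F x / iteratedDeriv 2 F x ≤ -(2 * c * iteratedDeriv 1 F x) := by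
    linarith only [h1]
  rw [div_le_iff₀ h2] at h3
  linarith

end Vale.Agent.P146.Gap
end
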