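import Vale.Agent.P146.Bdl.B7
import Vale.Agent.P146.Bdl.B10
import Vale.Agent.P146.Bdl.B8

set_option linter.all false

section

open MeasureTheory ProbabilityTheory Filter Topology

namespace Vale.Agent.P157.Par

namespace Rho

lemma measurable_cubeS_apply {N M : ℕ} (a : Fin M) (x : Fin (N + 1) → Bool) :
    Measurable fun t : Fin M → Fin (N + 1) → ℝ => cubeS (t a) x := by
  unfold cubeS
  fun_prop

lemma abs_prod_le {ι : Type*} [Fintype ι] {h : ℝ → ℝ} {H : ℝ}
    (hhb : ∀ x, |h x| ≤ H) (y : ι → ℝ) : |∏ i, h (y i)| ≤ H ^ (Fintype.card ι) := by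
  rw [Finset.abs_prod]
  calc ∏ i, |h (y i)| ≤ ∏ _i : ι, H := Finset.prod_le_prod (fun _ _ => abs_nonneg _)
        fun i _ => hhb _
    _ = H ^ (Fintype.card ι) := by rw [Finset.prod_const, Finset.card_univ]

lemma abs_prod_le' {n : ℕ} {h : ℝ → ℝ} {H : ℝ}
    (hhb : ∀ x, |h x| ≤ H) (y : Fin n → ℝ) : |∏ i, h (y i)| ≤ H ^ n := by
  have := abs_prod_le hhb y
  rwa [Fintype.card_fin] at this

lemma measurable_one {N M n : ℕ} {h : ℝ → ℝ} (hh : Measurable h) (a : Fin M)
    (x : Fin n → Fin (N + 1) → Bool) :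
    Measurable fun t : Fin M → Fin (N + 1) → ℝ => ∏ i, h (cubeS (t a) (x i)) :=
  Finset.measurable_prod _ fun i _ => hh.comp (measurable_cubeS_apply a (x i))

lemma measurable_addF {N M n : ℕ} {h : ℝ → ℝ} (hh : Measurable h) (δ : ℝ)
    (x : Fin n → Fin (N + 1) → Bool) :
    Measurable fun t : Fin M → Fin (N + 1) → ℝ => addF δ h t x :=
  (Finset.measurable_sum _ fun a _ => measurable_one hh a x).const_mul δ

lemma abs_addF_le {N M n : ℕ} {h : ℝ → ℝ} {H : ℝ} (hhb : ∀ x, |h x| ≤ H) {δ : ℝ} (hδ : 0 ≤ δ)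
    (t : Fin M → Fin (N + 1) → ℝ) (x : Fin n → Fin (N + 1) → Bool) :
    |addF δ h t x| ≤ δ * M * H ^ n := by
  unfold addF
  rw [abs_mul, abs_of_nonneg hδ, mul_assoc]
  refine mul_le_mul_of_nonneg_left ?_ hδ
  refine (Finset.abs_sum_le_sum_abs _ _).trans ?_
  refine (Finset.sum_le_sum fun a _ => abs_prod_le' hhb _).trans ?_
  rw [Finset.sum_const, Finset.card_univ, Fintype.card_fin, nsmul_eq_mul]

lemma addF_succ {N M n : ℕ} {h : ℝ → ℝ} (δ : ℝ) (t : Fin (M + 1) → Fin (N + 1) → ℝ)
    (x : Fin n → Fin (N + 1) → Bool) :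
    addF δ h t x = δ * ∏ i, h (cubeS (t 0) (x i)) + addF δ h (fun a => t a.succ) x := by
  unfold addF
  rw [Fin.sum_univ_succ, mul_add]

lemma addF_swap {N M n : ℕ} {h : ℝ → ℝ} (δ : ℝ) (a b : Fin M) (t : Fin M → Fin (N + 1) → ℝ)
    (x : Fin n → Fin (N + 1) → Bool) :
    addF δ h (fun c => t (Equiv.swap a b c)) x = addF δ h t x := by
  unfold addF
  rw [Equiv.sum_comp (Equiv.swap a b) fun c => ∏ i, h (cubeS (t c) (x i))]

end Rho

open Rho

/-- The reduced algebra of `rho_conc` for one index. -/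
theorem rho_one {f : ℝ → ℝ} (hf : Measurable f) (C : ℝ) (hC : ∀ x, |f x| ≤ C)
    {N M P : ℕ} {s : ℝ} {u : Fin P → ℝ} {α : ℝ} (hα : 0 < α) {n : ℕ} {h : ℝ → ℝ}
    (hh : Measurable h) {H : ℝ} (hH : 1 ≤ H) (hhb : ∀ x, |h x| ≤ H)
    (V : (Fin n → Fin (N + 1) → Bool) → ℝ) (hV : ∀ x, |V x| ≤ H ^ n) {E : ℝ}
    (hE : 0 ≤ E) {ε : ℝ} (hε : 0 < ε) (hε1 : ε ≤ 1)
    (ha : |((M : ℝ) + 1) / (N + 2) - α| ≤ ε) (hδ : 1 / ((N : ℝ) + 2) ≤ ε)
    (e1 : |(pS f hf C hC N (M + 1) P s u).tav (n := n)
        (fun t x => addF (1 / ((N : ℝ) + 2)) h (fun a => t a.succ) x *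
          ∏ i, h (cubeS (t 0) (x i))) -
        (pS f hf C hC N M P s u).tav (n := n)
          (fun t x => addF (1 / ((N : ℝ) + 2)) h t x * V x)| ≤ (α + 1) * H ^ n * (E + ε))
    (e2 : |(pS f hf C hC N (M + 1) P s u).tav (n := n)
        (fun t x => addF (1 / ((N : ℝ) + 2)) h (fun a => t a.succ) x * V x) -
        (pS f hf C hC N M P s u).tav (n := n)
          (fun t x => addF (1 / ((N : ℝ) + 2)) h t x * V x)| ≤ (α + 1) * H ^ n * H ^ n * ε)
    (e3 : |(pS f hf C hC N (M + 1) P s u).tav (n := n)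
        (fun t x => V x * ∏ i, h (cubeS (t 0) (x i))) -
        (pS f hf C hC N M P s u).tav (n := n) (fun _ x => V x * V x)| ≤ H ^ n * (E + ε))
    (e4 : |(pS f hf C hC N (M + 1) P s u).tav (n := n) (fun _ x => V x * V x) -
        (pS f hf C hC N M P s u).tav (n := n) (fun _ x => V x * V x)| ≤ H ^ n * H ^ n * ε) :
      (pS f hf C hC N (M + 1) P s u).tav (n := n)
        (fun t x => (addF (1 / ((N : ℝ) + 2)) h t x - α * V x) ^ 2) ≤
      4 * (α + 1) ^ 2 * H ^ n * E + 7 * (α + 1) ^ 2 * (H ^ n * H ^ n) * ε := by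
  set δ : ℝ := 1 / ((N : ℝ) + 2) with hδdef
  have hN2 : (0 : ℝ) < (N : ℝ) + 2 := by positivity
  have hδ0 : 0 < δ := by positivity
  set a : ℝ := ((M : ℝ) + 1) / (N + 2) with hadef
  have haδ : a = δ * (M + 1) := by rw [hadef, hδdef]; ring
  have ha0 : 0 ≤ a := by positivity
  have ha1 : a ≤ α + 1 := by
    have := (abs_le.mp ha).2
    linarith only [this, hε1]
  set K : ℝ := H ^ n with hKdef
  have hK1 : 1 ≤ K := one_le_pow₀ hH
  have hK0 : 0 ≤ K := by linarith only [hK1]
  -- bounds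
  let u0 : (Fin (M + 1) → Fin (N + 1) → ℝ) → (Fin n → Fin (N + 1) → Bool) → ℝ :=
    fun t x => ∏ i, h (cubeS (t 0) (x i))
  let r : (Fin (M + 1) → Fin (N + 1) → ℝ) → (Fin n → Fin (N + 1) → Bool) → ℝ :=
    fun t x => addF δ h t x
  let rm : (Fin (M + 1) → Fin (N + 1) → ℝ) → (Fin n → Fin (N + 1) → Bool) → ℝ :=
    fun t x => addF δ h (fun a => t a.succ) x
  let W : (Fin (M + 1) → Fin (N + 1) → ℝ) → (Fin n → Fin (N + 1) → Bool) → ℝ :=
    fun _ x => V x
  let S : Sys := pS f hf C hC N (M + 1) P s u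
  have bu : Sys.Bdd S (n := n) u0 K :=
    ⟨fun x => measurable_one hh 0 x, fun t x => abs_prod_le' hhb _⟩
  have br : Sys.Bdd S (n := n) r ((α + 1) * K) := by
    refine ⟨fun x => measurable_addF hh δ x, fun t x => ?_⟩
    refine (abs_addF_le hhb hδ0.le t x).trans ?_
    have : δ * ((M + 1 : ℕ) : ℝ) = a := by rw [haδ]; push_cast; ring
    rw [this]
    exact mul_le_mul_of_nonneg_right ha1 hK0
  have brm : Sys.Bdd S (n := n) rm ((α + 1) * K) := by
    refine ⟨fun x => (measurable_addF hh δ x).comp (measurable_pi_lambda _ fun a =>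
      measurable_pi_apply a.succ), fun t x => ?_⟩
    refine (abs_addF_le hhb hδ0.le _ x).trans ?_
    refine mul_le_mul_of_nonneg_right ?_ hK0
    refine le_trans ?_ ha1
    rw [haδ]
    exact mul_le_mul_of_nonneg_left (le_add_of_nonneg_right zero_le_one) hδ0.le
  have bW : Sys.Bdd S (n := n) W K := ⟨fun x => measurable_const, fun t x => hV x⟩
  -- averages
  have hr : ∀ t x, r t x = δ * u0 t x + rm t x := fun t x => addF_succ δ t x
  -- (1)
  have q1 : S.tav (n := n) (fun t x => r t x * r t x) =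
      a * S.tav (n := n) (fun t x => u0 t x * r t x) := by
    have h1 := tav_sum_patterns (n := n) hf C hC N M P s u
      (F := fun g x => ∏ i, h (cubeS g (x i)))
      (fun x => Finset.measurable_prod _ fun i _ => hh.comp (by unfold cubeS; fun_prop))
      (B := K) (fun g x => abs_prod_le' hhb _) (G := r) (fun x => measurable_addF hh δ x)
      (D := (α + 1) * K) br.bdd (fun a b t x => addF_swap δ a b t x)
    have h2 : S.tav (n := n) (fun t x => r t x * r t x) =
        S.tav (n := n) (fun t x => δ * ((∑ a, ∏ i, h (cubeS (t a) (x i))) * r t x)) :=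
      Sys.tav_congr fun t x => mul_assoc _ _ _
    rw [h2, Sys.tav_smul, haδ, mul_assoc]
    exact congrArg (δ * ·) h1
  have q2 : S.tav (n := n) (fun t x => r t x * W t x) =
      a * S.tav (n := n) (fun t x => u0 t x * W t x) := by
    have h1 := tav_sum_patterns (n := n) hf C hC N M P s u
      (F := fun g x => ∏ i, h (cubeS g (x i)))
      (fun x => Finset.measurable_prod _ fun i _ => hh.comp (by unfold cubeS; fun_prop))
      (B := K) (fun g x => abs_prod_le' hhb _) (G := W) (fun x => measurable_const)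
      (D := K) bW.bdd (fun a b t x => rfl)
    have h2 : S.tav (n := n) (fun t x => r t x * W t x) =
        S.tav (n := n) (fun t x => δ * ((∑ a, ∏ i, h (cubeS (t a) (x i))) * W t x)) :=
      Sys.tav_congr fun t x => mul_assoc _ _ _
    rw [h2, Sys.tav_smul, haδ, mul_assoc]
    exact congrArg (δ * ·) h1
  have p3 : ∀ (t : Fin (M + 1) → Fin (N + 1) → ℝ) (x : Fin n → Fin (N + 1) → Bool),
      u0 t x * r t x = δ * (u0 t x * u0 t x) + rm t x * u0 t x := fun t x => by
    rw [hr]; ring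
  have p4 : ∀ (t : Fin (M + 1) → Fin (N + 1) → ℝ) (x : Fin n → Fin (N + 1) → Bool),
      r t x * W t x = δ * (u0 t x * W t x) + rm t x * W t x := fun t x => by
    rw [hr]; ring
  have q3 : S.tav (n := n) (fun t x => u0 t x * r t x) =
      δ * S.tav (n := n) (fun t x => u0 t x * u0 t x) +
        S.tav (n := n) (fun t x => rm t x * u0 t x) := by
    have h1 : S.tav (n := n) (fun t x => u0 t x * r t x) =
        S.tav (n := n) (fun t x => δ * (u0 t x * u0 t x) + rm t x * u0 t x) :=
      Sys.tav_congr p3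
    rw [h1, Sys.tav_add (C := δ * (K * K)) (D := (α + 1) * K * K), Sys.tav_smul]
    · exact ⟨fun x => ((bu.mul bu).meas x).const_mul δ, fun t x => by
        rw [abs_mul, abs_of_pos hδ0]
        exact mul_le_mul_of_nonneg_left ((bu.mul bu).bdd t x) hδ0.le⟩
    · exact brm.mul bu
  have q4 : S.tav (n := n) (fun t x => r t x * W t x) =
      δ * S.tav (n := n) (fun t x => u0 t x * W t x) +
        S.tav (n := n) (fun t x => rm t x * W t x) := by
    have h1 : S.tav (n := n) (fun t x => r t x * W t x) =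
        S.tav (n := n) (fun t x => δ * (u0 t x * W t x) + rm t x * W t x) :=
      Sys.tav_congr p4
    rw [h1, Sys.tav_add (C := δ * (K * K)) (D := (α + 1) * K * K), Sys.tav_smul]
    · exact ⟨fun x => ((bu.mul bW).meas x).const_mul δ, fun t x => by
        rw [abs_mul, abs_of_pos hδ0]
        exact mul_le_mul_of_nonneg_left ((bu.mul bW).bdd t x) hδ0.le⟩
    · exact brm.mul bW
  have q5 : S.tav (n := n) (fun t x => (r t x - α * W t x) ^ 2) =
      S.tav (n := n) (fun t x => r t x * r t x) - 2 * α * S.tav (n := n) (fun t x => r t x * W t x)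
        + α ^ 2 * S.tav (n := n) (fun t x => W t x * W t x) := by
    have h1 : S.tav (n := n) (fun t x => (r t x - α * W t x) ^ 2) =
        S.tav (n := n) (fun t x => (r t x * r t x - 2 * α * (r t x * W t x)) +
          α ^ 2 * (W t x * W t x)) := Sys.tav_congr fun t x => by ring
    have b1 : Sys.Bdd S (n := n) (fun t x => 2 * α * (r t x * W t x)) (2 * α * ((α + 1) * K * K)) :=
      ⟨fun x => ((br.mul bW).meas x).const_mul _, fun t x => by
        rw [abs_mul, abs_of_pos (by positivity : (0 : ℝ) < 2 * α)]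
        exact mul_le_mul_of_nonneg_left ((br.mul bW).bdd t x) (by positivity)⟩
    have b2 : Sys.Bdd S (n := n) (fun t x => α ^ 2 * (W t x * W t x)) (α ^ 2 * (K * K)) :=
      ⟨fun x => ((bW.mul bW).meas x).const_mul _, fun t x => by
        rw [abs_mul, abs_of_pos (by positivity : (0 : ℝ) < α ^ 2)]
        exact mul_le_mul_of_nonneg_left ((bW.mul bW).bdd t x) (by positivity)⟩
    have b3 : Sys.Bdd S (n := n) (fun t x => r t x * r t x - 2 * α * (r t x * W t x))
        ((α + 1) * K * ((α + 1) * K) + 2 * α * ((α + 1) * K * K)) :=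
      ⟨fun x => ((br.mul br).meas x).sub (b1.meas x), fun t x =>
        (abs_sub _ _).trans (add_le_add ((br.mul br).bdd t x) (b1.bdd t x))⟩
    rw [h1, Sys.tav_add b3 b2, Sys.tav_sub (br.mul br) b1, Sys.tav_smul, Sys.tav_smul]
  have cst : ∀ c : ℝ, 0 ≤ c → Sys.Bdd S (n := n) (fun _ _ => c) c := fun c hc =>
    ⟨fun x => measurable_const, fun t x => (abs_of_nonneg hc).le⟩
  have buu : |S.tav (n := n) (fun t x => u0 t x * u0 t x)| ≤ K * K := by
    have := Sys.tav_abs_le (bu.mul bu) (cst (K * K) (by positivity)) (bu.mul bu).bdd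
    rwa [Sys.tav_const] at this
  have buV : |S.tav (n := n) (fun t x => u0 t x * W t x)| ≤ K * K := by
    have := Sys.tav_abs_le (bu.mul bW) (cst (K * K) (by positivity)) (bu.mul bW).bdd
    rwa [Sys.tav_const] at this
  have bVV : |S.tav (n := n) (fun t x => W t x * W t x)| ≤ K * K := by
    have := Sys.tav_abs_le (bW.mul bW) (cst (K * K) (by positivity)) (bW.mul bW).bdd
    rwa [Sys.tav_const] at this
  have e3' : |S.tav (n := n) (fun t x => u0 t x * W t x) -
      (pS f hf C hC N M P s u).tav (n := n) (fun _ x => V x * V x)| ≤ K * (E + ε) := by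
    have h1 : S.tav (n := n) (fun t x => u0 t x * W t x) =
      S.tav (n := n) (fun t x => V x * ∏ i, h (cubeS (t 0) (x i))) :=
      Sys.tav_congr fun t x => mul_comm _ _
    rw [h1]
    exact e3
  have e1' : |S.tav (n := n) (fun t x => rm t x * u0 t x) -
        (pS f hf C hC N M P s u).tav (n := n)
          (fun t x => addF δ h t x * V x)| ≤ (α + 1) * K * (E + ε) := e1
  have e2' : |S.tav (n := n) (fun t x => rm t x * W t x) -
        (pS f hf C hC N M P s u).tav (n := n)
          (fun t x => addF δ h t x * V x)| ≤ (α + 1) * K * K * ε := e2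
  have e4' : |S.tav (n := n) (fun t x => W t x * W t x) -
        (pS f hf C hC N M P s u).tav (n := n) (fun _ x => V x * V x)| ≤ K * K * ε := e4
  show S.tav (n := n) (fun t x => (r t x - α * W t x) ^ 2) ≤ _
  rw [q5]
  -- abstract the averages
  generalize hq : S.tav (n := n) (fun t x => r t x * r t x) = q at *
  generalize hx : S.tav (n := n) (fun t x => r t x * W t x) = x at *
  generalize hv : S.tav (n := n) (fun t x => W t x * W t x) = v at *
  generalize hur : S.tav (n := n) (fun t x => u0 t x * r t x) = ur at *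
  generalize huu : S.tav (n := n) (fun t x => u0 t x * u0 t x) = uu at *
  generalize huV : S.tav (n := n) (fun t x => u0 t x * W t x) = uV at *
  generalize hru : S.tav (n := n) (fun t x => rm t x * u0 t x) = ru at *
  generalize hrV : S.tav (n := n) (fun t x => rm t x * W t x) = rV at *
  generalize hs1 : (pS f hf C hC N M P s u).tav (n := n)
          (fun t x => addF δ h t x * V x) = s1 at *
  generalize hw : (pS f hf C hC N M P s u).tav (n := n) (fun _ x => V x * V x) = w at *
  clear e1 e2 e3 e4 hq hx hv hur huu huV hru hrV hs1 hw br brm bu bW hr cst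
  -- the identity
  have key : q - 2 * α * x + α ^ 2 * v = (a - α) ^ 2 * v + a * δ * (uu - uV) +
      a * ((ru - s1) - (rV - s1)) + a * (a - 2 * α) * ((uV - w) - (v - w)) := by
    have h1 : rV = x - δ * uV := by linarith only [q4]
    rw [q1, q3, h1]
    have h2 : x = a * uV := q2
    rw [h2]
    ring
  rw [key]
  have hA0 : 0 ≤ α + 1 := by linarith only [hα]
  have t1 : (a - α) ^ 2 * v ≤ (α + 1) ^ 2 * (K * K) * ε := by
    have h1 : (a - α) ^ 2 ≤ ε * 1 := by
      rw [← sq_abs, pow_two]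
      exact mul_le_mul ha (ha.trans hε1) (abs_nonneg _) hε.le
    have h2 : v ≤ K * K := (le_abs_self v).trans bVV
    have h3 : (1 : ℝ) ≤ (α + 1) ^ 2 := one_le_pow₀ (by linarith only [hα])
    calc (a - α) ^ 2 * v ≤ (a - α) ^ 2 * (K * K) := mul_le_mul_of_nonneg_left h2 (sq_nonneg _)
      _ ≤ (ε * 1) * (K * K) := mul_le_mul_of_nonneg_right h1 (by positivity)
      _ = 1 * ((K * K) * ε) := by ring
      _ ≤ (α + 1) ^ 2 * ((K * K) * ε) := mul_le_mul_of_nonneg_right h3 (by positivity)
      _ = (α + 1) ^ 2 * (K * K) * ε := by ring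
  have t2 : a * δ * (uu - uV) ≤ 2 * (α + 1) ^ 2 * (K * K) * ε := by
    have h1 : uu - uV ≤ 2 * (K * K) := by
      have := (abs_le.mp buu).2
      have := (abs_le.mp buV).1
      linarith
    have h3 : α + 1 ≤ (α + 1) ^ 2 :=
      le_self_pow₀ (le_add_of_nonneg_left hα.le) two_ne_zero
    calc a * δ * (uu - uV) ≤ a * δ * (2 * (K * K)) := mul_le_mul_of_nonneg_left h1 (by (clear * -; positivity))
      _ ≤ (α + 1) * ε * (2 * (K * K)) :=
        mul_le_mul_of_nonneg_right (mul_le_mul ha1 hδ hδ0.le hA0) (by positivity)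
      _ = (α + 1) * (2 * (K * K) * ε) := by ring
      _ ≤ (α + 1) ^ 2 * (2 * (K * K) * ε) := mul_le_mul_of_nonneg_right h3 (by positivity)
      _ = 2 * (α + 1) ^ 2 * (K * K) * ε := by ring
  have t3 : a * ((ru - s1) - (rV - s1)) ≤ (α + 1) ^ 2 * K * E + 2 * (α + 1) ^ 2 * (K * K) * ε := by
    have h1 : (ru - s1) - (rV - s1) ≤ (α + 1) * K * (E + ε) + (α + 1) * K * K * ε := by
      have := (abs_le.mp e1').2
      have := (abs_le.mp e2').1
      linarith
    have h0 : 0 ≤ (α + 1) * K * (E + ε) + (α + 1) * K * K * ε := by (clear * - hα hH hE hε; positivity)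
    calc a * ((ru - s1) - (rV - s1)) ≤ a * ((α + 1) * K * (E + ε) + (α + 1) * K * K * ε) :=
          mul_le_mul_of_nonneg_left h1 ha0
      _ ≤ (α + 1) * ((α + 1) * K * (E + ε) + (α + 1) * K * K * ε) :=
        mul_le_mul_of_nonneg_right ha1 h0
      _ = (α + 1) ^ 2 * K * E + (α + 1) ^ 2 * (K * 1) * ε + (α + 1) ^ 2 * (K * K) * ε := by ring
      _ ≤ (α + 1) ^ 2 * K * E + (α + 1) ^ 2 * (K * K) * ε + (α + 1) ^ 2 * (K * K) * ε := by
        gcongr
      _ = _ := by ring
  have t4 : a * (a - 2 * α) * ((uV - w) - (v - w)) ≤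
      (α + 1) ^ 2 * K * E + 2 * (α + 1) ^ 2 * (K * K) * ε := by
    have h1 : |(uV - w) - (v - w)| ≤ K * (E + ε) + K * K * ε :=
      (abs_sub _ _).trans (add_le_add e3' e4')
    have h2 : |a - 2 * α| ≤ α + 1 := by
      have := abs_le.mp ha
      rw [abs_le]
      constructor <;> linarith
    have h3 : |a * (a - 2 * α)| ≤ (α + 1) * (α + 1) := by
      rw [abs_mul, abs_of_nonneg ha0]
      exact mul_le_mul ha1 h2 (abs_nonneg _) hA0
    calc a * (a - 2 * α) * ((uV - w) - (v - w)) ≤ |a * (a - 2 * α) * ((uV - w) - (v - w))| :=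
          le_abs_self _
      _ = |a * (a - 2 * α)| * |(uV - w) - (v - w)| := abs_mul _ _
      _ ≤ ((α + 1) * (α + 1)) * (K * (E + ε) + K * K * ε) :=
        mul_le_mul h3 h1 (abs_nonneg _) (by positivity)
      _ = (α + 1) ^ 2 * K * E + (α + 1) ^ 2 * (K * 1) * ε + (α + 1) ^ 2 * (K * K) * ε := by ring
      _ ≤ (α + 1) ^ 2 * K * E + (α + 1) ^ 2 * (K * K) * ε + (α + 1) ^ 2 * (K * K) * ε := by
        gcongr
      _ = _ := by ring
  have t5 : 0 ≤ (α + 1) ^ 2 * K * E := by (clear * - hα hH hE; positivity)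
  linarith only [t5, t4, t3, t2, t1]

/-- RHO-ALG: the additive functionals are close to functions of the overlap. -/
theorem rho_conc {f : ℝ → ℝ} (hf : Measurable f) (C : ℝ) (hC : ∀ x, |f x| ≤ C)
    {U : Ultrafilter ℕ} {N M P : ℕ → ℕ} {s : ℕ → ℝ} {u : ∀ j, Fin (P j) → ℝ} {α : ℝ}
    (hα : 0 < α) (hMN : Tendsto (fun j => ((M j : ℝ) + 1) / (N j + 2)) U (𝓝 α))
    (hN : Tendsto N U atTop) {n : ℕ} {h : ℝ → ℝ} (hh : Measurable h) {H : ℝ} (hH : 1 ≤ H)
    (hhb : ∀ x, |h x| ≤ H)
    (V : ∀ j, (Fin n → Fin (N j + 1) → Bool) → ℝ) (hV : ∀ j x, |V j x| ≤ H ^ n) {E : ℝ}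
    (hE : 0 ≤ E)
    (T0 : ∀ Φ : ∀ j, (Fin (M j) → Fin (N j + 1) → ℝ) → (Fin n → Fin (N j + 1) → Bool) → ℝ,
      (∀ j x, Measurable fun t => Φ j t x) → (∀ j t x, |Φ j t x| ≤ 1) → ∀ η > 0,
      ∀ᶠ j in (U : Filter ℕ), |(pS f hf C hC (N j) (M j + 1) (P j) (s j) (u j)).tav (n := n)
        (fun t x => Φ j (fun a => t a.succ) x) -
        (pS f hf C hC (N j) (M j) (P j) (s j) (u j)).tav (n := n) (Φ j)| ≤ η)
    (T1 : ∀ Φ : ∀ j, (Fin (M j) → Fin (N j + 1) → ℝ) → (Fin n → Fin (N j + 1) → Bool) → ℝ,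
      (∀ j x, Measurable fun t => Φ j t x) → (∀ j t x, |Φ j t x| ≤ 1) → ∀ η > 0,
      ∀ᶠ j in (U : Filter ℕ), |(pS f hf C hC (N j) (M j + 1) (P j) (s j) (u j)).tav (n := n)
        (fun t x => Φ j (fun a => t a.succ) x * ∏ i, h (cubeS (t 0) (x i))) -
        (pS f hf C hC (N j) (M j) (P j) (s j) (u j)).tav (n := n)
          (fun t x => Φ j t x * V j x)| ≤ E + η) :
    ∀ η > 0, ∀ᶠ j in (U : Filter ℕ),
      (pS f hf C hC (N j) (M j + 1) (P j) (s j) (u j)).tav (n := n)
        (fun t x => (addF (1 / ((N j : ℝ) + 2)) h t x - α * V j x) ^ 2) ≤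
      4 * (α + 1) ^ 2 * H ^ n * E + η := by
  intro η hη
  have hK1 : 1 ≤ H ^ n := one_le_pow₀ hH
  have hK0 : 0 < H ^ n := by linarith
  have hA0 : 0 < α + 1 := by linarith
  obtain ⟨ε, hε, hε1, hεη⟩ : ∃ ε : ℝ, 0 < ε ∧ ε ≤ 1 ∧
      7 * (α + 1) ^ 2 * (H ^ n * H ^ n) * ε ≤ η := by
    have hD : 0 < 7 * (α + 1) ^ 2 * (H ^ n * H ^ n) := by positivity
    refine ⟨min 1 (η / (7 * (α + 1) ^ 2 * (H ^ n * H ^ n))), lt_min one_pos (div_pos hη hD),
      min_le_left _ _, ?_⟩
    calc 7 * (α + 1) ^ 2 * (H ^ n * H ^ n) * min 1 (η / (7 * (α + 1) ^ 2 * (H ^ n * H ^ n)))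
        ≤ 7 * (α + 1) ^ 2 * (H ^ n * H ^ n) * (η / (7 * (α + 1) ^ 2 * (H ^ n * H ^ n))) :=
          mul_le_mul_of_nonneg_left (min_le_right _ _) hD.le
      _ = η := by field_simp
  -- the cut-off coefficient
  let c : ℕ → ℝ := fun j => if ((M j : ℝ) + 1) / (N j + 2) ≤ α + 1 then 1 / ((α + 1) * H ^ n) else 0
  have hc0 : ∀ j, 0 ≤ c j := fun j => by
    show 0 ≤ ite _ _ _
    split_ifs
    · positivity
    · exact le_rfl
  have hcb : ∀ j (t : Fin (M j) → Fin (N j + 1) → ℝ) (x : Fin n → Fin (N j + 1) → Bool),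
      |c j * addF (1 / ((N j : ℝ) + 2)) h t x| ≤ 1 := by
    intro j t x
    show |ite _ _ _ * _| ≤ 1
    split_ifs with hj
    · rw [abs_mul, abs_of_pos (by positivity : (0 : ℝ) < 1 / ((α + 1) * H ^ n))]
      have h1 := abs_addF_le hhb (δ := 1 / ((N j : ℝ) + 2)) (by positivity) t x
      have h2 : 1 / ((N j : ℝ) + 2) * M j ≤ α + 1 := by
        refine le_trans ?_ hj
        rw [one_div, inv_mul_eq_div]
        exact div_le_div_of_nonneg_right (by linarith) (by positivity)
      have h3 : |addF (1 / ((N j : ℝ) + 2)) h t x| ≤ (α + 1) * H ^ n :=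
        h1.trans (mul_le_mul_of_nonneg_right h2 hK0.le)
      calc 1 / ((α + 1) * H ^ n) * |addF (1 / ((N j : ℝ) + 2)) h t x|
          ≤ 1 / ((α + 1) * H ^ n) * ((α + 1) * H ^ n) :=
            mul_le_mul_of_nonneg_left h3 (by positivity)
        _ = 1 := by field_simp
    · simp
  have hVb : ∀ j (x : Fin n → Fin (N j + 1) → Bool), |1 / H ^ n * V j x| ≤ 1 := by
    intro j x
    rw [abs_mul, abs_of_pos (by positivity : (0 : ℝ) < 1 / H ^ n)]
    calc 1 / H ^ n * |V j x| ≤ 1 / H ^ n * H ^ n :=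
          mul_le_mul_of_nonneg_left (hV j x) (by positivity)
      _ = 1 := by field_simp
  have E1 := T1 (fun j t x => c j * addF (1 / ((N j : ℝ) + 2)) h t x)
    (fun j x => (measurable_addF hh _ x).const_mul _) hcb ε hε
  have E2 := T0 (fun j t x => (c j * addF (1 / ((N j : ℝ) + 2)) h t x) * (1 / H ^ n * V j x))
    (fun j x => ((measurable_addF hh _ x).const_mul _).mul_const _) (fun j t x => by
      rw [abs_mul]
      exact mul_le_one₀ (hcb j t x) (abs_nonneg _) (hVb j x)) ε hε
  have E3 := T1 (fun j t x => 1 / H ^ n * V j x) (fun j x => measurable_const)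
    (fun j t x => hVb j x) ε hε
  have E4 := T0 (fun j t x => (1 / H ^ n * V j x) * (1 / H ^ n * V j x))
    (fun j x => measurable_const) (fun j t x => by
      rw [abs_mul]
      exact mul_le_one₀ (hVb j x) (abs_nonneg _) (hVb j x)) ε hε
  have E5 : ∀ᶠ j in (U : Filter ℕ), |((M j : ℝ) + 1) / (N j + 2) - α| ≤ ε := by
    have := (Metric.tendsto_nhds.mp hMN) ε hε
    filter_upwards [this] with j hj
    exact (Real.dist_eq _ _ ▸ hj).le
  have E6 : ∀ᶠ j in (U : Filter ℕ), 1 / ((N j : ℝ) + 2) ≤ ε := by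
    have h1 := hN.eventually (eventually_ge_atTop ⌈1 / ε⌉₊)
    filter_upwards [h1] with j hj
    have h2 : 1 / ε ≤ (N j : ℝ) + 2 := by
      have h3 : 1 / ε ≤ (⌈1 / ε⌉₊ : ℝ) := Nat.le_ceil _
      have h4 : (⌈1 / ε⌉₊ : ℝ) ≤ N j := by exact_mod_cast hj
      linarith only [h3, h4]
    rw [div_le_iff₀ (by (clear * -; positivity))]
    rw [div_le_iff₀ hε] at h2
    linarith only [h2]
  filter_upwards [E1, E2, E3, E4, E5, E6] with j f1 f2 f3 f4 f5 f6
  have hcj : c j = 1 / ((α + 1) * H ^ n) := by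
    show ite _ _ _ = _
    rw [if_pos]
    have := (abs_le.mp f5).2
    linarith only [hε1, this]
  have hcj0 : 0 < c j := by rw [hcj]; positivity
  refine (rho_one hf C hC hα hh hH hhb (V j) (hV j) hE hε hε1 f5 f6 ?_ ?_ ?_ ?_).trans ?_
  · -- (1)
    have g1 : (pS f hf C hC (N j) (M j + 1) (P j) (s j) (u j)).tav (n := n)
        (fun t x => (c j * addF (1 / ((N j : ℝ) + 2)) h (fun a => t a.succ) x) *
          ∏ i, h (cubeS (t 0) (x i))) =
        c j * (pS f hf C hC (N j) (M j + 1) (P j) (s j) (u j)).tav (n := n)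
        (fun t x => addF (1 / ((N j : ℝ) + 2)) h (fun a => t a.succ) x *
          ∏ i, h (cubeS (t 0) (x i))) := by
      rw [← Sys.tav_smul]
      exact Sys.tav_congr fun t x => mul_assoc _ _ _
    have g2 : (pS f hf C hC (N j) (M j) (P j) (s j) (u j)).tav (n := n)
        (fun t x => (c j * addF (1 / ((N j : ℝ) + 2)) h t x) * V j x) =
        c j * (pS f hf C hC (N j) (M j) (P j) (s j) (u j)).tav (n := n)
        (fun t x => addF (1 / ((N j : ℝ) + 2)) h t x * V j x) := by
      rw [← Sys.tav_smul]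
      exact Sys.tav_congr fun t x => mul_assoc _ _ _
    have f1' := (congrArg₂ (fun a b : ℝ => |a - b|) g1 g2).symm.le.trans f1
    beta_reduce at f1'
    rw [← mul_sub, abs_mul, abs_of_pos hcj0, hcj, one_div, inv_mul_le_iff₀
      (by positivity)] at f1'
    exact f1'
  · -- (2)
    have g1 : (pS f hf C hC (N j) (M j + 1) (P j) (s j) (u j)).tav (n := n)
        (fun t x => (c j * addF (1 / ((N j : ℝ) + 2)) h (fun a => t a.succ) x) *
          (1 / H ^ n * V j x)) =
        (c j * (1 / H ^ n)) * (pS f hf C hC (N j) (M j + 1) (P j) (s j) (u j)).tav (n := n)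
        (fun t x => addF (1 / ((N j : ℝ) + 2)) h (fun a => t a.succ) x * V j x) := by
      rw [← Sys.tav_smul]
      exact Sys.tav_congr fun t x => mul_mul_mul_comm _ _ _ _
    have g2 : (pS f hf C hC (N j) (M j) (P j) (s j) (u j)).tav (n := n)
        (fun t x => (c j * addF (1 / ((N j : ℝ) + 2)) h t x) * (1 / H ^ n * V j x)) =
        (c j * (1 / H ^ n)) * (pS f hf C hC (N j) (M j) (P j) (s j) (u j)).tav (n := n)
        (fun t x => addF (1 / ((N j : ℝ) + 2)) h t x * V j x) := by
      rw [← Sys.tav_smul]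
      exact Sys.tav_congr fun t x => mul_mul_mul_comm _ _ _ _
    have f2' := (congrArg₂ (fun a b : ℝ => |a - b|) g1 g2).symm.le.trans f2
    beta_reduce at f2'
    have hd : c j * (1 / H ^ n) = 1 / ((α + 1) * H ^ n * H ^ n) := by
      rw [hcj]; field_simp
    rw [← mul_sub, abs_mul, hd, abs_of_pos (by positivity), one_div, inv_mul_le_iff₀
      (by positivity)] at f2'
    exact f2'
  · -- (3)
    have g1 : (pS f hf C hC (N j) (M j + 1) (P j) (s j) (u j)).tav (n := n)
        (fun t x => (1 / H ^ n * V j x) * ∏ i, h (cubeS (t 0) (x i))) =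
        (1 / H ^ n) * (pS f hf C hC (N j) (M j + 1) (P j) (s j) (u j)).tav (n := n)
        (fun t x => V j x * ∏ i, h (cubeS (t 0) (x i))) := by
      rw [← Sys.tav_smul]
      exact Sys.tav_congr fun t x => mul_assoc _ _ _
    have g2 : (pS f hf C hC (N j) (M j) (P j) (s j) (u j)).tav (n := n)
        (fun t x => (1 / H ^ n * V j x) * V j x) =
        (1 / H ^ n) * (pS f hf C hC (N j) (M j) (P j) (s j) (u j)).tav (n := n)
        (fun _ x => V j x * V j x) := by
      rw [← Sys.tav_smul]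
      exact Sys.tav_congr fun t x => mul_assoc _ _ _
    have f3' := (congrArg₂ (fun a b : ℝ => |a - b|) g1 g2).symm.le.trans f3
    beta_reduce at f3'
    rw [← mul_sub, abs_mul, abs_of_pos (by positivity), one_div, inv_mul_le_iff₀
      (by positivity)] at f3'
    exact f3'
  · -- (4)
    have g1 : (pS f hf C hC (N j) (M j + 1) (P j) (s j) (u j)).tav (n := n)
        (fun t x => (1 / H ^ n * V j x) * (1 / H ^ n * V j x)) =
        (1 / H ^ n * (1 / H ^ n)) * (pS f hf C hC (N j) (M j + 1) (P j) (s j) (u j)).tav (n := n)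
        (fun _ x => V j x * V j x) := by
      rw [← Sys.tav_smul]
      exact Sys.tav_congr fun t x => mul_mul_mul_comm _ _ _ _
    have g2 : (pS f hf C hC (N j) (M j) (P j) (s j) (u j)).tav (n := n)
        (fun t x => (1 / H ^ n * V j x) * (1 / H ^ n * V j x)) =
        (1 / H ^ n * (1 / H ^ n)) * (pS f hf C hC (N j) (M j) (P j) (s j) (u j)).tav (n := n)
        (fun _ x => V j x * V j x) := by
      rw [← Sys.tav_smul]
      exact Sys.tav_congr fun t x => mul_mul_mul_comm _ _ _ _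
    have f4' := (congrArg₂ (fun a b : ℝ => |a - b|) g1 g2).symm.le.trans f4
    beta_reduce at f4'
    have hd : 1 / H ^ n * (1 / H ^ n) = 1 / (H ^ n * H ^ n) := by field_simp
    rw [← mul_sub, abs_mul, hd, abs_of_pos (by positivity), one_div, inv_mul_le_iff₀
      (by positivity)] at f4'
    exact f4'
  · linarith only [hεη]

end Vale.Agent.P157.Par
end

section

/-!
Adding one pattern (module U3), part 3: power series with nonnegative coefficients, the class of
good pairs (bounded pointwise limits of combinations of elementary pairs), its closure properties.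
-/

open MeasureTheory ProbabilityTheory Filter Topology

namespace Vale.Agent.P157.Par

variable {N : ℕ}

/-- Power series with nonnegative coefficients on `(-1, 1)`. -/
structure NPS (h : ℝ → ℝ) (c : ℕ → ℝ) : Prop where
  nonneg : ∀ n, 0 ≤ c n
  hasSum : ∀ x, |x| < 1 → HasSum (fun n => c n * x ^ n) (h x)

lemma NPS.nonneg_val {h : ℝ → ℝ} {c : ℕ → ℝ} (H : NPS h c) {ρ : ℝ} (h0 : 0 ≤ ρ) (h1 : ρ < 1) :
    0 ≤ h ρ :=
  (H.hasSum ρ (by rwa [abs_of_nonneg h0])).nonneg fun n => mul_nonneg (H.nonneg n) (pow_nonneg h0 n)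

lemma NPS.tendsto {h : ℝ → ℝ} {c : ℕ → ℝ} (H : NPS h c) {ρ x : ℝ} (h1 : ρ < 1)
    {z : ℕ → ℂ} (hz : ∀ n, ‖z n‖ ≤ ρ) (hl : Tendsto z atTop (𝓝 (x : ℂ))) :
    Tendsto (fun n => ∑ j ∈ Finset.range n, (c j : ℂ) * z n ^ j) atTop (𝓝 (h x : ℂ)) := by
  have h0 : 0 ≤ ρ := (norm_nonneg _).trans (hz 0)
  have hx : |x| < 1 := by
    have : ‖(x : ℂ)‖ ≤ ρ := le_of_tendsto (hl.norm) (Eventually.of_forall hz)
    rw [Complex.norm_real, Real.norm_eq_abs] at this
    linarith
  have hs : Summable fun j => c j * ρ ^ j := (H.hasSum ρ (by rwa [abs_of_nonneg h0])).summable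
  have hx' : HasSum (fun n => ((c n * x ^ n : ℝ) : ℂ)) ((h x : ℝ) : ℂ) :=
    Complex.hasSum_ofReal.2 (H.hasSum x hx)
  have key := tendsto_tsum_of_dominated_convergence (𝓕 := atTop)
    (f := fun n j => if j < n then (c j : ℂ) * z n ^ j else 0)
    (g := fun j => ((c j * x ^ j : ℝ) : ℂ)) (bound := fun j => c j * ρ ^ j) hs ?_ ?_
  · rw [hx'.tsum_eq] at key
    refine key.congr fun n => ?_
    rw [tsum_eq_sum (s := Finset.range n)]
    · exact Finset.sum_congr rfl fun j hj => by rw [if_pos (Finset.mem_range.1 hj)]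
    · intro j hj
      rw [if_neg (by simpa using hj)]
  · intro j
    have : Tendsto (fun n => (c j : ℂ) * z n ^ j) atTop (𝓝 ((c j : ℂ) * (x : ℂ) ^ j)) :=
      (hl.pow j).const_mul _
    push_cast
    refine this.congr' ?_
    filter_upwards [eventually_gt_atTop j] with n hn
    rw [if_pos hn]
  · refine Eventually.of_forall fun n j => ?_
    split_ifs
    · rw [norm_mul, Complex.norm_real, Real.norm_eq_abs, abs_of_nonneg (H.nonneg j), norm_pow]
      exact mul_le_mul_of_nonneg_left (pow_le_pow_left₀ (norm_nonneg _) (hz n) j) (H.nonneg j)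
    · rw [norm_zero]
      exact mul_nonneg (H.nonneg j) (pow_nonneg h0 j)

lemma NPS.norm_le {h : ℝ → ℝ} {c : ℕ → ℝ} (H : NPS h c) {ρ : ℝ} (h1 : ρ < 1)
    {z : ℂ} (hz : ‖z‖ ≤ ρ) (n : ℕ) : ‖∑ j ∈ Finset.range n, (c j : ℂ) * z ^ j‖ ≤ h ρ := by
  have h0 : 0 ≤ ρ := (norm_nonneg _).trans hz
  calc ‖∑ j ∈ Finset.range n, (c j : ℂ) * z ^ j‖ ≤ ∑ j ∈ Finset.range n, ‖(c j : ℂ) * z ^ j‖ :=
        norm_sum_le _ _
    _ ≤ ∑ j ∈ Finset.range n, c j * ρ ^ j := by
        refine Finset.sum_le_sum fun j _ => ?_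
        rw [norm_mul, Complex.norm_real, Real.norm_eq_abs, abs_of_nonneg (H.nonneg j), norm_pow]
        exact mul_le_mul_of_nonneg_left (pow_le_pow_left₀ (norm_nonneg _) hz j) (H.nonneg j)
    _ ≤ h ρ := sum_le_hasSum _ (fun j _ => mul_nonneg (H.nonneg j) (pow_nonneg h0 j))
        (H.hasSum ρ (by rwa [abs_of_nonneg h0]))

/-- Good pairs: bounded pointwise limits of combinations of elementary pairs. -/
structure Good (m r : ℕ → ℝ) (l : ℕ) (G : (Fin N → ℝ) → ℝ) (B : (Fin N → ℝ) → Fin N → ℝ) (ρ : ℝ)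
    (A : (Fin N → ℝ) → (Fin N → ℝ) → ℝ) (a : ℝ → ℝ) : Prop where
  seq : ∃ P : ℕ → PP N, (∀ n, Rep m r l G B (P n)) ∧ (∀ n y g, ‖(P n).1 y g‖ ≤ ρ) ∧
    (∀ n x, ‖(P n).2 x‖ ≤ ρ) ∧ (∀ y g, Tendsto (fun n => (P n).1 y g) atTop (𝓝 (A y g : ℂ))) ∧
    ∀ x, Tendsto (fun n => (P n).2 x) atTop (𝓝 (a x : ℂ))

section good

variable {m r : ℕ → ℝ} {l : ℕ} {G : (Fin N → ℝ) → ℝ} {B : (Fin N → ℝ) → Fin N → ℝ} {ρ : ℝ}
  {A : (Fin N → ℝ) → (Fin N → ℝ) → ℝ} {a : ℝ → ℝ}

lemma Good.bA (h : Good m r l G B ρ A a) (y g : Fin N → ℝ) : |A y g| ≤ ρ := by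
  obtain ⟨P, -, h1, -, h2, -⟩ := h.seq
  have := le_of_tendsto (h2 y g).norm (Eventually.of_forall fun n => h1 n y g)
  rwa [Complex.norm_real, Real.norm_eq_abs] at this

lemma Good.ba (h : Good m r l G B ρ A a) (x : ℝ) : |a x| ≤ ρ := by
  obtain ⟨P, -, -, h1, -, h2⟩ := h.seq
  have := le_of_tendsto (h2 x).norm (Eventually.of_forall fun n => h1 n x)
  rwa [Complex.norm_real, Real.norm_eq_abs] at this

lemma Good.mA (h : Good m r l G B ρ A a) :
    Measurable (fun p : (Fin N → ℝ) × (Fin N → ℝ) => A p.1 p.2) := by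
  obtain ⟨P, h0, -, -, h2, -⟩ := h.seq
  have h3 : Measurable (fun p : (Fin N → ℝ) × (Fin N → ℝ) => ((A p.1 p.2 : ℝ) : ℂ)) :=
    measurable_of_tendsto_metrizable (fun n => (h0 n).bdd.2.2.1)
      (tendsto_pi_nhds.2 fun p => h2 p.1 p.2)
  exact Complex.measurable_re.comp h3

lemma Good.ma (h : Good m r l G B ρ A a) : Measurable a := by
  obtain ⟨P, h0, -, -, -, h2⟩ := h.seq
  have h3 : Measurable (fun x => ((a x : ℝ) : ℂ)) :=
    measurable_of_tendsto_metrizable (fun n => (h0 n).bdd.2.2.2) (tendsto_pi_nhds.2 h2)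
  exact Complex.measurable_re.comp h3

lemma Good.mA_left (h : Good m r l G B ρ A a) (g : Fin N → ℝ) : Measurable (fun y => A y g) :=
  h.mA.comp (measurable_id.prodMk measurable_const)

lemma Good.comp (hm : ∀ j < l, 0 < m (j + 1)) (hG : Lip G) (hB : ∀ i, EG fun y => B y i)
    (h : Good m r l G B ρ A a) (hρ : ρ < 1) {f : ℝ → ℝ} {c : ℕ → ℝ} (H : NPS f c) :
    Good m r l G B (f ρ) (fun y g => f (A y g)) (fun x => f (a x)) := by
  obtain ⟨P, h0, h1, h2, h3, h4⟩ := h.seq
  have e1 : ∀ n y g, (∑ j ∈ Finset.range n, ((((fun _ _ => (c j : ℂ)), fun _ => (c j : ℂ)) : PP N) *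
      P n ^ j)).1 y g = ∑ j ∈ Finset.range n, (c j : ℂ) * (P n).1 y g ^ j := by
    intro n y g
    rw [Prod.fst_sum, Finset.sum_apply, Finset.sum_apply]
    rfl
  have e2 : ∀ n x, (∑ j ∈ Finset.range n, ((((fun _ _ => (c j : ℂ)), fun _ => (c j : ℂ)) : PP N) *
      P n ^ j)).2 x = ∑ j ∈ Finset.range n, (c j : ℂ) * (P n).2 x ^ j := by
    intro n x
    rw [Prod.snd_sum, Finset.sum_apply]
    rfl
  refine ⟨fun n => ∑ j ∈ Finset.range n, ((((fun _ _ => (c j : ℂ)), fun _ => (c j : ℂ)) : PP N) *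
      P n ^ j), fun n => ?_, fun n y g => ?_, fun n x => ?_, fun y g => ?_, fun x => ?_⟩
  · exact Rep.sum _ fun j _ => (Rep.const hm hG B (H.nonneg j)).mul hm hG hB ((h0 n).pow hm hG hB j)
  · rw [e1]
    exact H.norm_le hρ (h1 n y g) n
  · rw [e2]
    exact H.norm_le hρ (h2 n x) n
  · simp only [e1]
    exact H.tendsto hρ (fun n => h1 n y g) (h3 y g)
  · simp only [e2]
    exact H.tendsto hρ (fun n => h2 n x) (h4 x)

lemma Good.step (hG : Lip G) {G' : (Fin N → ℝ) → ℝ}
    {B' : (Fin N → ℝ) → Fin N → ℝ} (hG' : G' = gstepN (m (l + 1)) (r (l + 1) - r l) G)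
    (hB' : B' = fun y i => tiltN (m (l + 1)) (r (l + 1) - r l) G (fun y => B y i) y)
    (hR : R1 m r l G' B' ≤ R1 m r (l + 1) G B) (h : Good m r (l + 1) G B ρ A a) :
    Good m r l G' B' ρ
      (fun y g => tiltN (m (l + 1)) (r (l + 1) - r l) G (fun y => A y g) y)
      (fun x => ∫ z, a (x + √(R1 m r (l + 1) G B - R1 m r l G' B') * z) ∂(gaussianReal 0 1)) := by
  obtain ⟨P, h0, h1, h2, h3, h4⟩ := h.seq
  refine ⟨fun n => stepP (m (l + 1)) (r (l + 1) - r l) (R1 m r (l + 1) G B - R1 m r l G' B')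
      G (P n), fun n => ?_, fun n y g => ?_, fun n x => ?_, fun y g => ?_, fun x => ?_⟩
  · exact Rep.step hG hG' hB' hR (h0 n)
  · exact norm_tiltC_le hG _ _ (fun y => h1 n y g) y
  · refine (norm_integral_le_of_norm_le_const (C := ρ) (Eventually.of_forall fun z =>
      h2 n _)).trans ?_
    simp
  · rw [← tiltC_ofReal]
    refine Tendsto.div_const ?_ _
    refine tendsto_integral_of_dominated_convergence
      (fun z => ρ * Real.exp (m (l + 1) * G (y + √(r (l + 1) - r l) • z))) (fun n => ?_)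
      (((hG.exp_eg _).integrable y _).const_mul ρ) (fun n => Eventually.of_forall fun z => ?_)
      (Eventually.of_forall fun z => ?_)
    · exact (integrable_tiltC hG _ _ (measurable_curry_left (h0 n).bdd.2.2.1 g)
        (fun y => h1 n y g) y).aestronglyMeasurable
    · rw [norm_mul, Complex.norm_real, Real.norm_eq_abs, abs_of_pos (Real.exp_pos _)]
      exact mul_le_mul_of_nonneg_right (h1 n _ g) (Real.exp_pos _).le
    · exact (h3 _ g).mul_const _
  · rw [← integral_complex_ofReal]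
    refine tendsto_integral_of_dominated_convergence (fun _ => ρ) (fun n => ?_)
      (integrable_const _) (fun n => Eventually.of_forall fun z => h2 n _)
      (Eventually.of_forall fun z => h4 _)
    exact ((h0 n).bdd.2.2.2.comp (by fun_prop)).aestronglyMeasurable

/-- The comparison at the level zero, for good pairs. -/
lemma Good.final (h : Good m r 0 G B ρ A a) :
    ∫ x, a (√(R1 m r 0 G B) * x) ∂(gaussianReal 0 1) ≤
      ∫ g, ∫ z, A (√(r 0) • z) g ∂(gN N) ∂(gN N) := by
  obtain ⟨P, h0, h1, h2, h3, h4⟩ := h.seq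
  have t1 : Tendsto (fun n => ∫ x, (P n).2 (√(R1 m r 0 G B) * x) ∂(gaussianReal 0 1)) atTop
      (𝓝 ((∫ x, a (√(R1 m r 0 G B) * x) ∂(gaussianReal 0 1) : ℝ) : ℂ)) := by
    rw [← integral_complex_ofReal]
    refine tendsto_integral_of_dominated_convergence (fun _ => ρ) (fun n => ?_)
      (integrable_const _) (fun n => Eventually.of_forall fun z => h2 n _)
      (Eventually.of_forall fun z => h4 _)
    exact ((h0 n).bdd.2.2.2.comp (by fun_prop)).aestronglyMeasurable
  have t2 : ∀ g, Tendsto (fun n => ∫ z, (P n).1 (√(r 0) • z) g ∂(gN N)) atTop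
      (𝓝 ((∫ z, A (√(r 0) • z) g ∂(gN N) : ℝ) : ℂ)) := by
    intro g
    rw [← integral_complex_ofReal]
    refine tendsto_integral_of_dominated_convergence (fun _ => ρ) (fun n => ?_)
      (integrable_const _) (fun n => Eventually.of_forall fun z => h1 n _ _)
      (Eventually.of_forall fun z => h3 _ _)
    exact ((h0 n).integrable_top _ g).aestronglyMeasurable
  have t3 : Tendsto (fun n => ∫ g, ∫ z, (P n).1 (√(r 0) • z) g ∂(gN N) ∂(gN N)) atTop
      (𝓝 ((∫ g, ∫ z, A (√(r 0) • z) g ∂(gN N) ∂(gN N) : ℝ) : ℂ)) := by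
    rw [← integral_complex_ofReal]
    refine tendsto_integral_of_dominated_convergence (fun _ => ρ) (fun n => ?_)
      (integrable_const _) (fun n => Eventually.of_forall fun g => ?_)
      (Eventually.of_forall fun g => t2 g)
    · exact ((h0 n).integrable_top2 _).aestronglyMeasurable
    · refine (norm_integral_le_of_norm_le_const (C := ρ) (Eventually.of_forall fun z =>
        h1 n _ _)).trans ?_
      simp
  have := le_of_tendsto_of_tendsto (Complex.continuous_re.continuousAt.tendsto.comp t1)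
    (Complex.continuous_re.continuousAt.tendsto.comp t3)
    (Eventually.of_forall fun n => (h0 n).final)
  simpa using this

end good

/-! ### The two power series -/

/-- The coefficients of `1 - (1 - x)^θ`. -/
noncomputable def bc (θ : ℝ) : ℕ → ℝ
  | 0 => 0
  | n + 1 => -((-1) ^ (n + 1) * Ring.choose θ (n + 1))

lemma choose_succ_real (θ : ℝ) (n : ℕ) :
    ((n : ℝ) + 1) * Ring.choose θ (n + 1) = (θ - n) * Ring.choose θ n := by
  have h1 : Ring.choose θ (n + 1) =
      ((n + 1).factorial : ℝ)⁻¹ • (descPochhammer ℤ (n + 1)).smeval θ := Ring.choose_eq_smul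
  have h2 : Ring.choose θ n = (n.factorial : ℝ)⁻¹ • (descPochhammer ℤ n).smeval θ :=
    Ring.choose_eq_smul
  have h3 : (descPochhammer ℤ (n + 1)).smeval θ = (θ - n) * (descPochhammer ℤ n).smeval θ := by
    rw [descPochhammer_succ_right, Polynomial.smeval_mul, mul_comm]
    congr 1
    rw [Polynomial.smeval_sub, Polynomial.smeval_X, Polynomial.smeval_natCast]
    simp
  rw [h1, h2, h3, smul_eq_mul, smul_eq_mul, Nat.factorial_succ]
  push_cast
  have : (n.factorial : ℝ) ≠ 0 := by exact_mod_cast n.factorial_ne_zero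
  have h4 : (n : ℝ) + 1 ≠ 0 := by positivity
  field_simp

lemma sign_choose {θ : ℝ} (h0 : 0 ≤ θ) (h1 : θ ≤ 1) (n : ℕ) :
    (-1) ^ (n + 1) * Ring.choose θ (n + 1) ≤ 0 := by
  induction n with
  | zero => simp [h0]
  | succ n ih =>
    have h2 := choose_succ_real θ (n + 1)
    have h3 : Ring.choose θ (n + 1 + 1) = (θ - (n + 1)) / (n + 1 + 1) * Ring.choose θ (n + 1) := by
      have : ((n : ℝ) + 1 + 1) ≠ 0 := by positivity
      push_cast at h2
      field_simp
      linarith
    rw [h3]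
    have h4 : (-1 : ℝ) ^ (n + 1 + 1) * ((θ - (n + 1)) / (n + 1 + 1) * Ring.choose θ (n + 1)) =
        (((n : ℝ) + 1 - θ) / (n + 1 + 1)) * ((-1) ^ (n + 1) * Ring.choose θ (n + 1)) := by
      rw [pow_succ]
      ring
    rw [h4]
    refine mul_nonpos_of_nonneg_of_nonpos ?_ ih
    refine div_nonneg ?_ (by positivity)
    have : (0 : ℝ) ≤ n := Nat.cast_nonneg n
    linarith only [this, h1]

lemma nps_rpow {θ : ℝ} (h0 : 0 ≤ θ) (h1 : θ ≤ 1) : NPS (fun x => 1 - (1 - x) ^ θ) (bc θ) := by
  refine ⟨fun n => ?_, fun x hx => ?_⟩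
  · cases n with
    | zero => exact le_rfl
    | succ n => exact neg_nonneg.2 (sign_choose h0 h1 n)
  · have h2 := (Real.one_add_rpow_hasFPowerSeriesOnBall_zero (a := θ)).hasSum (y := -x) ?_
    · rw [zero_add, ← sub_eq_add_neg] at h2
      have h3 : HasSum (fun n : ℕ => Ring.choose θ n * (-x) ^ n) ((1 - x) ^ θ) := by
        refine h2.congr_fun ?_ |> id
        intro n
        simp [binomialSeries, mul_comm]
      have h4 := ((hasSum_ite_eq 0 (1 : ℝ)).sub h3)
      refine h4.congr_fun ?_ |> id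
      intro n
      cases n with
      | zero => simp [bc]
      | succ n =>
        simp only [bc, Nat.succ_ne_zero, if_false]
        rw [neg_pow]
        ring
    · simpa [enorm_eq_nnnorm] using! hx

lemma nps_log : NPS (fun x => -Real.log (1 - x)) (fun n => if n = 0 then 0 else 1 / n) := by
  refine ⟨fun n => by split_ifs <;> positivity, fun x hx => ?_⟩
  have h1 := Real.hasSum_pow_div_log_of_abs_lt_one hx
  rw [← hasSum_nat_add_iff' 1]
  simp only [Finset.range_one, Finset.sum_singleton, if_true, zero_mul, sub_zero]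
  refine h1.congr_fun ?_ |> id
  intro n
  rw [if_neg (Nat.succ_ne_zero n)]
  push_cast
  ring

end Vale.Agent.P157.Par
end

section

/-!
Adding one pattern (module U3), part 4: the overlap path is an admissible path, and the induction
over the levels.
-/

open MeasureTheory ProbabilityTheory Filter Topology

namespace Vale.Agent.P157.Par

variable {N : ℕ}

section path

variable {m r : ℕ → ℝ}

lemma sq_tiltN_le {G h : (Fin N → ℝ) → ℝ} (hG : Lip G) (hh : EG h) (m v : ℝ) (y : Fin N → ℝ) :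
    tiltN m v G h y ^ 2 ≤ tiltN m v G (fun y => h y ^ 2) y := by
  set a := tiltN m v G h y with ha
  have h1 : 0 ≤ tiltN m v G (fun y => (h y - a) ^ 2) y := by
    rw [← tiltN_const hG m v 0 y]
    exact tiltN_mono hG (EG.const 0) ((hh.sub (EG.const a)).pow 2) (fun y => sq_nonneg _) m v y
  have h2 : tiltN m v G (fun y => (h y - a) ^ 2) y = tiltN m v G (fun y => h y ^ 2) y - a ^ 2 := by
    have e : ∀ y, (h y - a) ^ 2 = (h y ^ 2 - 2 * a * h y) + a ^ 2 := fun y => by ring
    rw [tiltN_congr e, tiltN_add hG ((hh.pow 2).sub (hh.const_mul _)) (EG.const _),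
      tiltN_sub hG (hh.pow 2) (hh.const_mul _), tiltN_const_mul, tiltN_const hG, ← ha]
    ring
  linarith

lemma chainAv_nonneg {l : ℕ} (hm : ∀ j < l, 0 < m (j + 1)) {G h : (Fin N → ℝ) → ℝ} (hG : Lip G)
    (hh : EG h) (h0 : ∀ y, 0 ≤ h y) : 0 ≤ chainAv m r l G h := by
  rw [← chainAv_const (r := r) hm hG 0]
  exact chainAv_mono hm hG (EG.const 0) hh h0

lemma eg_tilt_vec {G : (Fin N → ℝ) → ℝ} (hG : Lip G) {B : (Fin N → ℝ) → Fin N → ℝ}
    (hB : ∀ i, EG fun y => B y i) (a v : ℝ) :
    ∀ i, EG fun y => (fun y i => tiltN a v G (fun y => B y i) y) y i :=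
  fun i => (hB i).tilt hG a v

lemma R1_mono {l : ℕ} (hm : ∀ j < l + 1, 0 < m (j + 1)) {G : (Fin N → ℝ) → ℝ} (hG : Lip G)
    {B : (Fin N → ℝ) → Fin N → ℝ} (hB : ∀ i, EG fun y => B y i) :
    R1 m r l (gstepN (m (l + 1)) (r (l + 1) - r l) G)
      (fun y i => tiltN (m (l + 1)) (r (l + 1) - r l) G (fun y => B y i) y) ≤
      R1 m r (l + 1) G B := by
  unfold R1
  refine div_le_div_of_nonneg_right ?_ (Nat.cast_nonneg N)
  show _ ≤ chainAv m r l (gstepN (m (l + 1)) (r (l + 1) - r l) G)
    (tiltN (m (l + 1)) (r (l + 1) - r l) G fun y => ∑ i, B y i ^ 2)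
  have hG' := hG.gstep (hm l (by omega)) (r (l + 1) - r l)
  refine chainAv_mono (fun j hj => hm j (by omega)) hG'
    (EG.sum _ fun i _ => ((hB i).tilt hG _ _).pow 2)
    ((EG.sum _ fun i _ => (hB i).pow 2).tilt hG _ _) fun y => ?_
  rw [tiltN_sum _ hG (fun i _ => (hB i).pow 2)]
  exact Finset.sum_le_sum fun i _ => sq_tiltN_le hG (hB i) _ _ y

lemma Rs_eq_R1 (m r : ℕ → ℝ) (l : ℕ) (G : (Fin N → ℝ) → ℝ) (B : (Fin N → ℝ) → Fin N → ℝ) :
    Rs m r l G B l = R1 m r l G B := by
  cases l with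
  | zero => rfl
  | succ l => simp only [Rs, if_neg (Nat.not_succ_le_self l), R1]

lemma Rs_succ_eq (m r : ℕ → ℝ) (l : ℕ) (G : (Fin N → ℝ) → ℝ) (B : (Fin N → ℝ) → Fin N → ℝ) {j : ℕ}
    (hj : j ≤ l) : Rs m r (l + 1) G B j =
      Rs m r l (gstepN (m (l + 1)) (r (l + 1) - r l) G)
        (fun y i => tiltN (m (l + 1)) (r (l + 1) - r l) G (fun y => B y i) y) j := by
  simp only [Rs, if_pos hj]

/-- The overlap path is an admissible path. -/
theorem Rs_path {l : ℕ} (hm : ∀ j < l, 0 < m (j + 1)) {G : (Fin N → ℝ) → ℝ} (hG : Lip G)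
    {B : (Fin N → ℝ) → Fin N → ℝ} (hB : ∀ i, EG fun y => B y i) : Path l (Rs m r l G B) := by
  induction l generalizing G B with
  | zero =>
    refine ⟨?_, fun j hj => absurd hj (Nat.not_lt_zero j)⟩
    rw [Rs_eq_R1]
    exact R1_zero_nonneg
  | succ l ih =>
    have h1 := ih (fun j hj => hm j (by omega)) (hG.gstep (hm l (by omega)) (r (l + 1) - r l))
      (eg_tilt_vec hG hB (m (l + 1)) (r (l + 1) - r l))
    refine ⟨?_, fun j hj => ?_⟩
    · rw [Rs_succ_eq m r l G B (Nat.zero_le l)]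
      exact h1.1
    · rcases Nat.lt_or_ge j l with hj' | hj'
      · rw [Rs_succ_eq m r l G B hj'.le, Rs_succ_eq m r l G B hj']
        exact h1.2 j hj'
      · have : j = l := by omega
        subst this
        rw [Rs_eq_R1, Rs_succ_eq m r j G B le_rfl, Rs_eq_R1]
        exact R1_mono hm hG hB

end path

section cascade

lemma gsU_meas {m v : ℝ} {F : ℝ → ℝ} (hF : Measurable F) : Measurable (gstep m v F) := by
  unfold gstep
  have : StronglyMeasurable (Function.uncurry fun (x z : ℝ) => Real.exp (m * F (x + √v * z))) :=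
    (Real.measurable_exp.comp ((hF.comp (by fun_prop)).const_mul m)).stronglyMeasurable
  exact (Real.measurable_log.comp this.integral_prod_right.measurable).const_mul _

lemma gsU_int {m v C : ℝ} {F : ℝ → ℝ} (hF : Measurable F) (hC : ∀ x, |F x| ≤ C) (x : ℝ) :
    Integrable (fun z => Real.exp (m * F (x + √v * z))) (gaussianReal 0 1) := by
  refine Integrable.mono' (integrable_const (Real.exp (|m| * C)))
    (Real.measurable_exp.comp ((hF.comp (by fun_prop)).const_mul m)).aestronglyMeasurable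
    (Eventually.of_forall fun z => ?_)
  rw [Real.norm_eq_abs, abs_of_pos (Real.exp_pos _), Real.exp_le_exp]
  calc m * F (x + √v * z) ≤ |m * F (x + √v * z)| := le_abs_self _
    _ = |m| * |F (x + √v * z)| := abs_mul _ _
    _ ≤ |m| * C := mul_le_mul_of_nonneg_left (hC _) (abs_nonneg _)

lemma gsU_bdd {m v C : ℝ} (hm : 0 < m) {F : ℝ → ℝ} (hF : Measurable F) (hC : ∀ x, |F x| ≤ C)
    (x : ℝ) : |gstep m v F x| ≤ C := by
  unfold gstep
  have h1 := gsU_int (m := m) (v := v) hF hC x
  have h2 : Real.exp (-(m * C)) ≤ ∫ z, Real.exp (m * F (x + √v * z)) ∂(gaussianReal 0 1) := by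
    have := integral_mono (integrable_const (Real.exp (-(m * C)))) h1 fun z => by
      dsimp only
      refine Real.exp_le_exp.2 ?_
      rw [← mul_neg]
      exact mul_le_mul_of_nonneg_left (abs_le.1 (hC _)).1 hm.le
    simpa using this
  have h3 : ∫ z, Real.exp (m * F (x + √v * z)) ∂(gaussianReal 0 1) ≤ Real.exp (m * C) := by
    have := integral_mono h1 (integrable_const (Real.exp (m * C))) fun z => by
      dsimp only
      exact Real.exp_le_exp.2 (mul_le_mul_of_nonneg_left (abs_le.1 (hC _)).2 hm.le)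
    simpa using this
  have h4 := Real.log_le_log (Real.exp_pos _) h2
  have h5 := Real.log_le_log ((Real.exp_pos _).trans_le h2) h3
  rw [Real.log_exp] at h4 h5
  rw [abs_le]
  constructor
  · calc -C = 1 / m * -(m * C) := by field_simp
      _ ≤ _ := by gcongr
  · calc _ ≤ 1 / m * (m * C) := by gcongr
      _ = C := by field_simp

lemma gsU_add {m v C : ℝ} (hm : 0 < m) {F : ℝ → ℝ} (hF : Measurable F)
    (hC : ∀ x, |F x| ≤ C) (c x : ℝ) : gstep m v (fun x => F x + c) x = gstep m v F x + c := by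
  unfold gstep
  have h1 := gsU_int (m := m) (v := v) hF hC x
  have h2 : 0 < ∫ z, Real.exp (m * F (x + √v * z)) ∂(gaussianReal 0 1) := integral_exp_pos h1
  have h3 : ∀ z, Real.exp (m * (F (x + √v * z) + c)) =
      Real.exp (m * c) * Real.exp (m * F (x + √v * z)) := by
    intro z; rw [← Real.exp_add]; ring_nf
  simp only [h3]
  rw [integral_const_mul, Real.log_mul (Real.exp_pos _).ne' h2.ne', Real.log_exp]
  field_simp
  ring

lemma casU_meas {m q : ℕ → ℝ} (l : ℕ) {F : ℝ → ℝ} (hF : Measurable F) :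
    Measurable (cascade m q l F) := by
  induction l generalizing F with
  | zero => exact hF
  | succ l ih => exact ih (gsU_meas hF)

lemma casU_bdd {m q : ℕ → ℝ} {l : ℕ} (hm : ∀ j < l, 0 < m (j + 1)) {F : ℝ → ℝ}
    (hF : Measurable F) {C : ℝ} (hC : ∀ x, |F x| ≤ C) (x : ℝ) : |cascade m q l F x| ≤ C := by
  induction l generalizing F with
  | zero => exact hC x
  | succ l ih =>
    exact ih (fun j hj => hm j (by omega)) (gsU_meas hF) (gsU_bdd (hm l (by omega)) hF hC)

lemma casU_add {m q : ℕ → ℝ} {l : ℕ} (hm : ∀ j < l, 0 < m (j + 1)) {F : ℝ → ℝ}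
    (hF : Measurable F) {C : ℝ} (hC : ∀ x, |F x| ≤ C) (c x : ℝ) :
    cascade m q l (fun x => F x + c) x = cascade m q l F x + c := by
  induction l generalizing F with
  | zero => rfl
  | succ l ih =>
    unfold cascade
    rw [funext (gsU_add (hm l (by omega)) hF hC c)]
    exact ih (fun j hj => hm j (by omega)) (gsU_meas hF) (gsU_bdd (hm l (by omega)) hF hC)

lemma casU_congr {m q q' : ℕ → ℝ} {l : ℕ} (h : ∀ j ≤ l, q j = q' j) (F : ℝ → ℝ) :
    cascade m q l F = cascade m q' l F := by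
  induction l generalizing F with
  | zero => rfl
  | succ l ih =>
    unfold cascade
    rw [h (l + 1) le_rfl, h l (by omega)]
    exact ih (fun j hj => h j (by omega)) _

end cascade

section main

variable {m r : ℕ → ℝ}

lemma log_one_sub_bdd {ρ x : ℝ} (hρ : ρ < 1) (hx : |x| ≤ ρ) :
    |Real.log (1 - x)| ≤ -Real.log (1 - ρ) := by
  have h0 : 0 ≤ ρ := (abs_nonneg x).trans hx
  have h1 := abs_le.1 hx
  have h2 : 0 < 1 - ρ := by linarith
  rw [abs_le]
  constructor
  · rw [neg_neg]
    exact Real.log_le_log h2 (by linarith)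
  · have h3 : Real.log (1 - x) + Real.log (1 - ρ) ≤ 0 := by
      rw [← Real.log_mul (by linarith) (by linarith)]
      refine Real.log_nonpos (mul_nonneg (by linarith) (by linarith)) ?_
      nlinarith
    linarith

/-- The comparison between the cascade in dimension `N` averaged over a new pattern and the
one-dimensional cascade along the overlap path. -/
theorem pattern_main {l : ℕ} (hm : ∀ j ≤ l, 0 < m (j + 1)) (hmono : ∀ j < l, m (j + 1) ≤ m (j + 2))
    {G : (Fin N → ℝ) → ℝ} (hG : Lip G) {B : (Fin N → ℝ) → Fin N → ℝ} (hB : ∀ i, EG fun y => B y i)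
    {ρ : ℝ} (hρ : ρ < 1) {A : (Fin N → ℝ) → (Fin N → ℝ) → ℝ} {a : ℝ → ℝ}
    (h : Good m r l G B ρ A a) :
    ∫ g, (topN m r l (fun y => G y + 1 / m (l + 1) * Real.log (1 - A y g)) - topN m r l G)
      ∂(gN N) ≤
    ∫ x, cascade m (Rs m r l G B) l (fun x => 1 / m (l + 1) * Real.log (1 - a x))
      (√(Rs m r l G B 0) * x) ∂(gaussianReal 0 1) := by
  induction l generalizing G B ρ A a with
  | zero =>
    have hρ0 : 0 ≤ ρ := (abs_nonneg _).trans (h.ba 0)
    have hc := h.comp (fun j hj => absurd hj (Nat.not_lt_zero j)) hG hB hρ nps_log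
    have hf := hc.final
    have h1 : ∀ g, topN m r 0 (fun y => G y + 1 / m (0 + 1) * Real.log (1 - A y g)) -
        topN m r 0 G = 1 / m (0 + 1) * ∫ z, Real.log (1 - A (√(r 0) • z) g) ∂(gN N) := by
      intro g
      unfold topN
      have hE : EG (fun y => 1 / m (0 + 1) * Real.log (1 - A y g)) := by
        refine (EG.of_bdd (C := -Real.log (1 - ρ)) ?_ fun y => ?_).const_mul _
        · exact Real.measurable_log.comp (measurable_const.sub (h.mA_left g))
        · exact log_one_sub_bdd hρ (h.bA y g)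
      rw [← integral_sub ((hG.eg.add hE).integrable_smul _) (hG.eg.integrable_smul _),
        ← integral_const_mul]
      exact integral_congr_ae (Eventually.of_forall fun z => by dsimp only; ring)
    rw [funext h1, integral_const_mul]
    show _ ≤ ∫ x, 1 / m (0 + 1) * Real.log (1 - a (√(R1 m r 0 G B) * x)) ∂_
    rw [integral_const_mul]
    refine mul_le_mul_of_nonneg_left ?_ (by have := hm 0 le_rfl; positivity)
    simp only [integral_neg] at hf
    linarith
  | succ l ih =>
    have hρ0 : 0 ≤ ρ := (abs_nonneg _).trans (h.ba 0)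
    have hm' : ∀ j < l + 1, 0 < m (j + 1) := fun j hj => hm j (by omega)
    have hml : 0 < m (l + 1) := hm l (by omega)
    have hml1 : 0 < m (l + 1 + 1) := hm (l + 1) le_rfl
    set θ : ℝ := m (l + 1) / m (l + 1 + 1) with hθ
    have hθ0 : 0 ≤ θ := by positivity
    have hθ1 : θ ≤ 1 := (div_le_one hml1).2 (hmono l (by omega))
    have hθpos : 0 < θ := by positivity
    set G' := gstepN (m (l + 1)) (r (l + 1) - r l) G with hG'
    set B' : (Fin N → ℝ) → Fin N → ℝ :=
      fun y i => tiltN (m (l + 1)) (r (l + 1) - r l) G (fun y => B y i) y with hB'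
    have hR : R1 m r l G' B' ≤ R1 m r (l + 1) G B := R1_mono hm' hG hB
    have hc := h.comp hm' hG hB hρ (nps_rpow hθ0 hθ1)
    have hρ1 : (fun x : ℝ => 1 - (1 - x) ^ θ) ρ < 1 := by
      have : 0 < (1 - ρ) ^ θ := Real.rpow_pos_of_pos (by linarith) θ
      dsimp only
      linarith
    have hs := hc.step hG hG' hB' hR
    have hLG' : Lip G' := hG.gstep hml _
    have := ih (fun j hj => hm j (by omega)) (fun j hj => hmono j (by omega)) hLG'
      (eg_tilt_vec hG hB _ _) hρ1 hs
    refine le_trans (le_of_eq ?_) (this.trans (le_of_eq ?_))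
    · -- the cascades in dimension N
      have e1 : ∀ g y, gstepN (m (l + 1)) (r (l + 1) - r l)
          (fun y => G y + 1 / m (l + 1 + 1) * Real.log (1 - A y g)) y =
          G' y + 1 / m (l + 1) * Real.log (1 - tiltN (m (l + 1)) (r (l + 1) - r l) G
            (fun y => 1 - (1 - A y g) ^ θ) y) := by
        intro g y
        have hpos : ∀ y, 0 < 1 - A y g := fun y => by linarith only [(abs_le.1 (h.bA y g)).2, hρ]
        have e2 : ∀ y, Real.exp (m (l + 1) * (G y + 1 / m (l + 1 + 1) * Real.log (1 - A y g))) =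
            (1 - A y g) ^ θ * Real.exp (m (l + 1) * G y) := by
          intro y
          rw [Real.rpow_def_of_pos (hpos y), ← Real.exp_add]
          congr 1
          rw [hθ]
          ring
        have hE : EG (fun y => (1 - A y g) ^ θ) := by
          refine EG.of_bdd (C := (1 + ρ) ^ θ) ?_ fun y => ?_
          · exact (measurable_const.sub (h.mA_left g)).pow_const θ
          · rw [abs_of_nonneg (Real.rpow_nonneg (hpos y).le θ)]
            exact Real.rpow_le_rpow (hpos y).le (by linarith [(abs_le.1 (h.bA y g)).1]) hθ0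
        have e3 : tiltN (m (l + 1)) (r (l + 1) - r l) G (fun y => 1 - (1 - A y g) ^ θ) y =
            1 - tiltN (m (l + 1)) (r (l + 1) - r l) G (fun y => (1 - A y g) ^ θ) y := by
          rw [tiltN_sub hG (EG.const 1) hE, tiltN_const hG]
        rw [e3, sub_sub_cancel]
        have h0 : 0 < ∫ z, (1 - A (y + √(r (l + 1) - r l) • z) g) ^ θ *
            Real.exp (m (l + 1) * G (y + √(r (l + 1) - r l) • z)) ∂(gN N) := by
          have hI := hE.integrable_tilt hG (m (l + 1)) (r (l + 1) - r l) y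
          have e4 : ∀ z, (1 - A (y + √(r (l + 1) - r l) • z) g) ^ θ *
            Real.exp (m (l + 1) * G (y + √(r (l + 1) - r l) • z)) =
            Real.exp (m (l + 1) * (G (y + √(r (l + 1) - r l) • z) + 1 / m (l + 1 + 1) *
              Real.log (1 - A (y + √(r (l + 1) - r l) • z) g))) := fun z => (e2 _).symm
          simp only [e4] at hI ⊢
          exact integral_exp_pos hI
        unfold tiltN
        rw [Real.log_div h0.ne' (int_exp_pos hG _ _ y).ne']
        rw [hG']
        unfold gstepN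
        simp only [e2]
        ring
      refine integral_congr_ae (Eventually.of_forall fun g => ?_)
      dsimp only
      show topN m r l (gstepN (m (l + 1)) (r (l + 1) - r l)
        (fun y => G y + 1 / m (l + 1 + 1) * Real.log (1 - A y g))) - topN m r l G' = _
      rw [funext (e1 g)]
    · -- the one-dimensional cascades
      have e0 : Rs m r l G' B' 0 = Rs m r (l + 1) G B 0 := (Rs_succ_eq m r l G B (Nat.zero_le l)).symm
      have e1 : ∀ x, gstep (m (l + 1)) (Rs m r (l + 1) G B (l + 1) - Rs m r (l + 1) G B l)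
          (fun x => 1 / m (l + 1 + 1) * Real.log (1 - a x)) x =
          1 / m (l + 1) * Real.log (1 - ∫ z, (1 - (1 - a (x + √(R1 m r (l + 1) G B -
            R1 m r l G' B') * z)) ^ θ) ∂(gaussianReal 0 1)) := by
        intro x
        have hpos : ∀ y, 0 < 1 - a y := fun y => by linarith [(abs_le.1 (h.ba y)).2]
        rw [Rs_eq_R1, Rs_succ_eq m r l G B le_rfl, Rs_eq_R1, ← hG', ← hB']
        set w := √(R1 m r (l + 1) G B - R1 m r l G' B') with hw
        have hI : Integrable (fun z => (1 - a (x + w * z)) ^ θ) (gaussianReal 0 1) := by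
          refine Integrable.mono' (integrable_const ((1 + ρ) ^ θ)) ?_
            (Eventually.of_forall fun z => ?_)
          · exact ((measurable_const.sub (h.ma.comp (by fun_prop))).pow_const θ).aestronglyMeasurable
          · rw [Real.norm_eq_abs, abs_of_nonneg (Real.rpow_nonneg (hpos _).le θ)]
            exact Real.rpow_le_rpow (hpos _).le (by linarith only [(abs_le.1 (h.ba (x + w * z))).1]) hθ0
        rw [integral_sub (integrable_const _) hI]
        simp only [integral_const, probReal_univ, smul_eq_mul, mul_one, sub_sub_cancel]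
        unfold gstep
        congr 3
        funext z
        rw [← hw, Real.rpow_def_of_pos (hpos _)]
        congr 1
        rw [hθ]
        ring
      rw [e0]
      have e2 : cascade m (Rs m r (l + 1) G B) (l + 1)
          (fun x => 1 / m (l + 1 + 1) * Real.log (1 - a x)) = cascade m (Rs m r l G' B') l
          (fun x => 1 / m (l + 1) * Real.log (1 - ∫ z, (1 - (1 - a (x + √(R1 m r (l + 1) G B -
            R1 m r l G' B') * z)) ^ θ) ∂(gaussianReal 0 1))) := by
        show cascade m (Rs m r (l + 1) G B) l _ = _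
        rw [funext e1]
        exact casU_congr (fun j hj => Rs_succ_eq m r l G B hj) _
      rw [e2]

end main

end Vale.Agent.P157.Par
end

section

/-!
Adding one pattern (module U3), part 5: the top level, for functions `f` with
`e^f = c - (positive definite)`.
-/

open MeasureTheory ProbabilityTheory Filter Topology

namespace Vale.Agent.P157.Par

variable {N : ℕ} {X : Type} [Fintype X] [Nonempty X]

/-- The Gibbs weights. -/
noncomputable def pw (φ : X → Fin N → ℝ) (c : ℝ) (u : X → ℝ) (x : X) (y : Fin N → ℝ) : ℝ :=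
  Real.exp (u x + c * ∑ i, y i * φ x i) / ∑ x, Real.exp (u x + c * ∑ i, y i * φ x i)

lemma pw_nonneg (φ : X → Fin N → ℝ) (c : ℝ) (u : X → ℝ) (x : X) (y : Fin N → ℝ) :
    0 ≤ pw φ c u x y := div_nonneg (Real.exp_pos _).le (sum_exp_pos _).le

lemma sum_pw (φ : X → Fin N → ℝ) (c : ℝ) (u : X → ℝ) (y : Fin N → ℝ) :
    ∑ x, pw φ c u x y = 1 := by
  unfold pw
  rw [← Finset.sum_div, div_self (sum_exp_pos _).ne']

omit [Nonempty X] in
lemma measurable_pw (φ : X → Fin N → ℝ) (c : ℝ) (u : X → ℝ) (x : X) :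
    Measurable (pw φ c u x) := by
  unfold pw
  fun_prop

omit [Nonempty X] in
lemma gw_eq (φ : X → Fin N → ℝ) (c : ℝ) (u : X → ℝ) (h : X → ℝ) (y : Fin N → ℝ) :
    gw φ c u h y = ∑ x, pw φ c u x y * h x := by
  unfold gw pw
  rw [Finset.sum_div]
  exact Finset.sum_congr rfl fun x _ => by ring

/-- The elementary pair of the frequency `t`. -/
noncomputable def freq (φ : X → Fin N → ℝ) (c : ℝ) (u : X → ℝ) (q t : ℝ) : PP N :=
  (fun y g => ∑ x, (pw φ c u x y : ℂ) *
    Complex.exp (((t * ((∑ i, g i * φ x i) / √(N : ℝ)) : ℝ) : ℂ) * Complex.I),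
   fun x => Complex.exp (((t * x : ℝ) : ℂ) * Complex.I - ((t ^ 2 * (1 - q)) / 2 : ℝ)))

section freq

variable {m r : ℕ → ℝ} {k : ℕ}

lemma el_freq (hm : ∀ j < k, 0 < m (j + 1)) {φ : X → Fin N → ℝ} (hφ : ∀ x, ∑ i, φ x i ^ 2 = N)
    (hN : 0 < N) (c : ℝ) (u : X → ℝ) (t : ℝ) :
    El m r k (lw φ c u) (bw φ c u)
      (freq φ c u (R1 m r k (lw φ c u) (bw φ c u)) t) := by
  have hN' : (0 : ℝ) < N := by exact_mod_cast hN
  have hs : 0 < √(N : ℝ) := Real.sqrt_pos.2 hN'
  refine ⟨X, inferInstance, pw φ c u, fun x i => t * φ x i / √(N : ℝ), 1, t,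
    t ^ 2 * (1 - R1 m r k (lw φ c u) (bw φ c u)), zero_le_one, measurable_pw φ c u,
    pw_nonneg φ c u, sum_pw φ c u, fun y i => ?_, ?_, fun y g => ?_, fun x => ?_⟩
  · unfold bw
    rw [gw_eq, Finset.mul_sum, Finset.sum_div]
    exact Finset.sum_congr rfl fun x _ => by ring
  · have h1 : ∀ y, ∑ x, pw φ c u x y * ∑ i, (t * φ x i / √(N : ℝ)) ^ 2 = t ^ 2 := by
      intro y
      have h2 : ∀ x, ∑ i, (t * φ x i / √(N : ℝ)) ^ 2 = t ^ 2 := by
        intro x
        have : ∀ i, (t * φ x i / √(N : ℝ)) ^ 2 = t ^ 2 / N * φ x i ^ 2 := by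
          intro i
          rw [div_pow, Real.sq_sqrt hN'.le]
          ring
        simp only [this]
        rw [← Finset.mul_sum, hφ]
        field_simp
      simp only [h2]
      rw [← Finset.sum_mul, sum_pw, one_mul]
    rw [funext h1, chainAv_const hm (lip_lw φ c u)]
    ring
  · simp only [freq, Complex.ofReal_one, one_mul]
    refine Finset.sum_congr rfl fun x _ => ?_
    have : (t * ((∑ i, g i * φ x i) / √(N : ℝ)) : ℝ) = ∑ i, g i * (t * φ x i / √(N : ℝ)) := by
      rw [Finset.sum_div, Finset.mul_sum]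
      exact Finset.sum_congr rfl fun i _ => by ring
    rw [this]
  · simp only [freq, Complex.ofReal_one, one_mul]

end freq

/-- The symmetrized pair. -/
noncomputable def cfreq (φ : X → Fin N → ℝ) (c : ℝ) (u : X → ℝ) (q t : ℝ) : PP N :=
  (fun y g => ((gw φ c u (fun x => Real.cos (t * ((∑ i, g i * φ x i) / √(N : ℝ)))) y : ℝ) : ℂ),
   fun x => ((Real.cos (t * x) * Real.exp (-(t ^ 2 * (1 - q)) / 2) : ℝ) : ℂ))

lemma cexp_add_neg (s : ℝ) : Complex.exp (((s : ℝ) : ℂ) * Complex.I) +
    Complex.exp (((-s : ℝ) : ℂ) * Complex.I) = ((2 * Real.cos s : ℝ) : ℂ) := by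
  push_cast
  rw [Complex.two_cos, neg_mul]

lemma rep_cfreq {m r : ℕ → ℝ} {k : ℕ} (hm : ∀ j < k, 0 < m (j + 1)) {φ : X → Fin N → ℝ}
    (hφ : ∀ x, ∑ i, φ x i ^ 2 = N) (hN : 0 < N) (c : ℝ) (u : X → ℝ) (t : ℝ) :
    Rep m r k (lw φ c u) (bw φ c u)
      (cfreq φ c u (R1 m r k (lw φ c u) (bw φ c u)) t) := by
  set q := R1 m r k (lw φ c u) (bw φ c u) with hq
  have hG := lip_lw φ c u
  have hB := eg_bw φ c u
  have h1 := (Rep.const (r := r) hm hG (bw φ c u) (c := 1 / 2) (by norm_num)).mul hm hG hB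
    ((Rep.of_el (el_freq (r := r) hm hφ hN c u t)).add
      (Rep.of_el (el_freq (r := r) hm hφ hN c u (-t))))
  convert h1 using 1
  rw [← hq]
  ext1
  · funext y g
    show ((gw φ c u (fun x => Real.cos (t * ((∑ i, g i * φ x i) / √(N : ℝ)))) y : ℝ) : ℂ) =
      ((1 / 2 : ℝ) : ℂ) * ((freq φ c u q t).1 y g + (freq φ c u q (-t)).1 y g)
    simp only [freq]
    rw [gw_eq, ← Finset.sum_add_distrib, Finset.mul_sum, Complex.ofReal_sum]
    refine Finset.sum_congr rfl fun x _ => ?_
    rw [← mul_add, neg_mul, cexp_add_neg]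
    push_cast
    ring
  · funext x
    show ((Real.cos (t * x) * Real.exp (-(t ^ 2 * (1 - q)) / 2) : ℝ) : ℂ) =
      ((1 / 2 : ℝ) : ℂ) * ((freq φ c u q t).2 x + (freq φ c u q (-t)).2 x)
    simp only [freq]
    have e1 : ∀ s : ℝ, Complex.exp (((s * x : ℝ) : ℂ) * Complex.I -
        ((t ^ 2 * (1 - q)) / 2 : ℝ)) = Complex.exp (((s * x : ℝ) : ℂ) * Complex.I) *
          ((Real.exp (-(t ^ 2 * (1 - q)) / 2) : ℝ) : ℂ) := by
      intro s
      rw [sub_eq_add_neg, Complex.exp_add, Complex.ofReal_exp]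
      congr 2
      push_cast
      ring
    rw [e1, neg_sq, e1, ← add_mul, neg_mul, cexp_add_neg]
    push_cast
    ring

/-! ### Simple approximation of a measure -/

/-- Simple functions converging to the identity. -/
noncomputable def sap (n : ℕ) : SimpleFunc ℝ ℝ :=
  SimpleFunc.approxOn id measurable_id Set.univ 0 (Set.mem_univ _) n

lemma tendsto_sap (t : ℝ) : Tendsto (fun n => sap n t) atTop (𝓝 t) :=
  SimpleFunc.tendsto_approxOn measurable_id (Set.mem_univ _) (by simp)

lemma int_sap (ν : Measure ℝ) [IsFiniteMeasure ν] (n : ℕ) (h : ℝ → ℝ) :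
    ∑ t ∈ (sap n).range, ν.real (sap n ⁻¹' {t}) * h t = ∫ l, h (sap n l) ∂ν := by
  have h1 : ∀ l, h (sap n l) = ∑ t ∈ (sap n).range,
      (sap n ⁻¹' {t}).indicator (fun _ => h t) l := by
    intro l
    rw [Finset.sum_eq_single (sap n l)]
    · rw [Set.indicator_of_mem]
      exact Set.mem_singleton _
    · intro t _ ht
      rw [Set.indicator_of_notMem]
      simpa using Ne.symm ht
    · intro hl
      exact absurd (SimpleFunc.mem_range_self _ l) hl
  simp only [h1]
  rw [integral_finsetSum _ fun t _ => ?_]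
  · refine Finset.sum_congr rfl fun t _ => ?_
    rw [integral_indicator_const _ ((sap n).measurableSet_fiber t), smul_eq_mul]
  · exact (integrable_const _).indicator ((sap n).measurableSet_fiber t)

section top

variable {m r : ℕ → ℝ} {k : ℕ}

lemma sq_gw_le (φ : X → Fin N → ℝ) (c : ℝ) (u : X → ℝ) (h : X → ℝ) (y : Fin N → ℝ) :
    gw φ c u h y ^ 2 ≤ gw φ c u (fun x => h x ^ 2) y := by
  rw [gw_eq, gw_eq]
  have h2 : ConvexOn ℝ Set.univ fun x : ℝ => x ^ 2 := Even.convexOn_pow (by decide)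
  have := h2.map_sum_le (t := Finset.univ) (w := fun x => pw φ c u x y) (p := h)
    (fun x _ => pw_nonneg φ c u x y) (sum_pw φ c u y) (fun x _ => Set.mem_univ _)
  simpa [smul_eq_mul] using this

lemma R1_le_one (hm : ∀ j < k, 0 < m (j + 1)) {φ : X → Fin N → ℝ}
    (hφ : ∀ x, ∑ i, φ x i ^ 2 = N) (hN : 0 < N) (c : ℝ) (u : X → ℝ) :
    R1 m r k (lw φ c u) (bw φ c u) ≤ 1 := by
  have hN' : (0 : ℝ) < N := by exact_mod_cast hN
  unfold R1
  rw [div_le_one hN', ← chainAv_const (r := r) hm (lip_lw φ c u) (N : ℝ)]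
  refine chainAv_mono hm (lip_lw φ c u) (EG.sum _ fun i _ => (eg_bw φ c u i).pow 2) (EG.const _)
    fun y => ?_
  calc ∑ i, bw φ c u y i ^ 2 ≤ ∑ i, gw φ c u (fun x => φ x i ^ 2) y :=
        Finset.sum_le_sum fun i _ => sq_gw_le φ c u _ y
    _ = ∑ x, pw φ c u x y * ∑ i, φ x i ^ 2 := by
        simp only [gw_eq, Finset.mul_sum]
        rw [Finset.sum_comm]
    _ = N := by
        simp only [hφ]
        rw [← Finset.sum_mul, sum_pw, one_mul]

lemma good_top (hm : ∀ j < k, 0 < m (j + 1)) {φ : X → Fin N → ℝ} (hφ : ∀ x, ∑ i, φ x i ^ 2 = N)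
    (hN : 0 < N) (c : ℝ) (u : X → ℝ) (ν : Measure ℝ) [IsFiniteMeasure ν] {C : ℝ} (hC : 0 < C) :
    Good m r k (lw φ c u) (bw φ c u) (ν.real Set.univ / C)
      (fun y g => gw φ c u (fun x => (∫ l, Real.cos (l * ((∑ i, g i * φ x i) / √(N : ℝ))) ∂ν) / C) y)
      (fun x => (∫ l, Real.cos (l * x) *
        Real.exp (-(l ^ 2 * (1 - R1 m r k (lw φ c u) (bw φ c u))) / 2) ∂ν) / C) := by
  set q := R1 m r k (lw φ c u) (bw φ c u) with hq
  have hq1 : q ≤ 1 := R1_le_one hm hφ hN c u
  have hG := lip_lw φ c u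
  have hB := eg_bw φ c u
  set P : ℕ → PP N := fun n => ∑ t ∈ (sap n).range,
    ((((fun _ _ => ((ν.real (sap n ⁻¹' {t}) / C : ℝ) : ℂ)),
      fun _ => ((ν.real (sap n ⁻¹' {t}) / C : ℝ) : ℂ)) : PP N) * cfreq φ c u q t) with hP
  set F : (Fin N → ℝ) → (Fin N → ℝ) → ℝ → ℝ := fun y g t =>
    gw φ c u (fun x => Real.cos (t * ((∑ i, g i * φ x i) / √(N : ℝ)))) y with hF
  set f : ℝ → ℝ → ℝ := fun x t => Real.cos (t * x) * Real.exp (-(t ^ 2 * (1 - q)) / 2) with hf
  have e1 : ∀ n y g, (P n).1 y g = (((∫ l, F y g (sap n l) ∂ν) / C : ℝ) : ℂ) := by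
    intro n y g
    rw [← int_sap ν n (F y g), hP]
    simp only [Prod.fst_sum, Finset.sum_apply]
    show ∑ t ∈ (sap n).range, ((ν.real (sap n ⁻¹' {t}) / C : ℝ) : ℂ) * ((F y g t : ℝ) : ℂ) = _
    rw [Finset.sum_div]
    push_cast
    exact Finset.sum_congr rfl fun t _ => by ring
  have e2 : ∀ n x, (P n).2 x = (((∫ l, f x (sap n l) ∂ν) / C : ℝ) : ℂ) := by
    intro n x
    rw [← int_sap ν n (f x), hP]
    simp only [Prod.snd_sum, Finset.sum_apply]
    show ∑ t ∈ (sap n).range, ((ν.real (sap n ⁻¹' {t}) / C : ℝ) : ℂ) * ((f x t : ℝ) : ℂ) = _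
    rw [Finset.sum_div, Complex.ofReal_sum]
    exact Finset.sum_congr rfl fun t _ => by push_cast; ring
  have bF : ∀ y g t, |F y g t| ≤ 1 := fun y g t => abs_gw_le φ c u (fun x => Real.abs_cos_le_one _) y
  have bf : ∀ x t, |f x t| ≤ 1 := by
    intro x t
    rw [hf]
    dsimp only
    rw [abs_mul, abs_of_pos (Real.exp_pos _)]
    refine mul_le_one₀ (Real.abs_cos_le_one _) (Real.exp_pos _).le (Real.exp_le_one_iff.2 ?_)
    have : 0 ≤ t ^ 2 * (1 - q) := mul_nonneg (sq_nonneg _) (by linarith only [hq1])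
    linarith only [this]
  have cF : ∀ y g, Continuous (F y g) := by
    intro y g
    rw [hF]
    unfold gw
    dsimp only
    exact (continuous_finsetSum _ fun x _ => by fun_prop).div_const _
  have cf : ∀ x, Continuous (f x) := by intro x; rw [hf]; fun_prop
  have tend : ∀ h : ℝ → ℝ, Continuous h → (∀ t, |h t| ≤ 1) →
      Tendsto (fun n => (((∫ l, h (sap n l) ∂ν) / C : ℝ) : ℂ)) atTop
        (𝓝 (((∫ l, h l ∂ν) / C : ℝ) : ℂ)) := by
    intro h hc hb
    refine (Complex.continuous_ofReal.tendsto _).comp (Tendsto.div_const ?_ _)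
    refine tendsto_integral_of_dominated_convergence (fun _ => 1) (fun n => ?_)
      (integrable_const _) (fun n => Eventually.of_forall fun l => hb _)
      (Eventually.of_forall fun l => (hc.tendsto _).comp (tendsto_sap l))
    exact (hc.measurable.comp (sap n).measurable).aestronglyMeasurable
  have bound : ∀ h : ℝ → ℝ, (∀ t, |h t| ≤ 1) →
      ‖(((∫ l, h l ∂ν) / C : ℝ) : ℂ)‖ ≤ ν.real Set.univ / C := by
    intro h hb
    rw [Complex.norm_real, Real.norm_eq_abs, abs_div, abs_of_pos hC]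
    refine div_le_div_of_nonneg_right ?_ hC.le
    have := norm_integral_le_of_norm_le_const (μ := ν) (f := h) (C := 1)
      (Eventually.of_forall fun t => hb t)
    rwa [one_mul] at this
  refine ⟨P, fun n => ?_, fun n y g => ?_, fun n x => ?_, fun y g => ?_, fun x => ?_⟩
  · refine Rep.sum _ fun t _ => (Rep.const hm hG _ ?_).mul hm hG hB (rep_cfreq hm hφ hN c u t)
    positivity
  · rw [e1]
    exact bound _ fun t => bF y g _
  · rw [e2]
    exact bound _ fun t => bf x _
  · simp only [e1]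
    have h1 := tend (F y g) (cF y g) (bF y g)
    have h2 : (∫ l, F y g l ∂ν) / C = gw φ c u (fun x =>
        (∫ l, Real.cos (l * ((∑ i, g i * φ x i) / √(N : ℝ))) ∂ν) / C) y := by
      rw [hF]
      simp only [gw_eq]
      rw [integral_finsetSum _ fun x _ => ?_, Finset.sum_div]
      · refine Finset.sum_congr rfl fun x _ => ?_
        rw [integral_const_mul, mul_div_assoc]
      · refine Integrable.const_mul ?_ _
        exact Integrable.mono' (integrable_const (1 : ℝ))
          (by fun_prop : Measurable _).aestronglyMeasurable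
          (Eventually.of_forall fun l => Real.abs_cos_le_one _)
    rw [h2] at h1
    exact h1
  · simp only [e2]
    exact tend (f x) (cf x) (bf x)

lemma gauss_cos {w : ℝ} (hw : 0 ≤ w) (l x : ℝ) :
    ∫ z, Real.cos (l * (x + √w * z)) ∂(gaussianReal 0 1) =
      Real.cos (l * x) * Real.exp (-(l ^ 2 * w) / 2) := by
  have h := congrArg Complex.re (gauss_step hw l 0 x)
  have h1 : ∀ z : ℝ, Complex.exp (((l * (x + √w * z) : ℝ) : ℂ) * Complex.I - ((0 / 2 : ℝ) : ℂ)) =
      Complex.exp (((l * (x + √w * z) : ℝ) : ℂ) * Complex.I) := by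
    intro z; simp
  simp only [h1] at h
  have hI : Integrable (fun z : ℝ => Complex.exp (((l * (x + √w * z) : ℝ) : ℂ) * Complex.I))
      (gaussianReal 0 1) := by
    refine Integrable.mono' (integrable_const (1 : ℝ))
      (by fun_prop : Measurable _).aestronglyMeasurable (Eventually.of_forall fun z => ?_)
    rw [Complex.norm_exp_ofReal_mul_I]
  have h2 := integral_re hI
  simp only [RCLike.re_to_complex] at h2
  rw [← h2] at h
  have h3 : ∀ s : ℝ, (Complex.exp ((s : ℂ) * Complex.I)).re = Real.cos s :=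
    Complex.exp_ofReal_mul_I_re
  simp only [h3] at h
  rw [h, sub_eq_add_neg, Complex.exp_add, ← Complex.ofReal_neg, ← Complex.ofReal_exp,
    Complex.re_mul_ofReal, h3]
  congr 2
  ring

lemma gauss_cos_int (ν : Measure ℝ) [IsFiniteMeasure ν] {w : ℝ} (hw : 0 ≤ w) (x : ℝ) :
    ∫ z, (∫ l, Real.cos (l * (x + √w * z)) ∂ν) ∂(gaussianReal 0 1) =
      ∫ l, Real.cos (l * x) * Real.exp (-(l ^ 2 * w) / 2) ∂ν := by
  rw [integral_integral_swap]
  · simp only [gauss_cos hw]
  · refine Integrable.mono' (integrable_const (1 : ℝ)) ?_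
      (Eventually.of_forall fun z => ?_)
    · exact (by unfold Function.uncurry; fun_prop : Measurable (Function.uncurry fun z l : ℝ =>
        Real.cos (l * (x + √w * z)))).aestronglyMeasurable
    · exact Real.abs_cos_le_one _

section classA

variable {f : ℝ → ℝ} {ν : Measure ℝ} [IsFiniteMeasure ν] {C : ℝ}

lemma abs_int_cos_le (ν : Measure ℝ) [IsFiniteMeasure ν] (s : ℝ) :
    |∫ l, Real.cos (l * s) ∂ν| ≤ ν.real Set.univ := by
  have := norm_integral_le_of_norm_le_const (μ := ν) (f := fun l => Real.cos (l * s)) (C := 1)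
    (Eventually.of_forall fun t => Real.abs_cos_le_one _)
  rwa [one_mul] at this

lemma classA_meas (hf : ∀ s : ℝ, Real.exp (f s) = C - ∫ l, Real.cos (l * s) ∂ν) :
    Measurable f := by
  have h1 : f = fun s => Real.log (C - ∫ l, Real.cos (l * s) ∂ν) := by
    funext s
    rw [← hf, Real.log_exp]
  rw [h1]
  refine Real.measurable_log.comp (measurable_const.sub ?_)
  have : StronglyMeasurable (Function.uncurry fun s l : ℝ => Real.cos (l * s)) :=
    (by unfold Function.uncurry; fun_prop : Measurable (Function.uncurry fun s l : ℝ =>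
        Real.cos (l * s))).stronglyMeasurable
  exact this.integral_prod_right.measurable

lemma classA_bdd (hν : ν.real Set.univ < C)
    (hf : ∀ s : ℝ, Real.exp (f s) = C - ∫ l, Real.cos (l * s) ∂ν) :
    ∃ K, ∀ s, |f s| ≤ K := by
  refine ⟨|Real.log (C - ν.real Set.univ)| + |Real.log (C + ν.real Set.univ)|, fun s => ?_⟩
  have h1 := abs_le.1 (abs_int_cos_le ν s)
  have h2 : f s = Real.log (C - ∫ l, Real.cos (l * s) ∂ν) := by rw [← hf, Real.log_exp]
  have h3 : Real.log (C - ν.real Set.univ) ≤ f s := by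
    rw [h2]
    exact Real.log_le_log (by linarith) (by linarith)
  have h4 : f s ≤ Real.log (C + ν.real Set.univ) := by
    rw [h2]
    exact Real.log_le_log (by linarith) (by linarith)
  rw [abs_le]
  constructor
  · have := neg_abs_le (Real.log (C - ν.real Set.univ))
    have := abs_nonneg (Real.log (C + ν.real Set.univ))
    linarith
  · have := le_abs_self (Real.log (C + ν.real Set.univ))
    have := abs_nonneg (Real.log (C - ν.real Set.univ))
    linarith

end classA

/-- **Adding one pattern.** -/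
theorem one_pattern {f : ℝ → ℝ} {ν : Measure ℝ} [IsFiniteMeasure ν] {C : ℝ}
    (hν : ν.real Set.univ < C) (hf : ∀ s : ℝ, Real.exp (f s) = C - ∫ l, Real.cos (l * s) ∂ν)
    (hme : Exponents k m) {φ : X → Fin N → ℝ} (hφ : ∀ x, ∑ i, φ x i ^ 2 = N) (hN : 0 < N)
    (c : ℝ) (u : X → ℝ) :
    ∫ g, topN m r k (lw φ c (fun x => u x + f ((∑ i, g i * φ x i) / √(N : ℝ)))) ∂(gN N) ≤
      topN m r k (lw φ c u) + patternPart f k m (Rs m r k (lw φ c u) (bw φ c u)) := by
  obtain ⟨hm0, hmk, hmi⟩ := hme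
  have hC : 0 < C := lt_of_le_of_lt measureReal_nonneg hν
  have hρ : ν.real Set.univ / C < 1 := (div_lt_one hC).2 hν
  have hpos : ∀ j ≤ k, 0 < m (j + 1) := by
    intro j hj
    induction j with
    | zero => have := hmi 0 (Nat.zero_le k); rw [hm0] at this; simpa using this
    | succ j ih => exact (ih (by omega)).trans (hmi (j + 1) hj)
  have hm : ∀ j < k, 0 < m (j + 1) := fun j hj => hpos j hj.le
  have hG := lip_lw φ c u
  have hB := eg_bw φ c u
  set G := lw φ c u with hGd
  set B := bw φ c u with hBd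
  set q := R1 m r k G B with hq
  have hq1 : q ≤ 1 := R1_le_one hm hφ hN c u
  set v : ℝ → ℝ := fun s => (∫ l, Real.cos (l * s) ∂ν) / C with hv
  have hfv : ∀ s, Real.exp (f s) = C * (1 - v s) := by
    intro s
    rw [hf, hv]
    dsimp only
    rw [mul_sub, mul_one, mul_div_cancel₀ _ hC.ne']
  have hvb : ∀ s, |v s| ≤ ν.real Set.univ / C := by
    intro s
    rw [hv]
    dsimp only
    rw [abs_div, abs_of_pos hC]
    refine div_le_div_of_nonneg_right ?_ hC.le
    have := norm_integral_le_of_norm_le_const (μ := ν) (f := fun l => Real.cos (l * s)) (C := 1)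
      (Eventually.of_forall fun t => Real.abs_cos_le_one _)
    rwa [one_mul] at this
  have hgood := good_top (r := r) hm hφ hN c u ν hC
  rw [← hGd, ← hBd, ← hq] at hgood
  have hmain := pattern_main (m := m) (r := r) hpos (fun j hj => (hmi (j + 1) (by omega)).le)
    hG hB hρ hgood
  rw [hmk] at hmain
  simp only [div_one, one_mul] at hmain
  -- the left side
  have e1 : ∀ (g : Fin N → ℝ) y, lw φ c (fun x => u x + f ((∑ i, g i * φ x i) / √(N : ℝ))) y =
      (G y + Real.log (1 - gw φ c u (fun x => v ((∑ i, g i * φ x i) / √(N : ℝ))) y)) +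
        Real.log C := by
    intro g y
    have h1 : ∑ x, Real.exp ((fun x => u x + f ((∑ i, g i * φ x i) / √(N : ℝ))) x +
        c * ∑ i, y i * φ x i) = (∑ x, Real.exp (u x + c * ∑ i, y i * φ x i)) *
        (1 - gw φ c u (fun x => v ((∑ i, g i * φ x i) / √(N : ℝ))) y) * C := by
      have h2 : gw φ c u (fun x => v ((∑ i, g i * φ x i) / √(N : ℝ))) y *
          (∑ x, Real.exp (u x + c * ∑ i, y i * φ x i)) =
          ∑ x, Real.exp (u x + c * ∑ i, y i * φ x i) * v ((∑ i, g i * φ x i) / √(N : ℝ)) := by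
        unfold gw
        exact div_mul_cancel₀ _ (sum_exp_pos _).ne'
      have h3 : (∑ x, Real.exp (u x + c * ∑ i, y i * φ x i)) *
          (1 - gw φ c u (fun x => v ((∑ i, g i * φ x i) / √(N : ℝ))) y) * C =
          C * ((∑ x, Real.exp (u x + c * ∑ i, y i * φ x i)) -
            gw φ c u (fun x => v ((∑ i, g i * φ x i) / √(N : ℝ))) y *
            (∑ x, Real.exp (u x + c * ∑ i, y i * φ x i))) := by ring
      rw [h3, h2, ← Finset.sum_sub_distrib, Finset.mul_sum]
      refine Finset.sum_congr rfl fun x _ => ?_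
      have h4 : u x + f ((∑ i, g i * φ x i) / √(N : ℝ)) + c * ∑ i, y i * φ x i =
          (u x + c * ∑ i, y i * φ x i) + f ((∑ i, g i * φ x i) / √(N : ℝ)) := by ring
      dsimp only
      rw [h4, Real.exp_add, hfv]
      ring
    unfold lw at *
    rw [h1]
    have h5 : 0 < 1 - gw φ c u (fun x => v ((∑ i, g i * φ x i) / √(N : ℝ))) y := by
      have := (abs_le.1 (abs_gw_le φ c u (fun x => hvb ((∑ i, g i * φ x i) / √(N : ℝ))) y)).2
      linarith only [this, hρ]
    rw [Real.log_mul (mul_pos (sum_exp_pos _) h5).ne' hC.ne',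
      Real.log_mul (sum_exp_pos _).ne' h5.ne', hGd]
  have e2 : ∀ g : Fin N → ℝ,
      topN m r k (lw φ c (fun x => u x + f ((∑ i, g i * φ x i) / √(N : ℝ)))) =
      topN m r k (fun y => G y + Real.log (1 - gw φ c u
        (fun x => v ((∑ i, g i * φ x i) / √(N : ℝ))) y)) + Real.log C := by
    intro g
    set L1 := lw φ c (fun x => u x + f ((∑ i, g i * φ x i) / √(N : ℝ))) with hL1
    set L2 : (Fin N → ℝ) → ℝ := fun y => G y + Real.log (1 - gw φ c u
        (fun x => v ((∑ i, g i * φ x i) / √(N : ℝ))) y) with hL2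
    have h1 : Lip L1 := lip_lw φ c _
    have h12 : ∀ y, L1 y = L2 y + Real.log C := e1 g
    have h2 : Lip L2 := by
      obtain ⟨L, hL, hl⟩ := h1
      refine ⟨L, hL, fun y y' => ?_⟩
      have := hl y y'
      rw [h12, h12] at this
      simpa using this
    have h3 := topN_le_add (r := r) hm h1 h2 (C := Real.log C) fun y => (h12 y).le
    have h4 := topN_le_add (r := r) hm h2 h1 (C := -Real.log C) fun y => by
      rw [h12]; linarith only []
    linarith
  -- the right side
  have hRk : Rs m r k G B k = q := Rs_eq_R1 m r k G B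
  have e3 : ∀ x : ℝ, Real.log (∫ y, Real.exp (f (x + √(1 - Rs m r k G B k) * y))
      ∂(gaussianReal 0 1)) = Real.log (1 - (∫ l, Real.cos (l * x) *
        Real.exp (-(l ^ 2 * (1 - q)) / 2) ∂ν) / C) + Real.log C := by
    intro x
    rw [hRk]
    have h1 : ∫ y, Real.exp (f (x + √(1 - q) * y)) ∂(gaussianReal 0 1) =
        (1 - (∫ l, Real.cos (l * x) * Real.exp (-(l ^ 2 * (1 - q)) / 2) ∂ν) / C) * C := by
      simp only [hf]
      rw [integral_sub (integrable_const _), gauss_cos_int ν (sub_nonneg.2 hq1) x]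
      · simp only [integral_const, probReal_univ, smul_eq_mul, one_mul]
        rw [sub_mul, one_mul, div_mul_cancel₀ _ hC.ne']
      · refine Integrable.mono' (integrable_const (ν.real Set.univ)) ?_
          (Eventually.of_forall fun z => abs_int_cos_le ν _)
        have : StronglyMeasurable (Function.uncurry fun s l : ℝ =>
            Real.cos (l * (x + √(1 - q) * s))) :=
          (by unfold Function.uncurry; fun_prop : Measurable (Function.uncurry fun s l : ℝ =>
            Real.cos (l * (x + √(1 - q) * s)))).stronglyMeasurable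
        exact this.integral_prod_right.aestronglyMeasurable
    rw [h1, Real.log_mul _ hC.ne']
    have := (abs_le.1 (hgood.ba x)).2
    linarith
  have hFm : Measurable fun x => Real.log (1 - (∫ l, Real.cos (l * x) *
        Real.exp (-(l ^ 2 * (1 - q)) / 2) ∂ν) / C) :=
    Real.measurable_log.comp (measurable_const.sub hgood.ma)
  have hFb : ∀ x, |Real.log (1 - (∫ l, Real.cos (l * x) *
        Real.exp (-(l ^ 2 * (1 - q)) / 2) ∂ν) / C)| ≤ -Real.log (1 - ν.real Set.univ / C) :=
    fun x => log_one_sub_bdd hρ (hgood.ba x)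
  have e4 : patternPart f k m (Rs m r k G B) = ∫ x, cascade m (Rs m r k G B) k
      (fun x => Real.log (1 - (∫ l, Real.cos (l * x) *
        Real.exp (-(l ^ 2 * (1 - q)) / 2) ∂ν) / C)) (√(Rs m r k G B 0) * x)
        ∂(gaussianReal 0 1) + Real.log C := by
    unfold patternPart
    rw [funext e3]
    simp only [casU_add hm hFm hFb (Real.log C)]
    rw [integral_add _ (integrable_const _)]
    · simp
    · refine Integrable.mono' (integrable_const (-Real.log (1 - ν.real Set.univ / C))) ?_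
        (Eventually.of_forall fun z => casU_bdd hm hFm hFb _)
      exact ((casU_meas k hFm).comp (by fun_prop)).aestronglyMeasurable
  -- integrability
  obtain ⟨K, hK⟩ := classA_bdd hν hf
  have hfm := classA_meas hf
  have hI : Integrable (fun g : Fin N → ℝ =>
      topN m r k (lw φ c (fun x => u x + f ((∑ i, g i * φ x i) / √(N : ℝ)))) -
        topN m r k G) (gN N) := by
    refine Integrable.mono' (integrable_const K) ?_ (Eventually.of_forall fun g => ?_)
    · refine (Measurable.sub ?_ measurable_const).aestronglyMeasurable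
      refine (continuous_topN_lw hm φ c).measurable.comp (measurable_pi_lambda _ fun x => ?_)
      exact measurable_const.add (hfm.comp (by fun_prop))
    · refine abs_topN_lw_sub_le hm φ c fun x => ?_
      simpa using hK _
  have e5 : ∫ g, topN m r k (lw φ c (fun x => u x + f ((∑ i, g i * φ x i) / √(N : ℝ)))) ∂(gN N) =
      ∫ g, (topN m r k (lw φ c (fun x => u x + f ((∑ i, g i * φ x i) / √(N : ℝ)))) -
        topN m r k G) ∂(gN N) + topN m r k G := by
    have h1 := integral_add hI (integrable_const (topN m r k G))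
    simpa using h1
  have e6 : ∫ g, (topN m r k (lw φ c (fun x => u x + f ((∑ i, g i * φ x i) / √(N : ℝ)))) -
        topN m r k G) ∂(gN N) =
      ∫ g, (topN m r k (fun y => G y + Real.log (1 - gw φ c u
        (fun x => v ((∑ i, g i * φ x i) / √(N : ℝ))) y)) - topN m r k G) ∂(gN N) +
        Real.log C := by
    have h1 : ∀ g : Fin N → ℝ, topN m r k (fun y => G y + Real.log (1 - gw φ c u
        (fun x => v ((∑ i, g i * φ x i) / √(N : ℝ))) y)) - topN m r k G =
        (topN m r k (lw φ c (fun x => u x + f ((∑ i, g i * φ x i) / √(N : ℝ)))) -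
        topN m r k G) - Real.log C := by
      intro g; rw [e2]; ring
    rw [funext h1, integral_sub hI (integrable_const _)]
    simp
  rw [e5, e6, e4]
  linarith only [hmain]

end top

end Vale.Agent.P157.Par
end

section

/-!
# P146, module IDX: the integration by parts identity for a general matrix of the level zero
-/

open MeasureTheory ProbabilityTheory Finset Matrix

namespace Vale.Agent.P146.Pw2

set_option linter.all false

open Vale.Agent.P157 Vale.Agent.P157.Lv Vale.Agent.P157.Lv.Sy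
open Vale.Agent.P146.Sk Vale.Agent.P146.Sk.Rec

variable {ι X : Type} [Fintype ι] [DecidableEq ι] [Fintype X] [DecidableEq X] [Nonempty X]
  {S : Sy ι X} {N : ℕ} {φ : X → Fin N → ℝ} {A : (ι → ℝ) → Matrix (Fin N) (Fin N) ℝ}
  {A' : Ix N → (ι → ℝ) → Matrix (Fin N) (Fin N) ℝ}
  {α : (ι → ℝ) → ℝ} {D : ι → (ι → ℝ) → X → ℝ} {g : Ix N → ι} {c : ℝ}
  {B : Ix N → (ι → ℝ) → X → ℝ} {w : (ι → ℝ) → ℝ}

/-- The exact identity. -/
theorem exact_ida (hC : Rec.Ctx S D g φ c B w) (hL : Rec.LMat S A α)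
    (hd' : ∀ e, PDM (g e) A (A' e)) (hA' : ∀ e, EGM (A' e)) {j : ℕ} (hj : j ≤ S.K + 1) :
    1 / (N : ℝ) * S.Ex (fun z x => yv S φ j z x ⬝ᵥ WW g z *ᵥ (A z *ᵥ yv S φ j z x)) =
      dl S D g φ A j +
      1 / N * S.Ex (fun z x => ∑ e,
        Me (yv S φ j z x) (A' e z *ᵥ yv S φ j z x) e) +
      (LL S D g φ A (S.K + 1) j j -
        ∑ i ∈ Finset.range (S.K + 1), S.p i * LL S D g φ A i j j) := by
  have hS := hC.reg.toReg
  have hA := hL.eg
  have hAd := hL.dep
  have nM : ∀ e : Ix N, Nh (fun z x => Me (yv S φ j z x) (A z *ᵥ yv S φ j z x) e) :=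
    fun e => (nhv_yv hS j).me ((nhv_yv hS j).mulVec hA) e
  have nDU : ∀ e : Ix N, Nh (fun z x =>
      Me (yv S φ j z x) (A' e z *ᵥ yv S φ j z x) e) :=
    fun e => (nhv_yv hS j).me ((nhv_yv hS j).mulVec (hA' _)) e
  have e0 : (fun z x => yv S φ j z x ⬝ᵥ WW g z *ᵥ (A z *ᵥ yv S φ j z x)) =
      fun z x => ∑ e, z (g e) * Me (yv S φ j z x) (A z *ᵥ yv S φ j z x) e := by
    funext z x
    exact (sum_Me_z _ _ _).symm
  rw [e0]
  -- the derivative in the coordinate `e` splits into two parts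
  have hLL : ∀ i, LL S D g φ A i j j = 1 / N * S.Ex (fun z x =>
      ∑ e, Me (yv S φ j z x) (A z *ᵥ yv S φ j z x) e * Ti S i (D (g e)) z x) :=
    fun i => rfl
  have fin : ∀ (h' : Ix N → (ι → ℝ) → X → ℝ), (∀ e x, PD (g e)
      (fun z => Me (yv S φ j z x) (A z *ᵥ yv S φ j z x) e) (fun z => h' e z x)) →
      (∀ e, Nh (h' e)) → 1 / (N : ℝ) * S.Ex (fun z x => ∑ e, h' e z x) =
        dl S D g φ A j + 1 / N * S.Ex (fun z x => ∑ e,
        Me (yv S φ j z x) (A' e z *ᵥ yv S φ j z x) e) →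
      1 / (N : ℝ) * S.Ex (fun z x => ∑ e, z (g e) *
        Me (yv S φ j z x) (A z *ᵥ yv S φ j z x) e) =
      dl S D g φ A j +
      1 / N * S.Ex (fun z x => ∑ e,
        Me (yv S φ j z x) (A' e z *ᵥ yv S φ j z x) e) +
      (LL S D g φ A (S.K + 1) j j -
        ∑ i ∈ Finset.range (S.K + 1), S.p i * LL S D g φ A i j j) := by
    intro h' hd hh' hE
    rw [ibp_sum hC hd nM hh', mul_add, hE]
    congr 1
    rw [mul_sub, mul_sum]
    congr 1
    refine sum_congr rfl fun i _ => ?_
    rw [hLL i]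
    ring
  rcases le_or_gt j S.K with hjK | hjK
  · -- the magnetization
    set u : (ι → ℝ) → Fin N → ℝ := fun z a => S.mg φ j a z with hu
    have ey : ∀ z x, yv S φ j z x = u z := fun z x => yv_le hjK z x
    have eyd : ∀ z x, yv S φ (S.K + 1) z x = φ x := fun z x => yv_gt (by omega) z x
    have hud : ∀ a, Dep S.lev j (fun z => u z a) := fun a => Fld.dep_mg S φ j a
    have hue : ∀ a, EG (fun z => u z a) := fun a => Fld.eg_mg hS hjK a
    have nG : ∀ e, Nh (GG S D g j e) := fun e => nh_GG hC hjK e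
    -- the derivative of the magnetization
    set f : Ix N → (ι → ℝ) → X → Fin N → ℝ := fun e z x a => φ x a * GG S D g j e z x with hf
    have nf : ∀ e, NhV (f e) := fun e a => Nh.mul (Nh.snd fun x => φ x a) (nG e)
    have hpd : ∀ e a, PD (g e) (fun z => u z a) (fun z => S.T j (fun z x => f e z x a) z) := by
      intro e a
      have h := hC.reg.pd_T hjK (e := g e) (by rw [hC.lev e]; exact Nat.zero_le _)
        (h := fun _ x => φ x a) (h' := fun _ _ => 0) (fun x => PD.const _)
        (Nh.snd fun x => φ x a) (Nh.fst (EG.const 0))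
      have e1 : (fun (z : ι → ℝ) (x : X) => (0 : ℝ) + φ x a * (D (g e) z x -
          ∑ i ∈ Finset.Ico (j + 1) (S.K + 1), S.p i * S.T i (D (g e)) z -
          S.m (j + 1) * S.T j (D (g e)) z)) = fun z x => f e z x a := by
        funext z x
        simp only [hf, GG, zero_add]
      rw [e1] at h
      exact h
    set u' : Ix N → (ι → ℝ) → Fin N → ℝ := fun e z a => S.T j (fun z x => f e z x a) z with hu'
    have hue' : ∀ e a, EG (fun z => u' e z a) := fun e a => hS.eg_T hjK (nf e a)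
    refine fin (fun e z x => Me (u' e z) (A z *ᵥ u z) e +
      Me (u z) (A' e z *ᵥ u z + A z *ᵥ u' e z) e) ?_ ?_ ?_
    · intro e x
      have h1 : ∀ a, PD (g e) (fun z => (fun (z : ι → ℝ) (_ : X) => u z) z x a)
          (fun z => (fun (z : ι → ℝ) (_ : X) => u' e z) z x a) := fun a => hpd e a
      have h2 : ∀ a, PD (g e) (fun z => (fun (z : ι → ℝ) (_ : X) => A z *ᵥ u z) z x a)
          (fun z => (fun (z : ι → ℝ) (_ : X) =>
            A' e z *ᵥ u z + A z *ᵥ u' e z) z x a) := fun a =>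
        pd_mulVec (x := x) (u := fun z _ => u z) (u' := fun z _ => u' e z)
          (hd' e) h1 a
      have h3 := pd_me (x := x) (u := fun z _ => u z) (u' := fun z _ => u' e z)
        (v := fun z _ => A z *ᵥ u z)
        (v' := fun z _ => A' e z *ᵥ u z + A z *ᵥ u' e z) h1 h2 e
      simp only [ey]
      exact h3
    · intro e
      have n1 : NhV (X := X) (fun z _ => u' e z) := fun a => Nh.fst (hue' e a)
      have n2 : NhV (X := X) (fun z _ => u z) := fun a => Nh.fst (hue a)
      have n3 : NhV (X := X) (fun z _ => A' e z *ᵥ u z + A z *ᵥ u' e z) :=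
        fun a => Nh.add ((n2.mulVec (hA' _)) a) ((n1.mulVec hA) a)
      exact Nh.add (n1.me (n2.mulVec hA) e) (n2.me n3 e)
    · -- the evaluation
      unfold dl
      rw [if_pos hjK, ← MM_eq hC hA hjK, ← MM_eq hC hA hjK, ← mul_add, ← mul_add]
      congr 1
      have n1 : ∀ e, NhV (X := X) (fun z _ => u' e z) := fun e a => Nh.fst (hue' e a)
      have n2 : NhV (X := X) (fun z _ => u z) := fun a => Nh.fst (hue a)
      have nA : ∀ e, Nh (X := X) (fun z _ => Me (u' e z) (A z *ᵥ u z) e) := fun e =>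
        (n1 e).me (n2.mulVec hA) e
      have nB : ∀ e, Nh (X := X) (fun z _ => Me (u z) (A' e z *ᵥ u z) e) :=
        fun e => n2.me (n2.mulVec (hA' _)) e
      have nC : ∀ e, Nh (X := X) (fun z _ => Me (u z) (A z *ᵥ u' e z) e) := fun e =>
        n2.me ((n1 e).mulVec hA) e
      have e1 : (fun (z : ι → ℝ) (x : X) => ∑ e, (Me (u' e z) (A z *ᵥ u z) e +
          Me (u z) (A' e z *ᵥ u z + A z *ᵥ u' e z) e)) = fun z x =>
          (∑ e, Me (u' e z) (A z *ᵥ u z) e + ∑ e, Me (u z) (A z *ᵥ u' e z) e) +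
          ∑ e, Me (u z) (A' e z *ᵥ u z) e := by
        funext z x
        rw [← sum_add_distrib, ← sum_add_distrib]
        refine sum_congr rfl fun e _ => ?_
        simp only [Me, Pi.add_apply]
        ring
      rw [e1, hS.Ex_add (Nh.add (Nh.sum _ fun e _ => nA e) (Nh.sum _ fun e _ => nC e))
        (Nh.sum _ fun e _ => nB e), hS.Ex_add (Nh.sum _ fun e _ => nA e)
        (Nh.sum _ fun e _ => nC e)]
      simp only [ey, eyd]
      have hUd : ∀ a, Dep S.lev j (fun z => (A z *ᵥ u z) a) := dep_mulVec hAd hud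
      have hUe : ∀ a, EG (fun z => (A z *ᵥ u z) a) := eg_mulVec hA hue
      congr 2
      · rw [hS.Ex_sum _ fun e _ => nA e, hS.Ex_sum _ fun e _ =>
          Nh.mul (nhv_phi.me (n2.mulVec hA) e) (nG e)]
        refine sum_congr rfl fun e _ => ?_
        have h1 := Ex_me_T hS hjK (nf e) hUd hUe e
        refine h1.trans ?_
        congr 1
        funext z x
        simp only [hf, Me]
        ring
      · rw [hS.Ex_sum _ fun e _ => nC e, hS.Ex_sum _ fun e _ =>
          Nh.mul (n2.me (nhv_phi.mulVec hA) e) (nG e)]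
        refine sum_congr rfl fun e _ => ?_
        have h1 := Ex_me_T hS hjK ((nf e).mulVec hA) hud hue e
        have e2 : (fun (z : ι → ℝ) (_ : X) => Me (u z) (A z *ᵥ u' e z) e) = fun z _ =>
            Me (fun a => S.T j (fun z x => (A z *ᵥ f e z x) a) z) (u z) e := by
          funext z x
          rw [Me_comm]
          congr 1
          exact mulVec_T hS hjK hA hAd (nf e) z
        rw [e2]
        refine h1.trans ?_
        congr 1
        funext z x
        have e3 : A z *ᵥ f e z x = fun a => GG S D g j e z x * (A z *ᵥ φ x) a := by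
          funext a
          simp only [hf, Matrix.mulVec, dotProduct, mul_sum]
          exact sum_congr rfl fun b _ => by ring
        rw [e3, Me_comm]
        simp only [Me]
        ring
  · -- the configuration
    have ey : ∀ z x, yv S φ j z x = φ x := fun z x => yv_gt hjK z x
    refine fin (fun e z x => Me (φ x) (A' e z *ᵥ φ x) e) ?_ ?_ ?_
    · intro e x
      have h1 : ∀ a, PD (g e) (fun z => (fun (_ : ι → ℝ) (x : X) => φ x) z x a)
          (fun z => (fun (_ : ι → ℝ) (_ : X) (_ : Fin N) => (0 : ℝ)) z x a) := fun a => PD.const _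
      have h2 : ∀ a, PD (g e) (fun z => (fun (z : ι → ℝ) (x : X) => A z *ᵥ φ x) z x a)
          (fun z => (fun (z : ι → ℝ) (x : X) =>
            A' e z *ᵥ φ x + A z *ᵥ (fun _ => (0 : ℝ))) z x a) := fun a =>
        pd_mulVec (x := x) (u := fun _ x => φ x) (u' := fun _ _ _ => (0 : ℝ))
          (hd' e) h1 a
      have h3 := pd_me (x := x) (u := fun _ x => φ x) (u' := fun _ _ _ => (0 : ℝ))
        (v := fun z x => A z *ᵥ φ x)
        (v' := fun z x => A' e z *ᵥ φ x + A z *ᵥ (fun _ => (0 : ℝ)))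
        h1 h2 e
      simp only [ey]
      refine h3.congr fun z => ?_
      have e1 : A z *ᵥ (fun _ : Fin N => (0 : ℝ)) = 0 := mulVec_zero _
      simp only [e1, Me, add_zero, zero_mul, zero_div, zero_add]
    · intro e
      exact nhv_phi.me (nhv_phi.mulVec (hA' _)) e
    · unfold dl
      rw [if_neg (not_le.2 hjK), zero_add]
      simp only [ey]

/-- The identity with the main part of the right-hand side. -/
theorem exact_idx (hC : Rec.Ctx S D g φ c B w) (hA : Rec.LMat S A α)
    (hd : ∀ e, PDM (g e) A (A' e)) (hA' : ∀ e, EGM (A' e)) {j : ℕ} (hj : j ≤ S.K + 1) :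
    |1 / (N : ℝ) * S.Ex (fun z x => Rec.yv S φ j z x ⬝ᵥ Rec.WW g z *ᵥ (A z *ᵥ Rec.yv S φ j z x)) -
      (c * Rec.HH S φ A j + 1 / N * S.Ex (fun z x => ∑ e,
        Me (Rec.yv S φ j z x) (A' e z *ᵥ Rec.yv S φ j z x) e))| ≤ Rec.ej S φ c α w j := by
  have h1 := exact_ida hC hA hd hA' hj
  have h2 := main_le hC hA hj
  rw [h1]
  rw [abs_le] at h2 ⊢
  constructor
  · linarith only [h2.1]
  · linarith only [h2.2]

end Vale.Agent.P146.Pw2
end
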