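import Vale.Agent.P146.Bdl.B7
import Vale.Agent.P146.Bdl.B16
import Vale.Agent.P146.Bdl.B17

set_option linter.all false

section

set_option maxSynthPendingDepth 3
set_option linter.unusedSectionVars false

open MeasureTheory ProbabilityTheory Filter Topology

namespace Vale.Agent.P157.Par

namespace ClsA

variable {ν : Measure ℝ}

lemma abs_pow_le {j : ℕ} (hj : j ≤ 4) (l : ℝ) : |l ^ j| ≤ 1 + l ^ 4 := by
  have h4 : l ^ 4 = |l| ^ 4 := by rw [← abs_pow]; exact (abs_of_nonneg (by positivity)).symm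
  rw [abs_pow, h4]
  rcases le_total |l| 1 with h | h
  · have h1 : |l| ^ j ≤ 1 := pow_le_one₀ (abs_nonneg l) h
    have h2 : 0 ≤ |l| ^ 4 := by positivity
    linarith
  · have h1 : |l| ^ j ≤ |l| ^ 4 := pow_le_pow_right₀ h hj
    linarith

lemma int_pow [IsFiniteMeasure ν] (h4 : Integrable (fun θ : ℝ => θ ^ 4) ν) {j : ℕ} (hj : j ≤ 4) :
    Integrable (fun θ : ℝ => θ ^ j) ν := by
  refine Integrable.mono' ((integrable_const (1 : ℝ)).add h4) (by fun_prop) ?_
  exact Eventually.of_forall fun l => abs_pow_le hj l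

lemma int_cos {j : ℕ} (hj : Integrable (fun θ : ℝ => θ ^ j) ν) (s : ℝ) :
    Integrable (fun l : ℝ => l ^ j * Real.cos (l * s)) ν := by
  refine Integrable.mono' hj.norm (by fun_prop) ?_
  refine Eventually.of_forall fun l => ?_
  rw [norm_mul]
  exact mul_le_of_le_one_right (norm_nonneg _) (Real.abs_cos_le_one _)

lemma int_sin {j : ℕ} (hj : Integrable (fun θ : ℝ => θ ^ j) ν) (s : ℝ) :
    Integrable (fun l : ℝ => l ^ j * Real.sin (l * s)) ν := by
  refine Integrable.mono' hj.norm (by fun_prop) ?_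
  refine Eventually.of_forall fun l => ?_
  rw [norm_mul]
  exact mul_le_of_le_one_right (norm_nonneg _) (Real.abs_sin_le_one _)

lemma der_cos {j : ℕ} (hj : Integrable (fun θ : ℝ => θ ^ j) ν)
    (hj1 : Integrable (fun θ : ℝ => θ ^ (j + 1)) ν) (s : ℝ) :
    HasDerivAt (fun s => ∫ l, l ^ j * Real.cos (l * s) ∂ν)
      (∫ l, -(l ^ (j + 1) * Real.sin (l * s)) ∂ν) s := by
  refine (hasDerivAt_integral_of_dominated_loc_of_deriv_le (μ := ν)
    (F := fun (s : ℝ) (l : ℝ) => l ^ j * Real.cos (l * s))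
    (F' := fun (s : ℝ) (l : ℝ) => -(l ^ (j + 1) * Real.sin (l * s)))
    (bound := fun l => ‖l ^ (j + 1)‖) (Metric.ball_mem_nhds s one_pos)
    (Eventually.of_forall fun y => by fun_prop) (int_cos hj s) (by fun_prop) ?_ hj1.norm ?_).2
  · refine Eventually.of_forall fun l y _ => ?_
    rw [norm_neg, norm_mul]
    exact mul_le_of_le_one_right (norm_nonneg _) (Real.abs_sin_le_one _)
  · refine Eventually.of_forall fun l y _ => ?_
    have h1 : HasDerivAt (fun y : ℝ => l * y) l y := by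
      simpa using (hasDerivAt_id y).const_mul l
    have h2 := (h1.cos).const_mul (l ^ j)
    convert! h2 using 1
    ring

lemma der_sin {j : ℕ} (hj : Integrable (fun θ : ℝ => θ ^ j) ν)
    (hj1 : Integrable (fun θ : ℝ => θ ^ (j + 1)) ν) (s : ℝ) :
    HasDerivAt (fun s => ∫ l, l ^ j * Real.sin (l * s) ∂ν)
      (∫ l, l ^ (j + 1) * Real.cos (l * s) ∂ν) s := by
  refine (hasDerivAt_integral_of_dominated_loc_of_deriv_le (μ := ν)
    (F := fun (s : ℝ) (l : ℝ) => l ^ j * Real.sin (l * s))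
    (F' := fun (s : ℝ) (l : ℝ) => l ^ (j + 1) * Real.cos (l * s))
    (bound := fun l => ‖l ^ (j + 1)‖) (Metric.ball_mem_nhds s one_pos)
    (Eventually.of_forall fun y => by fun_prop) (int_sin hj s) (by fun_prop) ?_ hj1.norm ?_).2
  · refine Eventually.of_forall fun l y _ => ?_
    rw [norm_mul]
    exact mul_le_of_le_one_right (norm_nonneg _) (Real.abs_cos_le_one _)
  · refine Eventually.of_forall fun l y _ => ?_
    have h1 : HasDerivAt (fun y : ℝ => l * y) l y := by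
      simpa using (hasDerivAt_id y).const_mul l
    have h2 := (h1.sin).const_mul (l ^ j)
    convert! h2 using 1
    ring

lemma bd_cos {j : ℕ} (hj : Integrable (fun θ : ℝ => θ ^ j) ν) (s : ℝ) :
    |∫ l, l ^ j * Real.cos (l * s) ∂ν| ≤ ∫ l, ‖l ^ j‖ ∂ν := by
  rw [← Real.norm_eq_abs]
  refine norm_integral_le_of_norm_le hj.norm (Eventually.of_forall fun l => ?_)
  rw [norm_mul]
  exact mul_le_of_le_one_right (norm_nonneg _) (Real.abs_cos_le_one _)

lemma bd_sin {j : ℕ} (hj : Integrable (fun θ : ℝ => θ ^ j) ν) (s : ℝ) :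
    |∫ l, l ^ j * Real.sin (l * s) ∂ν| ≤ ∫ l, ‖l ^ j‖ ∂ν := by
  rw [← Real.norm_eq_abs]
  refine norm_integral_le_of_norm_le hj.norm (Eventually.of_forall fun l => ?_)
  rw [norm_mul]
  exact mul_le_of_le_one_right (norm_nonneg _) (Real.abs_sin_le_one _)

lemma cont_cos {j : ℕ} (hj : Integrable (fun θ : ℝ => θ ^ j) ν) :
    Continuous fun s => ∫ l, l ^ j * Real.cos (l * s) ∂ν := by
  refine continuous_of_dominated (bound := fun l => ‖l ^ j‖) (fun s => by fun_prop) ?_ hj.norm ?_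
  · intro s
    refine Eventually.of_forall fun l => ?_
    rw [norm_mul]
    exact mul_le_of_le_one_right (norm_nonneg _) (Real.abs_cos_le_one _)
  · exact Eventually.of_forall fun l => by fun_prop

lemma cont_sin {j : ℕ} (hj : Integrable (fun θ : ℝ => θ ^ j) ν) :
    Continuous fun s => ∫ l, l ^ j * Real.sin (l * s) ∂ν := by
  refine continuous_of_dominated (bound := fun l => ‖l ^ j‖) (fun s => by fun_prop) ?_ hj.norm ?_
  · intro s
    refine Eventually.of_forall fun l => ?_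
    rw [norm_mul]
    exact mul_le_of_le_one_right (norm_nonneg _) (Real.abs_sin_le_one _)
  · exact Eventually.of_forall fun l => by fun_prop

lemma CB2_sub {g g' g'' k k' k'' : ℝ → ℝ} (h : CB2 g g' g'') (l : CB2 k k' k'') :
    CB2 (fun x => g x - k x) (fun x => g' x - k' x) (fun x => g'' x - k'' x) := by
  obtain ⟨G0, g0⟩ := h.b0
  obtain ⟨G1, g1⟩ := h.b1
  obtain ⟨G2, g2⟩ := h.b2
  obtain ⟨K0, k0⟩ := l.b0
  obtain ⟨K1, k1⟩ := l.b1
  obtain ⟨K2, k2⟩ := l.b2
  exact ⟨fun x => (h.d1 x).sub (l.d1 x), fun x => (h.d2 x).sub (l.d2 x), h.c2.sub l.c2,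
    ⟨G0 + K0, fun x => (abs_sub _ _).trans (add_le_add (g0 x) (k0 x))⟩,
    ⟨G1 + K1, fun x => (abs_sub _ _).trans (add_le_add (g1 x) (k1 x))⟩,
    ⟨G2 + K2, fun x => (abs_sub _ _).trans (add_le_add (g2 x) (k2 x))⟩⟩

end ClsA

open ClsA in
/-- Smooth class A potentials. -/
theorem classA_pot {ν : Measure ℝ} [IsFiniteMeasure ν] {C₀ : ℝ} (hν : ν.real Set.univ < C₀)
    (h4 : Integrable (fun θ : ℝ => θ ^ 4) ν) {f : ℝ → ℝ}
    (hf : ∀ s : ℝ, Real.exp (f s) = C₀ - ∫ l, Real.cos (l * s) ∂ν) :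
    ∃ (C c₀ a : ℝ) (f1 f2 f3 : ℝ → ℝ) (ν' : Measure ℝ), Pot C c₀ a f f1 f2 f3 ∧
      IsFiniteMeasure ν' ∧ Integrable (fun θ : ℝ => θ ^ 2) ν' ∧
      (∀ x, Real.exp (f x) / c₀ = 1 - ∫ θ, Real.cos (θ * x) ∂ν') ∧
      (∀ x, f1 x * (Real.exp (f x) / c₀) = ∫ θ, θ * Real.sin (θ * x) ∂ν') ∧
      ν'.real Set.univ ≤ 1 - a := by
  set n := ν.real Set.univ with hn
  have hn0 : 0 ≤ n := measureReal_nonneg
  have i0 := int_pow h4 (j := 0) (by norm_num)
  have i1 := int_pow h4 (j := 1) (by norm_num)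
  have i2 := int_pow h4 (j := 2) (by norm_num)
  have i3 := int_pow h4 (j := 3) (by norm_num)
  -- the functions
  set E : ℝ → ℝ := fun s => C₀ - ∫ l, l ^ 0 * Real.cos (l * s) ∂ν with hE
  set E1 : ℝ → ℝ := fun s => ∫ l, l ^ 1 * Real.sin (l * s) ∂ν with hE1
  set E2 : ℝ → ℝ := fun s => ∫ l, l ^ 2 * Real.cos (l * s) ∂ν with hE2
  set E3 : ℝ → ℝ := fun s => ∫ l, -(l ^ 3 * Real.sin (l * s)) ∂ν with hE3
  set E4 : ℝ → ℝ := fun s => -∫ l, l ^ 4 * Real.cos (l * s) ∂ν with hE4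
  have dE : ∀ s, HasDerivAt E (E1 s) s := by
    intro s
    have := (der_cos i0 i1 s).const_sub C₀
    convert! this using 1
    simp only [hE1]
    rw [integral_neg, neg_neg]
  have dE1 : ∀ s, HasDerivAt E1 (E2 s) s := fun s => der_sin i1 i2 s
  have dE2 : ∀ s, HasDerivAt E2 (E3 s) s := fun s => der_cos i2 i3 s
  have dE3 : ∀ s, HasDerivAt E3 (E4 s) s := by
    intro s
    have h1 := (der_sin i3 h4 s).neg
    have h2 : E3 = fun s => -∫ l, l ^ 3 * Real.sin (l * s) ∂ν := by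
      funext s
      simp only [hE3]
      rw [integral_neg]
    rw [h2]
    exact h1
  have hEf : ∀ s, Real.exp (f s) = E s := by
    intro s
    rw [hf s]
    simp only [hE, pow_zero, one_mul]
  have hcosb : ∀ s, |∫ l, l ^ 0 * Real.cos (l * s) ∂ν| ≤ n := by
    intro s
    refine (bd_cos i0 s).trans (le_of_eq ?_)
    simp [hn]
  have hElo : ∀ s, C₀ - n ≤ E s := by
    intro s
    have := (abs_le.mp (hcosb s)).2
    simp only [hE]
    linarith
  have hEhi : ∀ s, E s ≤ C₀ + n := by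
    intro s
    have := (abs_le.mp (hcosb s)).1
    simp only [hE]
    linarith
  have hlo0 : 0 < C₀ - n := by linarith
  have hhi0 : 0 < C₀ + n := by linarith
  have hEpos : ∀ s, 0 < E s := fun s => hlo0.trans_le (hElo s)
  have bE1 : ∀ s, |E1 s| ≤ ∫ l, ‖l ^ 1‖ ∂ν := fun s => bd_sin i1 s
  have bE2 : ∀ s, |E2 s| ≤ ∫ l, ‖l ^ 2‖ ∂ν := fun s => bd_cos i2 s
  have bE3 : ∀ s, |E3 s| ≤ ∫ l, ‖l ^ 3‖ ∂ν := by
    intro s
    simp only [hE3]
    rw [integral_neg, abs_neg]
    exact bd_sin i3 s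
  have bE4 : ∀ s, |E4 s| ≤ ∫ l, ‖l ^ 4‖ ∂ν := by
    intro s
    simp only [hE4]
    rw [abs_neg]
    exact bd_cos h4 s
  have bE : ∀ s, |E s| ≤ C₀ + n := fun s => by
    rw [abs_of_pos (hEpos s)]; exact hEhi s
  have cE : CB2 E E1 E2 := ⟨dE, dE1, cont_cos i2, ⟨_, bE⟩, ⟨_, bE1⟩, ⟨_, bE2⟩⟩
  have cE1 : CB2 E1 E2 E3 := ⟨dE1, dE2, continuous_iff_continuousAt.mpr fun x => (dE3 x).continuousAt,
    ⟨_, bE1⟩, ⟨_, bE2⟩, ⟨_, bE3⟩⟩
  have cE2 : CB2 E2 E3 E4 := ⟨dE2, dE3, (cont_cos h4).neg, ⟨_, bE2⟩, ⟨_, bE3⟩, ⟨_, bE4⟩⟩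
  have cI := cE.outer (fun x => ⟨hElo x, hEhi x⟩) (outer_inv hlo0)
  have cf1 := cE1.mul cI
  -- the second derivative
  have cf2 := CB2_sub (cE2.mul cI) (cf1.mul cf1)
  set f1 : ℝ → ℝ := fun x => E1 x * (E x)⁻¹ with hf1
  set f2 : ℝ → ℝ := fun x => E2 x * (E x)⁻¹ - E1 x * (E x)⁻¹ * (E1 x * (E x)⁻¹) with hf2
  have hdf : ∀ x, HasDerivAt f (f1 x) x := by
    intro x
    have h1 : f = fun x => Real.log (E x) := by
      funext s
      rw [← hEf s, Real.log_exp]
    rw [h1]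
    have h2 := (dE x).log (hEpos x).ne'
    convert! h2 using 1
  have hdf1 : ∀ x, HasDerivAt f1 (f2 x) x := by
    intro x
    have h1 := cf1.d1 x
    convert! h1 using 1
    simp only [hf2]
    ring_nf
  obtain ⟨K1, hK1⟩ := cf1.b0
  obtain ⟨K2, hK2⟩ := cf2.b0
  obtain ⟨K3, hK3⟩ := cf2.b1
  set K0 : ℝ := |Real.log (C₀ - n)| + |Real.log (C₀ + n)| with hK0
  have hfb : ∀ x, |f x| ≤ K0 := by
    intro x
    have e1 : f x = Real.log (E x) := by rw [← hEf x, Real.log_exp]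
    have h1 := Real.log_le_log hlo0 (hElo x)
    have h2 := Real.log_le_log (hEpos x) (hEhi x)
    rw [e1, abs_le]
    have a1 := neg_abs_le (Real.log (C₀ - n))
    have a2 := le_abs_self (Real.log (C₀ + n))
    have a3 := abs_nonneg (Real.log (C₀ - n))
    have a4 := abs_nonneg (Real.log (C₀ + n))
    constructor <;> linarith
  have hK10 : 0 ≤ K1 := (abs_nonneg _).trans (hK1 0)
  have hK20 : 0 ≤ K2 := (abs_nonneg _).trans (hK2 0)
  have hK30 : 0 ≤ K3 := (abs_nonneg _).trans (hK3 0)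
  have hK00 : 0 ≤ K0 := by (clear * -; positivity)
  have hcf1 : CB2 f1 f2 (fun x => E3 x * (E x)⁻¹ + E2 x * (-(E x ^ 2)⁻¹ * E1 x) -
      ((E2 x * (E x)⁻¹ + E1 x * (-(E x ^ 2)⁻¹ * E1 x)) * (E1 x * (E x)⁻¹) +
        E1 x * (E x)⁻¹ * (E2 x * (E x)⁻¹ + E1 x * (-(E x ^ 2)⁻¹ * E1 x)))) :=
    ⟨hdf1, cf2.d1, cf2.cont1, ⟨_, hK1⟩, ⟨_, hK2⟩, ⟨_, hK3⟩⟩
  refine ⟨K0 + K1 + K2 + K3, C₀ + n, (C₀ - n) / (C₀ + n), f1, f2, _,
    ENNReal.ofReal (C₀ + n)⁻¹ • (ENNReal.ofReal n • Measure.dirac 0 + ν),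
    ⟨⟨hdf, hdf1, cf2.d1, fun x => (hfb x).trans (by linarith), fun x => (hK1 x).trans (by linarith),
      fun x => (hK2 x).trans (by linarith), fun x => (hK3 x).trans (by linarith)⟩,
      ⟨_, _, hcf1⟩, ⟨_, _, cf2⟩, hhi0, div_pos hlo0 hhi0, ?_, ?_⟩, ?_, ?_, ?_, ?_, ?_⟩
  · intro x
    rw [hEf x]
    exact div_le_div_of_nonneg_right (hElo x) hhi0.le
  · intro x
    rw [hEf x, div_le_one hhi0]
    exact hEhi x
  · have : IsFiniteMeasure (ENNReal.ofReal n • Measure.dirac (0 : ℝ) + ν) := by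
      have : IsFiniteMeasure (ENNReal.ofReal n • Measure.dirac (0 : ℝ)) :=
        Measure.smul_finite _ ENNReal.ofReal_ne_top
      infer_instance
    exact Measure.smul_finite _ ENNReal.ofReal_ne_top
  · apply Integrable.smul_measure _ ENNReal.ofReal_ne_top
    apply Integrable.add_measure _ i2
    apply Integrable.smul_measure _ ENNReal.ofReal_ne_top
    exact integrable_dirac (by simp)
  · intro x
    have ic : Integrable (fun θ : ℝ => Real.cos (θ * x)) ν := by
      have := int_cos i0 x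
      simpa using this
    have id' : Integrable (fun θ : ℝ => Real.cos (θ * x)) (ENNReal.ofReal n • Measure.dirac 0) := by
      apply Integrable.smul_measure _ ENNReal.ofReal_ne_top
      exact integrable_dirac (by simp)
    rw [integral_smul_measure, integral_add_measure id' ic, integral_smul_measure, integral_dirac,
      ENNReal.toReal_ofReal (by (clear * - hhi0; positivity)), ENNReal.toReal_ofReal hn0, hEf x]
    simp only [hE, pow_zero, one_mul, smul_eq_mul, zero_mul, Real.cos_zero, mul_one]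
    generalize ∫ l, Real.cos (l * x) ∂ν = I
    field_simp
    ring
  · intro x
    have ic : Integrable (fun θ : ℝ => θ * Real.sin (θ * x)) ν := by
      have := int_sin i1 x
      simpa using this
    have id' : Integrable (fun θ : ℝ => θ * Real.sin (θ * x))
        (ENNReal.ofReal n • Measure.dirac 0) := by
      apply Integrable.smul_measure _ ENNReal.ofReal_ne_top
      exact integrable_dirac (by simp)
    rw [integral_smul_measure, integral_add_measure id' ic, integral_smul_measure, integral_dirac,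
      ENNReal.toReal_ofReal (by (clear * - hhi0; positivity)), ENNReal.toReal_ofReal hn0, hEf x]
    simp only [hf1, hE1, pow_one, smul_eq_mul, zero_mul, mul_zero, zero_add]
    have := (hEpos x).ne'
    generalize ∫ l, l * Real.sin (l * x) ∂ν = I
    field_simp
  · rw [measureReal_def, Measure.smul_apply, Measure.add_apply, Measure.smul_apply,
      Measure.dirac_apply_of_mem (Set.mem_univ _), smul_eq_mul, smul_eq_mul, mul_one,
      ENNReal.toReal_mul, ENNReal.toReal_add ENNReal.ofReal_ne_top (measure_ne_top ν _),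
      ENNReal.toReal_ofReal (by positivity), ENNReal.toReal_ofReal hn0, ← measureReal_def, ← hn]
    apply le_of_eq
    field_simp
    ring

end Vale.Agent.P157.Par
end

section

/-!
# P146, lower bound for the SK model: the pattern part for the weak potential `log (1 - ε cos (λ s))`
-/

open MeasureTheory ProbabilityTheory
open Vale.Agent.P157.Par (gstep cascade Exponents Path patternPart)

namespace Vale.Agent.P146.Sk.Low

/-! ### Elementary inequalities -/

lemma lo_exp_lower {B t : ℝ} (hB : B ≤ 1 / 2) (ht : |t| ≤ 2 * B) :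
    1 + t + (1 - B) * (t ^ 2 / 2) ≤ Real.exp t := by
  have h1 : |t| ≤ 1 := by linarith
  have h := Real.exp_bound h1 (n := 3) (by norm_num)
  simp only [Finset.sum_range_succ, Finset.sum_range_zero, Nat.factorial, pow_zero, pow_one,
    zero_add, Nat.cast_one, div_one, Nat.succ_eq_add_one] at h
  norm_num at h
  have h2 := (abs_le.1 h).1
  have h3 : |t| ^ 3 = t ^ 2 * |t| := by rw [pow_succ, sq_abs]
  have h4 : t ^ 2 * |t| ≤ t ^ 2 * (2 * B) := mul_le_mul_of_nonneg_left ht (sq_nonneg t)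
  rw [h3] at h2
  have h5 : 0 ≤ t ^ 2 * B := mul_nonneg (sq_nonneg t) (by have := abs_nonneg t; linarith only [this, ht])
  linarith only [h5, h4, h2]

section step

variable {Ω : Type*} [MeasurableSpace Ω] (γ : Measure Ω) [IsProbabilityMeasure γ]

lemma lo_var {H : Ω → ℝ} (iH : Integrable H γ) (iH2 : Integrable (fun z => H z ^ 2) γ) {c : ℝ}
    (hc : c = ∫ z, H z ∂γ) : ∫ z, (H z - c) ^ 2 ∂γ = ∫ z, H z ^ 2 ∂γ - c ^ 2 := by
  have e : ∀ z, (H z - c) ^ 2 = (H z ^ 2 - (2 * c) * H z) + c ^ 2 := fun z => by ring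
  have i1 : Integrable (fun z => (2 * c) * H z) γ := iH.const_mul _
  have i2 : Integrable (fun z => H z ^ 2 - (2 * c) * H z) γ := iH2.sub i1
  simp only [e]
  rw [integral_add i2 (integrable_const _), integral_sub iH2 i1, integral_const_mul, ← hc]
  simp
  ring

lemma lo_bint {H : Ω → ℝ} {C : ℝ} (hH : Measurable H) (hC : ∀ z, |H z| ≤ C) : Integrable H γ :=
  (integrable_const C).mono' hH.aestronglyMeasurable
    (Filter.Eventually.of_forall fun x => by rw [Real.norm_eq_abs]; exact hC x)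

lemma lo_sqb {a C : ℝ} (h : |a| ≤ C) : |a ^ 2| ≤ C ^ 2 := by
  rw [abs_of_nonneg (sq_nonneg a), ← sq_abs]
  exact pow_le_pow_left₀ (abs_nonneg a) h 2

lemma lo_mean {H : Ω → ℝ} {B : ℝ} (hHB : ∀ z, |H z| ≤ B) : |∫ z, H z ∂γ| ≤ B := by
  have := norm_integral_le_of_norm_le_const (μ := γ) (f := H) (C := B)
    (Filter.Eventually.of_forall fun t => by rw [Real.norm_eq_abs]; exact hHB t)
  simpa using this

/-- Second order lower bound for one step. -/
theorem lo_jensen {F : Ω → ℝ} (hF : Measurable F) {B m : ℝ} (hB0 : 0 ≤ B) (hB : B ≤ 1 / 2)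
    (hFB : ∀ z, |F z| ≤ B) (hm : 0 < m) (hm1 : m ≤ 1) :
    ∫ z, F z ∂γ + m / 2 * (1 - 2 * B) * ∫ z, (F z - ∫ z, F z ∂γ) ^ 2 ∂γ ≤
      1 / m * Real.log (∫ z, Real.exp (m * F z) ∂γ) := by
  have iF : Integrable F γ := lo_bint γ hF hFB
  have iF2 : Integrable (fun z => F z ^ 2) γ := lo_bint γ (hF.pow_const 2) fun z => lo_sqb (hFB z)
  set EF := ∫ z, F z ∂γ with hEF
  have hEFB : |EF| ≤ B := lo_mean γ hFB
  set VF := ∫ z, (F z - EF) ^ 2 ∂γ with hVF
  have hdev : ∀ z, |F z - EF| ≤ 2 * B := fun z => (abs_sub _ _).trans (by linarith only [hFB z, hEFB])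
  have iD2 : Integrable (fun z => (F z - EF) ^ 2) γ :=
    lo_bint γ ((hF.sub measurable_const).pow_const 2) fun z => lo_sqb (hdev z)
  have hVF0 : 0 ≤ VF := integral_nonneg fun z => sq_nonneg _
  have hVF1 : VF = ∫ z, F z ^ 2 ∂γ - EF ^ 2 := lo_var γ iF iF2 hEF
  have hVFB : VF ≤ B ^ 2 := by
    rw [hVF1]
    have h1 : ∫ z, F z ^ 2 ∂γ ≤ ∫ _z, B ^ 2 ∂γ := integral_mono iF2 (integrable_const _) fun z => by
      have := lo_sqb (hFB z)
      rwa [abs_of_nonneg (sq_nonneg _)] at this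
    simp at h1
    linarith only [sq_nonneg EF, h1]
  have hmd : ∀ z, |m * (F z - EF)| ≤ 2 * B := by
    intro z
    rw [abs_mul, abs_of_pos hm]
    calc m * |F z - EF| ≤ 1 * (2 * B) := mul_le_mul hm1 (hdev z) (abs_nonneg _) zero_le_one
      _ = 2 * B := one_mul _
  have iexp : Integrable (fun z => Real.exp (m * (F z - EF))) γ := by
    refine lo_bint γ (C := Real.exp (2 * B)) (Real.measurable_exp.comp
      ((hF.sub measurable_const).const_mul m)) fun z => ?_
    rw [abs_of_pos (Real.exp_pos _)]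
    exact Real.exp_le_exp.2 ((le_abs_self _).trans (hmd z))
  have h1 : ∀ z, (1 + m * (F z - EF)) + (1 - B) * (m ^ 2 / 2) * (F z - EF) ^ 2 ≤
      Real.exp (m * (F z - EF)) := by
    intro z
    have h3 := lo_exp_lower hB (hmd z)
    have e : (1 - B) * ((m * (F z - EF)) ^ 2 / 2) = (1 - B) * (m ^ 2 / 2) * (F z - EF) ^ 2 := by ring
    rwa [e] at h3
  have iD : Integrable (fun z => m * (F z - EF)) γ := (iF.sub (integrable_const _)).const_mul m
  have iQ : Integrable (fun z => (1 - B) * (m ^ 2 / 2) * (F z - EF) ^ 2) γ := iD2.const_mul _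
  have i1 : Integrable (fun z => 1 + m * (F z - EF)) γ := (integrable_const (1 : ℝ)).add iD
  have i2 : Integrable (fun z => (1 + m * (F z - EF)) + (1 - B) * (m ^ 2 / 2) * (F z - EF) ^ 2) γ :=
    i1.add iQ
  have h2 := integral_mono i2 iexp h1
  set a := (1 - B) * (m ^ 2 / 2) * VF with ha
  have h3 : ∫ z, ((1 + m * (F z - EF)) + (1 - B) * (m ^ 2 / 2) * (F z - EF) ^ 2) ∂γ = 1 + a := by
    rw [integral_add i1 iQ, integral_add (integrable_const _) iD,
      integral_const_mul, integral_const_mul, integral_sub iF (integrable_const _), ← hEF, ← hVF]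
    simp
    exact ha.symm
  have ha0 : 0 ≤ a := mul_nonneg (mul_nonneg (by linarith only [hB]) (by positivity)) hVF0
  have h4 : 1 + a ≤ ∫ z, Real.exp (m * (F z - EF)) ∂γ := by
    rw [← h3]
    exact h2
  have h5 : ∫ z, Real.exp (m * F z) ∂γ = Real.exp (m * EF) * ∫ z, Real.exp (m * (F z - EF)) ∂γ := by
    rw [← integral_const_mul]
    refine integral_congr_ae (Filter.Eventually.of_forall fun z => ?_)
    simp only
    rw [← Real.exp_add]
    congr 1
    ring
  have hpos : 0 < ∫ z, Real.exp (m * (F z - EF)) ∂γ := by linarith only [h4, ha0]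
  have h6 : Real.log (∫ z, Real.exp (m * F z) ∂γ) = m * EF +
      Real.log (∫ z, Real.exp (m * (F z - EF)) ∂γ) := by
    rw [h5, Real.log_mul (Real.exp_pos _).ne' hpos.ne', Real.log_exp]
  have h7 : a * (1 - a) ≤ Real.log (∫ z, Real.exp (m * (F z - EF)) ∂γ) := by
    have h8 := Real.one_sub_inv_le_log_of_pos (show 0 < 1 + a by linarith only [ha0])
    have h9 : a * (1 - a) ≤ 1 - (1 + a)⁻¹ := by
      have : (1 : ℝ) - (1 + a)⁻¹ = a / (1 + a) := by field_simp; ring
      rw [this, le_div_iff₀ (by linarith only [ha0])]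
      linarith only [mul_nonneg ha0 (sq_nonneg a)]
    exact h9.trans (h8.trans (Real.log_le_log (by linarith only [ha0]) h4))
  have hm2 : m ^ 2 / 2 ≤ 1 / 2 := by (by_contra nlg; linarith only [nlg, mul_nonneg (sub_nonneg.2 hm1) (sub_nonneg.2 hm1), mul_nonneg (le_of_lt (sub_pos.2 hm)) (sub_nonneg.2 hm1), mul_nonneg (le_of_lt (sub_pos.2 (not_le.1 nlg))) (sub_nonneg.2 hm1), mul_pos (sub_pos.2 (not_le.1 nlg)) (sub_pos.2 hm)])
  have h8 : a ≤ B := by
    have h10 : (1 - B) * (m ^ 2 / 2) ≤ 1 := by (by_contra nlg; linarith only [nlg, mul_nonneg (sub_nonneg.2 hm2) (sq_nonneg m), mul_nonneg (sub_nonneg.2 hm2) (sub_nonneg.2 hm2), mul_nonneg (sub_nonneg.2 hB0) (sq_nonneg m), mul_nonneg (le_of_lt (sub_pos.2 (not_le.1 nlg))) (sq_nonneg m), mul_nonneg (le_of_lt (sub_pos.2 (not_le.1 nlg))) (sub_nonneg.2 hm2)])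
    have h11 : a ≤ 1 * B ^ 2 := mul_le_mul h10 hVFB hVF0 zero_le_one
    (by_contra nlg; linarith only [nlg, mul_nonneg (sub_nonneg.2 hm1) (sub_nonneg.2 h11), mul_nonneg (sub_nonneg.2 hm1) (sub_nonneg.2 ha0), mul_nonneg (le_of_lt (sub_pos.2 hm)) (sub_nonneg.2 h11), mul_nonneg (le_of_lt (sub_pos.2 hm)) (sub_nonneg.2 ha0), mul_nonneg (sub_nonneg.2 hB0) (sub_nonneg.2 hB), mul_nonneg (le_of_lt (sub_pos.2 (not_le.1 nlg))) (sub_nonneg.2 hm1), mul_pos (sub_pos.2 (not_le.1 nlg)) (sub_pos.2 hm)])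
  have h9 : (m ^ 2 / 2) * VF * (1 - 2 * B) ≤ a * (1 - a) := by
    have h10 : a * (1 - B) ≤ a * (1 - a) := mul_le_mul_of_nonneg_left (by linarith only [h8]) ha0
    have h12 : 0 ≤ (m ^ 2 / 2) * VF := by (clear * - hm; positivity)
    have h11 : (m ^ 2 / 2) * VF * (1 - 2 * B) ≤ a * (1 - B) := by
      rw [ha]
      linarith only [mul_nonneg h12 (sq_nonneg B)]
    linarith only [h11, h10]
  rw [h6]
  have h12 : 1 / m * (m * EF + Real.log (∫ z, Real.exp (m * (F z - EF)) ∂γ)) =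
      EF + 1 / m * Real.log (∫ z, Real.exp (m * (F z - EF)) ∂γ) := by
    field_simp
  rw [h12]
  have h13 : m / 2 * (1 - 2 * B) * VF = 1 / m * ((m ^ 2 / 2) * VF * (1 - 2 * B)) := by
    field_simp
  rw [h13]
  have h14 : 1 / m * ((m ^ 2 / 2) * VF * (1 - 2 * B)) ≤
      1 / m * Real.log (∫ z, Real.exp (m * (F z - EF)) ∂γ) :=
    mul_le_mul_of_nonneg_left (h9.trans h7) (by positivity)
  linarith only [h14]

/-- The splitting of the variance. -/
theorem lo_split {F X : Ω → ℝ} (hF : Measurable F) (hX : Measurable X) {B ε : ℝ}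
    (hFB : ∀ z, |F z| ≤ B) (hXB : ∀ z, |X z| ≤ B) (hε : 0 < ε) :
    (1 - ε) * (∫ z, X z ^ 2 ∂γ - (∫ z, X z ∂γ) ^ 2) -
      1 / ε * (∫ z, (F z - X z) ^ 2 ∂γ - (∫ z, F z ∂γ - ∫ z, X z ∂γ) ^ 2) ≤
      ∫ z, (F z - ∫ z, F z ∂γ) ^ 2 ∂γ ∧
    0 ≤ ∫ z, (F z - X z) ^ 2 ∂γ - (∫ z, F z ∂γ - ∫ z, X z ∂γ) ^ 2 := by
  have iF : Integrable F γ := lo_bint γ hF hFB
  have iX : Integrable X γ := lo_bint γ hX hXB
  have iX2 : Integrable (fun z => X z ^ 2) γ := lo_bint γ (hX.pow_const 2) fun z => lo_sqb (hXB z)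
  set EF := ∫ z, F z ∂γ with hEF
  set EX := ∫ z, X z ∂γ with hEX
  have hEFB : |EF| ≤ B := lo_mean γ hFB
  have hEXB : |EX| ≤ B := lo_mean γ hXB
  have iD2 : Integrable (fun z => (F z - EF) ^ 2) γ :=
    lo_bint γ (C := (2 * B) ^ 2) ((hF.sub measurable_const).pow_const 2) fun z =>
      lo_sqb ((abs_sub _ _).trans (by linarith [hFB z]))
  have iR2 : Integrable (fun z => (F z - X z) ^ 2) γ :=
    lo_bint γ (C := (2 * B) ^ 2) ((hF.sub hX).pow_const 2) fun z =>
      lo_sqb ((abs_sub _ _).trans (by linarith [hFB z, hXB z]))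
  have iXd : Integrable (fun z => (X z - EX) ^ 2) γ :=
    lo_bint γ (C := (2 * B) ^ 2) ((hX.sub measurable_const).pow_const 2) fun z =>
      lo_sqb ((abs_sub _ _).trans (by linarith [hXB z]))
  have hVX1 : ∫ z, (X z - EX) ^ 2 ∂γ = ∫ z, X z ^ 2 ∂γ - EX ^ 2 := lo_var γ iX iX2 hEX
  have hrd : ∀ z, |(F z - X z) - (EF - EX)| ≤ 4 * B := by
    intro z
    have h1 : |F z - X z| ≤ 2 * B := (abs_sub _ _).trans (by linarith [hFB z, hXB z])
    have h2 : |EF - EX| ≤ 2 * B := (abs_sub _ _).trans (by linarith)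
    exact (abs_sub _ _).trans (by linarith)
  have iRd : Integrable (fun z => ((F z - X z) - (EF - EX)) ^ 2) γ :=
    lo_bint γ (((hF.sub hX).sub measurable_const).pow_const 2) fun z => lo_sqb (hrd z)
  have hVR1 : ∫ z, ((F z - X z) - (EF - EX)) ^ 2 ∂γ =
      ∫ z, (F z - X z) ^ 2 ∂γ - (EF - EX) ^ 2 :=
    lo_var γ (H := fun z => F z - X z) (iF.sub iX) iR2 (by rw [integral_sub iF iX])
  rw [← hVX1, ← hVR1]
  refine ⟨?_, integral_nonneg fun z => sq_nonneg _⟩
  have h1 : ∀ z, (1 - ε) * (X z - EX) ^ 2 - 1 / ε * ((F z - X z) - (EF - EX)) ^ 2 ≤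
      (F z - EF) ^ 2 := by
    intro z
    generalize hb : (F z - X z) - (EF - EX) = b
    generalize ha : X z - EX = a
    have e : F z - EF = a + b := by rw [← ha, ← hb]; ring
    rw [e]
    have h2 : 0 ≤ (ε * a + b) ^ 2 / ε := by (clear * - hε; positivity)
    have h3 : (ε * a + b) ^ 2 / ε = ε * a ^ 2 + 2 * a * b + 1 / ε * b ^ 2 := by
      field_simp; ring
    rw [h3] at h2
    linarith only [sq_nonneg b, h2]
  have i3 : Integrable (fun z => (1 - ε) * (X z - EX) ^ 2) γ := iXd.const_mul _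
  have i4 : Integrable (fun z => 1 / ε * ((F z - X z) - (EF - EX)) ^ 2) γ := iRd.const_mul _
  have h2 := integral_mono (i3.sub i4) iD2 h1
  have h5 : ∫ z, ((1 - ε) * (X z - EX) ^ 2 - 1 / ε * ((F z - X z) - (EF - EX)) ^ 2) ∂γ =
      (1 - ε) * ∫ z, (X z - EX) ^ 2 ∂γ - 1 / ε * ∫ z, ((F z - X z) - (EF - EX)) ^ 2 ∂γ := by
    rw [integral_sub i3 i4, integral_const_mul, integral_const_mul]
  rw [← h5]
  exact h2

/-- The one-step inequality. -/
theorem lo_one_step {F X : Ω → ℝ} (hF : Measurable F) (hX : Measurable X) {B m ε : ℝ}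
    (hB0 : 0 ≤ B) (hB : B ≤ 1 / 2)
    (hFB : ∀ z, |F z| ≤ B) (hXB : ∀ z, |X z| ≤ B) (hm : 0 < m) (hm1 : m ≤ 1) (hε : 0 < ε)
    (hr : 1 / m * Real.log (∫ z, Real.exp (m * F z) ∂γ) ≤ ∫ z, X z ∂γ) :
    ∫ z, F z ∂γ ≤ 1 / m * Real.log (∫ z, Real.exp (m * F z) ∂γ) ∧
    ∫ z, (F z - (F z - X z) ^ 2 / (2 * ε)) ∂γ +
      1 / 2 * ((1 - 2 * B) * (1 - ε)) * (m * (∫ z, X z ^ 2 ∂γ - (∫ z, X z ∂γ) ^ 2)) ≤
    1 / m * Real.log (∫ z, Real.exp (m * F z) ∂γ) -
      (1 / m * Real.log (∫ z, Real.exp (m * F z) ∂γ) - ∫ z, X z ∂γ) ^ 2 / (2 * ε) := by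
  have key1 := lo_jensen γ hF hB0 hB hFB hm hm1
  obtain ⟨key2, key3⟩ := lo_split γ hF hX hFB hXB hε
  have iF : Integrable F γ := lo_bint γ hF hFB
  have iR2 : Integrable (fun z => (F z - X z) ^ 2) γ :=
    lo_bint γ (C := (2 * B) ^ 2) ((hF.sub hX).pow_const 2) fun z =>
      lo_sqb ((abs_sub _ _).trans (by linarith only [hXB z, hFB z]))
  have h1 : ∫ z, (F z - (F z - X z) ^ 2 / (2 * ε)) ∂γ =
      ∫ z, F z ∂γ - (∫ z, (F z - X z) ^ 2 ∂γ) / (2 * ε) := by
    rw [integral_sub iF (iR2.div_const _), integral_div]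
  rw [h1]
  have hVF0 : 0 ≤ ∫ z, (F z - ∫ z, F z ∂γ) ^ 2 ∂γ := integral_nonneg fun z => sq_nonneg _
  generalize 1 / m * Real.log (∫ z, Real.exp (m * F z) ∂γ) = F' at *
  generalize ∫ z, (F z - ∫ z, F z ∂γ) ^ 2 ∂γ = VF at *
  generalize ∫ z, (F z - X z) ^ 2 ∂γ = R2 at *
  generalize ∫ z, X z ^ 2 ∂γ - (∫ z, X z ∂γ) ^ 2 = VX at *
  generalize ∫ z, X z ∂γ = EX at *
  generalize ∫ z, F z ∂γ = EF at *
  have hθ : 0 ≤ 1 - 2 * B := by linarith only [hB]
  have hEFF : EF ≤ F' := by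
    have : 0 ≤ m / 2 * (1 - 2 * B) * VF := by (clear * - hm hθ hVF0; positivity)
    linarith only [this, key1]
  refine ⟨hEFF, ?_⟩
  have hsq : (F' - EX) ^ 2 ≤ (EF - EX) ^ 2 := by (by_contra nlg; linarith only [nlg, mul_nonneg (sub_nonneg.2 hEFF) (sub_nonneg.2 hEFF), mul_nonneg (sub_nonneg.2 hr) (sub_nonneg.2 hEFF), mul_nonneg (le_of_lt (sub_pos.2 (not_le.1 nlg))) (sub_nonneg.2 hm1), mul_pos (sub_pos.2 (not_le.1 nlg)) (sub_pos.2 hm)])
  generalize hVR : R2 - (EF - EX) ^ 2 = VR at *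
  have hVR2 : VR ≤ R2 - (F' - EX) ^ 2 := by rw [← hVR]; linarith
  have hmθ : m * (1 - 2 * B) ≤ 1 := by (by_contra nlg; linarith only [nlg, mul_nonneg (sub_nonneg.2 hm1) (sub_nonneg.2 hm1), mul_nonneg (le_of_lt (sub_pos.2 hm)) (sub_nonneg.2 hm1), mul_nonneg (sub_nonneg.2 hB0) (le_of_lt (sub_pos.2 hm)), mul_nonneg (le_of_lt (sub_pos.2 (not_le.1 nlg))) (sub_nonneg.2 hm1), mul_pos (sub_pos.2 (not_le.1 nlg)) (sub_pos.2 hm)])
  have h3 : m / 2 * (1 - 2 * B) * ((1 - ε) * VX - 1 / ε * VR) ≤ m / 2 * (1 - 2 * B) * VF :=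
    mul_le_mul_of_nonneg_left key2 (by (clear * - hm hθ; positivity))
  have h4 : m / 2 * (1 - 2 * B) * (1 / ε * VR) ≤ 1 / (2 * ε) * (R2 - (F' - EX) ^ 2) := by
    have h5 : m / 2 * (1 - 2 * B) * (1 / ε * VR) = 1 / (2 * ε) * (m * (1 - 2 * B) * VR) := by
      field_simp
    rw [h5]
    refine mul_le_mul_of_nonneg_left ?_ (by positivity)
    calc m * (1 - 2 * B) * VR ≤ 1 * VR := mul_le_mul_of_nonneg_right hmθ key3
      _ = VR := one_mul _
      _ ≤ _ := hVR2
  have h2 : 1 / (2 * ε) * (R2 - (F' - EX) ^ 2) = R2 / (2 * ε) - (F' - EX) ^ 2 / (2 * ε) := by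
    ring
  rw [h2] at h4
  have h6 : m / 2 * (1 - 2 * B) * ((1 - ε) * VX - 1 / ε * VR) =
      1 / 2 * ((1 - 2 * B) * (1 - ε)) * (m * VX) - m / 2 * (1 - 2 * B) * (1 / ε * VR) := by ring
  linarith only [h4, h3, key1]

end step

end Vale.Agent.P146.Sk.Low
end

section

/-!
# P146, lower bound for the SK model: the cascade of the weak potential
-/

open MeasureTheory ProbabilityTheory
open Vale.Agent.P157.Par (gstep cascade Exponents Path patternPart bp_int bp_conv gauss_cos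
  ClsB_gstep_meas cascade_succ_def)

namespace Vale.Agent.P146.Sk.Low

/-- The averaged cosine. -/
noncomputable def Xc (ε lam q : ℝ) (x : ℝ) : ℝ :=
  -(ε * Real.exp (-(lam ^ 2 * (1 - q)) / 2)) * Real.cos (lam * x)

/-- The covariance `e^{-λ²} cosh (λ² q)`. -/
noncomputable def kap (lam q : ℝ) : ℝ := Real.exp (-lam ^ 2) * Real.cosh (lam ^ 2 * q)

variable {ε lam q v : ℝ}

lemma Xc_meas : Measurable (Xc ε lam q) := by unfold Xc; fun_prop

lemma abs_Xc_le (hε : 0 ≤ ε) (hq : q ≤ 1) (x : ℝ) : |Xc ε lam q x| ≤ ε := by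
  unfold Xc
  rw [abs_mul, abs_neg, abs_mul, abs_of_nonneg hε, abs_of_pos (Real.exp_pos _)]
  have h1 : Real.exp (-(lam ^ 2 * (1 - q)) / 2) ≤ 1 := by
    rw [Real.exp_le_one_iff]
    have : 0 ≤ lam ^ 2 * (1 - q) := mul_nonneg (sq_nonneg _) (by linarith)
    linarith
  calc ε * Real.exp (-(lam ^ 2 * (1 - q)) / 2) * |Real.cos (lam * x)| ≤ ε * 1 * 1 := by
        gcongr
        exact Real.abs_cos_le_one _
    _ = ε := by ring

lemma Xc_step (hv : 0 ≤ v) (x : ℝ) :
    ∫ z, Xc ε lam (q + v) (x + √v * z) ∂(gaussianReal 0 1) = Xc ε lam q x := by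
  unfold Xc
  rw [integral_const_mul, gauss_cos hv]
  have : Real.exp (-(lam ^ 2 * (1 - q)) / 2) =
      Real.exp (-(lam ^ 2 * (1 - (q + v))) / 2) * Real.exp (-(lam ^ 2 * v) / 2) := by
    rw [← Real.exp_add]; congr 1; ring
  rw [this]
  ring

lemma Xc_mean (hq : 0 ≤ q) :
    ∫ z, Xc ε lam q (√q * z) ∂(gaussianReal 0 1) = -(ε * Real.exp (-lam ^ 2 / 2)) := by
  have h := Xc_step (ε := ε) (lam := lam) (q := 0) hq 0
  simp only [zero_add] at h
  rw [h]
  unfold Xc
  simp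

lemma Xc_sq (hq : 0 ≤ q) :
    ∫ z, Xc ε lam q (√q * z) ^ 2 ∂(gaussianReal 0 1) = ε ^ 2 * kap lam q := by
  have h2 := gauss_cos hq (2 * lam) 0
  simp only [zero_add, mul_zero, Real.cos_zero, one_mul] at h2
  have e : ∀ z, Xc ε lam q (√q * z) ^ 2 = (ε ^ 2 * Real.exp (-(lam ^ 2 * (1 - q))) / 2) *
      (1 + Real.cos (2 * lam * (√q * z))) := by
    intro z
    have h3 : Real.exp (-(lam ^ 2 * (1 - q))) = Real.exp (-(lam ^ 2 * (1 - q)) / 2) ^ 2 := by
      rw [← Real.exp_nat_mul]; congr 1; push_cast; ring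
    have h4 : Real.cos (2 * lam * (√q * z)) = 2 * Real.cos (lam * (√q * z)) ^ 2 - 1 := by
      rw [← Real.cos_two_mul]; congr 1; ring
    unfold Xc
    rw [h3, h4]
    ring
  simp only [e]
  rw [integral_const_mul, integral_add (integrable_const _)
    (bp_int (C := 1) (by fun_prop) fun z => Real.abs_cos_le_one _), h2]
  simp only [integral_const, probReal_univ, smul_eq_mul, mul_one]
  unfold kap
  rw [Real.cosh_eq]
  have e1 : Real.exp (-(lam ^ 2 * (1 - q))) = Real.exp (-lam ^ 2) * Real.exp (lam ^ 2 * q) := by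
    rw [← Real.exp_add]; congr 1; ring
  have e2 : Real.exp (-((2 * lam) ^ 2 * q) / 2) =
      Real.exp (-(lam ^ 2 * q)) * Real.exp (-(lam ^ 2 * q)) := by
    rw [← Real.exp_add]; congr 1; ring
  have e3 : Real.exp (lam ^ 2 * q) * Real.exp (-(lam ^ 2 * q)) = 1 := by
    rw [← Real.exp_add]; simp
  rw [e1, e2]
  linear_combination (ε ^ 2 * Real.exp (-lam ^ 2) / 2 * Real.exp (-(lam ^ 2 * q))) * e3

/-- The invariant of the cascade. -/
structure Inv (ε lam q : ℝ) (F : ℝ → ℝ) : Prop where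
  meas : Measurable F
  lo : ∀ x, Xc ε lam q x - ε ^ 2 ≤ F x
  hi : ∀ x, F x ≤ Real.log (1 + Xc ε lam q x)

lemma one_add_Xc_pos (hε : 0 ≤ ε) (hε1 : ε < 1) (hq : q ≤ 1) (x : ℝ) : 0 < 1 + Xc ε lam q x := by
  have := (abs_le.1 (abs_Xc_le (lam := lam) hε hq x)).1
  linarith

lemma Inv.le {F : ℝ → ℝ} (h : Inv ε lam q F) (hε : 0 ≤ ε) (hε1 : ε < 1) (hq : q ≤ 1) (x : ℝ) :
    F x ≤ Xc ε lam q x := by
  have h1 := h.hi x
  have h2 := Real.log_le_sub_one_of_pos (one_add_Xc_pos (lam := lam) hε hε1 hq x)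
  linarith

lemma Inv.bdd {F : ℝ → ℝ} (h : Inv ε lam q F) (hε : 0 ≤ ε) (hε1 : ε < 1) (hq : q ≤ 1) (x : ℝ) :
    |F x| ≤ 2 * ε := by
  have h1 := h.lo x
  have h2 := h.le hε hε1 hq x
  have h3 := abs_le.1 (abs_Xc_le (lam := lam) hε hq x)
  rw [abs_le]
  constructor <;> nlinarith

/-- The invariant is preserved by one step, and the one-step inequality. -/
lemma Inv.step {F : ℝ → ℝ} {m : ℝ} (h : Inv ε lam (q + v) F) (hε : 0 < ε) (hε1 : ε ≤ 1 / 4)
    (hv : 0 ≤ v) (hq : q + v ≤ 1) (hm : 0 < m) (hm1 : m ≤ 1) :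
    Inv ε lam q (gstep m v F) ∧ ∀ x,
      ∫ z, (F (x + √v * z) - (F (x + √v * z) - Xc ε lam (q + v) (x + √v * z)) ^ 2 / (2 * ε))
        ∂(gaussianReal 0 1) + 1 / 2 * ((1 - 4 * ε) * (1 - ε)) *
        (m * (∫ z, Xc ε lam (q + v) (x + √v * z) ^ 2 ∂(gaussianReal 0 1) - Xc ε lam q x ^ 2)) ≤
      gstep m v F x - (gstep m v F x - Xc ε lam q x) ^ 2 / (2 * ε) := by
  have hq1 : q ≤ 1 := by linarith
  have hFm : ∀ x, Measurable fun z : ℝ => F (x + √v * z) := fun x => h.meas.comp (by fun_prop)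
  have hXm : ∀ x, Measurable fun z : ℝ => Xc ε lam (q + v) (x + √v * z) := fun x =>
    Xc_meas.comp (by fun_prop)
  have hhi : ∀ x, gstep m v F x ≤ Real.log (1 + Xc ε lam q x) := by
    intro x
    have hp := one_add_Xc_pos (lam := lam) (q := q) hε.le (by linarith only [hε1, hε]) hq1 x
    have h1 : ∀ z : ℝ, Real.exp (m * (F (x + √v * z) - Real.log (1 + Xc ε lam q x))) ≤
        (1 - m) + m * ((1 + Xc ε lam (q + v) (x + √v * z)) / (1 + Xc ε lam q x)) := by
      intro z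
      have h2 := convexOn_exp.2 (Set.mem_univ (0 : ℝ))
        (Set.mem_univ (F (x + √v * z) - Real.log (1 + Xc ε lam q x))) (sub_nonneg.2 hm1) hm.le
        (by ring)
      simp only [smul_eq_mul, mul_zero, zero_add, Real.exp_zero, mul_one] at h2
      refine h2.trans ?_
      gcongr
      rw [Real.exp_sub, Real.exp_log hp]
      gcongr
      have h3 := Real.exp_le_exp.2 (h.hi (x + √v * z))
      rwa [Real.exp_log (one_add_Xc_pos hε.le (by linarith only [hε1, hε]) hq _)] at h3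
    have i1 : Integrable (fun z : ℝ => Xc ε lam (q + v) (x + √v * z)) (gaussianReal 0 1) :=
      bp_int (hXm x) fun z => abs_Xc_le hε.le hq _
    have i0 : Integrable (fun z : ℝ => 1 + Xc ε lam (q + v) (x + √v * z)) (gaussianReal 0 1) :=
      (integrable_const _).add i1
    have i0' : Integrable (fun z : ℝ => m * ((1 + Xc ε lam (q + v) (x + √v * z)) /
        (1 + Xc ε lam q x))) (gaussianReal 0 1) := (i0.div_const _).const_mul _
    have i2 : Integrable (fun z : ℝ => (1 - m) + m * ((1 + Xc ε lam (q + v) (x + √v * z)) /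
        (1 + Xc ε lam q x))) (gaussianReal 0 1) :=
      (integrable_const _).add i0'
    have i3 : Integrable (fun z : ℝ => Real.exp (m * (F (x + √v * z) -
        Real.log (1 + Xc ε lam q x)))) (gaussianReal 0 1) :=
      i2.mono' (Real.measurable_exp.comp (((hFm x).sub measurable_const).const_mul m)).aestronglyMeasurable
        (Filter.Eventually.of_forall fun z => by
          rw [Real.norm_eq_abs, abs_of_pos (Real.exp_pos _)]; exact h1 z)
    have h4 := integral_mono i3 i2 h1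
    have h5 : ∫ z, ((1 - m) + m * ((1 + Xc ε lam (q + v) (x + √v * z)) / (1 + Xc ε lam q x)))
        ∂(gaussianReal 0 1) = 1 := by
      rw [integral_add (integrable_const _) i0', integral_const_mul,
        integral_div, integral_add (integrable_const _) i1, Xc_step hv]
      simp only [integral_const, probReal_univ, smul_eq_mul, mul_one, one_mul]
      rw [div_self hp.ne']
      ring
    rw [h5] at h4
    have h6 : ∫ z, Real.exp (m * (F (x + √v * z) - Real.log (1 + Xc ε lam q x)))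
        ∂(gaussianReal 0 1) = Real.exp (-(m * Real.log (1 + Xc ε lam q x))) *
        ∫ z, Real.exp (m * F (x + √v * z)) ∂(gaussianReal 0 1) := by
      rw [← integral_const_mul]
      refine integral_congr_ae (Filter.Eventually.of_forall fun z => ?_)
      simp only
      rw [← Real.exp_add]
      congr 1
      ring
    have hpos := (Vale.Agent.P157.Par.bp_exp_gstep (v := v) hm h.meas
      (fun x => h.bdd hε.le (by linarith only [hε1, hε]) hq x) x).1
    have h7 : Real.log (∫ z, Real.exp (m * F (x + √v * z)) ∂(gaussianReal 0 1)) ≤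
        m * Real.log (1 + Xc ε lam q x) := by
      rw [h6] at h4
      have h8 := Real.log_le_log (by positivity) h4
      rw [Real.log_mul (Real.exp_pos _).ne' hpos.ne', Real.log_exp, Real.log_one] at h8
      linarith only [h8]
    unfold gstep
    calc 1 / m * Real.log (∫ z, Real.exp (m * F (x + √v * z)) ∂(gaussianReal 0 1)) ≤
        1 / m * (m * Real.log (1 + Xc ε lam q x)) := mul_le_mul_of_nonneg_left h7 (by positivity)
      _ = _ := by field_simp
  have key := fun x => lo_one_step (gaussianReal 0 1) (hFm x) (hXm x) (B := 2 * ε) (m := m)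
    (ε := ε) (by positivity) (by linarith only [hε1]) (fun z => h.bdd hε.le (by linarith) hq _)
    (fun z => (abs_Xc_le hε.le hq _).trans (by linarith)) hm hm1 hε (by
      rw [Xc_step hv]
      have h1 := hhi x
      have h2 := Real.log_le_sub_one_of_pos
        (one_add_Xc_pos (lam := lam) (q := q) hε.le (by linarith) hq1 x)
      unfold gstep at h1
      linarith only [h2, h1])
  refine ⟨⟨ClsB_gstep_meas h.meas, fun x => ?_, hhi⟩, fun x => ?_⟩
  · have h1 := (key x).1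
    have h2 : Xc ε lam q x - ε ^ 2 ≤ ∫ z, F (x + √v * z) ∂(gaussianReal 0 1) := by
      have i1 : Integrable (fun z : ℝ => Xc ε lam (q + v) (x + √v * z)) (gaussianReal 0 1) :=
        bp_int (hXm x) fun z => abs_Xc_le hε.le hq _
      have i2 : Integrable (fun z : ℝ => F (x + √v * z)) (gaussianReal 0 1) :=
        bp_int (hFm x) fun z => h.bdd hε.le (by linarith) hq _
      have h3 := integral_mono (i1.sub (integrable_const (ε ^ 2))) i2 fun z => h.lo _
      have h4 : ∫ z, (Xc ε lam (q + v) (x + √v * z) - ε ^ 2) ∂(gaussianReal 0 1) =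
          Xc ε lam q x - ε ^ 2 := by
        rw [integral_sub i1 (integrable_const _), Xc_step hv]
        simp
      rw [← h4]
      exact h3
    exact h2.trans h1
  · have h1 := (key x).2
    rw [Xc_step hv] at h1
    have e : 1 - 2 * (2 * ε) = 1 - 4 * ε := by ring
    rw [e] at h1
    exact h1

end Vale.Agent.P146.Sk.Low
end

section

/-!
# P146, lower bound for the SK model: lower bound of the pattern part of the weak potential
-/

open MeasureTheory ProbabilityTheory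
open Vale.Agent.P157.Par (gstep cascade Exponents Path patternPart bp_int bp_conv gauss_cos
  ClsB_gstep_meas cascade_succ_def)

namespace Vale.Agent.P146.Sk.Low

variable {ε lam : ℝ}

/-- Lower bound of a cascade. -/
theorem cas_lower {m q : ℕ → ℝ} (hε : 0 < ε) (hε1 : ε ≤ 1 / 4) (hq0 : 0 ≤ q 0) : ∀ (n : ℕ),
    (∀ l < n, 0 < m (l + 1) ∧ m (l + 1) ≤ 1) → (∀ l < n, q l ≤ q (l + 1)) → q n ≤ 1 →
    ∀ {F : ℝ → ℝ}, Inv ε lam (q n) F →
    ∫ z, (F (√(q n) * z) - (F (√(q n) * z) - Xc ε lam (q n) (√(q n) * z)) ^ 2 / (2 * ε))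
      ∂(gaussianReal 0 1) + 1 / 2 * ((1 - 4 * ε) * (1 - ε)) *
      ∑ j ∈ Finset.range n, m (j + 1) * (ε ^ 2 * kap lam (q (j + 1)) - ε ^ 2 * kap lam (q j)) ≤
    ∫ z, cascade m q n F (√(q 0) * z) ∂(gaussianReal 0 1) := by
  intro n
  induction n with
  | zero =>
    intro _ _ hq1 F h
    have iF : Integrable (fun z : ℝ => F (√(q 0) * z)) (gaussianReal 0 1) :=
      bp_int (h.meas.comp (by fun_prop)) fun z => h.bdd hε.le (by linarith) hq1 _
    simp only [Finset.range_zero, Finset.sum_empty, mul_zero, add_zero]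
    refine integral_mono (iF.sub ?_) iF fun z => ?_
    · have hb : ∀ z : ℝ, |F (√(q 0) * z) - Xc ε lam (q 0) (√(q 0) * z)| ≤ 3 * ε := fun z =>
        (abs_sub _ _).trans (by
          have h1 := h.bdd hε.le (by linarith) hq1 (√(q 0) * z)
          have h2 := abs_Xc_le (lam := lam) hε.le hq1 (√(q 0) * z)
          linarith)
      have hm : Measurable fun z : ℝ => F (√(q 0) * z) - Xc ε lam (q 0) (√(q 0) * z) :=
        (h.meas.comp (by fun_prop)).sub (Xc_meas.comp (by fun_prop))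
      exact (bp_int (hm.pow_const 2) fun z => lo_sqb (hb z)).div_const _
    · have : 0 ≤ (F (√(q 0) * z) - Xc ε lam (q 0) (√(q 0) * z)) ^ 2 / (2 * ε) := by positivity
      have e : cascade m q 0 F (√(q 0) * z) = F (√(q 0) * z) := rfl
      rw [e]
      simp only
      linarith
  | succ n ih =>
    intro hm hq hq1 F h
    have hqn : q n ≤ q (n + 1) := hq n (Nat.lt_succ_self n)
    have hv : 0 ≤ q (n + 1) - q n := by linarith
    have hqn0 : 0 ≤ q n := by
      clear ih h hqn hv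
      have : ∀ l ≤ n, 0 ≤ q l := by
        intro l
        induction l with
        | zero => intro _; exact hq0
        | succ l ihl => intro hl; exact (ihl (by omega)).trans (hq l (by omega))
      exact this n le_rfl
    have hadd : q n + (q (n + 1) - q n) = q (n + 1) := by ring
    have h' : Inv ε lam (q n + (q (n + 1) - q n)) F := by rw [hadd]; exact h
    obtain ⟨hI, hS⟩ := h'.step hε hε1 hv (by rw [hadd]; exact hq1) (hm n (Nat.lt_succ_self n)).1
      (hm n (Nat.lt_succ_self n)).2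
    rw [hadd] at hS
    have key := ih (fun l hl => hm l (by omega)) (fun l hl => hq l (by omega)) (by linarith only [hv, hq1]) hI
    rw [cascade_succ_def, Finset.sum_range_succ]
    refine le_trans ?_ key
    rw [mul_add, ← add_assoc, add_right_comm]
    refine add_le_add ?_ le_rfl
    -- integrate the one-step inequality
    set v := q (n + 1) - q n with hvdef
    set M := m (n + 1) with hM
    set F' := gstep M v F with hF'
    have hFb : ∀ x, |F x| ≤ 2 * ε := fun x => h.bdd hε.le (by linarith only [hε1, hε]) hq1 x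
    have hFb' : ∀ x, |F' x| ≤ 2 * ε := fun x => hI.bdd hε.le (by linarith only [hε1, hε]) (by linarith only [hv, hq1]) x
    have hXb : ∀ x, |Xc ε lam (q (n + 1)) x| ≤ ε := abs_Xc_le hε.le hq1
    have hXb' : ∀ x, |Xc ε lam (q n) x| ≤ ε := abs_Xc_le hε.le (by linarith only [hv, hq1])
    have bG : ∀ {A X : ℝ → ℝ}, (∀ x, |A x| ≤ 2 * ε) → (∀ x, |X x| ≤ ε) → ∀ x,
        |A x - (A x - X x) ^ 2 / (2 * ε)| ≤ 2 * ε + (3 * ε) ^ 2 / (2 * ε) := by
      intro A X hA hX x
      have h1 : |A x - X x| ≤ 3 * ε := (abs_sub _ _).trans (by linarith only [hX x, hA x])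
      have h2 := lo_sqb h1
      refine (abs_sub _ _).trans (add_le_add (hA x) ?_)
      rw [abs_div, abs_of_pos (show (0 : ℝ) < 2 * ε by positivity)]
      exact div_le_div_of_nonneg_right h2 (by positivity)
    have mG : Measurable fun x => F x - (F x - Xc ε lam (q (n + 1)) x) ^ 2 / (2 * ε) :=
      h.meas.sub (((h.meas.sub Xc_meas).pow_const 2).div_const _)
    have mG' : Measurable fun x => F' x - (F' x - Xc ε lam (q n) x) ^ 2 / (2 * ε) :=
      hI.meas.sub (((hI.meas.sub Xc_meas).pow_const 2).div_const _)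
    have c1 := bp_conv (h := fun x => F x - (F x - Xc ε lam (q (n + 1)) x) ^ 2 / (2 * ε)) mG
      (bG hFb hXb) hqn0 hv
    have c2 := bp_conv (h := fun x => Xc ε lam (q (n + 1)) x ^ 2) (Xc_meas.pow_const 2)
      (C := ε ^ 2) (fun x => lo_sqb (hXb x)) hqn0 hv
    rw [hadd] at c1 c2
    rw [← c1, ← Xc_sq (ε := ε) (lam := lam) (q := q (n + 1)) (by linarith only [hv, hqn0]), ← c2,
      ← Xc_sq (ε := ε) (lam := lam) (q := q n) hqn0]
    have mI : ∀ {H : ℝ → ℝ} {C : ℝ}, Measurable H → (∀ x, |H x| ≤ C) →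
        Integrable (fun z : ℝ => ∫ w, H (√(q n) * z + √v * w) ∂(gaussianReal 0 1))
          (gaussianReal 0 1) := by
      intro H C hH hC
      have hm1 : StronglyMeasurable fun z : ℝ => ∫ w, H (√(q n) * z + √v * w)
          ∂(gaussianReal 0 1) := by
        apply StronglyMeasurable.integral_prod_right (f := fun z w => H (√(q n) * z + √v * w))
        apply Measurable.stronglyMeasurable
        exact hH.comp (by fun_prop)
      refine bp_int hm1.measurable (C := C) fun z => ?_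
      exact lo_mean _ fun w => hC _
    have i1 := mI mG (bG hFb hXb)
    have i2 := mI (Xc_meas.pow_const 2) (fun x => lo_sqb (hXb x))
    have i3 : Integrable (fun z : ℝ => Xc ε lam (q n) (√(q n) * z) ^ 2) (gaussianReal 0 1) :=
      bp_int ((Xc_meas.comp (by fun_prop : Measurable fun z : ℝ => √(q n) * z)).pow_const 2)
        fun z => lo_sqb (hXb' _)
    have i4 : Integrable (fun z : ℝ => F' (√(q n) * z) -
        (F' (√(q n) * z) - Xc ε lam (q n) (√(q n) * z)) ^ 2 / (2 * ε)) (gaussianReal 0 1) :=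
      bp_int (mG'.comp (by fun_prop : Measurable fun z : ℝ => √(q n) * z))
        fun z => bG hFb' hXb' _
    have i5 : Integrable (fun z : ℝ => 1 / 2 * ((1 - 4 * ε) * (1 - ε)) *
        (M * (∫ w, Xc ε lam (q (n + 1)) (√(q n) * z + √v * w) ^ 2 ∂(gaussianReal 0 1) -
          Xc ε lam (q n) (√(q n) * z) ^ 2))) (gaussianReal 0 1) :=
      ((i2.sub i3).const_mul _).const_mul _
    have h6 := integral_mono (i1.add i5) i4 fun z => hS (√(q n) * z)
    refine le_trans (le_of_eq ?_) h6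
    rw [← integral_sub i2 i3, ← integral_const_mul, ← integral_const_mul, ← integral_add i1 i5]
    rfl

lemma kap_le_one {q : ℝ} (hq0 : 0 ≤ q) (hq1 : q ≤ 1) : kap lam q ≤ 1 := by
  unfold kap
  rw [Real.cosh_eq]
  have h1 : Real.exp (lam ^ 2 * q) ≤ Real.exp (lam ^ 2) := by
    apply Real.exp_le_exp.2
    linarith only [mul_nonneg (sub_nonneg.2 hq1) (sq_nonneg lam)]
  have h2 : Real.exp (-(lam ^ 2 * q)) ≤ Real.exp (lam ^ 2) := by
    apply Real.exp_le_exp.2
    linarith only [mul_nonneg (sq_nonneg lam) hq0, sq_nonneg lam]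
  calc Real.exp (-lam ^ 2) * ((Real.exp (lam ^ 2 * q) + Real.exp (-(lam ^ 2 * q))) / 2) ≤
      Real.exp (-lam ^ 2) * ((Real.exp (lam ^ 2) + Real.exp (lam ^ 2)) / 2) := by gcongr
    _ = 1 := by
      rw [add_self_div_two, ← Real.exp_add]
      simp

lemma kap_mono {q q' : ℝ} (hq0 : 0 ≤ q) (hq : q ≤ q') : kap lam q ≤ kap lam q' := by
  unfold kap
  refine mul_le_mul_of_nonneg_left ?_ (Real.exp_pos _).le
  rw [Real.cosh_le_cosh]
  rw [abs_of_nonneg (mul_nonneg (sq_nonneg _) hq0),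
    abs_of_nonneg (mul_nonneg (sq_nonneg _) (hq0.trans hq))]
  exact mul_le_mul_of_nonneg_left hq (sq_nonneg _)

lemma kap_le {q : ℝ} (hl : |lam| ≤ 1) (hq0 : 0 ≤ q) (hq1 : q ≤ 1) :
    kap lam q ≤ Real.exp (-lam ^ 2) * (1 + lam ^ 4 / 2 * q ^ 2) + lam ^ 8 := by
  have hl2 : lam ^ 2 ≤ 1 := by
    rw [← sq_abs]
    exact pow_le_one₀ (abs_nonneg _) hl
  have h1 := Real.cosh_le_exp_half_sq (lam ^ 2 * q)
  set s := (lam ^ 2 * q) ^ 2 / 2 with hs
  have hq2 : q ^ 2 ≤ 1 := pow_le_one₀ hq0 hq1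
  have hl4 : lam ^ 4 ≤ 1 := by
    have : lam ^ 4 = lam ^ 2 * lam ^ 2 := by ring
    rw [this]
    linarith only [mul_nonneg (sub_nonneg.2 hl2) (sq_nonneg lam), mul_nonneg (sub_nonneg.2 hl2) (sub_nonneg.2 hl2)]
  have hs0 : 0 ≤ s := by (clear * -; positivity)
  have hs2 : s ≤ lam ^ 4 / 2 := by
    rw [hs, mul_pow]
    have : (lam ^ 2) ^ 2 = lam ^ 4 := by ring
    rw [this]
    have h4 : 0 ≤ lam ^ 4 := by positivity
    linarith only [mul_nonneg (sub_nonneg.2 hq2) (sub_nonneg.2 h4)]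
  have h2 : Real.exp s ≤ 1 + s + s ^ 2 := by
    have h3 := Real.abs_exp_sub_one_sub_id_le (x := s) (by rw [abs_of_nonneg hs0]; linarith only [hs2, hl4])
    have := (abs_le.1 h3).2
    linarith only [this]
  have h5 : s ^ 2 ≤ lam ^ 8 := by
    have : s ^ 2 ≤ (lam ^ 4 / 2) ^ 2 := pow_le_pow_left₀ hs0 hs2 2
    have h8 : 0 ≤ lam ^ 8 := by positivity
    have e : (lam ^ 4 / 2) ^ 2 = lam ^ 8 / 4 := by ring
    rw [e] at this
    linarith only [h8, this]
  have h6 : Real.exp (-lam ^ 2) ≤ 1 := by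
    rw [Real.exp_le_one_iff]; linarith only [sq_nonneg lam]
  unfold kap
  have h7 : Real.cosh (lam ^ 2 * q) ≤ (1 + lam ^ 4 / 2 * q ^ 2) + lam ^ 8 := by
    have : s = lam ^ 4 / 2 * q ^ 2 := by rw [hs]; ring
    rw [← this]
    linarith only [h5, h2, h1]
  calc Real.exp (-lam ^ 2) * Real.cosh (lam ^ 2 * q) ≤
      Real.exp (-lam ^ 2) * ((1 + lam ^ 4 / 2 * q ^ 2) + lam ^ 8) := by gcongr
    _ = Real.exp (-lam ^ 2) * (1 + lam ^ 4 / 2 * q ^ 2) + Real.exp (-lam ^ 2) * lam ^ 8 := by ring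
    _ ≤ _ := by
      have : 0 ≤ lam ^ 8 := by positivity
      linarith only [mul_nonneg (sub_nonneg.2 h6) (sub_nonneg.2 this)]

/-- Summation by parts. -/
lemma lo_abel {k : ℕ} {m : ℕ → ℝ} (hm : Exponents k m) (a : ℕ → ℝ) :
    a k - ∑ j ∈ Finset.range k, m (j + 1) * (a (j + 1) - a j) =
      ∑ l ∈ Finset.range (k + 1), (m (l + 1) - m l) * a l := by
  have h : ∀ n : ℕ, m (n + 1) * a n - ∑ j ∈ Finset.range n, m (j + 1) * (a (j + 1) - a j) =
      ∑ l ∈ Finset.range (n + 1), (m (l + 1) - m l) * a l := by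
    intro n
    induction n with
    | zero => simp [hm.1]
    | succ n ih =>
      rw [Finset.sum_range_succ _ (n + 1), ← ih, Finset.sum_range_succ]
      ring
  rw [← h k, hm.2.1, one_mul]

/-- **Lower bound of the pattern part** for the potential `log (1 - ε cos (λ s))`. -/
theorem pattern_lower (hε : 0 < ε) (hε1 : ε ≤ 1 / 4) (hl : |lam| ≤ 1) {k : ℕ} {m q : ℕ → ℝ}
    (hm : Exponents k m) (hq : Path k q) (hq1 : q k ≤ 1) {f : ℝ → ℝ}
    (hf : ∀ s, Real.exp (f s) = 1 - ε * Real.cos (lam * s)) :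
    -(ε * Real.exp (-lam ^ 2 / 2)) - ε ^ 2 / 2 * Real.exp (-lam ^ 2) *
      (1 + lam ^ 4 / 2 * ∑ l ∈ Finset.range (k + 1), (m (l + 1) - m l) * q l ^ 2) -
      (5 * ε ^ 3 + ε ^ 2 * lam ^ 8) ≤ patternPart f k m q := by
  have hmono : ∀ l ≤ k, m l ≤ 1 ∧ 0 ≤ m l := by
    have h1 : ∀ i ≤ k + 1, m 0 ≤ m i := by
      intro i
      induction i with
      | zero => intro _; exact le_rfl
      | succ i ih => intro hi; exact (ih (by omega)).trans (hm.2.2 i (by omega)).le
    have h2 : ∀ j, ∀ i ≤ j, j ≤ k + 1 → m i ≤ m j := by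
      intro j
      induction j with
      | zero => intro i hi _; rw [Nat.le_zero.1 hi]
      | succ j ih =>
        intro i hi hj
        rcases Nat.lt_or_ge i (j + 1) with h | h
        · exact (ih i (by omega) (by omega)).trans (hm.2.2 j (by omega)).le
        · have : i = j + 1 := by omega
          rw [this]
    intro l hl
    refine ⟨?_, ?_⟩
    · rw [← hm.2.1]; exact h2 (k + 1) l (by omega) le_rfl
    · rw [← hm.1]; exact h1 l (by omega)
  have hmp : ∀ l < k, 0 < m (l + 1) ∧ m (l + 1) ≤ 1 := by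
    intro l hl
    refine ⟨?_, (hmono (l + 1) (by omega)).1⟩
    exact (hmono l (by omega)).2.trans_lt (hm.2.2 l (by omega))
  have hq0' : ∀ l ≤ k, 0 ≤ q l := by
    intro l
    induction l with
    | zero => intro _; exact hq.1
    | succ l ih => intro hl; exact (ih (by omega)).trans (hq.2 l (by omega))
  have hq1' : ∀ l ≤ k, q l ≤ 1 := by
    intro l hl
    have : ∀ d, ∀ l, l + d = k → q l ≤ 1 := by
      intro d
      induction d with
      | zero => intro l hl; rw [← Nat.add_zero l, hl]; exact hq1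
      | succ d ih => intro l hl; exact (hq.2 l (by omega)).trans (ih (l + 1) (by omega))
    exact this (k - l) l (by omega)
  -- the top function
  set F : ℝ → ℝ := fun x => Real.log (1 + Xc ε lam (q k) x) with hF
  have hFm : Measurable F := Real.measurable_log.comp (measurable_const.add Xc_meas)
  have hXb : ∀ x, |Xc ε lam (q k) x| ≤ ε := abs_Xc_le hε.le hq1
  have hpos : ∀ x, 0 < 1 + Xc ε lam (q k) x := one_add_Xc_pos hε.le (by linarith) hq1
  have hlog : ∀ x, Xc ε lam (q k) x - Xc ε lam (q k) x ^ 2 / 2 - 2 * ε ^ 3 ≤ F x := by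
    intro x
    have h1 := hXb x
    have h2 : |-(Xc ε lam (q k) x)| < 1 := by rw [abs_neg]; linarith only [h1, hε1, hε]
    have h3 := Real.abs_log_sub_add_sum_range_le h2 2
    simp only [Finset.sum_range_succ, Finset.sum_range_zero, zero_add, pow_one, abs_neg] at h3
    norm_num at h3
    have h4 : |Xc ε lam (q k) x| ^ 3 / (1 - |Xc ε lam (q k) x|) ≤ 2 * ε ^ 3 := by
      rw [div_le_iff₀ (by linarith only [h1, hε1, hε])]
      have h5 : |Xc ε lam (q k) x| ^ 3 ≤ ε ^ 3 := pow_le_pow_left₀ (abs_nonneg _) h1 3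
      have h6 : 0 ≤ ε ^ 3 := by positivity
      nlinarith
    have h7 := (abs_le.1 h3).1
    rw [hF]
    simp only
    linarith only [h7, h4]
  have hhi : ∀ x, F x ≤ Xc ε lam (q k) x := fun x => by
    have := Real.log_le_sub_one_of_pos (hpos x)
    rw [hF]
    simp only
    linarith
  have hlo : ∀ x, Xc ε lam (q k) x - ε ^ 2 ≤ F x := fun x => by
    have h1 := hlog x
    have h2 := lo_sqb (hXb x)
    rw [abs_of_nonneg (sq_nonneg _)] at h2
    have h3 : 2 * ε ^ 3 ≤ ε ^ 2 / 2 := by nlinarith [sq_nonneg ε]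
    linarith only [h3, h2, h1]
  have hInv : Inv ε lam (q k) F := ⟨hFm, hlo, fun x => le_rfl⟩
  -- the top function of the pattern part
  have htop : (fun x => Real.log (∫ y, Real.exp (f (x + √(1 - q k) * y)) ∂(gaussianReal 0 1))) =
      F := by
    funext x
    have h1 : ∫ y, Real.exp (f (x + √(1 - q k) * y)) ∂(gaussianReal 0 1) =
        1 + Xc ε lam (q k) x := by
      simp only [hf]
      rw [integral_sub (integrable_const _)
        ((bp_int (C := 1) (by fun_prop) fun z => Real.abs_cos_le_one _).const_mul ε),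
        integral_const_mul, gauss_cos (by linarith)]
      simp only [integral_const, probReal_univ, smul_eq_mul, mul_one]
      unfold Xc
      ring
    rw [h1]
  have hpp : patternPart f k m q = ∫ z, cascade m q k F (√(q 0) * z) ∂(gaussianReal 0 1) := by
    unfold patternPart
    rw [htop]
  rw [hpp]
  have key := cas_lower (lam := lam) hε hε1 hq.1 k hmp hq.2 hq1 hInv
  refine le_trans ?_ key
  -- the first term
  have mXs : Measurable fun z : ℝ => Xc ε lam (q k) (√(q k) * z) := Xc_meas.comp (by fun_prop)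
  have mFs : Measurable fun z : ℝ => F (√(q k) * z) := hFm.comp (by fun_prop)
  have iX : Integrable (fun z : ℝ => Xc ε lam (q k) (√(q k) * z)) (gaussianReal 0 1) :=
    bp_int mXs fun z => hXb _
  have iX2 : Integrable (fun z : ℝ => Xc ε lam (q k) (√(q k) * z) ^ 2 / 2) (gaussianReal 0 1) :=
    (bp_int (mXs.pow_const 2) fun z => lo_sqb (hXb _)).div_const _
  have hd : ∀ x, (F x - Xc ε lam (q k) x) ^ 2 ≤ (ε ^ 2) ^ 2 := fun x => by
    have h1 : |F x - Xc ε lam (q k) x| ≤ ε ^ 2 := by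
      rw [abs_le]
      constructor
      · linarith only [hlo x]
      · linarith only [sq_nonneg ε, hhi x]
    have := lo_sqb h1
    rwa [abs_of_nonneg (sq_nonneg _)] at this
  have h1 : -(ε * Real.exp (-lam ^ 2 / 2)) - ε ^ 2 * kap lam (q k) / 2 - 5 / 2 * ε ^ 3 ≤
      ∫ z, (F (√(q k) * z) - (F (√(q k) * z) - Xc ε lam (q k) (√(q k) * z)) ^ 2 / (2 * ε))
      ∂(gaussianReal 0 1) := by
    have e1 : ∫ z, (Xc ε lam (q k) (√(q k) * z) - Xc ε lam (q k) (√(q k) * z) ^ 2 / 2 -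
        5 / 2 * ε ^ 3) ∂(gaussianReal 0 1) =
        -(ε * Real.exp (-lam ^ 2 / 2)) - ε ^ 2 * kap lam (q k) / 2 - 5 / 2 * ε ^ 3 := by
      have i3 : Integrable (fun z : ℝ => Xc ε lam (q k) (√(q k) * z) -
          Xc ε lam (q k) (√(q k) * z) ^ 2 / 2) (gaussianReal 0 1) := iX.sub iX2
      rw [integral_sub i3 (integrable_const _), integral_sub iX iX2, integral_div,
        Xc_mean (hq0' k le_rfl), Xc_sq (hq0' k le_rfl)]
      simp
    rw [← e1]
    refine integral_mono ((iX.sub iX2).sub (integrable_const _)) ?_ fun z => ?_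
    · refine bp_int (C := 2 * ε + (3 * ε) ^ 2 / (2 * ε))
        (mFs.sub (((mFs.sub mXs).pow_const 2).div_const _)) fun z => ?_
      have hb := hInv.bdd hε.le (by linarith only [hε1, hε]) hq1 (√(q k) * z)
      have h3 : |F (√(q k) * z) - Xc ε lam (q k) (√(q k) * z)| ≤ 3 * ε :=
        (abs_sub _ _).trans (by linarith only [hXb (√(q k) * z), hb])
      refine (abs_sub _ _).trans (add_le_add hb ?_)
      rw [abs_div, abs_of_pos (show (0 : ℝ) < 2 * ε by positivity)]
      exact div_le_div_of_nonneg_right (lo_sqb h3) (by positivity)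
    · have h4 := hlog (√(q k) * z)
      have h5 : (F (√(q k) * z) - Xc ε lam (q k) (√(q k) * z)) ^ 2 / (2 * ε) ≤ ε ^ 3 / 2 := by
        rw [div_le_iff₀ (by positivity)]
        refine (hd _).trans (le_of_eq ?_)
        ring
      simp only
      linarith only [h5, h4]
  -- the sum
  set S := ∑ j ∈ Finset.range k, m (j + 1) * (ε ^ 2 * kap lam (q (j + 1)) - ε ^ 2 * kap lam (q j))
    with hS
  have hab := lo_abel hm (fun l => ε ^ 2 * kap lam (q l))
  rw [← hS] at hab
  have hinc : ∀ j < k, 0 ≤ ε ^ 2 * kap lam (q (j + 1)) - ε ^ 2 * kap lam (q j) := by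
    intro j hj
    have := kap_mono (lam := lam) (hq0' j (by omega)) (hq.2 j hj)
    have h2 : 0 ≤ ε ^ 2 * (kap lam (q (j + 1)) - kap lam (q j)) :=
      mul_nonneg (sq_nonneg _) (by linarith only [this])
    linarith only [h2]
  have hS1 : S ≤ ε ^ 2 := by
    have h2 : S ≤ ∑ j ∈ Finset.range k, (ε ^ 2 * kap lam (q (j + 1)) - ε ^ 2 * kap lam (q j)) := by
      refine Finset.sum_le_sum fun j hj => ?_
      have hj' := Finset.mem_range.1 hj
      have := mul_le_mul_of_nonneg_right (hmp j hj').2 (hinc j hj')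
      linarith only [this]
    rw [Finset.sum_range_sub (fun l => ε ^ 2 * kap lam (q l))] at h2
    have h3 := kap_le_one (lam := lam) (hq0' k le_rfl) hq1
    have h4 : 0 ≤ kap lam (q 0) := by unfold kap; positivity
    (by_contra nlg; linarith only [nlg, mul_nonneg (sub_nonneg.2 h4) (sq_nonneg ε), mul_nonneg (sub_nonneg.2 h3) (sq_nonneg ε), mul_nonneg (sub_nonneg.2 hε1) (sub_nonneg.2 h2), mul_nonneg (le_of_lt (sub_pos.2 hε)) (sub_nonneg.2 h2), mul_nonneg (le_of_lt (sub_pos.2 (not_le.1 nlg))) (sub_nonneg.2 hε1), mul_pos (sub_pos.2 (not_le.1 nlg)) (sub_pos.2 hε)])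
  have hS0 : 0 ≤ S := Finset.sum_nonneg fun j hj =>
    mul_nonneg (hmp j (Finset.mem_range.1 hj)).1.le (hinc j (Finset.mem_range.1 hj))
  have h2 : 1 / 2 * S - 5 / 2 * ε ^ 3 ≤ 1 / 2 * ((1 - 4 * ε) * (1 - ε)) * S := by
    have h3 : 1 / 2 * ((1 - 4 * ε) * (1 - ε)) * S = 1 / 2 * S - 5 / 2 * (ε * S) + 2 * ε ^ 2 * S := by
      ring
    have h4 : ε * S ≤ ε * ε ^ 2 := mul_le_mul_of_nonneg_left hS1 hε.le
    have h5 : 0 ≤ ε ^ 2 * S := by (clear * - hε hS0; positivity)
    have h6 : ε * ε ^ 2 = ε ^ 3 := by ring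
    rw [h3]
    linarith only [h5, h4]
  have h3 : ∑ l ∈ Finset.range (k + 1), (m (l + 1) - m l) * (ε ^ 2 * kap lam (q l)) ≤
      ε ^ 2 * (Real.exp (-lam ^ 2) *
        (1 + lam ^ 4 / 2 * ∑ l ∈ Finset.range (k + 1), (m (l + 1) - m l) * q l ^ 2) + lam ^ 8) := by
    have h4 : ∑ l ∈ Finset.range (k + 1), (m (l + 1) - m l) = 1 := by
      rw [Finset.sum_range_sub m, hm.2.1, hm.1, sub_zero]
    have h5 : ε ^ 2 * (Real.exp (-lam ^ 2) *
        (1 + lam ^ 4 / 2 * ∑ l ∈ Finset.range (k + 1), (m (l + 1) - m l) * q l ^ 2) + lam ^ 8) =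
        ∑ l ∈ Finset.range (k + 1), (m (l + 1) - m l) * (ε ^ 2 *
          (Real.exp (-lam ^ 2) * (1 + lam ^ 4 / 2 * q l ^ 2) + lam ^ 8)) := by
      have e : ∀ l, (m (l + 1) - m l) * (ε ^ 2 *
          (Real.exp (-lam ^ 2) * (1 + lam ^ 4 / 2 * q l ^ 2) + lam ^ 8)) =
          (ε ^ 2 * (Real.exp (-lam ^ 2) + lam ^ 8)) * (m (l + 1) - m l) +
          (ε ^ 2 * (Real.exp (-lam ^ 2) * (lam ^ 4 / 2))) * ((m (l + 1) - m l) * q l ^ 2) :=
        fun l => by ring
      simp only [e]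
      rw [Finset.sum_add_distrib, ← Finset.mul_sum, ← Finset.mul_sum, h4]
      ring
    rw [h5]
    refine Finset.sum_le_sum fun l hll => ?_
    have hl' : l ≤ k := Nat.le_of_lt_succ (Finset.mem_range.1 hll)
    have h6 := kap_le (lam := lam) hl (hq0' l hl') (hq1' l hl')
    refine mul_le_mul_of_nonneg_left ?_ (by linarith only [hm.2.2 l hl'])
    exact mul_le_mul_of_nonneg_left h6 (sq_nonneg _)
  rw [← hab] at h3
  have h4 : 0 ≤ ε ^ 2 * lam ^ 8 := by positivity
  linarith only [h4, h3, h2, h1]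

end Vale.Agent.P146.Sk.Low
end
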