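import Vale.Agent.P146.Bdl.B26
import Vale.Agent.P146.Bdl.B20
import Vale.Agent.P146.Bdl.B19
import Vale.Agent.P146.Bdl.B27
import Vale.Agent.P146.Bdl.B28
import Vale.Agent.P146.Bdl.B29
import Vale.Agent.P146.Bdl.B11
import Vale.Agent.P146.Bdl.B6
import Vale.Agent.P146.Bdl.B2
import Vale.Agent.P146.Bdl.B5

set_option linter.all false

section

open MeasureTheory ProbabilityTheory Filter Topology Finset

namespace Vale.Agent.P157.Par

set_option linter.unusedSectionVars false

open Vale.Agent.P367.GT (gM)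

/-- The limiting array of a sequence of systems, with trivial test function. -/
theorem exists_arr_empty {U : Ultrafilter ℕ} {S : ℕ → Sys} {k : ℕ} {b : Fin k → ℝ}
    {w : Fin (k + 1) → ℝ} (hL : LimData U S b w) :
    ∃ 𝓐 : Arr k w Empty,
      (∀ (ι : Type) [Fintype ι] (A : LM k (Empty ⊕ ι) → ℝ), (∀ L, 0 ≤ A L) → 0 ≤ 𝓐.E ι A) ∧
      𝓐.E (Fin 1) (fun _ => 1) = 1 ∧
      ∀ l, 𝓐.E (Fin 2) (fun L => if L (Sum.inr 0) (Sum.inr 1) = l then 1 else 0) = w l := by
  obtain ⟨𝓐, -, h𝓐⟩ := exists_arr hL.gg hL.mono hL.b0 hL.b1 hL.na hL.lim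
    (δ := Empty) (fun _ _ _ => (1 : ℝ)) (fun _ _ => measurable_const) (fun _ _ _ => by simp)
  refine ⟨𝓐, fun ι _ A hA => ?_, ?_, fun l => ?_⟩
  · classical
    refine ge_of_tendsto' (h𝓐 ι A) fun j => ?_
    have h1 := (S j).avT_eq (Fintype.equivFin (Empty ⊕ ι))
      (fun _ (x : Empty ⊕ ι → (S j).X) => (1 : ℝ) * A ((S j).LMat b x))
    refine le_trans ?_ (le_of_eq h1.symm)
    exact Sys.tav_nonneg fun t x => by rw [one_mul]; exact hA _
  · have h2 := h𝓐 (Fin 1) (fun _ => 1)
    have h3 : (fun j => (S j).avT (fun _ (_ : Empty ⊕ Fin 1 → (S j).X) => (1 : ℝ) * 1)) =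
        fun _ => (1 : ℝ) := by
      funext j
      rw [(S j).avT_const, mul_one]
    have h4 : Tendsto (fun _ : ℕ => (1 : ℝ)) U (𝓝 (𝓐.E (Fin 1) (fun _ => 1))) := by
      rw [← h3]
      exact h2
    exact tendsto_nhds_unique h4 tendsto_const_nhds
  · have h2 := h𝓐 (Fin 2) (fun L => if L (Sum.inr 0) (Sum.inr 1) = l then 1 else 0)
    refine tendsto_nhds_unique h2 ?_
    refine (hL.lim l).congr fun j => ?_
    unfold Sys.pr
    have h3 := (S j).avT_comp (J := Fin 2) (J' := Empty ⊕ Fin 2) Sum.inr Sum.inr_injective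
      (fun _ (x : Fin 2 → (S j).X) => ind (lev b ((S j).R (x 0) (x 1)) = l))
    refine Eq.trans ((S j).avT_fin (fun _ (x : Fin 2 → (S j).X) =>
      ind (lev b ((S j).R (x 0) (x 1)) = l))).symm (Eq.trans h3.symm ?_)
    congr 1
    funext ω x
    rw [one_mul, ind_eq]
    have h4 : (S j).LMat b x (Sum.inr 0) (Sum.inr 1) =
        lev b ((S j).R (x (Sum.inr 0)) (x (Sum.inr 1))) := by
      unfold Sys.LMat
      rw [if_neg (by simp)]
    rw [h4]

lemma sum_fin_range {k : ℕ} (g : ℕ → ℝ) :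
    ∑ l : Fin (k + 1), g l = ∑ l ∈ Finset.range (k + 1), g l := by
  rw [Finset.sum_range]

lemma hyper_le : (hyperfilter ℕ : Filter ℕ) ≤ atTop := by
  rw [← Nat.cofinite_eq_atTop]
  exact hyperfilter_le_cofinite

/-- The ratio of the sizes. -/
lemma ratio_tendsto {N M : ℕ → ℕ} {α : ℝ} (hN : Tendsto N atTop atTop)
    (hMN : Tendsto (fun j => (M j : ℝ) / (N j : ℝ)) atTop (𝓝 α)) :
    Tendsto (fun j => ((M j : ℝ) + 1) / (N j + 2)) atTop (𝓝 α) := by
  have hNr : Tendsto (fun j => (N j : ℝ)) atTop atTop := tendsto_natCast_atTop_atTop.comp hN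
  have h0 : Tendsto (fun j => 1 / (N j : ℝ)) atTop (𝓝 0) := by
    simpa [Function.comp_def] using (tendsto_inv_atTop_zero.comp hNr)
  have h1 : Tendsto (fun j => ((M j : ℝ) / (N j : ℝ) + 1 / (N j : ℝ)) / (1 + 2 * (1 / (N j : ℝ))))
      atTop (𝓝 ((α + 0) / (1 + 2 * 0))) := by
    refine (hMN.add h0).div ((h0.const_mul 2).const_add 1) (by norm_num)
  simp only [add_zero, mul_zero, div_one] at h1
  refine h1.congr' ?_
  filter_upwards [hN.eventually (eventually_gt_atTop 0)] with j hj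
  have : (0 : ℝ) < N j := by exact_mod_cast hj
  field_simp

/-- Concavity in the path of the overlaps. -/
theorem parisi_tangent {C c₀ a : ℝ} {f f1 f2 f3 : ℝ → ℝ} (hf : Pot C c₀ a f f1 f2 f3)
    {ν : Measure ℝ} [IsFiniteMeasure ν] (h2 : Integrable (fun θ : ℝ => θ ^ 2) ν)
    (hW : ∀ x, Real.exp (f x) / c₀ = 1 - ∫ θ, Real.cos (θ * x) ∂ν)
    (hW' : ∀ x, f1 x * (Real.exp (f x) / c₀) = ∫ θ, θ * Real.sin (θ * x) ∂ν)
    (hνa : ν.real Set.univ ≤ 1 - a) {α : ℝ} (hα : 0 < α) {U : Ultrafilter ℕ} {S : ℕ → Sys}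
    {k : ℕ} {b : Fin k → ℝ} {w : Fin (k + 1) → ℝ} (hL : LimData U S b w) {q : ℕ → ℝ}
    (hq : Path k q) (hq1 : q k ≤ 1) {q' : ℕ → ℝ} (hq' : Path k q') (hq1' : q' k ≤ 1) :
    parisi α f k (mOf w) q' (rr α (fun x => Real.exp (f x) / c₀) f1 k w q) ≤
      parisi α f k (mOf w) q (rr α (fun x => Real.exp (f x) / c₀) f1 k w q) := by
  obtain ⟨𝓐, hpos, hone, hlim⟩ := exists_arr_empty hL
  have hval : ∀ q : ℕ → ℝ, q k ≤ 1 → patternPart f k (mOf w) q = Real.log c₀ +
      ∫ z, Real.log (lvW (mOf w) (incr (stop k q)) k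
        (flowW 1 (1 - q k) (fun x => Real.exp (f x) / c₀) 0) 0
        (√(incr (stop k q) 0) * z)) ∂(gaussianReal 0 1) := by
    intro q hq1
    rw [patternPart_congr f (mOf w) (q' := stop k q) (fun l hl => (stop_le hl).symm)]
    have h3 := patternPart_eq (m := mOf w) (q := stop k q) (k := k) (f := f)
      (fun l hl _ => mOf_pos hL.wpos hl) hf.c0 hf.a0 hf.cb2W hf.Wa hf.W1
      (by rw [stop_le le_rfl]; exact hq1)
    rw [h3, stop_le le_rfl]
  have hsum : ∀ (q : ℕ → ℝ) (l : Fin (k + 1)),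
      ∑ i ∈ Finset.range ((l : ℕ) + 1), incr (stop k q) i = q l := by
    intro q l
    rw [sum_incr, stop_le (by omega)]
  have hT := 𝓐.Lg_tangent hL.wsum hpos hone hlim (m := mOf w) (v := incr (stop k q))
    (v' := incr (stop k q')) (incr_stop_nonneg hq) (incr_stop_nonneg hq')
    (fun l hl _ => mOf_pos hL.wpos hl) (fun l => up_eq_mOf hL.wsum l) ν h2 hf.a0 hW hf.Wa hf.W1
    hf.cb2W hνa (sub_nonneg.2 hq1) (sub_nonneg.2 hq1')
    (by rw [sum_incr, sum_incr, stop_le le_rfl, stop_le le_rfl]; ring) hW' hf.cf1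
  simp only [hsum] at hT
  set r := rr α (fun x => Real.exp (f x) / c₀) f1 k w q with hr
  have hrl : ∀ l : Fin (k + 1), r l = α * Arr.pairVal (mOf w) (incr (stop k q)) k
      (flowW 1 (1 - q k) (fun x => Real.exp (f x) / c₀) 0)
      (flowh 1 (1 - q k) (fun x => Real.exp (f x) / c₀) f1 0) l := by
    intro l
    rw [hr]
    unfold rr pv
    rw [topW_eq, toph_eq]
  have hJ : ∀ q'' : ℕ → ℝ, ∑ l ∈ Finset.range (k + 1), (mOf w (l + 1) - mOf w l) * r l * q'' l =
      ∑ l : Fin (k + 1), w l * r l * q'' l := by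
    intro q''
    rw [← sum_fin_range (fun l => (mOf w (l + 1) - mOf w l) * r l * q'' l)]
    refine Finset.sum_congr rfl fun l _ => ?_
    rw [mOf_succ l.2]
  unfold parisi
  rw [hval q hq1, hval q' hq1', hJ, hJ]
  have h3 : α * (1 / 2 * ∑ l : Fin (k + 1), w l * (q' l - q l) *
      Arr.pairVal (mOf w) (incr (stop k q)) k
      (flowW 1 (1 - q k) (fun x => Real.exp (f x) / c₀) 0)
      (flowh 1 (1 - q k) (fun x => Real.exp (f x) / c₀) f1 0) l) =
      1 / 2 * ∑ l : Fin (k + 1), w l * r l * q' l - 1 / 2 * ∑ l : Fin (k + 1), w l * r l * q l := by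
    rw [← mul_sub, ← Finset.sum_sub_distrib, mul_left_comm, Finset.mul_sum]
    congr 1
    refine Finset.sum_congr rfl fun l _ => ?_
    rw [hrl l]
    ring
  have h4 := mul_le_mul_of_nonneg_left hT hα.le
  rw [mul_sub, h3] at h4
  linarith only [h4]

/-- The lower bound for smooth class A potentials. -/
theorem parisi_lower {ν : Measure ℝ} [IsFiniteMeasure ν] {C₀ : ℝ} (hν : ν.real Set.univ < C₀)
    (h4 : Integrable (fun θ : ℝ => θ ^ 4) ν) {f : ℝ → ℝ}
    (hf : ∀ s : ℝ, Real.exp (f s) = C₀ - ∫ l, Real.cos (l * s) ∂ν) {α p : ℝ} (hα : 0 < α)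
    (hp : ∀ ε > 0, ∃ᶠ N in atTop, meanPressure cube α f N < p + ε) :
    ∀ ε > 0, ∃ (k : ℕ) (m r : ℕ → ℝ), Exponents k m ∧ Path k r ∧
      ∀ q, Path k q → q k ≤ 1 → parisi α f k m q r ≤ p + ε := by
  obtain ⟨C, c₀, a, f1, f2, f3, ν', hpot, hν', h2, hW, hW', hνa⟩ := classA_pot hν h4 hf
  have hfm : Measurable f :=
    (continuous_iff_continuousAt.2 fun x => (hpot.cb3.d1 x).continuousAt).measurable
  obtain ⟨N, M, P, s, u, hN, hMN, hgg, hgg1, hfin⟩ := exists_selection hpot.cb3 hfm hα hp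
  have hr := ratio_tendsto hN hMN
  have hs : SeqOK f hfm C hpot.cb3.b0 α (hyperfilter ℕ) N M P s u := by
    refine ⟨hr.mono_left hyper_le, hN.mono_left hyper_le, ?_, hgg, hgg1⟩
    obtain ⟨A, hA⟩ := hr.bddAbove_range
    exact ⟨A, fun j => hA ⟨j, rfl⟩⟩
  intro ε hε
  obtain ⟨k, b, w, q, ε₀, hm, hJ⟩ := lower_ineq hpot hfm hα hs (p := p)
    (fun ε hε => (hfin ε hε).filter_mono hyper_le) ε hε
  refine ⟨k, mOf w, rr α (fun x => Real.exp (f x) / c₀) f1 k w q,
    exponents_mOf hm.lim.wpos hm.lim.wsum, rr_path hpot hα hm.lim.wpos q, fun q' hq' hq1' => ?_⟩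
  exact (parisi_tangent hpot h2 hW hW' hνa hα hm.lim hm.path hm.le1 hq' hq1').trans hJ

end Vale.Agent.P157.Par
end

section

open MeasureTheory ProbabilityTheory Filter Topology

namespace Vale.Agent.P157.Par

/-- The lower bound. -/
theorem lowerBound : LowerBound := fun _ _ _ hν h4 _ hf _ _ hα hp =>
  parisi_lower hν h4 hf hα hp

/-- The Parisi formula for class A potentials on the cube, at every density. -/
theorem parisi_formula {ν : Measure ℝ} [IsFiniteMeasure ν] {C₀ : ℝ} {f : ℝ → ℝ} {α : ℝ}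
    (hν : ν.real Set.univ < C₀)
    (hf : ∀ s : ℝ, Real.exp (f s) = C₀ - ∫ l, Real.cos (l * s) ∂ν) (hα : 0 < α) :
    ∃ L : ℝ, Tendsto (fun N => meanPressure cube α f N) atTop (𝓝 L) ∧
      (∀ (k : ℕ) (m r : ℕ → ℝ), Exponents k m → Path k r →
        BddAbove {y | ∃ q, Path k q ∧ q k ≤ 1 ∧ y = parisi α f k m q r}) ∧
      IsGLB {y | ∃ (k : ℕ) (m r : ℕ → ℝ), Exponents k m ∧ Path k r ∧
        IsLUB {y | ∃ q, Path k q ∧ q k ≤ 1 ∧ y = parisi α f k m q r} y} L :=
  parisi_formula_of lowerBound hν hf hα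

end Vale.Agent.P157.Par
end

section

/-!
# P146, lower bound for the SK model: the Parisi lower bound

The free energy of the SK model is at least the infimum of the Parisi functional. This follows from
the Parisi formula for the perceptron with the potential `log (1 - ε cos (λ s))` at the density
`α = β² / (2 c)`, `c = ε² e^{-λ²} λ⁴ / 2`, `ε = λ⁵`, `λ → 0`.
-/

open MeasureTheory ProbabilityTheory Filter Topology
open Vale.Agent.P157 (spin meanPressure cube)
open Vale.Agent.P157.Par (cascade Exponents Path patternPart spinPart parisi)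

namespace Vale.Agent.P146.Sk.Low

open Vale.Agent.P157.Lv in
/-- The spin part decreases at most linearly. -/
theorem spin_star {k : ℕ} {m r r' : ℕ → ℝ} (hm : Exponents k m) (hr : Path k r)
    (hr' : Path k r') (h : ∀ l ≤ k, r' l ≤ r l) :
    spinPart k m r' ≤ spinPart k m r +
      1 / 2 * ∑ l ∈ Finset.range (k + 1), (m (l + 1) - m l) * (r l - r' l) := by
  have hpot : Pot (fun x => Real.log (Real.cosh x)) Real.tanh (fun x => 1 - Real.tanh x ^ 2) 1 1 := by
    refine ⟨fun x => ?_, fun x => ?_, fun x => (Real.abs_tanh_lt_one x).le, fun x => ?_⟩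
    · have h1 := (Real.hasDerivAt_cosh x).log (Real.cosh_pos x).ne'
      rw [← Real.tanh_eq_sinh_div_cosh] at h1
      exact h1
    · have h1 : Real.tanh = Real.sinh / Real.cosh := by
        funext y
        exact Real.tanh_eq_sinh_div_cosh y
      have h2 := (Real.hasDerivAt_sinh x).div (Real.hasDerivAt_cosh x) (Real.cosh_pos x).ne'
      rw [← h1] at h2
      refine h2.congr_deriv ?_
      rw [Real.tanh_eq_sinh_div_cosh]
      have h3 := (Real.cosh_pos x).ne'
      field_simp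
    · have h1 := Real.tanh_sq_lt_one x
      have h2 := sq_nonneg (Real.tanh x)
      rw [abs_le]
      constructor <;> linarith
  have hm0 := hm.2.2 0 (Nat.zero_le _)
  rw [hm.1] at hm0
  have key := schur_int (K := k) (m := m) (Q := r') (R := r) hm.1 hm.2.1
    (fun l hl => (hm.2.2 l hl).le) hm0 hr' hr hpot
    (b := r' k - r k + ∑ l ∈ Finset.range (k + 1), (m (l + 1) - m l) * (r l - r' l))
    (fun S' u hS' hK hu => ?_)
  · unfold spinPart
    linarith
  · have e0 : (fun z x => 1 - Real.tanh (u z x) ^ 2 + Real.tanh (u z x) ^ 2) =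
        fun (_ : Fin (k + 1) × Bool → ℝ) (_ : Unit) => (1 : ℝ) := by
      funext z x
      ring
    have e1 : (r' k - r k) * S'.Ex (fun z x => 1 - Real.tanh (u z x) ^ 2 +
        Real.tanh (u z x) ^ 2) = r' k - r k := by
      rw [e0, hS'.Ex_const, mul_one]
    simp only [e1]
    have h1 : -∑ l ∈ Finset.range (k + 1), (m (l + 1) - m l) * ((r' l - r l) *
        S'.Ex (fun z _ => S'.T l (fun z x => Real.tanh (u z x)) z ^ 2)) ≤
        ∑ l ∈ Finset.range (k + 1), (m (l + 1) - m l) * (r l - r' l) := by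
      rw [← Finset.sum_neg_distrib]
      refine Finset.sum_le_sum fun l hl => ?_
      have hl' : l ≤ k := Nat.le_of_lt_succ (Finset.mem_range.1 hl)
      have h2 : S'.Ex (fun z _ => S'.T l (fun z x => Real.tanh (u z x)) z ^ 2) ≤ 1 := by
        have := hS'.schur_le (l := l) (by omega) hu (C := 1)
          (fun z x => (Real.abs_tanh_lt_one _).le)
        simpa using this
      have h3 : 0 ≤ m (l + 1) - m l := by linarith [hm.2.2 l hl']
      have h4 : (r l - r' l) * S'.Ex (fun z _ => S'.T l (fun z x => Real.tanh (u z x)) z ^ 2) ≤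
          (r l - r' l) * 1 := mul_le_mul_of_nonneg_left h2 (by linarith [h l hl'])
      have h5 := mul_le_mul_of_nonneg_left h4 h3
      linarith
    linarith

/-- The Parisi functional of the SK model. -/
noncomputable def Psk (β : ℝ) (k : ℕ) (m q : ℕ → ℝ) : ℝ :=
  β ^ 2 / 4 + β ^ 2 / 4 * ∑ l ∈ Finset.range (k + 1), (m (l + 1) - m l) * q l ^ 2 +
    spinPart k m (fun l => β ^ 2 * q l)

/-- **The Parisi lower bound for the SK model.** -/
theorem sk_lower {β : ℝ} (hβ : 0 < β) {e : ℝ} (he : 0 < e) :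
    ∃ (k : ℕ) (m q : ℕ → ℝ), Exponents k m ∧ Path k q ∧ q k ≤ 1 ∧
      ∀ᶠ N in atTop, Psk β k m q ≤ skP β N + e := by
  -- the parameters
  obtain ⟨lam, hl0, hl1, hl2⟩ : ∃ lam : ℝ, 0 < lam ∧ lam ≤ 1 / 2 ∧ 50 * β ^ 2 * lam ≤ e / 4 := by
    refine ⟨min (1 / 2) (e / (200 * β ^ 2)), by positivity, min_le_left _ _, ?_⟩
    have h1 := min_le_right (1 / 2) (e / (200 * β ^ 2))
    have h2 : 50 * β ^ 2 * min (1 / 2) (e / (200 * β ^ 2)) ≤ 50 * β ^ 2 * (e / (200 * β ^ 2)) :=
      mul_le_mul_of_nonneg_left h1 (by positivity)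
    refine h2.trans (le_of_eq ?_)
    field_simp
    norm_num
  set ε := lam ^ 5 with hε
  have hlp : ∀ n : ℕ, 1 ≤ n → lam ^ n ≤ 1 / 2 := by
    intro n hn
    obtain ⟨j, rfl⟩ : ∃ j, n = j + 1 := ⟨n - 1, by omega⟩
    rw [pow_succ]
    have h1 : lam ^ j ≤ 1 := pow_le_one₀ hl0.le (by linarith only [hl1, hl0])
    have h2 : 0 ≤ lam ^ j := by positivity
    nlinarith
  have hε0 : 0 < ε := by positivity
  have hε1 : ε ≤ 1 / 4 := by
    have : ε = lam * lam ^ 4 := by rw [hε]; ring
    rw [this]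
    have h1 := hlp 4 (by norm_num)
    have h2 : 0 ≤ lam ^ 4 := by positivity
    (by_contra nlg; linarith only [nlg, mul_nonneg (sub_nonneg.2 hl1) (le_of_lt (sub_pos.2 hε0)), mul_nonneg (le_of_lt (sub_pos.2 hl0)) (sub_nonneg.2 h1), mul_pos (sub_pos.2 (not_le.1 nlg)) (sub_pos.2 hl0)])
  have hexp1 : Real.exp (-lam ^ 2) ≤ 1 := by
    rw [Real.exp_le_one_iff]; nlinarith
  have hexp0 : 1 / 2 ≤ Real.exp (-lam ^ 2) := by
    have := Real.add_one_le_exp (-lam ^ 2)
    nlinarith
  set c := cc ε lam with hc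
  have hc0 : 0 < c := by rw [hc]; unfold cc; positivity
  have hceq : c = lam ^ 14 / 2 * Real.exp (-lam ^ 2) := by
    rw [hc, hε]; unfold cc; ring
  have hcl : c ≤ lam / 4 := by
    have h1 : lam ^ 14 = lam * lam ^ 13 := by ring
    have h2 := hlp 13 (by norm_num)
    have h3 : 0 ≤ lam ^ 13 := by positivity
    rw [hceq, h1]
    have h4 : lam * lam ^ 13 / 2 * Real.exp (-lam ^ 2) ≤ lam * lam ^ 13 / 2 * 1 :=
      mul_le_mul_of_nonneg_left hexp1 (by positivity)
    (by_contra nlg; linarith only [nlg, mul_nonneg (sub_nonneg.2 h3) (sub_nonneg.2 h4), mul_nonneg (sub_nonneg.2 h2) (sub_nonneg.2 h4), mul_nonneg (le_of_lt (sub_pos.2 hl0)) (sub_nonneg.2 h2), mul_nonneg (le_of_lt (sub_pos.2 (not_le.1 nlg))) (sub_nonneg.2 hε1), mul_pos (sub_pos.2 (not_le.1 nlg)) (sub_pos.2 hε0)])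
  have hc8 : c ≤ 1 / 8 := by linarith only [hcl, hl1]
  set α := β ^ 2 / (2 * c) with hα
  have hα0 : 0 < α := by positivity
  have hαc : α * c = β ^ 2 / 2 := by rw [hα]; field_simp
  -- the error
  have herr : α * (7 * ε ^ 3 + ε ^ 2 * lam ^ 8 + 96 * c ^ 2) ≤ e / 4 := by
    have h1 : α * (96 * c ^ 2) = 48 * β ^ 2 * c := by
      have : α * (96 * c ^ 2) = 96 * c * (α * c) := by ring
      rw [this, hαc]; ring
    have h2 : 7 * ε ^ 3 + ε ^ 2 * lam ^ 8 ≤ 32 * lam * c := by
      have e1 : 7 * ε ^ 3 + ε ^ 2 * lam ^ 8 = lam ^ 15 * (7 + lam ^ 3) := by rw [hε]; ring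
      have e2 : 32 * lam * c = lam ^ 15 * (16 * Real.exp (-lam ^ 2)) := by rw [hceq]; ring
      rw [e1, e2]
      refine mul_le_mul_of_nonneg_left ?_ (by positivity)
      have := hlp 3 (by norm_num)
      linarith only [this, hc8, hc0, hexp0]
    have h3 : α * (7 * ε ^ 3 + ε ^ 2 * lam ^ 8) ≤ α * (32 * lam * c) :=
      mul_le_mul_of_nonneg_left h2 hα0.le
    have h4 : α * (32 * lam * c) = 16 * β ^ 2 * lam := by
      have : α * (32 * lam * c) = 32 * lam * (α * c) := by ring
      rw [this, hαc]; ring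
    have h5 : 48 * β ^ 2 * c ≤ 48 * β ^ 2 * (lam / 4) :=
      mul_le_mul_of_nonneg_left hcl (by positivity)
    have h6 : 0 ≤ β ^ 2 * lam := by positivity
    calc α * (7 * ε ^ 3 + ε ^ 2 * lam ^ 8 + 96 * c ^ 2) =
        α * (7 * ε ^ 3 + ε ^ 2 * lam ^ 8) + α * (96 * c ^ 2) := by ring
      _ ≤ 16 * β ^ 2 * lam + 48 * β ^ 2 * (lam / 4) := by linarith
      _ ≤ 50 * β ^ 2 * lam := by linarith only [h6]
      _ ≤ e / 4 := hl2
  -- the potential
  set f : ℝ → ℝ := fun s => Real.log (1 - ε * Real.cos (lam * s)) with hfdef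
  have hf : ∀ s, Real.exp (f s) = 1 - ε * Real.cos (lam * s) := by
    intro s
    have h1 : |ε * Real.cos (lam * s)| ≤ 1 / 4 := by
      rw [abs_mul, abs_of_pos hε0]
      calc ε * |Real.cos (lam * s)| ≤ ε * 1 :=
            mul_le_mul_of_nonneg_left (Real.abs_cos_le_one _) hε0.le
        _ ≤ 1 / 4 := by linarith only [hε1]
    have h2 := (abs_le.1 h1).2
    rw [hfdef]
    exact Real.exp_log (by linarith only [h2, hc8, hc0])
  set ν : Measure ℝ := ENNReal.ofReal ε • Measure.dirac lam with hν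
  have hfin : IsFiniteMeasure ν := ⟨by
    rw [hν, Measure.smul_apply, measure_univ, smul_eq_mul, mul_one]
    exact ENNReal.ofReal_lt_top⟩
  have hνu : ν.real Set.univ < 1 := by
    rw [hν, measureReal_ennreal_smul_apply]
    simp
    rw [ENNReal.toReal_ofReal hε0.le]
    linarith only [hc8, hc0, hε1]
  have hfν : ∀ s : ℝ, Real.exp (f s) = 1 - ∫ l, Real.cos (l * s) ∂ν := by
    intro s
    rw [hf s, hν, integral_smul_measure, integral_dirac, ENNReal.toReal_ofReal hε0.le, smul_eq_mul]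
  obtain ⟨L, hL, -, hglb⟩ := Vale.Agent.P157.Par.parisi_formula hνu hfν hα0
  -- a nearly optimal element
  obtain ⟨y, ⟨k, m, r, hm, hr, hy⟩, hyL⟩ : ∃ y, (∃ (k : ℕ) (m r : ℕ → ℝ), Exponents k m ∧ Path k r ∧
      IsLUB {y | ∃ q, Path k q ∧ q k ≤ 1 ∧ y = parisi α f k m q r} y) ∧ y < L + e / 4 := by
    by_contra hcon
    push Not at hcon
    have : L + e / 4 ∈ lowerBounds {y | ∃ (k : ℕ) (m r : ℕ → ℝ), Exponents k m ∧ Path k r ∧
        IsLUB {y | ∃ q, Path k q ∧ q k ≤ 1 ∧ y = parisi α f k m q r} y} := by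
      rintro y ⟨k, m, r, hm, hr, hy⟩
      exact hcon y ⟨k, m, r, hm, hr, hy⟩
    have := hglb.2 this
    linarith only [this, he]
  set q : ℕ → ℝ := fun l => min (r l / β ^ 2) 1 with hq
  have hβ2 : 0 < β ^ 2 := by positivity
  have hr0 : ∀ l ≤ k, 0 ≤ r l := by
    intro l
    induction l with
    | zero => intro _; exact hr.1
    | succ l ih => intro hl; exact (ih (by omega)).trans (hr.2 l (by omega))
  have hqP : Path k q := by
    refine ⟨le_min (div_nonneg hr.1 hβ2.le) zero_le_one, fun l hl => ?_⟩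
    exact min_le_min_right _ (div_le_div_of_nonneg_right (hr.2 l hl) hβ2.le)
  have hq1 : q k ≤ 1 := min_le_right _ _
  refine ⟨k, m, q, hm, hqP, hq1, ?_⟩
  have hple : parisi α f k m q r ≤ y := hy.1 ⟨q, hqP, hq1, rfl⟩
  set Q := ∑ l ∈ Finset.range (k + 1), (m (l + 1) - m l) * q l ^ 2 with hQ
  set D := ∑ l ∈ Finset.range (k + 1), (m (l + 1) - m l) * (r l - β ^ 2 * q l) with hD
  have hrq : ∀ l ≤ k, β ^ 2 * q l ≤ r l ∧ (r l - β ^ 2 * q l) * q l = r l - β ^ 2 * q l := by
    intro l hl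
    rcases le_total (r l / β ^ 2) 1 with h | h
    · have e1 : q l = r l / β ^ 2 := min_eq_left h
      have e2 : β ^ 2 * q l = r l := by rw [e1]; field_simp
      rw [e2]
      exact ⟨le_rfl, by ring⟩
    · have e1 : q l = 1 := min_eq_right h
      rw [e1]
      refine ⟨?_, by ring⟩
      rw [le_div_iff₀ hβ2] at h
      linarith only [h]
  have hstar : spinPart k m (fun l => β ^ 2 * q l) ≤ spinPart k m r + 1 / 2 * D := by
    refine spin_star hm hr ⟨mul_nonneg hβ2.le hqP.1, fun l hl =>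
      mul_le_mul_of_nonneg_left (hqP.2 l hl) hβ2.le⟩ fun l hl => (hrq l hl).1
  have hsum : ∑ l ∈ Finset.range (k + 1), (m (l + 1) - m l) * r l * q l = β ^ 2 * Q + D := by
    rw [hQ, hD, Finset.mul_sum, ← Finset.sum_add_distrib]
    refine Finset.sum_congr rfl fun l hl => ?_
    have hl' : l ≤ k := Nat.le_of_lt_succ (Finset.mem_range.1 hl)
    linear_combination (m (l + 1) - m l) * (hrq l hl').2
  have hpat := pattern_lower hε0 hε1 (by rw [abs_of_pos hl0]; linarith only [hc8, hc0, hl1] : |lam| ≤ 1) hm hqP hq1 hf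
  rw [← hQ] at hpat
  have hpat2 : kk ε lam + c / 2 - c / 2 * Q - (7 * ε ^ 3 + ε ^ 2 * lam ^ 8 + 96 * c ^ 2) ≤
      patternPart f k m q := by
    refine le_trans (le_of_eq ?_) hpat
    rw [hc]
    unfold kk cc
    ring
  have hpat3 : α * kk ε lam + β ^ 2 / 4 - β ^ 2 / 4 * Q - e / 4 ≤ α * patternPart f k m q := by
    have h1 := mul_le_mul_of_nonneg_left hpat2 hα0.le
    have h2 : α * (kk ε lam + c / 2 - c / 2 * Q - (7 * ε ^ 3 + ε ^ 2 * lam ^ 8 + 96 * c ^ 2)) =
        α * kk ε lam + (α * c) / 2 - (α * c) / 2 * Q -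
          α * (7 * ε ^ 3 + ε ^ 2 * lam ^ 8 + 96 * c ^ 2) := by ring
    rw [h2, hαc] at h1
    linarith only [h1, herr]
  have hpsk : α * kk ε lam + Psk β k m q - e / 4 ≤ y := by
    refine le_trans ?_ hple
    unfold parisi Psk
    rw [hsum, ← hQ]
    linarith only [hpat3, hstar]
  -- the limit
  have hev1 : ∀ᶠ N in atTop, L - e / 4 < meanPressure cube α f N :=
    hL.eventually (lt_mem_nhds (by linarith only [he]))
  have hev2 : ∀ᶠ N : ℕ in atTop, |kk ε lam| / (N : ℝ) < e / 4 := by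
    have h1 : Tendsto (fun N : ℕ => |kk ε lam| / (N : ℝ)) atTop (𝓝 0) :=
      tendsto_const_nhds.div_atTop tendsto_natCast_atTop_atTop
    exact h1.eventually (gt_mem_nhds (by positivity))
  filter_upwards [hev1, hev2, eventually_gt_atTop 0] with N h1 h2 hN
  have hN' : (0 : ℝ) < N := by exact_mod_cast hN
  have hA1 : ((⌊α * N⌋₊ : ℕ) : ℝ) ≤ α * N := Nat.floor_le (by positivity)
  have hA2 : α * N < (⌊α * N⌋₊ : ℕ) + 1 := Nat.lt_floor_add_one _
  have hA3 : ((⌊α * N⌋₊ : ℕ) : ℝ) * cc ε lam ≤ N / 2 * β ^ 2 := by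
    calc ((⌊α * N⌋₊ : ℕ) : ℝ) * cc ε lam ≤ (α * N) * c := mul_le_mul_of_nonneg_right hA1 hc0.le
      _ = (α * c) * N := by ring
      _ = N / 2 * β ^ 2 := by rw [hαc]; ring
  have h3 := perceptron_le_sk hN hε0.le (by linarith only [hc8, hc0, hε1]) hβ hc8 hf hA3
  rw [← Vale.Agent.P157.Lv.meanPressure_cube_eq] at h3
  have h4 : ((⌊α * N⌋₊ : ℕ) : ℝ) / N * kk ε lam ≤ α * kk ε lam + |kk ε lam| / N := by
    have h5 : |((⌊α * N⌋₊ : ℕ) : ℝ) / N - α| ≤ 1 / N := by
      rw [abs_le]
      constructor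
      · have : -(1 / (N : ℝ)) = (-1) / N := by ring
        rw [this, div_le_iff₀ hN', sub_mul, div_mul_cancel₀ _ hN'.ne']
        linarith only [hA2]
      · rw [sub_le_iff_le_add, div_le_iff₀ hN', add_mul, one_div_mul_cancel hN'.ne']
        linarith only [hA1, hc8, hc0]
    have h6 : (((⌊α * N⌋₊ : ℕ) : ℝ) / N - α) * kk ε lam ≤ 1 / N * |kk ε lam| := by
      calc (((⌊α * N⌋₊ : ℕ) : ℝ) / N - α) * kk ε lam ≤
          |(((⌊α * N⌋₊ : ℕ) : ℝ) / N - α) * kk ε lam| := le_abs_self _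
        _ = |((⌊α * N⌋₊ : ℕ) : ℝ) / N - α| * |kk ε lam| := abs_mul _ _
        _ ≤ 1 / N * |kk ε lam| := mul_le_mul_of_nonneg_right h5 (abs_nonneg _)
    have h7 : 1 / (N : ℝ) * |kk ε lam| = |kk ε lam| / N := by ring
    rw [h7] at h6
    linarith only [h6]
  linarith only [h4, h3, h2, h1, hpsk, hyL]

end Vale.Agent.P146.Sk.Low
end

section

/-!
# P146: the Parisi lower bound for the SK model, in the notation of `SDefs`
-/

open MeasureTheory ProbabilityTheory Filter Topology Matrix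

namespace Vale.Agent.P146.Sk

open Vale.Agent.P157 (spin)
open Vale.Agent.P157.Par (Path Exponents spinPart)

lemma qf_Wm (N : ℕ) (g : Ix N → ℝ) (x : Fin N → ℝ) :
    qf (Wm N g) x = 2 / √(2 * (N : ℝ)) * ∑ i, ∑ j, g (i, j) * (x i * x j) := by
  unfold qf Wm
  simp only [Matrix.of_apply]
  have e : ∀ i j, x i * ((g (i, j) + g (j, i)) / √(2 * (N : ℝ))) * x j =
      1 / √(2 * (N : ℝ)) * (g (i, j) * (x i * x j)) +
        1 / √(2 * (N : ℝ)) * (g (j, i) * (x j * x i)) := fun i j => by ring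
  simp only [e, Finset.sum_add_distrib, ← Finset.mul_sum]
  rw [Finset.sum_comm (f := fun i j => g (j, i) * (x j * x i))]
  ring

lemma pN_eq_skP (β : ℝ) (N : ℕ) : pN β N = Low.skP β N := by
  unfold pN Low.skP
  congr 2
  funext g
  unfold Ft Low.lse
  congr 1
  refine Finset.sum_congr rfl fun x _ => ?_
  rw [← Real.exp_add, qf_Wm]
  congr 1
  ring

lemma PSK_eq_Psk (β : ℝ) (k : ℕ) (m q : ℕ → ℝ) : PSK β k m q = Low.Psk β k m q := by
  unfold PSK Low.Psk
  ring

/-- **The Parisi lower bound for the SK model.** -/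
theorem low_bound {β : ℝ} (hβ : 0 < β) (ε : ℝ) (hε : 0 < ε) : ∃ (K : ℕ) (m q : ℕ → ℝ),
    Exponents K m ∧ Path K q ∧ q K ≤ 1 ∧ ∀ᶠ N : ℕ in atTop, PSK β K m q ≤ pN β N + ε := by
  obtain ⟨k, m, q, hm, hq, hq1, h⟩ := Low.sk_lower hβ hε
  refine ⟨k, m, q, hm, hq, hq1, h.mono fun N hN => ?_⟩
  rw [pN_eq_skP, PSK_eq_Psk]
  exact hN

end Vale.Agent.P146.Sk
end

section

/-!
# P146, upper bound of the variance: Guerra's bound for fractional moments

For exponents `0 = m 0 < m 1 < ⋯` and a path `q` with `q 0 = 0`, the moment of order `m 1` of the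
partition function of the SK model satisfies `(1 / m 1) log E Z ^ (m 1) ≤ N P(m, q)`: the whole
disorder of the SK model is put at the level one.
-/

open MeasureTheory ProbabilityTheory Filter Topology

namespace Vale.Agent.P146.Ub

set_option linter.unusedSectionVars false

open Vale.Agent.P157 (spin)
open Vale.Agent.P157.Lv
open Vale.Agent.P157.Lv.Sy
open Vale.Agent.P157.Par (Path Exponents spinPart topN lw incr)
open Vale.Agent.P146.Sk (Ix Wm qf Ft PSK)
open Vale.Agent.P146.Sk.Gen (GI gz r0)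

variable {N K : ℕ}

/-- The levels: the disorder of the SK model is at the level one. -/
def ul : GI (Ix N) N K → ℕ
  | Sum.inl _ => 1
  | Sum.inr p => p.1

/-- The coefficients of the energy of the SK model. -/
noncomputable def ua (β : ℝ) (x : Fin N → Bool) : GI (Ix N) N K → ℝ
  | Sum.inl p => β / √(2 * (N : ℝ)) * (spin x p.1 * spin x p.2)
  | Sum.inr _ => 0

/-- The coefficients of the fields. -/
noncomputable def ub (β : ℝ) (q : ℕ → ℝ) (x : Fin N → Bool) : GI (Ix N) N K → ℝ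
  | Sum.inl _ => 0
  | Sum.inr p => β * √(incr q p.1) * spin x p.2

/-- The trivial system. -/
noncomputable def uS (N K : ℕ) (m : ℕ → ℝ) : Sy (GI (Ix N) N K) (Fin N → Bool) :=
  ⟨ul, K, m, fun _ _ => -(N * Real.log 2)⟩

lemma uS_regD (hK : 1 ≤ K) {m : ℕ → ℝ} (hm : Exponents K m) :
    (uS N K m).RegD (fun _ _ _ => 0) where
  m0 := hm.1
  mK := hm.2.1
  mono := fun l hl => (hm.2.2 l hl).le
  pos := by
    have := hm.2.2 0 (Nat.zero_le _)
    rw [hm.1] at this
    exact this
  lev := by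
    rintro (e | p)
    · exact hK
    · exact Nat.le_of_lt_succ p.1.2
  lip := fun x => Lip.const _
  pd := fun e x => PD.const _
  md := fun e x => measurable_const
  bd := ⟨0, fun e z x => by simp⟩

lemma pot_id : Pot (fun x => x) (fun _ => 1) (fun _ => 0) 1 0 where
  d1 := fun x => hasDerivAt_id x
  d2 := fun x => hasDerivAt_const x 1
  b1 := fun x => by simp
  b2 := fun x => by simp

lemma sep_u (β : ℝ) (q : ℕ → ℝ) : Sep (ι := GI (Ix N) N K) (fun _ _ _ => 0) (ua β) (ub β q) where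
  disj := by
    rintro (e | p) x x'
    · exact mul_zero _
    · exact zero_mul _
  indep := fun e x _ z y => rfl

/-- Summation over the coordinates. -/
lemma sum_GI (f : GI (Ix N) N K → ℝ) : ∑ e, f e =
    (∑ p : Ix N, f (Sum.inl p)) + ∑ l ∈ Finset.range (K + 1), ∑ i : Fin N, f (gz l i) := by
  rw [Fintype.sum_sum_type]
  congr 1
  rw [Fintype.sum_prod_type, Finset.sum_range (fun l => ∑ i : Fin N, f (gz l i))]
  refine Finset.sum_congr rfl fun l _ => Finset.sum_congr rfl fun i _ => ?_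
  unfold gz
  rw [Fin.ofNat_val_eq_self]

lemma lin_ua (β : ℝ) (x : Fin N → Bool) (z : GI (Ix N) N K → ℝ) :
    lin (ua β x) z = β / 2 * qf (Wm N (r0 z)) (spin x) := by
  unfold lin
  rw [sum_GI]
  have h0 : ∀ l ∈ Finset.range (K + 1),
      ∑ i : Fin N, ua β x (gz l i : GI (Ix N) N K) * z (gz l i) = 0 :=
    fun l _ => Finset.sum_eq_zero fun i _ => by
      show 0 * z (gz l i) = 0
      rw [zero_mul]
  rw [Finset.sum_eq_zero h0, add_zero, Sk.qf_Wm, Fintype.sum_prod_type]
  simp only [ua, Finset.mul_sum, r0]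
  refine Finset.sum_congr rfl fun i _ => Finset.sum_congr rfl fun j _ => ?_
  ring

lemma lin_ub (β : ℝ) (q : ℕ → ℝ) (x : Fin N → Bool) (z : GI (Ix N) N K → ℝ) :
    lin (ub β q x) z =
      ∑ l ∈ Finset.range (K + 1), β * √(incr q l) * ∑ i, z (gz l i) * spin x i := by
  unfold lin
  rw [sum_GI]
  have h0 : ∀ p ∈ (Finset.univ : Finset (Ix N)),
      ub (K := K) β q x (Sum.inl p) * z (Sum.inl p) = 0 := fun p _ => by
    show 0 * _ = (0 : ℝ)
    rw [zero_mul]
  rw [Finset.sum_eq_zero h0, zero_add]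
  refine Finset.sum_congr rfl fun l hl => ?_
  rw [Finset.mul_sum]
  refine Finset.sum_congr rfl fun i _ => ?_
  have h1 : ((Fin.ofNat (K + 1) l : Fin (K + 1)) : ℕ) = l := by
    simp only [Fin.ofNat, Nat.mod_eq_of_lt (Finset.mem_range.1 hl)]
  show β * √(incr q ((Fin.ofNat (K + 1) l : Fin (K + 1)) : ℕ)) * spin x i * z (gz l i) = _
  rw [h1]
  ring

lemma spin_sq' (x : Fin N → Bool) (i : Fin N) : spin x i ^ 2 = 1 := by
  rw [sq]; exact Vale.Agent.P157.spin_sq x i

/-- The variance of the energy of the SK model. -/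
lemma sum_ua_sq (hN : 0 < N) (β : ℝ) (x : Fin N → Bool) :
    ∑ e : GI (Ix N) N K, ua β x e ^ 2 = β ^ 2 / 2 * N := by
  have hN' : (0 : ℝ) < N := by exact_mod_cast hN
  rw [sum_GI]
  have h0 : ∀ l ∈ Finset.range (K + 1), ∑ i : Fin N, (ua β x (gz l i : GI (Ix N) N K)) ^ 2 = 0 :=
    fun l _ => Finset.sum_eq_zero fun i _ => by
      show (0 : ℝ) ^ 2 = 0
      norm_num
  rw [Finset.sum_eq_zero h0, add_zero]
  have h1 : ∀ p : Ix N, ua (K := K) β x (Sum.inl p) ^ 2 = β ^ 2 / (2 * N) := by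
    intro p
    show (β / √(2 * (N : ℝ)) * (spin x p.1 * spin x p.2)) ^ 2 = _
    rw [mul_pow, mul_pow, spin_sq', spin_sq', div_pow, Real.sq_sqrt (by positivity)]
    ring
  simp only [h1, Finset.sum_const, Finset.card_univ, Fintype.card_prod, Fintype.card_fin,
    nsmul_eq_mul]
  push_cast
  field_simp

lemma sum_incr' (q : ℕ → ℝ) (l : ℕ) : ∑ j ∈ Finset.range (l + 1), incr q j = q l := by
  induction l with
  | zero => rw [Finset.sum_range_one]; rfl
  | succ l ih => rw [Finset.sum_range_succ, ih]; exact add_sub_cancel _ _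

lemma incr_nonneg' {q : ℕ → ℝ} (hq : Path K q) {l : ℕ} (hl : l ≤ K) : 0 ≤ incr q l := by
  cases l with
  | zero => exact hq.1
  | succ l => exact sub_nonneg.2 (hq.2 l (by omega))

lemma ub_gz (β : ℝ) (q : ℕ → ℝ) (x : Fin N → Bool) {l : ℕ} (hl : l ≤ K) (i : Fin N) :
    ub β q x (gz l i : GI (Ix N) N K) = β * √(incr q l) * spin x i := by
  have h1 : ((Fin.ofNat (K + 1) l : Fin (K + 1)) : ℕ) = l := by
    simp only [Fin.ofNat, Nat.mod_eq_of_lt (Nat.lt_succ_of_le hl)]
  show β * √(incr q ((Fin.ofNat (K + 1) l : Fin (K + 1)) : ℕ)) * spin x i = _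
  rw [h1]

/-- The variance of the fields. -/
lemma sum_ub_sq (β : ℝ) {q : ℕ → ℝ} (hq : Path K q) (x : Fin N → Bool) :
    ∑ e : GI (Ix N) N K, ub β q x e ^ 2 = β ^ 2 * N * q K := by
  rw [sum_GI]
  have h0 : ∀ p ∈ (Finset.univ : Finset (Ix N)),
      ub (K := K) β q x (Sum.inl p) ^ 2 = 0 := fun p _ => by
    show (0 : ℝ) ^ 2 = 0
    norm_num
  rw [Finset.sum_eq_zero h0, zero_add, ← sum_incr' q K, Finset.mul_sum]
  refine Finset.sum_congr rfl fun l hl => ?_
  have hl' : l ≤ K := Nat.le_of_lt_succ (Finset.mem_range.1 hl)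
  have h1 : ∀ i : Fin N, ub β q x (gz l i : GI (Ix N) N K) ^ 2 = β ^ 2 * incr q l := by
    intro i
    rw [ub_gz β q x hl' i, mul_pow, mul_pow, spin_sq', Real.sq_sqrt (incr_nonneg' hq hl')]
    ring
  simp only [h1, Finset.sum_const, Finset.card_univ, Fintype.card_fin, nsmul_eq_mul]
  ring

/-- The second moment of the overlap. -/
lemma alg_sq {X : Type} [Fintype X] {w : X → ℝ} (hw : ∀ x, 0 ≤ w x) (h1 : ∑ x, w x = 1)
    (v : X → Fin N → ℝ) (c : ℝ) :
    2 * c * ∑ i, (∑ x, w x * v x i) ^ 2 - c ^ 2 ≤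
      ∑ p : Ix N, (∑ x, w x * (v x p.1 * v x p.2)) ^ 2 := by
  have e0 : 0 ≤ ∑ x, ∑ x', w x * w x' * ((∑ i, v x i * v x' i) - c) ^ 2 :=
    Finset.sum_nonneg fun x _ => Finset.sum_nonneg fun x' _ =>
      mul_nonneg (mul_nonneg (hw x) (hw x')) (sq_nonneg _)
  have eB : ∑ i, (∑ x, w x * v x i) ^ 2 = ∑ x, ∑ x', w x * w x' * ∑ i, v x i * v x' i := by
    simp_rw [sq, Finset.sum_mul_sum, Finset.mul_sum]
    rw [Finset.sum_comm]
    refine Finset.sum_congr rfl fun x _ => ?_
    rw [Finset.sum_comm]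
    refine Finset.sum_congr rfl fun x' _ => Finset.sum_congr rfl fun i _ => ?_
    ring
  have eA : ∑ p : Ix N, (∑ x, w x * (v x p.1 * v x p.2)) ^ 2 =
      ∑ x, ∑ x', w x * w x' * (∑ i, v x i * v x' i) ^ 2 := by
    have h2 : ∀ x x', (∑ i, v x i * v x' i) ^ 2 =
        ∑ p : Ix N, (v x p.1 * v x p.2) * (v x' p.1 * v x' p.2) := by
      intro x x'
      rw [sq, Finset.sum_mul_sum, Fintype.sum_prod_type]
      refine Finset.sum_congr rfl fun i _ => Finset.sum_congr rfl fun j _ => ?_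
      ring
    simp_rw [h2, sq, Finset.sum_mul_sum, Finset.mul_sum]
    rw [Finset.sum_comm]
    refine Finset.sum_congr rfl fun x _ => ?_
    rw [Finset.sum_comm]
    refine Finset.sum_congr rfl fun x' _ => Finset.sum_congr rfl fun i _ => ?_
    ring
  have eC : c ^ 2 = ∑ x, ∑ x', w x * w x' * c ^ 2 := by
    simp_rw [← Finset.sum_mul, ← Finset.mul_sum, h1]
    simp [h1]
  have e1 : ∑ x, ∑ x', w x * w x' * ((∑ i, v x i * v x' i) - c) ^ 2 =
      (∑ x, ∑ x', w x * w x' * (∑ i, v x i * v x' i) ^ 2) -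
        2 * c * (∑ x, ∑ x', w x * w x' * ∑ i, v x i * v x' i) +
        ∑ x, ∑ x', w x * w x' * c ^ 2 := by
    rw [Finset.mul_sum, ← Finset.sum_sub_distrib, ← Finset.sum_add_distrib]
    refine Finset.sum_congr rfl fun x _ => ?_
    rw [Finset.mul_sum, ← Finset.sum_sub_distrib, ← Finset.sum_add_distrib]
    refine Finset.sum_congr rfl fun x' _ => ?_
    ring
  rw [eA, eB]
  rw [e1, ← eC] at e0
  linarith

/-- The free energy is Lipschitz. -/
lemma lip_Ft (β : ℝ) (N : ℕ) : Lip (Ft β N) := by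
  have hl : ∀ x : Fin N → Bool, Lip fun g : Ix N → ℝ =>
      β / 2 * qf (Wm N g) (spin x) - N * Real.log 2 := by
    intro x
    have h1 : Lip fun g : Ix N → ℝ => β / 2 * qf (Wm N g) (spin x) := by
      have e : (fun g : Ix N → ℝ => β / 2 * qf (Wm N g) (spin x)) =
          fun g => β / 2 * (2 / √(2 * (N : ℝ)) * ∑ i, ∑ j, spin x i * spin x j * g (i, j)) := by
        funext g
        rw [Sk.qf_Wm]
        congr 2
        refine Finset.sum_congr rfl fun i _ => Finset.sum_congr rfl fun j _ => ?_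
        ring
      rw [e]
      exact Lip.const_mul (Lip.const_mul (Lip.sum _ fun i _ => Lip.sum _ fun j _ =>
        Lip.const_mul (Lip.coord (i, j)) _) _) _
    have h2 := h1.add (Lip.const (-(N * Real.log 2)))
    simpa only [← sub_eq_add_neg] using h2
  let S : Sy (Ix N) (Fin N → Bool) := ⟨fun _ => 0, 0, fun l => if l = 0 then 0 else 1,
    fun g x => β / 2 * qf (Wm N g) (spin x) - N * Real.log 2⟩
  have hS : S.Reg :=
    { m0 := by
        show (if (0 : ℕ) = 0 then (0 : ℝ) else 1) = 0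
        norm_num
      mK := by
        show (if (0 + 1 : ℕ) = 0 then (0 : ℝ) else 1) = 1
        norm_num
      mono := fun l hl => by
        have hl0 : l = 0 := Nat.le_zero.1 hl
        subst hl0
        show (if (0 : ℕ) = 0 then (0 : ℝ) else 1) ≤ if 0 + 1 = 0 then 0 else 1
        norm_num
      pos := by
        show (0 : ℝ) < if (1 : ℕ) = 0 then 0 else 1
        norm_num
      lev := fun e => le_rfl
      lip := hl }
  exact hS.lip_top

/-- One level of the bracket. -/
lemma level_ge (hN : 0 < N) {R : Sy (GI (Ix N) N K) (Fin N → Bool)} (hR : R.Reg)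
    (hlev : R.lev = ul) (hRK : R.K = K) (β : ℝ) {q : ℕ → ℝ} (hq : Path K q) (hq0 : q 0 = 0)
    {l : ℕ} (hl : l ≤ K) :
    -(β ^ 2 / 2 * N * q l ^ 2) ≤ ∑ e, if R.lev e ≤ l then
      (R.Ex (fun z _ => R.T l (fun _ x => 1 * ua β x e) z ^ 2) -
        R.Ex (fun z _ => R.T l (fun _ x => 1 * ub β q x e) z ^ 2)) else 0 := by
  have hN' : (0 : ℝ) < N := by exact_mod_cast hN
  have hlK : l ≤ R.K := by omega
  rw [sum_GI, hlev]
  have hgz : ∀ j ≤ K, ∀ i : Fin N, ul (gz j i : GI (Ix N) N K) = j := by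
    intro j hj i
    show ((Fin.ofNat (K + 1) j : Fin (K + 1)) : ℕ) = j
    simp only [Fin.ofNat, Nat.mod_eq_of_lt (Nat.lt_succ_of_le hj)]
  -- the magnetizations
  set B : ℝ := ∑ i : Fin N, R.Ex (fun z _ => R.T l (fun _ x => spin x i) z ^ 2) with hB
  have hf : ∀ j ∈ Finset.range (K + 1), (∑ i : Fin N, if ul (gz j i : GI (Ix N) N K) ≤ l then
      (R.Ex (fun z _ => R.T l (fun _ x => 1 * ua (K := K) β x (gz j i)) z ^ 2) -
        R.Ex (fun z _ => R.T l (fun _ x => 1 * ub (K := K) β q x (gz j i)) z ^ 2)) else 0) =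
      if j ≤ l then -(β ^ 2 * incr q j * B) else 0 := by
    intro j hj
    have hj' : j ≤ K := Nat.le_of_lt_succ (Finset.mem_range.1 hj)
    by_cases hjl : j ≤ l
    · rw [if_pos hjl, hB, Finset.mul_sum, ← Finset.sum_neg_distrib]
      refine Finset.sum_congr rfl fun i _ => ?_
      rw [if_pos (by rw [hgz j hj' i]; exact hjl)]
      have e1 : (fun (z : GI (Ix N) N K → ℝ) (_ : Fin N → Bool) =>
          R.T l (fun _ x => 1 * ua (K := K) β x (gz j i)) z ^ 2) = fun _ _ => 0 := by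
        funext z _
        have : R.T l (fun _ x => 1 * ua (K := K) β x (gz j i)) z = 0 := by
          rw [← hR.T_const hlK 0 z]
          congr 1
          funext z x
          show 1 * (0 : ℝ) = 0
          norm_num
        rw [this]
        norm_num
      have e2 : (fun (z : GI (Ix N) N K → ℝ) (_ : Fin N → Bool) =>
          R.T l (fun _ x => 1 * ub (K := K) β q x (gz j i)) z ^ 2) =
          fun z _ => β ^ 2 * incr q j * R.T l (fun _ x => spin x i) z ^ 2 := by
        funext z _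
        have : R.T l (fun _ x => 1 * ub (K := K) β q x (gz j i)) z =
            β * √(incr q j) * R.T l (fun _ x => spin x i) z := by
          rw [← Sy.T_const_mul]
          congr 1
          funext z x
          rw [ub_gz β q x hj' i, one_mul]
        rw [this, mul_pow, mul_pow, Real.sq_sqrt (incr_nonneg' hq hj')]
      rw [e1, e2, hR.Ex_const, Sy.Ex_const_mul]
      ring
    · rw [if_neg hjl]
      refine Finset.sum_eq_zero fun i _ => ?_
      rw [if_neg (by rw [hgz j hj' i]; exact hjl)]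
  have hfil : (Finset.range (K + 1)).filter (fun j => j ≤ l) = Finset.range (l + 1) := by
    ext j
    simp only [Finset.mem_filter, Finset.mem_range]
    omega
  have hsum : (∑ j ∈ Finset.range (K + 1), if j ≤ l then -(β ^ 2 * incr q j * B) else 0) =
      -(β ^ 2 * q l * B) := by
    rw [← Finset.sum_filter, hfil, Finset.sum_neg_distrib, ← Finset.sum_mul, ← Finset.mul_sum,
      sum_incr' q l]
  rw [Finset.sum_congr rfl hf, hsum]
  by_cases hl0 : l = 0
  · subst hl0
    rw [hq0]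
    have h0 : ∀ p ∈ (Finset.univ : Finset (Ix N)), (if ul (Sum.inl p : GI (Ix N) N K) ≤ 0 then
      (R.Ex (fun z _ => R.T 0 (fun _ x => 1 * ua (K := K) β x (Sum.inl p)) z ^ 2) -
        R.Ex (fun z _ => R.T 0 (fun _ x => 1 * ub (K := K) β q x (Sum.inl p)) z ^ 2)) else 0) = 0 := by
      intro p _
      exact if_neg (by show ¬ (1 ≤ 0); omega)
    rw [Finset.sum_eq_zero h0]
    simp
  · have hl1 : 1 ≤ l := by omega
    have h1 : ∀ p ∈ (Finset.univ : Finset (Ix N)), (if ul (Sum.inl p : GI (Ix N) N K) ≤ l then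
      (R.Ex (fun z _ => R.T l (fun _ x => 1 * ua (K := K) β x (Sum.inl p)) z ^ 2) -
        R.Ex (fun z _ => R.T l (fun _ x => 1 * ub (K := K) β q x (Sum.inl p)) z ^ 2)) else 0) =
        R.Ex (fun z _ => β ^ 2 / (2 * N) *
          R.T l (fun _ x => spin x p.1 * spin x p.2) z ^ 2) := by
      intro p _
      rw [if_pos (by show 1 ≤ l; exact hl1)]
      have e2 : (fun (z : GI (Ix N) N K → ℝ) (_ : Fin N → Bool) =>
          R.T l (fun _ x => 1 * ub (K := K) β q x (Sum.inl p)) z ^ 2) = fun _ _ => 0 := by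
        funext z _
        have : R.T l (fun _ x => 1 * ub (K := K) β q x (Sum.inl p)) z = 0 := by
          rw [← hR.T_const hlK 0 z]
          congr 1
          funext z x
          show 1 * (0 : ℝ) = 0
          norm_num
        rw [this]
        norm_num
      rw [e2, hR.Ex_const, sub_zero]
      congr 1
      funext z _
      have : R.T l (fun _ x => 1 * ua (K := K) β x (Sum.inl p)) z =
          β / √(2 * (N : ℝ)) * R.T l (fun _ x => spin x p.1 * spin x p.2) z := by
        rw [← Sy.T_const_mul]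
        congr 1
        funext z x
        show 1 * (β / √(2 * (N : ℝ)) * (spin x p.1 * spin x p.2)) = _
        rw [one_mul]
      rw [this, mul_pow, div_pow, Real.sq_sqrt (by positivity)]
    rw [Finset.sum_congr rfl h1]
    have hNs : ∀ i : Fin N, EG fun z => R.T l (fun _ x => spin x i) z ^ 2 := fun i =>
      (hR.eg_T hlK (Nh.snd fun x => spin x i)).pow 2
    have hNp : ∀ p : Ix N, EG fun z => R.T l (fun _ x => spin x p.1 * spin x p.2) z ^ 2 := fun p =>
      (hR.eg_T hlK (Nh.snd fun x => spin x p.1 * spin x p.2)).pow 2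
    have h2 : ∑ p : Ix N, R.Ex (fun z _ => β ^ 2 / (2 * N) *
          R.T l (fun _ x => spin x p.1 * spin x p.2) z ^ 2) - β ^ 2 * q l * B =
        R.Ex (fun z _ => β ^ 2 / (2 * N) * (∑ p : Ix N,
          R.T l (fun _ x => spin x p.1 * spin x p.2) z ^ 2) -
          β ^ 2 * q l * ∑ i : Fin N, R.T l (fun _ x => spin x i) z ^ 2) := by
      have e : ∑ p : Ix N, R.Ex (fun z _ => β ^ 2 / (2 * N) *
          R.T l (fun _ x => spin x p.1 * spin x p.2) z ^ 2) = β ^ 2 / (2 * N) *
          ∑ p : Ix N, R.Ex (fun z _ => R.T l (fun _ x => spin x p.1 * spin x p.2) z ^ 2) := by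
        rw [Finset.mul_sum]
        exact Finset.sum_congr rfl fun p _ => Sy.Ex_const_mul R _ _
      rw [hR.Ex_sub (Nh.const_mul _ (Nh.fst (EG.sum _ fun p _ => hNp p)))
        (Nh.const_mul _ (Nh.fst (EG.sum _ fun i _ => hNs i))), Sy.Ex_const_mul, Sy.Ex_const_mul,
        hR.Ex_sum _ (fun p _ => Nh.fst (hNp p)), hR.Ex_sum _ (fun i _ => Nh.fst (hNs i)), e]
    have h3 : -(β ^ 2 / 2 * N * q l ^ 2) ≤ R.Ex (fun z _ => β ^ 2 / (2 * N) * (∑ p : Ix N,
          R.T l (fun _ x => spin x p.1 * spin x p.2) z ^ 2) -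
          β ^ 2 * q l * ∑ i : Fin N, R.T l (fun _ x => spin x i) z ^ 2) := by
      rw [← hR.Ex_const (-(β ^ 2 / 2 * N * q l ^ 2))]
      refine hR.Ex_mono (Nh.snd fun _ => _)
        (Nh.sub (Nh.const_mul _ (Nh.fst (EG.sum _ fun p _ => hNp p)))
        (Nh.const_mul _ (Nh.fst (EG.sum _ fun i _ => hNs i)))) fun z _ => ?_
      have h4 := alg_sq (w := fun x => R.pr l z x) (fun x => hR.pr_nonneg hlK z x)
        (hR.sum_pr hlK z) (fun x => spin x) (N * q l)
      have h5 : ∀ i : Fin N, R.T l (fun _ x => spin x i) z = ∑ x, R.pr l z x * spin x i :=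
        fun i => hR.T_pr hlK (fun x => spin x i) z
      have h6 : ∀ p : Ix N, R.T l (fun _ x => spin x p.1 * spin x p.2) z =
          ∑ x, R.pr l z x * (spin x p.1 * spin x p.2) :=
        fun p => hR.T_pr hlK (fun x => spin x p.1 * spin x p.2) z
      simp only [h5, h6]
      have h7 := mul_le_mul_of_nonneg_left h4 (show 0 ≤ β ^ 2 / (2 * N) by (clear * - hN; positivity))
      have h8 : β ^ 2 / (2 * N) * (2 * (N * q l) * (∑ i, (∑ x, R.pr l z x * spin x i) ^ 2) -
          (N * q l) ^ 2) = β ^ 2 * q l * (∑ i, (∑ x, R.pr l z x * spin x i) ^ 2) -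
          β ^ 2 / 2 * N * q l ^ 2 := by
        field_simp
      rw [h8] at h7
      linarith only [h7]
    linarith only [h3, h2]

/-- The bound of the bracket. -/
lemma brk_le (hN : 0 < N) (hK : 1 ≤ K) {m : ℕ → ℝ} (hm : Exponents K m) (β : ℝ) {q : ℕ → ℝ}
    (hq : Path K q) (hq0 : q 0 = 0) (θ : ℝ) :
    brk (uS N K m) (fun x => x) (fun _ => 1) (fun _ => 0) (ua β) (ub β q) θ ≤
      β ^ 2 / 2 * N - β ^ 2 * N * q K +
        ∑ l ∈ Finset.range (K + 1), (m (l + 1) - m l) * (β ^ 2 / 2 * N * q l ^ 2) := by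
  have hS := uS_regD (N := N) hK hm
  have hR := (regD_it (α := ua β) (β := ub β q) hS pot_id θ).toReg
  unfold brk
  have e1 : (fun (z : GI (Ix N) N K → ℝ) (x : Fin N → Bool) => ((0 : ℝ) + 1 ^ 2) *
      (∑ e : GI (Ix N) N K, ua β x e ^ 2 - ∑ e : GI (Ix N) N K, ub β q x e ^ 2)) =
      fun _ _ => β ^ 2 / 2 * N - β ^ 2 * N * q K := by
    funext z x
    rw [sum_ua_sq hN, sum_ub_sq β hq]
    ring
  simp only []
  rw [e1, hR.Ex_const]
  have h2 : ∑ l ∈ Finset.range (K + 1), (m (l + 1) - m l) * (-(β ^ 2 / 2 * N * q l ^ 2)) ≤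
      ∑ l ∈ Finset.range ((uS N K m).K + 1), (uS N K m).p l *
        ∑ e, if (uS N K m).lev e ≤ l then
      (((uS N K m).wH (it (uS N K m).H (fun x => x) (ua β) (ub β q) θ)).Ex (fun z _ =>
        ((uS N K m).wH (it (uS N K m).H (fun x => x) (ua β) (ub β q) θ)).T l
          (fun _ x => 1 * ua β x e) z ^ 2) -
        ((uS N K m).wH (it (uS N K m).H (fun x => x) (ua β) (ub β q) θ)).Ex (fun z _ =>
        ((uS N K m).wH (it (uS N K m).H (fun x => x) (ua β) (ub β q) θ)).T l
          (fun _ x => 1 * ub β q x e) z ^ 2)) else 0 := by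
    refine Finset.sum_le_sum fun l hl => ?_
    have hl' : l ≤ K := Nat.le_of_lt_succ (Finset.mem_range.1 hl)
    exact mul_le_mul_of_nonneg_left (level_ge hN hR rfl rfl β hq hq0 hl')
      (by linarith only [hm.2.2 l hl'])
  have h3 : ∑ l ∈ Finset.range (K + 1), (m (l + 1) - m l) * (-(β ^ 2 / 2 * N * q l ^ 2)) =
      -∑ l ∈ Finset.range (K + 1), (m (l + 1) - m l) * (β ^ 2 / 2 * N * q l ^ 2) := by
    rw [← Finset.sum_neg_distrib]
    exact Finset.sum_congr rfl fun l _ => by ring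
  rw [h3] at h2
  linarith only [h2]

/-- The value at the end: the fields alone. -/
lemma fe_zero (hK : 1 ≤ K) {m : ℕ → ℝ} (hm : Exponents K m) {β : ℝ} (hβ : 0 ≤ β)
    {q : ℕ → ℝ} (hq : Path K q) :
    ((uS N K m).wH (it (uS N K m).H (fun x => x) (ua β) (ub β q) 0)).fe =
      N * (spinPart K m (fun l => β ^ 2 * q l) + β ^ 2 * q K / 2) := by
  have hS := uS_regD (N := N) hK hm
  have hR := regD_it (α := ua β) (β := ub β q) hS pot_id 0
  have key := fe_field (S := (uS N K m).wH (it (uS N K m).H (fun x => x) (ua β) (ub β q) 0)) hR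
    (φ := spin) (u := fun _ => -(N * Real.log 2)) (zc := gz)
    (s := fun l => β * √(incr q l)) ?_ ?_ ?_ ?_
  · rw [key]
    have h1 := Vale.Agent.P157.Par.topN_spin hm N (r := fun l =>
      ∑ j ∈ Finset.range (l + 1), (β * √(incr q j)) ^ 2)
    refine h1.trans ?_
    have h2 : ∀ l ≤ K, ∑ j ∈ Finset.range (l + 1), (β * √(incr q j)) ^ 2 = β ^ 2 * q l := by
      intro l hl
      rw [← sum_incr' q l, Finset.mul_sum]
      refine Finset.sum_congr rfl fun j hj => ?_
      have hj' : j ≤ K := by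
        have := Finset.mem_range.1 hj
        omega
      rw [mul_pow, Real.sq_sqrt (incr_nonneg' hq hj')]
    have h3 : spinPart K m (fun l => ∑ j ∈ Finset.range (l + 1), (β * √(incr q j)) ^ 2) =
        spinPart K m (fun l => β ^ 2 * q l) := by
      unfold spinPart
      rw [br_cascade_congr (m := m) (q := fun l => ∑ j ∈ Finset.range (l + 1),
        (β * √(incr q j)) ^ 2) (q' := fun l => β ^ 2 * q l) h2]
      simp only [h2 0 (Nat.zero_le _), h2 K le_rfl]
    rw [h3, h2 K le_rfl]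
  · intro l hl i
    have hl' : l ≤ K := hl
    show ((Fin.ofNat (K + 1) l : Fin (K + 1)) : ℕ) = l
    simp only [Fin.ofNat, Nat.mod_eq_of_lt (Nat.lt_succ_of_le hl')]
  · intro l hl i j hij
    exact (Prod.ext_iff.1 (Sum.inr_injective hij)).2
  · intro l hl
    positivity
  · intro z x
    show -(N * Real.log 2) + itU (ua β) (ub β q) 0 z x = _
    unfold itU
    rw [Real.sin_zero, Real.cos_zero, zero_mul, one_mul, zero_add, lin_ub]
    rfl

/-- The value at the beginning: the moment of the partition function. -/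
lemma fe_one (hK : 1 ≤ K) {m : ℕ → ℝ} (hm : Exponents K m) (β : ℝ)
    {q : ℕ → ℝ} :
    ((uS N K m).wH (it (uS N K m).H (fun x => x) (ua β) (ub β q) (Real.pi / 2))).fe =
      1 / m 1 * Real.log (∫ g, Real.exp (m 1 * Ft β N g) ∂(gI (Ix N))) := by
  have hS := uS_regD (N := N) hK hm
  have hR := (regD_it (α := ua β) (β := ub β q) hS pot_id (Real.pi / 2)).toReg
  set R := (uS N K m).wH (it (uS N K m).H (fun x => x) (ua β) (ub β q) (Real.pi / 2)) with hRdef
  have hH : ∀ z x, R.H z x = -(N * Real.log 2) + β / 2 * qf (Wm N (r0 z)) (spin x) := by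
    intro z x
    show -(N * Real.log 2) + itU (ua β) (ub β q) (Real.pi / 2) z x = _
    unfold itU
    rw [Real.sin_pi_div_two, Real.cos_pi_div_two, zero_mul, one_mul, add_zero, lin_ua]
  have htop : ∀ z, R.top z = Ft β N (r0 z) := by
    intro z
    unfold Sy.top Ft
    congr 1
    refine Finset.sum_congr rfl fun x _ => ?_
    rw [hH]
    congr 1
    ring
  have hdep : Dep R.lev 1 R.top := by
    intro z w
    rw [htop, htop]
    have h1 : r0 (mix R.lev 1 z w) = r0 z := by
      funext e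
      unfold r0 mix
      exact if_pos (le_refl 1)
    rw [h1]
  have key : ∀ l ≤ R.K, 1 ≤ l → R.lg l = R.top := by
    intro l hl
    refine Sy.down_ind (P := fun l => 1 ≤ l → R.lg l = R.top) (fun _ => Sy.lg_top R)
      (fun l hl ih hl1 => ?_) l hl
    rw [Sy.lg_step R hl, ih (by omega)]
    funext z
    have hd : Dep R.lev l (fun z => Real.exp (R.m (l + 1) * R.top z)) := by
      intro z w
      simp only [hdep.mono hl1 z w]
    have hm' : R.m (l + 1) ≠ 0 := (hR.m_pos (by omega) (by omega)).ne'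
    unfold Sy.stp
    rw [hd.J_eq, Real.log_exp]
    field_simp
  have hRK : R.K = K := rfl
  have hm1 : R.m (0 + 1) = m 1 := rfl
  have h0 : R.lg 0 = fun _ => 1 / m 1 * Real.log (∫ g, Real.exp (m 1 * Ft β N g) ∂(gI (Ix N))) := by
    rw [Sy.lg_step R (by omega), key (0 + 1) (by omega) le_rfl]
    funext z
    unfold Sy.stp
    rw [hm1]
    congr 2
    have hEG : EG fun g : Ix N → ℝ => Real.exp (m 1 * Ft β N g) := (lip_Ft β N).exp_eg (m 1)
    rw [← Sk.Gen.J_dep_zero_int (N := N) (K := K) hEG]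
    unfold J
    refine integral_congr_ae (Filter.Eventually.of_forall fun w => ?_)
    simp only
    have h1 : r0 (mix R.lev 0 z w) = r0 w := by
      funext e
      unfold r0 mix
      exact if_neg (by show ¬ (1 ≤ 0); omega)
    rw [htop, h1]
  unfold Sy.fe
  rw [h0]
  simp

/-- **Guerra's bound for fractional moments.** -/
theorem gue (hN : 0 < N) (hK : 1 ≤ K) {m q : ℕ → ℝ} (hm : Exponents K m) (hq : Path K q)
    (hq0 : q 0 = 0) {β : ℝ} (hβ : 0 ≤ β) :
    1 / m 1 * Real.log (∫ g, Real.exp (m 1 * Ft β N g) ∂(gI (Ix N))) ≤ N * PSK β K m q := by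
  have hS := uS_regD (N := N) hK hm
  have h := int_le hS pot_id (sep_u β q) (fun θ _ _ => brk_le hN hK hm β hq hq0 θ)
  rw [fe_zero hK hm hβ hq, fe_one hK hm β] at h
  unfold PSK
  have e : ∑ l ∈ Finset.range (K + 1), (m (l + 1) - m l) * (β ^ 2 / 2 * N * q l ^ 2) =
      β ^ 2 / 2 * N * ∑ l ∈ Finset.range (K + 1), (m (l + 1) - m l) * q l ^ 2 := by
    rw [Finset.mul_sum]
    exact Finset.sum_congr rfl fun l _ => by ring
  rw [e] at h
  linarith only [h]

/-- The normalized moments increase. -/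
lemma log_moment_mono {ι : Type} [Fintype ι] {F : (ι → ℝ) → ℝ} (hF : Lip F) {x y : ℝ} (hx : 0 < x)
    (hxy : x ≤ y) : 1 / x * Real.log (∫ g, Real.exp (x * F g) ∂(gI ι)) ≤
      1 / y * Real.log (∫ g, Real.exp (y * F g) ∂(gI ι)) := by
  have hy : 0 < y := hx.trans_le hxy
  have hix := (hF.exp_eg x).integrable
  have hiy := (hF.exp_eg y).integrable
  have hpx : 0 < ∫ g, Real.exp (x * F g) ∂(gI ι) := integral_exp_pos hix
  have hpy : 0 < ∫ g, Real.exp (y * F g) ∂(gI ι) := integral_exp_pos hiy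
  set a := Real.log (∫ g, Real.exp (y * F g) ∂(gI ι)) with ha
  have hexpa : Real.exp a = ∫ g, Real.exp (y * F g) ∂(gI ι) := Real.exp_log hpy
  set w := x / y with hw
  have hw0 : 0 ≤ w := by positivity
  have hw1 : w ≤ 1 := (div_le_one hy).2 hxy
  have hpt : ∀ g, Real.exp (x * F g) ≤ Real.exp (w * a) * (w * Real.exp (-a) * Real.exp (y * F g) +
      (1 - w)) := by
    intro g
    have h1 := convexOn_exp.2 (Set.mem_univ (y * F g - a)) (Set.mem_univ 0) hw0
      (sub_nonneg.2 hw1) (by ring)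
    simp only [smul_eq_mul, mul_zero, add_zero, Real.exp_zero, mul_one] at h1
    have h2 : Real.exp (x * F g) = Real.exp (w * a) * Real.exp (w * (y * F g - a)) := by
      rw [← Real.exp_add]
      congr 1
      rw [hw]
      field_simp
      ring
    have h3 : Real.exp (y * F g - a) = Real.exp (-a) * Real.exp (y * F g) := by
      rw [← Real.exp_add]
      congr 1
      ring
    rw [h2]
    refine mul_le_mul_of_nonneg_left ?_ (Real.exp_pos _).le
    rw [h3] at h1
    linarith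
  have h4 : ∫ g, Real.exp (x * F g) ∂(gI ι) ≤ Real.exp (w * a) := by
    have hi : Integrable (fun g => Real.exp (w * a) * (w * Real.exp (-a) * Real.exp (y * F g) +
        (1 - w))) (gI ι) := ((hiy.const_mul (w * Real.exp (-a))).add
      (integrable_const (1 - w))).const_mul (Real.exp (w * a))
    refine (integral_mono hix hi hpt).trans (le_of_eq ?_)
    rw [integral_const_mul, integral_add (hiy.const_mul _) (integrable_const _),
      integral_const_mul, ← hexpa, mul_assoc, ← Real.exp_add]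
    simp
  have h8 : Real.log (∫ g, Real.exp (x * F g) ∂(gI ι)) ≤ w * a :=
    (Real.log_le_iff_le_exp hpx).2 h4
  calc 1 / x * Real.log (∫ g, Real.exp (x * F g) ∂(gI ι)) ≤ 1 / x * (w * a) :=
        mul_le_mul_of_nonneg_left h8 (by positivity)
    _ = 1 / y * a := by
        rw [hw]
        field_simp

/-- The first moment. -/
lemma log_first_moment (hN : 0 < N) (β : ℝ) :
    Real.log (∫ g, Real.exp (Ft β N g) ∂(gI (Ix N))) = N * (β ^ 2 / 4) := by
  have hN' : (0 : ℝ) < N := by exact_mod_cast hN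
  have h1 : ∀ g, Real.exp (Ft β N g) = ∑ x : Fin N → Bool, Real.exp (-(N * Real.log 2)) *
      Real.exp (Sk.Low.lf (fun p : Ix N => β / √(2 * (N : ℝ)) * (spin x p.1 * spin x p.2)) g) := by
    intro g
    unfold Ft
    rw [Real.exp_log (Finset.sum_pos (fun x _ => Real.exp_pos _) Finset.univ_nonempty)]
    refine Finset.sum_congr rfl fun x _ => ?_
    rw [← Real.exp_add, Sk.qf_Wm]
    congr 1
    unfold Sk.Low.lf
    rw [Fintype.sum_prod_type]
    have : ∑ i, ∑ j, β / √(2 * (N : ℝ)) * (spin x i * spin x j) * g (i, j) =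
        β / √(2 * (N : ℝ)) * ∑ i, ∑ j, g (i, j) * (spin x i * spin x j) := by
      rw [Finset.mul_sum]
      refine Finset.sum_congr rfl fun i _ => ?_
      rw [Finset.mul_sum]
      exact Finset.sum_congr rfl fun j _ => by ring
    rw [this]
    ring
  simp only [h1]
  rw [integral_finsetSum _ fun x _ => (Sk.Low.exp_lf_integrable _).const_mul _]
  have h2 : ∀ x : Fin N → Bool, ∑ p : Ix N, (β / √(2 * (N : ℝ)) *
      (spin x p.1 * spin x p.2)) ^ 2 = β ^ 2 / 2 * N := by
    intro x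
    have h3 : ∀ p : Ix N, (β / √(2 * (N : ℝ)) * (spin x p.1 * spin x p.2)) ^ 2 =
        β ^ 2 / (2 * N) := by
      intro p
      rw [mul_pow, mul_pow, spin_sq', spin_sq', div_pow, Real.sq_sqrt (by positivity)]
      ring
    simp only [h3, Finset.sum_const, Finset.card_univ, Fintype.card_prod, Fintype.card_fin,
      nsmul_eq_mul]
    push_cast
    field_simp
  simp only [integral_const_mul, Sk.Low.int_exp_lf, h2]
  rw [Finset.sum_const, Finset.card_univ, nsmul_eq_mul, Fintype.card_fun, Fintype.card_bool,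
    Fintype.card_fin]
  push_cast
  rw [Real.log_mul (by positivity) (by positivity), Real.log_mul (Real.exp_ne_zero _)
    (Real.exp_ne_zero _), Real.log_exp, Real.log_exp, Real.log_pow]
  ring

/-- **Guerra's bound for fractional moments**, for every order at most `m 1`. -/
theorem gue_le (hN : 0 < N) {m q : ℕ → ℝ} (hm : Exponents K m) (hq : Path K q)
    (hq0 : q 0 = 0) {β : ℝ} (hβ : 0 ≤ β) {x : ℝ} (hx : 0 < x) (hxm : x ≤ m 1) :
    1 / x * Real.log (∫ g, Real.exp (x * Ft β N g) ∂(gI (Ix N))) ≤ N * PSK β K m q := by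
  refine (log_moment_mono (lip_Ft β N) hx hxm).trans ?_
  rcases Nat.eq_zero_or_pos K with hK | hK
  · subst hK
    have hm1 : m 1 = 1 := hm.2.1
    rw [hm1]
    have h1 := log_first_moment hN β
    simp only [one_mul]
    rw [h1]
    refine le_of_eq ?_
    unfold PSK spinPart
    simp [hq0, Vale.Agent.P157.Par.cascade]
  · exact gue hN hK hm hq hq0 hβ

end Vale.Agent.P146.Ub
end

section

/-!
# P146, upper bound of the variance: Guerra's bound for the fractional moments of the partition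
function of the problem file
-/

open MeasureTheory ProbabilityTheory Filter Topology Matrix

namespace Vale.Agent.P146.Ub

open Vale.Agent.P157 (spin)
open Vale.Agent.P157.Lv
open Vale.Agent.P157.Par (Path Exponents)
open Vale.Agent.P146.Sk (Ix Wm Ft PSK pN phi integral_disorder cfEquiv qf_cfEquiv)
open Vale.Agent.P146.Sk.Vr (F0 F1 free_phi eg_F0 eg_F1)

variable {N : ℕ}

lemma F0_eq_Ft (β : ℝ) (z : Ix N → ℝ) : F0 β z = Ft β N z + N * Real.log 2 := by
  unfold F0 Ft
  rw [← Equiv.sum_comp (cfEquiv N)]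
  simp only [qf_cfEquiv]
  have h1 : ∀ x : Fin N → Bool, Real.exp (β / 2 * Sk.qf (Wm N z) (spin x)) =
      Real.exp (N * Real.log 2) * Real.exp (β / 2 * Sk.qf (Wm N z) (spin x) - N * Real.log 2) := by
    intro x
    rw [← Real.exp_add]
    congr 1
    ring
  simp only [h1]
  rw [← Finset.mul_sum, Real.log_mul (Real.exp_pos _).ne'
    (Finset.sum_pos (fun x _ => Real.exp_pos _) Finset.univ_nonempty).ne', Real.log_exp]
  ring

/-- The reflection of the diagonal. -/
def fl (z : Ix N → ℝ) : Ix N → ℝ := fun e => if e.1 = e.2 then -z e else z e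

lemma mp_fl : MeasurePreserving (fl (N := N)) (gI (Ix N)) (gI (Ix N)) := by
  have h : ∀ e : Ix N, MeasurePreserving (fun t : ℝ => if e.1 = e.2 then -t else t)
      (gaussianReal 0 1) (gaussianReal 0 1) := by
    intro e
    by_cases he : e.1 = e.2
    · simp only [he, if_true]
      refine ⟨measurable_neg, ?_⟩
      have := gaussianReal_map_neg (μ := 0) (v := 1)
      rwa [neg_zero] at this
    · simp only [he, if_false]
      exact MeasurePreserving.id _
  exact measurePreserving_pi (fun _ : Ix N => gaussianReal 0 1) (fun _ : Ix N => gaussianReal 0 1) h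

lemma phi_fl (z : Ix N → ℝ) : phi (fl z) = phi z := by
  funext p
  have hp := p.2
  have h1 : ¬ (p.1.1 = p.1.2) := hp.ne
  have h2 : ¬ (p.1.2 = p.1.1) := fun h => h1 h.symm
  unfold phi fl
  rw [if_neg h1]
  simp only [h2, if_false]

lemma trace_fl (z : Ix N → ℝ) : (Wm N (fl z)).trace = -(Wm N z).trace := by
  unfold Matrix.trace Wm fl
  rw [← Finset.sum_neg_distrib]
  refine Finset.sum_congr rfl fun i _ => ?_
  simp only [Matrix.diag_apply, Matrix.of_apply, if_true]
  ring

lemma measurable_free (β : ℝ) : Measurable (freeEnergy N β) := by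
  unfold freeEnergy partitionFn hamiltonian
  fun_prop

/-- The free energy is Lipschitz. -/
lemma lip_free (N : ℕ) (β : ℝ) : Lip (freeEnergy N β) := by
  have hl : ∀ σ : Fin N → ℤˣ, Lip fun g : Pair N → ℝ => β * hamiltonian N g σ := by
    intro σ
    unfold hamiltonian
    refine Lip.const_mul (Lip.const_mul (Lip.sum _ fun p _ => ?_) _) _
    have h := (Lip.coord p).const_mul (((σ p.1.1 : ℤ) : ℝ) * ((σ p.1.2 : ℤ) : ℝ))
    refine (?_ : (fun y : Pair N → ℝ => y p * ((σ p.1.1 : ℤ) : ℝ) * ((σ p.1.2 : ℤ) : ℝ)) =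
      fun y => ((σ p.1.1 : ℤ) : ℝ) * ((σ p.1.2 : ℤ) : ℝ) * y p) ▸ h
    funext y
    ring
  let S : Sy (Pair N) (Fin N → ℤˣ) := ⟨fun _ => 0, 0, fun l => if l = 0 then 0 else 1,
    fun g σ => β * hamiltonian N g σ⟩
  have hS : S.Reg :=
    { m0 := by
        show (if (0 : ℕ) = 0 then (0 : ℝ) else 1) = 0
        norm_num
      mK := by
        show (if (0 + 1 : ℕ) = 0 then (0 : ℝ) else 1) = 1
        norm_num
      mono := fun l hl => by
        have hl0 : l = 0 := Nat.le_zero.1 hl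
        subst hl0
        show (if (0 : ℕ) = 0 then (0 : ℝ) else 1) ≤ if 0 + 1 = 0 then 0 else 1
        norm_num
      pos := by
        show (0 : ℝ) < if (1 : ℕ) = 0 then 0 else 1
        norm_num
      lev := fun e => le_rfl
      lip := hl }
  exact hS.lip_top

/-- The exponential moments of the free energy are at most those of the model with the diagonal. -/
theorem free_moment_le_Ft (hN : 0 < N) (β x : ℝ) :
    ∫ g, Real.exp (x * freeEnergy N β g) ∂(disorder N) ≤
      Real.exp (x * (N * Real.log 2)) * ∫ z, Real.exp (x * Ft β N z) ∂(gI (Ix N)) := by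
  rw [integral_disorder (by have := measurable_free (N := N) β; fun_prop)]
  have hint : Integrable (fun z : Ix N → ℝ => Real.exp (x * F0 β z)) (gI (Ix N)) := by
    have h1 : (fun z : Ix N → ℝ => Real.exp (x * F0 β z)) =
        fun z => Real.exp (x * (N * Real.log 2)) * Real.exp (x * Ft β N z) := by
      funext z
      rw [F0_eq_Ft, ← Real.exp_add]
      congr 1
      ring
    rw [h1]
    exact ((lip_Ft β N).exp_eg x).integrable.const_mul _
  have hint' : Integrable (fun z : Ix N → ℝ => Real.exp (x * F0 β (fl z))) (gI (Ix N)) :=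
    (mp_fl (N := N)).integrable_comp_of_integrable hint
  have heq : ∫ z, Real.exp (x * F0 β (fl z)) ∂(gI (Ix N)) = ∫ z, Real.exp (x * F0 β z) ∂(gI (Ix N)) := by
    have h2 : Measurable fun z : Ix N → ℝ => Real.exp (x * F0 β z) := by
      have := (eg_F0 (N := N) β).meas
      fun_prop
    conv_rhs => rw [← (mp_fl (N := N)).map_eq]
    rw [integral_map (mp_fl (N := N)).measurable.aemeasurable
      h2.aestronglyMeasurable]
  have hpt : ∀ z : Ix N → ℝ, Real.exp (x * freeEnergy N β (phi z)) ≤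
      1 / 2 * (Real.exp (x * F0 β z) + Real.exp (x * F0 β (fl z))) := by
    intro z
    have e1 := free_phi hN β z
    have e2 := free_phi hN β (fl z)
    rw [phi_fl, trace_fl] at e2
    have e3 : F0 β z = freeEnergy N β (phi z) + β / 2 * (Wm N z).trace := by linarith
    have e4 : F0 β (fl z) = freeEnergy N β (phi z) - β / 2 * (Wm N z).trace := by linarith
    rw [e3, e4]
    set G := freeEnergy N β (phi z)
    set t := x * (β / 2 * (Wm N z).trace)
    have e5 : x * (G + β / 2 * (Wm N z).trace) = x * G + t := by ring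
    have e6 : x * (G - β / 2 * (Wm N z).trace) = x * G + -t := by ring
    rw [e5, e6, Real.exp_add, Real.exp_add]
    have e7 : 2 ≤ Real.exp t + Real.exp (-t) := by
      have h1 := Real.add_one_le_exp t
      have h2 := Real.add_one_le_exp (-t)
      linarith only [h2, h1]
    have e8 := Real.exp_pos (x * G)
    linarith only [mul_nonneg (sub_nonneg.2 e7) (le_of_lt (sub_pos.2 e8))]
  have h3 : ∫ z, Real.exp (x * freeEnergy N β (phi z)) ∂(gI (Ix N)) ≤
      ∫ z, 1 / 2 * (Real.exp (x * F0 β z) + Real.exp (x * F0 β (fl z))) ∂(gI (Ix N)) :=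
    integral_mono_of_nonneg (Filter.Eventually.of_forall fun z => (Real.exp_pos _).le)
      ((hint.add hint').const_mul _) (Filter.Eventually.of_forall hpt)
  refine h3.trans (le_of_eq ?_)
  rw [integral_const_mul, integral_add hint hint', heq]
  have h4 : ∀ z : Ix N → ℝ, Real.exp (x * F0 β z) =
      Real.exp (x * (N * Real.log 2)) * Real.exp (x * Ft β N z) := by
    intro z
    rw [F0_eq_Ft, ← Real.exp_add]
    congr 1
    ring
  simp only [h4]
  rw [integral_const_mul]
  ring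

/-- **Guerra's bound for fractional moments of the partition function.** -/
theorem free_moment_le (hN : 0 < N) {K : ℕ} {m q : ℕ → ℝ} (hm : Exponents K m) (hq : Path K q)
    (hq0 : q 0 = 0) {β : ℝ} (hβ : 0 ≤ β) {x : ℝ} (hx : 0 < x) (hxm : x ≤ m 1) :
    Real.log (∫ g, Real.exp (x * freeEnergy N β g) ∂(disorder N)) ≤
      x * N * (Real.log 2 + PSK β K m q) := by
  have h1 := gue_le hN hm hq hq0 hβ hx hxm
  have h2 := free_moment_le_Ft hN β x
  have h3 : 0 < ∫ z, Real.exp (x * Ft β N z) ∂(gI (Ix N)) :=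
    integral_exp_pos ((lip_Ft β N).exp_eg x).integrable
  have h0 : 0 < ∫ g, Real.exp (x * freeEnergy N β g) ∂(gI (Pair N)) :=
    integral_exp_pos ((lip_free N β).exp_eg x).integrable
  have hmono : Real.log (∫ g, Real.exp (x * freeEnergy N β g) ∂(disorder N)) ≤
      x * (N * Real.log 2) + Real.log (∫ z, Real.exp (x * Ft β N z) ∂(gI (Ix N))) := by
    refine (Real.log_le_log h0 h2).trans (le_of_eq ?_)
    rw [Real.log_mul (Real.exp_pos _).ne' h3.ne', Real.log_exp]
  refine hmono.trans ?_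
  have h4 : Real.log (∫ z, Real.exp (x * Ft β N z) ∂(gI (Ix N))) ≤ x * (N * PSK β K m q) := by
    have h5 := mul_le_mul_of_nonneg_left h1 hx.le
    rwa [← mul_assoc, mul_one_div_cancel hx.ne', one_mul] at h5
  linarith only [h4]

/-- The same bound for the functional of `Gap`. -/
theorem free_moment_le' (hN : 0 < N) {K : ℕ} {m q : ℕ → ℝ} (hm : Exponents K m) (hq : Path K q)
    (hq0 : q 0 = 0) {β : ℝ} (hβ : 0 ≤ β) {x : ℝ} (hx : 0 < x) (hxm : x ≤ m 1) :
    Real.log (∫ g, Real.exp (x * freeEnergy N β g) ∂(disorder N)) ≤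
      x * N * (Real.log 2 + Gap.SKpar β K m q) := free_moment_le hN hm hq hq0 hβ hx hxm

/-- **Guerra's bound for the moments** (module GUE). -/
theorem guerra {β : ℝ} (hβ : 0 < β) {n K : ℕ} (hn : 1 ≤ n) {m q : ℕ → ℝ} (hm : Exponents K m)
    (hq : Path K q) (hq0 : q 0 = 0) (_hq1 : q K ≤ 1) {x : ℝ} (hx : 0 < x) (hx1 : x ≤ m 1) :
    Real.log (∫ g, Real.exp (x * freeEnergy n β g) ∂(disorder n)) ≤
      x * n * (Real.log 2 + Gap.SKpar β K m q) := free_moment_le' hn hm hq hq0 hβ.le hx hx1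

/-- The mean of the free energy. -/
theorem free_mean (hN : 0 < N) (β : ℝ) :
    ∫ g, freeEnergy N β g ∂(disorder N) = N * (Real.log 2 + pN β N) := by
  have hN' : (0 : ℝ) < N := by exact_mod_cast hN
  rw [integral_disorder (measurable_free β)]
  have htr : EG fun z : Ix N → ℝ => (Wm N z).trace := (Sk.egm_Wm (N := N)).trace
  have h0 : ∫ z : Ix N → ℝ, (Wm N z).trace ∂(gI (Ix N)) = 0 := by
    have h1 : ∫ z : Ix N → ℝ, (Wm N (fl z)).trace ∂(gI (Ix N)) =
        ∫ z : Ix N → ℝ, (Wm N z).trace ∂(gI (Ix N)) := by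
      conv_rhs => rw [← (mp_fl (N := N)).map_eq]
      rw [integral_map (mp_fl (N := N)).measurable.aemeasurable
        htr.meas.aestronglyMeasurable]
    simp only [trace_fl, integral_neg] at h1
    linarith
  have h1 : ∀ z : Ix N → ℝ, freeEnergy N β (phi z) =
      Ft β N z + (N * Real.log 2 - β / 2 * (Wm N z).trace) := by
    intro z
    rw [free_phi hN, F0_eq_Ft]
    ring
  have h2 : ∫ z : Ix N → ℝ, (Ft β N z + (N * Real.log 2 - β / 2 * (Wm N z).trace)) ∂(gI (Ix N)) =
      (∫ z, Ft β N z ∂(gI (Ix N))) + N * Real.log 2 := by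
    have i2 : Integrable (fun z : Ix N → ℝ => N * Real.log 2 - β / 2 * (Wm N z).trace)
        (gI (Ix N)) := (integrable_const _).sub (htr.integrable.const_mul _)
    rw [integral_add (lip_Ft β N).eg.integrable i2,
      integral_sub (integrable_const _) (htr.integrable.const_mul _),
      integral_const_mul (β / 2), h0]
    simp
  simp only [h1]
  rw [h2]
  unfold pN
  field_simp
  ring

end Vale.Agent.P146.Ub
end
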