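import Vale.Agent.P146.Bdl.B25
import Vale.Agent.P146.Bdl.B28
import Vale.Agent.P146.Bdl.B10

set_option linter.all false

section

/-!
(R), module REG: regularity, fields, perturbations and covariances of the systems.
-/

open MeasureTheory ProbabilityTheory Filter Topology

namespace Vale.Agent.P146.Ub

set_option linter.unusedSectionVars false

open Vale.Agent.P157 Vale.Agent.P157.Lv Vale.Agent.P157.Lv.Sy
open Vale.Agent.P157.Par (Path Exponents incr)
open Vale.Agent.P146 (Pair)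

variable {n K N : ℕ} {m s R : ℕ → ℝ} {β θ : ℝ}

theorem rr_val {l : ℕ} (hl : l ≤ K) : (Fin.ofNat (K + 1) l : ℕ) = l := by
  simp [Fin.ofNat, Nat.mod_eq_of_lt (Nat.lt_succ_of_le hl)]

theorem rr_zc (hN : N ≤ n) {l : ℕ} (hl : l ≤ K) (i : Fin N) : rlev (zc hN l i : RI n K) = l :=
  rr_val hl

/-- Any system whose coefficients of the fields of the sites `i < N` are those of `fd N s`. -/
theorem r_fld (hN : N ≤ n) (h0 : 0 < N) (hm : Exponents K m) (hs : ∀ l ≤ K, 0 ≤ s l) (c : ℝ)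
    {a : (Fin n → Bool) → RI n K → ℝ}
    (ha : ∀ x (p : Fin (K + 1) × Fin n), (p.2 : ℕ) < N →
      a x (Sum.inr (Sum.inl p)) = s p.1 * spin x p.2) :
    Fld (ls rlev K m c a) (fun e _ x => a x e) (ph hN) (zc hN) s where
  reg := ls_regD hm rlev_le c a
  N0 := h0
  norm := fun x => by
    have h : ∀ i : Fin N, ph hN x i ^ 2 = 1 := fun i => by
      unfold ph
      rw [sq, rc_spin_sq]
    simp [h]
  lev := fun l hl i => rr_zc hN hl i
  D := fun l hl i z x => by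
    show a x (Sum.inr (Sum.inl (Fin.ofNat (K + 1) l, Fin.castLE hN i))) = s l * ph hN x i
    rw [ha x (Fin.ofNat (K + 1) l, Fin.castLE hN i) (by simp)]
    show s (Fin.ofNat (K + 1) l : ℕ) * spin x (Fin.castLE hN i) = _
    rw [rr_val (K := K) hl]
    rfl
  pos := hs

theorem SN_fld (hN : N ≤ n) (h0 : 0 < N) (hm : Exponents K m) (hs : ∀ l ≤ K, 0 ≤ s l) :
    Fld (SN n K m β N s) (fun e _ x => st β N s x e) (ph hN) (zc hN) s := by
  refine r_fld hN h0 hm hs (lc n) fun x p hp => ?_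
  show dsk N (β / √N) x (Sum.inr (Sum.inl p)) + fd N s x (Sum.inr (Sum.inl p)) = _
  simp [dsk_a, dsk_b, fd_a, fd_b, fd_c, hp]

theorem ST_fld (hN : N ≤ n) (h0 : 0 < N) (hm : Exponents K m) (hs : ∀ l ≤ K, 0 ≤ s l) :
    Fld (ST n K m β N s R θ) (fun e _ x => tc β N s R θ x e) (ph hN) (zc hN) s := by
  refine r_fld hN h0 hm hs (lc n) fun x p hp => ?_
  show (dsk N _ x (Sum.inr (Sum.inl p)) + fd N s x (Sum.inr (Sum.inl p))) +
    (Real.sin θ * tre N β R x (Sum.inr (Sum.inl p)) +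
      Real.cos θ * cav N _ x (Sum.inr (Sum.inl p))) = _
  simp [dsk_a, dsk_b, fd_a, fd_b, fd_c, tre_a, tre_b, tre_c, cav_a, cav_b, hp]

/-- The extensive field of the level `j`. -/
noncomputable def gx (hN : N ≤ n) (j : ℕ) : (RI n K → ℝ) → (Fin n → Bool) → ℝ :=
  fun z x => ∑ i, z (zc hN j i) * ph hN x i

theorem hz_eq_gx (hN : N ≤ n) (j : ℕ) (z : RI n K → ℝ) (x : Fin n → Bool) :
    hz (ph hN) (zc hN) j z x = 1 / N * gx hN j z x := rfl

theorem nh_gx (hN : N ≤ n) (j : ℕ) : Nh (gx (K := K) hN j) :=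
  Sy.Nh.sum _ fun i _ => Sy.Nh.mul (Sy.Nh.fst (EG.coord (zc hN j i))) (Sy.Nh.snd fun x => ph hN x i)

theorem rr_lin (a b : RI n K → ℝ) (z : RI n K → ℝ) : lin (a + b) z = lin a z + lin b z := by
  unfold lin
  rw [← Finset.sum_add_distrib]
  refine Finset.sum_congr rfl fun e _ => ?_
  rw [Pi.add_apply]
  ring

/-- The fields as a linear form. -/
theorem rr_lin_fd (hN : N ≤ n) (s : ℕ → ℝ) (x : Fin n → Bool) (z : RI n K → ℝ) :
    lin (fd N s x) z = ∑ l ∈ Finset.range (K + 1), s l * gx hN l z x := by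
  unfold lin
  rw [Fintype.sum_sum_type, Fintype.sum_sum_type]
  have h1 : ∑ e : Pair n, fd (K := K) N s x (Sum.inl e) * z (Sum.inl e) = 0 :=
    Finset.sum_eq_zero fun e _ => by simp [fd_a, fd_b, fd_c]
  have h2 : ∑ e : Fin (K + 1), fd (K := K) N s x (Sum.inr (Sum.inr e)) *
      z (Sum.inr (Sum.inr e)) = 0 :=
    Finset.sum_eq_zero fun e _ => by simp [fd_a, fd_b, fd_c]
  rw [h1, h2, zero_add, add_zero, Fintype.sum_prod_type]
  rw [← Fin.sum_univ_eq_sum_range (fun l => s l * gx hN l z x) (K + 1)]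
  refine Finset.sum_congr rfl fun l _ => ?_
  have h3 : ∀ i : Fin n, fd (K := K) N s x (Sum.inr (Sum.inl (l, i))) *
      z (Sum.inr (Sum.inl (l, i))) =
      if (i : ℕ) < N then s l * (z (Sum.inr (Sum.inl (l, i))) * spin x i) else 0 := fun i => by
    simp only [fd_a, fd_b, fd_c]
    split_ifs
    · ring
    · ring
  simp only [h3]
  rw [rc_sum_lt hN fun i => s l * (z (Sum.inr (Sum.inl (l, i))) * spin x i)]
  unfold gx
  rw [Finset.mul_sum]
  refine Finset.sum_congr rfl fun i _ => ?_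
  unfold zc ph
  have h4 : (Fin.ofNat (K + 1) (l : ℕ)) = l := by
    ext
    rw [rr_val (Nat.le_of_lt_succ l.2)]
  rw [h4]

theorem rr_update (hN : N ≤ n) {j : ℕ} (hj : j ≤ K) (t : ℝ) (x : Fin n → Bool)
    (z : RI n K → ℝ) :
    lin (fd N (Function.update s j (s j + t)) x) z = lin (fd N s x) z + t * gx hN j z x := by
  rw [rr_lin_fd hN, rr_lin_fd hN]
  have hj' : j ∈ Finset.range (K + 1) := Finset.mem_range.2 (Nat.lt_succ_of_le hj)
  rw [← Finset.add_sum_erase _ _ hj', ← Finset.add_sum_erase _ _ hj', Function.update_self]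
  have h2 : ∑ l ∈ (Finset.range (K + 1)).erase j, Function.update s j (s j + t) l *
      gx hN l z x = ∑ l ∈ (Finset.range (K + 1)).erase j, s l * gx hN l z x := by
    refine Finset.sum_congr rfl fun l hl => ?_
    rw [Function.update_of_ne (Finset.ne_of_mem_erase hl)]
  rw [h2]
  ring

theorem SN_pt (hN : N ≤ n) {j : ℕ} (hj : j ≤ K) (t : ℝ) :
    (SN n K m β N s).pt (gx hN j) t = SN n K m β N (Function.update s j (s j + t)) := by
  unfold SN ls Sy.pt Sy.wH
  congr 1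
  funext z x
  show lin (st β N s x) z + lc n + t * gx hN j z x = lin (st β N _ x) z + lc n
  unfold st
  simp only [Pi.add_apply, rr_lin]
  rw [rr_update hN hj]
  ring

theorem ST_pt (hN : N ≤ n) {j : ℕ} (hj : j ≤ K) (t : ℝ) :
    (ST n K m β N s R θ).pt (gx hN j) t =
      ST n K m β N (Function.update s j (s j + t)) R θ := by
  unfold ST ls Sy.pt Sy.wH
  congr 1
  funext z x
  show lin (tc β N s R θ x) z + lc n + t * gx hN j z x = lin (tc β N _ R θ x) z + lc n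
  unfold tc
  rw [lin_ith, lin_ith]
  unfold sc
  simp only [Pi.add_apply, rr_lin]
  rw [rr_update hN hj]
  ring

/-! ### The variances -/

theorem rr_fd (hN : N ≤ n) (s : ℕ → ℝ) (x : Fin n → Bool) :
    ∑ e, (if rlev e = 0 then fd (K := K) N s x e ^ 2 else 0) = s 0 ^ 2 * N := by
  rw [Fintype.sum_sum_type, Fintype.sum_sum_type]
  have h1 : ∑ e : Pair n, (if rlev (Sum.inl e : RI n K) = 0 then
      fd (K := K) N s x (Sum.inl e) ^ 2 else 0) = 0 :=
    Finset.sum_eq_zero fun e _ => by simp [fd_a, fd_b, fd_c]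
  have h2 : ∑ e : Fin (K + 1), (if rlev (Sum.inr (Sum.inr e) : RI n K) = 0 then
      fd (K := K) N s x (Sum.inr (Sum.inr e)) ^ 2 else 0) = 0 :=
    Finset.sum_eq_zero fun e _ => by simp [fd_a, fd_b, fd_c]
  rw [h1, h2, zero_add, add_zero, Fintype.sum_prod_type, Finset.sum_eq_single (0 : Fin (K + 1))]
  · have h3 : ∀ i : Fin n, (if rlev (Sum.inr (Sum.inl ((0 : Fin (K + 1)), i)) : RI n K) = 0 then
        fd (K := K) N s x (Sum.inr (Sum.inl (0, i))) ^ 2 else 0) =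
        if (i : ℕ) < N then s 0 ^ 2 else 0 := fun i => by
      rw [if_pos (show rlev (Sum.inr (Sum.inl ((0 : Fin (K + 1)), i)) : RI n K) = 0 from rfl)]
      simp only [fd_a, fd_b, fd_c]
      split_ifs
      · show (s 0 * spin x i) ^ 2 = s 0 ^ 2
        have := rc_spin_sq x i
        rw [mul_pow, sq (spin x i), this, mul_one]
      · ring
    simp only [h3]
    rw [rc_sum_lt hN fun _ => s 0 ^ 2]
    simp [mul_comm]
  · intro l _ hl
    refine Finset.sum_eq_zero fun i _ => ?_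
    rw [if_neg]
    intro h
    exact hl (Fin.ext h)
  · intro h
    exact absurd (Finset.mem_univ _) h

theorem rr_dsk (hN : N ≤ n) (γ : ℝ) (x : Fin n → Bool) :
    ∑ e, (if rlev e = 0 then dsk (K := K) N γ x e ^ 2 else 0) = γ ^ 2 * ((N : ℝ) ^ 2 - N) / 2 := by
  have h := cv_dsk (K := K) hN 0 γ γ x x
  rw [rc_NRov_self] at h
  rw [sq γ, ← h]
  unfold cv
  refine Finset.sum_congr rfl fun e _ => ?_
  simp only [Nat.le_zero]
  rw [sq]

theorem rr_cav (hN : N < n) (γ : ℝ) (x : Fin n → Bool) :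
    ∑ e, (if rlev e = 0 then cav (K := K) N γ x e ^ 2 else 0) = γ ^ 2 * N := by
  have h := cv_cav (K := K) hN 0 γ x x
  have h1 := sp_sq hN x
  rw [rc_NRov_self, ← sq (sp N x), h1, mul_one] at h
  rw [← h]
  unfold cv
  refine Finset.sum_congr rfl fun e _ => ?_
  simp only [Nat.le_zero]
  rw [sq]

theorem rr_tre (hN : N < n) (γ : ℝ) (hR : Path K R) (x : Fin n → Bool) :
    ∑ e, (if rlev e = 0 then tre (K := K) N γ R x e ^ 2 else 0) = γ ^ 2 * R 0 := by
  have h := cv_tre (K := K) hN (Nat.zero_le _) γ hR x x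
  have h1 := sp_sq hN x
  rw [← sq (sp N x), h1, mul_one] at h
  rw [← h]
  unfold cv
  refine Finset.sum_congr rfl fun e _ => ?_
  simp only [Nat.le_zero]
  rw [sq]

theorem rr_sc (hN : N ≤ n) (γ : ℝ) (x : Fin n → Bool) :
    ∑ e : RI n K, (if rlev e = 0 then (dsk N γ x e + fd N s x e) ^ 2 else 0) =
      γ ^ 2 * ((N : ℝ) ^ 2 - N) / 2 + s 0 ^ 2 * N := by
  rw [← rr_dsk (K := K) hN γ x, ← rr_fd (K := K) hN s x, ← Finset.sum_add_distrib]
  refine Finset.sum_congr rfl fun e _ => ?_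
  split_ifs
  · have := dj_dsk_fd (s := s) (N := N) γ N e x x
    linear_combination 2 * this
  · ring

/-- The variances. -/
theorem SN_var (hN : N ≤ n) (h0 : 0 < N) (hm : Exponents K m) (hs : |s 0| ≤ 2) :
    ∫ z, ((SN n K m β N s).lg 0 z - (SN n K m β N s).fe) ^ 2 ∂(gI (RI n K)) ≤
      2 * ((2 * β ^ 2 + 4) * N) := by
  refine ls_var hm rlev_le (lc n) fun x => ?_
  have hN0 : (0 : ℝ) < N := by exact_mod_cast h0
  show ∑ e : RI n K, (if rlev e = 0 then (dsk N (β / √N) x e + fd N s x e) ^ 2 else 0) ≤ _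
  rw [rr_sc hN, div_pow, Real.sq_sqrt hN0.le]
  have h1 : β ^ 2 / N * ((N : ℝ) ^ 2 - N) / 2 = β ^ 2 * (N - 1) / 2 := by
    field_simp
  have h2 : s 0 ^ 2 ≤ 4 := by
    have := sq_le_sq' (by linarith only [abs_nonneg (s 0)]) hs
    rw [sq_abs] at this
    linarith only [this]
  rw [h1]
  have h3 : s 0 ^ 2 * N ≤ 4 * N := mul_le_mul_of_nonneg_right h2 hN0.le
  have h4 : 0 ≤ β ^ 2 * (N : ℝ) := by positivity
  have h5 : 0 ≤ β ^ 2 := sq_nonneg β
  linarith only [h5, h4, h3]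

theorem ST_var (hN : N + 1 ≤ n) (h0 : 0 < N) (hm : Exponents K m) (hs : |s 0| ≤ 2)
    (hR : Path K R) (hR1 : R K ≤ 1) :
    ∫ z, ((ST n K m β N s R θ).lg 0 z - (ST n K m β N s R θ).fe) ^ 2 ∂(gI (RI n K)) ≤
      2 * ((2 * β ^ 2 + 4) * N) := by
  refine ls_var hm rlev_le (lc n) fun x => ?_
  have hN0 : (0 : ℝ) < N := by exact_mod_cast h0
  have hN1 : (1 : ℝ) ≤ N := by exact_mod_cast h0
  have hlt : N < n := hN
  have hP : (0 : ℝ) < ((N + 1 : ℕ) : ℝ) := by positivity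
  have hR0 : 0 ≤ R 0 := hR.1
  have hmono : ∀ l ≤ K, R 0 ≤ R l := by
    intro l hl
    induction l with
    | zero => exact le_rfl
    | succ l ih => exact (ih (by omega)).trans (hR.2 l (by omega))
  have hR0' : R 0 ≤ 1 := (hmono K le_rfl).trans hR1
  have e1 : ∀ e : RI n K, (if rlev e = 0 then tc β N s R θ x e ^ 2 else 0) =
      (if rlev e = 0 then (dsk N (β / √((N + 1 : ℕ) : ℝ)) x e + fd N s x e) ^ 2 else 0) +
      (Real.sin θ ^ 2 * (if rlev e = 0 then tre (K := K) N β R x e ^ 2 else 0) +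
      Real.cos θ ^ 2 * (if rlev e = 0 then
        cav (K := K) N (β / √((N + 1 : ℕ) : ℝ)) x e ^ 2 else 0)) := by
    intro e
    split_ifs
    · have d1 := dj_tre_cav (R := R) (N := N) β (β / √((N + 1 : ℕ) : ℝ)) e x x
      have d2 := dj_tre_sc (R := R) (N := N) (s := s) (β := β) β e x x
      have d3 := dj_cav_sc (N := N) (s := s) (β := β) (β / √((N + 1 : ℕ) : ℝ)) e x x
      show ((sc β N s) x e + (Real.sin θ * tre N β R x e +
        Real.cos θ * cav N (β / √((N + 1 : ℕ) : ℝ)) x e)) ^ 2 = (sc β N s) x e ^ 2 + _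
      linear_combination (2 * Real.sin θ) * d2 + (2 * Real.cos θ) * d3 +
        (2 * Real.sin θ * Real.cos θ) * d1
    · ring
  show ∑ e, (if rlev e = 0 then tc β N s R θ x e ^ 2 else 0) ≤ _
  simp only [e1]
  rw [Finset.sum_add_distrib, Finset.sum_add_distrib, ← Finset.mul_sum, ← Finset.mul_sum,
    rr_sc hlt.le, rr_tre hlt β hR, rr_cav hlt, div_pow, Real.sq_sqrt hP.le]
  · have h1 : β ^ 2 / ((N + 1 : ℕ) : ℝ) * ((N : ℝ) ^ 2 - N) / 2 ≤ β ^ 2 * N / 2 := by
      rw [div_mul_eq_mul_div, div_div, div_le_div_iff₀ (by positivity) (by norm_num)]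
      push_cast
      have : 0 ≤ β ^ 2 := sq_nonneg β
      have h6 : 0 ≤ β ^ 2 * (N : ℝ) := by positivity
      linarith only [h6]
    have h2 : s 0 ^ 2 ≤ 4 := by
      have := sq_le_sq' (by linarith only [abs_nonneg (s 0)]) hs
      rw [sq_abs] at this
      linarith only [this]
    have h3 : s 0 ^ 2 * N ≤ 4 * N := mul_le_mul_of_nonneg_right h2 hN0.le
    have h4 : β ^ 2 / ((N + 1 : ℕ) : ℝ) * N ≤ β ^ 2 := by
      rw [div_mul_eq_mul_div, div_le_iff₀ hP]
      push_cast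
      have : 0 ≤ β ^ 2 := sq_nonneg β
      linarith only [this]
    have h5 : β ^ 2 * R 0 ≤ β ^ 2 := by
      have : 0 ≤ β ^ 2 := sq_nonneg β
      linarith only [mul_nonneg (sub_nonneg.2 this) (sub_nonneg.2 hR0')]
    have h6 : Real.sin θ ^ 2 * (β ^ 2 * R 0) + Real.cos θ ^ 2 *
        (β ^ 2 / ((N + 1 : ℕ) : ℝ) * N) ≤ β ^ 2 := by
      have g1 := mul_le_mul_of_nonneg_left h5 (sq_nonneg (Real.sin θ))
      have g2 := mul_le_mul_of_nonneg_left h4 (sq_nonneg (Real.cos θ))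
      have g3 := Real.sin_sq_add_cos_sq θ
      calc _ ≤ Real.sin θ ^ 2 * β ^ 2 + Real.cos θ ^ 2 * β ^ 2 := add_le_add g1 g2
        _ = (Real.sin θ ^ 2 + Real.cos θ ^ 2) * β ^ 2 := by ring
        _ = β ^ 2 := by rw [g3, one_mul]
    have h7 : β ^ 2 ≤ β ^ 2 * N := by
      have : 0 ≤ β ^ 2 := sq_nonneg β
      linarith only [mul_nonneg (sub_nonneg.2 this) (sub_nonneg.2 hN1)]
    have h8 : 0 ≤ β ^ 2 := sq_nonneg β
    linarith only [h8, h7, h6, h3, h1]

end Vale.Agent.P146.Ub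
end

section

/-!
(R), module STEP: the step from the stage `N` to the stage `N + 1`.
-/

open MeasureTheory ProbabilityTheory Filter Topology

namespace Vale.Agent.P146.Ub

set_option linter.unusedSectionVars false

open Vale.Agent.P157 Vale.Agent.P157.Lv Vale.Agent.P157.Lv.Sy
open Vale.Agent.P157.Par (Path Exponents incr spinPart)
open Vale.Agent.P146 (Pair)
open Vale.Agent.P146.Sk (PSK)

variable {n K N : ℕ} {m s R : ℕ → ℝ} {β θ : ℝ}

/-! ### Algebra -/

theorem rs_reg (hm : Exponents K m) (c : ℝ) (a : (Fin n → Bool) → RI n K → ℝ) :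
    (ls rlev K m c a).Reg := (ls_regD hm rlev_le c a).toReg

theorem rs_sum_p (hm : Exponents K m) :
    ∑ l ∈ Finset.range (K + 1), (m (l + 1) - m l) = 1 := by
  rw [Finset.sum_range_sub m, hm.2.1, hm.1, sub_zero]

theorem rs_p_nonneg (hm : Exponents K m) {l : ℕ} (hl : l ∈ Finset.range (K + 1)) :
    0 ≤ m (l + 1) - m l := by
  have := hm.2.2 l (by have := Finset.mem_range.1 hl; omega)
  linarith

theorem rs_dsk_add (M : ℕ) (γ γ' : ℝ) :
    (dsk M γ + dsk M γ' : (Fin n → Bool) → RI n K → ℝ) = dsk M (γ + γ') := by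
  funext x e
  rcases e with p | e
  · show (if (p.1.2 : ℕ) < M then γ * (spin x p.1.1 * spin x p.1.2) else 0) +
      (if (p.1.2 : ℕ) < M then γ' * (spin x p.1.1 * spin x p.1.2) else 0) =
      if (p.1.2 : ℕ) < M then (γ + γ') * (spin x p.1.1 * spin x p.1.2) else 0
    split_ifs
    · ring
    · ring
  · show (0 : ℝ) + 0 = 0
    ring

theorem rs_abs_Rov (hN : N ≤ n) (h0 : 0 < N) (x x' : Fin n → Bool) : |Rov (ph hN) x x'| ≤ 1 := by
  have hN0 : (0 : ℝ) < N := by exact_mod_cast h0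
  have hn : ∀ x : Fin n → Bool, ∑ i, ph hN x i ^ 2 = N := by
    intro x
    have : ∀ i, ph hN x i ^ 2 = 1 := by
      intro i
      unfold ph spin
      split_ifs <;> norm_num
    simp [this]
  have h := Finset.sum_mul_sq_le_sq_mul_sq Finset.univ (ph hN x) (ph hN x')
  rw [hn, hn] at h
  have h1 : Rov (ph hN) x x' ^ 2 ≤ 1 := by
    rw [Rov, mul_pow, one_div, inv_pow, inv_mul_le_iff₀ (by positivity)]
    linarith [sq (N : ℝ)]
  exact abs_le_one_iff_mul_self_le_one.mpr (by linarith [sq (Rov (ph hN) x x')])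

/-- `1 - ∑ p_l E_l R² ∈ [0, 1]`. -/
theorem rs_q_mem (hN : N ≤ n) (h0 : 0 < N) (hm : Exponents K m) (c : ℝ)
    (a : (Fin n → Bool) → RI n K → ℝ) :
    0 ≤ 1 - ∑ l ∈ Finset.range (K + 1), (m (l + 1) - m l) *
        (ls rlev K m c a).pairEx l (fun x x' => Rov (ph hN) x x' ^ 2) ∧
      1 - ∑ l ∈ Finset.range (K + 1), (m (l + 1) - m l) *
        (ls rlev K m c a).pairEx l (fun x x' => Rov (ph hN) x x' ^ 2) ≤ 1 := by
  have hR := rs_reg hm c a
  have h1 : ∀ l ∈ Finset.range (K + 1),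
      0 ≤ (ls rlev K m c a).pairEx l (fun x x' => Rov (ph hN) x x' ^ 2) ∧
      (ls rlev K m c a).pairEx l (fun x x' => Rov (ph hN) x x' ^ 2) ≤ 1 := by
    intro l hl
    have hl' : l ≤ (ls rlev K m c a).K := by
      have := Finset.mem_range.1 hl
      show l ≤ K
      omega
    refine ⟨hR.pairEx_nonneg hl' fun x x' => sq_nonneg _, ?_⟩
    rw [← hR.pairEx_const hl' 1]
    refine hR.pairEx_mono hl' fun x x' => ?_
    have := rs_abs_Rov hN h0 x x'
    rw [← sq_abs]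
    exact pow_le_one₀ (abs_nonneg _) this
  have h2 : 0 ≤ ∑ l ∈ Finset.range (K + 1), (m (l + 1) - m l) *
        (ls rlev K m c a).pairEx l (fun x x' => Rov (ph hN) x x' ^ 2) :=
    Finset.sum_nonneg fun l hl => mul_nonneg (rs_p_nonneg hm hl) (h1 l hl).1
  have h3 : ∑ l ∈ Finset.range (K + 1), (m (l + 1) - m l) *
        (ls rlev K m c a).pairEx l (fun x x' => Rov (ph hN) x x' ^ 2) ≤ 1 := by
    rw [← rs_sum_p hm]
    exact Finset.sum_le_sum fun l hl => mul_le_of_le_one_right (rs_p_nonneg hm hl) (h1 l hl).2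
  constructor <;> linarith

/-- The mean of the disorder part. -/
theorem rs_Ex_dsk (hN : N ≤ n) (hm : Exponents K m) (c γ γ' : ℝ) (s : ℕ → ℝ) :
    (ls rlev K m c (dsk N γ + fd N s) : Sy (RI n K) (Fin n → Bool)).Ex
      (fun z x => lin (dsk N γ' x) z) =
      γ' * γ * (N : ℝ) ^ 2 / 2 * (1 - ∑ l ∈ Finset.range (K + 1), (m (l + 1) - m l) *
        (ls rlev K m c (dsk N γ + fd N s) : Sy (RI n K) (Fin n → Bool)).pairEx l
          (fun x x' => Rov (ph hN) x x' ^ 2)) := by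
  have hR := rs_reg (n := n) hm c (dsk N γ + fd N s)
  rw [ls_Ex_lin hm rlev_le]
  have e1 : (fun (_ : RI n K → ℝ) (x : Fin n → Bool) =>
      ∑ e, dsk N γ' x e * (dsk N γ + fd N s : (Fin n → Bool) → RI n K → ℝ) x e) =
      fun _ _ => γ' * γ * ((N : ℝ) ^ 2 - N) / 2 := by
    funext _ x
    have : ∀ e, dsk N γ' x e * (dsk N γ + fd N s : (Fin n → Bool) → RI n K → ℝ) x e =
        dsk N γ' x e * dsk N γ x e := by
      intro e
      show dsk N γ' x e * (dsk N γ x e + fd N s x e) = _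
      rw [mul_add, dj_dsk_fd, add_zero]
    rw [Finset.sum_congr rfl fun e _ => this e, sum_dsk hN]
  rw [e1, hR.Ex_const]
  have e2 : ∀ l ∈ Finset.range (K + 1), (m (l + 1) - m l) *
      (ls rlev K m c (dsk N γ + fd N s) : Sy (RI n K) (Fin n → Bool)).pairEx l
        (cv rlev l (dsk (K := K) N γ') (dsk N γ + fd N s)) =
      (m (l + 1) - m l) * (γ' * γ * (N : ℝ) ^ 2 / 2) *
        (ls rlev K m c (dsk N γ + fd N s) : Sy (RI n K) (Fin n → Bool)).pairEx l
          (fun x x' => Rov (ph hN) x x' ^ 2) - (m (l + 1) - m l) * (γ' * γ * N / 2) := by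
    intro l hl
    have hl' : l ≤ (ls rlev K m c (dsk N γ + fd N s) : Sy (RI n K) (Fin n → Bool)).K := by
      have := Finset.mem_range.1 hl
      show l ≤ K
      omega
    have e3 : (cv rlev l (dsk (K := K) N γ') (dsk N γ + fd N s) :
        (Fin n → Bool) → (Fin n → Bool) → ℝ) =
        fun x x' => (γ' * γ * (N : ℝ) ^ 2 / 2) * Rov (ph hN) x x' ^ 2 + (-(γ' * γ * N / 2)) := by
      funext x x'
      have : cv rlev l (dsk (K := K) N γ') (dsk N γ + fd N s) x x' =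
          cv rlev l (dsk (K := K) N γ') (dsk N γ) x x' := by
        unfold cv
        refine Finset.sum_congr rfl fun e _ => ?_
        show (if rlev e ≤ l then dsk N γ' x e * (dsk N γ x' e + fd N s x' e) else 0) = _
        rw [mul_add, dj_dsk_fd, add_zero]
      rw [this, cv_dsk hN]
      ring
    rw [e3, hR.pairEx_add hl' (fun x x' => (γ' * γ * (N : ℝ) ^ 2 / 2) * Rov (ph hN) x x' ^ 2)
      (fun _ _ => (-(γ' * γ * N / 2))), hR.pairEx_const_mul, hR.pairEx_const hl']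
    ring
  rw [Finset.sum_congr rfl e2, Finset.sum_sub_distrib, ← Finset.sum_mul, rs_sum_p hm]
  have e4 : ∑ l ∈ Finset.range (K + 1), (m (l + 1) - m l) * (γ' * γ * (N : ℝ) ^ 2 / 2) *
        (ls rlev K m c (dsk N γ + fd N s) : Sy (RI n K) (Fin n → Bool)).pairEx l
          (fun x x' => Rov (ph hN) x x' ^ 2) =
      γ' * γ * (N : ℝ) ^ 2 / 2 * ∑ l ∈ Finset.range (K + 1), (m (l + 1) - m l) *
        (ls rlev K m c (dsk N γ + fd N s) : Sy (RI n K) (Fin n → Bool)).pairEx l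
          (fun x x' => Rov (ph hN) x x' ^ 2) := by
    rw [Finset.mul_sum]
    exact Finset.sum_congr rfl fun l _ => by ring
  rw [e4]
  ring

theorem rs_sqrt_diff (h0 : 0 < N) : (β / √N) * (β / √N - β / √((N + 1 : ℕ) : ℝ)) *
    (N : ℝ) ^ 2 / 2 ≤ β ^ 2 / 4 ∧ 0 ≤ (β / √N) * (β / √N - β / √((N + 1 : ℕ) : ℝ)) ∧
    0 ≤ (β / √((N + 1 : ℕ) : ℝ)) * (β / √N - β / √((N + 1 : ℕ) : ℝ)) := by
  have hN : (0 : ℝ) < N := by exact_mod_cast h0
  obtain ⟨u, hu⟩ : ∃ u, u = √(N : ℝ) := ⟨_, rfl⟩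
  obtain ⟨v, hv⟩ : ∃ v, v = √((N + 1 : ℕ) : ℝ) := ⟨_, rfl⟩
  have hu0 : 0 < u := by rw [hu]; exact Real.sqrt_pos.2 hN
  have hu2 : u ^ 2 = N := by rw [hu]; exact Real.sq_sqrt hN.le
  have hv2 : v ^ 2 = N + 1 := by
    rw [hv, Real.sq_sqrt (by positivity)]
    push_cast
    ring
  have huv : u ≤ v := by
    rw [hu, hv]
    exact Real.sqrt_le_sqrt (by push_cast; linarith)
  have hv0 : 0 < v := hu0.trans_le huv
  rw [← hu, ← hv, ← hu2]
  have e1 : β / u - β / v = β * ((v - u) / (u * v)) := by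
    field_simp
  have e0 : 0 ≤ (v - u) / (u * v) := div_nonneg (by linarith) (by positivity)
  refine ⟨?_, ?_, ?_⟩
  · rw [e1]
    have e2 : β / u * (β * ((v - u) / (u * v))) * (u ^ 2) ^ 2 / 2 =
        β ^ 2 / 2 * (u ^ 2 * (v - u) / v) := by
      field_simp
    rw [e2]
    have e3 : u ^ 2 * (v - u) / v ≤ 1 / 2 := by
      rw [div_le_iff₀ hv0]
      have e4 : (v - u) * (v + u) = 1 := by nlinarith
      have e5 : u ^ 2 * (v - u) * (v + u) = u ^ 2 := by
        rw [mul_assoc, e4, mul_one]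
      (by_contra nlg; linarith [mul_eq_zero_of_left (sub_eq_zero.2 e4) ((v - u) * (v + u) - (1)), mul_nonneg (sub_nonneg.2 huv) (le_of_lt (sub_pos.2 hv0)), mul_eq_zero_of_left (sub_eq_zero.2 hv2) ((v - u) * (v + u) - (1)), mul_nonneg (le_of_lt (sub_pos.2 hu0)) (sub_nonneg.2 huv), mul_pos (sub_pos.2 (not_le.1 nlg)) (sub_pos.2 hv0), mul_pos (sub_pos.2 (not_le.1 nlg)) (sub_pos.2 hu0)])
    have e6 : 0 ≤ β ^ 2 := sq_nonneg β
    linarith only [mul_nonneg (sub_nonneg.2 e3) (sub_nonneg.2 e6)]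
  · rw [e1]
    have : β / u * (β * ((v - u) / (u * v))) = β ^ 2 * (((v - u) / (u * v)) / u) := by ring
    rw [this]
    (clear * - huv hu0 hv0; positivity)
  · rw [e1]
    have : β / v * (β * ((v - u) / (u * v))) = β ^ 2 * (((v - u) / (u * v)) / v) := by ring
    rw [this]
    (clear * - huv hu0 hv0; positivity)

/-- (T1) -/
theorem SC_le (hN : N ≤ n) (h0 : 0 < N) (hm : Exponents K m) (hβ : 0 ≤ β) (s : ℕ → ℝ) :
    (SC n K m β N s).fe ≤ AN n K m β N s := by
  obtain ⟨γ, hγ⟩ : ∃ γ, γ = β / √((N + 1 : ℕ) : ℝ) := ⟨_, rfl⟩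
  obtain ⟨γ', hγ'⟩ : ∃ γ', γ' = β / √N - β / √((N + 1 : ℕ) : ℝ) := ⟨_, rfl⟩
  have e1 : (st β N s : (Fin n → Bool) → RI n K → ℝ) = sc β N s + dsk N γ' := by
    unfold st sc
    rw [add_right_comm, rs_dsk_add]
    congr 2
    rw [hγ']
    ring
  have h1 := ls_jensen (X := Fin n → Bool) hm rlev_le (lc n) (sc (n := n) (K := K) β N s)
    (dsk N γ')
  rw [← e1] at h1
  have h2 := rs_Ex_dsk (n := n) hN hm (lc n) γ γ' s
  have e2 : (dsk N γ + fd N s : (Fin n → Bool) → RI n K → ℝ) = sc β N s := by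
    unfold sc; rw [hγ]
  rw [e2] at h2
  rw [h2] at h1
  have h3 := (rs_q_mem (K := K) hN h0 hm (lc n) (sc (n := n) (K := K) β N s)).1
  have h4 := (rs_sqrt_diff (β := β) h0).2.2
  rw [← hγ', ← hγ] at h4
  have h5 : 0 ≤ γ' * γ * (N : ℝ) ^ 2 / 2 := by
    have : γ' * γ * (N : ℝ) ^ 2 / 2 = γ * γ' * ((N : ℝ) ^ 2 / 2) := by ring
    rw [this]
    exact mul_nonneg h4 (by positivity)
  have h6 := mul_nonneg h5 h3
  unfold SC AN SN
  linarith only [h6, h1]

/-- (T2) -/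
theorem SC_ge (hN : N ≤ n) (h0 : 0 < N) (hm : Exponents K m) (hβ : 0 ≤ β) (s : ℕ → ℝ) :
    AN n K m β N s ≤ (SC n K m β N s).fe + β ^ 2 / 4 * (1 -
      ∑ l ∈ Finset.range (K + 1), (m (l + 1) - m l) *
        (SN n K m β N s).pairEx l (fun x x' => Rov (ph hN) x x' ^ 2)) := by
  obtain ⟨γ, hγ⟩ : ∃ γ, γ = β / √(N : ℝ) := ⟨_, rfl⟩
  obtain ⟨γ', hγ'⟩ : ∃ γ', γ' = β / √N - β / √((N + 1 : ℕ) : ℝ) := ⟨_, rfl⟩
  have e1 : (sc β N s : (Fin n → Bool) → RI n K → ℝ) = st β N s + dsk N (-γ') := by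
    unfold st sc
    rw [add_right_comm, rs_dsk_add]
    congr 2
    rw [hγ']
    ring
  have h1 := ls_jensen (X := Fin n → Bool) hm rlev_le (lc n) (st (n := n) (K := K) β N s)
    (dsk N (-γ'))
  rw [← e1] at h1
  have h2 := rs_Ex_dsk (n := n) hN hm (lc n) γ (-γ') s
  have e2 : (dsk N γ + fd N s : (Fin n → Bool) → RI n K → ℝ) = st β N s := by
    unfold st; rw [hγ]
  rw [e2] at h2
  rw [h2] at h1
  have h3 := (rs_q_mem (K := K) hN h0 hm (lc n) (st (n := n) (K := K) β N s)).1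
  have h4 := (rs_sqrt_diff (β := β) h0).1
  rw [← hγ', ← hγ] at h4
  have h6 := mul_le_mul_of_nonneg_right h4 h3
  unfold SC AN SN
  have h7 : -γ' * γ * (N : ℝ) ^ 2 / 2 = -(γ * γ' * (N : ℝ) ^ 2 / 2) := by ring
  rw [h7, neg_mul] at h1
  linarith only [h6, h1]

/-- (D) -/
theorem ST_cmp (hN : N + 1 ≤ n) (h0 : 0 < N) (hm : Exponents K m) (hβ : 0 ≤ β)
    (hR : Path K R) (hR1 : R K ≤ 1) (s : ℕ → ℝ) (θ : ℝ) :
    |(ST n K m β N s R θ).fe - AN n K m β N s| ≤ β ^ 2 / 2 := by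
  have hN' : N ≤ n := by omega
  have hNn : N < n := by omega
  have hb2 : 0 ≤ β ^ 2 := sq_nonneg β
  obtain ⟨b, hb⟩ : ∃ b : (Fin n → Bool) → RI n K → ℝ, b = fun x e =>
    Real.sin θ * tre N β R x e + Real.cos θ * cav N (β / √((N + 1 : ℕ) : ℝ)) x e := ⟨_, rfl⟩
  have e1 : (tc β N s R θ : (Fin n → Bool) → RI n K → ℝ) = sc β N s + b := by
    rw [hb]
    rfl
  have hdj : ∀ e x x', b x e * (sc β N s : (Fin n → Bool) → RI n K → ℝ) x' e = 0 := by
    intro e x x'
    have h1 := dj_tre_sc (N := N) (s := s) (β := β) (R := R) β e x x'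
    have h2 := dj_cav_sc (N := N) (s := s) (β := β) (β / √((N + 1 : ℕ) : ℝ)) e x x'
    rw [hb]
    show (Real.sin θ * tre N β R x e + Real.cos θ * cav N (β / √((N + 1 : ℕ) : ℝ)) x e) *
      sc β N s x' e = 0
    linear_combination Real.sin θ * h1 + Real.cos θ * h2
  have hV : ∀ x, ∑ e, b x e ^ 2 ≤ β ^ 2 := by
    intro x
    have h1 : ∀ e, b x e ^ 2 = Real.sin θ ^ 2 * tre N β R x e ^ 2 +
        Real.cos θ ^ 2 * cav N (β / √((N + 1 : ℕ) : ℝ)) x e ^ 2 := by
      intro e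
      have h2 := dj_tre_cav (N := N) (R := R) β (β / √((N + 1 : ℕ) : ℝ)) e x x
      rw [hb]
      show (Real.sin θ * tre N β R x e + Real.cos θ * cav N (β / √((N + 1 : ℕ) : ℝ)) x e) ^ 2 = _
      linear_combination 2 * Real.sin θ * Real.cos θ * h2
    rw [Finset.sum_congr rfl fun e _ => h1 e, Finset.sum_add_distrib, ← Finset.mul_sum,
      ← Finset.mul_sum, sum_tre hNn β hR, sum_cav hNn]
    have h3 : (β / √((N + 1 : ℕ) : ℝ)) ^ 2 * N ≤ β ^ 2 := by
      rw [div_pow, Real.sq_sqrt (by positivity), div_mul_eq_mul_div, div_le_iff₀ (by positivity)]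
      push_cast
      linarith only [hb2]
    have h4 : β ^ 2 * R K ≤ β ^ 2 := mul_le_of_le_one_right hb2 hR1
    have h5 := Real.sin_sq_add_cos_sq θ
    calc Real.sin θ ^ 2 * (β ^ 2 * R K) + Real.cos θ ^ 2 * ((β / √((N + 1 : ℕ) : ℝ)) ^ 2 * N) ≤
          Real.sin θ ^ 2 * β ^ 2 + Real.cos θ ^ 2 * β ^ 2 :=
          add_le_add (mul_le_mul_of_nonneg_left h4 (sq_nonneg _))
            (mul_le_mul_of_nonneg_left h3 (sq_nonneg _))
      _ = β ^ 2 := by rw [← add_mul, h5, one_mul]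
  have u1 := ls_add_le hm rlev_le (lc n) hdj hV
  have u2 := ls_le_add hm rlev_le (lc n) hdj
  rw [← e1] at u1 u2
  have u3 := SC_le (n := n) (K := K) hN' h0 hm hβ s
  have u4 := SC_ge (n := n) (K := K) hN' h0 hm hβ s
  have u5 := (rs_q_mem (K := K) hN' h0 hm (lc n) (st (n := n) (K := K) β N s)).2
  have u6 : β ^ 2 / 4 * (1 - ∑ l ∈ Finset.range (K + 1), (m (l + 1) - m l) *
        (SN n K m β N s).pairEx l (fun x x' => Rov (ph hN') x x' ^ 2)) ≤ β ^ 2 / 4 :=
    mul_le_of_le_one_right (by positivity) u5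
  unfold ST
  unfold SC at u3 u4
  rw [abs_le]
  constructor <;> linarith

/-- (P1) The tangent inequality in the strengths. -/
theorem AN_tangent (hN : N ≤ n) (h0 : 0 < N) (hm : Exponents K m) (s : ℕ → ℝ) {j : ℕ}
    (hj : j ≤ K) (x : ℝ) :
    AN n K m β N s + x * (SN n K m β N s).Ex (gx hN j) ≤
      AN n K m β N (Function.update s j (s j + x)) := by
  have hR : (SN n K m β N s).Reg := rs_reg hm _ _
  have hR' : ((SN n K m β N s).pt (gx hN j) x).Reg := by
    rw [SN_pt hN hj]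
    exact rs_reg hm _ _
  have h1 := Reg.jensen hR hR'
  have e1 : (fun (z : RI n K → ℝ) (y : Fin n → Bool) =>
      ((SN n K m β N s).H z y + x * gx hN j z y) - (SN n K m β N s).H z y) =
      fun z y => x * gx hN j z y := by
    funext z y
    ring
  rw [e1, Sy.Ex_const_mul] at h1
  have e2 : ((SN n K m β N s).wH fun z y => (SN n K m β N s).H z y + x * gx hN j z y) =
      SN n K m β N (Function.update s j (s j + x)) := SN_pt hN hj x
  rw [e2] at h1
  unfold AN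
  have e3 : (SN n K m β N s).Ex (fun z y => gx hN j z y) = (SN n K m β N s).Ex (gx hN j) := rfl
  rw [e3] at h1
  linarith

theorem rs_Ex_gx (hN : N ≤ n) (h0 : 0 < N) (S : Sy (RI n K) (Fin n → Bool)) (j : ℕ) :
    S.Ex (gx hN j) = N * S.Ex (hz (ph hN) (zc hN) j) := by
  have hN0 : (N : ℝ) ≠ 0 := by
    have : (0 : ℝ) < N := by exact_mod_cast h0
    exact this.ne'
  rw [← Sy.Ex_const_mul]
  congr 1
  funext z x
  rw [hz_eq_gx]
  field_simp

theorem AN_slope (hN : N ≤ n) (h0 : 0 < N) (hm : Exponents K m) (hs : ∀ l ≤ K, 0 ≤ s l) {j : ℕ}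
    (hj : j ≤ K) :
    0 ≤ (SN n K m β N s).Ex (gx hN j) ∧ (SN n K m β N s).Ex (gx hN j) ≤ N * s j := by
  have F := SN_fld (β := β) hN h0 hm hs
  have hN0 : (0 : ℝ) < N := by exact_mod_cast h0
  rw [rs_Ex_gx hN h0]
  have hj' : j ≤ (SN n K m β N s).K := hj
  rw [F.Ex_hz hj']
  have h1 : ∀ i ∈ Finset.Ico j (K + 1), 0 ≤ (SN n K m β N s).p i * (SN n K m β N s).Rl (ph hN) i ∧
      (SN n K m β N s).p i * (SN n K m β N s).Rl (ph hN) i ≤ m (i + 1) - m i := by
    intro i hi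
    have hi' := Finset.mem_Ico.1 hi
    have h2 : 0 ≤ (SN n K m β N s).p i := rs_p_nonneg hm (Finset.mem_range.2 hi'.2)
    have hi2 : i ≤ (SN n K m β N s).K := by show i ≤ K; omega
    exact ⟨mul_nonneg h2 (F.Rl_nonneg hi2), mul_le_of_le_one_right h2 (F.Rl_le_one hi2)⟩
  have h2 : 0 ≤ ∑ i ∈ Finset.Ico j ((SN n K m β N s).K + 1),
      (SN n K m β N s).p i * (SN n K m β N s).Rl (ph hN) i :=
    Finset.sum_nonneg fun i hi => (h1 i hi).1
  have h3 : ∑ i ∈ Finset.Ico j ((SN n K m β N s).K + 1),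
      (SN n K m β N s).p i * (SN n K m β N s).Rl (ph hN) i ≤ 1 := by
    have h4 : ∑ i ∈ Finset.Ico j ((SN n K m β N s).K + 1),
        (SN n K m β N s).p i * (SN n K m β N s).Rl (ph hN) i ≤
        ∑ i ∈ Finset.Ico j (K + 1), (m (i + 1) - m i) := Finset.sum_le_sum fun i hi => (h1 i hi).2
    have h5 : ∑ i ∈ Finset.Ico j (K + 1), (m (i + 1) - m i) ≤
        ∑ i ∈ Finset.range (K + 1), (m (i + 1) - m i) :=
      Finset.sum_le_sum_of_subset_of_nonneg (by
        intro i hi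
        exact Finset.mem_range.2 (Finset.mem_Ico.1 hi).2) fun i hi _ => rs_p_nonneg hm hi
    rw [rs_sum_p hm] at h5
    exact h4.trans h5
  have hsj := hs j hj
  constructor
  · exact mul_nonneg hN0.le (mul_nonneg hsj (by linarith))
  · refine mul_le_mul_of_nonneg_left ?_ hN0.le
    exact mul_le_of_le_one_right hsj (by linarith)

theorem rs_abs_update {t t' : ℝ} (hs : ∀ l ≤ K, 0 ≤ s l) (hs1 : s 0 ≤ 1) (ht : 0 < t)
    (ht1 : t ≤ 1) (ht' : t' ∈ ({0, t, -t} : Set ℝ)) (j : ℕ) :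
    |Function.update s j (s j + t') 0| ≤ 2 := by
  have h0 := hs 0 (Nat.zero_le _)
  have h1 : |t'| ≤ 1 := by
    simp only [Set.mem_insert_iff, Set.mem_singleton_iff] at ht'
    rcases ht' with rfl | rfl | rfl
    · simp
    · rw [abs_of_pos ht]; exact ht1
    · rw [abs_neg, abs_of_pos ht]; exact ht1
  have h2 := abs_le.1 h1
  by_cases hj : (0 : ℕ) = j
  · subst hj
    rw [Function.update_self, abs_le]
    constructor <;> linarith
  · rw [Function.update_of_ne hj, abs_le]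
    constructor <;> linarith

/-- (E) Concentration, uniformly in the path and the angle. -/
theorem ST_conc (hN : N + 1 ≤ n) (h0 : 0 < N) (hm : Exponents K m) (hβ : 0 ≤ β)
    (hR : Path K R) (hR1 : R K ≤ 1) (hs : ∀ l ≤ K, 0 ≤ s l) (hs1 : s 0 ≤ 1) {t : ℝ} (ht : 0 < t)
    (ht1 : t ≤ 1) (θ : ℝ) {j : ℕ} (hj : j ≤ K) :
    (ST n K m β N s R θ).Ex (fun z x => |hz (ph (Nat.le_of_succ_le hN))
        (zc (Nat.le_of_succ_le hN)) j z x - (SN n K m β N s).Ex (hz (ph (Nat.le_of_succ_le hN))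
        (zc (Nat.le_of_succ_le hN)) j)|) ≤ ej n K m β N s t j := by
  have hN' : N ≤ n := Nat.le_of_succ_le hN
  have hN0 : (0 : ℝ) < N := by exact_mod_cast h0
  have hReg : (ST n K m β N s R θ).Reg := rs_reg hm _ _
  have hRegt : ∀ t', ((ST n K m β N s R θ).pt (gx hN' j) t').Reg := by
    intro t'
    rw [ST_pt hN' hj]
    exact rs_reg hm _ _
  have h1 := conc_abs hReg (nh_gx hN' j) hRegt (t := t) (F0 := AN n K m β N s)
    (Fp := AN n K m β N (Function.update s j (s j + t)))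
    (Fm := AN n K m β N (Function.update s j (s j - t)))
    (c₀ := (SN n K m β N s).Ex (gx hN' j)) (B := β ^ 2 / 2) (V := 2 * ((2 * β ^ 2 + 4) * N)) ht
    (ST_cmp hN h0 hm hβ hR hR1 s θ)
    (by rw [ST_pt hN' hj]; exact ST_cmp hN h0 hm hβ hR hR1 _ θ)
    (by
      rw [ST_pt hN' hj, ← sub_eq_add_neg]
      exact ST_cmp hN h0 hm hβ hR hR1 _ θ)
    (AN_tangent hN' h0 hm s hj t)
    (by
      have := AN_tangent (β := β) hN' h0 hm s hj (-t)
      rw [← sub_eq_add_neg, neg_mul, ← sub_eq_add_neg] at this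
      exact this)
    (by
      intro t' ht'
      rw [ST_pt hN' hj]
      exact ST_var hN h0 hm (rs_abs_update hs hs1 ht ht1 ht' j) hR hR1)
  have e1 : (ST n K m β N s R θ).Ex (fun z x => |hz (ph hN') (zc hN') j z x -
      (SN n K m β N s).Ex (hz (ph hN') (zc hN') j)|) =
      1 / N * (ST n K m β N s R θ).Ex (fun z x => |gx hN' j z x -
        (SN n K m β N s).Ex (gx hN' j)|) := by
    rw [← Sy.Ex_const_mul]
    congr 1
    funext z x
    rw [rs_Ex_gx hN' h0, hz_eq_gx]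
    have e2 : 1 / (N : ℝ) * gx hN' j z x - (SN n K m β N s).Ex (hz (ph hN') (zc hN') j) =
        1 / N * (gx hN' j z x - N * (SN n K m β N s).Ex (hz (ph hN') (zc hN') j)) := by
      field_simp
    rw [e2, abs_mul, abs_of_pos (by positivity)]
  rw [e1]
  refine (mul_le_mul_of_nonneg_left h1 (by positivity)).trans (le_of_eq ?_)
  unfold ej dl
  have e3 : (ST n K m β N s R θ).m 1 = m 1 := rfl
  rw [e3]
  field_simp
  ring

theorem SN_conc (hN : N ≤ n) (h0 : 0 < N) (hm : Exponents K m) (hβ : 0 ≤ β)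
    (hs : ∀ l ≤ K, 0 ≤ s l) (hs1 : s 0 ≤ 1) {t : ℝ} (ht : 0 < t) (ht1 : t ≤ 1) {j : ℕ}
    (hj : j ≤ K) :
    (SN n K m β N s).Ex (fun z x => |hz (ph hN) (zc hN) j z x -
      (SN n K m β N s).Ex (hz (ph hN) (zc hN) j)|) ≤ ej n K m β N s t j := by
  have hN0 : (0 : ℝ) < N := by exact_mod_cast h0
  have hReg : (SN n K m β N s).Reg := rs_reg hm _ _
  have hRegt : ∀ t', ((SN n K m β N s).pt (gx hN j) t').Reg := by
    intro t'
    rw [SN_pt hN hj]
    exact rs_reg hm _ _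
  have hB : 0 ≤ β ^ 2 / 2 := by positivity
  have h1 := conc_abs hReg (nh_gx hN j) hRegt (t := t) (F0 := AN n K m β N s)
    (Fp := AN n K m β N (Function.update s j (s j + t)))
    (Fm := AN n K m β N (Function.update s j (s j - t)))
    (c₀ := (SN n K m β N s).Ex (gx hN j)) (B := β ^ 2 / 2) (V := 2 * ((2 * β ^ 2 + 4) * N)) ht
    (by unfold AN; rw [sub_self, abs_zero]; exact hB)
    (by rw [SN_pt hN hj]; unfold AN; rw [sub_self, abs_zero]; exact hB)
    (by
      rw [SN_pt hN hj, ← sub_eq_add_neg]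
      unfold AN
      rw [sub_self, abs_zero]; exact hB)
    (AN_tangent hN h0 hm s hj t)
    (by
      have := AN_tangent (β := β) hN h0 hm s hj (-t)
      rw [← sub_eq_add_neg, neg_mul, ← sub_eq_add_neg] at this
      exact this)
    (by
      intro t' ht'
      rw [SN_pt hN hj]
      exact SN_var hN h0 hm (rs_abs_update hs hs1 ht ht1 ht' j))
  have e1 : (SN n K m β N s).Ex (fun z x => |hz (ph hN) (zc hN) j z x -
      (SN n K m β N s).Ex (hz (ph hN) (zc hN) j)|) =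
      1 / N * (SN n K m β N s).Ex (fun z x => |gx hN j z x -
        (SN n K m β N s).Ex (gx hN j)|) := by
    rw [← Sy.Ex_const_mul]
    congr 1
    funext z x
    rw [rs_Ex_gx hN h0, hz_eq_gx]
    have e2 : 1 / (N : ℝ) * gx hN j z x - (SN n K m β N s).Ex (hz (ph hN) (zc hN) j) =
        1 / N * (gx hN j z x - N * (SN n K m β N s).Ex (hz (ph hN) (zc hN) j)) := by
      field_simp
    rw [e2, abs_mul, abs_of_pos (by positivity)]
  rw [e1]
  refine (mul_le_mul_of_nonneg_left h1 (by positivity)).trans (le_of_eq ?_)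
  unfold ej dl
  have e3 : (SN n K m β N s).m 1 = m 1 := rfl
  rw [e3]
  field_simp
  ring

/-! ### The overlaps -/

theorem rs_me_p (K l : ℕ) : me K (l + 1) - me K l = 1 / (K + 1 : ℕ) := by
  unfold me
  push_cast
  ring

/-- Deviations for any system with the fields `s` whose fields are concentrated at the means of the
stage `N`. -/
theorem rs_dev (hN : N ≤ n) (h0 : 0 < N) {c : ℝ} {a : (Fin n → Bool) → RI n K → ℝ}
    {D : RI n K → (RI n K → ℝ) → (Fin n → Bool) → ℝ}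
    (F : Fld (ls rlev K (me K) c a) D (ph hN) (zc hN) s)
    {σ ε : ℝ} (hσ : 0 < σ) (hs : ∀ l ≤ K, σ ≤ s l) (hε : 0 ≤ ε)
    (hc : ∀ j ≤ K, (ls rlev K (me K) c a).Ex (fun z x => |hz (ph hN) (zc hN) j z x -
      (SN n K (me K) β N s).Ex (hz (ph hN) (zc hN) j)|) ≤ ε) :
    ∑ l ∈ Finset.range (K + 1), (me K (l + 1) - me K l) *
      (ls rlev K (me K) c a).pairEx l (fun x x' => |Rov (ph hN) x x' - stR (SN n K (me K) β N s) (ph hN) l|) ≤
      wE K σ ε := by
  set S := ls rlev K (me K) c a with hSdef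
  have hm := me_exp K
  have hS := F.hreg
  have hs0 : ∀ l ≤ K, 0 ≤ s l := fun l hl => hσ.le.trans (hs l hl)
  have F0 := SN_fld (β := β) hN h0 hm hs0
  have hK0 : (0 : ℝ) < ((K + 1 : ℕ) : ℝ) := by positivity
  have hp : ∀ l, S.p l = 1 / ((K + 1 : ℕ) : ℝ) := fun l => by
    show me K (l + 1) - me K l = _
    rw [rs_me_p]
  have hp0 : ∀ l, (SN n K (me K) β N s).p l = 1 / ((K + 1 : ℕ) : ℝ) := fun l => by
    show me K (l + 1) - me K l = _
    rw [rs_me_p]
  -- the deviations from the own path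
  have hE : 0 ≤ 20 * ε / (σ * (1 / ((K + 1 : ℕ) : ℝ))) := by positivity
  have h1 := st_pair F (δ := 1 / ((K + 1 : ℕ) : ℝ)) hE (fun l _ => (hp l).le)
    (fun l hl => F.sync hε hσ hs (by positivity) (fun l _ => (hp l).ge)
      (fun l hl => ⟨_, hc l hl⟩) hl)
  -- the difference of the paths
  have hD : ∀ j ≤ K + 1, |∑ i ∈ Finset.Ico j (K + 1), 1 / ((K + 1 : ℕ) : ℝ) *
      (S.Rl (ph hN) i - (SN n K (me K) β N s).Rl (ph hN) i)| ≤ ε / σ := by
    intro j hj
    rcases Nat.lt_or_ge j (K + 1) with hj' | hj'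
    · have hjK : j ≤ K := by omega
      have a1 : S.Ex (hz (ph hN) (zc hN) j) =
          s j * (1 - ∑ i ∈ Finset.Ico j (K + 1), S.p i * S.Rl (ph hN) i) := F.Ex_hz hjK
      have a2 : (SN n K (me K) β N s).Ex (hz (ph hN) (zc hN) j) =
          s j * (1 - ∑ i ∈ Finset.Ico j (K + 1), (SN n K (me K) β N s).p i *
            (SN n K (me K) β N s).Rl (ph hN) i) := F0.Ex_hz (l := j) hjK
      have a3 : |S.Ex (hz (ph hN) (zc hN) j) -
          (SN n K (me K) β N s).Ex (hz (ph hN) (zc hN) j)| ≤ ε := by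
        have n1 : Nh (hz (ph hN) (zc hN) j : (RI n K → ℝ) → (Fin n → Bool) → ℝ) := F.nh_hz j
        have a4 := hS.abs_Ex_le (f := fun z x => hz (ph hN) (zc hN) j z x -
          (SN n K (me K) β N s).Ex (hz (ph hN) (zc hN) j)) (Nh.sub n1 (fun _ => EG.const _))
        rw [hS.Ex_sub n1 (fun _ => EG.const _), hS.Ex_const] at a4
        exact a4.trans (hc j hjK)
      rw [a1, a2] at a3
      have a5 : s j * (1 - ∑ i ∈ Finset.Ico j (K + 1), S.p i * S.Rl (ph hN) i) -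
          s j * (1 - ∑ i ∈ Finset.Ico j (K + 1),
            (SN n K (me K) β N s).p i * (SN n K (me K) β N s).Rl (ph hN) i) =
          -(s j * ∑ i ∈ Finset.Ico j (K + 1), 1 / ((K + 1 : ℕ) : ℝ) *
      (S.Rl (ph hN) i - (SN n K (me K) β N s).Rl (ph hN) i)) := by
        have a6 : ∑ i ∈ Finset.Ico j (K + 1), 1 / ((K + 1 : ℕ) : ℝ) *
            (S.Rl (ph hN) i - (SN n K (me K) β N s).Rl (ph hN) i) =
            ∑ i ∈ Finset.Ico j (K + 1), S.p i * S.Rl (ph hN) i -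
            ∑ i ∈ Finset.Ico j (K + 1),
            (SN n K (me K) β N s).p i * (SN n K (me K) β N s).Rl (ph hN) i := by
          rw [← Finset.sum_sub_distrib]
          refine Finset.sum_congr rfl fun i _ => ?_
          rw [hp, hp0]
          ring
        rw [a6]
        ring
      rw [a5, abs_neg, abs_mul, abs_of_nonneg (hs0 j hjK)] at a3
      rw [le_div_iff₀ hσ]
      have a8 := mul_le_mul_of_nonneg_left (hs j hjK) (abs_nonneg
        (∑ i ∈ Finset.Ico j (K + 1), 1 / ((K + 1 : ℕ) : ℝ) *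
      (S.Rl (ph hN) i - (SN n K (me K) β N s).Rl (ph hN) i)))
      rw [mul_comm _ (s j)] at a8
      exact a8.trans a3
    · rw [Finset.Ico_eq_empty (by omega), Finset.sum_empty, abs_zero]
      positivity
  have hdl : ∀ l < K, 1 / ((K + 1 : ℕ) : ℝ) *
      |S.Rl (ph hN) l - (SN n K (me K) β N s).Rl (ph hN) l| ≤ 2 * (ε / σ) := by
    intro l hl
    have b1 := hD l (by omega)
    have b2 := hD (l + 1) (by omega)
    rw [Finset.sum_eq_sum_Ico_succ_bot (show l < K + 1 by omega)] at b1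
    have b3 := abs_le.1 b1
    have b4 := abs_le.1 b2
    have b5 : 1 / ((K + 1 : ℕ) : ℝ) *
      |S.Rl (ph hN) l - (SN n K (me K) β N s).Rl (ph hN) l| = |1 / ((K + 1 : ℕ) : ℝ) *
      (S.Rl (ph hN) l - (SN n K (me K) β N s).Rl (ph hN) l)| := by
      rw [abs_mul, abs_of_pos (a := 1 / ((K + 1 : ℕ) : ℝ)) (by positivity)]
    rw [b5, abs_le]
    constructor <;> linarith
  -- sum
  have h2 : ∀ l ∈ Finset.range (K + 1), (me K (l + 1) - me K l) *
      S.pairEx l (fun x x' => |Rov (ph hN) x x' - stR (SN n K (me K) β N s) (ph hN) l|) ≤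
      S.p l * S.pairEx l (fun x x' => |Rov (ph hN) x x' - stR S (ph hN) l|) + 2 * (ε / σ) := by
    intro l hl
    have hl' : l ≤ K := by have := Finset.mem_range.1 hl; omega
    have c1 : me K (l + 1) - me K l = S.p l := by rw [hp, rs_me_p]
    rw [c1]
    have c2 : S.p l * |stR S (ph hN) l - stR (SN n K (me K) β N s) (ph hN) l| ≤
        2 * (ε / σ) := by
      rcases Nat.lt_or_eq_of_le hl' with h | h
      · have c3 : stR S (ph hN) l = S.Rl (ph hN) l := by
          unfold stR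
          rw [if_pos]
          exact h
        have c4 : stR (SN n K (me K) β N s) (ph hN) l =
            (SN n K (me K) β N s).Rl (ph hN) l := by
          unfold stR
          rw [if_pos]
          exact h
        rw [c3, c4, hp]
        exact hdl l h
      · have c5' : stR S (ph hN) K = 1 := stR_last S (ph hN)
        have c5 : stR (SN n K (me K) β N s) (ph hN) K = 1 := stR_last _ _
        rw [h, c5', c5, sub_self, abs_zero, mul_zero]
        (clear * - hε hσ; positivity)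
    have c6 : S.pairEx l (fun x x' => |Rov (ph hN) x x' -
        stR (SN n K (me K) β N s) (ph hN) l|) ≤
        S.pairEx l (fun x x' => |Rov (ph hN) x x' - stR S (ph hN) l|) +
          |stR S (ph hN) l - stR (SN n K (me K) β N s) (ph hN) l| := by
      have c7 := hS.pairEx_add hl' (fun x x' => |Rov (ph hN) x x' - stR S (ph hN) l|)
        (fun _ _ => |stR S (ph hN) l - stR (SN n K (me K) β N s) (ph hN) l|)
      rw [hS.pairEx_const hl'] at c7
      rw [← c7]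
      refine hS.pairEx_mono hl' fun x x' => ?_
      have := abs_add_le (Rov (ph hN) x x' - stR S (ph hN) l)
        (stR S (ph hN) l - stR (SN n K (me K) β N s) (ph hN) l)
      rwa [sub_add_sub_cancel] at this
    have c8 : 0 ≤ S.p l := by rw [hp]; positivity
    have c9 := mul_le_mul_of_nonneg_left c6 c8
    rw [mul_add] at c9
    linarith only [c9, c2]
  refine (Finset.sum_le_sum h2).trans ?_
  rw [Finset.sum_add_distrib, Finset.sum_const, Finset.card_range, nsmul_eq_mul]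
  unfold wE
  have d1 : √(2 * (1 / ((K + 1 : ℕ) : ℝ))) = √(2 / ((K + 1 : ℕ) : ℝ)) := by
    congr 1; ring
  have d2 : 2 * (1 / ((K + 1 : ℕ) : ℝ)) = 2 / ((K + 1 : ℕ) : ℝ) := by ring
  have d3 : 20 * ε / (σ * (1 / ((K + 1 : ℕ) : ℝ))) = 20 * ε * ((K + 1 : ℕ) : ℝ) / σ := by
    field_simp
  rw [d1, d2, d3] at h1
  have d4 : ((K + 1 : ℕ) : ℝ) * (2 * (ε / σ)) = 2 * ((K + 1 : ℕ) : ℝ) * ε / σ := by ring
  have d5 : S.K = K := rfl
  rw [d5] at h1
  rw [d4]
  linarith only [h1]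

theorem rs_ej_nonneg (hN : N ≤ n) (h0 : 0 < N) (hm : Exponents K m) (hβ : 0 ≤ β)
    (hs : ∀ l ≤ K, 0 ≤ s l) (hs1 : s 0 ≤ 1) {t : ℝ} (ht : 0 < t) (ht1 : t ≤ 1) {j : ℕ}
    (hj : j ≤ K) : 0 ≤ ej n K m β N s t j := by
  have hR : (SN n K m β N s).Reg := rs_reg hm _ _
  refine le_trans ?_ (SN_conc hN h0 hm hβ hs hs1 ht ht1 hj)
  rw [← hR.Ex_const 0]
  have F := SN_fld (β := β) hN h0 hm hs
  exact hR.Ex_mono (fun _ => EG.const 0) (Nh.abs (Nh.sub (F.nh_hz j) (fun _ => EG.const _)))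
    fun z x => abs_nonneg _

theorem rs_ej_le (hN : N ≤ n) (h0 : 0 < N) (hm : Exponents K m) (hβ : 0 ≤ β)
    (hs : ∀ l ≤ K, 0 ≤ s l) (hs1 : s 0 ≤ 1) {t : ℝ} (ht : 0 < t) (ht1 : t ≤ 1) {j : ℕ}
    (hj : j ≤ K) : ej n K m β N s t j ≤ ee n K m β N s t := by
  unfold ee
  exact Finset.single_le_sum (f := fun j => ej n K m β N s t j)
    (fun i hi => rs_ej_nonneg hN h0 hm hβ hs hs1 ht ht1
      (by have := Finset.mem_range.1 hi; omega)) (Finset.mem_range.2 (by omega))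

theorem rs_ee_nonneg (hN : N ≤ n) (h0 : 0 < N) (hm : Exponents K m) (hβ : 0 ≤ β)
    (hs : ∀ l ≤ K, 0 ≤ s l) (hs1 : s 0 ≤ 1) {t : ℝ} (ht : 0 < t) (ht1 : t ≤ 1) :
    0 ≤ ee n K m β N s t :=
  Finset.sum_nonneg fun i hi => rs_ej_nonneg hN h0 hm hβ hs hs1 ht ht1
      (by have := Finset.mem_range.1 hi; omega)

/-- (F) The overlaps. -/
theorem ST_dev (hN : N + 1 ≤ n) (h0 : 0 < N) (hβ : 0 ≤ β)
    (hR : Path K R) (hR1 : R K ≤ 1) {σ : ℝ} (hσ : 0 < σ) (hs : ∀ l ≤ K, σ ≤ s l)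
    (hs1 : s 0 ≤ 1) {t : ℝ} (ht : 0 < t) (ht1 : t ≤ 1) (θ : ℝ) :
    ∑ l ∈ Finset.range (K + 1), (me K (l + 1) - me K l) *
      (ST n K (me K) β N s R θ).pairEx l (fun x x' => |Rov (ph (Nat.le_of_succ_le hN)) x x' -
        stR (SN n K (me K) β N s) (ph (Nat.le_of_succ_le hN)) l|) ≤
      wE K σ (ee n K (me K) β N s t) := by
  have hs0 : ∀ l ≤ K, 0 ≤ s l := fun l hl => hσ.le.trans (hs l hl)
  have hN' : N ≤ n := Nat.le_of_succ_le hN
  exact rs_dev hN' h0 (ST_fld (β := β) (R := R) (θ := θ) hN' h0 (me_exp K) hs0) hσ hs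
    (rs_ee_nonneg hN' h0 (me_exp K) hβ hs0 hs1 ht ht1)
    (fun j hj => (ST_conc hN h0 (me_exp K) hβ hR hR1 hs0 hs1 ht ht1 θ hj).trans
      (rs_ej_le hN' h0 (me_exp K) hβ hs0 hs1 ht ht1 hj))

theorem SN_dev (hN : N ≤ n) (h0 : 0 < N) (hβ : 0 ≤ β)
    {σ : ℝ} (hσ : 0 < σ) (hs : ∀ l ≤ K, σ ≤ s l)
    (hs1 : s 0 ≤ 1) {t : ℝ} (ht : 0 < t) (ht1 : t ≤ 1) :
    ∑ l ∈ Finset.range (K + 1), (me K (l + 1) - me K l) *
      (SN n K (me K) β N s).pairEx l (fun x x' => |Rov (ph hN) x x' -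
        stR (SN n K (me K) β N s) (ph hN) l|) ≤
      wE K σ (ee n K (me K) β N s t) := by
  have hs0 : ∀ l ≤ K, 0 ≤ s l := fun l hl => hσ.le.trans (hs l hl)
  exact rs_dev hN h0 (SN_fld (β := β) hN h0 (me_exp K) hs0) hσ hs
    (rs_ee_nonneg hN h0 (me_exp K) hβ hs0 hs1 ht ht1)
    (fun j hj => (SN_conc hN h0 (me_exp K) hβ hs0 hs1 ht ht1 hj).trans
      (rs_ej_le hN h0 (me_exp K) hβ hs0 hs1 ht ht1 hj))

/-- (H) **The step.** -/
theorem AN_step (hN : N + 1 ≤ n) (h0 : 0 < N) (hβ : 0 ≤ β) {σ : ℝ} (hσ : 0 < σ)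
    (hs : ∀ l ≤ K, σ ≤ s l) (hs1 : s 0 ≤ 1) {t : ℝ} (ht : 0 < t) (ht1 : t ≤ 1) :
    PSK β K (me K) (stR (SN n K (me K) β N s) (ph (Nat.le_of_succ_le hN))) ≤
      AN n K (me K) β (N + 1) s - AN n K (me K) β N s + β ^ 2 / (N + 1 : ℕ) +
        β ^ 2 * wE K σ (ee n K (me K) β N s t) := by
  have hs0 : ∀ l ≤ K, 0 ≤ s l := fun l hl => hσ.le.trans (hs l hl)
  have hN' : N ≤ n := Nat.le_of_succ_le hN
  have hNn : N < n := hN
  have hm := me_exp K
  have hb2 : 0 ≤ β ^ 2 := sq_nonneg β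
  have hN1 : (0 : ℝ) < ((N + 1 : ℕ) : ℝ) := by positivity
  have F0 := SN_fld (β := β) hN' h0 hm hs0
  obtain ⟨R, hRdef⟩ : ∃ R, R = stR (SN n K (me K) β N s) (ph hN') := ⟨_, rfl⟩
  obtain ⟨W, hW⟩ : ∃ W, W = wE K σ (ee n K (me K) β N s t) := ⟨_, rfl⟩
  have hR : Path K R := by rw [hRdef]; exact st_path F0
  have hRK : R K = 1 := by rw [hRdef]; exact stR_last (SN n K (me K) β N s) (ph hN')
  have hR1 : R K ≤ 1 := hRK.le
  have hRm : ∀ l ≤ K, 0 ≤ R l ∧ R l ≤ 1 := by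
    have mono : ∀ i j, i ≤ j → j ≤ K → R i ≤ R j := by
      intro i j hij
      induction j, hij using Nat.le_induction with
      | base => intro _; exact le_rfl
      | succ j _ ih => intro hj; exact (ih (by omega)).trans (hR.2 j (by omega))
    intro l hl
    exact ⟨hR.1.trans (mono 0 l (Nat.zero_le _) hl), (mono l K hl le_rfl).trans hR1⟩
  have hdev : ∀ θ, ∑ l ∈ Finset.range (K + 1), (me K (l + 1) - me K l) *
      (ST n K (me K) β N s R θ).pairEx l (fun x x' => |Rov (ph hN') x x' - R l|) ≤ W := by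
    intro θ
    have h1 := ST_dev hN h0 hβ hR hR1 hσ hs hs1 ht ht1 θ
    rw [hW]
    rw [← hRdef] at h1
    exact h1
  have hdev0 : ∑ l ∈ Finset.range (K + 1), (me K (l + 1) - me K l) *
      (SN n K (me K) β N s).pairEx l (fun x x' => |Rov (ph hN') x x' - R l|) ≤ W := by
    have h1 := SN_dev hN' h0 hβ hσ hs hs1 ht ht1
    rw [hW]
    rw [← hRdef] at h1
    exact h1
  rw [← hRdef, ← hW]
  obtain ⟨γ, hγ⟩ : ∃ γ, γ = β / √((N + 1 : ℕ) : ℝ) := ⟨_, rfl⟩
  have hγ2 : γ ^ 2 = β ^ 2 / ((N + 1 : ℕ) : ℝ) := by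
    rw [hγ, div_pow, Real.sq_sqrt hN1.le]
  have hγN : β ^ 2 - γ ^ 2 * N = β ^ 2 / ((N + 1 : ℕ) : ℝ) := by
    rw [hγ2]
    field_simp
    push_cast
    ring
  have hsum := rs_sum_p hm
  -- (1)
  have h1 := AN_succ_ge hN hm β s
  -- (2)
  have h2 := ls_interp (X := Fin n → Bool) (a := sc (n := n) (K := K) β N s) (α := tre N β R)
    (β := cav N γ) hm rlev_le (lc n) (B := 2 * (β ^ 2 / ((N + 1 : ℕ) : ℝ)) + β ^ 2 * W)
    (dj_tre_cav β γ) (dj_tre_sc β) (dj_cav_sc γ) (by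
      intro θ _ _
      have eS : ls rlev K (me K) (lc n) (ith (sc (n := n) (K := K) β N s) (tre N β R) (cav N γ) θ) =
          ST n K (me K) β N s R θ := by
        rw [hγ]; rfl
      rw [eS]
      have hReg : (ST n K (me K) β N s R θ).Reg := rs_reg hm _ _
      have e1 : (fun (_ : RI n K → ℝ) (x : Fin n → Bool) =>
          ∑ e, (tre (K := K) N β R x e ^ 2 - cav (K := K) N γ x e ^ 2)) =
          fun _ _ => β ^ 2 / ((N + 1 : ℕ) : ℝ) := by
        funext _ x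
        rw [Finset.sum_sub_distrib, sum_tre hNn β hR, sum_cav hNn, hRK, mul_one, hγN]
      rw [e1, hReg.Ex_const]
      have e2 : ∀ l ∈ Finset.range (K + 1), (me K (l + 1) - me K l) *
          -(β ^ 2 * (ST n K (me K) β N s R θ).pairEx l (fun x x' => |Rov (ph hN') x x' - R l|) +
            β ^ 2 / ((N + 1 : ℕ) : ℝ)) ≤ (me K (l + 1) - me K l) *
          (ST n K (me K) β N s R θ).pairEx l (fun x x' =>
            cv rlev l (tre (K := K) N β R) (tre N β R) x x' -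
              cv rlev l (cav (K := K) N γ) (cav N γ) x x') := by
        intro l hl
        have hl' : l ≤ K := by have := Finset.mem_range.1 hl; omega
        have hl'' : l ≤ (ST n K (me K) β N s R θ).K := hl'
        refine mul_le_mul_of_nonneg_left ?_ (rs_p_nonneg hm hl)
        have e3 : -(β ^ 2 * (ST n K (me K) β N s R θ).pairEx l
            (fun x x' => |Rov (ph hN') x x' - R l|) + β ^ 2 / ((N + 1 : ℕ) : ℝ)) =
            (ST n K (me K) β N s R θ).pairEx l (fun x x' =>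
              (-β ^ 2) * |Rov (ph hN') x x' - R l| + -(β ^ 2 / ((N + 1 : ℕ) : ℝ))) := by
          rw [hReg.pairEx_add hl'' (fun x x' => (-β ^ 2) * |Rov (ph hN') x x' - R l|)
            (fun _ _ => -(β ^ 2 / ((N + 1 : ℕ) : ℝ))), hReg.pairEx_const_mul,
            hReg.pairEx_const hl'']
          ring
        rw [e3]
        refine hReg.pairEx_mono hl'' fun x x' => ?_
        rw [cv_tre hNn hl' β hR, cv_cav hNn]
        obtain ⟨r, hr⟩ : ∃ r, r = Rov (ph hN') x x' := ⟨_, rfl⟩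
        obtain ⟨w, hw⟩ : ∃ w, w = sp N x * sp N x' := ⟨_, rfl⟩
        have hr1 : |r| ≤ 1 := by rw [hr]; exact rs_abs_Rov hN' h0 x x'
        have hw1 : |w| = 1 := by
          have a1 := sp_sq hNn x
          have a2 := sp_sq hNn x'
          have a3 : w ^ 2 = 1 := by rw [hw, mul_pow, a1, a2, one_mul]
          rw [← sq_abs] at a3
          exact (pow_eq_one_iff_of_nonneg (abs_nonneg w) two_ne_zero).1 a3
        rw [← hr, ← hw]
        have e4 : β ^ 2 * w * R l - γ ^ 2 * w * (N * r) =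
            w * (β ^ 2 * (R l - r) + β ^ 2 / ((N + 1 : ℕ) : ℝ) * r) := by
          rw [← hγN]; ring
        rw [e4]
        have e5 : |w * (β ^ 2 * (R l - r) + β ^ 2 / ((N + 1 : ℕ) : ℝ) * r)| ≤
            β ^ 2 * |r - R l| + β ^ 2 / ((N + 1 : ℕ) : ℝ) := by
          rw [abs_mul, hw1, one_mul]
          refine (abs_add_le _ _).trans (add_le_add ?_ ?_)
          · rw [abs_mul, abs_of_nonneg hb2, abs_sub_comm]
          · rw [abs_mul, abs_of_nonneg (div_nonneg hb2 hN1.le)]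
            exact mul_le_of_le_one_right (div_nonneg hb2 hN1.le) hr1
        have e6 := (abs_le.1 e5).1
        linarith only [e6]
      have e7 := Finset.sum_le_sum e2
      have e8 : ∑ l ∈ Finset.range (K + 1), (me K (l + 1) - me K l) *
          -(β ^ 2 * (ST n K (me K) β N s R θ).pairEx l (fun x x' => |Rov (ph hN') x x' - R l|) +
            β ^ 2 / ((N + 1 : ℕ) : ℝ)) =
          -(β ^ 2 * ∑ l ∈ Finset.range (K + 1), (me K (l + 1) - me K l) *
            (ST n K (me K) β N s R θ).pairEx l (fun x x' => |Rov (ph hN') x x' - R l|) +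
            β ^ 2 / ((N + 1 : ℕ) : ℝ) * ∑ l ∈ Finset.range (K + 1), (me K (l + 1) - me K l)) := by
        rw [Finset.mul_sum, Finset.mul_sum, ← Finset.sum_add_distrib, ← Finset.sum_neg_distrib]
        exact Finset.sum_congr rfl fun l _ => by ring
      rw [e8, hsum, mul_one] at e7
      have e9 := mul_le_mul_of_nonneg_left (hdev θ) hb2
      linarith only [e9, e7])
  -- (3)
  have h3 := fe_tre (R := R) hNn hm hβ hR s
  -- (4)
  have h4 := SC_ge hN' h0 hm hβ s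
  have h5 : ∑ l ∈ Finset.range (K + 1), (me K (l + 1) - me K l) * R l ^ 2 - 2 * W ≤
      ∑ l ∈ Finset.range (K + 1), (me K (l + 1) - me K l) *
        (SN n K (me K) β N s).pairEx l (fun x x' => Rov (ph hN') x x' ^ 2) := by
    have hReg : (SN n K (me K) β N s).Reg := rs_reg hm _ _
    have a1 : ∀ l ∈ Finset.range (K + 1), (me K (l + 1) - me K l) * (R l ^ 2 -
        2 * (SN n K (me K) β N s).pairEx l (fun x x' => |Rov (ph hN') x x' - R l|)) ≤
        (me K (l + 1) - me K l) *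
        (SN n K (me K) β N s).pairEx l (fun x x' => Rov (ph hN') x x' ^ 2) := by
      intro l hl
      have hl' : l ≤ K := by have := Finset.mem_range.1 hl; omega
      have hl'' : l ≤ (SN n K (me K) β N s).K := hl'
      refine mul_le_mul_of_nonneg_left ?_ (rs_p_nonneg hm hl)
      have a2 : R l ^ 2 - 2 * (SN n K (me K) β N s).pairEx l
          (fun x x' => |Rov (ph hN') x x' - R l|) =
          (SN n K (me K) β N s).pairEx l (fun x x' => (-2) * |Rov (ph hN') x x' - R l| +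
            R l ^ 2) := by
        rw [hReg.pairEx_add hl'' (fun x x' => (-2) * |Rov (ph hN') x x' - R l|)
            (fun _ _ => R l ^ 2), hReg.pairEx_const_mul, hReg.pairEx_const hl'']
        ring
      rw [a2]
      refine hReg.pairEx_mono hl'' fun x x' => ?_
      obtain ⟨r, hr⟩ : ∃ r, r = Rov (ph hN') x x' := ⟨_, rfl⟩
      have hr1 : |r| ≤ 1 := by rw [hr]; exact rs_abs_Rov hN' h0 x x'
      have hr2 := abs_le.1 hr1
      have hR' := hRm l hl'
      rw [← hr]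
      have a3 := abs_le.1 (le_refl |r - R l|)
      rcases abs_cases (r - R l) with h | h
      · rw [h.1]
        nlinarith
      · rw [h.1]
        nlinarith
    refine le_trans ?_ (Finset.sum_le_sum a1)
    have a4 : ∑ l ∈ Finset.range (K + 1), (me K (l + 1) - me K l) * (R l ^ 2 -
        2 * (SN n K (me K) β N s).pairEx l (fun x x' => |Rov (ph hN') x x' - R l|)) =
        ∑ l ∈ Finset.range (K + 1), (me K (l + 1) - me K l) * R l ^ 2 -
        2 * ∑ l ∈ Finset.range (K + 1), (me K (l + 1) - me K l) *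
          (SN n K (me K) β N s).pairEx l (fun x x' => |Rov (ph hN') x x' - R l|) := by
      rw [Finset.mul_sum, ← Finset.sum_sub_distrib]
      exact Finset.sum_congr rfl fun l _ => by ring
    rw [a4]
    linarith only [hdev0]
  have h6 := mul_le_mul_of_nonneg_left h5 (show 0 ≤ β ^ 2 / 4 by (clear * -; positivity))
  rw [← hγ] at h1
  rw [h3, hRK] at h2
  unfold PSK
  have h7 : β ^ 2 / 4 * (1 - ∑ l ∈ Finset.range (K + 1), (me K (l + 1) - me K l) *
        (SN n K (me K) β N s).pairEx l (fun x x' => Rov (ph hN') x x' ^ 2)) =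
      β ^ 2 / 4 - β ^ 2 / 4 * ∑ l ∈ Finset.range (K + 1), (me K (l + 1) - me K l) *
        (SN n K (me K) β N s).pairEx l (fun x x' => Rov (ph hN') x x' ^ 2) := by ring
  rw [h7] at h4
  have h8 : β ^ 2 / 4 * (∑ l ∈ Finset.range (K + 1), (me K (l + 1) - me K l) * R l ^ 2 - 2 * W) =
      β ^ 2 / 4 * ∑ l ∈ Finset.range (K + 1), (me K (l + 1) - me K l) * R l ^ 2 -
        β ^ 2 * W / 2 := by ring
  rw [h8] at h6
  have h9 : β ^ 2 / 4 * (1 + ∑ i ∈ Finset.range (K + 1), (me K (i + 1) - me K i) * R i ^ 2) =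
      β ^ 2 / 4 + β ^ 2 / 4 * ∑ i ∈ Finset.range (K + 1), (me K (i + 1) - me K i) * R i ^ 2 := by
    ring
  rw [h9]
  linarith only [h6, h4, h2, h1]

end Vale.Agent.P146.Ub
end

section

/-!
(R): the lower bound for the mean free energy with a polynomial rate.
-/

open MeasureTheory ProbabilityTheory Filter Topology

namespace Vale.Agent.P146.Ub

set_option linter.unusedSectionVars false

open Vale.Agent.P157 Vale.Agent.P157.Lv Vale.Agent.P157.Lv.Sy
open Vale.Agent.P157.Par (Path Exponents incr spinPart)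
open Vale.Agent.P146 (Pair freeEnergy disorder)
open Vale.Agent.P146.Sk (PSK)

theorem rr_rec_zero {ι X : Type} [Fintype ι] [Fintype X] (S : Sy ι X) (h : S.top = fun _ => 0) :
    ∀ d l, S.rec' l d = fun _ => 0 := by
  intro d
  induction d with
  | zero => intro l; rw [Sy.rec'.eq_1]; exact h
  | succ d ih =>
    intro l
    rw [Sy.rec'.eq_2, ih]
    funext z
    simp [Sy.stp, J_const]

theorem rr_fe_zero {n K : ℕ} (m : ℕ → ℝ) :
    (ls rlev K m (lc n) (fun _ _ => 0) : Sy (RI n K) (Fin n → Bool)).fe = 0 := by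
  have h : (ls rlev K m (lc n) (fun _ _ => 0) : Sy (RI n K) (Fin n → Bool)).top =
      fun _ => 0 := by
    funext z
    simp only [Sy.top, ls, lin, zero_mul, Finset.sum_const_zero, zero_add, Finset.sum_const, Finset.card_univ, nsmul_eq_mul, lc]
    rw [Real.log_mul (by positivity) (Real.exp_pos _).ne', Real.log_exp]
    simp
  unfold Sy.fe Sy.lg
  rw [rr_rec_zero _ h]
  simp

theorem rr_nonneg {n K : ℕ} {m : ℕ → ℝ} (hm : Exponents K m) (β : ℝ) (N : ℕ) (s : ℕ → ℝ) :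
    0 ≤ AN n K m β N s := by
  have h := ls_le_add (a := fun _ _ => 0) (b := st β N s) hm (rlev_le (n := n)) (lc n)
    (fun e x x' => mul_zero _)
  rw [rr_fe_zero] at h
  have e : ((fun _ _ => 0) + st β N s : (Fin n → Bool) → RI n K → ℝ) = st β N s := by
    funext x e
    simp
  rw [e] at h
  exact h

theorem rr_le {n K : ℕ} {m : ℕ → ℝ} (hm : Exponents K m) (β : ℝ) (s : ℕ → ℝ) :
    AN n K m β n s ≤ AN n K m β n (fun _ => 0) +
      n * (∑ j ∈ Finset.range (K + 1), s j ^ 2) / 2 := by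
  have h := ls_add_le (a := dsk n (β / √n)) (b := fd n s) hm (rlev_le (n := n)) (lc n)
    (fun e x x' => by
      have := dj_dsk_fd (s := s) (N := n) (β / √n) n e x' x
      rw [mul_comm]; exact this)
    (V := n * (∑ j ∈ Finset.range (K + 1), s j ^ 2)) (fun x => by
      rw [Fintype.sum_sum_type, Fintype.sum_sum_type]
      simp only [fd_a, fd_b, fd_c]
      have h1 : ∀ p : Fin (K + 1) × Fin n,
          (if (p.2 : ℕ) < n then s p.1 * spin x p.2 else 0) ^ 2 = s p.1 ^ 2 := by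
        intro p
        rw [if_pos p.2.2, mul_pow]
        have : spin x p.2 ^ 2 = 1 := by
          unfold spin; split_ifs <;> norm_num
        rw [this, mul_one]
      rw [Finset.sum_congr rfl fun p _ => h1 p, Fintype.sum_prod_type]
      simp only [Finset.sum_const, Finset.card_univ, Fintype.card_fin, nsmul_eq_mul]
      rw [← Finset.mul_sum, Finset.sum_range]
      simp)
  have e1 : (dsk n (β / √n) : (Fin n → Bool) → RI n K → ℝ) = st β n (fun _ => 0) := by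
    funext x e
    unfold st
    rcases e with p | p | l
    · simp [fd_a, fd_b, fd_c]
    · simp [fd_a, fd_b, fd_c]
    · simp [fd_a, fd_b, fd_c]
  have e2 : (dsk n (β / √n) + fd n s : (Fin n → Bool) → RI n K → ℝ) = st β n s := rfl
  rw [e2, e1] at h
  exact h

theorem rr_dl_nonneg {n K N : ℕ} {m : ℕ → ℝ} {β : ℝ} (hN : N ≤ n) (h0 : 0 < N)
    (hm : Exponents K m) (s : ℕ → ℝ) (t : ℝ) {j : ℕ} (hj : j ≤ K) :
    0 ≤ dl n K m β N s t j := by
  have h1 := AN_tangent (β := β) hN h0 hm s hj t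
  have h2 := AN_tangent (β := β) hN h0 hm s hj (-t)
  rw [← sub_eq_add_neg] at h2
  unfold dl
  linarith only [h2, h1]

/-- The point of the grid. -/
theorem rr_gp {K M : ℕ} {σ t : ℝ} (ht : 0 ≤ t) (k : Fin (K + 1) → Fin M) {j : ℕ} (hj : j ≤ K) :
    σ ≤ gp σ t k j ∧ gp σ t k j ≤ σ + M * t := gp_mem ht k hj

theorem rr_ej_sum {n K N : ℕ} {m : ℕ → ℝ} {β : ℝ} (s : ℕ → ℝ) (t : ℝ) :
    ee n K m β N s t = 1 / (N * t) * (2 * ∑ j ∈ Finset.range (K + 1), dl n K m β N s t j +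
      ((K + 1 : ℕ) : ℝ) * (3 * β ^ 2 + Real.log 2 / m 1 + 3 * √(2 * ((2 * β ^ 2 + 4) * N)))) := by
  unfold ee ej
  rw [← Finset.mul_sum]
  congr 1
  have : ∀ j ∈ Finset.range (K + 1), 2 * dl n K m β N s t j + 3 * β ^ 2 + Real.log 2 / m 1 +
      3 * √(2 * ((2 * β ^ 2 + 4) * N)) = 2 * dl n K m β N s t j +
        (3 * β ^ 2 + Real.log 2 / m 1 + 3 * √(2 * ((2 * β ^ 2 + 4) * N))) := fun j _ => by ring
  rw [Finset.sum_congr rfl this, Finset.sum_add_distrib, Finset.sum_const, Finset.card_range,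
    nsmul_eq_mul, ← Finset.mul_sum]

/-- The average of the second differences over the grid. -/
theorem rr_avg_dl {n K N M : ℕ} {m : ℕ → ℝ} {β : ℝ} (hN : N ≤ n) (h0 : 0 < N)
    (hm : Exponents K m) (hM : 0 < M) {σ t : ℝ} (ht : 0 < t) (hσ : t ≤ σ) :
    ∑ k : Fin (K + 1) → Fin M, ∑ j ∈ Finset.range (K + 1), dl n K m β N (gp σ t k) t j ≤
      ((K + 1 : ℕ) : ℝ) * ((M : ℝ) ^ K * (t * (N * (σ + M * t)))) := by
  rw [Finset.sum_comm]
  have h1 : ∀ j ∈ Finset.range (K + 1),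
      ∑ k : Fin (K + 1) → Fin M, dl n K m β N (gp σ t k) t j ≤
        (M : ℝ) ^ K * (t * (N * (σ + M * t))) := by
    intro j hj
    rw [Finset.mem_range] at hj
    exact avg_dl (K := K) (A := AN n K m β N)
      (C := fun j s => (SN n K m β N s).Ex (gx hN j)) hM ht hσ (Nat.cast_nonneg N)
      (fun s j hj x => AN_tangent hN h0 hm s hj x)
      (fun s hs j hj => AN_slope hN h0 hm hs hj) (Nat.le_of_lt_succ hj)
  refine (Finset.sum_le_sum h1).trans (le_of_eq ?_)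
  rw [Finset.sum_const, Finset.card_range, nsmul_eq_mul]

/-- The lower bound is at most `β² / 4`. -/
theorem rr_Lb {β Lb : ℝ}
    (hLb : ∀ (K : ℕ) (m q : ℕ → ℝ), Exponents K m → Path K q → q K ≤ 1 → Lb ≤ PSK β K m q) :
    Lb ≤ β ^ 2 / 4 := by
  have h := hLb 0 (fun l => (l : ℝ)) (fun _ => 0) ⟨by simp, by simp, fun l hl => by simp⟩
    ⟨le_rfl, fun l hl => le_rfl⟩ zero_le_one
  refine h.trans (le_of_eq ?_)
  unfold PSK spinPart
  simp [Par.cascade]

/-- The constant of the average error. -/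
noncomputable def rrE (β : ℝ) : ℝ := 2 + 2 * (3 * β ^ 2 + 1) + 6 * √(2 * (2 * β ^ 2 + 4))

theorem rrE_nonneg (β : ℝ) : 0 ≤ rrE β := by unfold rrE; positivity

/-- The average over a finite type. -/
noncomputable def rAv {G : Type} [Fintype G] (f : G → ℝ) : ℝ :=
  1 / (Fintype.card G : ℝ) * ∑ k, f k

section Av

variable {G : Type} [Fintype G] [Nonempty G]

theorem rAv_mono {f g : G → ℝ} (h : ∀ k, f k ≤ g k) : rAv f ≤ rAv g := by
  unfold rAv
  exact mul_le_mul_of_nonneg_left (Finset.sum_le_sum fun k _ => h k) (by positivity)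

theorem rAv_const (c : ℝ) : rAv (fun _ : G => c) = c := by
  have hc : (Fintype.card G : ℝ) ≠ 0 := by exact_mod_cast Fintype.card_ne_zero
  unfold rAv
  rw [Finset.sum_const, Finset.card_univ, nsmul_eq_mul]
  field_simp

theorem rAv_add (f g : G → ℝ) : rAv (fun k => f k + g k) = rAv f + rAv g := by
  unfold rAv
  rw [Finset.sum_add_distrib, mul_add]

theorem rAv_sub (f g : G → ℝ) : rAv (fun k => f k - g k) = rAv f - rAv g := by
  unfold rAv
  rw [Finset.sum_sub_distrib, mul_sub]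

theorem rAv_mul (c : ℝ) (f : G → ℝ) : rAv (fun k => c * f k) = c * rAv f := by
  unfold rAv
  rw [← Finset.mul_sum]
  ring

theorem rAv_sqrt {f : G → ℝ} (h : ∀ k, 0 ≤ f k) : rAv (fun k => √(f k)) ≤ √(rAv f) := by
  refine (avg_sqrt f).trans (le_of_eq ?_)
  unfold rAv
  congr 2
  exact Finset.sum_congr rfl fun k _ => abs_of_nonneg (h k)

end Av

/-- The average of the errors over the grid. -/
theorem rr_avg_ee {n K N : ℕ} {β : ℝ} (hN : N ≤ n) (hNK : ((K + 1 : ℕ) : ℝ) ^ 16 ≤ N) :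
    rAv (fun k : Fin (K + 1) → Fin ((K + 1) ^ 3) => ee n K (me K) β N
      (gp (1 / (2 * ((K + 1 : ℕ) : ℝ))) (1 / (2 * ((K + 1 : ℕ) : ℝ) ^ 4)) k)
      (1 / (2 * ((K + 1 : ℕ) : ℝ) ^ 4))) ≤ rrE β / ((K + 1 : ℕ) : ℝ) ^ 3 := by
  obtain ⟨l, hl⟩ : ∃ l : ℝ, l = ((K + 1 : ℕ) : ℝ) := ⟨_, rfl⟩
  have hl1 : 1 ≤ l := by rw [hl]; push_cast; linarith [Nat.cast_nonneg (α := ℝ) K]
  have hl0 : 0 < l := by linarith
  have hM : 0 < (K + 1) ^ 3 := by positivity
  have hMl : (((K + 1) ^ 3 : ℕ) : ℝ) = l ^ 3 := by rw [hl]; push_cast; ring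
  rw [← hl] at hNK ⊢
  have hN0 : (0 : ℝ) < N := lt_of_lt_of_le (by positivity) hNK
  have hN0' : 0 < N := by exact_mod_cast hN0
  obtain ⟨t, ht⟩ : ∃ t : ℝ, t = 1 / (2 * l ^ 4) := ⟨_, rfl⟩
  have ht0 : 0 < t := by rw [ht]; positivity
  have htσ : t ≤ 1 / (2 * l) := by
    rw [ht]
    apply one_div_le_one_div_of_le (by positivity)
    have : l ≤ l ^ 4 := le_self_pow₀ hl1 (by norm_num)
    linarith only [this]
  rw [← ht]
  have h1 := rr_avg_dl (n := n) (K := K) (N := N) (β := β) hN hN0' (me_exp K) hM ht0 htσ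
  rw [hMl, ← hl] at h1
  have e1 : 1 / (2 * l) + l ^ 3 * t = 1 / l := by
    rw [ht]; field_simp; ring
  rw [e1] at h1
  obtain ⟨c, hc⟩ : ∃ c : ℝ, c = √(2 * (2 * β ^ 2 + 4)) := ⟨_, rfl⟩
  have hc0 : 0 ≤ c := by rw [hc]; exact Real.sqrt_nonneg _
  have e2 : √(2 * ((2 * β ^ 2 + 4) * N)) = c * √N := by
    rw [hc, ← Real.sqrt_mul (by positivity)]
    congr 1; ring
  have e3 : Real.log 2 / me K 1 = l * Real.log 2 := by
    unfold me
    rw [← hl]
    simp
    ring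
  have hcard : (Fintype.card (Fin (K + 1) → Fin ((K + 1) ^ 3)) : ℝ) = (l ^ 3) ^ (K + 1) := by
    rw [Fintype.card_pi_const, Fintype.card_fin]
    rw [Nat.cast_pow, hMl]
  have h2 : ∀ k : Fin (K + 1) → Fin ((K + 1) ^ 3), ee n K (me K) β N (gp (1 / (2 * l)) t k) t =
      1 / (N * t) * (2 * ∑ j ∈ Finset.range (K + 1),
        dl n K (me K) β N (gp (1 / (2 * l)) t k) t j) +
      1 / (N * t) * (l * (3 * β ^ 2 + l * Real.log 2 + 3 * (c * √N))) := by
    intro k
    rw [rr_ej_sum, e2, e3, ← hl]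
    ring
  have : Nonempty (Fin (K + 1) → Fin ((K + 1) ^ 3)) := ⟨fun _ => ⟨0, hM⟩⟩
  simp only [h2]
  rw [rAv_add, rAv_mul, rAv_mul, rAv_const]
  have h3 : rAv (fun k : Fin (K + 1) → Fin ((K + 1) ^ 3) => ∑ j ∈ Finset.range (K + 1),
      dl n K (me K) β N (gp (1 / (2 * l)) t k) t j) ≤ t * N / l ^ 3 := by
    unfold rAv
    rw [hcard]
    have h4 := mul_le_mul_of_nonneg_left h1
      (by positivity : (0 : ℝ) ≤ 1 / (l ^ 3) ^ (K + 1))
    refine h4.trans (le_of_eq ?_)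
    rw [pow_succ]
    field_simp
  have hx : l ^ 8 ≤ √N := by
    rw [← Real.sqrt_sq (by positivity : (0 : ℝ) ≤ l ^ 8)]
    apply Real.sqrt_le_sqrt
    rw [← pow_mul]
    exact hNK
  have hx0 : 0 < √(N : ℝ) := lt_of_lt_of_le (by positivity) hx
  have h5 : 1 / (N * t) * (2 * rAv (fun k : Fin (K + 1) → Fin ((K + 1) ^ 3) =>
      ∑ j ∈ Finset.range (K + 1), dl n K (me K) β N (gp (1 / (2 * l)) t k) t j)) ≤ 2 / l ^ 3 := by
    have := mul_le_mul_of_nonneg_left h3 (by positivity : (0 : ℝ) ≤ 1 / (N * t) * 2)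
    rw [← mul_assoc]
    refine this.trans (le_of_eq ?_)
    field_simp
  have h6 : 1 / (N * t) * (l * (3 * β ^ 2 + l * Real.log 2 + 3 * (c * √N))) ≤
      (2 * (3 * β ^ 2 + 1) + 6 * c) / l ^ 3 := by
    have e4 : 1 / (N * t) * (l * (3 * β ^ 2 + l * Real.log 2 + 3 * (c * √N))) =
        2 * l ^ 5 * (3 * β ^ 2 + l * Real.log 2) / N + 6 * c * l ^ 5 * (√N / N) := by
      rw [ht]; field_simp; ring
    have e5 : √(N : ℝ) / N = 1 / √N := by
      rw [div_eq_div_iff hN0.ne' hx0.ne', one_mul]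
      exact Real.mul_self_sqrt hN0.le
    rw [e4, e5, add_div]
    refine add_le_add ?_ ?_
    · have hlog : Real.log 2 ≤ 1 := by
        have := Real.log_le_sub_one_of_pos (zero_lt_two' ℝ)
        linarith only [this]
      have h7 : 3 * β ^ 2 + l * Real.log 2 ≤ l * (3 * β ^ 2 + 1) := by
        have := mul_le_mul_of_nonneg_left hlog hl0.le
        have := mul_le_mul_of_nonneg_right hl1 (by (clear * -; positivity) : (0 : ℝ) ≤ 3 * β ^ 2)
        linarith
      have h8 : l ^ 9 ≤ N := le_trans (pow_le_pow_right₀ hl1 (by norm_num)) hNK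
      rw [div_le_div_iff₀ hN0 (by positivity)]
      have h9 : 2 * l ^ 5 * (3 * β ^ 2 + l * Real.log 2) * l ^ 3 ≤
          2 * (3 * β ^ 2 + 1) * l ^ 9 := by
        have := mul_le_mul_of_nonneg_left h7 (by positivity : (0 : ℝ) ≤ 2 * l ^ 8)
        linarith only [this]
      refine h9.trans (mul_le_mul_of_nonneg_left h8 (by (clear * -; positivity)))
    · have h7 : 6 * c * l ^ 5 * (1 / √N) ≤ 6 * c * l ^ 5 * (1 / l ^ 8) :=
        mul_le_mul_of_nonneg_left (one_div_le_one_div_of_le (by positivity) hx) (by (clear * - hc0 hl1; positivity))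
      refine h7.trans (le_of_eq ?_)
      field_simp
  refine (add_le_add h5 h6).trans (le_of_eq ?_)
  unfold rrE
  rw [← hc]
  ring

/-- The constant of the rate. -/
noncomputable def rrW (β : ℝ) : ℝ := β ^ 2 * (1 + (√2 + 2 + √(40 * rrE β) + 4 * rrE β))

theorem rrW_nonneg (β : ℝ) : 0 ≤ rrW β := by
  have := rrE_nonneg β
  unfold rrW; positivity

/-- The strengths of the grid are in `[1 / (2 (K+1)), 1 / (K+1)]`. -/
theorem rr_gp_le {K : ℕ} (k : Fin (K + 1) → Fin ((K + 1) ^ 3)) {j : ℕ} (hj : j ≤ K) :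
    1 / (2 * ((K + 1 : ℕ) : ℝ)) ≤
      gp (1 / (2 * ((K + 1 : ℕ) : ℝ))) (1 / (2 * ((K + 1 : ℕ) : ℝ) ^ 4)) k j ∧
    gp (1 / (2 * ((K + 1 : ℕ) : ℝ))) (1 / (2 * ((K + 1 : ℕ) : ℝ) ^ 4)) k j ≤
      1 / ((K + 1 : ℕ) : ℝ) := by
  have h := gp_mem (σ := 1 / (2 * ((K + 1 : ℕ) : ℝ))) (t := 1 / (2 * ((K + 1 : ℕ) : ℝ) ^ 4))
    (by positivity) k hj
  refine ⟨h.1, h.2.trans (le_of_eq ?_)⟩
  push_cast
  field_simp
  ring

/-- The averaged step. -/
theorem rr_step_avg {n K N : ℕ} {β Lb : ℝ} (hβ : 0 ≤ β)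
    (hLb : ∀ (K : ℕ) (m q : ℕ → ℝ), Exponents K m → Path K q → q K ≤ 1 → Lb ≤ PSK β K m q)
    (hN : N + 1 ≤ n) (hNK : ((K + 1 : ℕ) : ℝ) ^ 16 ≤ N) :
    Lb ≤ rAv (fun k : Fin (K + 1) → Fin ((K + 1) ^ 3) =>
      AN n K (me K) β (N + 1)
          (gp (1 / (2 * ((K + 1 : ℕ) : ℝ))) (1 / (2 * ((K + 1 : ℕ) : ℝ) ^ 4)) k) -
        AN n K (me K) β N
          (gp (1 / (2 * ((K + 1 : ℕ) : ℝ))) (1 / (2 * ((K + 1 : ℕ) : ℝ) ^ 4)) k)) +
      rrW β / √((K + 1 : ℕ) : ℝ) := by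
  have hE0 := rrE_nonneg β
  have hav := rr_avg_ee (n := n) (K := K) (N := N) (β := β) (Nat.le_of_succ_le hN) hNK
  have hgp := fun (k : Fin (K + 1) → Fin ((K + 1) ^ 3)) => fun {j : ℕ} (hj : j ≤ K) =>
    rr_gp_le k hj
  obtain ⟨l, hl⟩ : ∃ l : ℝ, l = ((K + 1 : ℕ) : ℝ) := ⟨_, rfl⟩
  have hl1 : 1 ≤ l := by rw [hl]; push_cast; linarith only [Nat.cast_nonneg (α := ℝ) K]
  have hl0 : 0 < l := by linarith only [hl1]
  have hM : 0 < (K + 1) ^ 3 := by positivity
  rw [← hl] at hNK hav hgp ⊢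
  have hN0 : (0 : ℝ) < N := lt_of_lt_of_le (by positivity) hNK
  have hN0' : 0 < N := by exact_mod_cast hN0
  obtain ⟨t, ht⟩ : ∃ t : ℝ, t = 1 / (2 * l ^ 4) := ⟨_, rfl⟩
  have ht0 : 0 < t := by rw [ht]; positivity
  have ht1 : t ≤ 1 := by
    rw [ht, div_le_one (by positivity)]
    have : 1 ≤ l ^ 4 := one_le_pow₀ hl1
    linarith
  rw [← ht] at hav hgp ⊢
  obtain ⟨σ, hσ⟩ : ∃ σ : ℝ, σ = 1 / (2 * l) := ⟨_, rfl⟩
  have hσ0 : 0 < σ := by rw [hσ]; positivity
  rw [← hσ] at hav hgp ⊢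
  have hne : Nonempty (Fin (K + 1) → Fin ((K + 1) ^ 3)) := ⟨fun _ => ⟨0, hM⟩⟩
  obtain ⟨X, hX⟩ : ∃ X : (Fin (K + 1) → Fin ((K + 1) ^ 3)) → ℝ,
      X = fun k => ee n K (me K) β N (gp σ t k) t := ⟨_, rfl⟩
  obtain ⟨D, hD⟩ : ∃ D : (Fin (K + 1) → Fin ((K + 1) ^ 3)) → ℝ,
      D = fun k => AN n K (me K) β (N + 1) (gp σ t k) - AN n K (me K) β N (gp σ t k) := ⟨_, rfl⟩
  rw [← hX] at hav
  rw [← hD]
  have hX0 : ∀ k, 0 ≤ X k := by
    intro k
    rw [hX]
    simp only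
    rw [rr_ej_sum]
    have h1 : 0 ≤ ∑ j ∈ Finset.range (K + 1), dl n K (me K) β N (gp σ t k) t j :=
      Finset.sum_nonneg fun j hj => rr_dl_nonneg (Nat.le_of_succ_le hN) hN0' (me_exp K) _ _
        (Nat.le_of_lt_succ (Finset.mem_range.1 hj))
    have h2 : 0 < me K 1 := by unfold me; positivity
    have h3 : 0 < Real.log 2 := Real.log_pos one_lt_two
    (clear * - hN0' ht0 h1 h2; positivity)
  -- the step at each point of the grid
  have hstep : ∀ k, Lb ≤ D k + (β ^ 2 * (1 / √l + (√2 / √l + 2 / √l)) +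
      (β ^ 2 * √(40 * l ^ 2 * X k) + β ^ 2 * (4 * l ^ 2 * X k))) := by
    intro k
    have hs0 : ∀ j ≤ K, 0 ≤ gp σ t k j := fun j hj => hσ0.le.trans (hgp k hj).1
    have h1 := AN_step (n := n) (K := K) (N := N) (β := β) (s := gp σ t k) hN hN0' hβ hσ0
      (fun j hj => (hgp k hj).1)
      ((hgp k (Nat.zero_le _)).2.trans (by rw [div_le_one hl0]; exact hl1)) ht0 ht1
    have hF := SN_fld (n := n) (K := K) (m := me K) (N := N) (β := β) (s := gp σ t k)
      (Nat.le_of_succ_le hN) hN0' (me_exp K) hs0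
    have h2 := hLb K (me K) (stR (SN n K (me K) β N (gp σ t k)) (ph (Nat.le_of_succ_le hN)))
      (me_exp K) (st_path hF) (le_of_eq (stR_last _ _))
    have h3 := h2.trans h1
    have e1 : ∀ y, wE K σ y = √(2 / l) + 2 / l + √(40 * l ^ 2 * y) + 4 * l ^ 2 * y := by
      intro y
      unfold wE
      rw [← hl, hσ]
      have e2 : 20 * y * l / (1 / (2 * l)) = 40 * l ^ 2 * y := by
        field_simp; ring
      have e3 : 2 * l * y / (1 / (2 * l)) = 4 * l ^ 2 * y := by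
        field_simp; ring
      rw [e2, e3]
    have hXk : ee n K (me K) β N (gp σ t k) t = X k := by rw [hX]
    rw [e1, hXk] at h3
    have h4 : √(2 / l) = √2 / √l := Real.sqrt_div (by norm_num) l
    have h5 : 1 / l ≤ 1 / √l := by
      apply one_div_le_one_div_of_le (Real.sqrt_pos.2 hl0)
      rw [Real.sqrt_le_left hl0.le]
      exact le_self_pow₀ hl1 (by norm_num)
    have h6 : 2 / l ≤ 2 / √l := by
      have := mul_le_mul_of_nonneg_left h5 (by norm_num : (0 : ℝ) ≤ 2)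
      rw [mul_one_div, mul_one_div] at this
      exact this
    have h7 : 1 / ((N + 1 : ℕ) : ℝ) ≤ 1 / √l := by
      refine le_trans (one_div_le_one_div_of_le hl0 ?_) h5
      push_cast
      have : l ≤ l ^ 16 := le_self_pow₀ hl1 (by norm_num)
      linarith only [this, hNK]
    have hb := sq_nonneg β
    have h8 : β ^ 2 / ((N + 1 : ℕ) : ℝ) ≤ β ^ 2 * (1 / √l) := by
      rw [← mul_one_div]
      exact mul_le_mul_of_nonneg_left h7 hb
    have h9 : β ^ 2 * (√(2 / l) + 2 / l) ≤ β ^ 2 * (√2 / √l + 2 / √l) := by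
      rw [h4]
      exact mul_le_mul_of_nonneg_left (by linarith only [h6]) hb
    have hDk : D k = AN n K (me K) β (N + 1) (gp σ t k) - AN n K (me K) β N (gp σ t k) := by
      rw [hD]
    rw [hDk]
    linarith only [h9, h8, h3]
  have h1 := rAv_mono hstep
  rw [rAv_const, rAv_add, rAv_add, rAv_const, rAv_add, rAv_mul, rAv_mul, rAv_mul] at h1
  -- the square root
  have h2 : rAv (fun k => √(40 * l ^ 2 * X k)) ≤ √(40 * rrE β) / √l := by
    refine (rAv_sqrt fun k => mul_nonneg (by positivity) (hX0 k)).trans ?_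
    rw [rAv_mul, ← Real.sqrt_div (by positivity)]
    apply Real.sqrt_le_sqrt
    have := mul_le_mul_of_nonneg_left hav (by positivity : (0 : ℝ) ≤ 40 * l ^ 2)
    refine this.trans (le_of_eq ?_)
    field_simp
  have h5 : 1 / l ≤ 1 / √l := by
    apply one_div_le_one_div_of_le (Real.sqrt_pos.2 hl0)
    rw [Real.sqrt_le_left hl0.le]
    exact le_self_pow₀ hl1 (by norm_num)
  have h3 : 4 * l ^ 2 * rAv X ≤ 4 * rrE β * (1 / √l) := by
    have h4 := mul_le_mul_of_nonneg_left hav (by positivity : (0 : ℝ) ≤ 4 * l ^ 2)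
    refine h4.trans ?_
    have e : 4 * l ^ 2 * (rrE β / l ^ 3) = 4 * rrE β * (1 / l) := by field_simp
    rw [e]
    exact mul_le_mul_of_nonneg_left h5 (by positivity)
  have hb := sq_nonneg β
  have h6 := mul_le_mul_of_nonneg_left h2 hb
  have h7 := mul_le_mul_of_nonneg_left h3 hb
  have e : rrW β / √l = β ^ 2 * (1 / √l + (√2 / √l + 2 / √l)) +
      (β ^ 2 * (√(40 * rrE β) / √l) + β ^ 2 * (4 * rrE β * (1 / √l))) := by
    unfold rrW; ring
  rw [e]
  linarith only [h7, h6, h1]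

/-- **The rate.** -/
theorem rate_lower {β : ℝ} (hβ : 0 < β) : ∃ C : ℝ, 0 ≤ C ∧ ∀ Lb : ℝ,
    (∀ (K : ℕ) (m q : ℕ → ℝ), Exponents K m → Path K q → q K ≤ 1 → Lb ≤ PSK β K m q) →
    ∀ n L : ℕ, 0 < L → L ^ 18 ≤ n →
      n * (Real.log 2 + Lb) ≤ ∫ g, freeEnergy n β g ∂(disorder n) + C * (n / √L) := by
  have hW := rrW_nonneg β
  refine ⟨1 / 2 + rrW β + β ^ 2 / 4, by positivity, ?_⟩
  intro Lb hLb n L hL hn
  obtain ⟨K, rfl⟩ : ∃ K, L = K + 1 := ⟨L - 1, by omega⟩
  obtain ⟨l, hl⟩ : ∃ l : ℝ, l = ((K + 1 : ℕ) : ℝ) := ⟨_, rfl⟩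
  have hl1 : 1 ≤ l := by rw [hl]; push_cast; linarith only [Nat.cast_nonneg (α := ℝ) K]
  have hl0 : 0 < l := by linarith only [hl1]
  have hsl : 0 < √l := Real.sqrt_pos.2 hl0
  have hn0 : 0 < n := lt_of_lt_of_le (by positivity) hn
  have hnr : l ^ 18 ≤ n := by rw [hl]; exact_mod_cast hn
  have hnpos : (0 : ℝ) < n := by exact_mod_cast hn0
  obtain ⟨N0, hN0⟩ : ∃ N0 : ℕ, N0 = (K + 1) ^ 16 := ⟨_, rfl⟩
  have hN0n : N0 ≤ n := by
    rw [hN0]
    exact le_trans (Nat.pow_le_pow_right (by omega) (by norm_num)) hn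
  have hN0r : (N0 : ℝ) = l ^ 16 := by rw [hN0, hl]; push_cast; ring
  obtain ⟨S, hS⟩ : ∃ S : (Fin (K + 1) → Fin ((K + 1) ^ 3)) → ℕ → ℝ,
      S = fun k => gp (1 / (2 * ((K + 1 : ℕ) : ℝ))) (1 / (2 * ((K + 1 : ℕ) : ℝ) ^ 4)) k :=
    ⟨_, rfl⟩
  have hM : 0 < (K + 1) ^ 3 := by (clear * -; positivity)
  have hne : Nonempty (Fin (K + 1) → Fin ((K + 1) ^ 3)) := ⟨fun _ => ⟨0, hM⟩⟩
  -- the sum over the stages
  have hsum : ∑ N ∈ Finset.Ico N0 n, (Lb - rrW β / √l) ≤
      ∑ N ∈ Finset.Ico N0 n, (rAv (fun k => AN n K (me K) β (N + 1) (S k)) -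
        rAv (fun k => AN n K (me K) β N (S k))) := by
    refine Finset.sum_le_sum fun N hN => ?_
    rw [Finset.mem_Ico] at hN
    have h := rr_step_avg (n := n) (K := K) (N := N) hβ.le hLb hN.2 (by
      rw [← hl, ← hN0r]; exact_mod_cast hN.1)
    rw [rAv_sub, ← hl] at h
    rw [hS, ← hl]
    linarith only [h]
  rw [Finset.sum_const, Nat.card_Ico, nsmul_eq_mul, Nat.cast_sub hN0n,
    Finset.sum_Ico_sub (fun N => rAv (fun k => AN n K (me K) β N (S k))) hN0n] at hsum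
  -- the ends
  have h0 : 0 ≤ rAv (fun k => AN n K (me K) β N0 (S k)) := by
    have := rAv_mono (f := fun _ => (0 : ℝ)) (g := fun k => AN n K (me K) β N0 (S k))
      fun k => rr_nonneg (me_exp K) β N0 (S k)
    rw [rAv_const] at this
    exact this
  have h1 : rAv (fun k => AN n K (me K) β n (S k)) ≤
      (∫ g, freeEnergy n β g ∂(disorder n) - n * Real.log 2) + n / 2 * (1 / √l) := by
    have h2 : ∀ k, AN n K (me K) β n (S k) ≤
        (∫ g, freeEnergy n β g ∂(disorder n) - n * Real.log 2) + n / 2 * (1 / √l) := by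
      intro k
      have h3 := rr_le (n := n) (me_exp K) β (S k)
      rw [AN_zero hn0 (me_exp K) β] at h3
      have h4 : ∑ j ∈ Finset.range (K + 1), S k j ^ 2 ≤ 1 / √l := by
        have h5 : ∀ j ∈ Finset.range (K + 1), S k j ^ 2 ≤ (1 / l) ^ 2 := by
          intro j hj
          have h6 := rr_gp_le k (Nat.le_of_lt_succ (Finset.mem_range.1 hj))
          rw [hS]
          simp only
          rw [← hl] at h6 ⊢
          have h7 : 0 ≤ 1 / (2 * l) := by positivity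
          exact pow_le_pow_left₀ (h7.trans h6.1) h6.2 2
        refine (Finset.sum_le_sum h5).trans ?_
        rw [Finset.sum_const, Finset.card_range, nsmul_eq_mul, ← hl]
        have h6 : l * (1 / l) ^ 2 = 1 / l := by field_simp
        rw [h6]
        apply one_div_le_one_div_of_le hsl
        rw [Real.sqrt_le_left hl0.le]
        exact le_self_pow₀ hl1 (by norm_num)
      have h5 := mul_le_mul_of_nonneg_left h4 (by positivity : (0 : ℝ) ≤ n / 2)
      refine h3.trans ?_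
      have e : (n : ℝ) * (∑ j ∈ Finset.range (K + 1), S k j ^ 2) / 2 =
          n / 2 * ∑ j ∈ Finset.range (K + 1), S k j ^ 2 := by ring
      rw [e]
      linarith only [h5]
    have h3 := rAv_mono h2
    rw [rAv_const] at h3
    exact h3
  -- conclusion
  have hLbu := rr_Lb hLb
  have h2 : (N0 : ℝ) ≤ n * (1 / √l) := by
    rw [hN0r, mul_one_div, le_div_iff₀ hsl]
    have h3 : √l ≤ l ^ 2 := by
      rw [Real.sqrt_le_left (by positivity), ← pow_mul]
      exact le_self_pow₀ hl1 (by norm_num)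
    have h4 : l ^ 16 * √l ≤ l ^ 16 * l ^ 2 := mul_le_mul_of_nonneg_left h3 (by positivity)
    have h5 : l ^ 16 * l ^ 2 = l ^ 18 := by ring
    linarith only [h4, hnr]
  have h3 : (N0 : ℝ) * Lb ≤ n * (1 / √l) * (β ^ 2 / 4) := by
    have hN00 : (0 : ℝ) ≤ N0 := Nat.cast_nonneg _
    exact (mul_le_mul_of_nonneg_left hLbu hN00).trans
      (mul_le_mul_of_nonneg_right h2 (by positivity))
  have h4 : ((n : ℝ) - N0) * (rrW β / √l) ≤ n * (1 / √l) * rrW β := by
    have hN00 : (0 : ℝ) ≤ N0 := Nat.cast_nonneg _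
    have h5 : 0 ≤ rrW β / √l := by positivity
    have h6 := mul_nonneg hN00 h5
    have e : (n : ℝ) * (1 / √l) * rrW β = n * (rrW β / √l) := by ring
    rw [e]
    linarith only [h6]
  rw [← hl]
  have e : (1 / 2 + rrW β + β ^ 2 / 4) * (n / √l) =
      n / 2 * (1 / √l) + n * (1 / √l) * rrW β + n * (1 / √l) * (β ^ 2 / 4) := by ring
  rw [e]
  linarith only [h4, h3, h1, h0, hsum]

/-- The same with an explicit power: `1 / 36` can be replaced by any smaller exponent. -/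
theorem rate_lower' {β : ℝ} (hβ : 0 < β) : ∃ C : ℝ, 0 ≤ C ∧ ∀ Lb : ℝ,
    (∀ (K : ℕ) (m q : ℕ → ℝ), Exponents K m → Path K q → q K ≤ 1 → Lb ≤ PSK β K m q) →
    ∀ n : ℕ, 0 < n →
      n * (Real.log 2 + Lb) ≤ ∫ g, freeEnergy n β g ∂(disorder n) +
        C * (n : ℝ) ^ (1 - 1 / 36 : ℝ) := by
  obtain ⟨C, hC, h⟩ := rate_lower hβ
  refine ⟨C * √2, by positivity, ?_⟩
  intro Lb hLb n hn
  have hn1 : (1 : ℝ) ≤ n := by exact_mod_cast hn
  have hn0 : (0 : ℝ) < n := by linarith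
  obtain ⟨x, hx⟩ : ∃ x : ℝ, x = (n : ℝ) ^ (1 / 18 : ℝ) := ⟨_, rfl⟩
  have hx1 : 1 ≤ x := by rw [hx]; exact Real.one_le_rpow hn1 (by norm_num)
  have hx18 : x ^ 18 = n := by
    rw [hx, ← Real.rpow_natCast, ← Real.rpow_mul hn0.le]
    norm_num
  obtain ⟨L, hL⟩ : ∃ L : ℕ, L = ⌊x⌋₊ := ⟨_, rfl⟩
  have hLpos : 0 < L := by
    rw [hL]
    exact Nat.floor_pos.2 hx1
  have hLx : (L : ℝ) ≤ x := by rw [hL]; exact Nat.floor_le (by linarith)
  have hLx2 : x / 2 ≤ L := by
    have h1 : x < (L : ℝ) + 1 := by rw [hL]; exact Nat.lt_floor_add_one x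
    have h2 : (1 : ℝ) ≤ L := by exact_mod_cast hLpos
    linarith
  have hLn : L ^ 18 ≤ n := by
    have h1 : ((L : ℝ)) ^ 18 ≤ n := by
      rw [← hx18]
      exact pow_le_pow_left₀ (Nat.cast_nonneg _) hLx 18
    exact_mod_cast h1
  have h1 := h Lb hLb n L hLpos hLn
  refine h1.trans (add_le_add le_rfl ?_)
  rw [mul_assoc]
  refine mul_le_mul_of_nonneg_left ?_ hC
  have hLp : (0 : ℝ) < L := by exact_mod_cast hLpos
  have hx0 : 0 < x := by linarith only [hLp, hLx]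
  have h2 : (n : ℝ) / √L ≤ n / √(x / 2) := by
    apply div_le_div_of_nonneg_left hn0.le (Real.sqrt_pos.2 (by positivity))
    exact Real.sqrt_le_sqrt hLx2
  refine h2.trans (le_of_eq ?_)
  rw [Real.sqrt_div hx0.le, div_div_eq_mul_div]
  have h3 : √x = (n : ℝ) ^ (1 / 36 : ℝ) := by
    rw [hx, Real.sqrt_eq_rpow, ← Real.rpow_mul hn0.le]
    norm_num
  rw [h3, Real.rpow_sub hn0, Real.rpow_one]
  ring

end Vale.Agent.P146.Ub
end
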