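import Vale.Agent.P146.Bdl.B22
import Vale.Agent.P146.Bdl.B13
import Vale.Agent.P146.Bdl.B21
import Vale.Agent.P146.Bdl.B32
import Vale.Agent.P146.Bdl.B30
import Vale.Agent.P146.Bdl.B37
import Vale.Agent.P146.Bdl.B28
import Vale.Agent.P146.Bdl.B34

set_option linter.all false

section

/-!
# P146 / Ub: the Parisi functional with all exponents at least `x`

The infimum of the SK Parisi functional over the exponents `≥ x` is at most the infimum over all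
exponents plus `C x²`.
-/

set_option linter.all false

open MeasureTheory ProbabilityTheory Filter Topology Set

namespace Vale.Agent.P146.Gap

open Vale.Agent.P157.Par

theorem gap2_M1f_ge {C g s₁ : ℝ} {F : ℝ → ℝ} (h : Adm C F) (hg : 0 < g) (hg1 : g ≤ 1) {τ : ℝ}
    (hτ : τ ∈ Icc 0 s₁) : -(2 * g) ≤ M1f g s₁ F τ := by
  obtain ⟨L, B, hsm⟩ := first_sm h hg hτ
  have b2 := first_f_bc h hg s₁ 1
  have b3 := first_f_bc h hg s₁ 2
  have hb := (b3.mul b3).add ((b2.mul (b2.mul b2)).smul (-(2 * g)))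
  obtain ⟨K, hK⟩ := hb.2
  rw [first_M1f_eq]
  have h1 := hsm.tlt_mono (g := fun _ => -(2 * g))
    (g' := fun x => first_f g s₁ F 3 τ x * first_f g s₁ F 3 τ x
        + -(2 * g) * (first_f g s₁ F 2 τ x * (first_f g s₁ F 2 τ x * first_f g s₁ F 2 τ x)))
    continuous_const (K := |-(2 * g)|) (fun _ => le_rfl) (hb.slice τ) (hK τ) (fun x => ?_) g τ 0
  · rwa [hsm.tlt_const] at h1
  · obtain ⟨p1, p2⟩ := first_d1_sq h hg hg1 hτ x
    have p5 : first_f g s₁ F 2 τ x ≤ 1 := by linarith only [sq_nonneg (first_f g s₁ F 1 τ x), p2]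
    have p6 : first_f g s₁ F 2 τ x * (first_f g s₁ F 2 τ x * first_f g s₁ F 2 τ x) ≤ 1 := by
      have a1 : first_f g s₁ F 2 τ x * first_f g s₁ F 2 τ x ≤ 1 := by nlinarith
      nlinarith
    nlinarith [mul_self_nonneg (first_f g s₁ F 3 τ x)]

/-- Chord bound for the overlap along the first block. -/
theorem gap2_chord {C g s₁ : ℝ} {F : ℝ → ℝ} (h : Adm C F) (hg : 0 < g) (hg1 : g ≤ 1)
    (hs : 0 < s₁) {τ : ℝ} (hτ : τ ∈ Icc 0 s₁) :
    Rf g g s₁ F τ ≤ τ / s₁ * Rf g g s₁ F s₁ + g * τ * (s₁ - τ) := by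
  have hd : ∀ t ∈ Ioo 0 s₁, HasDerivAt (fun t => Rf g g s₁ F t + g * t ^ 2)
      (Mf g s₁ F t + 2 * g * t) t := by
    intro t ht
    have h1 := Rf_hasDerivAt h hg hg1 ht
    have h2 : HasDerivAt (fun t : ℝ => g * t ^ 2) (g * (2 * t)) t := by
      have := (hasDerivAt_pow 2 t).const_mul g
      simpa using this
    exact (h1.add h2).congr_deriv (by ring)
  have hd2 : ∀ t ∈ Ioo 0 s₁, HasDerivAt (fun t => Mf g s₁ F t + 2 * g * t)
      (M1f g s₁ F t + 2 * g) t := by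
    intro t ht
    have h1 := Mf_hasDerivAt h hg hg1 ht
    have h2 : HasDerivAt (fun t : ℝ => 2 * g * t) (2 * g) t := by
      simpa using (hasDerivAt_id t).const_mul (2 * g)
    exact h1.add h2
  have hc : ContinuousOn (fun t => Rf g g s₁ F t + g * t ^ 2) (Icc 0 s₁) :=
    (Rf_cont h hg hg1 hg hg1).add (by fun_prop)
  have hmono : MonotoneOn (fun t => Mf g s₁ F t + 2 * g * t) (Ioo 0 s₁) := by
    refine monotoneOn_of_deriv_nonneg (convex_Ioo _ _)
      (fun t ht => (hd2 t ht).continuousAt.continuousWithinAt) ?_ ?_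
    · rw [interior_Ioo]
      exact fun t ht => (hd2 t ht).differentiableAt.differentiableWithinAt
    · rw [interior_Ioo]
      intro t ht
      rw [(hd2 t ht).deriv]
      linarith [gap2_M1f_ge h hg hg1 (s₁ := s₁) (τ := t) ⟨ht.1.le, ht.2.le⟩]
  have hconv : ConvexOn ℝ (Icc 0 s₁) (fun t => Rf g g s₁ F t + g * t ^ 2) := by
    refine MonotoneOn.convexOn_of_deriv (convex_Icc _ _) hc ?_ ?_
    · rw [interior_Icc]
      exact fun t ht => (hd t ht).differentiableAt.differentiableWithinAt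
    · rw [interior_Icc]
      intro a ha c hcc hac
      rw [(hd a ha).deriv, (hd c hcc).deriv]
      exact hmono ha hcc hac
  have h0 : (0 : ℝ) ∈ Icc 0 s₁ := ⟨le_rfl, hs.le⟩
  have h1 : s₁ ∈ Icc 0 s₁ := ⟨hs.le, le_rfl⟩
  have hw : 0 ≤ 1 - τ / s₁ := by
    rw [sub_nonneg, div_le_one hs]; exact hτ.2
  have hw' : 0 ≤ τ / s₁ := div_nonneg hτ.1 hs.le
  have key := hconv.2 h0 h1 hw hw' (by ring)
  simp only [smul_eq_mul, mul_zero, zero_add] at key
  have e : τ / s₁ * s₁ = τ := div_mul_cancel₀ _ hs.ne'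
  rw [e, Rf_zero h hg hg1 g hs.le] at key
  have e2 : τ / s₁ * (Rf g g s₁ F s₁ + g * s₁ ^ 2) = τ / s₁ * Rf g g s₁ F s₁ + g * τ * s₁ := by
    have : τ / s₁ * (g * s₁ ^ 2) = g * (τ / s₁ * s₁) * s₁ := by ring
    rw [mul_add, this, e]
  rw [e2] at key
  linarith only [key]

/-- The cost of raising the exponent on the first block. -/
theorem gap2_cost {b C g g' s₁ K : ℝ} {F : ℝ → ℝ} (hb : 0 < b) (h : Adm C F) (hg : 0 < g)
    (hgg : g ≤ g') (hg'1 : g' ≤ 1) (hs : 0 < s₁)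
    (htilt : ∀ τ ∈ Icc 0 s₁, Rf g' g s₁ F τ ≤ Rf g g s₁ F τ + K * (g' - g) * τ)
    (hend : Rf g g s₁ F s₁ ≤ s₁ / b ^ 2) :
    gstep g' s₁ F 0 - gstep g s₁ F 0 ≤ (g' - g) * s₁ ^ 2 / (4 * b ^ 2)
      + 1 / 2 * (g' - g) * (g * s₁ ^ 3 / 6 + K * (g' - g) * s₁ ^ 2 / 2) := by
  have hg1 : g ≤ 1 := hgg.trans hg'1
  have hg' : 0 < g' := hg.trans_le hgg
  rw [gstep_diff h hg hg1 hg' hg'1 hs.le 0]
  have h1 : ∫ τ in (0 : ℝ)..s₁, Rf g' g s₁ F τ ≤
      ∫ τ in (0 : ℝ)..s₁, ((1 / b ^ 2 + g * s₁ + K * (g' - g)) * τ - g * τ ^ 2) := by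
    refine intervalIntegral.integral_mono_on hs.le
      ((Rf_cont h hg hg1 hg' hg'1).intervalIntegrable_of_Icc hs.le)
      (Continuous.intervalIntegrable (by fun_prop) _ _) ?_
    intro τ hτ
    have a1 := htilt τ hτ
    have a2 := gap2_chord h hg hg1 hs hτ
    have a3 : τ / s₁ * Rf g g s₁ F s₁ ≤ τ / s₁ * (s₁ / b ^ 2) :=
      mul_le_mul_of_nonneg_left hend (div_nonneg hτ.1 hs.le)
    have a4 : τ / s₁ * (s₁ / b ^ 2) = 1 / b ^ 2 * τ := by
      field_simp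
    rw [a4] at a3
    linarith only [a3, a2, a1]
  have h2 : ∫ τ in (0 : ℝ)..s₁, ((1 / b ^ 2 + g * s₁ + K * (g' - g)) * τ - g * τ ^ 2) =
      (1 / b ^ 2 + g * s₁ + K * (g' - g)) * (s₁ ^ 2 / 2) - g * (s₁ ^ 3 / 3) := by
    rw [intervalIntegral.integral_sub (Continuous.intervalIntegrable (by fun_prop) _ _)
      (Continuous.intervalIntegrable (by fun_prop) _ _),
      intervalIntegral.integral_const_mul, intervalIntegral.integral_const_mul, integral_id,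
      integral_pow]
    ring
  rw [h2] at h1
  have h3 : 0 ≤ 1 / 2 * (g' - g) := by linarith only [hgg]
  have h4 := mul_le_mul_of_nonneg_left h1 h3
  unfold Rf at h4
  refine h4.trans (le_of_eq ?_)
  field_simp
  ring

/-! ### Dropping the first exponent -/

/-- the sequence without the term of index one; the term of index zero is zero -/
noncomputable def gap2D (m : ℕ → ℝ) : ℕ → ℝ := fun l => if l = 0 then 0 else m (l + 1)

theorem gap2D_zero (m : ℕ → ℝ) : gap2D m 0 = 0 := if_pos rfl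

theorem gap2D_succ (m : ℕ → ℝ) (l : ℕ) : gap2D m (l + 1) = m (l + 2) := if_neg (Nat.succ_ne_zero l)

theorem gap2D_exp {k : ℕ} {m : ℕ → ℝ} (hm : Exponents (k + 1) m) : Exponents k (gap2D m) := by
  obtain ⟨-, e0, -⟩ := minb_exp hm
  refine ⟨gap2D_zero m, ?_, ?_⟩
  · rw [gap2D_succ]; exact hm.2.1
  · intro l hl
    rcases Nat.eq_zero_or_pos l with rfl | hl0
    · rw [gap2D_zero, gap2D_succ]; exact e0 2 (by omega) (by omega)
    · obtain ⟨i, rfl⟩ := Nat.exists_eq_add_of_le' hl0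
      rw [gap2D_succ, gap2D_succ]
      exact hm.2.2 (i + 2) (by omega)

theorem gap2D_P {b : ℝ} {k : ℕ} {R : ℕ → ℝ} (h : MinbP b (k + 1) R) : MinbP b k (gap2D R) := by
  refine ⟨gap2D_zero R, fun l hl => ?_, ?_⟩
  · rcases Nat.eq_zero_or_pos l with rfl | hl0
    · rw [gap2D_zero, gap2D_succ]
      have := minb_mono h.2.1 (Nat.zero_le 2) (by omega)
      rw [h.1] at this
      exact this
    · obtain ⟨i, rfl⟩ := Nat.exists_eq_add_of_le' hl0
      rw [gap2D_succ, gap2D_succ]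
      exact h.2.1 (i + 2) (by omega)
  · rw [gap2D_succ]; exact h.2.2

theorem gap2_step {k p : ℕ} {m R : ℕ → ℝ} (hm : Exponents (k + 1) m) (hp : 1 < p)
    (hpk : p ≤ k + 2) (h1 : ∀ l, 1 ≤ l → l < p → R l = R 1) :
    cascade (fun l => m (1 + l)) (fun l => R (1 + l)) (k + 1) lc =
      gstep (m p) (R p - R 1)
        (cascade (fun l => m (p + l)) (fun l => R (p + l)) (k + 2 - p) lc) := by
  obtain ⟨-, e0, -⟩ := minb_exp hm
  have hk : k + 1 = (p - 1) + (k + 2 - p) := by omega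
  rw [hk, minb_split]
  have hp' : ∀ l, 1 + (p - 1 + l) = p + l := fun l => by omega
  simp only [hp']
  rw [minb_block (p := p - 1) (by omega) (fun l h4 h5 => (e0 _ (by omega) (by omega)).ne')
    (fun l hl => by
      simp only [Nat.add_zero]
      exact h1 (1 + l) (by omega) (by omega))]
  have hp'' : 1 + (p - 1) = p := by omega
  simp only [Nat.add_zero, hp'']

theorem gap2_sum {k : ℕ} {m R : ℕ → ℝ} (h0 : R 0 = 0) :
    ∑ l ∈ Finset.range (k + 1), (gap2D m (l + 1) - gap2D m l) * gap2D R l ^ 2 =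
      ∑ l ∈ Finset.range (k + 1 + 1), (m (l + 1) - m l) * R l ^ 2 - (m 2 - m 1) * R 1 ^ 2 := by
  rw [Finset.sum_range_succ', Finset.sum_range_succ', Finset.sum_range_succ']
  simp only [gap2D_succ, gap2D_zero, h0]
  ring

theorem gap2_casc {k : ℕ} {m R : ℕ → ℝ} (h0 : R 0 = 0) :
    cascade (gap2D m) (gap2D R) (k + 1) lc = gstep (m 2) (R 2)
      (cascade (fun l => m (2 + l)) (fun l => R (2 + l)) k lc) := by
  have hk : k + 1 = 1 + k := by omega
  rw [hk, minb_split, cascade_succ_def]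
  have e1 : (fun l => gap2D m (1 + l)) = fun l => m (2 + l) := by
    funext l
    rw [Nat.add_comm 1 l, gap2D_succ, Nat.add_comm l 2]
  have e2 : (fun l => gap2D R (1 + l)) = fun l => R (2 + l) := by
    funext l
    rw [Nat.add_comm 1 l, gap2D_succ, Nat.add_comm l 2]
  rw [e1, e2, gap2D_succ, gap2D_succ, gap2D_zero, sub_zero]
  rfl

theorem gap2_casc' {k : ℕ} {m R : ℕ → ℝ} (h0 : R 0 = 0) :
    cascade m R (k + 1 + 1) lc = gstep (m 1) (R 1)
      (cascade (fun l => m (1 + l)) (fun l => R (1 + l)) (k + 1) lc) := by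
  have hk : k + 1 + 1 = 1 + (k + 1) := by omega
  rw [hk, minb_split, cascade_succ_def, h0, sub_zero]
  rfl

theorem gap2_drop {b K : ℝ} (hb : 0 < b) (hK : 0 ≤ K)
    (htilt : ∀ (C g g' s₁ : ℝ) (F : ℝ → ℝ), Adm C F → 0 < g →
      g ≤ g' → g' ≤ 1 → s₁ ≤ b ^ 2 → ∀ τ ∈ Icc 0 s₁,
      Rf g' g s₁ F τ ≤ Rf g g s₁ F τ + K * (g' - g) * τ)
    {k : ℕ} {m R : ℕ → ℝ} (hm : Exponents (k + 1) m) (hR : MinbP b (k + 1) R)
    (hmin : ∀ R', MinbP b (k + 1) R' → minbJ b (k + 1) m R ≤ minbJ b (k + 1) m R') :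
    minbJ b k (gap2D m) (gap2D R) ≤ minbJ b (k + 1) m R
      + (b ^ 6 + K * b ^ 4) * (m 2 - m 1) * m 2 := by
  obtain ⟨emono, e0, e1⟩ := minb_exp hm
  have hmonoR : ∀ i j, i ≤ j → j ≤ k + 2 → R i ≤ R j := fun i j h1 h2 => minb_mono hR.2.1 h1 h2
  have hm1 : 0 < m 1 := e0 1 (by omega) (by omega)
  have hm2 : 0 < m 2 := e0 2 (by omega) (by omega)
  have hm12 : m 1 < m 2 := hm.2.2 1 (by omega)
  have hm21 : m 2 ≤ 1 := e1 2 (by omega)
  have hR1 : 0 ≤ R 1 := by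
    have := hmonoR 0 1 (by omega) (by omega)
    rwa [hR.1] at this
  have hR1b : R 1 ≤ b ^ 2 := by
    have := hmonoR 1 (k + 2) (by omega) le_rfl
    rwa [hR.2.2] at this
  have hadmR : ∀ i n : ℕ, i + n ≤ k + 2 → Adm (2 * Real.exp (2 * b ^ 2))
      (cascade (fun l => m (i + l)) (fun l => R (i + l)) n lc) := by
    intro i n hin
    have h1 := good_cascade (c := n) (m := fun l => m (i + l)) (r := fun l => R (i + l)) good_lc
      le_rfl (fun l h1 h2 => e0 _ (by omega) (by omega))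
      (fun l h1 h2 => emono _ _ (by omega) (by omega))
      (fun l h1 h2 => e1 _ (by omega)) (fun l hl => hR.2.1 _ (by omega))
    refine (h1.mono_C ?_).adm
    have h2 := hmonoR (i + n) (k + 2) hin le_rfl
    have h3 := hmonoR 0 (i + 0) (by omega) (by omega)
    have h4 : R (k + 2) = b ^ 2 := hR.2.2
    rw [h4] at h2
    rw [hR.1] at h3
    gcongr
    linarith
  set F := cascade (fun l => m (1 + l)) (fun l => R (1 + l)) (k + 1) lc with hF
  set F₂ := cascade (fun l => m (2 + l)) (fun l => R (2 + l)) k lc with hF₂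
  have hadmF : Adm (2 * Real.exp (2 * b ^ 2)) F := hadmR 1 (k + 1) (by omega)
  have hadmF₂ : Adm (2 * Real.exp (2 * b ^ 2)) F₂ := hadmR 2 k (by omega)
  have hstep2 : F = gstep (m 2) (R 2 - R 1) F₂ := by
    have := gap2_step (p := 2) hm (by omega) (by omega) (R := R) (fun l h1 h2 => by
      have : l = 1 := by omega
      rw [this])
    exact this
  have hcasc2 : gstep (m 2) (R 2) F₂ = gstep (m 2) (R 1) F := by
    have h1 := gstep_add (g := m 2) (v := R 1) (v' := R 2 - R 1) hadmF₂ hm2 hR1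
      (sub_nonneg.2 (hR.2.1 1 (by omega)))
    rw [hstep2, h1]
    congr 1
    ring
  have hJ : minbJ b k (gap2D m) (gap2D R) = minbJ b (k + 1) m R
      + (gstep (m 2) (R 1) F 0 - gstep (m 1) (R 1) F 0 - (m 2 - m 1) * R 1 ^ 2 / (4 * b ^ 2)) := by
    unfold minbJ
    rw [gap2_sum hR.1, gap2_casc hR.1, gap2_casc' hR.1, hcasc2]
    ring
  rw [hJ]
  have hgoal0 : 0 ≤ (b ^ 6 + K * b ^ 4) * (m 2 - m 1) * m 2 := by
    have : 0 ≤ m 2 - m 1 := by linarith
    positivity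
  rcases hR1.eq_or_lt with h10 | h10
  · rw [← h10, gstep_zero hm1.ne', gstep_zero hm2.ne']
    simp only [sub_self]
    have h0 : (m 2 - m 1) * 0 ^ 2 / (4 * b ^ 2) = 0 := by ring
    linarith only [h0, hgoal0]
  have hend : Rf (m 1) (m 1) (R 1) F (R 1) ≤ R 1 / b ^ 2 := by
    by_cases hjb : R 1 = b ^ 2
    · refine (Rf_le_one hadmF hm1 (hm12.le.trans hm21) hm1 ⟨h10.le, le_rfl⟩).trans (le_of_eq ?_)
      rw [hjb, div_self (by positivity)]
    have hlt : R 1 < R (k + 2) := by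
      have h2 : R (k + 2) = b ^ 2 := hR.2.2
      rw [h2]
      exact lt_of_le_of_ne hR1b hjb
    have hex2 : ∃ l, R 1 < R l := ⟨k + 2, hlt⟩
    classical
    set p := Nat.find hex2 with hp
    have hRp : R 1 < R p := Nat.find_spec hex2
    have hpk : p ≤ k + 2 := Nat.find_min' hex2 hlt
    have hjp : 1 < p := by
      by_contra h
      have := hmonoR p 1 (by omega) (by omega)
      linarith only [this, hRp]
    have h1 : ∀ l, 1 ≤ l → l < p → R l = R 1 := by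
      intro l h1 h2
      have h3 := Nat.find_min hex2 h2
      have h4 := hmonoR 1 l h1 (by omega)
      linarith [not_lt.1 h3]
    have hmp : m 1 < m p := hm12.trans_le (emono 2 p (by omega) (by omega))
    have hFp := gap2_step (p := p) hm hjp hpk h1
    rw [← hF] at hFp
    rw [hFp]
    refine vari_down hb (hadmR p (k + 2 - p) (by omega)) hm1 hmp (e1 p (by omega)) h10
      (sub_pos.2 hRp) ?_
    intro τ hτ
    have h0 : ∀ l < 1, R l = 0 := fun l hl => by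
      have : l = 0 := by omega
      rw [this]; exact hR.1
    have h2 := minb_comp (p := p) (c := R 1 + τ) hm hR hmin le_rfl hjp hpk h0 h1
      (by linarith only [hτ.1, h10]) (by linarith [hτ.2])
    have h3 : R p - (R 1 + τ) = R p - R 1 - τ := by ring
    rw [h3] at h2
    have h5 : (m p - m 1) * ((R 1 + τ) ^ 2 - R 1 ^ 2) / (4 * b ^ 2) =
      (m 1 - m p) * R 1 ^ 2 / (4 * b ^ 2) - (m 1 - m p) * (R 1 + τ) ^ 2 / (4 * b ^ 2) := by ring
    rw [h5] at h2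
    have h6 : k + 1 + 1 - p = k + 2 - p := rfl
    rw [h6] at h2
    linarith only [h2]
  have hcost := gap2_cost hb hadmF hm1 hm12.le hm21 h10
    (fun τ hτ => htilt _ _ _ _ F hadmF hm1 hm12.le hm21 hR1b τ hτ) hend
  have hd : 0 ≤ m 2 - m 1 := by linarith only [hm12]
  have hb3 : R 1 ^ 3 ≤ b ^ 6 := by
    calc R 1 ^ 3 ≤ (b ^ 2) ^ 3 := pow_le_pow_left₀ hR1 hR1b 3
      _ = b ^ 6 := by ring
  have hb2 : R 1 ^ 2 ≤ b ^ 4 := by
    calc R 1 ^ 2 ≤ (b ^ 2) ^ 2 := pow_le_pow_left₀ hR1 hR1b 2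
      _ = b ^ 4 := by ring
  have h7 : m 1 * R 1 ^ 3 / 6 + K * (m 2 - m 1) * R 1 ^ 2 / 2 ≤ (b ^ 6 + K * b ^ 4) * m 2 := by
    have a1 : m 1 * R 1 ^ 3 ≤ m 2 * b ^ 6 := mul_le_mul hm12.le hb3 (by positivity) hm2.le
    have a2 : K * (m 2 - m 1) * R 1 ^ 2 ≤ K * m 2 * b ^ 4 :=
      mul_le_mul (mul_le_mul_of_nonneg_left (by linarith only [hm1]) hK) hb2 (by positivity) (by positivity)
    have a3 : 0 ≤ m 2 * b ^ 6 := by positivity
    have a4 : 0 ≤ K * m 2 * b ^ 4 := by (clear * - hK hm2 hb; positivity)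
    linarith only [a4, a3, a2, a1]
  have h8 := mul_le_mul_of_nonneg_left h7 (show 0 ≤ 1 / 2 * (m 2 - m 1) by linarith only [hm12])
  have h9 : 1 / 2 * (m 2 - m 1) * ((b ^ 6 + K * b ^ 4) * m 2) =
      1 / 2 * ((b ^ 6 + K * b ^ 4) * (m 2 - m 1) * m 2) := by ring
  rw [h9] at h8
  linarith

/-! ### Iteration -/

theorem gap2_iter {b K x η : ℝ} (hb : 0 < b) (hK : 0 ≤ K)
    (htilt : ∀ (C g g' s₁ : ℝ) (F : ℝ → ℝ), Adm C F → 0 < g →
      g ≤ g' → g' ≤ 1 → s₁ ≤ b ^ 2 → ∀ τ ∈ Icc 0 s₁,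
      Rf g' g s₁ F τ ≤ Rf g g s₁ F τ + K * (g' - g) * τ)
    (hx : 0 < x) (hx1 : x ≤ 1) (hη : 0 < η) :
    ∀ (k : ℕ) (m : ℕ → ℝ), Exponents k m → (∀ l, 1 ≤ l → l ≤ k → m (l + 1) - m l ≤ η) →
      m 1 ≤ x + η → ∀ R, MinbP b k R → ∃ (k' : ℕ) (m' R' : ℕ → ℝ), Exponents k' m' ∧ x ≤ m' 1 ∧
        MinbP b k' R' ∧ minbJ b k' m' R' ≤ minbJ b k m R
          + (b ^ 6 + K * b ^ 4) * (x + η) * (x + η - m 1) := by
  intro k
  induction k with
  | zero =>
    intro m hm _ hmx R hR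
    refine ⟨0, m, R, hm, ?_, hR, ?_⟩
    · have := hm.2.1
      simp only [Nat.zero_add] at this
      rw [this]; exact hx1
    · have h1 : 0 ≤ x + η - m 1 := by linarith
      have : 0 ≤ (b ^ 6 + K * b ^ 4) * (x + η) * (x + η - m 1) := by positivity
      linarith
  | succ k ih =>
    intro m hm hmesh hmx R hR
    by_cases hxm : x ≤ m 1
    · refine ⟨k + 1, m, R, hm, hxm, hR, ?_⟩
      have h1 : 0 ≤ x + η - m 1 := by linarith
      have : 0 ≤ (b ^ 6 + K * b ^ 4) * (x + η) * (x + η - m 1) := by positivity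
      linarith
    push Not at hxm
    obtain ⟨r, hr, hrmin⟩ := exists_min hb hm
    have hP : MinbP b (k + 1) (minbExt b (k + 1) r) := minb_ext_P hr
    have hPmin : ∀ R', MinbP b (k + 1) R' →
        minbJ b (k + 1) m (minbExt b (k + 1) r) ≤ minbJ b (k + 1) m R' :=
      fun R' h => minb_min_ext hm hr hrmin h
    have hdrop := gap2_drop hb hK htilt hm hP hPmin
    have h12 : m 2 - m 1 ≤ η := hmesh 1 le_rfl (by omega)
    have hm12 : m 1 < m 2 := hm.2.2 1 (by omega)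
    obtain ⟨k', m', R', h1, h2, h3, h4⟩ := ih (gap2D m) (gap2D_exp hm)
      (fun l h1 h2 => by
        obtain ⟨i, rfl⟩ := Nat.exists_eq_add_of_le' h1
        rw [gap2D_succ, gap2D_succ]
        exact hmesh (i + 2) (by omega) (by omega))
      (by rw [gap2D_succ]; simp only [Nat.zero_add]; linarith) _ (gap2D_P hP)
    refine ⟨k', m', R', h1, h2, h3, h4.trans ?_⟩
    have h5 := hPmin R hR
    have h6 : gap2D m 1 = m 2 := gap2D_succ m 0
    rw [h6]
    have h7 : (b ^ 6 + K * b ^ 4) * (m 2 - m 1) * m 2 ≤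
        (b ^ 6 + K * b ^ 4) * (m 2 - m 1) * (x + η) :=
      mul_le_mul_of_nonneg_left (by linarith)
        (mul_nonneg (by positivity) (by linarith))
    have h8 : (b ^ 6 + K * b ^ 4) * (x + η) * (x + η - m 1) =
        (b ^ 6 + K * b ^ 4) * (m 2 - m 1) * (x + η)
          + (b ^ 6 + K * b ^ 4) * (x + η) * (x + η - m 2) := by ring
    linarith

/-- The Parisi functional with the exponents at least `x`: the cost is at most `C x²`. -/
theorem exp_ge {b : ℝ} (hb : 0 < b) : ∃ C : ℝ, 0 ≤ C ∧ ∀ x : ℝ, 0 < x → x ≤ 1 →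
    ∀ (k : ℕ) (m q : ℕ → ℝ), Exponents k m → Path k q → q k ≤ 1 → ∀ e > 0,
      ∃ (k' : ℕ) (m' r' : ℕ → ℝ), Exponents k' m' ∧ x ≤ m' 1 ∧ BPath b k' r' ∧
        SKr b k' m' r' ≤ SKpar b k m q + C * x ^ 2 + e := by
  obtain ⟨K, hK, htilt⟩ := Rf_tilt (b ^ 2)
  refine ⟨4 * (b ^ 6 + K * b ^ 4), by positivity, ?_⟩
  intro x hx hx1 k m q hm hq hq1 e he
  set η := min x (e / b ^ 2) with hη
  have hη0 : 0 < η := lt_min hx (by positivity)
  have hηx : η ≤ x := min_le_left _ _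
  have hηe : η * b ^ 2 ≤ e := by
    have := min_le_right x (e / b ^ 2)
    rw [← hη, le_div_iff₀ (by positivity)] at this
    exact this
  obtain ⟨k₁, m₁, q₁, hm₁, hmesh, hq₁, hq₁1, heq⟩ := refine_exp (b := b) hm hq hq1 hη0
  obtain ⟨r, hr, hrle⟩ := zero_start hb hm₁ hq₁ hq₁1
  have hm11 : m₁ 1 ≤ η := by
    have h1 := hmesh 0 (by omega)
    rw [hm₁.1] at h1
    simpa using h1
  have hP : MinbP b k₁ (minbExt b k₁ r) := minb_ext_P hr
  obtain ⟨k', m', R', h1, h2, h3, h4⟩ := gap2_iter hb hK htilt hx hx1 hη0 k₁ m₁ hm₁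
    (fun l _ h => hmesh l h) (by linarith) _ hP
  refine ⟨k', m', R', h1, h2, h3.bpath, ?_⟩
  rw [minb_SKr_eq h1 h3]
  have h5 : SKr b k₁ m₁ r = SKr b k₁ m₁ (minbExt b k₁ r) :=
    minb_SKr_congr fun l hl => by simp [minbExt, hl]
  rw [h5, minb_SKr_eq hm₁ hP, heq] at hrle
  have hm1pos : 0 < m₁ 1 := by
    have := hm₁.2.2 0 (by omega)
    rwa [hm₁.1] at this
  have h6 : m₁ 1 * b ^ 2 ≤ e :=
    (mul_le_mul_of_nonneg_right hm11 (by positivity)).trans hηe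
  have h7 : (b ^ 6 + K * b ^ 4) * (x + η) * (x + η - m₁ 1) ≤
      4 * (b ^ 6 + K * b ^ 4) * x ^ 2 := by
    have a0 : 0 ≤ b ^ 6 + K * b ^ 4 := by positivity
    have a1 : (x + η) * (x + η - m₁ 1) ≤ (2 * x) * (2 * x) :=
      mul_le_mul (by linarith) (by linarith) (by linarith) (by linarith)
    have a2 := mul_le_mul_of_nonneg_left a1 a0
    calc _ = (b ^ 6 + K * b ^ 4) * ((x + η) * (x + η - m₁ 1)) := by ring
      _ ≤ _ := a2
      _ = _ := by ring
  linarith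

theorem gap2_SKr_eq {b : ℝ} (hb : 0 < b) (k : ℕ) (m r : ℕ → ℝ) :
    SKpar b k m (fun l => r l / b ^ 2) = SKr b k m r := by
  unfold SKpar SKr
  have e1 : (fun l => b ^ 2 * (r l / b ^ 2)) = r := by
    funext l
    field_simp
  rw [e1]
  have e2 : ∀ l ∈ Finset.range (k + 1), (m (l + 1) - m l) * (r l / b ^ 2) ^ 2 =
      (m (l + 1) - m l) * r l ^ 2 / b ^ 4 := by
    intro l _
    field_simp
  rw [Finset.sum_congr rfl e2, ← Finset.sum_div]
  field_simp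
  ring

/-- The same statement for the functional of the overlaps. -/
theorem exp_ge_par {b : ℝ} (hb : 0 < b) : ∃ C : ℝ, 0 ≤ C ∧ ∀ x : ℝ, 0 < x → x ≤ 1 →
    ∀ (k : ℕ) (m q : ℕ → ℝ), Exponents k m → Path k q → q k ≤ 1 → ∀ e > 0,
      ∃ (k' : ℕ) (m' q' : ℕ → ℝ), Exponents k' m' ∧ x ≤ m' 1 ∧ Path k' q' ∧ q' 0 = 0 ∧
        q' k' ≤ 1 ∧ SKpar b k' m' q' ≤ SKpar b k m q + C * x ^ 2 + e := by
  obtain ⟨C, hC, h⟩ := exp_ge hb
  refine ⟨C, hC, fun x hx hx1 k m q hm hq hq1 e he => ?_⟩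
  obtain ⟨k', m', r', h1, h2, ⟨h3, h4, h5⟩, h6⟩ := h x hx hx1 k m q hm hq hq1 e he
  refine ⟨k', m', fun l => r' l / b ^ 2, h1, h2, ⟨?_, fun l hl => ?_⟩, ?_, ?_, ?_⟩
  · exact div_nonneg h4.1 (by positivity)
  · exact div_le_div_of_nonneg_right (h4.2 l hl) (by positivity)
  · simp only [h3, zero_div]
  · simp only []
    rw [div_le_one (by positivity)]; exact h5
  · rw [gap2_SKr_eq hb]; exact h6

end Vale.Agent.P146.Gap

namespace Vale.Agent.P146.Ub

open Vale.Agent.P157.Par (Path Exponents spinPart)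
open Vale.Agent.P146.Gap (SKpar SKr)

/-- Removal of the small exponents. -/
theorem raise {β : ℝ} (hβ : 0 < β) : ∃ C : ℝ, 0 ≤ C ∧ ∀ (K : ℕ) (m q : ℕ → ℝ) (η x : ℝ),
    Exponents K m → Path K q → q K ≤ 1 → 0 < η → (∀ l ≤ K, m (l + 1) - m l ≤ η) → η ≤ x →
    x < 1 → ∃ (K' : ℕ) (m' q' : ℕ → ℝ), Exponents K' m' ∧ x ≤ m' 1 ∧ Path K' q' ∧ q' 0 = 0 ∧
      q' K' ≤ 1 ∧ SKpar β K' m' q' ≤ SKpar β K m q + C * (x ^ 2 + η) := by
  obtain ⟨C, hC, h⟩ := Vale.Agent.P146.Gap.exp_ge_par hβ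
  refine ⟨C + 1, by linarith, fun K m q η x hm hq hq1 hη _ hηx hx => ?_⟩
  obtain ⟨K', m', q', h1, h2, h3, h4, h5, h6⟩ :=
    h x (hη.trans_le hηx) hx.le K m q hm hq hq1 η hη
  refine ⟨K', m', q', h1, h2, h3, h4, h5, h6.trans ?_⟩
  have h7 : 0 ≤ C * η := mul_nonneg hC hη.le
  linarith only [sq_nonneg x, h7]

end Vale.Agent.P146.Ub
end

section

/-!
# P146 / Ub: the conclusion, a polynomial improvement of the bound of the variance
-/

open MeasureTheory ProbabilityTheory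

namespace Vale.Agent.P146.Ub

open Vale.Agent.P157.Par (Path Exponents)
open Vale.Agent.P146.Gap (SKpar)
open Vale.Agent.P146.Sk (PSK)

theorem fin_PSK (β : ℝ) (K : ℕ) (m q : ℕ → ℝ) : PSK β K m q = SKpar β K m q := rfl

/-- The exponential moment is at most the Parisi value, up to `C x²`. -/
theorem fin_moment {β : ℝ} (hβ : 0 < β) : ∃ C : ℝ, 0 ≤ C ∧ ∀ (n : ℕ), 1 ≤ n → ∀ x : ℝ, 0 < x →
    x ≤ 1 → ∀ (K : ℕ) (m q : ℕ → ℝ), Exponents K m → Path K q → q K ≤ 1 →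
      Real.log (∫ g, Real.exp (x * freeEnergy n β g) ∂(disorder n)) / (x * n) -
        Real.log 2 - C * x ^ 2 ≤ PSK β K m q := by
  obtain ⟨C, hC, h⟩ := Gap.exp_ge_par hβ
  refine ⟨C, hC, fun n hn x hx hx1 K m q hm hq hq1 => ?_⟩
  have hn0 : (0 : ℝ) < n := by exact_mod_cast hn
  refine le_of_forall_pos_le_add fun e he => ?_
  obtain ⟨K', m', q', hm', hxm, hq', hq'0, hq'1, hc⟩ := h x hx hx1 K m q hm hq hq1 e he
  have hG := guerra hβ hn hm' hq' hq'0 hq'1 hx hxm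
  have h1 : Real.log (∫ g, Real.exp (x * freeEnergy n β g) ∂(disorder n)) / (x * n) ≤
      Real.log 2 + SKpar β K' m' q' := by
    rw [div_le_iff₀ (by positivity)]
    linarith
  rw [fin_PSK]
  linarith

/-- The upper tail: one small exponential moment of the centred free energy. -/
theorem exp_moment {β : ℝ} (hβ : 0 < β) : ∃ C : ℝ, 2 ≤ C ∧ ∀ n : ℕ, 1 ≤ n →
    ∫ g, Real.exp ((n : ℝ) ^ (-(1 / 72) : ℝ) * freeEnergy n β g) ∂(disorder n) ≤
      Real.exp ((n : ℝ) ^ (-(1 / 72) : ℝ) * (∫ g, freeEnergy n β g ∂(disorder n)) +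
        ((n : ℝ) ^ (-(1 / 72) : ℝ)) ^ 2 * (C * (n : ℝ) ^ (71 / 72 : ℝ)) / 2) := by
  obtain ⟨C₁, hC₁, hlow⟩ := rate_lower' hβ
  obtain ⟨C₂, hC₂, hmom⟩ := fin_moment hβ
  set c : ℝ := 2 * (C₁ + C₂ + 1) with hc
  have hc0 : 2 ≤ c := by rw [hc]; linarith
  refine ⟨c, hc0, fun n hn => ?_⟩
  have hn1 : (1 : ℝ) ≤ n := by exact_mod_cast hn
  have hn0 : (0 : ℝ) < n := by linarith
  set y : ℝ := (n : ℝ) ^ (1 / 72 : ℝ) with hy
  have hy1 : 1 ≤ y := Real.one_le_rpow hn1 (by norm_num)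
  have hy0 : 0 < y := by linarith
  set Y : ℝ := (n : ℝ) ^ (71 / 72 : ℝ) with hY
  have hY1 : 1 ≤ Y := Real.one_le_rpow hn1 (by norm_num)
  have hYy : Y * y = n := by
    rw [hY, hy, ← Real.rpow_add hn0]
    norm_num
  have hy2 : (n : ℝ) ^ (1 - 1 / 36 : ℝ) = Y / y := by
    rw [hY, hy, ← Real.rpow_sub hn0]
    norm_num
  have hx : (n : ℝ) ^ (-(1 / 72) : ℝ) = 1 / y := by
    rw [hy, Real.rpow_neg hn0.le, inv_eq_one_div]
  rw [hx]
  obtain ⟨x, hxd⟩ : ∃ x : ℝ, x = 1 / y := ⟨_, rfl⟩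
  rw [← hxd]
  have hx0 : 0 < x := by rw [hxd]; positivity
  have hx1 : x ≤ 1 := by rw [hxd, div_le_one hy0]; exact hy1
  have h1 := hlow _ (hmom n hn x hx0 hx1) n (by omega)
  set E : ℝ := ∫ g, freeEnergy n β g ∂(disorder n) with hE
  set I : ℝ := ∫ g, Real.exp (x * freeEnergy n β g) ∂(disorder n) with hI
  have hlog : Real.log I ≤ x * E + x ^ 2 * (c * Y) / 2 := by
    have h2 : (n : ℝ) * (Real.log 2 + (Real.log I / (x * n) - Real.log 2 - C₂ * x ^ 2)) =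
        Real.log I / x - n * (C₂ * x ^ 2) := by
      field_simp
      ring
    rw [h2, hy2] at h1
    have h3 : Real.log I / x ≤ E + C₁ * (Y / y) + n * (C₂ * x ^ 2) := by linarith only [h1]
    rw [div_le_iff₀ hx0] at h3
    refine h3.trans ?_
    have h4 : (E + C₁ * (Y / y) + n * (C₂ * x ^ 2)) * x = x * E + x ^ 2 * (C₁ + C₂) * Y := by
      have e1 : (n : ℝ) * (C₂ * x ^ 2) = Y * y * (C₂ * x ^ 2) := by rw [hYy]
      have e2 : y * x = 1 := by rw [hxd, mul_one_div_cancel hy0.ne']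
      have e3 : Y / y = Y * x := by rw [hxd, mul_one_div]
      rw [e1, e3]
      linear_combination (C₂ * Y * x ^ 2) * e2
    rw [h4, hc]
    have h5 : 0 ≤ x ^ 2 * Y := by positivity
    linarith only [h5]
  rcases le_or_gt I 0 with h0 | h0
  · exact h0.trans (Real.exp_pos _).le
  · rw [← Real.log_le_iff_le_exp h0]
    exact hlog

/-- **Polynomial upper bound for the variance of the SK free energy.** -/
theorem var_upper {β : ℝ} (hβ : 0 < β) : ∃ C : ℝ, ∀ n : ℕ, 1 ≤ n →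
    Var[freeEnergy n β; disorder n] ≤ C * (n : ℝ) ^ (71 / 72 : ℝ) * (1 + Real.log n) := by
  obtain ⟨c, hc0, hexp⟩ := exp_moment hβ
  refine ⟨c + β ^ 2, fun n hn => ?_⟩
  have hn1 : (1 : ℝ) ≤ n := by exact_mod_cast hn
  have hn0 : (0 : ℝ) < n := by linarith
  have hY1 : 1 ≤ (n : ℝ) ^ (71 / 72 : ℝ) := Real.one_le_rpow hn1 (by norm_num)
  have hV := (Cv.var_freeEnergy_le n β (by positivity) (hexp n hn) (u := 1 / n) (by positivity)
    (by rw [div_le_one hn0]; exact hn1)).2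
  refine hV.trans ?_
  have h1 : β ^ 2 * n / 2 * (1 / n) = β ^ 2 / 2 := by field_simp
  have h2 : -Real.log (1 / (n : ℝ)) = Real.log n := by rw [one_div, Real.log_inv, neg_neg]
  have hl0 : 0 ≤ Real.log n := Real.log_nonneg hn1
  rw [h1, h2]
  have hb : 0 ≤ β ^ 2 := sq_nonneg β
  set Y : ℝ := (n : ℝ) ^ (71 / 72 : ℝ) with hY
  have h3 : β ^ 2 ≤ β ^ 2 * Y := by linarith only [mul_nonneg (sub_nonneg.2 hb) (sub_nonneg.2 hY1)]
  have h4 : 0 ≤ c * Y := by positivity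
  have h5 : 0 ≤ β ^ 2 * Y * Real.log n := by positivity
  linarith only [h5, h4, h3, hb]

end Vale.Agent.P146.Ub
end

section

/-!
# P146 / Sx: lower bound of the derivative of `M` along the first block

`M' τ ≥ a τ - 2 g` with a constant `a > 0` which depends only on the total variance.
-/

set_option linter.all false

open MeasureTheory ProbabilityTheory Filter Topology Set

namespace Vale.Agent.P146.Pw2

open Vale.Agent.P157.Par
open Vale.Agent.P146.Gap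

/-- a function with a nonnegative derivative -/
lemma sx_mono {v : ℝ} {f f' : ℝ → ℝ} (hc : ContinuousOn f (Icc 0 v))
    (hd : ∀ τ ∈ Ioo 0 v, HasDerivAt f (f' τ) τ) (h0 : ∀ τ ∈ Ioo 0 v, 0 ≤ f' τ) {τ : ℝ}
    (hτ : τ ∈ Icc 0 v) : f 0 ≤ f τ := by
  have hm : MonotoneOn f (Icc 0 v) := by
    refine monotoneOn_of_deriv_nonneg (convex_Icc 0 v) hc ?_ ?_
    · rw [interior_Icc]
      exact fun τ hτ => (hd τ hτ).differentiableAt.differentiableWithinAt
    · rw [interior_Icc]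
      intro τ hτ
      rw [(hd τ hτ).deriv]
      exact h0 τ hτ
  exact hm ⟨le_rfl, hτ.1.trans hτ.2⟩ hτ hτ.1

lemma sx_tmono {C : ℝ} {F : ℝ → ℝ} (h : Adm C F) {ψ φ : ℝ → ℝ} (hψ : Sp7Cb ψ) (hφ : Sp7Cb φ)
    (hle : ∀ x, ψ x ≤ φ x) (m s y : ℝ) : tlt m s F ψ y ≤ tlt m s F φ y := by
  obtain ⟨c1, K1, k1⟩ := hψ
  obtain ⟨c2, K2, k2⟩ := hφ
  exact (minb_ec h).sm.tlt_mono c1 k1 c2 k2 hle m s y

lemma sx_tconst {C : ℝ} {F : ℝ → ℝ} (h : Adm C F) (m s c y : ℝ) :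
    tlt m s F (fun _ => c) y = c := (minb_ec h).sm.tlt_const m s c y

lemma sx_tadd {C : ℝ} {F : ℝ → ℝ} (h : Adm C F) {ψ φ : ℝ → ℝ} (hψ : Sp7Cb ψ) (hφ : Sp7Cb φ)
    (m s y : ℝ) :
    tlt m s F (fun x => ψ x + φ x) y = tlt m s F ψ y + tlt m s F φ y := by
  obtain ⟨c1, K1, k1⟩ := hψ
  obtain ⟨c2, K2, k2⟩ := hφ
  exact (minb_ec h).sm.tlt_add c1 k1 c2 k2 m s y

lemma sx_cb {C : ℝ} {F : ℝ → ℝ} (h : Adm C F) (j : ℕ) : Sp7Cb (iteratedDeriv (j + 1) F) := by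
  obtain ⟨B, hB⟩ := h.smb.bd j
  exact ⟨(h.smb.smooth.differentiable_iteratedDeriv (j + 1)
    (by exact_mod_cast WithTop.coe_lt_top _)).continuous, B, hB⟩

lemma sx_cb_mul {ψ φ : ℝ → ℝ} (hψ : Sp7Cb ψ) (hφ : Sp7Cb φ) : Sp7Cb (fun x => ψ x * φ x) := by
  obtain ⟨c1, K1, k1⟩ := hψ
  obtain ⟨c2, K2, k2⟩ := hφ
  refine ⟨c1.mul c2, K1 * K2, fun x => ?_⟩
  rw [abs_mul]
  exact mul_le_mul (k1 x) (k2 x) (abs_nonneg _) ((abs_nonneg _).trans (k1 x))

lemma sx_cb_smul (c : ℝ) {ψ : ℝ → ℝ} (hψ : Sp7Cb ψ) : Sp7Cb (fun x => c * ψ x) :=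
  sx_cb_mul (sp7_cb_const c) hψ

lemma sx_cb_pow {ψ : ℝ → ℝ} (hψ : Sp7Cb ψ) (k : ℕ) : Sp7Cb (fun x => ψ x ^ k) := by
  induction k with
  | zero => simpa using sp7_cb_const 1
  | succ k ih => simpa [pow_succ] using sx_cb_mul ih hψ

lemma sx_d2_le {C : ℝ} {F : ℝ → ℝ} (h : Adm C F) (x : ℝ) : iteratedDeriv 2 F x ≤ 1 := by
  have := h.le1 x
  linarith only [sq_nonneg (iteratedDeriv 1 F x), this]

lemma sx_four_int (c : ℝ) : Integrable (fun z : ℝ => |z| ^ 4 * Real.exp (c * |z|))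
    (gaussianReal 0 1) := by
  refine ((sp2_integrable_exp_abs (1 + c)).const_mul 24).mono' (by exact Continuous.aestronglyMeasurable (by fun_prop))
    (Eventually.of_forall fun z => ?_)
  rw [Real.norm_eq_abs, abs_of_nonneg (by positivity), add_mul, one_mul, Real.exp_add]
  have h1 := Real.pow_div_factorial_le_exp |z| (abs_nonneg z) 4
  have h2 : ((Nat.factorial 4 : ℕ) : ℝ) = 24 := by norm_num [Nat.factorial]
  rw [h2, div_le_iff₀ (by norm_num)] at h1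
  calc |z| ^ 4 * Real.exp (c * |z|) ≤ (Real.exp |z| * 24) * Real.exp (c * |z|) :=
        mul_le_mul_of_nonneg_right h1 (Real.exp_pos _).le
    _ = _ := by ring

/-- The fourth moment of the first derivative. -/
theorem sx_four (S : ℝ) : ∃ A : ℝ, 0 ≤ A ∧ ∀ (C g τ : ℝ) (G : ℝ → ℝ), Adm C G → 0 < g → g ≤ 1 →
    0 ≤ τ → τ ≤ S → tlt g τ G (fun x => iteratedDeriv 1 G x ^ 4) 0 ≤ A * τ ^ 2 := by
  refine ⟨∫ z, |z| ^ 4 * Real.exp (√S * |z|) ∂(gaussianReal 0 1), ?_, ?_⟩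
  · exact integral_nonneg fun z => by positivity
  intro C g τ G h hg hg1 hτ hτS
  set I := ∫ z, |z| ^ 4 * Real.exp (√S * |z|) ∂(gaussianReal 0 1) with hI
  have hE := minb_ec h
  set M := iteratedDeriv 1 G with hM
  set w : ℝ → ℝ := fun y => G y + -(G 0) with hw
  have hw0 : ∀ y, 0 ≤ w y := fun y => by
    have := first_min hE y
    simp only [hw]; linarith
  have hw1 : ∀ y, w y ≤ |y| := fun y => by
    have := hE.sm.lip y 0
    rw [sub_zero, one_mul] at this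
    exact (le_abs_self _).trans this
  have hwS : Sm 1 1 w M (iteratedDeriv 2 G) :=
    ⟨fun x => by simpa [hw] using (hE.d1 x).add_const (-(G 0)), hE.d2, hE.cD, hE.sm.bM, hE.sm.bD⟩
  rw [← sp5_tlt_add_const g τ (-(G 0)) G (fun x => M x ^ 4) 0]
  have hMc : Continuous fun x => M x ^ 4 := hE.sm.cont1.pow 4
  have hMb : ∀ x, |M x ^ 4| ≤ 1 := fun x => by
    rw [abs_pow]
    exact pow_le_one₀ (abs_nonneg _) (hE.abs_M x)
  change (∫ z, M (0 + √τ * z) ^ 4 * Real.exp (g * w (0 + √τ * z)) ∂(gaussianReal 0 1)) /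
    (∫ z, Real.exp (g * w (0 + √τ * z)) ∂(gaussianReal 0 1)) ≤ I * τ ^ 2
  set Z := ∫ z, Real.exp (g * w (0 + √τ * z)) ∂(gaussianReal 0 1) with hZ
  have hZ1 : 1 ≤ Z := by
    have h1 : ∫ _z : ℝ, (1 : ℝ) ∂(gaussianReal 0 1) = 1 := by simp
    rw [← h1, hZ]
    refine integral_mono (integrable_const _) (hwS.integrable_exp g τ 0) fun z => ?_
    exact Real.one_le_exp (mul_nonneg hg.le (hw0 _))
  have hA : ∫ z, M (0 + √τ * z) ^ 4 * Real.exp (g * w (0 + √τ * z)) ∂(gaussianReal 0 1) ≤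
      I * τ ^ 2 := by
    have h1 : I * τ ^ 2 = ∫ z, τ ^ 2 * (|z| ^ 4 * Real.exp (√S * |z|)) ∂(gaussianReal 0 1) := by
      rw [integral_const_mul]; ring
    rw [h1]
    refine integral_mono (hwS.integrable hMc hMb g τ 0) ((sx_four_int _).const_mul _) fun z => ?_
    simp only [zero_add]
    set y := √τ * z with hy
    have k6 : M y ^ 2 ≤ y ^ 2 := first_M_le hE y
    have k7 : |y| = √τ * |z| := by rw [hy, abs_mul, abs_of_nonneg (Real.sqrt_nonneg τ)]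
    have k8 : √τ ≤ √S := Real.sqrt_le_sqrt hτS
    have k4 : Real.exp (g * w y) ≤ Real.exp (√S * |z|) := by
      apply Real.exp_le_exp.2
      have h2 := hw0 y
      have h3 := hw1 y
      have h4 : √τ * |z| ≤ √S * |z| := mul_le_mul_of_nonneg_right k8 (abs_nonneg _)
      rw [← k7] at h4
      have h5 : g * w y ≤ 1 * w y := mul_le_mul_of_nonneg_right hg1 h2
      linarith
    have k5 : M y ^ 4 ≤ τ ^ 2 * |z| ^ 4 := by
      have h2 : M y ^ 4 ≤ (y ^ 2) ^ 2 := by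
        have : M y ^ 4 = (M y ^ 2) ^ 2 := by ring
        rw [this]
        exact pow_le_pow_left₀ (sq_nonneg _) k6 2
      have h3 : (y ^ 2) ^ 2 = τ ^ 2 * |z| ^ 4 := by
        have : y ^ 2 = τ * |z| ^ 2 := by
          rw [hy, mul_pow, Real.sq_sqrt hτ, sq_abs]
        rw [this]; ring
      rwa [h3] at h2
    calc M y ^ 4 * Real.exp (g * w y) ≤ (τ ^ 2 * |z| ^ 4) * Real.exp (√S * |z|) :=
          mul_le_mul k5 k4 (Real.exp_pos _).le (by positivity)
      _ = _ := by ring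
  have hN0 : 0 ≤ I * τ ^ 2 := mul_nonneg (integral_nonneg fun z => by positivity) (sq_nonneg _)
  calc _ ≤ I * τ ^ 2 / Z := div_le_div_of_nonneg_right hA (by linarith)
    _ ≤ I * τ ^ 2 := div_le_self hN0 hZ1

/-- Pointwise lower bound of the square of the third derivative. -/
theorem sx_third {K c : ℝ} {G : ℝ → ℝ} (h : AK K G) (hK : 1 ≤ K) (hc : 0 < c)
    (hb : ∀ x, 0 ≤ bet c G x) (x : ℝ) :
    4 * c ^ 2 * (iteratedDeriv 1 G x ^ 2 / (2 * K ^ 2) - 2 * K ^ 2 * iteratedDeriv 1 G x ^ 4) ≤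
      iteratedDeriv 3 G x ^ 2 := by
  have hA := h.adm
  -- reduction to the half line
  have main : ∀ x, 0 ≤ x →
      4 * c ^ 2 * (iteratedDeriv 1 G x ^ 2 / (2 * K ^ 2) - 2 * K ^ 2 * iteratedDeriv 1 G x ^ 4) ≤
      iteratedDeriv 3 G x ^ 2 := by
    intro x hx
    have h1 := inv_d3 hA hb hx
    have h0 : 0 ≤ iteratedDeriv 1 G x :=
      GoodX.good_mono (fun x => GoodX.good_hd hA.smb.smooth 1 x)
        (GoodX.good_odd hA.even (j := 1) (by decide)) (fun y _ => (hA.pos y).le) hx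
    -- lower bound of the second derivative
    have h2 : 0 ≤ iteratedDeriv 2 G x + K * iteratedDeriv 1 G x - iteratedDeriv 2 G 0 := by
      refine GoodX.good_mono (φ := fun x => iteratedDeriv 2 G x + K * iteratedDeriv 1 G x
        - iteratedDeriv 2 G 0) (φ' := fun x => iteratedDeriv 3 G x + K * iteratedDeriv 2 G x)
        (fun y => ((GoodX.good_hd hA.smb.smooth 2 y).add
          ((GoodX.good_hd hA.smb.smooth 1 y).const_mul K)).sub_const _) ?_ ?_ hx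
      · rw [GoodX.good_odd hA.even (j := 1) (by decide)]; ring
      · intro y _
        have := (abs_le.1 (hA.r3 y)).1
        linarith
    have h3 : 1 / K ≤ iteratedDeriv 2 G 0 := by
      rw [div_le_iff₀ (by linarith)]
      have := h.low0
      linarith
    have h4 : 0 < iteratedDeriv 2 G x := hA.pos x
    obtain ⟨p, hp⟩ : ∃ p, p = iteratedDeriv 1 G x := ⟨_, rfl⟩
    obtain ⟨u, hu⟩ : ∃ u, u = iteratedDeriv 2 G x := ⟨_, rfl⟩
    obtain ⟨t, ht⟩ : ∃ t, t = iteratedDeriv 3 G x := ⟨_, rfl⟩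
    rw [← hp, ← hu, ← ht] at h1
    rw [← hp] at h0
    rw [← hp, ← hu] at h2
    rw [← hu] at h4
    rw [← hp, ← ht]
    have hKpos : 0 < K := by linarith
    have k1 : 1 / K - K * p ≤ u := by linarith
    -- `u² ≥ 1/K² - 2 p`
    have k2 : 1 / K ^ 2 - 2 * p ≤ u ^ 2 := by
      rcases le_total 0 (1 / K - K * p) with h5 | h5
      · have h6 := pow_le_pow_left₀ h5 k1 2
        have h7 : (1 / K - K * p) ^ 2 = 1 / K ^ 2 - 2 * p + K ^ 2 * p ^ 2 := by
          field_simp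
          ring
        rw [h7] at h6
        have : 0 ≤ K ^ 2 * p ^ 2 := by positivity
        linarith only [this, h6]
      · have h6 : 1 / K ^ 2 ≤ p := by
          have h7 : 1 / K ≤ K * p := by linarith
          have h8 : 1 / K ^ 2 = 1 / K * (1 / K) := by field_simp
          rw [h8]
          have h9 : 1 / K * (1 / K) ≤ 1 / K * (K * p) :=
            mul_le_mul_of_nonneg_left h7 (by positivity)
          have h10 : 1 / K * (K * p) = p := by field_simp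
          linarith only [h10, h9]
        have : 0 ≤ u ^ 2 := sq_nonneg _
        linarith only [this, h6, h0]
    -- `p² u² ≥ p²/(2K²) - 2K² p⁴`
    have k3 : p ^ 2 / (2 * K ^ 2) - 2 * K ^ 2 * p ^ 4 ≤ p ^ 2 * u ^ 2 := by
      have h5 : p ^ 2 * (1 / K ^ 2 - 2 * p) ≤ p ^ 2 * u ^ 2 :=
        mul_le_mul_of_nonneg_left k2 (sq_nonneg _)
      have h6 : 2 * p ≤ 1 / (2 * K ^ 2) + 2 * K ^ 2 * p ^ 2 := by
        have h7 : 0 ≤ (1 / (2 * K) * 1 - K * p) ^ 2 := sq_nonneg _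
        have h8 : (1 / (2 * K) * 1 - K * p) ^ 2 = 1 / (4 * K ^ 2) - p + K ^ 2 * p ^ 2 := by
          field_simp
          ring
        rw [h8] at h7
        have h9 : 1 / (4 * K ^ 2) * 2 = 1 / (2 * K ^ 2) := by field_simp; norm_num
        linarith only [h9, h7]
      have h7 : p ^ 2 * (2 * p) ≤ p ^ 2 * (1 / (2 * K ^ 2) + 2 * K ^ 2 * p ^ 2) :=
        mul_le_mul_of_nonneg_left h6 (sq_nonneg _)
      have h8 : p ^ 2 * (1 / K ^ 2 - 2 * p) = p ^ 2 / K ^ 2 - p ^ 2 * (2 * p) := by ring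
      have h9 : p ^ 2 * (1 / (2 * K ^ 2) + 2 * K ^ 2 * p ^ 2) =
          p ^ 2 / (2 * K ^ 2) + 2 * K ^ 2 * p ^ 4 := by ring
      have h10 : p ^ 2 / K ^ 2 = p ^ 2 / (2 * K ^ 2) + p ^ 2 / (2 * K ^ 2) := by
        field_simp; ring
      linarith
    have k4 : (2 * c * p * u) ^ 2 ≤ t ^ 2 := by
      have h5 : 0 ≤ 2 * c * p * u := by positivity
      have h6 : 2 * c * p * u ≤ -t := by linarith
      have h7 := pow_le_pow_left₀ h5 h6 2
      have h8 : (-t) ^ 2 = t ^ 2 := by ring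
      rwa [h8] at h7
    calc 4 * c ^ 2 * (p ^ 2 / (2 * K ^ 2) - 2 * K ^ 2 * p ^ 4) ≤ 4 * c ^ 2 * (p ^ 2 * u ^ 2) :=
          mul_le_mul_of_nonneg_left k3 (by positivity)
      _ = (2 * c * p * u) ^ 2 := by ring
      _ ≤ t ^ 2 := k4
  rcases le_total 0 x with hx | hx
  · exact main x hx
  · have h1 := main (-x) (by linarith)
    have e : ∀ j, iteratedDeriv j G (-x) = (-1) ^ j * iteratedDeriv j G x := by
      intro j
      have h3 := iteratedDeriv_comp_neg j G x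
      have h4 : (fun x => G (-x)) = G := funext hA.even
      rw [h4] at h3
      rw [h3, smul_eq_mul, ← mul_assoc, ← mul_pow]
      simp
    rw [e 1, e 3] at h1
    have e1 : ((-1) ^ 1 * iteratedDeriv 1 G x) ^ 2 = iteratedDeriv 1 G x ^ 2 := by ring
    have e2 : ((-1) ^ 1 * iteratedDeriv 1 G x) ^ 4 = iteratedDeriv 1 G x ^ 4 := by ring
    have e3 : ((-1) ^ 3 * iteratedDeriv 3 G x) ^ 2 = iteratedDeriv 3 G x ^ 2 := by ring
    rw [e1, e2, e3] at h1
    exact h1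

end Vale.Agent.P146.Pw2
end

section

/-!
# P146 / Sx: the length of the first block
-/

set_option linter.all false

open MeasureTheory ProbabilityTheory Filter Topology Set

namespace Vale.Agent.P146.Pw2

open Vale.Agent.P157.Par
open Vale.Agent.P146.Gap

/-- First lower bound of `M'`. -/
theorem sx_M1a {S : ℝ} (hS : 0 ≤ S) : ∃ a₁ a₂ : ℝ, 0 < a₁ ∧ 0 ≤ a₂ ∧
    ∀ (g g' C s s₁ : ℝ) (F : ℝ → ℝ), Good g' C F → AKs s F → 0 ≤ s → 0 < g → g ≤ g' → g' ≤ 1 →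
      0 < s₁ → s + s₁ ≤ S → (∀ x, 0 ≤ bet (Real.exp (-(2 * s))) F x) →
      ∀ τ ∈ Ioo 0 s₁, a₁ * τ - a₂ * τ ^ 2 - 2 * g ≤ M1f g s₁ F τ := by
  obtain ⟨K, hK1, hK⟩ := AKs.ak S
  obtain ⟨A, hA0, hA⟩ := sx_four S
  have hK0 : 0 < K := by linarith
  set c : ℝ := Real.exp (-(2 * S)) with hc
  have hc0 : 0 < c := Real.exp_pos _
  refine ⟨4 * c ^ 2 / (2 * K ^ 2) * (Real.exp (-(2 * S)) * (1 / K) ^ 2),
    8 * c ^ 2 * K ^ 2 * A, by positivity, by positivity, ?_⟩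
  intro g g' C s s₁ F hF hFs hs hg hgg hg'1 hs₁ hsS hinv τ hτ
  have hg1 : g ≤ 1 := hgg.trans hg'1
  have hτ' : 0 ≤ s₁ - τ := by linarith [hτ.2]
  have hτS : τ ≤ S := by linarith [hτ.2]
  set G := gstep g (s₁ - τ) F with hG
  have hGA : AKs (s + (s₁ - τ)) G := hFs.step hs hg hg1 hτ'
  have hGK : AK K G := hK _ _ (by linarith) (by linarith [hτ.1]) hGA
  have hGadm := hGK.adm
  have hGb : ∀ x, 0 ≤ bet c G x := by
    have h1 := inv_good (c := Real.exp (-(2 * s))) hF (Real.exp_pos _)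
      (Real.exp_le_one_iff.2 (by linarith)) hinv hg hgg hg'1 hτ'
    refine inv_mono hGadm ?_ h1
    rw [hc, ← Real.exp_add]
    apply Real.exp_le_exp.2
    linarith [hτ.1]
  have h3 := sx_third hGK hK1 hc0 hGb
  have b1 := sx_cb hGadm 0
  have b2 := sx_cb hGadm 1
  have b3 := sx_cb hGadm 2
  have hle : ∀ x, 4 * c ^ 2 / (2 * K ^ 2) * iteratedDeriv 1 G x ^ 2
      + (-(8 * c ^ 2 * K ^ 2)) * iteratedDeriv 1 G x ^ 4 + -(2 * g) ≤
      iteratedDeriv 3 G x ^ 2 - 2 * g * iteratedDeriv 2 G x ^ 3 := by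
    intro x
    have k1 := h3 x
    have k2 : 4 * c ^ 2 * (iteratedDeriv 1 G x ^ 2 / (2 * K ^ 2) - 2 * K ^ 2 *
        iteratedDeriv 1 G x ^ 4) = 4 * c ^ 2 / (2 * K ^ 2) * iteratedDeriv 1 G x ^ 2
      + (-(8 * c ^ 2 * K ^ 2)) * iteratedDeriv 1 G x ^ 4 := by ring
    rw [k2] at k1
    have k3 := hGadm.pos x
    have k4 := sx_d2_le hGadm x
    have k5 : iteratedDeriv 2 G x ^ 3 ≤ 1 := pow_le_one₀ k3.le k4
    have k6 : 2 * g * iteratedDeriv 2 G x ^ 3 ≤ 2 * g * 1 :=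
      mul_le_mul_of_nonneg_left k5 (by linarith only [hg])
    linarith only [k6, k1]
  have q1 : Sp7Cb (fun x => 4 * c ^ 2 / (2 * K ^ 2) * iteratedDeriv 1 G x ^ 2) :=
    sx_cb_smul _ (sx_cb_pow b1 2)
  have q2 : Sp7Cb (fun x => (-(8 * c ^ 2 * K ^ 2)) * iteratedDeriv 1 G x ^ 4) :=
    sx_cb_smul _ (sx_cb_pow b1 4)
  have q3 : Sp7Cb (fun _ : ℝ => -(2 * g)) := sp7_cb_const _
  have q4 : Sp7Cb (fun x => iteratedDeriv 3 G x ^ 2 - 2 * g * iteratedDeriv 2 G x ^ 3) := by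
    have := sp7_cb_add (sx_cb_pow b3 2) (sx_cb_smul (-(2 * g)) (sx_cb_pow b2 3))
    have e : (fun x => iteratedDeriv 3 G x ^ 2 - 2 * g * iteratedDeriv 2 G x ^ 3) =
        fun x => iteratedDeriv (2 + 1) G x ^ 2 + -(2 * g) * iteratedDeriv (1 + 1) G x ^ 3 := by
      funext x
      ring
    rw [e]
    exact this
  have h4 := sx_tmono hGadm (sp7_cb_add (sp7_cb_add q1 q2) q3) q4 hle g τ 0
  rw [sx_tadd hGadm (sp7_cb_add q1 q2) q3, sx_tadd hGadm q1 q2, tlt_const_mul, tlt_const_mul,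
    sx_tconst hGadm] at h4
  have h5 : tlt g τ G (fun x => iteratedDeriv 3 G x ^ 2 - 2 * g * iteratedDeriv 2 G x ^ 3) 0 =
      M1f g s₁ F τ := rfl
  rw [h5] at h4
  -- the second moment
  have hsum : gstep g τ G = gstep g s₁ F := by
    rw [hG, gstep_add hF.adm hg hτ.1.le hτ']
    congr 1
    ring
  have hlast : AK K (gstep g s₁ F) := hK _ _ (by linarith) hsS (hFs.step hs hg hg1 hs₁.le)
  have h6 : Real.exp (-(2 * S)) * (1 / K) ^ 2 * τ ≤
      tlt g τ G (fun x => iteratedDeriv 1 G x ^ 2) 0 := by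
    have k1 := split_Rf_low hGadm hg hg1 hτ.1
    have k2 : Rf g g τ G τ = tlt g τ G (fun x => iteratedDeriv 1 G x ^ 2) 0 := by
      unfold Rf
      rw [sub_self, gstep_zero hg.ne']
    rw [k2, hsum] at k1
    refine le_trans (mul_le_mul_of_nonneg_right ?_ hτ.1.le) k1
    have k3 : 1 / K ≤ iteratedDeriv 2 (gstep g s₁ F) 0 := by
      rw [div_le_iff₀ hK0]
      linarith only [hlast.low0]
    have k4 : (1 / K) ^ 2 ≤ iteratedDeriv 2 (gstep g s₁ F) 0 ^ 2 :=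
      pow_le_pow_left₀ (by positivity) k3 2
    refine mul_le_mul (Real.exp_le_exp.2 ?_) k4 (by positivity) (Real.exp_pos _).le
    have : g * τ ≤ 1 * S := mul_le_mul hg1 hτS hτ.1.le zero_le_one
    linarith only [this]
  have h7 := hA _ g τ G hGadm hg hg1 hτ.1.le hτS
  have h8 : 4 * c ^ 2 / (2 * K ^ 2) * (Real.exp (-(2 * S)) * (1 / K) ^ 2 * τ) ≤
      4 * c ^ 2 / (2 * K ^ 2) * tlt g τ G (fun x => iteratedDeriv 1 G x ^ 2) 0 :=
    mul_le_mul_of_nonneg_left h6 (by positivity)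
  have h9 : 8 * c ^ 2 * K ^ 2 * tlt g τ G (fun x => iteratedDeriv 1 G x ^ 4) 0 ≤
      8 * c ^ 2 * K ^ 2 * (A * τ ^ 2) := mul_le_mul_of_nonneg_left h7 (by positivity)
  linarith

/-- `M' τ ≥ a τ - 2 g`. -/
theorem sx_M1f {S : ℝ} (hS : 0 ≤ S) : ∃ a : ℝ, 0 < a ∧
    ∀ (g g' C s s₁ : ℝ) (F : ℝ → ℝ), Good g' C F → AKs s F → 0 ≤ s → 0 < g → g ≤ g' → g' ≤ 1 →
      0 < s₁ → s + s₁ ≤ S → (∀ x, 0 ≤ bet (Real.exp (-(2 * s))) F x) →
      ∀ τ ∈ Ioo 0 s₁, a * τ - 2 * g ≤ M1f g s₁ F τ := by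
  obtain ⟨a₁, a₂, h1, h2, h⟩ := sx_M1a hS
  set τ₀ : ℝ := a₁ / (2 * (a₂ + 1)) with hτ₀
  have hτ₀0 : 0 < τ₀ := by positivity
  refine ⟨a₁ / 2 * min 1 (τ₀ / (S + 1)), by positivity, ?_⟩
  intro g g' C s s₁ F hF hFs hs hg hgg hg'1 hs₁ hsS hinv τ hτ
  have hg1 : g ≤ 1 := hgg.trans hg'1
  have key := h g g' C s s₁ F hF hFs hs hg hgg hg'1 hs₁ hsS hinv
  have hmono : MonotoneOn (M1f g s₁ F) (Ioo 0 s₁) := by
    refine monotoneOn_of_deriv_nonneg (convex_Ioo _ _)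
      (fun t ht => (M1f_hasDerivAt hF.adm hg hg1 ht).continuousAt.continuousWithinAt) ?_ ?_
    · rw [interior_Ioo]
      exact fun t ht => (M1f_hasDerivAt hF.adm hg hg1 ht).differentiableAt.differentiableWithinAt
    · rw [interior_Ioo]
      intro t ht
      rw [(M1f_hasDerivAt hF.adm hg hg1 ht).deriv]
      exact gapn_M2f_nonneg hF hg hgg hg'1 ht
  set t := min τ τ₀ with ht
  have ht0 : 0 < t := lt_min hτ.1 hτ₀0
  have htτ : t ≤ τ := min_le_left _ _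
  have htτ₀ : t ≤ τ₀ := min_le_right _ _
  have k1 := hmono ⟨ht0, htτ.trans_lt hτ.2⟩ hτ htτ
  have k2 := key t ⟨ht0, htτ.trans_lt hτ.2⟩
  have k3 : a₂ * t ^ 2 ≤ a₁ / 2 * t := by
    have e1 : a₂ * t ≤ a₁ / 2 := by
      have e2 : a₂ * t ≤ (a₂ + 1) * τ₀ := mul_le_mul (by linarith) htτ₀ ht0.le (by linarith)
      have e3 : (a₂ + 1) * τ₀ = a₁ / 2 := by
        rw [hτ₀]; field_simp
      linarith only [e3, e2]
    have := mul_le_mul_of_nonneg_right e1 ht0.le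
    linarith only [this]
  have hτS : τ ≤ S + 1 := by linarith only [hτ.2, hsS, hs]
  have k4 : min 1 (τ₀ / (S + 1)) * τ ≤ t := by
    refine le_min ?_ ?_
    · have := mul_le_mul_of_nonneg_right (min_le_left 1 (τ₀ / (S + 1))) hτ.1.le
      linarith only [this]
    · have e1 := mul_le_mul_of_nonneg_right (min_le_right 1 (τ₀ / (S + 1))) hτ.1.le
      refine e1.trans ?_
      rw [div_mul_eq_mul_div, div_le_iff₀ (by linarith)]
      exact mul_le_mul_of_nonneg_left hτS hτ₀0.le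
  have k5 : a₁ / 2 * (min 1 (τ₀ / (S + 1)) * τ) ≤ a₁ / 2 * t :=
    mul_le_mul_of_nonneg_left k4 (by positivity)
  linarith only [k5, k3, k2, k1]

/-- The length of the first block. -/
theorem sx_len {a g s₁ b δ C : ℝ} {F : ℝ → ℝ} (h : Adm C F) (hg : 0 < g) (hg1 : g ≤ 1)
    (hs : 0 < s₁) (h1 : ∀ τ ∈ Ioo 0 s₁, a * τ - 2 * g ≤ M1f g s₁ F τ)
    (h0 : (1 - δ) / b ^ 2 ≤ Mf g s₁ F 0) (hend : Rf g g s₁ F s₁ ≤ s₁ / b ^ 2) :
    a * s₁ ^ 2 / 6 ≤ δ / b ^ 2 + g * s₁ := by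
  have hM : ∀ τ ∈ Icc 0 s₁, Mf g s₁ F 0 + a * τ ^ 2 / 2 - 2 * g * τ ≤ Mf g s₁ F τ := by
    intro τ hτ
    have k1 := sx_mono (v := s₁) (f := fun τ => Mf g s₁ F τ - (a * τ ^ 2 / 2 - 2 * g * τ))
      (f' := fun τ => M1f g s₁ F τ - (a * τ - 2 * g))
      ((Mf_cont h hg hg1).sub (by fun_prop)) (fun t ht => ?_)
      (fun t ht => by linarith [h1 t ht]) hτ
    · have e : a * (0 : ℝ) ^ 2 / 2 - 2 * g * 0 = 0 := by ring
      rw [e] at k1
      linarith only [k1]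
    · refine (Mf_hasDerivAt h hg hg1 ht).sub ?_
      have e1 : HasDerivAt (fun τ : ℝ => a * τ ^ 2 / 2) (a * t) t := by
        refine (((hasDerivAt_pow 2 t).const_mul a).div_const 2).congr_deriv ?_
        simp only [Nat.cast_ofNat, Nat.reduceSub, pow_one]
        ring
      have e2 : HasDerivAt (fun τ : ℝ => 2 * g * τ) (2 * g) t := by
        simpa using (hasDerivAt_id t).const_mul (2 * g)
      exact e1.sub e2
  have hR := sx_mono (v := s₁)
    (f := fun τ => Rf g g s₁ F τ - (Mf g s₁ F 0 * τ + a * τ ^ 3 / 6 - g * τ ^ 2))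
    (f' := fun τ => Mf g s₁ F τ - (Mf g s₁ F 0 + a * τ ^ 2 / 2 - 2 * g * τ))
    ((Rf_cont h hg hg1 hg hg1).sub (by fun_prop)) (fun t ht => ?_)
    (fun t ht => by linarith [hM t ⟨ht.1.le, ht.2.le⟩]) (τ := s₁) ⟨hs.le, le_rfl⟩
  · rw [Rf_zero h hg hg1 g hs.le] at hR
    have e : (0 : ℝ) - (Mf g s₁ F 0 * 0 + a * (0 : ℝ) ^ 3 / 6 - g * 0 ^ 2) = 0 := by ring
    rw [e] at hR
    have k1 : (1 - δ) / b ^ 2 * s₁ ≤ Mf g s₁ F 0 * s₁ := mul_le_mul_of_nonneg_right h0 hs.le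
    have k2 : (a * s₁ ^ 2 / 6) * s₁ ≤ (δ / b ^ 2 + g * s₁) * s₁ := by
      have e1 : (1 - δ) / b ^ 2 * s₁ = s₁ / b ^ 2 - δ / b ^ 2 * s₁ := by ring
      rw [e1] at k1
      linarith only [k1, hR, hend]
    exact le_of_mul_le_mul_right k2 hs
  · refine (Rf_hasDerivAt h hg hg1 ht).sub ?_
    have e1 : HasDerivAt (fun τ : ℝ => Mf g s₁ F 0 * τ) (Mf g s₁ F 0) t := by
      simpa using (hasDerivAt_id t).const_mul (Mf g s₁ F 0)
    have e2 : HasDerivAt (fun τ : ℝ => a * τ ^ 3 / 6) (a * t ^ 2 / 2) t := by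
      refine (((hasDerivAt_pow 3 t).const_mul a).div_const 6).congr_deriv ?_
      simp only [Nat.cast_ofNat, Nat.reduceSub]
      ring
    have e3 : HasDerivAt (fun τ : ℝ => g * τ ^ 2) (2 * g * t) t := by
      refine ((hasDerivAt_pow 2 t).const_mul g).congr_deriv ?_
      simp only [Nat.cast_ofNat, Nat.reduceSub, pow_one]
      ring
    exact (e1.add e2).sub e3

end Vale.Agent.P146.Pw2
end

section

/-!
# P146 / Sx: the Parisi functional with all exponents at least `x`, sharp order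

The infimum of the SK Parisi functional over the exponents `≥ x` is at most the infimum over all
exponents plus `C x⁵` (for `b > 1`).
-/

set_option linter.all false

open MeasureTheory ProbabilityTheory Filter Topology Set

namespace Vale.Agent.P146.Pw2

open Vale.Agent.P157.Par
open Vale.Agent.P146.Gap

theorem aks_cascade {n : ℕ} {m r : ℕ → ℝ} {s : ℝ} {F : ℝ → ℝ} (h : AKs s F) (hs : 0 ≤ s)
    (hm0 : ∀ l, 1 ≤ l → l ≤ n → 0 < m l) (hm1 : ∀ l, 1 ≤ l → l ≤ n → m l ≤ 1)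
    (hr : ∀ l < n, r l ≤ r (l + 1)) : AKs (s + (r n - r 0)) (cascade m r n F) := by
  induction n generalizing F s with
  | zero =>
    have e : cascade m r 0 F = F := rfl
    rw [e, sub_self, add_zero]
    exact h
  | succ n ih =>
    have hv : 0 ≤ r (n + 1) - r n := sub_nonneg.2 (hr n (Nat.lt_succ_self n))
    have h1 := ih (h.step hs (hm0 (n + 1) (by omega) le_rfl) (hm1 (n + 1) (by omega) le_rfl) hv)
      (by linarith) (fun l a b => hm0 l a (by omega)) (fun l a b => hm1 l a (by omega))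
      (fun l a => hr l (by omega))
    rw [cascade_succ_def]
    have e : s + (r (n + 1) - r n) + (r n - r 0) = s + (r (n + 1) - r 0) := by ring
    rwa [e] at h1

/-- The data of the first block. -/
theorem gap5_data {b : ℝ} (hb : 0 < b) {k : ℕ} {m R : ℕ → ℝ} (hm : Exponents (k + 1) m)
    (hR : MinbP b (k + 1) R)
    (hmin : ∀ R', MinbP b (k + 1) R' → minbJ b (k + 1) m R ≤ minbJ b (k + 1) m R')
    (h10 : 0 < R 1) :
    ∃ F : ℝ → ℝ, Good (m 2) (2 * Real.exp (2 * b ^ 2)) F ∧ AKs (b ^ 2 - R 1) F ∧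
      (∀ x, 0 ≤ bet (Real.exp (-(2 * (b ^ 2 - R 1)))) F x) ∧
      Rf (m 1) (m 1) (R 1) F (R 1) ≤ R 1 / b ^ 2 ∧
      gstep (m 1) (R 1) F 0 - m 1 * R 1 ^ 2 / (4 * b ^ 2) ≤
        gstep (m 2) (R 1) F 0 - m 2 * R 1 ^ 2 / (4 * b ^ 2) ∧
      minbJ b k (gap2D m) (gap2D R) = minbJ b (k + 1) m R
        + (gstep (m 2) (R 1) F 0 - gstep (m 1) (R 1) F 0 - (m 2 - m 1) * R 1 ^ 2 / (4 * b ^ 2)) := by
  obtain ⟨emono, e0, e1⟩ := minb_exp hm
  have hmonoR : ∀ i j, i ≤ j → j ≤ k + 2 → R i ≤ R j := fun i j h1 h2 => minb_mono hR.2.1 h1 h2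
  have hm1 : 0 < m 1 := e0 1 (by omega) (by omega)
  have hm2 : 0 < m 2 := e0 2 (by omega) (by omega)
  have hm12 : m 1 < m 2 := hm.2.2 1 (by omega)
  have hm21 : m 2 ≤ 1 := e1 2 (by omega)
  have hR1 : 0 ≤ R 1 := h10.le
  have hR1b : R 1 ≤ b ^ 2 := by
    have := hmonoR 1 (k + 2) (by omega) le_rfl
    rwa [hR.2.2] at this
  have hgoodR : ∀ i n : ℕ, i + n ≤ k + 2 → Good (if n = 0 then 1 else m (i + 1))
      (2 * Real.exp (2 * b ^ 2))
      (cascade (fun l => m (i + l)) (fun l => R (i + l)) n lc) := by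
    intro i n hin
    have h1 := good_cascade (c := n) (m := fun l => m (i + l)) (r := fun l => R (i + l)) good_lc
      le_rfl (fun l h1 h2 => e0 _ (by omega) (by omega))
      (fun l h1 h2 => emono _ _ (by omega) (by omega))
      (fun l h1 h2 => e1 _ (by omega)) (fun l hl => hR.2.1 _ (by omega))
    refine h1.mono_C ?_
    have h2 := hmonoR (i + n) (k + 2) hin le_rfl
    have h3 := hmonoR 0 (i + 0) (by omega) (by omega)
    have h4 : R (k + 2) = b ^ 2 := hR.2.2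
    rw [h4] at h2
    rw [hR.1] at h3
    gcongr
    linarith only [h3, h2]
  have hadmR : ∀ i n : ℕ, i + n ≤ k + 2 → Adm (2 * Real.exp (2 * b ^ 2))
      (cascade (fun l => m (i + l)) (fun l => R (i + l)) n lc) := fun i n h => (hgoodR i n h).adm
  refine ⟨cascade (fun l => m (1 + l)) (fun l => R (1 + l)) (k + 1) lc, ?_, ?_, ?_, ?_, ?_, ?_⟩
  · have h1 := hgoodR 1 (k + 1) (by omega)
    rw [if_neg (Nat.succ_ne_zero k)] at h1
    exact h1
  · have h1 := aks_cascade (n := k + 1) (m := fun l => m (1 + l)) (r := fun l => R (1 + l)) aks_lc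
      le_rfl (fun l h1 h2 => e0 _ (by omega) (by omega)) (fun l h1 h2 => e1 _ (by omega))
      (fun l hl => hR.2.1 _ (by omega))
    have h2 : (0 : ℝ) + (R (1 + (k + 1)) - R (1 + 0)) = b ^ 2 - R 1 := by
      have h4 : R (1 + (k + 1)) = b ^ 2 := by
        have : 1 + (k + 1) = k + 2 := by omega
        rw [this]; exact hR.2.2
      rw [h4, Nat.add_zero]; ring
    rwa [h2] at h1
  · have h1 := inv_cascade (n := k + 1) (c := 1) (m := fun l => m (1 + l))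
      (r := fun l => R (1 + l)) good_lc le_rfl one_pos le_rfl inv_lc
      (fun l h1 h2 => e0 _ (by omega) (by omega))
      (fun l h1 h2 => emono _ _ (by omega) (by omega))
      (fun l h1 h2 => e1 _ (by omega)) (fun l hl => hR.2.1 _ (by omega))
    have h2 : (1 : ℝ) * Real.exp (-(2 * (R (1 + (k + 1)) - R (1 + 0)))) =
        Real.exp (-(2 * (b ^ 2 - R 1))) := by
      have h4 : R (1 + (k + 1)) = b ^ 2 := by
        have : 1 + (k + 1) = k + 2 := by omega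
        rw [this]; exact hR.2.2
      rw [h4, Nat.add_zero, one_mul]
    rwa [h2] at h1
  all_goals set F := cascade (fun l => m (1 + l)) (fun l => R (1 + l)) (k + 1) lc with hF
  · have hadmF : Adm (2 * Real.exp (2 * b ^ 2)) F := hadmR 1 (k + 1) (by omega)
    by_cases hjb : R 1 = b ^ 2
    · refine (Rf_le_one hadmF hm1 (hm12.le.trans hm21) hm1 ⟨h10.le, le_rfl⟩).trans (le_of_eq ?_)
      rw [hjb, div_self (by positivity)]
    have hlt : R 1 < R (k + 2) := by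
      have h2 : R (k + 2) = b ^ 2 := hR.2.2
      rw [h2]
      exact lt_of_le_of_ne hR1b hjb
    have hex2 : ∃ l, R 1 < R l := ⟨k + 2, hlt⟩
    classical
    set p := Nat.find hex2 with hp
    have hRp : R 1 < R p := Nat.find_spec hex2
    have hpk : p ≤ k + 2 := Nat.find_min' hex2 hlt
    have hjp : 1 < p := by
      by_contra h
      have := hmonoR p 1 (by omega) (by omega)
      linarith only [this, hRp]
    have h1 : ∀ l, 1 ≤ l → l < p → R l = R 1 := by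
      intro l h1 h2
      have h3 := Nat.find_min hex2 h2
      have h4 := hmonoR 1 l h1 (by omega)
      linarith [not_lt.1 h3]
    have hmp : m 1 < m p := hm12.trans_le (emono 2 p (by omega) (by omega))
    have hFp := gap2_step (p := p) hm hjp hpk h1
    rw [← hF] at hFp
    rw [hFp]
    refine vari_down hb (hadmR p (k + 2 - p) (by omega)) hm1 hmp (e1 p (by omega)) h10
      (sub_pos.2 hRp) ?_
    intro τ hτ
    have h0 : ∀ l < 1, R l = 0 := fun l hl => by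
      have : l = 0 := by omega
      rw [this]; exact hR.1
    have h2 := minb_comp (p := p) (c := R 1 + τ) hm hR hmin le_rfl hjp hpk h0 h1
      (by linarith [hτ.1]) (by linarith [hτ.2])
    have h3 : R p - (R 1 + τ) = R p - R 1 - τ := by ring
    rw [h3] at h2
    have h5 : (m p - m 1) * ((R 1 + τ) ^ 2 - R 1 ^ 2) / (4 * b ^ 2) =
      (m 1 - m p) * R 1 ^ 2 / (4 * b ^ 2) - (m 1 - m p) * (R 1 + τ) ^ 2 / (4 * b ^ 2) := by ring
    rw [h5] at h2
    have h6 : k + 1 + 1 - p = k + 2 - p := rfl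
    rw [h6] at h2
    linarith only [h2]
  all_goals
    set F₂ := cascade (fun l => m (2 + l)) (fun l => R (2 + l)) k lc with hF₂
    have hadmF : Adm (2 * Real.exp (2 * b ^ 2)) F := hadmR 1 (k + 1) (by omega)
    have hadmF₂ : Adm (2 * Real.exp (2 * b ^ 2)) F₂ := hadmR 2 k (by omega)
    have hstep2 : F = gstep (m 2) (R 2 - R 1) F₂ := by
      have := gap2_step (p := 2) hm (by omega) (by omega) (R := R) (fun l h1 h2 => by
        have : l = 1 := by omega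
        rw [this])
      exact this
    have hcasc2 : gstep (m 2) (R 2) F₂ = gstep (m 2) (R 1) F := by
      have h1 := gstep_add (g := m 2) (v := R 1) (v' := R 2 - R 1) hadmF₂ hm2 hR1
        (sub_nonneg.2 (hR.2.1 1 (by omega)))
      rw [hstep2, h1]
      congr 1
      ring
  · have h0 : ∀ l < 1, R l = 0 := fun l hl => by
      have : l = 0 := by omega
      rw [this]; exact hR.1
    have h2 := minb_comp (j := 1) (p := 2) (c := 0) hm hR hmin le_rfl (by omega) (by omega) h0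
      (fun l h1 h2 => by
        have : l = 1 := by omega
        rw [this]) le_rfl (hmonoR 0 2 (by omega) (by omega) |>.trans' (by rw [hR.1]))
    have h6 : k + 1 + 1 - 2 = k := by omega
    rw [h6, ← hF₂, ← hstep2, gstep_zero hm1.ne', sub_zero, hcasc2] at h2
    have h5 : (m 2 - m 1) * (0 ^ 2 - R 1 ^ 2) / (4 * b ^ 2) =
      m 1 * R 1 ^ 2 / (4 * b ^ 2) - m 2 * R 1 ^ 2 / (4 * b ^ 2) := by ring
    rw [h5] at h2
    linarith only [h2]
  · unfold minbJ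
    rw [gap2_sum hR.1, gap2_casc hR.1, gap2_casc' hR.1, hcasc2]
    ring

/-- The lower bound of `M 0`. -/
theorem gap5_first {b : ℝ} (hb : 0 < b) {δ : ℝ} (hδ : 0 < δ) : ∃ η₀ > 0, ∀ (K : ℝ), 0 ≤ K →
    (∀ (C g g' s₁ : ℝ) (F : ℝ → ℝ), Adm C F → 0 < g → g ≤ g' → g' ≤ 1 → s₁ ≤ b ^ 2 →
      ∀ τ ∈ Icc 0 s₁, Rf g' g s₁ F τ ≤ Rf g g s₁ F τ + K * (g' - g) * τ) →
    ∀ (g g' s₁ : ℝ) (F : ℝ → ℝ), Good g' (2 * Real.exp (2 * b ^ 2)) F → 0 < g → g < g' →
      g' ≤ 1 → 0 < s₁ → s₁ ≤ b ^ 2 → K * (g' - g) ≤ 2 * η₀ →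
      Rf g g s₁ F s₁ ≤ s₁ / b ^ 2 →
      gstep g s₁ F 0 - g * s₁ ^ 2 / (4 * b ^ 2) ≤ gstep g' s₁ F 0 - g' * s₁ ^ 2 / (4 * b ^ 2) →
      (1 - δ) / b ^ 2 ≤ Mf g s₁ F 0 := by
  set C0 : ℝ := 2 * Real.exp (2 * b ^ 2) with hC0
  have hC0p : 0 < C0 := by positivity
  obtain ⟨η₀, hη₀, hreal⟩ := gap_real (b := b) (S := b ^ 2)
    (C := (C0 * Real.exp (2 * b ^ 2)) ^ 2) (δ := δ) hb (by positivity) hδ
  refine ⟨η₀, hη₀, ?_⟩
  intro K hK htilt g g' s₁ F hF hg hgg hg'1 hs₁ hs hKη hend hup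
  have hg1 : g ≤ 1 := hgg.le.trans hg'1
  have hg' : 0 < g' := hg.trans hgg
  have hA := hF.adm
  refine hreal s₁ (Rf g g s₁ F) (Mf g s₁ F) (M1f g s₁ F) (M2f g s₁ F) hs₁ hs
    (Rf_cont hA hg hg1 hg hg1) (Mf_cont hA hg hg1) (M1f_cont hA hg hg1)
    (fun τ hτ => Rf_hasDerivAt hA hg hg1 hτ) (fun τ hτ => Mf_hasDerivAt hA hg hg1 hτ)
    (fun τ hτ => M1f_hasDerivAt hA hg hg1 hτ)
    (fun τ hτ => gapn_M2f_nonneg hF hg hgg.le hg'1 hτ) ?_ (Rf_zero hA hg hg1 _ hs₁.le) hend ?_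
  · intro τ hτ
    refine (M1f_le hA hg hg1 hτ).trans ?_
    refine pow_le_pow_left₀ (by positivity) ?_ 2
    refine mul_le_mul_of_nonneg_left ?_ hC0p.le
    exact Real.exp_le_exp.2 (by linarith only [hs])
  · have h1 := vari_up hb hA hg hgg hg'1 hs₁ hup
    have h2 : ∫ τ in (0 : ℝ)..s₁, Rf g' g s₁ F τ ≤
        ∫ τ in (0 : ℝ)..s₁, (Rf g g s₁ F τ + K * (g' - g) * τ) := by
      refine intervalIntegral.integral_mono_on hs₁.le ?_ ?_ ?_
      · exact (Rf_cont hA hg hg1 hg' hg'1).intervalIntegrable_of_Icc hs₁.le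
      · exact ContinuousOn.intervalIntegrable_of_Icc hs₁.le
          ((Rf_cont hA hg hg1 hg hg1).add (by fun_prop))
      · intro τ hτ
        exact htilt _ _ _ _ F hA hg hgg.le hg'1 hs τ hτ
    have h3 : ∫ τ in (0 : ℝ)..s₁, (Rf g g s₁ F τ + K * (g' - g) * τ) =
        (∫ τ in (0 : ℝ)..s₁, Rf g g s₁ F τ) + K * (g' - g) * (s₁ ^ 2 / 2) := by
      rw [intervalIntegral.integral_add
        ((Rf_cont hA hg hg1 hg hg1).intervalIntegrable_of_Icc hs₁.le)
        (ContinuousOn.intervalIntegrable_of_Icc hs₁.le (by fun_prop)),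
        intervalIntegral.integral_const_mul, integral_id]
      ring
    have h7 : K * (g' - g) * (s₁ ^ 2 / 2) ≤ η₀ * s₁ ^ 2 := by
      have := mul_le_mul_of_nonneg_right hKη (show 0 ≤ s₁ ^ 2 / 2 by positivity)
      linarith only [this]
    linarith only [h7, h3, h2, h1]

/-- Dropping the first exponent. -/
theorem gap5_drop {b K a δ η₀ : ℝ} (hb1 : 1 ≤ b) (hK : 0 ≤ K) (ha : 0 < a) (hδ : 0 < δ)
    (htilt : ∀ (C g g' s₁ : ℝ) (F : ℝ → ℝ), Adm C F → 0 < g →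
      g ≤ g' → g' ≤ 1 → s₁ ≤ b ^ 2 → ∀ τ ∈ Icc 0 s₁,
      Rf g' g s₁ F τ ≤ Rf g g s₁ F τ + K * (g' - g) * τ)
    (hM1 : ∀ (g g' C s s₁ : ℝ) (F : ℝ → ℝ), Good g' C F → AKs s F → 0 ≤ s → 0 < g → g ≤ g' →
      g' ≤ 1 → 0 < s₁ → s + s₁ ≤ b ^ 2 → (∀ x, 0 ≤ bet (Real.exp (-(2 * s))) F x) →
      ∀ τ ∈ Ioo 0 s₁, a * τ - 2 * g ≤ M1f g s₁ F τ)
    (hfirst : ∀ (g g' s₁ : ℝ) (F : ℝ → ℝ), Good g' (2 * Real.exp (2 * b ^ 2)) F → 0 < g →
      g < g' → g' ≤ 1 → 0 < s₁ → s₁ ≤ b ^ 2 → K * (g' - g) ≤ 2 * η₀ →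
      Rf g g s₁ F s₁ ≤ s₁ / b ^ 2 →
      gstep g s₁ F 0 - g * s₁ ^ 2 / (4 * b ^ 2) ≤ gstep g' s₁ F 0 - g' * s₁ ^ 2 / (4 * b ^ 2) →
      (1 - δ ^ 2) / b ^ 2 ≤ Mf g s₁ F 0)
    {k : ℕ} {m R : ℕ → ℝ} (hm : Exponents (k + 1) m) (hR : MinbP b (k + 1) R)
    (hmin : ∀ R', MinbP b (k + 1) R' → minbJ b (k + 1) m R ≤ minbJ b (k + 1) m R')
    (hη : K * (m 2 - m 1) ≤ 2 * η₀) :
    minbJ b k (gap2D m) (gap2D R) ≤ minbJ b (k + 1) m R
      + (m 2 - m 1) * (m 1 * ((12 / a + 1) * (m 1 + δ)) ^ 3 + K * b ^ 4 * (m 2 - m 1)) := by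
  have hb : 0 < b := by linarith
  obtain ⟨emono, e0, e1⟩ := minb_exp hm
  have hm1 : 0 < m 1 := e0 1 (by omega) (by omega)
  have hm12 : m 1 < m 2 := hm.2.2 1 (by omega)
  have hm21 : m 2 ≤ 1 := e1 2 (by omega)
  have hR1 : 0 ≤ R 1 := by
    have := minb_mono hR.2.1 (i := 0) (j := 1) (by omega) (by omega)
    rwa [hR.1] at this
  have hR1b : R 1 ≤ b ^ 2 := by
    have := minb_mono hR.2.1 (i := 1) (j := k + 2) (by omega) le_rfl
    rwa [show R (k + 2) = b ^ 2 from hR.2.2] at this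
  set Q : ℝ := (12 / a + 1) * (m 1 + δ) with hQ
  have hQ0 : 0 ≤ Q := by positivity
  have hd : 0 ≤ m 2 - m 1 := by linarith
  rcases hR1.eq_or_lt with h10 | h10
  · -- no block
    have hJ : minbJ b k (gap2D m) (gap2D R) = minbJ b (k + 1) m R := by
      unfold minbJ
      rw [gap2_sum hR.1, gap2_casc hR.1, gap2_casc' hR.1]
      have hstep2 := gap2_step (p := 2) hm (by omega) (by omega) (R := R) (fun l h1 h2 => by
        have : l = 1 := by omega
        rw [this])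
      rw [hstep2, ← h10, gstep_zero hm1.ne', sub_zero]
      simp only [Nat.add_sub_cancel]
      ring
    rw [hJ]
    have : 0 ≤ (m 2 - m 1) * (m 1 * Q ^ 3 + K * b ^ 4 * (m 2 - m 1)) := by (clear * - hm12 hm1 ha hδ hK hb1; positivity)
    linarith only [this]
  obtain ⟨F, hF, hFs, hinv, hend, hup, hJ⟩ := gap5_data hb hm hR hmin h10
  rw [hJ]
  have hg1 : m 1 ≤ 1 := hm12.le.trans hm21
  have h0 := hfirst (m 1) (m 2) (R 1) F hF hm1 hm12 hm21 h10 hR1b hη hend hup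
  have hlen := sx_len hF.adm hm1 hg1 h10
    (hM1 (m 1) (m 2) _ (b ^ 2 - R 1) (R 1) F hF hFs (by linarith only [hR1b]) hm1 hm12.le hm21 h10
      (by linarith only []) hinv) h0 hend
  have hRQ : R 1 ≤ Q := by
    by_contra hcon
    push Not at hcon
    have k0 : δ ^ 2 / b ^ 2 ≤ δ ^ 2 := div_le_self (sq_nonneg _) (one_le_pow₀ hb1)
    have k1 : a * R 1 ^ 2 / 6 ≤ δ ^ 2 + m 1 * R 1 := hlen.trans (by linarith only [k0])
    have hx : 0 < 12 / a := by positivity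
    have k2 : 12 * m 1 ≤ a * R 1 := by
      have e : 12 / a * m 1 ≤ Q := by
        rw [hQ]
        (by_contra nlg; linarith only [nlg, mul_nonneg (le_of_lt (sub_pos.2 hm1)) (sub_nonneg.2 hm21), mul_pos (sub_pos.2 hm1) (sub_pos.2 hm12), mul_pos (sub_pos.2 hm1) (sub_pos.2 hm1), mul_pos (sub_pos.2 hδ) (sub_pos.2 hx), mul_nonneg (le_of_lt (sub_pos.2 hδ)) (sub_nonneg.2 hm21), mul_pos (sub_pos.2 hδ) (sub_pos.2 hm12), mul_pos (sub_pos.2 hδ) (sub_pos.2 hm1), mul_nonneg (le_of_lt (sub_pos.2 (not_le.1 nlg))) (sub_nonneg.2 hm21), mul_pos (sub_pos.2 (not_le.1 nlg)) (sub_pos.2 hm12), mul_pos (sub_pos.2 (not_le.1 nlg)) (sub_pos.2 hm1)])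
      have e3 := mul_le_mul_of_nonneg_left (e.trans hcon.le) ha.le
      have e4 : a * (12 / a * m 1) = 12 * m 1 := by field_simp
      linarith only [e4, e3]
    have k3 : 12 * δ ^ 2 < a * R 1 ^ 2 := by
      have e : (12 / a + 1) * δ < R 1 := by
        refine lt_of_le_of_lt ?_ hcon
        rw [hQ]
        (by_contra nlg; linarith only [nlg, mul_pos (sub_pos.2 hm1) (sub_pos.2 hx), mul_nonneg (le_of_lt (sub_pos.2 hm1)) (sub_nonneg.2 hm21), mul_pos (sub_pos.2 hm1) (sub_pos.2 hm12), mul_pos (sub_pos.2 hm1) (sub_pos.2 hm1), mul_nonneg (le_of_lt (sub_pos.2 (not_le.1 nlg))) (sub_nonneg.2 hm21), mul_pos (sub_pos.2 (not_le.1 nlg)) (sub_pos.2 hm12), mul_pos (sub_pos.2 (not_le.1 nlg)) (sub_pos.2 hm1)])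
      have e2 : ((12 / a + 1) * δ) ^ 2 < R 1 ^ 2 := pow_lt_pow_left₀ e (by positivity) two_ne_zero
      have e3 : 12 / a * δ ^ 2 ≤ ((12 / a + 1) * δ) ^ 2 := by
        rw [mul_pow]
        refine mul_le_mul_of_nonneg_right ?_ (sq_nonneg _)
        (by_contra nlg; linarith only [nlg, mul_pos (sub_pos.2 hx) (sub_pos.2 hx), mul_nonneg (sub_nonneg.2 hm21) (le_of_lt (sub_pos.2 hx)), mul_nonneg (sub_nonneg.2 hm21) (sub_nonneg.2 hg1), mul_nonneg (sub_nonneg.2 hm21) (sub_nonneg.2 hd), mul_pos (sub_pos.2 hm12) (sub_pos.2 hx), mul_pos (sub_pos.2 hm12) (sub_pos.2 hm12), mul_pos (sub_pos.2 hm1) (sub_pos.2 hx), mul_nonneg (le_of_lt (sub_pos.2 hm1)) (sub_nonneg.2 hm21), mul_pos (sub_pos.2 hm1) (sub_pos.2 hm12), mul_pos (sub_pos.2 hm1) (sub_pos.2 hm1), mul_nonneg (le_of_lt (sub_pos.2 (not_le.1 nlg))) (sub_nonneg.2 hm21), mul_pos (sub_pos.2 (not_le.1 nlg)) (sub_pos.2 hm12), mul_pos (sub_pos.2 (not_le.1 nlg)) (sub_pos.2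 hm1)])
      have e4 := mul_lt_mul_of_pos_left (e3.trans_lt e2) ha
      have e5 : a * (12 / a * δ ^ 2) = 12 * δ ^ 2 := by field_simp
      linarith only [e5, e4]
    have k4 := mul_le_mul_of_nonneg_right k2 hR1
    linarith only [k4, k3, k1]
  have hcost := gap2_cost hb hF.adm hm1 hm12.le hm21 h10
    (fun τ hτ => htilt _ _ _ _ F hF.adm hm1 hm12.le hm21 hR1b τ hτ) hend
  have hb3 : R 1 ^ 3 ≤ Q ^ 3 := pow_le_pow_left₀ hR1 hRQ 3
  have hb2 : R 1 ^ 2 ≤ b ^ 4 := by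
    calc R 1 ^ 2 ≤ (b ^ 2) ^ 2 := pow_le_pow_left₀ hR1 hR1b 2
      _ = b ^ 4 := by ring
  have h7 : m 1 * R 1 ^ 3 / 6 + K * (m 2 - m 1) * R 1 ^ 2 / 2 ≤
      m 1 * Q ^ 3 + K * b ^ 4 * (m 2 - m 1) := by
    have a1 : m 1 * R 1 ^ 3 ≤ m 1 * Q ^ 3 := mul_le_mul_of_nonneg_left hb3 hm1.le
    have a2 : K * (m 2 - m 1) * R 1 ^ 2 ≤ K * (m 2 - m 1) * b ^ 4 :=
      mul_le_mul_of_nonneg_left hb2 (by positivity)
    have a3 : 0 ≤ m 1 * Q ^ 3 := by positivity
    have a4 : 0 ≤ K * (m 2 - m 1) * b ^ 4 := by positivity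
    linarith only [a4, a3, a2, a1]
  have h8 := mul_le_mul_of_nonneg_left h7 (show 0 ≤ 1 / 2 * (m 2 - m 1) by linarith only [hm12])
  have h9 : 0 ≤ (m 2 - m 1) * (m 1 * Q ^ 3 + K * b ^ 4 * (m 2 - m 1)) := by positivity
  linarith only [h9, h8, hcost]

/-! ### Iteration -/

theorem gap5_iter {b K a δ η₀ x η : ℝ} (hb1 : 1 ≤ b) (hK : 0 ≤ K) (ha : 0 < a) (hδ : 0 < δ)
    (htilt : ∀ (C g g' s₁ : ℝ) (F : ℝ → ℝ), Adm C F → 0 < g →
      g ≤ g' → g' ≤ 1 → s₁ ≤ b ^ 2 → ∀ τ ∈ Icc 0 s₁,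
      Rf g' g s₁ F τ ≤ Rf g g s₁ F τ + K * (g' - g) * τ)
    (hM1 : ∀ (g g' C s s₁ : ℝ) (F : ℝ → ℝ), Good g' C F → AKs s F → 0 ≤ s → 0 < g → g ≤ g' →
      g' ≤ 1 → 0 < s₁ → s + s₁ ≤ b ^ 2 → (∀ x, 0 ≤ bet (Real.exp (-(2 * s))) F x) →
      ∀ τ ∈ Ioo 0 s₁, a * τ - 2 * g ≤ M1f g s₁ F τ)
    (hfirst : ∀ (g g' s₁ : ℝ) (F : ℝ → ℝ), Good g' (2 * Real.exp (2 * b ^ 2)) F → 0 < g →
      g < g' → g' ≤ 1 → 0 < s₁ → s₁ ≤ b ^ 2 → K * (g' - g) ≤ 2 * η₀ →
      Rf g g s₁ F s₁ ≤ s₁ / b ^ 2 →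
      gstep g s₁ F 0 - g * s₁ ^ 2 / (4 * b ^ 2) ≤ gstep g' s₁ F 0 - g' * s₁ ^ 2 / (4 * b ^ 2) →
      (1 - δ ^ 2) / b ^ 2 ≤ Mf g s₁ F 0)
    (hx : 0 < x) (hx1 : x ≤ 1) (hη : 0 < η) (hKη : K * η ≤ 2 * η₀) :
    ∀ (k : ℕ) (m : ℕ → ℝ), Exponents k m → (∀ l, 1 ≤ l → l ≤ k → m (l + 1) - m l ≤ η) →
      m 1 ≤ x + η → ∀ R, MinbP b k R → ∃ (k' : ℕ) (m' R' : ℕ → ℝ), Exponents k' m' ∧ x ≤ m' 1 ∧
        MinbP b k' R' ∧ minbJ b k' m' R' ≤ minbJ b k m R
          + ((x + η) * ((12 / a + 1) * (x + η + δ)) ^ 3 + K * b ^ 4 * η) * (x + η - m 1) := by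
  have hb : 0 < b := by linarith
  set B : ℝ := (x + η) * ((12 / a + 1) * (x + η + δ)) ^ 3 + K * b ^ 4 * η with hB
  have hB0 : 0 ≤ B := by (clear * - hx hη ha hδ hK hb1; positivity)
  intro k
  induction k with
  | zero =>
    intro m hm _ hmx R hR
    refine ⟨0, m, R, hm, ?_, hR, ?_⟩
    · have := hm.2.1
      simp only [Nat.zero_add] at this
      rw [this]; exact hx1
    · have h1 : 0 ≤ x + η - m 1 := by linarith only [hmx]
      have := mul_nonneg hB0 h1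
      linarith only [this]
  | succ k ih =>
    intro m hm hmesh hmx R hR
    by_cases hxm : x ≤ m 1
    · refine ⟨k + 1, m, R, hm, hxm, hR, ?_⟩
      have h1 : 0 ≤ x + η - m 1 := by linarith only [hmx]
      have := mul_nonneg hB0 h1
      linarith only [this]
    push Not at hxm
    obtain ⟨r, hr, hrmin⟩ := exists_min hb hm
    have hP : MinbP b (k + 1) (minbExt b (k + 1) r) := minb_ext_P hr
    have hPmin : ∀ R', MinbP b (k + 1) R' →
        minbJ b (k + 1) m (minbExt b (k + 1) r) ≤ minbJ b (k + 1) m R' :=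
      fun R' h => minb_min_ext hm hr hrmin h
    have h12 : m 2 - m 1 ≤ η := hmesh 1 le_rfl (by omega)
    have hm12 : m 1 < m 2 := hm.2.2 1 (by omega)
    have hm1 : 0 < m 1 := by
      have := hm.2.2 0 (by omega)
      rwa [hm.1] at this
    have hdrop := gap5_drop hb1 hK ha hδ htilt hM1 hfirst hm hP hPmin
      ((mul_le_mul_of_nonneg_left h12 hK).trans hKη)
    obtain ⟨k', m', R', h1, h2, h3, h4⟩ := ih (gap2D m) (gap2D_exp hm)
      (fun l h1 h2 => by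
        obtain ⟨i, rfl⟩ := Nat.exists_eq_add_of_le' h1
        rw [gap2D_succ, gap2D_succ]
        exact hmesh (i + 2) (by omega) (by omega))
      (by rw [gap2D_succ]; simp only [Nat.zero_add]; linarith only [h12, hxm]) _ (gap2D_P hP)
    refine ⟨k', m', R', h1, h2, h3, h4.trans ?_⟩
    have h5 := hPmin R hR
    have h6 : gap2D m 1 = m 2 := gap2D_succ m 0
    rw [h6]
    have h7 : m 1 * ((12 / a + 1) * (m 1 + δ)) ^ 3 + K * b ^ 4 * (m 2 - m 1) ≤ B := by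
      rw [hB]
      have e1 : (12 / a + 1) * (m 1 + δ) ≤ (12 / a + 1) * (x + η + δ) :=
        mul_le_mul_of_nonneg_left (by linarith only [hm12, h12, hxm]) (by positivity)
      have e2 := pow_le_pow_left₀ (by positivity) e1 3
      have e3 : m 1 * ((12 / a + 1) * (m 1 + δ)) ^ 3 ≤
          (x + η) * ((12 / a + 1) * (x + η + δ)) ^ 3 :=
        mul_le_mul (by linarith only [hm12, h12, hxm]) e2 (by positivity) (by linarith only [hm1, hm12, h12, hxm])
      have e4 : K * b ^ 4 * (m 2 - m 1) ≤ K * b ^ 4 * η :=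
        mul_le_mul_of_nonneg_left h12 (by positivity)
      linarith only [e4, e3]
    have h8 := mul_le_mul_of_nonneg_left h7 (show 0 ≤ m 2 - m 1 by linarith only [hm12])
    have h9 : B * (x + η - m 1) = (m 2 - m 1) * B + B * (x + η - m 2) := by ring
    linarith only [h8, h5, hdrop]

/-- The Parisi functional with the exponents at least `x`: the cost is at most `C x⁵`. -/
theorem exp_ge5 {b : ℝ} (hb1 : 1 ≤ b) : ∃ C : ℝ, 0 ≤ C ∧ ∀ x : ℝ, 0 < x → x ≤ 1 →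
    ∀ (k : ℕ) (m q : ℕ → ℝ), Exponents k m → Path k q → q k ≤ 1 → ∀ e > 0,
      ∃ (k' : ℕ) (m' r' : ℕ → ℝ), Exponents k' m' ∧ x ≤ m' 1 ∧ BPath b k' r' ∧
        SKr b k' m' r' ≤ SKpar b k m q + C * x ^ 5 + e := by
  have hb : 0 < b := by linarith
  obtain ⟨K, hK, htilt⟩ := Rf_tilt (b ^ 2)
  obtain ⟨a, ha, hM1⟩ := sx_M1f (S := b ^ 2) (by positivity)
  refine ⟨2 * (54 * (12 / a + 1) ^ 3 + K * b ^ 4), by positivity, ?_⟩
  intro x hx hx1 k m q hm hq hq1 e he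
  obtain ⟨η₀, hη₀, hfirst⟩ := gap5_first hb (δ := x ^ 2) (by positivity)
  set η := min (x ^ 4) (min (e / b ^ 2) (2 * η₀ / (K + 1))) with hη
  have hη0 : 0 < η := lt_min (by positivity) (lt_min (by positivity) (by positivity))
  have hηx4 : η ≤ x ^ 4 := min_le_left _ _
  have hx4 : x ^ 4 ≤ x := pow_le_of_le_one hx.le hx1 (by norm_num)
  have hηx : η ≤ x := hηx4.trans hx4
  have hηe : η * b ^ 2 ≤ e := by
    have := (min_le_right (x ^ 4) (min (e / b ^ 2) (2 * η₀ / (K + 1)))).trans (min_le_left _ _)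
    rw [← hη, le_div_iff₀ (by positivity)] at this
    exact this
  have hKη : K * η ≤ 2 * η₀ := by
    have := (min_le_right (x ^ 4) (min (e / b ^ 2) (2 * η₀ / (K + 1)))).trans (min_le_right _ _)
    rw [← hη, le_div_iff₀ (by positivity)] at this
    linarith
  obtain ⟨k₁, m₁, q₁, hm₁, hmesh, hq₁, hq₁1, heq⟩ := refine_exp (b := b) hm hq hq1 hη0
  obtain ⟨r, hr, hrle⟩ := zero_start hb hm₁ hq₁ hq₁1
  have hm11 : m₁ 1 ≤ η := by
    have h1 := hmesh 0 (by omega)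
    rw [hm₁.1] at h1
    simpa using h1
  have hP : MinbP b k₁ (minbExt b k₁ r) := minb_ext_P hr
  obtain ⟨k', m', R', h1, h2, h3, h4⟩ := gap5_iter hb1 hK ha hx htilt hM1 (hfirst K hK htilt)
    hx hx1 hη0 hKη k₁ m₁ hm₁ (fun l _ h => hmesh l h) (by linarith) _ hP
  refine ⟨k', m', R', h1, h2, h3.bpath, ?_⟩
  rw [minb_SKr_eq h1 h3]
  have h5 : SKr b k₁ m₁ r = SKr b k₁ m₁ (minbExt b k₁ r) :=
    minb_SKr_congr fun l hl => by simp [minbExt, hl]
  rw [h5, minb_SKr_eq hm₁ hP, heq] at hrle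
  have hm1pos : 0 < m₁ 1 := by
    have := hm₁.2.2 0 (by omega)
    rwa [hm₁.1] at this
  have h6 : m₁ 1 * b ^ 2 ≤ e :=
    (mul_le_mul_of_nonneg_right hm11 (by positivity)).trans hηe
  have h7 : ((x + η) * ((12 / a + 1) * (x + η + x)) ^ 3 + K * b ^ 4 * η) * (x + η - m₁ 1) ≤
      2 * (54 * (12 / a + 1) ^ 3 + K * b ^ 4) * x ^ 5 := by
    have a0 : (x + η) * ((12 / a + 1) * (x + η + x)) ^ 3 ≤ (2 * x) * ((12 / a + 1) * (3 * x)) ^ 3 := by
      refine mul_le_mul (by linarith only [hηx]) ?_ (by (clear * - ha hx he hb1 hη₀ hK; positivity)) (by positivity)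
      refine pow_le_pow_left₀ (by positivity) ?_ 3
      exact mul_le_mul_of_nonneg_left (by linarith only [hηx]) (by positivity)
    have a1 : K * b ^ 4 * η ≤ K * b ^ 4 * x ^ 4 := mul_le_mul_of_nonneg_left hηx4 (by positivity)
    have a2 : (x + η) * ((12 / a + 1) * (x + η + x)) ^ 3 + K * b ^ 4 * η ≤
        (54 * (12 / a + 1) ^ 3 + K * b ^ 4) * x ^ 4 := by
      have : (2 * x) * ((12 / a + 1) * (3 * x)) ^ 3 = 54 * (12 / a + 1) ^ 3 * x ^ 4 := by ring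
      rw [this] at a0
      linarith only [a1, a0]
    calc _ ≤ ((54 * (12 / a + 1) ^ 3 + K * b ^ 4) * x ^ 4) * (2 * x) :=
          mul_le_mul a2 (by linarith only [hm1pos, hηx]) (by linarith only [hm1pos, hm11, hηx]) (by positivity)
      _ = _ := by ring
  linarith only [h7, h6, h4, hrle]

/-- The same statement for the functional of the overlaps. -/
theorem exp_ge5_par {b : ℝ} (hb1 : 1 ≤ b) : ∃ C : ℝ, 0 ≤ C ∧ ∀ x : ℝ, 0 < x → x ≤ 1 →
    ∀ (k : ℕ) (m q : ℕ → ℝ), Exponents k m → Path k q → q k ≤ 1 → ∀ e > 0,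
      ∃ (k' : ℕ) (m' q' : ℕ → ℝ), Exponents k' m' ∧ x ≤ m' 1 ∧ Path k' q' ∧ q' 0 = 0 ∧
        q' k' ≤ 1 ∧ SKpar b k' m' q' ≤ SKpar b k m q + C * x ^ 5 + e := by
  have hb : 0 < b := by linarith
  obtain ⟨C, hC, h⟩ := exp_ge5 hb1
  refine ⟨C, hC, fun x hx hx1 k m q hm hq hq1 e he => ?_⟩
  obtain ⟨k', m', r', h1, h2, ⟨h3, h4, h5⟩, h6⟩ := h x hx hx1 k m q hm hq hq1 e he
  refine ⟨k', m', fun l => r' l / b ^ 2, h1, h2, ⟨?_, fun l hl => ?_⟩, ?_, ?_, ?_⟩
  · exact div_nonneg h4.1 (by positivity)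
  · exact div_le_div_of_nonneg_right (h4.2 l hl) (by positivity)
  · simp only [h3, zero_div]
  · simp only []
    rw [div_le_one (by positivity)]; exact h5
  · rw [gap2_SKr_eq hb]; exact h6

end Vale.Agent.P146.Pw2
end

section

/-!
# P146 / Sx: the upper tail of the SK free energy at low temperature

With `p` the limit of `E F_n / n`: `E exp (x (F_n - n p)) ≤ exp (C n x⁶)` for `0 < x ≤ 1`, hence
`P(F_n ≥ n (p + s)) ≤ exp (-a n s^(6/5))` for `0 ≤ s ≤ 1`, and the variance is at most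
`C n^(44/45) (1 + log n)`.
-/

open MeasureTheory ProbabilityTheory Filter Topology

namespace Vale.Agent.P146.Sx

open Vale.Agent.P157.Par (Path Exponents)
open Vale.Agent.P146.Gap (SKpar)
open Vale.Agent.P146.Sk (PSK)
open Vale.Agent.P146.Ub

/-- The exponential moment is at most the Parisi value, up to `C x⁵`. -/
theorem fin_moment5 {β : ℝ} (hβ : 1 ≤ β) : ∃ C : ℝ, 0 ≤ C ∧ ∀ (n : ℕ), 1 ≤ n → ∀ x : ℝ, 0 < x →
    x ≤ 1 → ∀ (K : ℕ) (m q : ℕ → ℝ), Exponents K m → Path K q → q K ≤ 1 →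
      Real.log (∫ g, Real.exp (x * freeEnergy n β g) ∂(disorder n)) / (x * n) -
        Real.log 2 - C * x ^ 5 ≤ PSK β K m q := by
  obtain ⟨C, hC, h⟩ := Pw2.exp_ge5_par hβ
  refine ⟨C, hC, fun n hn x hx hx1 K m q hm hq hq1 => ?_⟩
  have hn0 : (0 : ℝ) < n := by exact_mod_cast hn
  refine le_of_forall_pos_le_add fun e he => ?_
  obtain ⟨K', m', q', hm', hxm, hq', hq'0, hq'1, hc⟩ := h x hx hx1 K m q hm hq hq1 e he
  have hG := guerra (by linarith : 0 < β) hn hm' hq' hq'0 hq'1 hx hxm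
  have h1 : Real.log (∫ g, Real.exp (x * freeEnergy n β g) ∂(disorder n)) / (x * n) ≤
      Real.log 2 + SKpar β K' m' q' := by
    rw [div_le_iff₀ (by positivity)]
    linarith
  rw [fin_PSK]
  linarith only [h1, hc]

/-- The values of the Parisi functional. -/
def vals (β : ℝ) : Set ℝ :=
  {y | ∃ (K : ℕ) (m q : ℕ → ℝ), Exponents K m ∧ Path K q ∧ q K ≤ 1 ∧ y = PSK β K m q}

/-- The Parisi value. -/
noncomputable def pv (β : ℝ) : ℝ := Real.log 2 + sInf (vals β)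

theorem vals_nonempty (β : ℝ) : (vals β).Nonempty := by
  refine ⟨_, 0, fun l => if l = 0 then 0 else 1, fun _ => 0, ⟨if_pos rfl, ?_, ?_⟩,
    ⟨le_rfl, fun _ _ => le_rfl⟩, zero_le_one, rfl⟩
  · simp
  · intro l hl
    have : l = 0 := by omega
    subst this
    simp

theorem integrable_exp (n : ℕ) (β x : ℝ) :
    Integrable (fun g => Real.exp (x * freeEnergy n β g)) (disorder n) :=
  ((Cv.lin_freeEnergy n β).const_mul x).dom_exp.integrable

instance (n : ℕ) : IsProbabilityMeasure (disorder n) := by unfold disorder; infer_instance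

/-- The facts on the Parisi value. -/
theorem moment {β : ℝ} (hβ : 1 ≤ β) : ∃ C : ℝ, 1 ≤ C ∧
    (∀ n : ℕ, 1 ≤ n → ∀ x : ℝ, 0 < x → x ≤ 1 →
      Real.log (∫ g, Real.exp (x * freeEnergy n β g) ∂(disorder n)) ≤
        x * (n * pv β) + C * n * x ^ 6) ∧
    (∀ n : ℕ, 1 ≤ n → ∫ g, freeEnergy n β g ∂(disorder n) ≤ n * pv β) ∧
    (∀ n : ℕ, 1 ≤ n → n * pv β ≤ ∫ g, freeEnergy n β g ∂(disorder n) +
      C * (n : ℝ) ^ (35 / 36 : ℝ)) := by
  obtain ⟨C₁, hC₁, h1⟩ := fin_moment5 hβ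
  obtain ⟨C₂, hC₂, h2⟩ := rate_lower' (by linarith : 0 < β)
  have hbdd : BddBelow (vals β) := by
    refine ⟨Real.log (∫ g, Real.exp (1 * freeEnergy 1 β g) ∂(disorder 1)) / (1 * ((1 : ℕ) : ℝ)) -
        Real.log 2 - C₁ * 1 ^ 5, ?_⟩
    rintro y ⟨K, m, q, hm, hq, hq1, rfl⟩
    exact h1 1 le_rfl 1 one_pos le_rfl K m q hm hq hq1
  have hmom : ∀ n : ℕ, 1 ≤ n → ∀ x : ℝ, 0 < x → x ≤ 1 →
      Real.log (∫ g, Real.exp (x * freeEnergy n β g) ∂(disorder n)) ≤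
        x * (n * pv β) + C₁ * n * x ^ 6 := by
    intro n hn x hx hx1
    have hn0 : (0 : ℝ) < n := by exact_mod_cast hn
    have h3 : Real.log (∫ g, Real.exp (x * freeEnergy n β g) ∂(disorder n)) / (x * n) -
        Real.log 2 - C₁ * x ^ 5 ≤ sInf (vals β) := by
      refine le_csInf (vals_nonempty β) ?_
      rintro y ⟨K, m, q, hm, hq, hq1, rfl⟩
      exact h1 n hn x hx hx1 K m q hm hq hq1
    have h4 : Real.log (∫ g, Real.exp (x * freeEnergy n β g) ∂(disorder n)) / (x * n) ≤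
        pv β + C₁ * x ^ 5 := by
      unfold pv; linarith only [h3]
    rw [div_le_iff₀ (by positivity)] at h4
    refine h4.trans (le_of_eq ?_)
    ring
  refine ⟨max 1 (max C₁ C₂), le_max_left _ _, ?_, ?_, ?_⟩
  · intro n hn x hx hx1
    refine (hmom n hn x hx hx1).trans ?_
    have hn0 : (0 : ℝ) < n := by exact_mod_cast hn
    have : C₁ * n * x ^ 6 ≤ max 1 (max C₁ C₂) * n * x ^ 6 := by
      gcongr
      exact (le_max_left _ _).trans (le_max_right _ _)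
    linarith
  · intro n hn
    have hn0 : (0 : ℝ) < n := by exact_mod_cast hn
    -- Jensen
    have hJ : ∀ x : ℝ, 0 < x → x ≤ 1 → ∫ g, freeEnergy n β g ∂(disorder n) ≤
        n * pv β + C₁ * n * x ^ 5 := by
      intro x hx hx1
      have hI := integrable_exp n β x
      have hF : Integrable (fun g => x * freeEnergy n β g) (disorder n) :=
        ((Cv.lin_freeEnergy n β).const_mul x).dom.integrable
      have j1 := Cv.exp_integral_le hF hI
      have j2 : x * ∫ g, freeEnergy n β g ∂(disorder n) ≤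
          Real.log (∫ g, Real.exp (x * freeEnergy n β g) ∂(disorder n)) := by
        rw [integral_const_mul] at j1
        rw [Real.le_log_iff_exp_le (lt_of_lt_of_le (Real.exp_pos _) j1)]
        exact j1
      have j3 := j2.trans (hmom n hn x hx hx1)
      have j4 : x * ∫ g, freeEnergy n β g ∂(disorder n) ≤ x * (n * pv β + C₁ * n * x ^ 5) := by
        refine j3.trans (le_of_eq ?_)
        ring
      exact le_of_mul_le_mul_left j4 hx
    refine le_of_forall_pos_le_add fun e he => ?_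
    set x := min 1 (e / (C₁ * n + 1)) with hx
    have hx0 : 0 < x := lt_min one_pos (by positivity)
    have hx1 : x ≤ 1 := min_le_left _ _
    refine (hJ x hx0 hx1).trans ?_
    have k1 : x ^ 5 ≤ x := pow_le_of_le_one hx0.le hx1 (by norm_num)
    have k2 : x * (C₁ * n + 1) ≤ e := by
      have := min_le_right 1 (e / (C₁ * n + 1))
      rw [← hx, le_div_iff₀ (by positivity)] at this
      exact this
    have k3 : C₁ * n * x ^ 5 ≤ C₁ * n * x := mul_le_mul_of_nonneg_left k1 (by positivity)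
    linarith only [k3, k2, hx0]
  · intro n hn
    have h3 := h2 (sInf (vals β)) (fun K m q hm hq hq1 =>
      csInf_le hbdd ⟨K, m, q, hm, hq, hq1, rfl⟩) n (by omega)
    have e : (1 - 1 / 36 : ℝ) = 35 / 36 := by norm_num
    rw [e] at h3
    refine h3.trans ?_
    have h4 : 0 ≤ (n : ℝ) ^ (35 / 36 : ℝ) := by positivity
    have h5 : C₂ * (n : ℝ) ^ (35 / 36 : ℝ) ≤ max 1 (max C₁ C₂) * (n : ℝ) ^ (35 / 36 : ℝ) :=
      mul_le_mul_of_nonneg_right ((le_max_right _ _).trans (le_max_right _ _)) h4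
    linarith only [h5]

/-- The limit of the free energy per spin. -/
theorem tendsto_of {p C : ℝ} {a : ℕ → ℝ} (h1 : ∀ n : ℕ, 1 ≤ n → a n ≤ n * p)
    (h2 : ∀ n : ℕ, 1 ≤ n → n * p ≤ a n + C * (n : ℝ) ^ (35 / 36 : ℝ)) :
    Tendsto (fun n : ℕ => a n / n) atTop (𝓝 p) := by
  have h3 : Tendsto (fun n : ℕ => p - C * (n : ℝ) ^ (-(1 / 36) : ℝ)) atTop (𝓝 p) := by
    have e : Tendsto (fun n : ℕ => (n : ℝ) ^ (-(1 / 36) : ℝ)) atTop (𝓝 0) :=
      (tendsto_rpow_neg_atTop (by norm_num)).comp tendsto_natCast_atTop_atTop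
    have := (e.const_mul C).const_sub p
    simpa using this
  refine tendsto_of_tendsto_of_tendsto_of_le_of_le' h3 tendsto_const_nhds ?_ ?_
  · filter_upwards [eventually_ge_atTop 1] with n hn
    have hn0 : (0 : ℝ) < n := by exact_mod_cast hn
    have h4 := h2 n hn
    rw [le_div_iff₀ hn0]
    have e : (n : ℝ) ^ (-(1 / 36) : ℝ) * n = (n : ℝ) ^ (35 / 36 : ℝ) := by
      nth_rewrite 2 [← Real.rpow_one (n : ℝ)]
      rw [← Real.rpow_add hn0]
      norm_num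
    have e2 : (p - C * (n : ℝ) ^ (-(1 / 36) : ℝ)) * n =
        n * p - C * ((n : ℝ) ^ (-(1 / 36) : ℝ) * n) := by ring
    rw [e2, e]
    linarith only [h4]
  · filter_upwards [eventually_ge_atTop 1] with n hn
    have hn0 : (0 : ℝ) < n := by exact_mod_cast hn
    rw [div_le_iff₀ hn0]
    linarith [h1 n hn]

/-- Chernoff's bound. -/
theorem chernoff {n : ℕ} {β x v B : ℝ} (hx : 0 ≤ x)
    (h : Real.log (∫ g, Real.exp (x * freeEnergy n β g) ∂(disorder n)) ≤ B) :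
    (disorder n).real {g | v ≤ freeEnergy n β g} ≤ Real.exp (B - x * v) := by
  have h1 := measure_ge_le_exp_mul_mgf (μ := disorder n) (X := freeEnergy n β) v hx
    (integrable_exp n β x)
  have hpos : 0 < mgf (freeEnergy n β) (disorder n) x := mgf_pos (integrable_exp n β x)
  have h2 : mgf (freeEnergy n β) (disorder n) x ≤ Real.exp B := by
    rw [← Real.log_le_iff_le_exp hpos]
    exact h
  calc _ ≤ Real.exp (-x * v) * mgf (freeEnergy n β) (disorder n) x := h1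
    _ ≤ Real.exp (-x * v) * Real.exp B := mul_le_mul_of_nonneg_left h2 (Real.exp_pos _).le
    _ = Real.exp (B - x * v) := by rw [← Real.exp_add]; congr 1; ring

/-- The tail at the scale `n^(1/6)`. -/
theorem tail_one {n : ℕ} (hn : 1 ≤ n) {β p C t : ℝ}
    (h : ∀ x : ℝ, 0 < x → x ≤ 1 →
      Real.log (∫ g, Real.exp (x * freeEnergy n β g) ∂(disorder n)) ≤
        x * (n * p) + C * n * x ^ 6) :
    (disorder n).real {g | n * p + t * (n : ℝ) ^ (1 / 6 : ℝ) ≤ freeEnergy n β g} ≤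
      Real.exp (C - t) := by
  have hn1 : (1 : ℝ) ≤ n := by exact_mod_cast hn
  have hn0 : (0 : ℝ) < n := by linarith
  set y : ℝ := (n : ℝ) ^ (1 / 6 : ℝ) with hy
  have hy1 : 1 ≤ y := Real.one_le_rpow hn1 (by norm_num)
  have hy0 : 0 < y := by linarith
  have hy6 : y ^ 6 = n := by
    rw [hy, ← Real.rpow_natCast, ← Real.rpow_mul hn0.le]
    norm_num
  have h1 := h (1 / y) (by positivity) (by rw [div_le_one hy0]; exact hy1)
  refine (chernoff (x := 1 / y) (by positivity) h1).trans (Real.exp_le_exp.2 (le_of_eq ?_))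
  have e1 : C * n * (1 / y) ^ 6 = C := by
    rw [← hy6]; field_simp
  have e2 : 1 / y * (t * y) = t := by field_simp
  rw [mul_add, e2, e1]
  ring

/-- The large deviations, exponent `6/5`. -/
theorem tail_dev {C : ℝ} (hC : 1 ≤ C) : ∃ a : ℝ, 0 < a ∧ ∀ (n : ℕ) (β p s : ℝ), 1 ≤ n →
    (∀ x : ℝ, 0 < x → x ≤ 1 →
      Real.log (∫ g, Real.exp (x * freeEnergy n β g) ∂(disorder n)) ≤
        x * (n * p) + C * n * x ^ 6) → 0 ≤ s → s ≤ 1 →
    (disorder n).real {g | n * (p + s) ≤ freeEnergy n β g} ≤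
      Real.exp (-(a * n * s ^ (6 / 5 : ℝ))) := by
  set κ : ℝ := 1 / (2 * C) with hκ
  have hκ0 : 0 < κ := by positivity
  have hκ1 : κ ≤ 1 := by rw [hκ, div_le_one (by positivity)]; linarith
  have hκC : C * κ ^ 5 ≤ 1 / 2 := by
    have e1 : κ ^ 5 ≤ κ := pow_le_of_le_one hκ0.le hκ1 (by norm_num)
    have e2 : C * κ = 1 / 2 := by rw [hκ]; field_simp
    have := mul_le_mul_of_nonneg_left e1 (by linarith : 0 ≤ C)
    linarith
  refine ⟨κ / 2, by positivity, ?_⟩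
  intro n β p s hn h hs hs1
  have hn0 : (0 : ℝ) < n := by exact_mod_cast hn
  rcases hs.eq_or_lt with rfl | hs0
  · rw [Real.zero_rpow (by norm_num), mul_zero, neg_zero, Real.exp_zero]
    exact measureReal_le_one
  set y : ℝ := s ^ (1 / 5 : ℝ) with hy
  have hy0 : 0 < y := Real.rpow_pos_of_pos hs0 _
  have hy1 : y ≤ 1 := Real.rpow_le_one hs hs1 (by norm_num)
  have hy5 : y ^ 5 = s := by
    rw [hy, ← Real.rpow_natCast, ← Real.rpow_mul hs]
    norm_num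
  have hy6 : s ^ (6 / 5 : ℝ) = y ^ 6 := by
    rw [hy, ← Real.rpow_natCast, ← Real.rpow_mul hs]
    norm_num
  have h1 := h (κ * y) (by positivity) (by (by_contra nlg; linarith only [nlg, mul_nonneg (sub_nonneg.2 hy1) (sub_nonneg.2 hy1), mul_nonneg (le_of_lt (sub_pos.2 hy0)) (sub_nonneg.2 hy1), mul_nonneg (sub_nonneg.2 hκ1) (le_of_lt (sub_pos.2 hy0)), mul_nonneg (le_of_lt (sub_pos.2 (not_le.1 nlg))) (sub_nonneg.2 hy1), mul_pos (sub_pos.2 (not_le.1 nlg)) (sub_pos.2 hy0)]))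
  refine (chernoff (x := κ * y) (by positivity) h1).trans (Real.exp_le_exp.2 ?_)
  rw [hy6]
  have e1 : κ * y * (n * p) + C * n * (κ * y) ^ 6 - κ * y * (n * (p + s)) =
      (n * κ * y ^ 6) * (C * κ ^ 5) - n * κ * y * s := by ring
  have e2 : n * κ * y * s = n * κ * y ^ 6 := by rw [← hy5]; ring
  rw [e1, e2]
  have e3 : (n * κ * y ^ 6) * (C * κ ^ 5) ≤ (n * κ * y ^ 6) * (1 / 2) :=
    mul_le_mul_of_nonneg_left hκC (by positivity)
  linarith only [e3]

/-- The bound of the variance. -/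
theorem var_upper5 {β : ℝ} (hβ : 1 ≤ β) : ∃ C : ℝ, ∀ n : ℕ, 1 ≤ n →
    Var[freeEnergy n β; disorder n] ≤ C * (n : ℝ) ^ (44 / 45 : ℝ) * (1 + Real.log n) := by
  obtain ⟨C, hC, hmom, -, hlow⟩ := moment hβ
  refine ⟨4 * C + β ^ 2, fun n hn => ?_⟩
  have hn1 : (1 : ℝ) ≤ n := by exact_mod_cast hn
  have hn0 : (0 : ℝ) < n := by linarith
  set y : ℝ := (n : ℝ) ^ (1 / 180 : ℝ) with hy
  have hy1 : 1 ≤ y := Real.one_le_rpow hn1 (by norm_num)
  have hy0 : 0 < y := by linarith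
  set Y : ℝ := (n : ℝ) ^ (44 / 45 : ℝ) with hY
  have hY1 : 1 ≤ Y := Real.one_le_rpow hn1 (by norm_num)
  have hYy : Y * y ^ 4 = n := by
    rw [hY, hy, ← Real.rpow_natCast, ← Real.rpow_mul hn0.le, ← Real.rpow_add hn0]
    norm_num
  have hy2 : (n : ℝ) ^ (35 / 36 : ℝ) = Y / y := by
    rw [hY, hy, ← Real.rpow_sub hn0]
    norm_num
  set x : ℝ := 1 / y with hx
  have hx0 : 0 < x := by positivity
  have hx1 : x ≤ 1 := by rw [hx, div_le_one hy0]; exact hy1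
  have hexp : ∫ g, Real.exp (x * freeEnergy n β g) ∂(disorder n) ≤
      Real.exp (x * (∫ g, freeEnergy n β g ∂(disorder n)) + x ^ 2 * (4 * C * Y) / 2) := by
    rcases le_or_gt (∫ g, Real.exp (x * freeEnergy n β g) ∂(disorder n)) 0 with h0 | h0
    · exact h0.trans (Real.exp_pos _).le
    rw [← Real.log_le_iff_le_exp h0]
    refine (hmom n hn x hx0 hx1).trans ?_
    have h1 := mul_le_mul_of_nonneg_left (hlow n hn) hx0.le
    have h2 : x * (C * (n : ℝ) ^ (35 / 36 : ℝ)) = x ^ 2 * (C * Y) := by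
      rw [hy2, hx]; field_simp
    have h3 : C * n * x ^ 6 = x ^ 2 * (C * Y) := by
      rw [← hYy, hx]; field_simp
    rw [mul_add, h2] at h1
    rw [h3]
    linarith only [h1]
  have hV := (Cv.var_freeEnergy_le n β hx0 hexp (u := 1 / n) (by positivity)
    (by rw [div_le_one hn0]; exact hn1)).2
  refine hV.trans ?_
  have h1 : β ^ 2 * n / 2 * (1 / n) = β ^ 2 / 2 := by field_simp
  have h2 : -Real.log (1 / (n : ℝ)) = Real.log n := by rw [one_div, Real.log_inv, neg_neg]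
  have hl0 : 0 ≤ Real.log n := Real.log_nonneg hn1
  rw [h1, h2]
  have hb : 0 ≤ β ^ 2 := sq_nonneg β
  have h3 : β ^ 2 ≤ β ^ 2 * Y := by (by_contra nlg; linarith only [nlg, mul_nonneg (sub_nonneg.2 hY1) (sub_nonneg.2 hb), mul_nonneg (le_of_lt (sub_pos.2 (not_le.1 nlg))) (sub_nonneg.2 hx1), mul_pos (sub_pos.2 (not_le.1 nlg)) (sub_pos.2 hx0)])
  have h4 : 0 ≤ 4 * C * Y := by positivity
  have h5 : 0 ≤ β ^ 2 * Y * Real.log n := by positivity
  linarith only [h5, h4, h3, hb]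

end Vale.Agent.P146.Sx
end
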