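import Vale.Agent.P146.Bdl.B7

set_option linter.all false

section

open MeasureTheory ProbabilityTheory Filter Topology Finset

namespace Vale.Agent.P157.Par

set_option linter.unusedSectionVars false

open Vale.Agent.P367.GT (gM)

/-! ### Exponents -/

section Exponents

variable {k : ℕ} {w : Fin (k + 1) → ℝ}

lemma mOf_zero : mOf w 0 = 0 := by simp [mOf]

lemma mOf_top : mOf w (k + 1) = ∑ l, w l := by
  unfold mOf
  exact Finset.sum_congr rfl fun l _ => by rw [if_pos l.2]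

lemma mOf_succ {l : ℕ} (hl : l < k + 1) : mOf w (l + 1) - mOf w l = w ⟨l, hl⟩ := by
  unfold mOf
  rw [← Finset.sum_sub_distrib, Finset.sum_eq_single (⟨l, hl⟩ : Fin (k + 1))]
  · simp
  · intro b _ hb
    have : (b : ℕ) ≠ l := fun h => hb (Fin.ext h)
    by_cases h : (b : ℕ) < l
    · rw [if_pos (by omega), if_pos h, sub_self]
    · rw [if_neg (by omega), if_neg h, sub_self]
  · intro h
    exact absurd (Finset.mem_univ _) h

lemma up_eq_mOf (hw : ∑ l, w l = 1) (l : Fin (k + 1)) : Arr.up w l = 1 - mOf w l := by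
  unfold Arr.up mOf
  rw [← hw, eq_sub_iff_add_eq, ← Finset.sum_add_distrib]
  refine Finset.sum_congr rfl fun l' _ => ?_
  by_cases h : l ≤ l'
  · rw [if_pos h, if_neg (by rw [not_lt]; exact h), add_zero]
  · rw [if_neg h, if_pos (by rw [← not_le]; exact h), zero_add]

lemma exponents_mOf (hw0 : ∀ l, 0 < w l) (hw : ∑ l, w l = 1) : Exponents k (mOf w) := by
  refine ⟨mOf_zero, by rw [mOf_top, hw], fun l hl => ?_⟩
  have h := mOf_succ (w := w) (l := l) (by omega)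
  have := hw0 ⟨l, by omega⟩
  linarith

lemma mOf_pos (hw0 : ∀ l, 0 < w l) {l : ℕ} (h1 : 1 ≤ l) : 0 < mOf w l := by
  unfold mOf
  refine Finset.sum_pos' (fun l' _ => ?_) ⟨0, Finset.mem_univ _, ?_⟩
  · split_ifs
    · exact (hw0 l').le
    · exact le_rfl
  · rw [if_pos (by simp only [Fin.val_zero]; omega)]
    exact hw0 0

lemma mOf_le_one (hw0 : ∀ l, 0 < w l) (hw : ∑ l, w l = 1) (l : ℕ) : mOf w l ≤ 1 := by
  rw [← hw]
  unfold mOf
  refine Finset.sum_le_sum fun l' _ => ?_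
  split_ifs
  · exact le_rfl
  · exact (hw0 l').le

end Exponents

/-! ### Increments -/

lemma path_mono {k : ℕ} {q : ℕ → ℝ} (hq : ∀ l < k, q l ≤ q (l + 1)) :
    ∀ a b, a ≤ b → b ≤ k → q a ≤ q b := by
  intro a b hab hb
  induction b, hab using Nat.le_induction with
  | base => exact le_rfl
  | succ b hab ih => exact (ih (by omega)).trans (hq b (by omega))

/-- The path stopped at the level `k`. -/
def stop (k : ℕ) (q : ℕ → ℝ) (l : ℕ) : ℝ := q (min l k)

lemma stop_le {k : ℕ} {q : ℕ → ℝ} {l : ℕ} (hl : l ≤ k) : stop k q l = q l := by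
  unfold stop
  rw [min_eq_left hl]

lemma incr_stop_nonneg {k : ℕ} {q : ℕ → ℝ} (hq : Path k q) (l : ℕ) : 0 ≤ incr (stop k q) l := by
  cases l with
  | zero => simpa [incr_zero_def, stop] using hq.1
  | succ l =>
    simp only [incr_succ_def, sub_nonneg, stop]
    exact path_mono hq.2 _ _ (by omega) (by omega)

lemma incr_stop {k : ℕ} {q : ℕ → ℝ} {l : ℕ} (hl : l ≤ k) : incr (stop k q) l = incr q l := by
  cases l with
  | zero => simp [incr_zero_def, stop]
  | succ l => simp only [incr_succ_def, stop_le hl, stop_le (show l ≤ k by omega)]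

lemma sum_incr (q : ℕ → ℝ) (l : ℕ) : ∑ i ∈ Finset.range (l + 1), incr q i = q l := by
  induction l with
  | zero => simp [incr_zero_def]
  | succ l ih => rw [Finset.sum_range_succ, ih]; simp [incr_succ_def]

lemma cumul_cut {k : ℕ} (v : ℕ → ℝ) (l : Fin (k + 1)) :
    cumul (cut v k) l = ∑ i ∈ Finset.range ((l : ℕ) + 1), v i := by
  unfold cumul cut
  rw [← Finset.sum_filter, Finset.sum_congr rfl (g := fun l' : Fin (k + 1) => v l') (fun l' _ => by
    rw [if_pos (by omega)])]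
  refine Finset.sum_bij (fun (a : Fin (k + 1)) _ => (a : ℕ)) (fun a ha => ?_) (fun a _ b _ h => ?_)
    (fun b hb => ?_) (fun a _ => rfl)
  · simp only [Finset.mem_filter, Finset.mem_univ, true_and] at ha
    rw [Finset.mem_range]
    have : (a : ℕ) ≤ l := ha
    omega
  · exact Fin.ext h
  · rw [Finset.mem_range] at hb
    refine ⟨⟨b, by omega⟩, ?_, rfl⟩
    simp only [Finset.mem_filter, Finset.mem_univ, true_and]
    exact Fin.le_iff_val_le_val.2 (by simpa using Nat.lt_succ_iff.1 hb)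

lemma cumul_incr {k : ℕ} {q : ℕ → ℝ} (l : Fin (k + 1)) :
    cumul (cut (incr (stop k q)) k) l = q l := by
  rw [cumul_cut, sum_incr, stop_le (by omega)]

lemma cut_congr {k : ℕ} {v v' : ℕ → ℝ} (h : ∀ l ≤ k, v l = v' l) :
    (cut v k : Fin (k + 1) → ℝ) = cut v' k := by
  funext i
  unfold cut
  split_ifs
  · exact h _ (by omega)
  · rfl

/-! ### Levels of a small mesh -/

/-- Levels on which the overlap is almost constant. -/
theorem exists_mesh {U : Ultrafilter ℕ} {S : ℕ → Sys}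
    (hGG : ∀ p : ℕ, AsympGG U S (fun x => x ^ p)) {ε : ℝ} (hε : 0 < ε) :
    ∃ (k : ℕ) (b : Fin k → ℝ) (w : Fin (k + 1) → ℝ) (q : ℕ → ℝ), LimData U S b w ∧
      Path k q ∧ q k ≤ 1 ∧ ∀ᶠ j in (U : Filter ℕ), (S j).tav (n := 2) (fun _ x =>
        |(S j).R (x 0) (x 1) - q (lev b ((S j).R (x 0) (x 1)))|) ≤ ε := by
  obtain ⟨k, b, q, w, h1, h2, h3, h4, h5, h6, h7, h8, h9, h10, h11⟩ :=
    exists_levels hGG (ε := ε / 2) (by positivity)
  have hqn : ∀ l : Fin (k + 1), q ⟨min (l : ℕ) k, by omega⟩ = q l := fun l => by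
    congr 1
    ext
    simp only
    omega
  refine ⟨k, b, w, fun l => q ⟨min l k, by omega⟩, ⟨hGG, h1, h2, h3, h4, h10, h8, h9⟩,
    ⟨h6 _, fun l hl => ?_⟩, h7 _, ?_⟩
  · apply h5
    rw [Fin.le_iff_val_le_val]
    simp only
    omega
  · filter_upwards [(tendsto_order.1 h11).2 (ε / 4) (by positivity)] with j hj
    simp only [hqn]
    have hR : ∀ x y, |(S j).R x y| ≤ 1 := fun x y => by
      have := Sys.R_mem (S := S j) x y
      rw [abs_le]; exact this
    have hb : ∀ x : Fin 2 → (S j).X,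
        |(S j).R (x 0) (x 1) - q (lev b ((S j).R (x 0) (x 1)))| ≤ 2 := by
      intro x
      have := abs_sub ((S j).R (x 0) (x 1)) (q (lev b ((S j).R (x 0) (x 1))))
      have h12 := hR (x 0) (x 1)
      have h13 : |q (lev b ((S j).R (x 0) (x 1)))| ≤ 1 := by
        rw [abs_of_nonneg (h6 _)]; exact h7 _
      linarith
    have hle : ∀ x : Fin 2 → (S j).X, |(S j).R (x 0) (x 1) - q (lev b ((S j).R (x 0) (x 1)))| ≤
        ε / 2 + 2 * (if ε / 2 < |(S j).R (x 0) (x 1) - q (lev b ((S j).R (x 0) (x 1)))| then 1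
          else 0) := by
      intro x
      by_cases h : ε / 2 < |(S j).R (x 0) (x 1) - q (lev b ((S j).R (x 0) (x 1)))|
      · rw [if_pos h]
        linarith only [hb x, hε]
      · rw [if_neg h]
        linarith [not_lt.1 h]
    have hB1 : Sys.Bdd (S j) (n := 2) (fun _ x =>
        |(S j).R (x 0) (x 1) - q (lev b ((S j).R (x 0) (x 1)))|) 2 :=
      ⟨fun x => measurable_const, fun t x => by rw [abs_abs]; exact hb x⟩
    have hB2 : Sys.Bdd (S j) (n := 2) (fun _ x => 2 *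
        (if ε / 2 < |(S j).R (x 0) (x 1) - q (lev b ((S j).R (x 0) (x 1)))| then (1 : ℝ)
          else 0)) 2 :=
      ⟨fun x => measurable_const, fun t x => by split_ifs <;> norm_num⟩
    have hB3 : Sys.Bdd (S j) (n := 2) (fun _ _ => ε / 2) (ε / 2) :=
      ⟨fun x => measurable_const, fun t x => by rw [abs_of_pos (by positivity)]⟩
    have hB4 : Sys.Bdd (S j) (n := 2) (fun _ x => ε / 2 + 2 *
        (if ε / 2 < |(S j).R (x 0) (x 1) - q (lev b ((S j).R (x 0) (x 1)))| then (1 : ℝ)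
          else 0)) (ε / 2 + 2) :=
      ⟨fun x => measurable_const, fun t x =>
        (abs_add_le _ _).trans (add_le_add (hB3.bdd t x) (hB2.bdd t x))⟩
    have h12 := Sys.tav_mono hB1 hB4 (fun t x => hle x)
    rw [Sys.tav_add hB3 hB2, Sys.tav_const, Sys.tav_smul] at h12
    have h13 : (S j).pr (fun x : Fin 2 → (S j).X =>
        ε / 2 < |(S j).R (x 0) (x 1) - q (lev b ((S j).R (x 0) (x 1)))|) =
      (S j).tav (n := 2) (fun _ x =>
        (if ε / 2 < |(S j).R (x 0) (x 1) - q (lev b ((S j).R (x 0) (x 1)))| then (1 : ℝ)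
          else 0)) := by
      unfold Sys.pr
      congr 1
    rw [h13] at hj
    linarith only [h12, hj]

/-- The kernel of the configurations. -/
lemma kerClose_phi {U : Ultrafilter ℕ} {S : ℕ → Sys} {k : ℕ} {b : Fin k → ℝ} {q : ℕ → ℝ}
    {ε : ℝ} (hε : 0 ≤ ε)
    (h : ∀ᶠ j in (U : Filter ℕ), (S j).tav (n := 2) (fun _ x =>
        |(S j).R (x 0) (x 1) - q (lev b ((S j).R (x 0) (x 1)))|) ≤ ε) :
    KerClose U S b (cut (incr (stop k q)) k) (1 - q k) ε 1
      (fun j _ x i => (S j).φ x i) := by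
  have hR : ∀ j (x y : (S j).X), gram (fun x i => (S j).φ x i) (fun x i => (S j).φ x i) x y =
      (S j).R x y := by
    intro j x y
    unfold gram Sys.R
    rw [PiLp.inner_apply]
    exact Finset.sum_congr rfl fun i _ => by simp [mul_comm]
  have hR1 : ∀ j (x : (S j).X), (S j).R x x = 1 := fun j x => by
    unfold Sys.R
    rw [real_inner_self_eq_norm_sq, (S j).hφ, one_pow]
  refine ⟨fun j x c => measurable_const, fun j t x => ?_, ?_, ?_⟩
  · have h1 := hR j x x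
    rw [hR1] at h1
    unfold gram at h1
    refine le_of_eq (Eq.trans (Finset.sum_congr rfl fun i _ => ?_) h1)
    ring
  · filter_upwards [h] with j hj
    simp only [hR, cumul_incr]
    exact hj
  · refine Eventually.of_forall fun j => ?_
    simp only [hR, hR1, cumul_incr]
    have h1 : |(1 : ℝ) - (q ((Fin.last k : Fin (k + 1)) : ℕ) + (1 - q k))| = 0 := by
      rw [Fin.val_last]
      simp
    simp only [h1]
    rw [Sys.tav_const]
    exact hε

end Vale.Agent.P157.Par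
end

section

open MeasureTheory ProbabilityTheory Filter Topology Finset

namespace Vale.Agent.P157.Par

set_option linter.unusedSectionVars false

open Vale.Agent.P367.GT (gM)

lemma exists_SB {g g' g'' : ℝ → ℝ} (h : CB2 g g' g'') : ∃ C, 1 ≤ C ∧ SB C g g' g'' := by
  obtain ⟨A, hA⟩ := h.b0
  obtain ⟨B, hB⟩ := h.b1
  obtain ⟨D, hD⟩ := h.b2
  refine ⟨max 1 (max A (max B D)), le_max_left _ _, h.d1, h.d2, h.c2, fun x => ?_, fun x => ?_,
    fun x => ?_⟩
  · exact (hA x).trans ((le_max_left _ _).trans (le_max_right _ _))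
  · exact (hB x).trans ((le_max_left _ _).trans ((le_max_right _ _).trans (le_max_right _ _)))
  · exact (hD x).trans ((le_max_right _ _).trans ((le_max_right _ _).trans (le_max_right _ _)))

lemma SB.mono {C C' : ℝ} (hC : C ≤ C') {g g' g'' : ℝ → ℝ} (h : SB C g g' g'') :
    SB C' g g' g'' :=
  ⟨h.1, h.2.1, h.2.2.1, fun x => (h.2.2.2.1 x).trans hC, fun x => (h.2.2.2.2.1 x).trans hC,
    fun x => (h.2.2.2.2.2 x).trans hC⟩

/-- The weight of a potential is regular. -/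
lemma Pot.cb2W {C c₀ a : ℝ} {f f1 f2 f3 : ℝ → ℝ} (hf : Pot C c₀ a f f1 f2 f3) :
    ∃ W' W'', CB2 (fun x => Real.exp (f x) / c₀) W' W'' := by
  have hf0 : CB2 f f1 f2 := ⟨hf.cb3.d1, hf.cb3.d2,
    continuous_iff_continuousAt.2 fun x => (hf.cb3.d3 x).continuousAt, ⟨C, hf.cb3.b0⟩,
    ⟨C, hf.cb3.b1⟩, ⟨C, hf.cb3.b2⟩⟩
  have hC0 : 0 ≤ C := (abs_nonneg _).trans (hf.cb3.b0 0)
  have hec : ∀ x, |Real.exp (f x)| ≤ Real.exp C := fun x => by
    rw [abs_of_pos (Real.exp_pos _)]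
    exact Real.exp_le_exp.2 (le_of_abs_le (hf.cb3.b0 x))
  have he : CB2 (fun x => Real.exp (f x)) (fun x => Real.exp (f x) * f1 x)
      (fun x => Real.exp (f x) * f1 x * f1 x + Real.exp (f x) * f2 x) := by
    refine ⟨fun x => (hf.cb3.d1 x).exp, fun x => ((hf.cb3.d1 x).exp.mul (hf.cb3.d2 x)), ?_,
      ⟨Real.exp C, hec⟩, ⟨Real.exp C * C, fun x => ?_⟩,
      ⟨Real.exp C * C * C + Real.exp C * C, fun x => ?_⟩⟩
    · exact (((Real.continuous_exp.comp hf0.cont).mul hf0.cont1).mul hf0.cont1).add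
        ((Real.continuous_exp.comp hf0.cont).mul hf0.c2)
    · rw [abs_mul]
      exact mul_le_mul (hec x) (hf.cb3.b1 x) (abs_nonneg _) (Real.exp_pos _).le
    · refine (abs_add_le _ _).trans (add_le_add ?_ ?_)
      · rw [abs_mul, abs_mul]
        exact mul_le_mul (mul_le_mul (hec x) (hf.cb3.b1 x) (abs_nonneg _) (Real.exp_pos _).le)
          (hf.cb3.b1 x) (abs_nonneg _) (by positivity)
      · rw [abs_mul]
        exact mul_le_mul (hec x) (hf.cb3.b2 x) (abs_nonneg _) (Real.exp_pos _).le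
  obtain ⟨p', p'', hp⟩ := CB2.const_fn (1 / c₀)
  have h1 := he.mul hp
  have h2 : (fun x => Real.exp (f x) / c₀) = fun x => Real.exp (f x) * (1 / c₀) := by
    funext x; ring
  rw [h2]
  exact ⟨_, _, h1⟩

lemma abs_sub_le_congr {A A' B B' c : ℝ} (h : |A - B| ≤ c) (h1 : A = A') (h2 : B = B') :
    |A' - B'| ≤ c := by rw [← h1, ← h2]; exact h

lemma tri1 {A B w δ : ℝ} (h1 : |B - w| < δ / 2) (h2 : |A - B| ≤ δ / 3) : |A - w| < δ := by
  have h3 := abs_sub_le A B w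
  have h4 := abs_nonneg (B - w)
  linarith only [h4, h3, h2, h1]

lemma tri2 {A B δ : ℝ} (h1 : B ≤ δ / 2) (h2 : |A - B| ≤ δ / 2) : A ≤ δ := by
  have := (abs_le.1 h2).2
  linarith

lemma Sys.tav_mul_const (S : Sys) {n : ℕ} (F : S.T → (Fin n → S.X) → ℝ) (c : ℝ) :
    S.tav (fun t x => F t x * c) = S.tav F * c := by
  have h1 := Sys.tav_smul (S := S) c F
  rw [mul_comm (S.tav F) c, ← h1]
  exact Sys.tav_congr fun t x => mul_comm _ _

lemma Sys.avT_fin (S : Sys) {n : ℕ} (F : S.T → (Fin n → S.X) → ℝ) :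
    S.avT (fun ω (x : Fin n → S.X) => F (S.π ω) x) = S.tav F :=
  S.avT_eq (Equiv.refl (Fin n)) F

/-- The value of a pair of replicas at a level. -/
noncomputable def pv (W h : ℝ → ℝ) (k : ℕ) (w : Fin (k + 1) → ℝ) (q : ℕ → ℝ) (l : ℕ) : ℝ :=
  Arr.pairVal (mOf w) (incr (stop k q)) k (topW (1 - q k) W) (toph (1 - q k) W h) l

/-- The value of one replica. -/
noncomputable def ov (W h : ℝ → ℝ) (k : ℕ) (w : Fin (k + 1) → ℝ) (q : ℕ → ℝ) : ℝ :=
  ∫ z, lvh (mOf w) (incr (stop k q))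
    (lvW (mOf w) (incr (stop k q)) k (topW (1 - q k) W)) k (toph (1 - q k) W h) 0
      (√(incr (stop k q) 0) * z) ∂(gaussianReal 0 1)

section

variable {C c₀ a : ℝ} {f f1 f2 f3 : ℝ → ℝ} (hf : Pot C c₀ a f f1 f2 f3) (hfm : Measurable f)

/-- Adding a pattern: two replicas. -/
theorem add_two {h h' h'' : ℝ → ℝ} (hh : CB2 h h' h'') : ∃ D : ℝ, 0 ≤ D ∧
    ∀ (U : Ultrafilter ℕ) (N M P : ℕ → ℕ) (s : ℕ → ℝ) (u : ∀ j, Fin (P j) → ℝ) (k : ℕ)
      (b : Fin k → ℝ) (w : Fin (k + 1) → ℝ) (q : ℕ → ℝ) (ε : ℝ), 0 ≤ ε →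
      LimData U (fun j => pS f hfm C hf.cb3.b0 (N j) (M j) (P j) (s j) (u j)) b w →
      Path k q → q k ≤ 1 →
      (∀ᶠ j in (U : Filter ℕ),
        (pS f hfm C hf.cb3.b0 (N j) (M j) (P j) (s j) (u j)).tav (n := 2) (fun _ x =>
        |(pS f hfm C hf.cb3.b0 (N j) (M j) (P j) (s j) (u j)).R (x 0) (x 1) -
          q (lev b ((pS f hfm C hf.cb3.b0 (N j) (M j) (P j) (s j) (u j)).R (x 0) (x 1)))|) ≤ ε) →
      ∀ Φ : ∀ j, (Fin (M j) → Fin (N j + 1) → ℝ) → (Fin 2 → Fin (N j + 1) → Bool) → ℝ,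
      (∀ j x, Measurable fun t => Φ j t x) → (∀ j t x, |Φ j t x| ≤ 1) → ∀ η > 0,
      ∀ᶠ j in (U : Filter ℕ),
        |(pS f hfm C hf.cb3.b0 (N j) (M j + 1) (P j) (s j) (u j)).tav (n := 2)
          (fun t x => Φ j (fun a => t a.succ) x * ∏ i, h (cubeS (t 0) (x i))) -
        (pS f hfm C hf.cb3.b0 (N j) (M j) (P j) (s j) (u j)).tav (n := 2)
          (fun t x => Φ j t x * pv (fun x => Real.exp (f x) / c₀) h k w q
            (lev b ((pS f hfm C hf.cb3.b0 (N j) (M j) (P j) (s j) (u j)).R (x 0) (x 1))))| ≤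
          D * ε + η := by
  obtain ⟨W', W'', hW⟩ := hf.cb2W
  obtain ⟨C1, hC1, hC1'⟩ := exists_SB hW
  obtain ⟨C2, hC2, hC2'⟩ := exists_SB (hh.mul hW)
  set Cm := max C1 C2 with hCm
  set α := max (1 - a) (1 / 2) with hα
  have hα1 : α < 1 := max_lt (by linarith [hf.a0]) (by norm_num)
  have hα0 : 0 < α := lt_of_lt_of_le (by norm_num) (le_max_right _ _)
  refine ⟨Dr Cm α 2 1, tsum_nonneg fun n => by (clear * - hC1; positivity), ?_⟩
  intro U N M P s u k b w q ε hε hL hq hq1 hoff Φ hΦm hΦ η hη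
  have hker := kerClose_phi (q := q) hε hoff
  have h1 := trans_two hL (m := mOf w) (v := incr (stop k q)) (incr_stop_nonneg hq)
    (fun l hl _ => mOf_pos hL.wpos hl) (fun l => up_eq_mOf hL.wsum l) (sub_nonneg.2 hq1) hε hker
    (hC1.trans (le_max_left C1 C2)) hf.a0 (le_max_left (1 - a) (1 / 2)) hα0 hα1
    (hC1'.mono (le_max_left C1 C2)) hf.Wa hf.W1 hh (hC2'.mono (le_max_right C1 C2)) (Φ := Φ)
    hΦm hΦ η hη
  filter_upwards [h1] with j hj
  have h2 := tav_add hfm C hf.cb3.b0 (N j) (M j) (P j) (s j) (u j) (n := 2) (Φ := Φ j) (hΦm j)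
    (h := h) hh.cont.measurable (W := fun x => Real.exp (f x) / c₀) hf.c0 (fun x => rfl)
  rw [h2]
  rw [(pS f hfm C hf.cb3.b0 (N j) (M j) (P j) (s j) (u j)).avT_eq (Equiv.refl (Fin 2))
    (fun t x => Φ j t x * Arr.pairVal (mOf w) (incr (stop k q)) k
      (topW (1 - q k) (fun x => Real.exp (f x) / c₀))
      (toph (1 - q k) (fun x => Real.exp (f x) / c₀) h)
      (lev b ((pS f hfm C hf.cb3.b0 (N j) (M j) (P j) (s j) (u j)).R (x 0) (x 1))))] at hj
  exact hj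

/-- Adding a pattern: one replica. -/
theorem add_one {h h' h'' : ℝ → ℝ} (hh : CB2 h h' h'') : ∃ D : ℝ, 0 ≤ D ∧
    ∀ (U : Ultrafilter ℕ) (N M P : ℕ → ℕ) (s : ℕ → ℝ) (u : ∀ j, Fin (P j) → ℝ) (k : ℕ)
      (b : Fin k → ℝ) (w : Fin (k + 1) → ℝ) (q : ℕ → ℝ) (ε : ℝ), 0 ≤ ε →
      LimData U (fun j => pS f hfm C hf.cb3.b0 (N j) (M j) (P j) (s j) (u j)) b w →
      Path k q → q k ≤ 1 →
      (∀ᶠ j in (U : Filter ℕ),
        (pS f hfm C hf.cb3.b0 (N j) (M j) (P j) (s j) (u j)).tav (n := 2) (fun _ x =>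
        |(pS f hfm C hf.cb3.b0 (N j) (M j) (P j) (s j) (u j)).R (x 0) (x 1) -
          q (lev b ((pS f hfm C hf.cb3.b0 (N j) (M j) (P j) (s j) (u j)).R (x 0) (x 1)))|) ≤ ε) →
      ∀ Φ : ∀ j, (Fin (M j) → Fin (N j + 1) → ℝ) → (Fin 1 → Fin (N j + 1) → Bool) → ℝ,
      (∀ j x, Measurable fun t => Φ j t x) → (∀ j t x, |Φ j t x| ≤ 1) → ∀ η > 0,
      ∀ᶠ j in (U : Filter ℕ),
        |(pS f hfm C hf.cb3.b0 (N j) (M j + 1) (P j) (s j) (u j)).tav (n := 1)
          (fun t x => Φ j (fun a => t a.succ) x * ∏ i, h (cubeS (t 0) (x i))) -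
        (pS f hfm C hf.cb3.b0 (N j) (M j) (P j) (s j) (u j)).tav (n := 1)
          (fun t x => Φ j t x * ov (fun x => Real.exp (f x) / c₀) h k w q)| ≤
          D * ε + η := by
  obtain ⟨W', W'', hW⟩ := hf.cb2W
  obtain ⟨C1, hC1, hC1'⟩ := exists_SB hW
  obtain ⟨C2, hC2, hC2'⟩ := exists_SB (hh.mul hW)
  set Cm := max C1 C2 with hCm
  set α := max (1 - a) (1 / 2) with hα
  have hα1 : α < 1 := max_lt (by linarith [hf.a0]) (by norm_num)
  have hα0 : 0 < α := lt_of_lt_of_le (by norm_num) (le_max_right _ _)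
  refine ⟨Dr Cm α 1 0, tsum_nonneg fun n => by (clear * - hC1; positivity), ?_⟩
  intro U N M P s u k b w q ε hε hL hq hq1 hoff Φ hΦm hΦ η hη
  have hker := kerClose_phi (q := q) hε hoff
  have h1 := trans_one hL (m := mOf w) (v := incr (stop k q)) (incr_stop_nonneg hq)
    (fun l hl _ => mOf_pos hL.wpos hl) (fun l => up_eq_mOf hL.wsum l) (sub_nonneg.2 hq1) hε hker
    (hC1.trans (le_max_left C1 C2)) hf.a0 (le_max_left (1 - a) (1 / 2)) hα0 hα1
    (hC1'.mono (le_max_left C1 C2)) hf.Wa hf.W1 hh (hC2'.mono (le_max_right C1 C2)) (Φ := Φ)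
    hΦm hΦ η hη
  filter_upwards [h1] with j hj
  have h2 := tav_add hfm C hf.cb3.b0 (N j) (M j) (P j) (s j) (u j) (n := 1) (Φ := Φ j) (hΦm j)
    (h := h) hh.cont.measurable (W := fun x => Real.exp (f x) / c₀) hf.c0 (fun x => rfl)
  have h3 : (pS f hfm C hf.cb3.b0 (N j) (M j) (P j) (s j) (u j)).tav (n := 1)
      (fun t x => Φ j t x * ov (fun x => Real.exp (f x) / c₀) h k w q) =
      (pS f hfm C hf.cb3.b0 (N j) (M j) (P j) (s j) (u j)).avT
        (fun ω (x : Fin 1 → Fin (N j + 1) → Bool) => Φ j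
          ((pS f hfm C hf.cb3.b0 (N j) (M j) (P j) (s j) (u j)).π ω) x) *
        ov (fun x => Real.exp (f x) / c₀) h k w q := by
    have h4 := (pS f hfm C hf.cb3.b0 (N j) (M j) (P j) (s j) (u j)).avT_fin (Φ j)
    refine ((pS f hfm C hf.cb3.b0 (N j) (M j) (P j) (s j) (u j)).tav_mul_const (Φ j) _).trans ?_
    exact congrArg (· * ov (fun x => Real.exp (f x) / c₀) h k w q) h4.symm
  exact abs_sub_le_congr hj h2.symm h3.symm

include hf in
lemma pv_one {k : ℕ} {w : Fin (k + 1) → ℝ} (hw : ∀ l, 0 < w l) (q : ℕ → ℝ) {l : ℕ}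
    (hl : l ≤ k) : pv (fun x => Real.exp (f x) / c₀) (fun _ => 1) k w q l = 1 := by
  have hspec := topW_spec (1 - q k) hf.a0 hf.cb2W hf.Wa hf.W1
  have h1 : toph (1 - q k) (fun x => Real.exp (f x) / c₀) (fun _ => 1) = fun _ => 1 := by
    funext x
    have h2 : topW (1 - q k) (fun x => Real.exp (f x) / c₀) x ≠ 0 :=
      (lt_of_lt_of_le hf.a0 (hspec.2.1 x)).ne'
    unfold toph
    unfold topW at h2
    simp only [one_mul]
    exact div_self h2
  unfold pv
  rw [h1]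
  exact pairVal_one (fun l hl _ => mOf_pos hw hl) hf.a0 hspec.1 hspec.2.1 hspec.2.2 hl

/-- The law of two replicas does not change when a pattern is added. -/
theorem same_two {U : Ultrafilter ℕ} {N M P : ℕ → ℕ} {s : ℕ → ℝ} {u : ∀ j, Fin (P j) → ℝ}
    (hGG : ∀ p : ℕ, AsympGG U (fun j => pS f hfm C hf.cb3.b0 (N j) (M j) (P j) (s j) (u j))
      (fun x => x ^ p))
    {Φ : ∀ j, (Fin (M j) → Fin (N j + 1) → ℝ) → (Fin 2 → Fin (N j + 1) → Bool) → ℝ}
    (hΦm : ∀ j x, Measurable fun t => Φ j t x) (hΦ : ∀ j t x, |Φ j t x| ≤ 1) :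
    ∀ η > 0, ∀ᶠ j in (U : Filter ℕ),
      |(pS f hfm C hf.cb3.b0 (N j) (M j + 1) (P j) (s j) (u j)).tav (n := 2)
          (fun t x => Φ j (fun a => t a.succ) x) -
        (pS f hfm C hf.cb3.b0 (N j) (M j) (P j) (s j) (u j)).tav (n := 2) (Φ j)| ≤ η := by
  intro η hη
  obtain ⟨p', p'', hp⟩ := CB2.const_fn 1
  obtain ⟨D, hD, hD'⟩ := add_two hf hfm hp
  obtain ⟨k, b, w, q, hL, hq, hq1, hoff⟩ := exists_mesh hGG (ε := η / (2 * (D + 1)))
    (by positivity)
  filter_upwards [hD' U N M P s u k b w q (η / (2 * (D + 1))) (by positivity) hL hq hq1 hoff Φ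
    hΦm hΦ (η / 2) (by positivity)] with j hj
  have h1 : (fun (t : Fin (M j + 1) → Fin (N j + 1) → ℝ) (x : Fin 2 → Fin (N j + 1) → Bool) =>
      Φ j (fun a => t a.succ) x * ∏ _i : Fin 2, (1 : ℝ)) =
      fun t x => Φ j (fun a => t a.succ) x := by
    funext t x
    simp
  have h2 : (fun (t : Fin (M j) → Fin (N j + 1) → ℝ) (x : Fin 2 → Fin (N j + 1) → Bool) =>
      Φ j t x * pv (fun x => Real.exp (f x) / c₀) (fun _ => 1) k w q
            (lev b ((pS f hfm C hf.cb3.b0 (N j) (M j) (P j) (s j) (u j)).R (x 0) (x 1)))) =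
      Φ j := by
    funext t x
    rw [pv_one hf hL.wpos q (by omega), mul_one]
  have h5 := congrArg (Sys.tav (pS f hfm C hf.cb3.b0 (N j) (M j + 1) (P j) (s j) (u j))
    (n := 2)) h1
  have h6 := congrArg (Sys.tav (pS f hfm C hf.cb3.b0 (N j) (M j) (P j) (s j) (u j))
    (n := 2)) h2
  refine (abs_sub_le_congr hj h5 h6).trans ?_
  have h3 : D * (η / (2 * (D + 1))) ≤ η / 2 := by
    rw [show D * (η / (2 * (D + 1))) = (D / (D + 1)) * (η / 2) by field_simp]
    apply mul_le_of_le_one_left (by positivity)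
    rw [div_le_one (by positivity)]
    linarith
  linarith only [h3]

/-- The law of one replica does not change when a pattern is added. -/
theorem same_one {U : Ultrafilter ℕ} {N M P : ℕ → ℕ} {s : ℕ → ℝ} {u : ∀ j, Fin (P j) → ℝ}
    (hGG : ∀ p : ℕ, AsympGG U (fun j => pS f hfm C hf.cb3.b0 (N j) (M j) (P j) (s j) (u j))
      (fun x => x ^ p))
    {Φ : ∀ j, (Fin (M j) → Fin (N j + 1) → ℝ) → (Fin 1 → Fin (N j + 1) → Bool) → ℝ}
    (hΦm : ∀ j x, Measurable fun t => Φ j t x) (hΦ : ∀ j t x, |Φ j t x| ≤ 1) :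
    ∀ η > 0, ∀ᶠ j in (U : Filter ℕ),
      |(pS f hfm C hf.cb3.b0 (N j) (M j + 1) (P j) (s j) (u j)).tav (n := 1)
          (fun t x => Φ j (fun a => t a.succ) x) -
        (pS f hfm C hf.cb3.b0 (N j) (M j) (P j) (s j) (u j)).tav (n := 1) (Φ j)| ≤ η := by
  intro η hη
  have h1 := same_two hf hfm hGG (Φ := fun j t x => Φ j t (fun _ : Fin 1 => x 0))
    (fun j x => hΦm j _) (fun j t x => hΦ j _ _) η hη
  filter_upwards [h1] with j hj
  have e1 := Sys.tav_comp (S := pS f hfm C hf.cb3.b0 (N j) (M j + 1) (P j) (s j) (u j))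
    (fun _ : Fin 1 => (0 : Fin 2)) (fun _ _ _ => Subsingleton.elim _ _)
    (fun t x => Φ j (fun a => t a.succ) x)
  have e2 := Sys.tav_comp (S := pS f hfm C hf.cb3.b0 (N j) (M j) (P j) (s j) (u j))
    (fun _ : Fin 1 => (0 : Fin 2)) (fun _ _ _ => Subsingleton.elim _ _)
    (fun t x => Φ j t x)
  rw [← e1, ← e2]
  exact hj

/-- The limiting data of the system with one more pattern. -/
theorem limData_succ {U : Ultrafilter ℕ} {N M P : ℕ → ℕ} {s : ℕ → ℝ} {u : ∀ j, Fin (P j) → ℝ}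
    (hGG : ∀ p : ℕ, AsympGG U (fun j => pS f hfm C hf.cb3.b0 (N j) (M j) (P j) (s j) (u j))
      (fun x => x ^ p))
    (hGG1 : ∀ p : ℕ, AsympGG U
      (fun j => pS f hfm C hf.cb3.b0 (N j) (M j + 1) (P j) (s j) (u j)) (fun x => x ^ p))
    {k : ℕ} {b : Fin k → ℝ} {w : Fin (k + 1) → ℝ}
    (hL : LimData U (fun j => pS f hfm C hf.cb3.b0 (N j) (M j) (P j) (s j) (u j)) b w) :
    LimData U (fun j => pS f hfm C hf.cb3.b0 (N j) (M j + 1) (P j) (s j) (u j)) b w := by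
  refine ⟨hGG1, hL.mono, hL.b0, hL.b1, fun i δ hδ => ?_, fun l => ?_, hL.wpos, hL.wsum⟩
  · obtain ⟨η, hη, h1⟩ := hL.na i (δ / 2) (by positivity)
    refine ⟨η, hη, ?_⟩
    have h2 := same_two hf hfm hGG (Φ := fun j _ x =>
      if |(pS f hfm C hf.cb3.b0 (N j) (M j) (P j) (s j) (u j)).R (x 0) (x 1) - b i| ≤ η
        then 1 else 0) (fun j x => measurable_const)
      (fun j t x => by split_ifs <;> simp) (δ / 2) (by positivity)
    filter_upwards [h1, h2] with j h1 h2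
    exact tri2 h1 h2
  · rw [Metric.tendsto_nhds]
    intro δ hδ
    have h1 := (Metric.tendsto_nhds.1 (hL.lim l)) (δ / 2) (by positivity)
    have h2 := same_two hf hfm hGG (Φ := fun j _ x => ind
      (lev b ((pS f hfm C hf.cb3.b0 (N j) (M j) (P j) (s j) (u j)).R (x 0) (x 1)) = l))
      (fun j x => measurable_const) (fun j t x => abs_ind_le_one _) (δ / 3) (by positivity)
    filter_upwards [h1, h2] with j h1 h2
    rw [Real.dist_eq] at h1 ⊢
    exact tri1 h1 h2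

end

end Vale.Agent.P157.Par
end

section

open MeasureTheory ProbabilityTheory Filter Topology Finset

namespace Vale.Agent.P157.Par

set_option linter.unusedSectionVars false

section

variable {W : ℝ → ℝ} {a : ℝ} (ha : 0 < a) (hW : ∃ W' W'', CB2 W W' W'') (hWa : ∀ x, a ≤ W x)
  (hW1 : ∀ x, W x ≤ 1)

include ha hW hWa hW1

lemma toph_abs_le {h h' h'' : ℝ → ℝ} (hh : CB2 h h' h'') {B : ℝ} (hB : ∀ x, |h x| ≤ B) (τ : ℝ)
    (x : ℝ) : |toph τ W h x| ≤ B := by
  obtain ⟨W', W'', hW⟩ := hW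
  have hB0 : 0 ≤ B := (abs_nonneg _).trans (hB 0)
  rw [toph_eq, abs_le]
  constructor
  · rw [← val_flowh_const (σ := τ) one_pos ha hW.cont.measurable hWa hW1 (-B) x]
    exact val_flowh_mono one_pos ha hW.cont.measurable hWa hW1 measurable_const
      hh.cont.measurable (fun _ => le_rfl) hB (fun y => (abs_le.1 (hB y)).1) x
  · rw [← val_flowh_const (σ := τ) one_pos ha hW.cont.measurable hWa hW1 B x]
    exact val_flowh_mono one_pos ha hW.cont.measurable hWa hW1 hh.cont.measurable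
      measurable_const hB (fun _ => le_rfl) (fun y => (abs_le.1 (hB y)).2) x

lemma toph_sq_le {h h' h'' : ℝ → ℝ} (hh : CB2 h h' h'') (τ x : ℝ) :
    toph τ W h x ^ 2 ≤ toph τ W (fun y => h y ^ 2) x := by
  obtain ⟨W', W'', hW⟩ := hW
  obtain ⟨B, hB⟩ := hh.b0
  rw [toph_eq, toph_eq]
  exact flowh_sq one_pos ha hW.cont.measurable hWa hW1 hh.cont.measurable hB x

variable {k : ℕ} {w : Fin (k + 1) → ℝ} (hw : ∀ l, 0 < w l) (q : ℕ → ℝ)

include hw

lemma pv_nonneg {h h' h'' : ℝ → ℝ} (hh : CB2 h h' h'') {l : ℕ} (hl : l ≤ k) :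
    0 ≤ pv W h k w q l := by
  have hspec := topW_spec (1 - q k) ha hW hWa hW1
  exact pairVal_nonneg (fun l hl _ => mOf_pos hw hl) ha hspec.1 hspec.2.1 hspec.2.2
    (toph_spec _ ha hW hWa hW1 ⟨h', h'', hh⟩) hl

lemma pv_mono {h h' h'' : ℝ → ℝ} (hh : CB2 h h' h'') {l : ℕ} (hl : l < k) :
    pv W h k w q l ≤ pv W h k w q (l + 1) := by
  have hspec := topW_spec (1 - q k) ha hW hWa hW1
  exact pairVal_mono (fun l hl _ => mOf_pos hw hl) ha hspec.1 hspec.2.1 hspec.2.2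
    (toph_spec _ ha hW hWa hW1 ⟨h', h'', hh⟩) hl

lemma pv_le {h h' h'' : ℝ → ℝ} (hh : CB2 h h' h'') {B : ℝ} (hB : ∀ x, |h x| ≤ B) {l : ℕ}
    (hl : l ≤ k) : pv W h k w q l ≤ B ^ 2 := by
  have hspec := topW_spec (1 - q k) ha hW hWa hW1
  exact pairVal_le (fun l hl _ => mOf_pos hw hl) ha hspec.1 hspec.2.1 hspec.2.2
    (toph_spec _ ha hW hWa hW1 ⟨h', h'', hh⟩) (toph_abs_le ha hW hWa hW1 hh hB _) hl

/-- The average of the observable, at the bottom level. -/
lemma lvh0_integrable {h h' h'' : ℝ → ℝ} (hh : CB2 h h' h'') (t : ℝ) :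
    Integrable (fun z => lvh (mOf w) (incr (stop k q))
    (lvW (mOf w) (incr (stop k q)) k (topW (1 - q k) W)) k h 0 (t * z)) (gaussianReal 0 1) := by
  have hspec := topW_spec (1 - q k) ha hW hWa hW1
  have hspec2 := lvW_spec (v := incr (stop k q)) (fun l hl (_ : l ≤ k) => mOf_pos hw hl) ha
    hspec.1 hspec.2.1 hspec.2.2
  obtain ⟨p', p'', hp⟩ := lvh_spec (v := incr (stop k q))
    (fun l hl (_ : l ≤ k) => mOf_pos hw hl) ha hspec2 le_rfl ⟨h', h'', hh⟩ 0 (Nat.zero_le k)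
  exact hp.integrable_fn t

lemma ov_abs_le {h h' h'' : ℝ → ℝ} (hh : CB2 h h' h'') {B : ℝ} (hB : ∀ x, |h x| ≤ B) :
    |ov W h k w q| ≤ B := by
  have hspec := topW_spec (1 - q k) ha hW hWa hW1
  have hm : ∀ l, 1 ≤ l → l ≤ k → 0 < mOf w l := fun l hl _ => mOf_pos hw hl
  have hspec2 := lvW_spec (v := incr (stop k q)) hm ha hspec.1 hspec.2.1 hspec.2.2
  obtain ⟨g', g'', hg⟩ := toph_spec (1 - q k) ha hW hWa hW1 ⟨h', h'', hh⟩
  have h1 := toph_abs_le ha hW hWa hW1 hh hB (1 - q k)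
  have h2 := lvh_mono (v := incr (stop k q)) hm ha hspec2 le_rfl ⟨g', g'', hg⟩ (CB2.const_fn B)
    (fun x => (abs_le.1 (h1 x)).2) 0 (Nat.zero_le k)
  have h3 := lvh_mono (v := incr (stop k q)) hm ha hspec2 le_rfl (CB2.const_fn (-B))
    ⟨g', g'', hg⟩ (fun x => (abs_le.1 (h1 x)).1) 0 (Nat.zero_le k)
  rw [lvh_const (v := incr (stop k q)) hm ha hspec2 le_rfl _ 0 (Nat.zero_le k)] at h2 h3
  have h4 := lvh0_integrable ha hW hWa hW1 hw q hg (√(incr (stop k q) 0))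
  unfold ov
  rw [abs_le]
  constructor
  · have := integral_mono (integrable_const (-B)) h4 (fun z => h3 _)
    simpa using this
  · have := integral_mono h4 (integrable_const B) (fun z => h2 _)
    simpa using this

lemma pv_le_ov {h h' h'' : ℝ → ℝ} (hh : CB2 h h' h'') :
    pv W h k w q k ≤ ov W (fun y => h y ^ 2) k w q := by
  have hspec := topW_spec (1 - q k) ha hW hWa hW1
  have hm : ∀ l, 1 ≤ l → l ≤ k → 0 < mOf w l := fun l hl _ => mOf_pos hw hl
  have hspec2 := lvW_spec (v := incr (stop k q)) hm ha hspec.1 hspec.2.1 hspec.2.2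
  obtain ⟨g', g'', hg⟩ := toph_spec (1 - q k) ha hW hWa hW1 ⟨h', h'', hh⟩
  obtain ⟨p', p'', hp⟩ := hh.sq_fn
  obtain ⟨r', r'', hr⟩ := toph_spec (1 - q k) ha hW hWa hW1 ⟨p', p'', hp⟩
  obtain ⟨s', s'', hs⟩ := hg.sq_fn
  have h2 := lvh_mono (v := incr (stop k q)) hm ha hspec2 le_rfl ⟨s', s'', hs⟩ ⟨r', r'', hr⟩
    (fun x => toph_sq_le ha hW hWa hW1 hh (1 - q k) x) 0 (Nat.zero_le k)
  unfold pv Arr.pairVal ov
  have e1 : (fun x => lvh (mOf w) (incr (stop k q))
      (lvW (mOf w) (incr (stop k q)) k (topW (1 - q k) W)) k (toph (1 - q k) W h) k x ^ 2) =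
      fun x => toph (1 - q k) W h x ^ 2 := by
    rw [lvh_top]
  rw [e1]
  exact integral_mono (lvh0_integrable ha hW hWa hW1 hw q hs _)
    (lvh0_integrable ha hW hWa hW1 hw q hr _) (fun z => h2 _)

end

end Vale.Agent.P157.Par
end
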