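import Vale.Agent.P146.Bdl.B20
import Vale.Agent.P146.Bdl.B15
import Vale.Agent.P146.Bdl.B11
import Vale.Agent.P146.Bdl.B6
import Vale.Agent.P146.Bdl.B18

set_option linter.all false

section

/-!
UP, OPT: the optimal strengths, uniformly in `N`, `a`, `b`.
-/

open MeasureTheory ProbabilityTheory Matrix Filter Topology
open scoped Matrix.Norms.L2Operator

namespace Vale.Agent.P146.Sk

open Vale.Agent.P157 (spin)
open Vale.Agent.P157.Lv
open Vale.Agent.P157.Par (Path Exponents topN lw spinPart)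
open Gen (GI gz gl r0 gS gF gOb gIsOpt GD)

variable {N K : ℕ}

/-- The squares of the derivatives of the energy. -/
lemma om_sum_sq_le (hN : 0 < N) {β a : ℝ} (ha : a ∈ Set.Icc (0:ℝ) 1)
    {D B : Ix N → (Ix N → ℝ) → (Fin N → Bool) → ℝ} {w : (Ix N → ℝ) → ℝ}
    (hD : ∀ e z x, D e z x = β * a * (spin x e.1 * spin x e.2 / √(2 * (N:ℝ))) + B e z x)
    (hB : ∀ z x, ∑ e, B e z x ^ 2 ≤ N * w z) (z : Ix N → ℝ) (x : Fin N → Bool) :
    ∑ e, D e z x ^ 2 ≤ N * (β ^ 2 + 2 * w z) := by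
  have hN' : (0 : ℝ) < N := by exact_mod_cast hN
  have h1 : ∀ e : Ix N, D e z x ^ 2 ≤ β ^ 2 / N + 2 * B e z x ^ 2 := by
    intro e
    have h2 : (β * a * (spin x e.1 * spin x e.2 / √(2 * (N:ℝ)))) ^ 2 ≤ β ^ 2 / (2 * N) := by
      have h3 : (β * a * (spin x e.1 * spin x e.2 / √(2 * (N:ℝ)))) ^ 2 =
          a ^ 2 * (β ^ 2 / (2 * N)) := by
        have h4 : (spin x e.1) ^ 2 = 1 := by rw [pow_two, Vale.Agent.P157.spin_sq]
        have h5 : (spin x e.2) ^ 2 = 1 := by rw [pow_two, Vale.Agent.P157.spin_sq]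
        have h6 : √(2 * (N:ℝ)) ^ 2 = 2 * N := Real.sq_sqrt (by positivity)
        rw [mul_pow, mul_pow, div_pow, mul_pow, h4, h5, h6]
        ring
      rw [h3]
      have h4 : a ^ 2 ≤ 1 := by
        have := ha.1
        have := ha.2
        nlinarith
      have h5 : 0 ≤ β ^ 2 / (2 * (N : ℝ)) := by positivity
      linarith only [mul_nonneg (sub_nonneg.2 h4) (sub_nonneg.2 h5)]
    rw [hD]
    have h6 : β ^ 2 / (N : ℝ) = 2 * (β ^ 2 / (2 * N)) := by field_simp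
    rw [h6]
    linarith only [sq_nonneg (β * a * (spin x e.1 * spin x e.2 / √(2 * (N:ℝ))) - B e z x), h2]
  refine (Finset.sum_le_sum fun e _ => h1 e).trans ?_
  rw [Finset.sum_add_distrib, ← Finset.mul_sum, Finset.sum_const, Finset.card_univ, nsmul_eq_mul]
  have h2 : ((Fintype.card (Ix N) : ℕ) : ℝ) = N * N := by
    rw [Fintype.card_prod, Fintype.card_fin]
    push_cast
    ring
  rw [h2]
  have h3 : (N : ℝ) * N * (β ^ 2 / N) = N * β ^ 2 := by field_simp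
  rw [h3]
  linarith only [hB z x]

/-- The average of a level zero bound. -/
lemma om_abs_Ex_le {m : ℕ → ℝ} {E : (Ix N → ℝ) → (Fin N → Bool) → ℝ}
    {D : Ix N → (Ix N → ℝ) → (Fin N → Bool) → ℝ} (hD : GD K m E D (spin (N := N)))
    {s : ℕ → ℝ} {h : (Ix N → ℝ) → (Fin N → Bool) → ℝ} (hh : ∀ x, EG fun g => h g x)
    {W : (Ix N → ℝ) → ℝ} (hW : EG W) (hle : ∀ z x, |h z x| ≤ N * W z) :
    |1 / N * (gS K m E spin s).Ex (fun z x => h (r0 z) x)| ≤ ∫ g, W g ∂(gI (Ix N)) := by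
  have hS := Gen.gS_reg hD s
  have hN' : (0 : ℝ) < N := by exact_mod_cast hD.N0
  have hh' : Nh fun (z : GI (Ix N) N K → ℝ) x => h (r0 z) x := fun x => Gen.EG.r0 (hh x)
  have h1 := hS.abs_Ex_le hh'
  have h2 : (gS K m E spin s).Ex (fun z x => |h (r0 z) x|) ≤
      (gS K m E spin s).Ex (fun z _ => N * W (r0 z)) :=
    hS.Ex_mono (Sy.Nh.abs hh') (Sy.Nh.fst ((Gen.EG.r0 hW).const_mul _)) fun z x => hle _ _
  have h3 : (gS K m E spin s).Ex (fun z _ => N * W (r0 z)) = N * ∫ g, W g ∂(gI (Ix N)) := by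
    rw [← Gen.gS_Ex_zero hD s hW, ← Sy.Ex_const_mul]
  rw [h3] at h2
  rw [abs_mul, abs_of_pos (by positivity : (0 : ℝ) < 1 / N)]
  calc 1 / (N : ℝ) * |(gS K m E spin s).Ex (fun z x => h (r0 z) x)| ≤
        1 / N * (N * ∫ g, W g ∂(gI (Ix N))) :=
        mul_le_mul_of_nonneg_left (h1.trans h2) (by positivity)
    _ = _ := by field_simp

/-- The energy is bounded by the operator norm. -/
lemma om_energy (N : ℕ) (β : ℝ) (κ : ℕ) {a b : ℝ} (ha : a ∈ Set.Icc (0:ℝ) 1)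
    (hb : b ∈ Set.Icc (0:ℝ) 1) (g : Ix N → ℝ) (x : Fin N → Bool) :
    |Esk N β a b κ g x - Esk N β 0 0 κ g x| ≤ N * (|β| / 2 * (om N g ^ 1 + om N g ^ κ)) := by
  have e : Esk N β a b κ g x - Esk N β 0 0 κ g x =
      β / 2 * (a * qf (Um (Wm N g) 1) (spin x) -
        b * (cut N g * qf (Um (Wm N g) κ) (spin x))) := by
    unfold Esk
    rw [Um_one]
    ring
  rw [e, abs_mul, abs_div, abs_two]
  have h1 := abs_qf_Um_le g 1 x
  have h2 := abs_qf_Um_le g κ x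
  have h3 : |a * qf (Um (Wm N g) 1) (spin x)| ≤ N * om N g ^ 1 := by
    rw [abs_mul, abs_of_nonneg ha.1]
    have h4 := abs_nonneg (qf (Um (Wm N g) 1) (spin x))
    linarith only [mul_nonneg (sub_nonneg.2 h4) (sub_nonneg.2 ha.2), h1]
  have h4 : |b * (cut N g * qf (Um (Wm N g) κ) (spin x))| ≤ N * om N g ^ κ := by
    rw [abs_mul, abs_mul, abs_of_nonneg hb.1, abs_of_nonneg (cut_nonneg g)]
    have h5 := abs_nonneg (qf (Um (Wm N g) κ) (spin x))
    have h6 := cut_nonneg (N := N) g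
    have h7 := cut_le_one (N := N) g
    have h8 : cut N g * |qf (Um (Wm N g) κ) (spin x)| ≤ |qf (Um (Wm N g) κ) (spin x)| := by
      linarith only [mul_nonneg (sub_nonneg.2 h5) (sub_nonneg.2 h7)]
    have h9 : 0 ≤ cut N g * |qf (Um (Wm N g) κ) (spin x)| := mul_nonneg h6 h5
    linarith only [mul_nonneg (sub_nonneg.2 h9) (sub_nonneg.2 hb.2), mul_nonneg (sub_nonneg.2 h8) (sub_nonneg.2 hb.2), mul_nonneg (sub_nonneg.2 h8) (sub_nonneg.2 hb.1), mul_nonneg (sub_nonneg.2 h2) (sub_nonneg.2 hb.2), mul_nonneg (sub_nonneg.2 h2) (sub_nonneg.2 hb.1)]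
  have h5 := abs_sub (a * qf (Um (Wm N g) 1) (spin x))
    (b * (cut N g * qf (Um (Wm N g) κ) (spin x)))
  have h6 : 0 ≤ |β| / 2 := by positivity
  calc |β| / 2 * |a * qf (Um (Wm N g) 1) (spin x) - b * (cut N g * qf (Um (Wm N g) κ) (spin x))|
      ≤ |β| / 2 * (N * om N g ^ 1 + N * om N g ^ κ) := by
        refine mul_le_mul_of_nonneg_left ?_ h6
        linarith only [h5, h4, h3]
    _ = _ := by ring

/-- The free energy does not change much with `a`, `b`. -/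
theorem exists_om_gF {β : ℝ} {κ : ℕ} (hI : InstP β κ) : ∃ C : ℝ, 0 ≤ C ∧ ∀ (N K : ℕ) (m : ℕ → ℝ) (a b : ℝ)
    (s : ℕ → ℝ), 0 < N → Exponents K m → a ∈ Set.Icc (0:ℝ) 1 → b ∈ Set.Icc (0:ℝ) 1 →
    |gF K m (Esk N β a b κ) (spin (N := N)) s - gF K m (Esk N β 0 0 κ) (spin (N := N)) s| ≤ C := by
  obtain ⟨C₁, hC1, hC1'⟩ := exists_om_moment 1
  obtain ⟨C₂, hC2, hC2'⟩ := exists_om_moment κ
  obtain ⟨C₃, -, hgd⟩ := hI
  refine ⟨|β| / 2 * (C₁ + C₂), by positivity, fun N K m a b s hN hm' ha hb => ?_⟩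
  obtain ⟨D, B, w, hD, -⟩ := hgd N K m a b hN hm' ha hb
  obtain ⟨D', B', w', hD', -⟩ := hgd N K m 0 0 hN hm' ⟨le_rfl, zero_le_one⟩ ⟨le_rfl, zero_le_one⟩
  have hW : EG fun g : Ix N → ℝ => |β| / 2 * (om N g ^ 1 + om N g ^ κ) :=
    ((eg_om.pow 1).add (eg_om.pow κ)).const_mul _
  have hint : ∫ g, |β| / 2 * (om N g ^ 1 + om N g ^ κ) ∂(gI (Ix N)) ≤ |β| / 2 * (C₁ + C₂) := by
    rw [integral_const_mul, integral_add (eg_om.pow 1).integrable (eg_om.pow κ).integrable]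
    exact mul_le_mul_of_nonneg_left (add_le_add (hC1' N) (hC2' N)) (by positivity)
  have h1 := Gen.gF_tangentE hD hD' s
  have h2 := Gen.gF_tangentE hD' hD s
  have h3 := om_abs_Ex_le hD (s := s) (h := fun z x => Esk N β 0 0 κ z x - Esk N β a b κ z x)
    (fun x => ((hD'.lip x).eg).sub ((hD.lip x).eg)) hW (fun z x => by
      rw [abs_sub_comm]
      exact om_energy N β κ ha hb z x)
  have h4 := om_abs_Ex_le hD' (s := s) (h := fun z x => Esk N β a b κ z x - Esk N β 0 0 κ z x)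
    (fun x => ((hD.lip x).eg).sub ((hD'.lip x).eg)) hW (fun z x => om_energy N β κ ha hb z x)
  have h5 := abs_le.1 (h3.trans hint)
  have h6 := abs_le.1 (h4.trans hint)
  rw [abs_le]
  constructor <;> linarith [h5.1, h6.1]

/-- The overlaps form a path. -/
lemma om_path {m : ℕ → ℝ} {E : (Ix N → ℝ) → (Fin N → Bool) → ℝ}
    {D : Ix N → (Ix N → ℝ) → (Fin N → Bool) → ℝ} (hD : GD K m E D (spin (N := N)))
    {s : ℕ → ℝ} (hs : ∀ l ≤ K, 0 ≤ s l) :
    Path K (fun l => (gS K m E spin s).Rl spin l) := by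
  have F := Gen.gS_fld hD hs
  have hN' : (0 : ℝ) < N := by exact_mod_cast hD.N0
  refine ⟨F.Rl_nonneg (Nat.zero_le _), fun l hl => ?_⟩
  have h1 := F.Rl_sub (l := l) hl
  have h2 : 0 ≤ 1 / (N : ℝ) * (gS K m E spin s).Ex (fun z _ =>
      ∑ i, ((gS K m E spin s).mg spin (l + 1) i z - (gS K m E spin s).mg spin l i z) ^ 2) := by
    refine mul_nonneg (by positivity) ?_
    rw [← F.hreg.Ex_const 0]
    refine F.hreg.Ex_mono (Sy.Nh.fst (EG.const 0)) (Sy.Nh.fst (EG.sum _ fun i _ =>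
      ((Fld.eg_mg F.hreg hl i).sub (Fld.eg_mg F.hreg hl.le i)).pow 2)) fun z _ => ?_
    positivity
  simp only
  linarith

/-- The sum of the deviations. -/
lemma om_dev {m : ℕ → ℝ} {E : (Ix N → ℝ) → (Fin N → Bool) → ℝ}
    {D : Ix N → (Ix N → ℝ) → (Fin N → Bool) → ℝ} (hD : GD K m E D (spin (N := N)))
    {s : ℕ → ℝ} {δ π σ ε₁ : ℝ} (hδ : ∀ l ≤ K, m (l + 1) - m l ≤ δ) (hπ : 0 < π)
    (hp : ∀ l ≤ K, π ≤ m (l + 1) - m l) (hσ : 0 < σ) (hs : ∀ l ≤ K, σ ≤ s l) (hε : 0 ≤ ε₁)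
    (hc : ∀ l ≤ K, ∃ c, (gS K m E spin s).Ex (fun z x => |hz spin gz l z x - c|) ≤ ε₁) :
    ∑ l ∈ Finset.range (K + 1), (m (l + 1) - m l) * dev2 (gS K m E spin s) l ≤
      6 * δ + 20 * ε₁ / (σ * π) := by
  have hs0 : ∀ l ≤ K, 0 ≤ s l := fun l hl => hσ.le.trans (hs l hl)
  have F := Gen.gS_fld hD hs0
  have hR := F.hreg
  have hP := om_path hD hs0
  have hδ0 : 0 ≤ δ := hπ.le.trans ((hp 0 (Nat.zero_le _)).trans (hδ 0 (Nat.zero_le _)))
  have hK : dev2 (gS K m E spin s) K ≤ 4 := by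
    unfold dev2
    rw [← hR.pairEx_const (l := K) le_rfl 4]
    refine hR.pairEx_mono le_rfl fun x x' => ?_
    have h1 := abs_le.1 (F.abs_Rov_le x x')
    have h2 := F.Rl_nonneg (l := K) le_rfl
    have h3 := F.Rl_le_one (l := K) le_rfl
    linarith only [mul_nonneg (sub_nonneg.2 h1.1) (sub_nonneg.2 h1.2), mul_nonneg (sub_nonneg.2 h1.1) (sub_nonneg.2 h1.1), mul_nonneg (sub_nonneg.2 h3) (sub_nonneg.2 h1.2), mul_nonneg (sub_nonneg.2 h2) (sub_nonneg.2 h1.1), mul_nonneg (sub_nonneg.2 h2) (sub_nonneg.2 h3)]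
  have hl : ∀ l ∈ Finset.range K, (m (l + 1) - m l) * dev2 (gS K m E spin s) l ≤
      2 * δ * ((gS K m E spin s).Rl spin (l + 1) - (gS K m E spin s).Rl spin l) +
        20 * ε₁ / (σ * π) * (m (l + 1) - m l) := by
    intro l hl
    rw [Finset.mem_range] at hl
    have h1 := F.sync hε hσ hs hπ hp hc (l := l) hl
    have h2 := hp l hl.le
    have h3 := hδ l hl.le
    have h4 : 0 ≤ (gS K m E spin s).Rl spin (l + 1) - (gS K m E spin s).Rl spin l :=
      sub_nonneg.2 (hP.2 l hl)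
    have h5 : (m (l + 1) - m l) * dev2 (gS K m E spin s) l ≤ (m (l + 1) - m l) *
        (2 * ((gS K m E spin s).Rl spin (l + 1) - (gS K m E spin s).Rl spin l) +
          20 * ε₁ / (σ * π)) := mul_le_mul_of_nonneg_left h1 (by linarith only [h2, hπ])
    linarith only [mul_nonneg (sub_nonneg.2 h3) (sub_nonneg.2 h4), h5]
  rw [Finset.sum_range_succ]
  have h1 := Finset.sum_le_sum hl
  rw [Finset.sum_add_distrib, ← Finset.mul_sum, ← Finset.mul_sum,
    Finset.sum_range_sub (fun l => (gS K m E spin s).Rl spin l), Finset.sum_range_sub m] at h1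
  have h2 := F.Rl_nonneg (l := 0) (Nat.zero_le _)
  have h3 := F.Rl_le_one (l := K) le_rfl
  have h4 := hp K le_rfl
  have h5 := hδ K le_rfl
  have h6 : (m (K + 1) - m K) * dev2 (gS K m E spin s) K ≤ δ * 4 := by
    have h7 : (m (K + 1) - m K) * dev2 (gS K m E spin s) K ≤ (m (K + 1) - m K) * 4 :=
      mul_le_mul_of_nonneg_left hK (by linarith)
    linarith only [h7, h5]
  have h7 : 20 * ε₁ / (σ * π) * (m K - m 0) ≤ 20 * ε₁ / (σ * π) := by
    have h8 : m K - m 0 ≤ 1 := by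
      have := hD.hm.1
      have := hD.hm.2.1
      linarith
    have h9 : 0 ≤ 20 * ε₁ / (σ * π) := by positivity
    linarith only [mul_nonneg (sub_nonneg.2 h8) (sub_nonneg.2 h9)]
  have h8 : 2 * δ * ((gS K m E spin s).Rl spin K - (gS K m E spin s).Rl spin 0) ≤ 2 * δ := by
    linarith only [mul_nonneg (sub_nonneg.2 hδ0) (sub_nonneg.2 h3), mul_nonneg (sub_nonneg.2 hδ0) (sub_nonneg.2 h2)]
  linarith

/-- The optimal strengths, uniformly in `N`, `a`, `b`. -/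
theorem opt_main_of {β : ℝ} {κ : ℕ} (hI : InstP β κ) {K : ℕ} {m q : ℕ → ℝ}
    (hm' : Exponents K m) (hq : Path K q)
    (hq1 : q K ≤ 1) {P : ℝ} (hg : GoodPath β K m q P)
    {δ : ℝ} (hδ : ∀ l ≤ K, m (l + 1) - m l ≤ δ) {η : ℝ} (hη : 0 < η) (hη1 : η ≤ 1)
    {ε : ℝ} (hε : 0 < ε) :
    ∃ N₀ : ℕ, ∀ N : ℕ, N₀ ≤ N → 0 < N → ∀ a ∈ Set.Icc (0 : ℝ) 1, ∀ b ∈ Set.Icc (0 : ℝ) 1,
      ∃ s, gIsOpt K m q η (Esk N β a b κ) (spin (N := N)) s ∧
        (∀ j ≤ K, -η ≤ ∑ l ∈ Finset.Ico j (K + 1), (m (l + 1) - m l) *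
          ((skf N K m β a b κ s).Rl spin l - q l)) ∧
        ∑ l ∈ Finset.range (K + 1), (m (l + 1) - m l) * dev2 (skf N K m β a b κ s) l ≤
          6 * δ + ε ∧
        Path K (fun l => (skf N K m β a b κ s).Rl spin l) ∧
        (skf N K m β a b κ s).Rl spin K ≤ 1 := by
  obtain ⟨Cg, hCg0, hCg⟩ := exists_om_gF hI
  obtain ⟨Cw, hCw0, hgd⟩ := hI
  obtain ⟨π, hπ, hp⟩ := up_inc hm'
  obtain ⟨g₀, hg₀⟩ : ∃ g₀ : ℝ, g₀ = spinPart K m (fun l =>
      ∑ j ∈ Finset.range (l + 1), (0 : ℝ) ^ 2) + 1 / 2 * ∑ j ∈ Finset.range (K + 1), (0 : ℝ) ^ 2 :=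
    ⟨_, rfl⟩
  obtain ⟨Cs, hCs⟩ : ∃ Cs : ℝ, Cs = P - β ^ 2 / 4 * trp K m q 2 + Cg := ⟨_, rfl⟩
  obtain ⟨Ct, hCt⟩ : ∃ Ct : ℝ, Ct = |Cs| + |g₀| + Cg + 2 * (K + 1) := ⟨_, rfl⟩
  have hCt0 : 0 < Ct := by rw [hCt]; (clear * - hCg0; positivity)
  obtain ⟨σ, hσ⟩ : ∃ σ : ℝ, σ = η / Ct := ⟨_, rfl⟩
  have hσ0 : 0 < σ := by rw [hσ]; positivity
  obtain ⟨S₀, hS₀⟩ : ∃ S₀ : ℝ, S₀ = 1 / η + 1 / σ ^ 2 := ⟨_, rfl⟩
  obtain ⟨V₀, hV₀⟩ : ∃ V₀ : ℝ, V₀ = β ^ 2 + 2 * Cw := ⟨_, rfl⟩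
  obtain ⟨ε₁, hε₁d⟩ : ∃ ε₁ : ℝ, ε₁ = ε * (σ * π) / 20 := ⟨_, rfl⟩
  have hε₁ : 0 < ε₁ := by rw [hε₁d]; positivity
  -- the parameter `t`
  obtain ⟨t, ht, ht1, ht2⟩ := up_small (F := fun t : ℝ => (2 + 3 / σ ^ 3) * t + 2 * t / σ)
    (by fun_prop) (by simp) (ε := min (ε₁ / 2) 1) (by positivity)
  have ht3 : (2 + 3 / σ ^ 3) * t ≤ ε₁ / 2 := by
    have h1 : 0 ≤ 2 * t / σ := by positivity
    have h2 := min_le_left (ε₁ / 2) 1
    linarith only [h2, h1, ht2]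
  have ht4 : t ≤ σ / 2 := by
    have h1 : 0 ≤ (2 + 3 / σ ^ 3) * t := by positivity
    have h2 := min_le_right (ε₁ / 2) 1
    have h3 : 2 * t / σ ≤ 1 := by linarith only [h2, h1, ht2]
    rw [div_le_one hσ0] at h3
    linarith only [h3]
  -- the number `N`
  have hlim : Tendsto (fun N : ℕ => √((2 + 3 / σ ^ 3) / (m 1 * N)) +
      4 * √((V₀ + (S₀ + 1) ^ 2) / N) / t) atTop (𝓝 0) := by
    have hN : Tendsto (fun N : ℕ => (N : ℝ)⁻¹) atTop (𝓝 0) :=
      tendsto_inv_atTop_zero.comp tendsto_natCast_atTop_atTop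
    have h1 : Tendsto (fun N : ℕ => √((2 + 3 / σ ^ 3) / m 1 * (N : ℝ)⁻¹) +
      4 * √((V₀ + (S₀ + 1) ^ 2) * (N : ℝ)⁻¹) / t) atTop
      (𝓝 (√((2 + 3 / σ ^ 3) / m 1 * 0) +
        4 * √((V₀ + (S₀ + 1) ^ 2) * 0) / t)) :=
      ((hN.const_mul _).sqrt).add ((((hN.const_mul _).sqrt).const_mul _).div_const _)
    simp only [mul_zero, Real.sqrt_zero, zero_div, add_zero] at h1
    refine h1.congr fun N => ?_
    have e1 : (2 + 3 / σ ^ 3) / (m 1 * (N : ℝ)) = (2 + 3 / σ ^ 3) / m 1 * (N : ℝ)⁻¹ := by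
      rw [div_mul_eq_div_div, div_eq_mul_inv]
    have e2 : (V₀ + (S₀ + 1) ^ 2) / (N : ℝ) =
        (V₀ + (S₀ + 1) ^ 2) * (N : ℝ)⁻¹ := div_eq_mul_inv _ _
    rw [e1, e2]
  obtain ⟨N₀, hN₀⟩ := eventually_atTop.1 (hlim.eventually (gt_mem_nhds (half_pos hε₁)))
  refine ⟨N₀, fun N hN hN0 a ha b hb => ?_⟩
  obtain ⟨D, B, w, hD, hDB, -, hBw, hw, hwi⟩ := hgd N K m a b hN0 hm' ha hb
  have hN' : (0 : ℝ) < N := by exact_mod_cast hN0
  -- the upper bound of the objective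
  have hC : ∀ s : ℕ → ℝ, (∀ j ≤ K, 0 ≤ s j) → gF K m (Esk N β a b κ) (spin (N := N)) s -
      1 / 2 * ∑ j ∈ Finset.range (K + 1), aco K m q j * s j ^ 2 ≤ Cs := by
    intro s hs
    have h1 := u4_sub (β := β) (P := P) hN0 hm' κ hg hs
    have h2 := (abs_le.1 (hCg N K m a b s hN0 hm' ha hb)).2
    rw [hCs]
    linarith only [h2, h1]
  obtain ⟨s, hs⟩ := Gen.exists_gIsOpt hD hη hC
  -- the bounds of the strengths
  have hlow : ∀ j ≤ K, σ ≤ s j := by
    intro j hj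
    have h1 := hs.lower hD hq hη hη1 hC hj
    have h2 := (abs_le.1 (hCg N K m a b (fun _ => 0) hN0 hm' ha hb)).1
    have h3 := u4_gF hN0 hm' (β := β) κ (s := fun _ => 0) fun _ _ => le_rfl
    rw [← hg₀] at h3
    have h4 := hs.pos j hj
    rw [hσ, div_le_iff₀ hCt0]
    refine h1.trans (mul_le_mul_of_nonneg_left ?_ h4.le)
    rw [hCt]
    have h5 := le_abs_self Cs
    have h6 := neg_abs_le g₀
    linarith only [h6, h5, h3, h2]
  have hup : s 0 ≤ S₀ := by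
    rw [hS₀]
    exact hs.upper hD hq hq1 hη hσ0 (hlow 0 (Nat.zero_le _))
  have hW : EG fun z : Ix N → ℝ => (N : ℝ) * (β ^ 2 + 2 * w z) :=
    ((EG.const _).add (hw.const_mul 2)).const_mul _
  have hV : ∫ z, (N : ℝ) * (β ^ 2 + 2 * w z) ∂(gI (Ix N)) ≤ N * V₀ := by
    rw [integral_const_mul, integral_add (integrable_const _) (hw.const_mul 2).integrable,
      integral_const_mul]
    refine mul_le_mul_of_nonneg_left ?_ hN'.le
    simp only [integral_const, probReal_univ, one_smul]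
    have h1 : b ^ 2 ≤ 1 := by (by_contra nlg; linarith only [nlg, mul_nonneg (sub_nonneg.2 hb.2) (sub_nonneg.2 hb.2), mul_nonneg (sub_nonneg.2 hb.1) (sub_nonneg.2 hb.2), mul_nonneg (le_of_lt (sub_pos.2 (not_le.1 nlg))) (sub_nonneg.2 ht1), mul_pos (sub_pos.2 (not_le.1 nlg)) (sub_pos.2 ht)])
    have h2 : Cw * b ^ 2 ≤ Cw := by (by_contra nlg; linarith only [nlg, mul_nonneg (sub_nonneg.2 hCw0) (sub_nonneg.2 h1), mul_nonneg (le_of_lt (sub_pos.2 (not_le.1 nlg))) (sub_nonneg.2 ht1), mul_pos (sub_pos.2 (not_le.1 nlg)) (sub_pos.2 ht)])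
    rw [hV₀]
    linarith only [h2, hwi]
  have hconc : ∀ l ≤ K, ∃ c, (gS K m (Esk N β a b κ) spin s).Ex
      (fun z x => |hz spin gz l z x - c|) ≤ ε₁ := by
    intro l hl
    obtain ⟨c, hc⟩ := hs.conc hD hq hη hη1 hσ0 hlow hup hW
      (om_sum_sq_le hN0 ha hDB hBw) hV hl ht ht1 ht4
    refine ⟨c, hc.trans ?_⟩
    have := hN₀ N hN
    linarith only [this, ht3]
  have hs0 : ∀ l ≤ K, 0 ≤ s l := fun l hl => (hs.pos l hl).le
  refine ⟨s, hs, fun j hj => ?_, ?_, om_path hD hs0, (Gen.gS_fld hD hs0).Rl_le_one le_rfl⟩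
  · have h1 := hs.tails hD hj
    have h2 := hs.pos j hj
    have h3 : 0 ≤ η / s j ^ 3 := by positivity
    show -η ≤ ∑ l ∈ Finset.Ico j (K + 1), (m (l + 1) - m l) *
      ((gS K m (Esk N β a b κ) spin s).Rl spin l - q l)
    rw [h1]
    linarith only [h3]
  · have h1 := om_dev hD hδ hπ hp hσ0 hlow hε₁.le hconc
    have h2 : 20 * ε₁ / (σ * π) = ε := by
      rw [hε₁d]
      field_simp
    rw [h2] at h1
    exact h1

end Vale.Agent.P146.Sk
end

section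

/-!
UP, the inputs: the SK instance, the values, the optimal strengths.
-/

open MeasureTheory ProbabilityTheory Matrix Filter Topology
open scoped Matrix.Norms.L2Operator

namespace Vale.Agent.P146.Sk

open Vale.Agent.P157 (spin)
open Vale.Agent.P157.Lv
open Vale.Agent.P157.Par (Path Exponents topN lw spinPart)
open Gen (GI gz gl r0 gS gF gOb gIsOpt GD)

variable {N K : ℕ}

/-- The hypotheses of the generic system. -/
theorem exists_gd (β : ℝ) (κ : ℕ) (N K : ℕ) (m : ℕ → ℝ) (hN : 0 < N) (hm' : Exponents K m)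
    (a b : ℝ) : ∃ D, GD K m (Esk N β a b κ) D (spin (N := N)) := exists_gd' β κ N K m hN hm' a b

/-- The values: `T_p ≈ (β a)^p tr R^{p+1}`. -/
theorem exists_val (β : ℝ) (hβ : 0 ≤ β) (κ : ℕ) : ∃ C : ℝ, 0 ≤ C ∧ ∃ θ : ℕ → ℝ,
    Tendsto θ atTop (𝓝 0) ∧
    ∀ (N K : ℕ) (m : ℕ → ℝ) (a b : ℝ) (s : ℕ → ℝ), 0 < N → Exponents K m →
      a ∈ Set.Icc (0 : ℝ) 1 → b ∈ Set.Icc (0 : ℝ) 1 → (∀ l ≤ K, 0 ≤ s l) →
      ∀ p ≤ κ, |Td (skf N K m β a b κ s) p -
        (β * a) ^ p * trp K m (fun l => (skf N K m β a b κ s).Rl spin l) (p + 1)| ≤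
        C * (√(∑ l ∈ Finset.range (K + 1), (m (l + 1) - m l) * dev2 (skf N K m β a b κ s) l) +
          b + θ N) := exists_val' β hβ κ

/-- The optimal strengths, uniformly in `N`, `a`, `b`. -/
theorem opt_main (β : ℝ) (κ : ℕ) {K : ℕ} {m q : ℕ → ℝ} (hm' : Exponents K m) (hq : Path K q)
    (hq1 : q K ≤ 1) {P : ℝ} (hg : GoodPath β K m q P)
    {δ : ℝ} (hδ : ∀ l ≤ K, m (l + 1) - m l ≤ δ) {η : ℝ} (hη : 0 < η) (hη1 : η ≤ 1)
    {ε : ℝ} (hε : 0 < ε) :
    ∃ N₀ : ℕ, ∀ N : ℕ, N₀ ≤ N → 0 < N → ∀ a ∈ Set.Icc (0 : ℝ) 1, ∀ b ∈ Set.Icc (0 : ℝ) 1,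
      ∃ s, gIsOpt K m q η (Esk N β a b κ) (spin (N := N)) s ∧
        (∀ j ≤ K, -η ≤ ∑ l ∈ Finset.Ico j (K + 1), (m (l + 1) - m l) *
          ((skf N K m β a b κ s).Rl spin l - q l)) ∧
        ∑ l ∈ Finset.range (K + 1), (m (l + 1) - m l) * dev2 (skf N K m β a b κ s) l ≤
          6 * δ + ε ∧
        Path K (fun l => (skf N K m β a b κ s).Rl spin l) ∧
        (skf N K m β a b κ s).Rl spin K ≤ 1 :=
  opt_main_of (instP β κ) hm' hq hq1 hg hδ hη hη1 hε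

end Vale.Agent.P146.Sk
end

section

/-!
UP, part 1: tangent inequalities in `(a, b)`, the cutoff, the coefficients `Ck`.
-/

open MeasureTheory ProbabilityTheory Matrix Filter Topology
open scoped Matrix.Norms.L2Operator

namespace Vale.Agent.P146.Sk

open Vale.Agent.P157 (spin)
open Vale.Agent.P157.Lv
open Vale.Agent.P157.Par (Path Exponents topN lw spinPart)
open Gen (GI gz gl r0 gS gF gOb gIsOpt GD)

variable {N K : ℕ}

/-- U1: the tangent inequality in `(a, b)`. -/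
theorem tangent_ab (hN : 0 < N) {m : ℕ → ℝ} (hm' : Exponents K m) (β : ℝ) (κ : ℕ)
    (a b a' b' : ℝ) (s : ℕ → ℝ) :
    gF K m (Esk N β a b κ) spin s + β / 2 * ((a' - a) * Td (skf N K m β a b κ s) 1 -
      (b' - b) * Tc (skf N K m β a b κ s) κ) ≤ gF K m (Esk N β a' b' κ) spin s := by
  obtain ⟨D, hD⟩ := exists_gd β κ N K m hN hm' a b
  obtain ⟨D', hD'⟩ := exists_gd β κ N K m hN hm' a' b'
  have h1 := Gen.gF_tangentE hD hD' s
  have hS := Gen.gS_reg hD s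
  have e : (fun (z : GI (Ix N) N K → ℝ) (x : Fin N → Bool) =>
      Esk N β a' b' κ (r0 z) x - Esk N β a b κ (r0 z) x) =
      fun z x => (β / 2 * (a' - a)) * qf (Um (Wm N (r0 z)) 1) (spin x) -
        (β / 2 * (b' - b)) * (cut N (r0 z) * qf (Um (Wm N (r0 z)) κ) (spin x)) := by
    funext z x
    unfold Esk
    rw [Um_one]
    ring
  rw [e, hS.Ex_sub (Sy.Nh.const_mul _ (nh_qf_Um 1)) (Sy.Nh.const_mul _ (nh_cut_qf_Um κ)),
    Sy.Ex_const_mul, Sy.Ex_const_mul] at h1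
  unfold Td Tc
  have e2 : β / 2 * ((a' - a) * (1 / N * (skf N K m β a b κ s).Ex
      (fun z x => qf (Um (Wm N (r0 z)) 1) (spin x))) -
      (b' - b) * (1 / N * (skf N K m β a b κ s).Ex
      (fun z x => cut N (r0 z) * qf (Um (Wm N (r0 z)) κ) (spin x)))) =
      1 / N * (β / 2 * (a' - a) * (skf N K m β a b κ s).Ex
      (fun z x => qf (Um (Wm N (r0 z)) 1) (spin x)) -
      β / 2 * (b' - b) * (skf N K m β a b κ s).Ex
      (fun z x => cut N (r0 z) * qf (Um (Wm N (r0 z)) κ) (spin x))) := by ring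
  rw [e2]
  linarith only [h1]

/-- The average of a level zero bound. -/
lemma abs_Ex_le_om {m : ℕ → ℝ} {β a b : ℝ} {κ : ℕ} {s : ℕ → ℝ} (hN : 0 < N)
    (hm' : Exponents K m) {h : (GI (Ix N) N K → ℝ) → (Fin N → Bool) → ℝ} (hh : Nh h)
    {W : (Ix N → ℝ) → ℝ} (hW : EG W) (hle : ∀ z x, |h z x| ≤ N * W (r0 z)) :
    |1 / N * (skf N K m β a b κ s).Ex h| ≤ ∫ g, W g ∂(gI (Ix N)) := by
  obtain ⟨D, hD⟩ := exists_gd β κ N K m hN hm' a b
  have hS := Gen.gS_reg hD s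
  have hN' : (0 : ℝ) < N := by exact_mod_cast hN
  have h1 := hS.abs_Ex_le hh
  have h2 : (skf N K m β a b κ s).Ex (fun z x => |h z x|) ≤
      (skf N K m β a b κ s).Ex (fun z _ => N * W (r0 z)) :=
    hS.Ex_mono (Sy.Nh.abs hh) (Sy.Nh.fst ((Gen.EG.r0 hW).const_mul _)) hle
  have h3 : (skf N K m β a b κ s).Ex (fun z _ => N * W (r0 z)) = N * ∫ g, W g ∂(gI (Ix N)) := by
    rw [← Gen.gS_Ex_zero hD s hW, ← Sy.Ex_const_mul]
  rw [h3] at h2
  rw [abs_mul, abs_of_pos (by positivity : (0 : ℝ) < 1 / N)]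
  calc 1 / (N : ℝ) * |(skf N K m β a b κ s).Ex h| ≤ 1 / N * (N * ∫ g, W g ∂(gI (Ix N))) :=
        mul_le_mul_of_nonneg_left (h1.trans h2) (by positivity)
    _ = _ := by field_simp

/-- U3: the averages are bounded uniformly. -/
theorem exists_Tc_le (κ : ℕ) : ∃ C : ℝ, 0 ≤ C ∧ ∀ (N K : ℕ) (m : ℕ → ℝ) (β a b : ℝ)
    (s : ℕ → ℝ), 0 < N → Exponents K m →
    |Tc (skf N K m β a b κ s) κ| ≤ C ∧ |Td (skf N K m β a b κ s) κ| ≤ C := by
  obtain ⟨C, hC1, hC⟩ := exists_om_moment κ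
  refine ⟨C, by linarith, fun N K m β a b s hN hm' => ⟨?_, ?_⟩⟩
  · refine (abs_Ex_le_om hN hm' (nh_cut_qf_Um κ) (eg_om.pow κ) fun z x => ?_).trans (hC N)
    rw [abs_mul, abs_of_nonneg (cut_nonneg _)]
    calc cut N (r0 z) * |qf (Um (Wm N (r0 z)) κ) (spin x)| ≤
        1 * |qf (Um (Wm N (r0 z)) κ) (spin x)| :=
          mul_le_mul_of_nonneg_right (cut_le_one _) (abs_nonneg _)
      _ ≤ _ := by rw [one_mul]; exact abs_qf_Um_le _ _ _
  · exact (abs_Ex_le_om hN hm' (nh_qf_Um κ) (eg_om.pow κ) fun z x =>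
      abs_qf_Um_le _ _ _).trans (hC N)

/-- The part of the moments where the cutoff is active. -/
lemma exists_int_cut_le (κ : ℕ) : ∃ C : ℝ, 0 ≤ C ∧ ∀ N : ℕ, 0 < N →
    ∫ g, (1 - cut N g) * om N g ^ κ ∂(gI (Ix N)) ≤ C / √N := by
  obtain ⟨C, hC1, hC⟩ := exists_om_moment (2 * κ)
  refine ⟨1 + C, by linarith, fun N hN => ?_⟩
  have hN' : (0 : ℝ) < N := by exact_mod_cast hN
  have hs : 0 < √(N : ℝ) := Real.sqrt_pos.2 hN'
  have hss : √(N : ℝ) * √(N : ℝ) = N := Real.mul_self_sqrt hN'.le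
  have e1 : EG (fun g : Ix N → ℝ => 1 - cut N g) := (EG.const 1).sub eg_cut
  have e2 : EG (fun g : Ix N → ℝ => om N g ^ (2 * κ)) := eg_om.pow _
  -- pointwise AM-GM
  have h1 : ∀ g : Ix N → ℝ, (1 - cut N g) * om N g ^ κ ≤
      √N * (1 - cut N g) + 1 / √N * om N g ^ (2 * κ) := by
    intro g
    have c0 : 0 ≤ 1 - cut N g := by linarith [cut_le_one g]
    have c1 : 1 - cut N g ≤ 1 := by linarith [cut_nonneg g]
    have w0 : 0 ≤ om N g ^ κ := pow_nonneg (om_nonneg g) _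
    have w2 : om N g ^ (2 * κ) = (om N g ^ κ) ^ 2 := by rw [mul_comm, pow_mul]
    rw [w2]
    set c := 1 - cut N g
    set w := om N g ^ κ
    have h3 : 0 ≤ (√N * c - w) ^ 2 := sq_nonneg _
    have h4 : √(N : ℝ) * (√N * c + 1 / √N * w ^ 2 - c * w) =
        N * c - √N * c * w + w ^ 2 := by
      field_simp
      rw [show √(N : ℝ) ^ 2 = N from Real.sq_sqrt hN'.le]
      ring
    have h5 : 0 ≤ √(N : ℝ) * (√N * c + 1 / √N * w ^ 2 - c * w) := by
      rw [h4]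
      have h6 : (N : ℝ) * c ^ 2 ≤ N * c := by
        have : c ^ 2 ≤ c := by linarith only [mul_nonneg (sub_nonneg.2 c0) (sub_nonneg.2 c1)]
        exact mul_le_mul_of_nonneg_left this hN'.le
      have h7 : (√(N : ℝ) * c - w) ^ 2 = N * c ^ 2 - 2 * (√N * c * w) + w ^ 2 := by
        calc (√(N : ℝ) * c - w) ^ 2 = (√N * √N) * c ^ 2 - 2 * (√N * c * w) + w ^ 2 := by ring
          _ = _ := by rw [hss]
      have h8 : 0 ≤ √(N : ℝ) * c * w := by (clear * - hN c0 w0; positivity)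
      linarith only [h8, h7, h6, h3]
    have h6 := nonneg_of_mul_nonneg_right h5 hs
    linarith only [h6]
  have h2 : ∫ g, (1 - cut N g) * om N g ^ κ ∂(gI (Ix N)) ≤
      ∫ g, (√N * (1 - cut N g) + 1 / √N * om N g ^ (2 * κ)) ∂(gI (Ix N)) :=
    integral_mono (e1.mul (eg_om.pow κ)).integrable
      ((e1.const_mul _).add (e2.const_mul _)).integrable h1
  rw [integral_add (e1.const_mul _).integrable (e2.const_mul _).integrable,
    integral_const_mul, integral_const_mul] at h2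
  have h3 := int_one_sub_cut_le hN
  have h4 := hC N
  calc _ ≤ √N * ∫ g, (1 - cut N g) ∂(gI (Ix N)) +
        1 / √N * ∫ g, om N g ^ (2 * κ) ∂(gI (Ix N)) := h2
    _ ≤ √N * (1 / N) + 1 / √N * C := by gcongr
    _ = (1 + C) / √N := by
      have : √(N : ℝ) * (1 / N) = 1 / √N := by rw [mul_one_div, Real.sqrt_div_self']
      rw [this]
      ring

/-- U2: the cutoff is harmless. -/
theorem exists_Tc_sub_le (κ : ℕ) : ∃ C : ℝ, 0 ≤ C ∧ ∀ (N K : ℕ) (m : ℕ → ℝ) (β a b : ℝ)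
    (s : ℕ → ℝ), 0 < N → Exponents K m →
    |Tc (skf N K m β a b κ s) κ - Td (skf N K m β a b κ s) κ| ≤ C / √N := by
  obtain ⟨C, hC0, hC⟩ := exists_int_cut_le κ
  refine ⟨C, hC0, fun N K m β a b s hN hm' => ?_⟩
  obtain ⟨D, hD⟩ := exists_gd β κ N K m hN hm' a b
  have hS := Gen.gS_reg hD s
  unfold Tc Td
  rw [← mul_sub, ← hS.Ex_sub (nh_cut_qf_Um κ) (nh_qf_Um κ)]
  refine (abs_Ex_le_om hN hm' (Sy.Nh.sub (nh_cut_qf_Um κ) (nh_qf_Um κ))
    (((EG.const 1).sub eg_cut).mul (eg_om.pow κ)) fun z x => ?_).trans (hC N hN)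
  have e : cut N (r0 z) * qf (Um (Wm N (r0 z)) κ) (spin x) - qf (Um (Wm N (r0 z)) κ) (spin x) =
      -((1 - cut N (r0 z)) * qf (Um (Wm N (r0 z)) κ) (spin x)) := by ring
  rw [e, abs_neg, abs_mul, abs_of_nonneg (by linarith [cut_le_one (N := N) (r0 z)])]
  calc (1 - cut N (r0 z)) * |qf (Um (Wm N (r0 z)) κ) (spin x)| ≤
      (1 - cut N (r0 z)) * (N * om N (r0 z) ^ κ) :=
        mul_le_mul_of_nonneg_left (abs_qf_Um_le _ _ _) (by linarith [cut_le_one (N := N) (r0 z)])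
    _ = _ := by ring

/-- If the energy depends only on the level zero, all log-weights are equal. -/
lemma lg_eq_top {ι X : Type} [Fintype ι] [Fintype X] [Nonempty X] {S : Sy ι X} (hS : S.Reg)
    (h : ∀ x, Dep S.lev 0 fun z => S.H z x) : ∀ l ≤ S.K, S.lg l = S.top := by
  have hd : ∀ l, Dep S.lev l S.top := by
    intro l z w
    unfold Sy.top
    have : ∀ x, S.H (mix S.lev l z w) x = S.H z x := fun x => (h x).mono (Nat.zero_le l) z w
    simp only [this]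
  refine Sy.down_ind (P := fun l => S.lg l = S.top) (Sy.lg_top S) fun l hl ih => ?_
  have hm1 : S.m (l + 1) ≠ 0 := (hS.m_pos (Nat.succ_le_succ (Nat.zero_le l)) (by omega)).ne'
  rw [Sy.lg_step S hl, ih]
  funext z
  unfold Sy.stp
  have h2 : Dep S.lev l fun z => Real.exp (S.m (l + 1) * S.top z) := by
    intro z w
    simp only [hd l z w]
  rw [h2.J_eq, Real.log_exp]
  field_simp

/-- The average of the system without fields. -/
theorem Ex_no_field (hN : 0 < N) {m : ℕ → ℝ} (hm' : Exponents K m) (β : ℝ) (κ : ℕ)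
    {h : (Ix N → ℝ) → (Fin N → Bool) → ℝ} (hh : ∀ x, EG fun g => h g x) :
    (skf N K m β 1 0 κ (fun _ => 0)).Ex (fun z x => h (r0 z) x) =
      ∫ g, gav β N g (h g) ∂(gI (Ix N)) := by
  obtain ⟨D, hD⟩ := exists_gd β κ N K m hN hm' 1 0
  have hS := Gen.gS_reg hD (fun _ => 0)
  have hH : ∀ (z : GI (Ix N) N K → ℝ) x,
      (skf N K m β 1 0 κ (fun _ => 0)).H z x = Esk N β 1 0 κ (r0 z) x := by
    intro z x
    simp [gS, Gen.gH]
  have hr : ∀ z w : GI (Ix N) N K → ℝ, r0 (mix gl 0 z w) = r0 z := by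
    intro z w
    funext e
    unfold r0 mix
    exact if_pos (le_refl 0)
  have hdep : ∀ x, Dep (skf N K m β 1 0 κ (fun _ => 0)).lev 0
      fun z => (skf N K m β 1 0 κ (fun _ => 0)).H z x := by
    intro x z w
    show (skf N K m β 1 0 κ (fun _ => 0)).H (mix gl 0 z w) x =
      (skf N K m β 1 0 κ (fun _ => 0)).H z x
    rw [hH, hH, hr]
  have hlg := lg_eq_top hS hdep
  have hdn : ∀ z, (skf N K m β 1 0 κ (fun _ => 0)).dn 0 z = 1 := by
    intro z
    unfold Sy.dn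
    rw [Finset.sum_eq_zero, Real.exp_zero]
    intro i hi
    have hi' := Finset.mem_Ico.1 hi
    rw [hlg (i + 1) hi'.2, hlg i hi'.2.le]
    ring
  have hgb : ∀ (g : Ix N → ℝ) (x : Fin N → Bool), EG fun z : GI (Ix N) N K → ℝ =>
      (skf N K m β 1 0 κ (fun _ => 0)).gb z x := fun g x => hS.eg_gb x
  have e1 : ∀ (z : GI (Ix N) N K → ℝ) (u : (Fin N → Bool) → ℝ),
      ∑ x, (skf N K m β 1 0 κ (fun _ => 0)).gb z x * u x = gav β N (r0 z) u := by
    intro z u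
    unfold gav Sy.gb
    rw [Finset.sum_div]
    refine Finset.sum_congr rfl fun x _ => ?_
    have e2 : ∀ x, Real.exp ((skf N K m β 1 0 κ (fun _ => 0)).H z x) =
        Real.exp (β / 2 * qf (Wm N (r0 z)) (spin x)) * Real.exp (-(N * Real.log 2)) := by
      intro x
      rw [hH, ← Real.exp_add]
      unfold Esk
      congr 1
      ring
    simp only [e2]
    rw [← Finset.sum_mul, mul_div_mul_right _ _ (Real.exp_pos _).ne']
    ring
  -- growth of `gav`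
  have hW : EG fun g : Ix N → ℝ => gav β N g (h g) := by
    have hZ : ∀ x : Fin N → Bool, EG fun g : Ix N → ℝ =>
        Real.exp (β / 2 * qf (Wm N g) (spin x)) /
          ∑ y : Fin N → Bool, Real.exp (β / 2 * qf (Wm N g) (spin y)) := by
      intro x
      have hm1 : ∀ y : Fin N → Bool, Measurable fun g : Ix N → ℝ =>
          Real.exp (β / 2 * qf (Wm N g) (spin y)) := fun y => by
        have := (eg_qf_Um (N := N) 1 (spin y)).meas
        simp only [Um_one] at this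
        exact Real.measurable_exp.comp (this.const_mul _)
      refine EG.of_bdd ((hm1 x).div (Finset.measurable_sum _ fun y _ => hm1 y)) (C := 1)
        fun g => ?_
      have hs : 0 < ∑ y : Fin N → Bool, Real.exp (β / 2 * qf (Wm N g) (spin y)) :=
        Finset.sum_pos (fun y _ => Real.exp_pos _) Finset.univ_nonempty
      rw [abs_of_nonneg (by (clear * -; positivity)), div_le_one hs]
      exact Finset.single_le_sum (f := fun y : Fin N → Bool =>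
        Real.exp (β / 2 * qf (Wm N g) (spin y))) (fun y _ => (Real.exp_pos _).le)
        (Finset.mem_univ x)
    have : (fun g : Ix N → ℝ => gav β N g (h g)) = fun g => ∑ x : Fin N → Bool,
        (Real.exp (β / 2 * qf (Wm N g) (spin x)) /
          ∑ y : Fin N → Bool, Real.exp (β / 2 * qf (Wm N g) (spin y))) * h g x := by
      funext g
      unfold gav
      rw [Finset.sum_div]
      refine Finset.sum_congr rfl fun x _ => ?_
      ring
    rw [this]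
    exact EG.sum _ fun x _ => (hZ x).mul (hh x)
  rw [← Gen.gS_Ex_zero hD (fun _ => 0) hW]
  unfold Sy.Ex Sy.av
  refine integral_congr_ae (Filter.Eventually.of_forall fun z => ?_)
  show (skf N K m β 1 0 κ (fun _ => 0)).dn 0 z * _ = (skf N K m β 1 0 κ (fun _ => 0)).dn 0 z * _
  rw [e1 z (h (r0 z)), e1 z (fun _ => gav β N (r0 z) (h (r0 z)))]
  congr 1
  unfold gav
  rw [← Finset.sum_mul]
  have hs : (∑ y : Fin N → Bool, Real.exp (β / 2 * qf (Wm N (r0 z)) (spin y))) ≠ 0 :=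
    (Finset.sum_pos (fun y _ => Real.exp_pos _) Finset.univ_nonempty).ne'
  field_simp

/-- U5': the pressure at `b = 0`. -/
theorem gF_eq_pN (β : ℝ) (κ : ℕ) (hN : 0 < N) {m : ℕ → ℝ} (hm' : Exponents K m) :
    gF K m (Esk N β 1 0 κ) (spin (N := N)) (fun _ => 0) = pN β N := by
  obtain ⟨D, hD⟩ := exists_gd β κ N K m hN hm' 1 0
  rw [Gen.gF_no_field hD]
  unfold pN Ft Esk
  simp only [one_mul, zero_mul, sub_zero]

/-- U5: the pressure of the perturbed model without fields, compared with the coefficients `Ck`. -/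
theorem exists_Ck_ge (β : ℝ) (hβ : 0 ≤ β) (κ : ℕ) : ∃ C : ℝ, 0 ≤ C ∧ ∀ (N K : ℕ) (m : ℕ → ℝ)
    (b : ℝ), 0 < N → Exponents K m → b ∈ Set.Icc (0 : ℝ) 1 →
    pN β N - gF K m (Esk N β 1 b κ) (spin (N := N)) (fun _ => 0) ≤
      b / 2 * (Ck β κ N + C / √N) := by
  obtain ⟨C, hC0, hC⟩ := exists_Tc_sub_le κ
  refine ⟨β * C, by positivity, fun N K m b hN hm' hb => ?_⟩
  have h1 := tangent_ab hN hm' β κ 1 0 1 b (fun _ => 0)
  rw [gF_eq_pN β κ hN hm'] at h1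
  have h2 := (abs_le.1 (hC N K m β 1 0 (fun _ => 0) hN hm')).2
  have h3 : β * Td (skf N K m β 1 0 κ (fun _ => 0)) κ = Ck β κ N := by
    unfold Td Ck
    rw [Ex_no_field hN hm' β κ (h := fun g x => qf (Um (Wm N g) κ) (spin x))
      fun x => eg_qf_Um κ (spin x)]
    ring
  have h4 : β * C / √N = β * (C / √N) := by ring
  rw [h4, ← h3]
  have h5 : b / 2 * (β * Tc (skf N K m β 1 0 κ (fun _ => 0)) κ) ≤
      b / 2 * (β * (Td (skf N K m β 1 0 κ (fun _ => 0)) κ + C / √N)) := by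
    refine mul_le_mul_of_nonneg_left (mul_le_mul_of_nonneg_left (by linarith only [h2]) hβ) ?_
    linarith [hb.1]
  linarith only [h5, h1]

end Vale.Agent.P146.Sk
end

section

/-!
# P146 / Pw2, module GDQ: the instance of the generic system with the energy
`(β/2) (a x·Wx - b x·Bx)`, `B = Im (W - 2 - i y)⁻¹`, tangent inequalities and bounds
-/

open MeasureTheory ProbabilityTheory Matrix Filter Topology

namespace Vale.Agent.P146.Pw2

open Vale.Agent.P157 (spin)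
open Vale.Agent.P157.Lv
open Vale.Agent.P157.Par (Path Exponents topN lw spinPart)
open Vale.Agent.P146.Sk
open Vale.Agent.P146.Sk.Gen (GI gz gl r0 gS gF gOb gIsOpt GD gV)

set_option linter.all false

variable {N K : ℕ} {y : ℝ}

namespace Gd

/-- The quadratic form of `A E B`. -/
lemma qf_mul_Em_mul {A : Matrix (Fin N) (Fin N) ℝ} (hA : Aᵀ = A) (B : Matrix (Fin N) (Fin N) ℝ)
    (e : Ix N) (x : Fin N → ℝ) : qf (A * Em N e * B) x = Me (A *ᵥ x) (B *ᵥ x) e := by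
  have hA' : ∀ i j, A i j = A j i := fun i j => by
    conv_lhs => rw [← hA]
    rfl
  unfold qf
  have h1 : ∀ i j, x i * (A * Em N e * B) i j * x j =
      ((A e.1 i * x i) * (B e.2 j * x j) + (A e.2 i * x i) * (B e.1 j * x j)) /
        √(2 * (N : ℝ)) := by
    intro i j
    rw [mul_Em_mul, hA' i e.1, hA' i e.2]
    ring
  simp only [h1, ← Finset.sum_div, Finset.sum_add_distrib, ← Finset.mul_sum, ← Finset.sum_mul]
  rfl

lemma Me_comm (u v : Fin N → ℝ) (e : Ix N) : Me u v e = Me v u e := by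
  unfold Me
  ring

lemma qf_add (A B : Matrix (Fin N) (Fin N) ℝ) (x : Fin N → ℝ) :
    qf (A + B) x = qf A x + qf B x := by
  unfold qf
  simp only [Matrix.add_apply, mul_add, add_mul, Finset.sum_add_distrib]

/-- `∂_e x·Bx` -/
lemma pd_qf_by (hy : 0 < y) (e : Ix N) (x : Fin N → ℝ) :
    PD e (fun g => qf (By y (Wm N g)) x)
      (fun g => 2 * Me (Ay y (Wm N g) *ᵥ x) (By y (Wm N g) *ᵥ x) e) := by
  refine (Ins.pd_qf (pdm_by hy e) x).congr fun g => ?_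
  rw [qf_add, qf_mul_Em_mul (ay_symm hy (Wm_transpose g)),
    qf_mul_Em_mul (by_symm (Wm_transpose g)), Me_comm (By y (Wm N g) *ᵥ x)]
  ring

/-- the perturbation -/
noncomputable def Bq (N : ℕ) (β y b : ℝ) (e : Ix N) (g : Ix N → ℝ) (x : Fin N → Bool) : ℝ :=
  -(β * b) * Me (Ay y (Wm N g) *ᵥ spin x) (By y (Wm N g) *ᵥ spin x) e

/-- the derivatives of the energy -/
noncomputable def Dq (N : ℕ) (β y a b : ℝ) (e : Ix N) (g : Ix N → ℝ)
    (x : Fin N → Bool) : ℝ :=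
  β * a * (spin x e.1 * spin x e.2 / √(2 * (N : ℝ))) + Bq N β y b e g x

lemma pd_Ey (hy : 0 < y) (β a b : ℝ) (e : Ix N) (x : Fin N → Bool) :
    PD e (fun g => Ey N β y a b g x) (fun g => Dq N β y a b e g x) := by
  have h1 := Ins.pd_qf (pdm_Wm e) (spin x)
  have h2 := pd_qf_by hy e (spin x)
  have h3 := (((h1.const_mul a).sub (h2.const_mul b)).const_mul (β / 2)).sub
    (PD.const (e := e) ((N : ℝ) * Real.log 2))
  refine h3.congr fun g => ?_
  simp only [Dq, Bq, Ins.qf_Em]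
  ring

lemma sum_Bq_sq (hN : 0 < N) (hy : 0 < y) (β b : ℝ) (g : Ix N → ℝ) (x : Fin N → Bool) :
    ∑ e, Bq N β y b e g x ^ 2 ≤ N * (2 * β ^ 2 * b ^ 2 / y ^ 4) := by
  have hN' : (0 : ℝ) < N := by exact_mod_cast hN
  have h1 : ∀ e, Bq N β y b e g x ^ 2 = β ^ 2 * b ^ 2 *
      Me (Ay y (Wm N g) *ᵥ spin x) (By y (Wm N g) *ᵥ spin x) e ^ 2 := by
    intro e
    unfold Bq
    ring
  simp only [h1, ← Finset.mul_sum]
  have h2 := sum_Me_sq hN (Ay y (Wm N g) *ᵥ spin x) (By y (Wm N g) *ᵥ spin x)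
  have hs : nv (spin x) ^ 2 = (N : ℝ) := by rw [nv_sq, sum_spin_sq]
  have h3 : nv (Ay y (Wm N g) *ᵥ spin x) ^ 2 ≤ N / y ^ 2 := by
    have h := pow_le_pow_left₀ (nv_nonneg _) (opB_ay hy (Wm_transpose g) (spin x)) 2
    rw [mul_pow, hs] at h
    refine h.trans (le_of_eq ?_)
    field_simp
  have h4 : nv (By y (Wm N g) *ᵥ spin x) ^ 2 ≤ N / y ^ 2 := by
    have h := pow_le_pow_left₀ (nv_nonneg _) (opB_by hy (Wm_transpose g) (spin x)) 2
    rw [mul_pow, hs] at h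
    refine h.trans (le_of_eq ?_)
    field_simp
  calc β ^ 2 * b ^ 2 * ∑ e : Ix N,
        Me (Ay y (Wm N g) *ᵥ spin x) (By y (Wm N g) *ᵥ spin x) e ^ 2
      ≤ β ^ 2 * b ^ 2 * (2 / N * ((N / y ^ 2) * (N / y ^ 2))) := by
        refine mul_le_mul_of_nonneg_left (h2.trans ?_) (by positivity)
        refine mul_le_mul_of_nonneg_left ?_ (by positivity)
        exact mul_le_mul h3 h4 (sq_nonneg _) (by positivity)
    _ = _ := by
        field_simp

lemma abs_Bq_le (hN : 0 < N) (hy : 0 < y) (β b : ℝ) (e : Ix N) (g : Ix N → ℝ)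
    (x : Fin N → Bool) : |Bq N β y b e g x| ≤ √(N * (2 * β ^ 2 * b ^ 2 / y ^ 4)) := by
  refine Real.abs_le_sqrt (le_trans ?_ (sum_Bq_sq hN hy β b g x))
  exact Finset.single_le_sum (f := fun e => Bq N β y b e g x ^ 2) (fun e _ => sq_nonneg _)
    (Finset.mem_univ e)

lemma abs_Dq_le (hN : 0 < N) (hy : 0 < y) (β a b : ℝ) (e : Ix N) (g : Ix N → ℝ)
    (x : Fin N → Bool) : |Dq N β y a b e g x| ≤
      |β * a| * (1 / √(2 * (N : ℝ))) + √(N * (2 * β ^ 2 * b ^ 2 / y ^ 4)) := by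
  unfold Dq
  refine (abs_add_le _ _).trans (add_le_add ?_ (abs_Bq_le hN hy β b e g x))
  rw [abs_mul]
  refine mul_le_mul_of_nonneg_left (le_of_eq ?_) (abs_nonneg _)
  rw [abs_div, abs_of_nonneg (Real.sqrt_nonneg _)]
  congr 1
  have e1 : ∀ i, |spin x i| = 1 := fun i => by unfold spin; split_ifs <;> norm_num
  rw [abs_mul, e1, e1, one_mul]

lemma measurable_mulVec {A : (Ix N → ℝ) → Matrix (Fin N) (Fin N) ℝ} (hA : EGM A)
    (x : Fin N → ℝ) (i : Fin N) : Measurable fun g => (A g *ᵥ x) i := by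
  simp only [mulVec, dotProduct]
  exact Finset.measurable_sum _ fun j _ => (hA i j).meas.mul_const _

lemma measurable_Bq (hy : 0 < y) (β b : ℝ) (e : Ix N) (x : Fin N → Bool) :
    Measurable fun g => Bq N β y b e g x := by
  unfold Bq Me
  have hA := fun i => measurable_mulVec (N := N) (egm_ay hy) (spin x) i
  have hB := fun i => measurable_mulVec (N := N) (egm_by hy) (spin x) i
  exact ((((hA e.1).mul (hB e.2)).add ((hA e.2).mul (hB e.1))).div_const _).const_mul _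

theorem gd_Dq (hN : 0 < N) (hy : 0 < y) {m : ℕ → ℝ} (hm' : Exponents K m) (β a b : ℝ) :
    GD K m (Ey N β y a b) (Dq N β y a b) (spin (N := N)) where
  hm := hm'
  lip := fun x => Ins.lip_of_pd (fun e => pd_Ey hy β a b e x) fun e g => abs_Dq_le hN hy β a b e g x
  pd := fun e x => pd_Ey hy β a b e x
  md := fun e x => by
    unfold Dq
    exact measurable_const.add (measurable_Bq hy β b e x)
  bd := ⟨_, fun e z x => abs_Dq_le hN hy β a b e z x⟩
  N0 := hN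
  norm := sum_spin_sq

lemma eg_qf {A : (Ix N → ℝ) → Matrix (Fin N) (Fin N) ℝ} (hA : EGM A) (x : Fin N → ℝ) :
    EG (fun g : Ix N → ℝ => qf (A g) x) := by
  unfold qf
  exact EG.sum _ fun i _ => EG.sum _ fun j _ => ((EG.const (x i)).mul (hA i j)).mul
    (EG.const (x j))

lemma nh_qf {A : (Ix N → ℝ) → Matrix (Fin N) (Fin N) ℝ} (hA : EGM A) :
    Nh (fun (z : GI (Ix N) N K → ℝ) (x : Fin N → Bool) => qf (A (r0 z)) (spin x)) :=
  fun x => Gen.EG.r0 (eg_qf hA (spin x))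

end Gd

/-- **The instance.** -/
theorem gdq (β : ℝ) (hy : 0 < y) {m : ℕ → ℝ} (hN : 0 < N) (hm' : Exponents K m) (a b : ℝ) :
    ∃ (D B : Ix N → (Ix N → ℝ) → (Fin N → Bool) → ℝ), GD K m (Ey N β y a b) D (spin (N := N)) ∧
      (∀ e z x, D e z x = β * a * (spin x e.1 * spin x e.2 / √(2 * (N : ℝ))) + B e z x) ∧
      (∀ e x, EG (fun z => B e z x)) ∧
      (∀ z x, ∑ e, B e z x ^ 2 ≤ N * (2 * β ^ 2 * b ^ 2 / y ^ 4)) :=
  ⟨Gd.Dq N β y a b, Gd.Bq N β y b, Gd.gd_Dq hN hy hm' β a b, fun _ _ _ => rfl,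
    fun e x => EG.of_bdd (Gd.measurable_Bq hy β b e x) fun g => Gd.abs_Bq_le hN hy β b e g x,
    fun z x => Gd.sum_Bq_sq hN hy β b z x⟩

/-- **The tangent inequality in `(a, b)`.** -/
theorem tangent_q (β : ℝ) (hy : 0 < y) (hN : 0 < N) {m : ℕ → ℝ} (hm' : Exponents K m)
    (a b a' b' : ℝ) (s : ℕ → ℝ) :
    gF K m (Ey N β y a b) spin s + β / 2 * ((a' - a) * Tw (sy N K m β y a b s) -
      (b' - b) * Tb y (sy N K m β y a b s)) ≤ gF K m (Ey N β y a' b') spin s := by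
  have hD := Gd.gd_Dq (K := K) hN hy hm' β a b
  have hD' := Gd.gd_Dq (K := K) hN hy hm' β a' b'
  have h1 := Gen.gF_tangentE hD hD' s
  have hS := Gen.gS_reg hD s
  have e : (fun (z : GI (Ix N) N K → ℝ) (x : Fin N → Bool) =>
      Ey N β y a' b' (r0 z) x - Ey N β y a b (r0 z) x) =
      fun z x => (β / 2 * (a' - a)) * qf (Wm N (r0 z)) (spin x) -
        (β / 2 * (b' - b)) * qf (By y (Wm N (r0 z))) (spin x) := by
    funext z x
    unfold Ey
    ring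
  rw [e, hS.Ex_sub (Sy.Nh.const_mul _ (Gd.nh_qf egm_Wm))
    (Sy.Nh.const_mul _ (Gd.nh_qf (egm_by hy))), Sy.Ex_const_mul, Sy.Ex_const_mul] at h1
  unfold Tw Tb
  have e2 : β / 2 * ((a' - a) * (1 / N * (sy N K m β y a b s).Ex
      (fun z x => qf (Wm N (r0 z)) (spin x))) -
      (b' - b) * (1 / N * (sy N K m β y a b s).Ex
      (fun z x => qf (By y (Wm N (r0 z))) (spin x)))) =
      1 / N * (β / 2 * (a' - a) * (sy N K m β y a b s).Ex
      (fun z x => qf (Wm N (r0 z)) (spin x)) -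
      β / 2 * (b' - b) * (sy N K m β y a b s).Ex
      (fun z x => qf (By y (Wm N (r0 z))) (spin x))) := by ring
  rw [e2]
  linarith only [h1]

theorem tb_bounds (β : ℝ) (hy : 0 < y) (hN : 0 < N) {m : ℕ → ℝ} (hm' : Exponents K m)
    (a b : ℝ) (s : ℕ → ℝ) :
    0 ≤ Tb y (sy N K m β y a b s) ∧ Tb y (sy N K m β y a b s) ≤ 1 / y := by
  have hN' : (0 : ℝ) < N := by exact_mod_cast hN
  have hD := Gd.gd_Dq (K := K) hN hy hm' β a b
  have hS := Gen.gS_reg hD s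
  have hn := Gd.nh_qf (K := K) (egm_by (N := N) hy)
  constructor
  · have h1 := hS.Ex_mono (f := fun _ _ => 0) (fun _ => EG.const _) hn
      fun z x => qf_by_nonneg hy (Wm_transpose (r0 z)) (spin x)
    rw [hS.Ex_const] at h1
    exact mul_nonneg (by positivity) h1
  · have h1 := hS.Ex_mono (g := fun _ _ => (N : ℝ) / y) hn (fun _ => EG.const _)
      fun z x => qf_by_le hy (Wm_transpose (r0 z)) x
    rw [hS.Ex_const] at h1
    calc Tb y (sy N K m β y a b s) ≤ 1 / N * ((N : ℝ) / y) :=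
          mul_le_mul_of_nonneg_left h1 (by positivity)
      _ = 1 / y := by field_simp

/-- The average of a level zero bound. -/
lemma abs_Ex_le_of {m : ℕ → ℝ} {β a b : ℝ} {s : ℕ → ℝ} (hy : 0 < y) (hN : 0 < N)
    (hm' : Exponents K m) {h : (GI (Ix N) N K → ℝ) → (Fin N → Bool) → ℝ} (hh : Nh h)
    {W : (Ix N → ℝ) → ℝ} (hW : EG W) (hle : ∀ z x, |h z x| ≤ N * W (r0 z)) :
    |1 / N * (sy N K m β y a b s).Ex h| ≤ ∫ g, W g ∂(gI (Ix N)) := by
  have hD := Gd.gd_Dq (K := K) hN hy hm' β a b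
  have hS := Gen.gS_reg hD s
  have hN' : (0 : ℝ) < N := by exact_mod_cast hN
  have h1 := hS.abs_Ex_le hh
  have h2 : (sy N K m β y a b s).Ex (fun z x => |h z x|) ≤
      (sy N K m β y a b s).Ex (fun z _ => N * W (r0 z)) :=
    hS.Ex_mono (Sy.Nh.abs hh) (Sy.Nh.fst ((Gen.EG.r0 hW).const_mul _)) hle
  have h3 : (sy N K m β y a b s).Ex (fun z _ => N * W (r0 z)) = N * ∫ g, W g ∂(gI (Ix N)) := by
    rw [← Gen.gS_Ex_zero hD s hW, ← Sy.Ex_const_mul]
  rw [h3] at h2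
  rw [abs_mul, abs_of_pos (by positivity : (0 : ℝ) < 1 / N)]
  calc 1 / (N : ℝ) * |(sy N K m β y a b s).Ex h| ≤ 1 / N * (N * ∫ g, W g ∂(gI (Ix N))) :=
        mul_le_mul_of_nonneg_left (h1.trans h2) (by positivity)
    _ = _ := by field_simp

theorem tw_bound : ∃ C : ℝ, 1 ≤ C ∧ ∀ (N K : ℕ) (β y : ℝ) (m : ℕ → ℝ) (a b : ℝ) (s : ℕ → ℝ),
    0 < y → 0 < N → Exponents K m → |Tw (sy N K m β y a b s)| ≤ C := by
  obtain ⟨C, hC1, hC⟩ := exists_om_moment 1
  refine ⟨C, hC1, fun N K β y m a b s hy hN hm' => ?_⟩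
  refine (abs_Ex_le_of hy hN hm' (Gd.nh_qf egm_Wm) (eg_om.pow 1) fun z x => ?_).trans (hC N)
  have h := abs_qf_Um_le (r0 z) 1 x
  rwa [Um_one] at h

theorem ey_zero (β a : ℝ) (κ : ℕ) : Ey N β y a 0 = Esk N β a 0 κ := by
  funext g x
  unfold Ey Esk
  ring

/-- the pressure without fields at `a = 1, b = 0` -/
theorem gF_pN (β : ℝ) (hy : 0 < y) (hN : 0 < N) {m : ℕ → ℝ} (hm' : Exponents K m) :
    gF K m (Ey N β y 1 0) (spin (N := N)) (fun _ => 0) = pN β N := by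
  rw [ey_zero β 1 0]
  exact gF_eq_pN β 0 hN hm'

/-- `T_b` of the model without fields -/
theorem tb_zero (β : ℝ) (hy : 0 < y) (hN : 0 < N) {m : ℕ → ℝ} (hm' : Exponents K m) :
    Tb y (sy N K m β y 1 0 (fun _ => 0)) = Jy β y N := by
  unfold Tb Jy sy
  rw [ey_zero β 1 0]
  congr 1
  exact Ex_no_field hN hm' β 0 (h := fun g x => qf (By y (Wm N g)) (spin x))
    fun x => Gd.eg_qf (egm_by hy) (spin x)

/-- `p(0) - p(b) ≤ (β b / 2) J` -/
theorem jy_ge {β b : ℝ} (hβ : 0 ≤ β) (hb : 0 ≤ b) (hy : 0 < y) (hN : 0 < N) {m : ℕ → ℝ}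
    (hm' : Exponents K m) :
    pN β N - gF K m (Ey N β y 1 b) (spin (N := N)) (fun _ => 0) ≤ β * b / 2 * Jy β y N := by
  have h1 := tangent_q (K := K) β hy hN hm' 1 0 1 b (fun _ => 0)
  rw [gF_pN β hy hN hm', tb_zero β hy hN hm'] at h1
  linarith only [h1]

/-- the value of the objective at `a = b = 0` (from Sk/U4) -/
theorem gOb_zero_le' (hN : 0 < N) {m q : ℕ → ℝ} (hm' : Exponents K m) {β P : ℝ}
    (hg : GoodPath β K m q P) {η : ℝ} (hη : 0 ≤ η) {s : ℕ → ℝ} (hs : ∀ j ≤ K, 0 < s j) :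
    gOb K m q η (Ey N β y 0 0) (spin (N := N)) s ≤ P - β ^ 2 / 4 * trp K m q 2 := by
  rw [ey_zero β 0 0]
  have h1 := u4_sub (β := β) (P := P) hN hm' 0 hg fun j hj => (hs j hj).le
  have h2 : 1 / 2 * ∑ j ∈ Finset.range (K + 1), aco K m q j * s j ^ 2 ≤ Vale.Agent.P157.Lv.Pen K m q η s := by
    unfold Vale.Agent.P157.Lv.Pen
    rw [Finset.mul_sum]
    refine Finset.sum_le_sum fun j hj => ?_
    have hj' : j ≤ K := by simpa [Nat.lt_succ_iff] using hj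
    have h1 : 0 ≤ η / s j := div_nonneg hη (hs j hj').le
    have h2 : 0 ≤ η * s j ^ 2 := by positivity
    linarith only [h2, h1]
  unfold Gen.gOb
  linarith only [h2, h1]

end Vale.Agent.P146.Pw2
end
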