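import Vale.Agent.P146.Bdl.B18
import Vale.Agent.P146.Bdl.B9
import Vale.Agent.P146.Bdl.B2

set_option linter.all false

section

/-!
# P146 / Pw2, module SC: the semicircle law at `2 + i y`, with a rate
-/

open MeasureTheory ProbabilityTheory Matrix Filter Topology Finset

namespace Vale.Agent.P146.Pw2

open Vale.Agent.P157.Lv Vale.Agent.P146.Sk

set_option linter.all false

variable {N : ℕ} {y : ℝ}

lemma eg_tA (hy : 0 < y) : EG (tA N y) := (egm_Ay hy).trace.const_mul (1 / N)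

lemma eg_tB (hy : 0 < y) : EG (tB N y) := (egm_By hy).trace.const_mul (1 / N)

lemma tB_nonneg (hy : 0 < y) (g : Ix N → ℝ) : 0 ≤ tB N y g := by
  unfold tB
  rw [trace_By]
  have := trace_Hy_nonneg (Wm_transpose g) hy
  positivity

theorem mB_nonneg (hy : 0 < y) : 0 ≤ mB N y := integral_nonneg fun g => tB_nonneg hy g

/-- the sum of the squares of the entries of a bounded matrix -/
lemma sum_sq_le {K : Matrix (Fin N) (Fin N) ℝ} {c : ℝ} (hK : OpB K c) (hc : 0 ≤ c) :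
    ∑ e : Ix N, K e.1 e.2 ^ 2 ≤ N * c ^ 2 := by
  rw [Fintype.sum_prod_type_right]
  have h1 : ∀ j : Fin N, ∑ i, K i j ^ 2 ≤ c ^ 2 := by
    intro j
    have h2 := hK (Pi.single j (1 : ℝ))
    rw [nv_single, mul_one] at h2
    have h3 : nv (K *ᵥ Pi.single j (1 : ℝ)) ^ 2 = ∑ i, K i j ^ 2 := by
      rw [nv_sq, mulVec_single_one]
      rfl
    rw [← h3]
    exact pow_le_pow_left₀ (nv_nonneg _) h2 2
  calc ∑ j : Fin N, ∑ i, K i j ^ 2 ≤ ∑ _j : Fin N, c ^ 2 := Finset.sum_le_sum fun j _ => h1 j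
    _ = N * c ^ 2 := by simp

lemma trace_Em (P Q : Matrix (Fin N) (Fin N) ℝ) (e : Ix N) :
    (P * Em N e * Q).trace = ((Q * P) e.1 e.2 + (Q * P) e.2 e.1) / √(2 * (N : ℝ)) := by
  have h1 : (P * Em N e * Q).trace = (1 * Em N e * (Q * P)).trace := by
    rw [one_mul, Matrix.trace_mul_comm, ← mul_assoc, Matrix.trace_mul_comm]
  rw [h1]
  simp only [Matrix.trace, Matrix.diag_apply, mul_Em_mul, Matrix.one_apply]
  rw [← sum_div, sum_add_distrib]
  simp only [ite_mul, one_mul, zero_mul, sum_ite_eq', mem_univ, if_true]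
  rw [add_comm]

lemma entry_symm {K : Matrix (Fin N) (Fin N) ℝ} (hK : Kᵀ = K) (i j : Fin N) : K i j = K j i := by
  conv_lhs => rw [← hK]
  rfl

lemma pd_tA (hy : 0 < y) (e : Ix N) : PD e (tA N y) (fun g => 2 / (N * √(2 * (N : ℝ))) *
    (Ay y (Wm N g) * Ay y (Wm N g) - By y (Wm N g) * By y (Wm N g)) e.1 e.2) := by
  have h := ((pdm_Ay hy e).trace).const_mul (1 / (N : ℝ))
  refine PD.congr h fun g => ?_
  have hM := Wm_transpose g
  have hs : (Ay y (Wm N g) * Ay y (Wm N g) - By y (Wm N g) * By y (Wm N g))ᵀ =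
      Ay y (Wm N g) * Ay y (Wm N g) - By y (Wm N g) * By y (Wm N g) := by
    rw [transpose_sub, transpose_mul, transpose_mul, Ay_transpose hM hy, By_transpose hM]
  have h2 := entry_symm hs e.2 e.1
  simp only [trace_sub, trace_Em]
  rw [Matrix.sub_apply, Matrix.sub_apply] at h2
  rw [Matrix.sub_apply]
  have h3 : (Ay y (Wm N g) * Ay y (Wm N g)) e.1 e.2 + (Ay y (Wm N g) * Ay y (Wm N g)) e.2 e.1 -
      ((By y (Wm N g) * By y (Wm N g)) e.1 e.2 + (By y (Wm N g) * By y (Wm N g)) e.2 e.1) =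
      2 * ((Ay y (Wm N g) * Ay y (Wm N g)) e.1 e.2 - (By y (Wm N g) * By y (Wm N g)) e.1 e.2) := by
    linarith
  rw [← sub_div, h3]
  ring

lemma pd_tB (hy : 0 < y) (e : Ix N) : PD e (tB N y) (fun g => 4 / (N * √(2 * (N : ℝ))) *
    (Ay y (Wm N g) * By y (Wm N g)) e.1 e.2) := by
  have h := ((pdm_By hy e).trace).const_mul (1 / (N : ℝ))
  refine PD.congr h fun g => ?_
  have hM := Wm_transpose g
  have hs : (Ay y (Wm N g) * By y (Wm N g))ᵀ = Ay y (Wm N g) * By y (Wm N g) := by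
    rw [transpose_mul, Ay_transpose hM hy, By_transpose hM, Ay_mul_By hM hy]
  have h2 := entry_symm hs e.2 e.1
  simp only [trace_add, trace_Em]
  rw [← Ay_mul_By hM hy, h2]
  ring

/-- the constant of the derivative -/
lemma coef_sq {c : ℝ} (hN : 0 < N) : (c / (N * √(2 * (N : ℝ)))) ^ 2 = c ^ 2 / (2 * (N : ℝ) ^ 3) := by
  have hN' : (0 : ℝ) < N := by exact_mod_cast hN
  rw [div_pow, mul_pow, Real.sq_sqrt (by positivity)]
  congr 1
  ring

/-- variances of the traces -/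
theorem var_tr' (hN : 0 < N) (hy : 0 < y) :
    ∫ g, (tA N y g - mA N y) ^ 2 ∂(gI (Ix N)) ≤ 8 / (N ^ 2 * y ^ 4) ∧
    ∫ g, (tB N y g - mB N y) ^ 2 ∂(gI (Ix N)) ≤ 8 / (N ^ 2 * y ^ 4) := by
  have hN' : (0 : ℝ) < N := by exact_mod_cast hN
  have gen : ∀ (K : (Ix N → ℝ) → Matrix (Fin N) (Fin N) ℝ) (F : (Ix N → ℝ) → ℝ) (c d : ℝ),
      EG F → EGM K → (∀ e, PD e F (fun g => c / (N * √(2 * (N : ℝ))) * K g e.1 e.2)) →
      (∀ g, OpB (K g) d) → 0 ≤ d → c ^ 2 * d ^ 2 ≤ 16 / y ^ 4 →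
      ∫ g, (F g - ∫ w, F w ∂(gI (Ix N))) ^ 2 ∂(gI (Ix N)) ≤ 8 / (N ^ 2 * y ^ 4) := by
    intro K F c d hF hK hd hO hd0 hcd
    refine (cc_var_le_one hF hd fun e => (hK e.1 e.2).const_mul _).trans ?_
    rw [← integral_finsetSum _ fun e _ => (((hK e.1 e.2).const_mul _).pow 2).integrable]
    have h1 : ∀ g, ∑ e : Ix N, (c / (N * √(2 * (N : ℝ))) * K g e.1 e.2) ^ 2 ≤
        8 / (N ^ 2 * y ^ 4) := by
      intro g
      have e1 : ∑ e : Ix N, (c / (N * √(2 * (N : ℝ))) * K g e.1 e.2) ^ 2 =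
          c ^ 2 / (2 * (N : ℝ) ^ 3) * ∑ e : Ix N, K g e.1 e.2 ^ 2 := by
        rw [mul_sum]
        refine sum_congr rfl fun e _ => ?_
        rw [mul_pow, coef_sq hN]
      rw [e1]
      calc c ^ 2 / (2 * (N : ℝ) ^ 3) * ∑ e : Ix N, K g e.1 e.2 ^ 2 ≤
          c ^ 2 / (2 * (N : ℝ) ^ 3) * (N * d ^ 2) :=
            mul_le_mul_of_nonneg_left (sum_sq_le (hO g) hd0) (by (clear * - hN; positivity))
        _ = (c ^ 2 * d ^ 2) / (2 * (N : ℝ) ^ 2) := by field_simp
        _ ≤ (16 / y ^ 4) / (2 * (N : ℝ) ^ 2) := by gcongr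
        _ = _ := by field_simp; norm_num
    calc ∫ g, ∑ e : Ix N, (c / (N * √(2 * (N : ℝ))) * K g e.1 e.2) ^ 2 ∂(gI (Ix N)) ≤
        ∫ _g, 8 / (N ^ 2 * y ^ 4) ∂(gI (Ix N)) :=
          integral_mono (EG.sum _ fun e _ => ((hK e.1 e.2).const_mul _).pow 2).integrable
            (integrable_const _) h1
      _ = _ := by simp
  have hA : ∀ g : Ix N → ℝ, OpB (Ay y (Wm N g)) (1 / y) := fun g => Ay_opB (Wm_transpose g) hy
  have hB : ∀ g : Ix N → ℝ, OpB (By y (Wm N g)) (1 / y) := fun g => By_opB (Wm_transpose g) hy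
  have hy1 : (0 : ℝ) ≤ 1 / y := by positivity
  constructor
  · refine gen (fun g => Ay y (Wm N g) * Ay y (Wm N g) - By y (Wm N g) * By y (Wm N g)) _ 2
      (1 / y * (1 / y) + 1 / y * (1 / y)) (eg_tA hy)
      (((egm_Ay hy).mul (egm_Ay hy)).sub ((egm_By hy).mul (egm_By hy))) (fun e => pd_tA hy e)
      (fun g => ((hA g).mul hy1 (hA g)).sub ((hB g).mul hy1 (hB g))) (by positivity) ?_
    apply le_of_eq
    field_simp
    norm_num
  · refine gen (fun g => Ay y (Wm N g) * By y (Wm N g)) _ 4 (1 / y * (1 / y)) (eg_tB hy)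
      ((egm_Ay hy).mul (egm_By hy)) (fun e => pd_tB hy e)
      (fun g => (hA g).mul hy1 (hB g)) (by positivity) ?_
    apply le_of_eq
    field_simp
    norm_num

theorem var_tr : ∃ C : ℝ, 1 ≤ C ∧ ∀ (N : ℕ) (y : ℝ), 0 < N → 0 < y → y ≤ 1 →
    ∫ g, (tA N y g - mA N y) ^ 2 ∂(gI (Ix N)) ≤ C / (N ^ 2 * y ^ 4) ∧
    ∫ g, (tB N y g - mB N y) ^ 2 ∂(gI (Ix N)) ≤ C / (N ^ 2 * y ^ 4) :=
  ⟨8, by norm_num, fun N y hN hy _ => var_tr' hN hy⟩

/-! ### the self-consistent equation -/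

lemma trace_one' : (1 : Matrix (Fin N) (Fin N) ℝ).trace = N := by
  simp [Matrix.trace_one]

/-- `tr (W A) / N = 2 τ_A + y τ_B - 1` -/
lemma tr_WA (hN : 0 < N) (hy : 0 < y) (g : Ix N → ℝ) :
    1 / N * (Wm N g * Ay y (Wm N g)).trace = 2 * tA N y g + y * tB N y g - 1 := by
  have hN' : (N : ℝ) ≠ 0 := by
    have : (0 : ℝ) < N := by exact_mod_cast hN
    exact this.ne'
  rw [mul_Ay (Wm_transpose g) hy, trace_sub, trace_add, trace_smul, trace_smul, trace_one',
    smul_eq_mul, smul_eq_mul]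
  unfold tA tB
  field_simp

/-- `tr (W B) / N = 2 τ_B - y τ_A` -/
lemma tr_WB (hN : 0 < N) (hy : 0 < y) (g : Ix N → ℝ) :
    1 / N * (Wm N g * By y (Wm N g)).trace = 2 * tB N y g - y * tA N y g := by
  rw [mul_By, trace_sub, trace_smul, trace_smul, smul_eq_mul, smul_eq_mul]
  unfold tA tB
  ring

lemma abs_tr_sub_le (hy : 0 < y) (g : Ix N → ℝ) :
    |(Ay y (Wm N g) * Ay y (Wm N g)).trace - (By y (Wm N g) * By y (Wm N g)).trace| ≤
      N / y ^ 2 := by
  have hM := Wm_transpose g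
  have h1 := trace_Hy hM hy
  have h2 := trace_Hy_le hM hy
  rw [trace_sq (Ay_transpose hM hy), trace_sq (By_transpose hM)]
  have h3 : 0 ≤ ∑ i, ∑ j, Ay y (Wm N g) i j ^ 2 :=
    Finset.sum_nonneg fun i _ => Finset.sum_nonneg fun j _ => sq_nonneg _
  have h4 : 0 ≤ ∑ i, ∑ j, By y (Wm N g) i j ^ 2 :=
    Finset.sum_nonneg fun i _ => Finset.sum_nonneg fun j _ => sq_nonneg _
  rw [abs_le]
  constructor <;> linarith

lemma abs_tr_AB_le (hy : 0 < y) (g : Ix N → ℝ) :
    |2 * (Ay y (Wm N g) * By y (Wm N g)).trace| ≤ N / y ^ 2 := by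
  have hM := Wm_transpose g
  have h1 := trace_Hy hM hy
  have h2 := trace_Hy_le hM hy
  refine le_trans ?_ h2
  rw [h1]
  have e1 : (Ay y (Wm N g) * By y (Wm N g)).trace =
      ∑ i, ∑ j, Ay y (Wm N g) i j * By y (Wm N g) i j := by
    rw [Matrix.trace]
    refine sum_congr rfl fun i _ => ?_
    rw [diag_apply, Matrix.mul_apply]
    refine sum_congr rfl fun j _ => ?_
    rw [entry_symm (By_transpose hM) j i]
  rw [e1, mul_sum, ← sum_add_distrib]
  refine (abs_sum_le_sum_abs _ _).trans (sum_le_sum fun i _ => ?_)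
  rw [mul_sum, ← sum_add_distrib]
  refine (abs_sum_le_sum_abs _ _).trans (sum_le_sum fun j _ => ?_)
  rw [abs_le]
  constructor <;> nlinarith [sq_nonneg (Ay y (Wm N g) i j - By y (Wm N g) i j),
    sq_nonneg (Ay y (Wm N g) i j + By y (Wm N g) i j)]

lemma ibp_A (hy : 0 < y) : ∫ g, (Wm N g * Ay y (Wm N g)).trace ∂(gI (Ix N)) =
    (1 / (N : ℝ)) * (∫ g, ((Ay y (Wm N g)).trace * (Ay y (Wm N g)).trace -
      (By y (Wm N g)).trace * (By y (Wm N g)).trace) ∂(gI (Ix N)) +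
      ∫ g, ((Ay y (Wm N g) * Ay y (Wm N g)).trace - (By y (Wm N g) * By y (Wm N g)).trace)
        ∂(gI (Ix N))) := by
  have h := ibp_trace (N := N) (egm_Ay hy) (p := 2)
    (P := fun s g => if s = 0 then Ay y (Wm N g) else -By y (Wm N g))
    (Q := fun s g => if s = 0 then Ay y (Wm N g) else By y (Wm N g))
    (fun s => by
      by_cases hs : s = 0
      · simp only [hs, if_true]; exact egm_Ay hy
      · simp only [hs, if_false]
        intro i j
        exact (egm_By hy i j).neg)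
    (fun s => by
      by_cases hs : s = 0
      · simp only [hs, if_true]; exact egm_Ay hy
      · simp only [hs, if_false]; exact egm_By hy)
    (fun s g => by
      by_cases hs : s = 0
      · simp only [hs, if_true]; exact Ay_transpose (Wm_transpose g) hy
      · simp only [hs, if_false]
        rw [transpose_neg, By_transpose (Wm_transpose g)])
    (fun s g => by
      by_cases hs : s = 0
      · simp only [hs, if_true]; exact Ay_transpose (Wm_transpose g) hy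
      · simp only [hs, if_false]; exact By_transpose (Wm_transpose g))
    (fun e => (pdm_Ay hy e).congr fun g => by
      rw [sum_range_succ, sum_range_one]
      simp only [if_true, one_ne_zero, if_false]
      rw [neg_mul, neg_mul, sub_eq_add_neg])
  rw [h, sum_range_succ, sum_range_one]
  simp only [if_true, one_ne_zero, if_false]
  have eA := (egm_Ay (N := N) hy).trace
  have eB := (egm_By (N := N) hy).trace
  have eAA := ((egm_Ay (N := N) hy).mul (egm_Ay hy)).trace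
  have eBB := ((egm_By (N := N) hy).mul (egm_By hy)).trace
  congr 1
  rw [integral_add (eA.mul eA).integrable eAA.integrable,
    integral_sub (eA.mul eA).integrable (eB.mul eB).integrable,
    integral_sub eAA.integrable eBB.integrable]
  have e2 : ∫ g, ((-By y (Wm N g)).trace * (By y (Wm N g)).trace +
      (-By y (Wm N g) * By y (Wm N g)).trace) ∂(gI (Ix N)) =
      -(∫ g, (By y (Wm N g)).trace * (By y (Wm N g)).trace ∂(gI (Ix N))) -
        ∫ g, (By y (Wm N g) * By y (Wm N g)).trace ∂(gI (Ix N)) := by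
    rw [← integral_neg, ← integral_sub (eB.mul eB).neg.integrable eBB.integrable]
    congr 1
    funext g
    rw [trace_neg, neg_mul, neg_mul, trace_neg]
    ring
  rw [e2]
  ring

lemma ibp_B (hy : 0 < y) : ∫ g, (Wm N g * By y (Wm N g)).trace ∂(gI (Ix N)) =
    (1 / (N : ℝ)) * (2 * ∫ g, ((Ay y (Wm N g)).trace * (By y (Wm N g)).trace) ∂(gI (Ix N)) +
      ∫ g, (2 * (Ay y (Wm N g) * By y (Wm N g)).trace) ∂(gI (Ix N))) := by
  have h := ibp_trace (N := N) (egm_By hy) (p := 2)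
    (P := fun s g => if s = 0 then Ay y (Wm N g) else By y (Wm N g))
    (Q := fun s g => if s = 0 then By y (Wm N g) else Ay y (Wm N g))
    (fun s => by
      by_cases hs : s = 0
      · simp only [hs, if_true]; exact egm_Ay hy
      · simp only [hs, if_false]; exact egm_By hy)
    (fun s => by
      by_cases hs : s = 0
      · simp only [hs, if_true]; exact egm_By hy
      · simp only [hs, if_false]; exact egm_Ay hy)
    (fun s g => by
      by_cases hs : s = 0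
      · simp only [hs, if_true]; exact Ay_transpose (Wm_transpose g) hy
      · simp only [hs, if_false]; exact By_transpose (Wm_transpose g))
    (fun s g => by
      by_cases hs : s = 0
      · simp only [hs, if_true]; exact By_transpose (Wm_transpose g)
      · simp only [hs, if_false]; exact Ay_transpose (Wm_transpose g) hy)
    (fun e => (pdm_By hy e).congr fun g => by
      rw [sum_range_succ, sum_range_one]
      simp only [if_true, one_ne_zero, if_false]
      rw [add_comm])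
  rw [h, sum_range_succ, sum_range_one]
  simp only [if_true, one_ne_zero, if_false]
  have eA := (egm_Ay (N := N) hy).trace
  have eB := (egm_By (N := N) hy).trace
  have eAB := ((egm_Ay (N := N) hy).mul (egm_By hy)).trace
  have eBA := ((egm_By (N := N) hy).mul (egm_Ay hy)).trace
  congr 1
  rw [← integral_const_mul, ← integral_add ((eA.mul eB).add eAB).integrable
    ((eB.mul eA).add eBA).integrable, ← integral_add ((eA.mul eB).const_mul 2).integrable
    (eAB.const_mul 2).integrable]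
  congr 1
  funext g
  rw [← Ay_mul_By (Wm_transpose g) hy]
  ring

lemma int_tA_sq (hy : 0 < y) : ∫ g, tA N y g ^ 2 ∂(gI (Ix N)) =
    mA N y ^ 2 + ∫ g, (tA N y g - mA N y) ^ 2 ∂(gI (Ix N)) := by
  have e := eg_tA (N := N) hy
  have h2 : ∀ g, (tA N y g - mA N y) ^ 2 =
      tA N y g ^ 2 + (-(2 * mA N y) * tA N y g + mA N y ^ 2) := by
    intro g; ring
  simp only [h2]
  rw [integral_add (e.pow 2).integrable ((e.const_mul _).add (EG.const _)).integrable,
    integral_add (e.const_mul _).integrable (EG.const _).integrable, integral_const_mul]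
  have : ∫ g, tA N y g ∂(gI (Ix N)) = mA N y := rfl
  rw [this]
  simp
  ring

lemma int_tB_sq (hy : 0 < y) : ∫ g, tB N y g ^ 2 ∂(gI (Ix N)) =
    mB N y ^ 2 + ∫ g, (tB N y g - mB N y) ^ 2 ∂(gI (Ix N)) := by
  have e := eg_tB (N := N) hy
  have h2 : ∀ g, (tB N y g - mB N y) ^ 2 =
      tB N y g ^ 2 + (-(2 * mB N y) * tB N y g + mB N y ^ 2) := by
    intro g; ring
  simp only [h2]
  rw [integral_add (e.pow 2).integrable ((e.const_mul _).add (EG.const _)).integrable,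
    integral_add (e.const_mul _).integrable (EG.const _).integrable, integral_const_mul]
  have : ∫ g, tB N y g ∂(gI (Ix N)) = mB N y := rfl
  rw [this]
  simp
  ring

lemma int_tAB (hy : 0 < y) : ∫ g, tA N y g * tB N y g ∂(gI (Ix N)) =
    mA N y * mB N y + ∫ g, (tA N y g - mA N y) * (tB N y g - mB N y) ∂(gI (Ix N)) := by
  have eA := eg_tA (N := N) hy
  have eB := eg_tB (N := N) hy
  have h2 : ∀ g, (tA N y g - mA N y) * (tB N y g - mB N y) =
      tA N y g * tB N y g + ((-mA N y) * tB N y g + ((-mB N y) * tA N y g +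
        mA N y * mB N y)) := by
    intro g; ring
  simp only [h2]
  rw [integral_add (eA.mul eB).integrable ((eB.const_mul _).add
    ((eA.const_mul _).add (EG.const _))).integrable,
    integral_add (eB.const_mul _).integrable ((eA.const_mul _).add (EG.const _)).integrable,
    integral_add (eA.const_mul _).integrable (EG.const _).integrable,
    integral_const_mul, integral_const_mul]
  have h3 : ∫ g, tB N y g ∂(gI (Ix N)) = mB N y := rfl
  have h4 : ∫ g, tA N y g ∂(gI (Ix N)) = mA N y := rfl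
  rw [h3, h4]
  simp
  ring

/-- the self-consistent equation, explicit -/
theorem self_cons' (hN : 0 < N) (hy : 0 < y) (hy1 : y ≤ 1) :
    |(1 - mA N y) ^ 2 - (y / 2 + mB N y) ^ 2 + y ^ 2 / 4| ≤ 17 / (N * y ^ 4) ∧
    |2 * (1 - mA N y) * (y / 2 + mB N y) - y| ≤ 17 / (N * y ^ 4) := by
  have hN' : (0 : ℝ) < N := by exact_mod_cast hN
  have hN1 : (1 : ℝ) ≤ N := by exact_mod_cast hN
  obtain ⟨vA, vB⟩ := var_tr' hN hy
  set VA := ∫ g, (tA N y g - mA N y) ^ 2 ∂(gI (Ix N)) with hVA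
  set VB := ∫ g, (tB N y g - mB N y) ^ 2 ∂(gI (Ix N)) with hVB
  have hVA0 : 0 ≤ VA := integral_nonneg fun g => sq_nonneg _
  have hVB0 : 0 ≤ VB := integral_nonneg fun g => sq_nonneg _
  have eA := eg_tA (N := N) hy
  have eB := eg_tB (N := N) hy
  have k1 : (8 : ℝ) / (N ^ 2 * y ^ 4) ≤ 8 / (N * y ^ 4) := by
    refine div_le_div_of_nonneg_left (by norm_num) (by positivity) ?_
    have : (N : ℝ) ≤ N ^ 2 := by (by_contra nlg; linarith [mul_nonneg (sub_nonneg.2 hN1) (sub_nonneg.2 hN1), mul_nonneg (le_of_lt (sub_pos.2 (not_le.1 nlg))) (sub_nonneg.2 hy1), mul_pos (sub_pos.2 (not_le.1 nlg)) (sub_pos.2 hy)])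
    exact mul_le_mul_of_nonneg_right this (by positivity)
  have k2 : (1 : ℝ) / (N * y ^ 2) ≤ 1 / (N * y ^ 4) := by
    refine div_le_div_of_nonneg_left (by norm_num) (by positivity) ?_
    have : y ^ 4 ≤ y ^ 2 := pow_le_pow_of_le_one hy.le hy1 (by norm_num)
    exact mul_le_mul_of_nonneg_left this hN'.le
  have k3 : (17 : ℝ) / (N * y ^ 4) = 2 * (8 / (N * y ^ 4)) + 1 / (N * y ^ 4) := by ring
  constructor
  · -- real part
    have h1 := ibp_A (N := N) hy
    set ρ := ∫ g, ((Ay y (Wm N g) * Ay y (Wm N g)).trace - (By y (Wm N g) * By y (Wm N g)).trace)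
        ∂(gI (Ix N)) with hρ
    have hρb : |ρ| ≤ N / y ^ 2 := by
      refine abs_integral_le_integral_abs.trans ?_
      have eAA := ((egm_Ay (N := N) hy).mul (egm_Ay hy)).trace
      have eBB := ((egm_By (N := N) hy).mul (egm_By hy)).trace
      calc _ ≤ ∫ _g : Ix N → ℝ, (N : ℝ) / y ^ 2 ∂(gI (Ix N)) :=
            integral_mono (eAA.sub eBB).abs.integrable (integrable_const _)
              fun g => abs_tr_sub_le hy g
        _ = _ := by simp
    have h2 : ∫ g, (1 / (N : ℝ)) * (Wm N g * Ay y (Wm N g)).trace ∂(gI (Ix N)) =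
        2 * mA N y + y * mB N y - 1 := by
      simp only [tr_WA hN hy]
      rw [integral_sub ((eA.const_mul 2).add (eB.const_mul y)).integrable (integrable_const _),
        integral_add (eA.const_mul 2).integrable (eB.const_mul y).integrable,
        integral_const_mul, integral_const_mul]
      simp [mA, mB]
    have h3 : ∫ g, ((Ay y (Wm N g)).trace * (Ay y (Wm N g)).trace -
        (By y (Wm N g)).trace * (By y (Wm N g)).trace) ∂(gI (Ix N)) =
        N ^ 2 * (∫ g, tA N y g ^ 2 ∂(gI (Ix N)) - ∫ g, tB N y g ^ 2 ∂(gI (Ix N))) := by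
      rw [← integral_sub (eA.pow 2).integrable (eB.pow 2).integrable, ← integral_const_mul]
      congr 1
      funext g
      unfold tA tB
      field_simp
    rw [integral_const_mul, h1, h3, int_tA_sq hy, int_tB_sq hy, ← hVA, ← hVB] at h2
    have h4 : 1 / (N : ℝ) * (1 / N * (N ^ 2 * (mA N y ^ 2 + VA - (mB N y ^ 2 + VB)) + ρ)) =
        (mA N y ^ 2 + VA - (mB N y ^ 2 + VB)) + ρ / N ^ 2 := by
      field_simp
    rw [h4] at h2
    have h5 : (1 - mA N y) ^ 2 - (y / 2 + mB N y) ^ 2 + y ^ 2 / 4 = VB - VA - ρ / N ^ 2 := by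
      linear_combination h2
    rw [h5, k3]
    have h6 : |ρ / N ^ 2| ≤ 1 / (N * y ^ 2) := by
      rw [abs_div, abs_of_pos (by positivity : (0 : ℝ) < (N : ℝ) ^ 2)]
      calc |ρ| / (N : ℝ) ^ 2 ≤ (N / y ^ 2) / N ^ 2 := by gcongr
        _ = _ := by field_simp
    have h7 := abs_le.1 h6
    rw [abs_le]
    constructor <;> linarith [h7.1, h7.2]
  · have h1 := ibp_B (N := N) hy
    set ρ := ∫ g, (2 * (Ay y (Wm N g) * By y (Wm N g)).trace) ∂(gI (Ix N)) with hρ
    have hρb : |ρ| ≤ N / y ^ 2 := by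
      refine abs_integral_le_integral_abs.trans ?_
      have eAB := ((egm_Ay (N := N) hy).mul (egm_By hy)).trace
      calc _ ≤ ∫ _g : Ix N → ℝ, (N : ℝ) / y ^ 2 ∂(gI (Ix N)) :=
            integral_mono (eAB.const_mul 2).abs.integrable (integrable_const _)
              fun g => abs_tr_AB_le hy g
        _ = _ := by simp
    have h2 : ∫ g, (1 / (N : ℝ)) * (Wm N g * By y (Wm N g)).trace ∂(gI (Ix N)) =
        2 * mB N y - y * mA N y := by
      simp only [tr_WB hN hy]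
      rw [integral_sub (eB.const_mul 2).integrable (eA.const_mul y).integrable,
        integral_const_mul, integral_const_mul]
      rfl
    have h3 : ∫ g, ((Ay y (Wm N g)).trace * (By y (Wm N g)).trace) ∂(gI (Ix N)) =
        N ^ 2 * ∫ g, tA N y g * tB N y g ∂(gI (Ix N)) := by
      rw [← integral_const_mul]
      congr 1
      funext g
      unfold tA tB
      field_simp
    set Cv := ∫ g, (tA N y g - mA N y) * (tB N y g - mB N y) ∂(gI (Ix N)) with hCv
    have hC : |2 * Cv| ≤ VA + VB := by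
      rw [hCv, ← integral_const_mul, hVA, hVB, ← integral_add ((eA.sub (EG.const _)).pow 2).integrable
        ((eB.sub (EG.const _)).pow 2).integrable]
      refine abs_integral_le_integral_abs.trans (integral_mono
        (((eA.sub (EG.const _)).mul (eB.sub (EG.const _))).const_mul 2).abs.integrable
        (((eA.sub (EG.const _)).pow 2).add ((eB.sub (EG.const _)).pow 2)).integrable fun g => ?_)
      simp only
      rw [abs_le]
      constructor <;> nlinarith [sq_nonneg ((tA N y g - mA N y) - (tB N y g - mB N y)),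
        sq_nonneg ((tA N y g - mA N y) + (tB N y g - mB N y))]
    rw [integral_const_mul, h1, h3, int_tAB hy, ← hCv] at h2
    have h4 : 1 / (N : ℝ) * (1 / N * (2 * (N ^ 2 * (mA N y * mB N y + Cv)) + ρ)) =
        2 * (mA N y * mB N y + Cv) + ρ / N ^ 2 := by
      field_simp
    rw [h4] at h2
    have h5 : 2 * (1 - mA N y) * (y / 2 + mB N y) - y = 2 * Cv + ρ / N ^ 2 := by
      linear_combination -h2
    rw [h5, k3]
    have h6 : |ρ / N ^ 2| ≤ 1 / (N * y ^ 2) := by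
      rw [abs_div, abs_of_pos (by positivity : (0 : ℝ) < (N : ℝ) ^ 2)]
      calc |ρ| / (N : ℝ) ^ 2 ≤ (N / y ^ 2) / N ^ 2 := by gcongr
        _ = _ := by field_simp
    have h7 := abs_le.1 h6
    have h8 := abs_le.1 hC
    rw [abs_le]
    constructor <;> linarith [h7.1, h7.2, h8.1, h8.2]

/-- the self-consistent equation `w² = i y - y²/4 - e`, `w = (1 - mA) + i (y / 2 + mB)` -/
theorem self_cons : ∃ C : ℝ, 1 ≤ C ∧ ∀ (N : ℕ) (y : ℝ), 0 < N → 0 < y → y ≤ 1 →
    |(1 - mA N y) ^ 2 - (y / 2 + mB N y) ^ 2 + y ^ 2 / 4| ≤ C / (N * y ^ 4) ∧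
    |2 * (1 - mA N y) * (y / 2 + mB N y) - y| ≤ C / (N * y ^ 4) :=
  ⟨17, by norm_num, fun N y hN hy hy1 => self_cons' hN hy hy1⟩

lemma sc_le_of_sq {a b : ℝ} (h : a ^ 2 ≤ b ^ 2) (hb : 0 ≤ b) : a ≤ b :=
  (abs_le_of_sq_le_sq' h hb).2

/-- the solution of the quadratic equation -/
lemma quad_sol {p q t e1 e2 : ℝ} (ht : 0 < t) (ht4 : t ≤ 1 / 4) (hq : 0 < q)
    (h1 : p ^ 2 - q ^ 2 + t ^ 4 / 4 = e1) (h2 : 2 * p * q - t ^ 2 = e2)
    (he1 : |e1| ≤ t ^ 4 / 16) (he2 : |e2| ≤ t ^ 4 / 16) :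
    t / 2 ≤ p ∧ p ≤ t ∧ t / 2 ≤ q - t ^ 2 / 2 ∧ q ≤ t := by
  obtain ⟨a1, a2⟩ := abs_le.1 he1
  obtain ⟨b1, b2⟩ := abs_le.1 he2
  have ht2 : t ^ 2 ≤ 1 / 16 := by (by_contra nlg; linarith only [nlg, mul_nonneg (sub_nonneg.2 ht4) (sub_nonneg.2 ht4), mul_nonneg (le_of_lt (sub_pos.2 ht)) (sub_nonneg.2 ht4), mul_nonneg (le_of_lt (sub_pos.2 (not_le.1 nlg))) (sub_nonneg.2 ht4), mul_pos (sub_pos.2 (not_le.1 nlg)) (sub_pos.2 ht)])
  have ht0 : 0 < t ^ 2 := by positivity
  have ht44 : t ^ 4 ≤ t ^ 2 / 16 := by linarith only [mul_le_mul_of_nonneg_left ht2 ht0.le]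
  have ht40 : 0 < t ^ 4 := by positivity
  have hpq : 0 < 2 * p * q := by linarith only [ht40, ht44, b1, h2]
  have hp : 0 < p := by
    by_contra hp
    push Not at hp
    linarith only [mul_nonneg (neg_nonneg.2 hp) hq.le, hpq]
  -- `s = p² + q²`
  have s1 : 2 * p * q ≤ p ^ 2 + q ^ 2 := by linarith only [sq_nonneg (p - q)]
  have s2 : (p ^ 2 + q ^ 2) ^ 2 = (p ^ 2 - q ^ 2) ^ 2 + (2 * p * q) ^ 2 := by ring
  have d1 : |p ^ 2 - q ^ 2| ≤ t ^ 4 / 2 := by
    rw [abs_le]; constructor <;> linarith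
  have d2 : (p ^ 2 - q ^ 2) ^ 2 ≤ (t ^ 4 / 2) ^ 2 := by
    rw [← sq_abs (p ^ 2 - q ^ 2)]
    exact pow_le_pow_left₀ (abs_nonneg _) d1 2
  have d3 : (2 * p * q) ^ 2 ≤ (t ^ 2 + t ^ 4 / 16) ^ 2 :=
    pow_le_pow_left₀ hpq.le (by linarith only [b2, h2]) 2
  have s3 : p ^ 2 + q ^ 2 ≤ t ^ 2 + t ^ 4 := by
    refine sc_le_of_sq ?_ (by positivity)
    rw [s2]
    have h3 : (t ^ 4 / 2) ^ 2 + (t ^ 2 + t ^ 4 / 16) ^ 2 ≤ (t ^ 2 + t ^ 4) ^ 2 := by
      have h4 : 0 ≤ t ^ 2 * t ^ 4 := by positivity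
      have h5 : t ^ 4 * t ^ 4 ≤ (t ^ 2 / 16) * t ^ 4 := mul_le_mul_of_nonneg_right ht44 ht40.le
      (by_contra nlg; linarith only [nlg, mul_nonneg (sub_nonneg.2 h4) (sub_nonneg.2 h4), mul_nonneg (le_of_lt (sub_pos.2 ht40)) (sub_nonneg.2 h5), mul_pos (sub_pos.2 ht40) (sub_pos.2 ht40), mul_nonneg (sub_nonneg.2 b2) (sub_nonneg.2 h5), mul_nonneg (sub_nonneg.2 b1) (sub_nonneg.2 h4), mul_eq_zero_of_left (sub_eq_zero.2 h2) (t ^ 2 / 16 * t ^ 4 - (t ^ 4 * t ^ 4)), mul_eq_zero_of_left (sub_eq_zero.2 h2) (t ^ 2 * t ^ 4 - (0)), mul_pos (sub_pos.2 (not_le.1 nlg)) (sub_pos.2 hpq)])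
    linarith only [h3, d3, d2]
  have s4 : t ^ 2 - t ^ 4 / 16 ≤ p ^ 2 + q ^ 2 := by linarith only [s1, b1, h2]
  obtain ⟨c1, c2⟩ := abs_le.1 d1
  refine ⟨?_, ?_, ?_, ?_⟩
  · refine sc_le_of_sq ?_ hp.le
    linarith only [c1, s4, ht40, ht44]
  · refine sc_le_of_sq ?_ ht.le
    linarith only [c2, s3, ht40, ht44]
  · have h3 : t / 2 + t ^ 2 / 2 ≤ q := by
      refine sc_le_of_sq ?_ hq.le
      have h4 : t ^ 2 * t ≤ t ^ 2 * (1 / 4) := mul_le_mul_of_nonneg_left ht4 ht0.le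
      linarith only [h4, c2, s4, ht40, ht44]
    linarith only [h3]
  · refine sc_le_of_sq ?_ ht.le
    linarith only [c1, s3, ht40, ht44]

/-- consequences for `ζ = z - E τ = 1 + w + i y / 2` -/
theorem zeta_facts : ∃ C : ℝ, 1 ≤ C ∧ ∀ (N : ℕ) (y : ℝ), 0 < N → 0 < y → y ≤ 1 / C →
    C ≤ N * y ^ 6 →
    √y / 2 ≤ 1 - mA N y ∧ 1 - mA N y ≤ √y ∧ √y / 2 ≤ mB N y ∧ y / 2 + mB N y ≤ √y ∧
    mB N y ≤ √y ∧ ∫ g, tB N y g ^ 2 ∂(gI (Ix N)) ≤ 2 * y ∧
    1 + √y / 2 ≤ (zt N y).re ∧ (zt N y).re ≤ 1 + √y ∧ √y / 2 ≤ (zt N y).im ∧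
    (zt N y).im ≤ 2 * √y := by
  refine ⟨272, by norm_num, fun N y hN hy hyC hNy => ?_⟩
  have hN' : (0 : ℝ) < N := by exact_mod_cast hN
  have hN1 : (1 : ℝ) ≤ N := by exact_mod_cast hN
  have hy1 : y ≤ 1 := by linarith only [hyC, hy]
  obtain ⟨h1, h2⟩ := self_cons' hN hy hy1
  obtain ⟨-, vB⟩ := var_tr' hN hy
  have hmB := mB_nonneg (N := N) hy
  obtain ⟨t, ht⟩ : ∃ t, t = √y := ⟨_, rfl⟩
  have ht0 : 0 < t := by rw [ht]; exact Real.sqrt_pos.2 hy
  have hty : y = t ^ 2 := by rw [ht, Real.sq_sqrt hy.le]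
  have ht4 : t ≤ 1 / 16 := by
    refine sc_le_of_sq ?_ (by norm_num)
    rw [← hty]
    linarith only [hyC, hy]
  have k1 : 17 / (N * y ^ 4) ≤ y ^ 2 / 16 := by
    rw [div_le_div_iff₀ (by positivity) (by norm_num)]
    linarith only [hNy]
  have k2 : (8 : ℝ) / (N ^ 2 * y ^ 4) ≤ y := by
    rw [div_le_iff₀ (by positivity)]
    have h3 : y ^ 6 ≤ y ^ 5 := pow_le_pow_of_le_one hy.le hy1 (by norm_num)
    have h4 : (N : ℝ) * y ^ 6 ≤ N * y ^ 5 := mul_le_mul_of_nonneg_left h3 hN'.le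
    have h5 : (N : ℝ) * y ^ 5 ≤ N * (N * y ^ 5) := by
      have : 0 ≤ (N : ℝ) * y ^ 5 := by positivity
      (by_contra nlg; linarith only [nlg, mul_nonneg (sub_nonneg.2 hN1) (sub_nonneg.2 this), mul_nonneg (le_of_lt (sub_pos.2 (not_le.1 nlg))) (sub_nonneg.2 ht4), mul_pos (sub_pos.2 (not_le.1 nlg)) (sub_pos.2 ht0)])
    calc (8 : ℝ) ≤ N * (N * y ^ 5) := by linarith only [h5, h4, hNy, hyC, hy]
      _ = y * (N ^ 2 * y ^ 4) := by ring
  have hq : 0 < y / 2 + mB N y := by linarith only [hmB, hy]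
  obtain ⟨r1, r2, r3, r4⟩ := quad_sol (p := 1 - mA N y) (q := y / 2 + mB N y) (t := t)
    (e1 := (1 - mA N y) ^ 2 - (y / 2 + mB N y) ^ 2 + t ^ 4 / 4)
    (e2 := 2 * (1 - mA N y) * (y / 2 + mB N y) - t ^ 2) ht0 (by linarith only [ht4]) hq rfl rfl
    (by
      have e3 : y ^ 2 = t ^ 4 := by rw [hty]; ring
      rw [← e3]
      exact h1.trans k1)
    (by
      have e3 : y ^ 2 = t ^ 4 := by rw [hty]; ring
      rw [← e3, ← hty]
      exact h2.trans k1)
  have e4 : y / 2 + mB N y - t ^ 2 / 2 = mB N y := by rw [hty]; ring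
  rw [e4] at r3
  rw [← ht]
  have hyt : y ≤ t := by rw [hty]; linarith only [e4, r4, r3]
  refine ⟨r1, r2, r3, r4, by linarith only [r4, hy], ?_, ?_, ?_, ?_, ?_⟩
  · rw [int_tB_sq hy]
    have h5 : mB N y ^ 2 ≤ y :=
      calc mB N y ^ 2 ≤ t ^ 2 := pow_le_pow_left₀ hmB (by linarith only [r4, hy]) 2
        _ = y := hty.symm
    linarith only [h5, k2, vB]
  · show 1 + t / 2 ≤ 2 - mA N y
    linarith only [r1]
  · show 2 - mA N y ≤ 1 + t
    linarith only [r2]
  · show t / 2 ≤ y + mB N y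
    linarith only [r3, hy]
  · show y + mB N y ≤ 2 * t
    linarith only [hyt, r4, ht0]

end Vale.Agent.P146.Pw2
end
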