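import Vale.Agent.P146.Bdl.B12
import Vale.Agent.P146.Bdl.B17
import Vale.Agent.P146.Bdl.B16
import Vale.Agent.P146.Bdl.B20
import Vale.Agent.P146.Bdl.B14

set_option linter.all false

section

open MeasureTheory ProbabilityTheory Filter Topology Finset

namespace Vale.Agent.P157.Par

set_option linter.unusedSectionVars false

open Vale.Agent.P367.GT (gM)

/-- Levels with a small mesh for a sequence of systems. -/
structure Mesh (U : Ultrafilter ℕ) (S : ℕ → Sys) {k : ℕ} (b : Fin k → ℝ)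
    (w : Fin (k + 1) → ℝ) (q : ℕ → ℝ) (ε : ℝ) : Prop where
  lim : LimData U S b w
  path : Path k q
  le1 : q k ≤ 1
  eps : 0 ≤ ε
  off : ∀ᶠ j in (U : Filter ℕ), (S j).tav (n := 2) (fun _ x =>
        |(S j).R (x 0) (x 1) - q (lev b ((S j).R (x 0) (x 1)))|) ≤ ε

theorem exists_mesh' {U : Ultrafilter ℕ} {S : ℕ → Sys}
    (hGG : ∀ p : ℕ, AsympGG U S (fun x => x ^ p)) {ε : ℝ} (hε : 0 < ε) :
    ∃ (k : ℕ) (b : Fin k → ℝ) (w : Fin (k + 1) → ℝ) (q : ℕ → ℝ), Mesh U S b w q ε := by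
  obtain ⟨k, b, w, q, h1, h2, h3, h4⟩ := exists_mesh hGG hε
  exact ⟨k, b, w, q, h1, h2, h3, hε.le, h4⟩

/-- The sequence of systems and its parameters. -/
structure SeqOK (f : ℝ → ℝ) (hfm : Measurable f) (C : ℝ) (hC : ∀ x, |f x| ≤ C) (α : ℝ)
    (U : Ultrafilter ℕ) (N M P : ℕ → ℕ) (s : ℕ → ℝ) (u : ∀ j, Fin (P j) → ℝ) : Prop where
  hMN : Tendsto (fun j => ((M j : ℝ) + 1) / (N j + 2)) U (𝓝 α)
  hN : Tendsto N U atTop
  hb : ∃ A : ℝ, ∀ j, ((M j : ℝ) + 1) / (N j + 2) ≤ A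
  hgg : ∀ p : ℕ, AsympGG U (fun j => pS f hfm C hC (N j) (M j) (P j) (s j) (u j)) (fun x => x ^ p)
  hgg1 : ∀ p : ℕ, AsympGG U (fun j => pS f hfm C hC (N j) (M j + 1) (P j) (s j) (u j))
    (fun x => x ^ p)

section

variable {C c₀ a : ℝ} {f f1 f2 f3 : ℝ → ℝ} (hf : Pot C c₀ a f f1 f2 f3) (hfm : Measurable f)
  {α : ℝ} (hα : 0 < α)

include hα

/-- Additive functionals of two replicas. -/
theorem rhoC_two {h h' h'' : ℝ → ℝ} (hh : CB2 h h' h'') : ∃ D : ℝ, 0 ≤ D ∧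
    ∀ (U : Ultrafilter ℕ) (N M P : ℕ → ℕ) (s : ℕ → ℝ) (u : ∀ j, Fin (P j) → ℝ),
      SeqOK f hfm C hf.cb3.b0 α U N M P s u →
    ∀ (k : ℕ) (b : Fin k → ℝ) (w : Fin (k + 1) → ℝ) (q : ℕ → ℝ) (ε : ℝ),
      Mesh U (fun j => pS f hfm C hf.cb3.b0 (N j) (M j) (P j) (s j) (u j)) b w q ε → ∀ η > 0,
      ∀ᶠ j in (U : Filter ℕ),
        (pS f hfm C hf.cb3.b0 (N j) (M j + 1) (P j) (s j) (u j)).tav (n := 2)
          (fun t x => (addF (1 / ((N j : ℝ) + 2)) h t x -
            α * pv (fun x => Real.exp (f x) / c₀) h k w q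
              (lev b ((pS f hfm C hf.cb3.b0 (N j) (M j) (P j) (s j) (u j)).R (x 0) (x 1)))) ^ 2) ≤
          D * ε + η := by
  obtain ⟨B, hB⟩ := hh.b0
  obtain ⟨D, hD, hD'⟩ := add_two hf hfm hh
  set H := max 1 B with hH
  refine ⟨4 * (α + 1) ^ 2 * H ^ 2 * D, by positivity, ?_⟩
  intro U N M P s u hs k b w q ε hm η hη
  have h1 := rho_conc hfm C hf.cb3.b0 hα hs.hMN hs.hN (n := 2) hh.cont.measurable
    (le_max_left 1 B) (fun x => (hB x).trans (le_max_right 1 B))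
    (fun j x => pv (fun x => Real.exp (f x) / c₀) h k w q
              (lev b ((pS f hfm C hf.cb3.b0 (N j) (M j) (P j) (s j) (u j)).R (x 0) (x 1))))
    (fun j x => by
      rw [abs_of_nonneg (pv_nonneg hf.a0 hf.cb2W hf.Wa hf.W1 hm.lim.wpos q hh (by omega))]
      exact pv_le hf.a0 hf.cb2W hf.Wa hf.W1 hm.lim.wpos q hh
        (fun x => (hB x).trans (le_max_right 1 B)) (by omega))
    (mul_nonneg hD hm.eps)
    (fun Φ hΦm hΦ η hη => same_two hf hfm hs.hgg hΦm hΦ η hη)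
    (fun Φ hΦm hΦ η hη => hD' U N M P s u k b w q ε hm.eps hm.lim hm.path hm.le1 hm.off Φ hΦm hΦ
      η hη) η hη
  filter_upwards [h1] with j hj
  refine hj.trans (le_of_eq ?_)
  ring

/-- Additive functionals of one replica. -/
theorem rhoC_one {h h' h'' : ℝ → ℝ} (hh : CB2 h h' h'') : ∃ D : ℝ, 0 ≤ D ∧
    ∀ (U : Ultrafilter ℕ) (N M P : ℕ → ℕ) (s : ℕ → ℝ) (u : ∀ j, Fin (P j) → ℝ),
      SeqOK f hfm C hf.cb3.b0 α U N M P s u →
    ∀ (k : ℕ) (b : Fin k → ℝ) (w : Fin (k + 1) → ℝ) (q : ℕ → ℝ) (ε : ℝ),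
      Mesh U (fun j => pS f hfm C hf.cb3.b0 (N j) (M j) (P j) (s j) (u j)) b w q ε → ∀ η > 0,
      ∀ᶠ j in (U : Filter ℕ),
        (pS f hfm C hf.cb3.b0 (N j) (M j + 1) (P j) (s j) (u j)).tav (n := 1)
          (fun t x => (addF (1 / ((N j : ℝ) + 2)) h t x -
            α * ov (fun x => Real.exp (f x) / c₀) h k w q) ^ 2) ≤
          D * ε + η := by
  obtain ⟨B, hB⟩ := hh.b0
  obtain ⟨D, hD, hD'⟩ := add_one hf hfm hh
  set H := max 1 B with hH
  refine ⟨4 * (α + 1) ^ 2 * H ^ 1 * D, by positivity, ?_⟩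
  intro U N M P s u hs k b w q ε hm η hη
  have h1 := rho_conc hfm C hf.cb3.b0 hα hs.hMN hs.hN (n := 1) hh.cont.measurable
    (le_max_left 1 B) (fun x => (hB x).trans (le_max_right 1 B))
    (fun j x => ov (fun x => Real.exp (f x) / c₀) h k w q)
    (fun j x => by
      rw [pow_one]
      exact ov_abs_le hf.a0 hf.cb2W hf.Wa hf.W1 hm.lim.wpos q hh
        (fun x => (hB x).trans (le_max_right 1 B)))
    (mul_nonneg hD hm.eps)
    (fun Φ hΦm hΦ η hη => same_one hf hfm hs.hgg hΦm hΦ η hη)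
    (fun Φ hΦm hΦ η hη => hD' U N M P s u k b w q ε hm.eps hm.lim hm.path hm.le1 hm.off Φ hΦm hΦ
      η hη) η hη
  filter_upwards [h1] with j hj
  refine hj.trans (le_of_eq ?_)
  ring

end

/-! ### Grams of the two kernels -/

lemma gram_ker1 {M N : ℕ} {δ : ℝ} (hδ : 0 ≤ δ) (f1 : ℝ → ℝ) (t : Fin M → Fin (N + 1) → ℝ)
    (x y : Fin (N + 1) → Bool) :
    gram (ker1 δ f1 t) (ker1 δ f1 t) x y = addF δ f1 t ![x, y] := by
  unfold gram ker1 addF
  rw [Finset.mul_sum]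
  refine Finset.sum_congr rfl fun a _ => ?_
  rw [Fin.prod_univ_two]
  simp only [Matrix.cons_val_zero, Matrix.cons_val_one]
  have h := Real.mul_self_sqrt hδ
  calc √δ * f1 (cubeS (t a) x) * (√δ * f1 (cubeS (t a) y)) =
      (√δ * √δ) * (f1 (cubeS (t a) x) * f1 (cubeS (t a) y)) := by ring
    _ = _ := by rw [h]

lemma gram_ker1_self {M N : ℕ} {δ : ℝ} (hδ : 0 ≤ δ) (f1 : ℝ → ℝ) (t : Fin M → Fin (N + 1) → ℝ)
    (x : Fin (N + 1) → Bool) :
    gram (ker1 δ f1 t) (ker1 δ f1 t) x x = addF δ (fun y => f1 y ^ 2) t ![x] := by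
  rw [gram_ker1 hδ]
  unfold addF
  congr 1
  refine Finset.sum_congr rfl fun a _ => ?_
  rw [Fin.prod_univ_two, Fin.prod_univ_one]
  simp only [Matrix.cons_val_zero, Matrix.cons_val_one]
  ring

lemma gram_ker2 {M N : ℕ} (δ : ℝ) (f1 : ℝ → ℝ) (t : Fin M → Fin (N + 1) → ℝ)
    (x y : Fin (N + 1) → Bool) :
    gram (ker2 δ f1 t) (ker2 δ f1 t) x y =
      gram (ker1 δ f1 t) (ker1 δ f1 t) x y * ∑ i, cubeφ N x i * cubeφ N y i := by
  unfold gram ker1 ker2
  rw [Fintype.sum_prod_type, Finset.sum_mul]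
  refine Finset.sum_congr rfl fun a _ => ?_
  rw [Finset.mul_sum]
  exact Finset.sum_congr rfl fun i _ => by ring

lemma pS_R {f : ℝ → ℝ} (hfm : Measurable f) (C : ℝ) (hC : ∀ x, |f x| ≤ C) (N M P : ℕ) (s : ℝ)
    (u : Fin P → ℝ) (x y : Fin (N + 1) → Bool) :
    (pS f hfm C hC N M P s u).R x y = ∑ i, cubeφ N x i * cubeφ N y i := by
  have h : (pS f hfm C hC N M P s u).R x y = inner ℝ (cubeφ N x) (cubeφ N y) := rfl
  rw [h, PiLp.inner_apply]
  exact Finset.sum_congr rfl fun i _ => by simp [mul_comm]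

lemma sum_ker1_sq {M N : ℕ} {δ : ℝ} (hδ : 0 ≤ δ) {f1 : ℝ → ℝ} {C : ℝ} (hC : ∀ x, |f1 x| ≤ C)
    (t : Fin M → Fin (N + 1) → ℝ) (x : Fin (N + 1) → Bool) :
    ∑ i, ker1 δ f1 t x i ^ 2 ≤ δ * M * C ^ 2 := by
  have h : ∀ i, ker1 δ f1 t x i ^ 2 ≤ δ * C ^ 2 := by
    intro i
    unfold ker1
    rw [mul_pow, Real.sq_sqrt hδ]
    apply mul_le_mul_of_nonneg_left _ hδ
    exact sq_le_sq' (abs_le.1 (hC _)).1 (abs_le.1 (hC _)).2
  refine (Finset.sum_le_sum fun i _ => h i).trans (le_of_eq ?_)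
  rw [Finset.sum_const, Finset.card_univ, Fintype.card_fin, nsmul_eq_mul]
  ring

lemma sum_ker2_sq {M N : ℕ} {δ : ℝ} (hδ : 0 ≤ δ) {f1 : ℝ → ℝ} {C : ℝ} (hC : ∀ x, |f1 x| ≤ C)
    (t : Fin M → Fin (N + 1) → ℝ) (x : Fin (N + 1) → Bool) :
    ∑ i, ker2 δ f1 t x i ^ 2 ≤ δ * M * C ^ 2 := by
  have h := gram_ker2 δ f1 t x x
  have h1 : ∑ i, ker2 δ f1 t x i ^ 2 = gram (ker2 δ f1 t) (ker2 δ f1 t) x x := by
    unfold gram
    exact Finset.sum_congr rfl fun i _ => by ring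
  have h2 : ∑ i, ker1 δ f1 t x i ^ 2 = gram (ker1 δ f1 t) (ker1 δ f1 t) x x := by
    unfold gram
    exact Finset.sum_congr rfl fun i _ => by ring
  have h3 : ∑ i, cubeφ N x i * cubeφ N x i = 1 := by
    rw [← Cube.sum_cubeφ_sq N x]
    exact Finset.sum_congr rfl fun i _ => by ring
  rw [h1, h, h3, mul_one, ← h2]
  exact sum_ker1_sq hδ hC t x

/-- Cauchy-Schwarz for the averages. -/
lemma Sys.tav_abs_le_sqrt (S : Sys) {n : ℕ} {F : S.T → (Fin n → S.X) → ℝ} {B : ℝ}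
    (hF : Sys.Bdd S F B) : S.tav (fun t x => |F t x|) ≤ √(S.tav fun t x => F t x ^ 2) := by
  have hB0 : Sys.Bdd S (fun t x => |F t x|) B :=
    ⟨fun x => (hF.meas x).abs, fun t x => by rw [abs_abs]; exact hF.bdd t x⟩
  have hB1 : Sys.Bdd S (fun t x => F t x ^ 2) (B * B) :=
    ⟨fun x => (hF.meas x).pow_const 2, fun t x => by
      rw [abs_pow, sq]
      exact mul_le_mul (hF.bdd t x) (hF.bdd t x) (abs_nonneg _)
        ((abs_nonneg _).trans (hF.bdd t x))⟩
  have h0 : 0 ≤ S.tav (fun t x => |F t x|) := Sys.tav_nonneg fun t x => abs_nonneg _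
  set m := S.tav (fun t x => |F t x|) with hm
  have h1 : ∀ t x, 2 * m * |F t x| ≤ m ^ 2 + F t x ^ 2 := by
    intro t x
    have h2 : (0 : ℝ) ≤ (m - |F t x|) ^ 2 := sq_nonneg _
    have h3 : |F t x| ^ 2 = F t x ^ 2 := sq_abs _
    linarith only [h3, h2]
  have hB2 : Sys.Bdd S (n := n) (fun _ _ => m ^ 2) (m ^ 2) :=
    ⟨fun x => measurable_const, fun t x => by rw [abs_of_nonneg (sq_nonneg m)]⟩
  have hB3 : Sys.Bdd S (fun t x => 2 * m * |F t x|) (2 * m * B) :=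
    ⟨fun x => (hF.meas x).abs.const_mul _, fun t x => by
      rw [abs_mul, abs_abs, abs_of_nonneg (by positivity : 0 ≤ 2 * m)]
      exact mul_le_mul_of_nonneg_left (hF.bdd t x) (by positivity)⟩
  have hB4 : Sys.Bdd S (fun t x => m ^ 2 + F t x ^ 2) (m ^ 2 + B * B) :=
    ⟨fun x => (hB1.meas x).const_add _, fun t x =>
      (abs_add_le _ _).trans (add_le_add (hB2.bdd t x) (hB1.bdd t x))⟩
  have h4 := Sys.tav_mono hB3 hB4 h1
  rw [Sys.tav_smul, Sys.tav_add hB2 hB1, Sys.tav_const, ← hm] at h4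
  apply Real.le_sqrt_of_sq_le
  linarith only [h4]

lemma addF_meas {M N n : ℕ} (δ : ℝ) {h : ℝ → ℝ} (hh : Measurable h)
    (x : Fin n → Fin (N + 1) → Bool) :
    Measurable fun t : Fin M → Fin (N + 1) → ℝ => addF δ h t x := by
  unfold addF
  refine (Finset.measurable_sum _ fun a _ => Finset.measurable_prod _ fun i _ =>
    hh.comp ?_).const_mul δ
  unfold cubeS
  fun_prop

lemma addF_bdd {M N n : ℕ} {δ : ℝ} (hδ : 0 ≤ δ) {h : ℝ → ℝ} {B : ℝ} (hB : ∀ x, |h x| ≤ B)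
    (t : Fin M → Fin (N + 1) → ℝ) (x : Fin n → Fin (N + 1) → Bool) :
    |addF δ h t x| ≤ δ * (M * B ^ n) := by
  unfold addF
  rw [abs_mul, abs_of_nonneg hδ]
  apply mul_le_mul_of_nonneg_left _ hδ
  refine (Finset.abs_sum_le_sum_abs _ _).trans ?_
  have h1 : ∀ a, |∏ i, h (cubeS (t a) (x i))| ≤ B ^ n := by
    intro a
    have h2 : |∏ i, h (cubeS (t a) (x i))| ≤ B ^ (univ : Finset (Fin n)).card :=
      abs_prod_le fun i _ => hB _
    rwa [Finset.card_univ, Fintype.card_fin] at h2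
  refine (Finset.sum_le_sum fun a _ => h1 a).trans (le_of_eq ?_)
  rw [Finset.sum_const, Finset.card_univ, Fintype.card_fin, nsmul_eq_mul]

lemma vec2 {X : Type} (x : Fin 2 → X) : ![x 0, x 1] = x := by
  funext i
  fin_cases i <;> rfl

lemma vec1 {X : Type} (x : Fin 1 → X) : ![x 0] = x := by
  funext i
  fin_cases i
  rfl

section

variable {C c₀ a : ℝ} {f f1 f2 f3 : ℝ → ℝ} (hf : Pot C c₀ a f f1 f2 f3) (hfm : Measurable f)
  {α : ℝ} (hα : 0 < α)

/-- The dual path. -/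
noncomputable def rr (α : ℝ) (W f1 : ℝ → ℝ) (k : ℕ) (w : Fin (k + 1) → ℝ) (q : ℕ → ℝ) (l : ℕ) : ℝ :=
  α * pv W f1 k w q l

include hf hα in
lemma rr_path {k : ℕ} {w : Fin (k + 1) → ℝ} (hw : ∀ l, 0 < w l) (q : ℕ → ℝ) :
    Path k (rr α (fun x => Real.exp (f x) / c₀) f1 k w q) := by
  obtain ⟨g', g'', hg⟩ := hf.cf1
  refine ⟨mul_nonneg hα.le (pv_nonneg hf.a0 hf.cb2W hf.Wa hf.W1 hw q hg (Nat.zero_le k)),
    fun l hl => mul_le_mul_of_nonneg_left (pv_mono hf.a0 hf.cb2W hf.Wa hf.W1 hw q hg hl) hα.le⟩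

include hf hα in
lemma rr_nonneg {k : ℕ} {w : Fin (k + 1) → ℝ} (hw : ∀ l, 0 < w l) (q : ℕ → ℝ) {l : ℕ}
    (hl : l ≤ k) : 0 ≤ rr α (fun x => Real.exp (f x) / c₀) f1 k w q l := by
  obtain ⟨g', g'', hg⟩ := hf.cf1
  exact mul_nonneg hα.le (pv_nonneg hf.a0 hf.cb2W hf.Wa hf.W1 hw q hg hl)

include hf hα in
lemma rr_le {k : ℕ} {w : Fin (k + 1) → ℝ} (hw : ∀ l, 0 < w l) (q : ℕ → ℝ) {l : ℕ}
    (hl : l ≤ k) : rr α (fun x => Real.exp (f x) / c₀) f1 k w q l ≤ α * C ^ 2 := by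
  obtain ⟨g', g'', hg⟩ := hf.cf1
  exact mul_le_mul_of_nonneg_left (pv_le hf.a0 hf.cb2W hf.Wa hf.W1 hw q hg hf.cb3.b1 hl) hα.le

include hf hα in
lemma rr_le_ov {k : ℕ} {w : Fin (k + 1) → ℝ} (hw : ∀ l, 0 < w l) (q : ℕ → ℝ) :
    rr α (fun x => Real.exp (f x) / c₀) f1 k w q k ≤
      α * ov (fun x => Real.exp (f x) / c₀) (fun y => f1 y ^ 2) k w q := by
  obtain ⟨g', g'', hg⟩ := hf.cf1
  exact mul_le_mul_of_nonneg_left (pv_le_ov hf.a0 hf.cb2W hf.Wa hf.W1 hw q hg) hα.le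

include hα in
/-- The kernel of the new spin. -/
theorem kerClose_ker1 : ∃ D : ℝ, 0 ≤ D ∧
    ∀ (U : Ultrafilter ℕ) (N M P : ℕ → ℕ) (s : ℕ → ℝ) (u : ∀ j, Fin (P j) → ℝ),
      SeqOK f hfm C hf.cb3.b0 α U N M P s u →
    ∀ (k : ℕ) (b : Fin k → ℝ) (w : Fin (k + 1) → ℝ) (q : ℕ → ℝ) (ε : ℝ),
      Mesh U (fun j => pS f hfm C hf.cb3.b0 (N j) (M j) (P j) (s j) (u j)) b w q ε →
      ∀ ε' > 0, D * ε < ε' ^ 2 → ∃ B,
      KerClose U (fun j => pS f hfm C hf.cb3.b0 (N j) (M j + 1) (P j) (s j) (u j)) b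
        (cut (incr (stop k (rr α (fun x => Real.exp (f x) / c₀) f1 k w q))) k)
        (α * ov (fun x => Real.exp (f x) / c₀) (fun y => f1 y ^ 2) k w q -
          rr α (fun x => Real.exp (f x) / c₀) f1 k w q k) ε' B
        (fun j t x => ker1 (1 / ((N j : ℝ) + 2)) f1 t x) := by
  obtain ⟨g', g'', hg⟩ := hf.cf1
  obtain ⟨p', p'', hp⟩ := hg.sq_fn
  obtain ⟨D1, hD1, hD1'⟩ := rhoC_two hf hfm hα hg
  obtain ⟨D2, hD2, hD2'⟩ := rhoC_one hf hfm hα hp
  refine ⟨max D1 D2, hD1.trans (le_max_left _ _), ?_⟩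
  intro U N M P s u hs k b w q ε hm ε' hε' hlt
  obtain ⟨A, hA⟩ := hs.hb
  have hδ : ∀ j, (0 : ℝ) ≤ 1 / ((N j : ℝ) + 2) := fun j => by positivity
  have hlt1 : D1 * ε < ε' ^ 2 :=
    lt_of_le_of_lt (mul_le_mul_of_nonneg_right (le_max_left _ _) hm.eps) hlt
  have hlt2 : D2 * ε < ε' ^ 2 :=
    lt_of_le_of_lt (mul_le_mul_of_nonneg_right (le_max_right _ _) hm.eps) hlt
  refine ⟨A * C ^ 2, fun j x c => ?_, fun j t x => ?_, ?_, ?_⟩
  · unfold ker1
    refine (hg.cont.measurable.comp ?_).const_mul _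
    unfold cubeS
    fun_prop
  · refine (sum_ker1_sq (hδ j) hf.cb3.b1 t x).trans ?_
    apply mul_le_mul_of_nonneg_right _ (sq_nonneg C)
    refine le_trans (le_of_eq ?_) (hA j)
    push_cast
    ring
  · filter_upwards [hD1' U N M P s u hs k b w q ε hm (ε' ^ 2 - D1 * ε) (by linarith)] with j hj
    have h1 : Sys.Bdd (pS f hfm C hf.cb3.b0 (N j) (M j + 1) (P j) (s j) (u j)) (n := 2)
        (fun t x => addF (1 / ((N j : ℝ) + 2)) f1 t x -
            rr α (fun x => Real.exp (f x) / c₀) f1 k w q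
              (lev b ((pS f hfm C hf.cb3.b0 (N j) (M j) (P j) (s j) (u j)).R (x 0) (x 1))))
        (1 / ((N j : ℝ) + 2) * (((M j + 1 : ℕ) : ℝ) * C ^ 2) + α * C ^ 2) :=
      ⟨fun x => (addF_meas _ hg.cont.measurable x).sub_const _, fun t x =>
        (abs_sub _ _).trans (add_le_add (addF_bdd (hδ j) hf.cb3.b1 t x) (by
          rw [abs_of_nonneg (rr_nonneg hf hα hm.lim.wpos q (by omega))]
          exact rr_le hf hα hm.lim.wpos q (by omega)))⟩
    have h2 := Sys.tav_abs_le_sqrt _ h1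
    have h3 : √((pS f hfm C hf.cb3.b0 (N j) (M j + 1) (P j) (s j) (u j)).tav (n := 2)
        fun t x => (addF (1 / ((N j : ℝ) + 2)) f1 t x -
            rr α (fun x => Real.exp (f x) / c₀) f1 k w q
              (lev b ((pS f hfm C hf.cb3.b0 (N j) (M j) (P j) (s j) (u j)).R (x 0) (x 1)))) ^ 2) ≤
        ε' := by
      rw [Real.sqrt_le_left hε'.le]
      refine le_trans hj (le_of_eq ?_)
      ring
    refine le_trans (le_of_eq ?_) (h2.trans h3)
    refine Sys.tav_congr fun t x => ?_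
    rw [cumul_incr]
    have e1 : gram (ker1 (1 / ((N j : ℝ) + 2)) f1 t) (ker1 (1 / ((N j : ℝ) + 2)) f1 t) (x 0)
        (x 1) = addF (1 / ((N j : ℝ) + 2)) f1 t x :=
      (gram_ker1 (hδ j) f1 t (x 0) (x 1)).trans
        (congrArg (addF (1 / ((N j : ℝ) + 2)) f1 t) (vec2 x))
    exact congrArg (fun y => |y - rr α (fun x => Real.exp (f x) / c₀) f1 k w q
          (lev b ((pS f hfm C hf.cb3.b0 (N j) (M j + 1) (P j) (s j) (u j)).R (x 0) (x 1)))|) e1
  · filter_upwards [hD2' U N M P s u hs k b w q ε hm (ε' ^ 2 - D2 * ε) (by linarith)] with j hj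
    have h1 : Sys.Bdd (pS f hfm C hf.cb3.b0 (N j) (M j + 1) (P j) (s j) (u j)) (n := 1)
        (fun t x => addF (1 / ((N j : ℝ) + 2)) (fun y => f1 y ^ 2) t x -
            α * ov (fun x => Real.exp (f x) / c₀) (fun y => f1 y ^ 2) k w q)
        (1 / ((N j : ℝ) + 2) * (((M j + 1 : ℕ) : ℝ) * (C ^ 2) ^ 1) + α * C ^ 2) :=
      ⟨fun x => (addF_meas _ hp.cont.measurable x).sub_const _, fun t x =>
        (abs_sub _ _).trans (add_le_add (addF_bdd (hδ j) (fun y => by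
          rw [abs_pow]
          exact pow_le_pow_left₀ (abs_nonneg _) (hf.cb3.b1 y) 2) t x) (by
          rw [abs_mul, abs_of_pos hα]
          apply mul_le_mul_of_nonneg_left _ hα.le
          exact ov_abs_le hf.a0 hf.cb2W hf.Wa hf.W1 hm.lim.wpos q hp (fun y => by
            rw [abs_pow]
            exact pow_le_pow_left₀ (abs_nonneg _) (hf.cb3.b1 y) 2)))⟩
    have h2 := Sys.tav_abs_le_sqrt _ h1
    have h3 : √((pS f hfm C hf.cb3.b0 (N j) (M j + 1) (P j) (s j) (u j)).tav (n := 1)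
        fun t x => (addF (1 / ((N j : ℝ) + 2)) (fun y => f1 y ^ 2) t x -
            α * ov (fun x => Real.exp (f x) / c₀) (fun y => f1 y ^ 2) k w q) ^ 2) ≤ ε' := by
      rw [Real.sqrt_le_left hε'.le]
      refine le_trans hj (le_of_eq ?_)
      ring
    refine le_trans (le_of_eq ?_) (h2.trans h3)
    refine Sys.tav_congr fun t x => ?_
    rw [cumul_incr, Fin.val_last]
    have e1 : gram (ker1 (1 / ((N j : ℝ) + 2)) f1 t) (ker1 (1 / ((N j : ℝ) + 2)) f1 t) (x 0)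
        (x 0) = addF (1 / ((N j : ℝ) + 2)) (fun y => f1 y ^ 2) t x :=
      (gram_ker1_self (hδ j) f1 t (x 0)).trans
        (congrArg (addF (1 / ((N j : ℝ) + 2)) (fun y => f1 y ^ 2) t) (vec1 x))
    have e2 : rr α (fun x => Real.exp (f x) / c₀) f1 k w q k +
        (α * ov (fun x => Real.exp (f x) / c₀) (fun y => f1 y ^ 2) k w q -
          rr α (fun x => Real.exp (f x) / c₀) f1 k w q k) =
        α * ov (fun x => Real.exp (f x) / c₀) (fun y => f1 y ^ 2) k w q := by ring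
    rw [e2]
    exact congrArg (fun y => |y - α * ov (fun x => Real.exp (f x) / c₀)
      (fun y => f1 y ^ 2) k w q|) e1

lemma pS_R_abs {f : ℝ → ℝ} (hfm : Measurable f) (C : ℝ) (hC : ∀ x, |f x| ≤ C) (N M P : ℕ)
    (s : ℝ) (u : Fin P → ℝ) (x y : Fin (N + 1) → Bool) :
    |(pS f hfm C hC N M P s u).R x y| ≤ 1 := by
  have := Sys.R_mem (S := pS f hfm C hC N M P s u) x y
  rw [abs_le]
  exact this

/-- The overlap under the system with one more pattern. -/
theorem off_succ {U : Ultrafilter ℕ} {N M P : ℕ → ℕ} {s : ℕ → ℝ} {u : ∀ j, Fin (P j) → ℝ}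
    (hs : SeqOK f hfm C hf.cb3.b0 α U N M P s u) {k : ℕ} {b : Fin k → ℝ}
    {w : Fin (k + 1) → ℝ} {q : ℕ → ℝ} {ε : ℝ}
    (hm : Mesh U (fun j => pS f hfm C hf.cb3.b0 (N j) (M j) (P j) (s j) (u j)) b w q ε) :
    ∀ η > 0, ∀ᶠ j in (U : Filter ℕ),
      (pS f hfm C hf.cb3.b0 (N j) (M j + 1) (P j) (s j) (u j)).tav (n := 2) (fun _ x =>
        |(pS f hfm C hf.cb3.b0 (N j) (M j) (P j) (s j) (u j)).R (x 0) (x 1) -
          q (lev b ((pS f hfm C hf.cb3.b0 (N j) (M j) (P j) (s j) (u j)).R (x 0) (x 1)))|) ≤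
        ε + η := by
  intro η hη
  have hq0 : ∀ l : Fin (k + 1), |q l| ≤ 1 := by
    intro l
    have h1 := path_mono hm.path.2 0 l (Nat.zero_le _) (by omega)
    have h2 := path_mono hm.path.2 l k (by omega) le_rfl
    rw [abs_of_nonneg (hm.path.1.trans h1)]
    exact h2.trans hm.le1
  have h1 := same_two hf hfm hs.hgg (Φ := fun j _ x =>
    1 / 2 * |(pS f hfm C hf.cb3.b0 (N j) (M j) (P j) (s j) (u j)).R (x 0) (x 1) -
          q (lev b ((pS f hfm C hf.cb3.b0 (N j) (M j) (P j) (s j) (u j)).R (x 0) (x 1)))|)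
    (fun j x => measurable_const) (fun j t x => by
      rw [abs_mul, abs_abs, abs_of_pos (by norm_num : (0 : ℝ) < 1 / 2)]
      have h2 := pS_R_abs hfm C hf.cb3.b0 (N j) (M j) (P j) (s j) (u j) (x 0) (x 1)
      have h3 := abs_sub ((pS f hfm C hf.cb3.b0 (N j) (M j) (P j) (s j) (u j)).R (x 0) (x 1))
          (q (lev b ((pS f hfm C hf.cb3.b0 (N j) (M j) (P j) (s j) (u j)).R (x 0) (x 1))))
      have h4 := hq0 (lev b ((pS f hfm C hf.cb3.b0 (N j) (M j) (P j) (s j) (u j)).R (x 0) (x 1)))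
      linarith) (η / 2) (by positivity)
  filter_upwards [h1, hm.off] with j h1 h2
  have e1 := Sys.tav_smul (S := pS f hfm C hf.cb3.b0 (N j) (M j + 1) (P j) (s j) (u j)) (n := 2)
    (1 / 2) (fun _ x =>
    |(pS f hfm C hf.cb3.b0 (N j) (M j) (P j) (s j) (u j)).R (x 0) (x 1) -
          q (lev b ((pS f hfm C hf.cb3.b0 (N j) (M j) (P j) (s j) (u j)).R (x 0) (x 1)))|)
  have e2 := Sys.tav_smul (S := pS f hfm C hf.cb3.b0 (N j) (M j) (P j) (s j) (u j)) (n := 2)
    (1 / 2) (fun _ x =>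
    |(pS f hfm C hf.cb3.b0 (N j) (M j) (P j) (s j) (u j)).R (x 0) (x 1) -
          q (lev b ((pS f hfm C hf.cb3.b0 (N j) (M j) (P j) (s j) (u j)).R (x 0) (x 1)))|)
  have h3 := (abs_le.1 (abs_sub_le_congr h1 e1 e2)).2
  generalize (pS f hfm C hf.cb3.b0 (N j) (M j + 1) (P j) (s j) (u j)).tav (n := 2) (fun _ x =>
        |(pS f hfm C hf.cb3.b0 (N j) (M j) (P j) (s j) (u j)).R (x 0) (x 1) -
          q (lev b ((pS f hfm C hf.cb3.b0 (N j) (M j) (P j) (s j) (u j)).R (x 0) (x 1)))|) = A at *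
  generalize (pS f hfm C hf.cb3.b0 (N j) (M j) (P j) (s j) (u j)).tav (n := 2) (fun _ x =>
        |(pS f hfm C hf.cb3.b0 (N j) (M j) (P j) (s j) (u j)).R (x 0) (x 1) -
          q (lev b ((pS f hfm C hf.cb3.b0 (N j) (M j) (P j) (s j) (u j)).R (x 0) (x 1)))|) = A' at *
  linarith only [h2, h3]

include hα in
/-- The kernel of the rescaling. -/
theorem kerClose_ker2 {U : Ultrafilter ℕ} {N M P : ℕ → ℕ} {s : ℕ → ℝ} {u : ∀ j, Fin (P j) → ℝ}
    (hs : SeqOK f hfm C hf.cb3.b0 α U N M P s u) {k : ℕ} {b : Fin k → ℝ}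
    {w : Fin (k + 1) → ℝ} {q : ℕ → ℝ} {ε : ℝ}
    (hm : Mesh U (fun j => pS f hfm C hf.cb3.b0 (N j) (M j) (P j) (s j) (u j)) b w q ε)
    {ε' B : ℝ} (h1 : KerClose U
        (fun j => pS f hfm C hf.cb3.b0 (N j) (M j + 1) (P j) (s j) (u j)) b
        (cut (incr (stop k (rr α (fun x => Real.exp (f x) / c₀) f1 k w q))) k)
        (α * ov (fun x => Real.exp (f x) / c₀) (fun y => f1 y ^ 2) k w q -
          rr α (fun x => Real.exp (f x) / c₀) f1 k w q k) ε' B
        (fun j t x => ker1 (1 / ((N j : ℝ) + 2)) f1 t x)) {ε₂ : ℝ}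
    (hlt : ε' + α * C ^ 2 * ε < ε₂) : ∃ B,
      KerClose U (fun j => pS f hfm C hf.cb3.b0 (N j) (M j + 1) (P j) (s j) (u j)) b
        (cut (incr (stop k fun l => rr α (fun x => Real.exp (f x) / c₀) f1 k w q l * q l)) k)
        (α * ov (fun x => Real.exp (f x) / c₀) (fun y => f1 y ^ 2) k w q -
          rr α (fun x => Real.exp (f x) / c₀) f1 k w q k * q k) ε₂ B
        (fun j t x => ker2 (1 / ((N j : ℝ) + 2)) f1 t x) := by
  obtain ⟨g', g'', hg⟩ := hf.cf1
  obtain ⟨A, hA⟩ := hs.hb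
  have hC0 : 0 ≤ C := (abs_nonneg _).trans (hf.cb3.b0 0)
  have hδ : ∀ j, (0 : ℝ) ≤ 1 / ((N j : ℝ) + 2) := fun j => by positivity
  have hbd : ∀ j t x, ∑ i, ker2 (M := M j + 1) (N := N j) (1 / ((N j : ℝ) + 2)) f1 t x i ^ 2 ≤
      A * C ^ 2 := by
    intro j t x
    refine (sum_ker2_sq (hδ j) hf.cb3.b1 t x).trans ?_
    apply mul_le_mul_of_nonneg_right _ (sq_nonneg C)
    refine le_trans (le_of_eq ?_) (hA j)
    push_cast
    ring
  have hbd1 : ∀ j t x, ∑ i, ker1 (M := M j + 1) (N := N j) (1 / ((N j : ℝ) + 2)) f1 t x i ^ 2 ≤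
      A * C ^ 2 := by
    intro j t x
    refine (sum_ker1_sq (hδ j) hf.cb3.b1 t x).trans ?_
    apply mul_le_mul_of_nonneg_right _ (sq_nonneg C)
    refine le_trans (le_of_eq ?_) (hA j)
    push_cast
    ring
  have hgm1 : ∀ j x y, Measurable fun t : Fin (M j + 1) → Fin (N j + 1) → ℝ =>
      gram (ker1 (1 / ((N j : ℝ) + 2)) f1 t) (ker1 (1 / ((N j : ℝ) + 2)) f1 t) x y := by
    intro j x y
    simp only [gram_ker1 (hδ j)]
    exact addF_meas _ hg.cont.measurable _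
  have hgm2 : ∀ j x y, Measurable fun t : Fin (M j + 1) → Fin (N j + 1) → ℝ =>
      gram (ker2 (1 / ((N j : ℝ) + 2)) f1 t) (ker2 (1 / ((N j : ℝ) + 2)) f1 t) x y := by
    intro j x y
    simp only [gram_ker2]
    exact (hgm1 j x y).mul_const _
  have hrn := fun l : Fin (k + 1) => rr_nonneg (α := α) hf hα hm.lim.wpos q
    (l := l) (by omega)
  have hrl := fun l : Fin (k + 1) => rr_le (α := α) hf hα hm.lim.wpos q (l := l) (by omega)
  have hq0 : ∀ l : Fin (k + 1), |q l| ≤ 1 := by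
    intro l
    have h1 := path_mono hm.path.2 0 l (Nat.zero_le _) (by omega)
    have h2 := path_mono hm.path.2 l k (by omega) le_rfl
    rw [abs_of_nonneg (hm.path.1.trans h1)]
    exact h2.trans hm.le1
  set r := rr α (fun x => Real.exp (f x) / c₀) f1 k w q with hr
  set ν := ε₂ - ε' - α * C ^ 2 * ε with hν
  have hν0 : 0 < ν := by linarith
  have hαC : 0 ≤ α * C ^ 2 := by positivity
  refine ⟨A * C ^ 2, fun j x c => ?_, hbd, ?_, ?_⟩
  · unfold ker2
    refine ((hg.cont.measurable.comp ?_).const_mul _).mul_const _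
    unfold cubeS
    fun_prop
  · filter_upwards [h1.off, off_succ hf hfm hs hm (ν / (α * C ^ 2 + 1)) (by (clear * - hν0 hα; positivity))]
      with j h2 h3
    simp only [cumul_incr] at h2 ⊢
    have hρ : ∀ (t : Fin (M j + 1) → Fin (N j + 1) → ℝ) (x y : Fin (N j + 1) → Bool),
        |gram (ker1 (1 / ((N j : ℝ) + 2)) f1 t) (ker1 (1 / ((N j : ℝ) + 2)) f1 t) x y| ≤
          A * C ^ 2 := fun t x y => abs_gram_le (hbd1 j t) x y
    have hρ2 : ∀ (t : Fin (M j + 1) → Fin (N j + 1) → ℝ) (x y : Fin (N j + 1) → Bool),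
        |gram (ker2 (1 / ((N j : ℝ) + 2)) f1 t) (ker2 (1 / ((N j : ℝ) + 2)) f1 t) x y| ≤
          A * C ^ 2 := fun t x y => abs_gram_le (hbd j t) x y
    have hpt : ∀ (t : Fin (M j + 1) → Fin (N j + 1) → ℝ) (x : Fin 2 → Fin (N j + 1) → Bool),
        |gram (ker2 (1 / ((N j : ℝ) + 2)) f1 t) (ker2 (1 / ((N j : ℝ) + 2)) f1 t) (x 0) (x 1) -
          r (lev b ((pS f hfm C hf.cb3.b0 (N j) (M j) (P j) (s j) (u j)).R (x 0) (x 1))) *
          q (lev b ((pS f hfm C hf.cb3.b0 (N j) (M j) (P j) (s j) (u j)).R (x 0) (x 1)))| ≤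
        |gram (ker1 (1 / ((N j : ℝ) + 2)) f1 t) (ker1 (1 / ((N j : ℝ) + 2)) f1 t) (x 0) (x 1) -
          r (lev b ((pS f hfm C hf.cb3.b0 (N j) (M j) (P j) (s j) (u j)).R (x 0) (x 1)))| +
        α * C ^ 2 * |(pS f hfm C hf.cb3.b0 (N j) (M j) (P j) (s j) (u j)).R (x 0) (x 1) -
          q (lev b ((pS f hfm C hf.cb3.b0 (N j) (M j) (P j) (s j) (u j)).R (x 0) (x 1)))| := by
      intro t x
      have e1 := pS_R hfm C hf.cb3.b0 (N j) (M j) (P j) (s j) (u j) (x 0) (x 1)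
      rw [gram_ker2, ← e1]
      set R := (pS f hfm C hf.cb3.b0 (N j) (M j) (P j) (s j) (u j)).R (x 0) (x 1) with hR
      set ρ := gram (ker1 (1 / ((N j : ℝ) + 2)) f1 t) (ker1 (1 / ((N j : ℝ) + 2)) f1 t) (x 0)
        (x 1) with hρd
      have e2 : ρ * R - r (lev b R) * q (lev b R) =
          (ρ - r (lev b R)) * R + r (lev b R) * (R - q (lev b R)) := by ring
      rw [e2]
      refine (abs_add_le _ _).trans (add_le_add ?_ ?_)
      · rw [abs_mul]
        exact mul_le_of_le_one_right (abs_nonneg _)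
          (pS_R_abs hfm C hf.cb3.b0 (N j) (M j) (P j) (s j) (u j) (x 0) (x 1))
      · rw [abs_mul, abs_of_nonneg (hrn _)]
        exact mul_le_mul_of_nonneg_right (hrl _) (abs_nonneg _)
    have b1 : Sys.Bdd (pS f hfm C hf.cb3.b0 (N j) (M j + 1) (P j) (s j) (u j)) (n := 2)
        (fun t x => |gram (ker2 (1 / ((N j : ℝ) + 2)) f1 t) (ker2 (1 / ((N j : ℝ) + 2)) f1 t)
          (x 0) (x 1) -
          r (lev b ((pS f hfm C hf.cb3.b0 (N j) (M j) (P j) (s j) (u j)).R (x 0) (x 1))) *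
          q (lev b ((pS f hfm C hf.cb3.b0 (N j) (M j) (P j) (s j) (u j)).R (x 0) (x 1)))|)
        (A * C ^ 2 + α * C ^ 2) :=
      ⟨fun x => ((hgm2 j _ _).sub_const _).abs, fun t x => by
        rw [abs_abs]
        refine (abs_sub _ _).trans (add_le_add (hρ2 t _ _) ?_)
        rw [abs_mul, abs_of_nonneg (hrn _)]
        calc _ ≤ (α * C ^ 2) * 1 := mul_le_mul (hrl _) (hq0 _) (abs_nonneg _) hαC
          _ = _ := mul_one _⟩
    have b2 : Sys.Bdd (pS f hfm C hf.cb3.b0 (N j) (M j + 1) (P j) (s j) (u j)) (n := 2)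
        (fun t x => |gram (ker1 (1 / ((N j : ℝ) + 2)) f1 t) (ker1 (1 / ((N j : ℝ) + 2)) f1 t)
          (x 0) (x 1) -
          r (lev b ((pS f hfm C hf.cb3.b0 (N j) (M j) (P j) (s j) (u j)).R (x 0) (x 1)))|)
        (A * C ^ 2 + α * C ^ 2) :=
      ⟨fun x => ((hgm1 j _ _).sub_const _).abs, fun t x => by
        rw [abs_abs]
        refine (abs_sub _ _).trans (add_le_add (hρ t _ _) ?_)
        rw [abs_of_nonneg (hrn _)]
        exact hrl _⟩
    have b3 : Sys.Bdd (pS f hfm C hf.cb3.b0 (N j) (M j + 1) (P j) (s j) (u j)) (n := 2)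
        (fun _ x => α * C ^ 2 *
          |(pS f hfm C hf.cb3.b0 (N j) (M j) (P j) (s j) (u j)).R (x 0) (x 1) -
          q (lev b ((pS f hfm C hf.cb3.b0 (N j) (M j) (P j) (s j) (u j)).R (x 0) (x 1)))|)
        (α * C ^ 2 * 2) :=
      ⟨fun x => measurable_const, fun t x => by
        rw [abs_mul, abs_abs, abs_of_nonneg hαC]
        apply mul_le_mul_of_nonneg_left _ hαC
        have h2 := pS_R_abs hfm C hf.cb3.b0 (N j) (M j) (P j) (s j) (u j) (x 0) (x 1)
        have h3 := abs_sub ((pS f hfm C hf.cb3.b0 (N j) (M j) (P j) (s j) (u j)).R (x 0) (x 1))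
          (q (lev b ((pS f hfm C hf.cb3.b0 (N j) (M j) (P j) (s j) (u j)).R (x 0) (x 1))))
        have h4 := hq0 (lev b
          ((pS f hfm C hf.cb3.b0 (N j) (M j) (P j) (s j) (u j)).R (x 0) (x 1)))
        linarith⟩
    have b4 : Sys.Bdd (pS f hfm C hf.cb3.b0 (N j) (M j + 1) (P j) (s j) (u j)) (n := 2)
        (fun t x => |gram (ker1 (1 / ((N j : ℝ) + 2)) f1 t) (ker1 (1 / ((N j : ℝ) + 2)) f1 t)
          (x 0) (x 1) -
          r (lev b ((pS f hfm C hf.cb3.b0 (N j) (M j) (P j) (s j) (u j)).R (x 0) (x 1)))| +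
          α * C ^ 2 *
          |(pS f hfm C hf.cb3.b0 (N j) (M j) (P j) (s j) (u j)).R (x 0) (x 1) -
          q (lev b ((pS f hfm C hf.cb3.b0 (N j) (M j) (P j) (s j) (u j)).R (x 0) (x 1)))|)
        (A * C ^ 2 + α * C ^ 2 + α * C ^ 2 * 2) :=
      ⟨fun x => (b2.meas x).add (b3.meas x), fun t x =>
        (abs_add_le _ _).trans (add_le_add (b2.bdd t x) (b3.bdd t x))⟩
    have h4 := Sys.tav_mono b1 b4 hpt
    have h5 := Sys.tav_add b2 b3
    have h6 := Sys.tav_smul (S := pS f hfm C hf.cb3.b0 (N j) (M j + 1) (P j) (s j) (u j))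
      (n := 2) (α * C ^ 2) (fun _ x =>
          |(pS f hfm C hf.cb3.b0 (N j) (M j) (P j) (s j) (u j)).R (x 0) (x 1) -
          q (lev b ((pS f hfm C hf.cb3.b0 (N j) (M j) (P j) (s j) (u j)).R (x 0) (x 1)))|)
    have h7 : α * C ^ 2 * (ε + ν / (α * C ^ 2 + 1)) ≤ α * C ^ 2 * ε + ν := by
      have : α * C ^ 2 * (ν / (α * C ^ 2 + 1)) ≤ ν := by
        rw [← mul_div_assoc, div_le_iff₀ (by positivity)]
        linarith only [hlt]
      linarith only [this]
    have h8 := mul_le_mul_of_nonneg_left h3 hαC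
    exact (h4.trans (le_of_eq (h5.trans (congrArg₂ (· + ·) rfl h6)))).trans
      ((add_le_add h2 h8).trans (by linarith only [h7]))
  · filter_upwards [h1.diag] with j h2
    have hν1 : 0 ≤ α * C ^ 2 * ε := mul_nonneg hαC hm.eps
    refine le_trans (le_of_eq ?_) (h2.trans (by linarith))
    simp only [cumul_incr, Fin.val_last]
    refine Sys.tav_congr fun t x => ?_
    have e1 : gram (ker2 (1 / ((N j : ℝ) + 2)) f1 t) (ker2 (1 / ((N j : ℝ) + 2)) f1 t) (x 0)
        (x 0) = gram (ker1 (1 / ((N j : ℝ) + 2)) f1 t) (ker1 (1 / ((N j : ℝ) + 2)) f1 t) (x 0)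
        (x 0) := by
      refine (gram_ker2 _ f1 t (x 0) (x 0)).trans ?_
      have h3 : ∑ i, cubeφ (N j) (x 0) i * cubeφ (N j) (x 0) i = 1 := by
        rw [← Cube.sum_cubeφ_sq (N j) (x 0)]
        exact Finset.sum_congr rfl fun i _ => by ring
      rw [h3, mul_one]
    have e2 : r k * q k + (α * ov (fun x => Real.exp (f x) / c₀) (fun y => f1 y ^ 2) k w q -
          r k * q k) = r k + (α * ov (fun x => Real.exp (f x) / c₀) (fun y => f1 y ^ 2) k w q -
          r k) := by ring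
    rw [e2]
    exact congrArg (fun y => |y - (r k + (α * ov (fun x => Real.exp (f x) / c₀)
      (fun y => f1 y ^ 2) k w q - r k))|) e1

end

end Vale.Agent.P157.Par
end

section

open MeasureTheory ProbabilityTheory Filter Topology Finset

namespace Vale.Agent.P157.Par

set_option linter.unusedSectionVars false

open Vale.Agent.P367.GT (gM)

/-! ### Stopped paths -/

lemma cascade_congr (m : ℕ → ℝ) {q q' : ℕ → ℝ} {k : ℕ} (h : ∀ l ≤ k, q l = q' l) :
    ∀ F, cascade m q k F = cascade m q' k F := by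
  induction k with
  | zero => intro F; rfl
  | succ k ih =>
    intro F
    rw [cascade, cascade, h (k + 1) le_rfl, h k (by omega)]
    exact ih (fun l hl => h l (by omega)) _

lemma patternPart_congr (f : ℝ → ℝ) {k : ℕ} (m : ℕ → ℝ) {q q' : ℕ → ℝ} (h : ∀ l ≤ k, q l = q' l) :
    patternPart f k m q = patternPart f k m q' := by
  unfold patternPart
  rw [cascade_congr m h, h k le_rfl, h 0 (Nat.zero_le k)]

lemma abel (m x : ℕ → ℝ) (k : ℕ) :
    ∑ l ∈ Finset.range (k + 1), (m (l + 1) - m l) * x l =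
      m (k + 1) * x k - m 0 * x 0 - ∑ l ∈ Finset.range k, m (l + 1) * (x (l + 1) - x l) := by
  induction k with
  | zero => simp; ring
  | succ k ih =>
    rw [Finset.sum_range_succ, ih, Finset.sum_range_succ (n := k)]
    ring

section

variable {C c₀ a : ℝ} {f f1 f2 f3 : ℝ → ℝ} (hf : Pot C c₀ a f f1 f2 f3) (hfm : Measurable f)

/-- The increment for one more pattern. -/
theorem dM_lim : ∃ D : ℝ, 0 ≤ D ∧
    ∀ (U : Ultrafilter ℕ) (N M P : ℕ → ℕ) (s : ℕ → ℝ) (u : ∀ j, Fin (P j) → ℝ)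
    (k : ℕ) (b : Fin k → ℝ) (w : Fin (k + 1) → ℝ) (q : ℕ → ℝ) (ε : ℝ),
      Mesh U (fun j => pS f hfm C hf.cb3.b0 (N j) (M j) (P j) (s j) (u j)) b w q ε → ∀ η > 0,
      ∀ᶠ j in (U : Filter ℕ),
        |(pS f hfm C hf.cb3.b0 (N j) (M j) (P j) (s j) (u j)).dM f -
          patternPart f k (mOf w) q| ≤ D * ε + η := by
  obtain ⟨W', W'', hW⟩ := hf.cb2W
  obtain ⟨C1, hC1, hC1'⟩ := exists_SB hW
  set α := max (1 - a) (1 / 2) with hα
  have hα1 : α < 1 := max_lt (by linarith [hf.a0]) (by norm_num)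
  have hα0 : 0 < α := lt_of_lt_of_le (by norm_num) (le_max_right _ _)
  refine ⟨Dl C1 α, tsum_nonneg fun n => by (clear * - hC1; positivity), ?_⟩
  intro U N M P s u k b w q ε hm η hη
  have hker := kerClose_phi (q := q) hm.eps hm.off
  have h1 := trans_log hm.lim (m := mOf w) (v := incr (stop k q)) (incr_stop_nonneg hm.path)
    (fun l hl _ => mOf_pos hm.lim.wpos hl) (fun l => up_eq_mOf hm.lim.wsum l)
    (sub_nonneg.2 hm.le1) hm.eps hker hC1 hf.a0 (le_max_left (1 - a) (1 / 2)) hα0 hα1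
    hC1' hf.Wa hf.W1 η hη
  have h2 : patternPart f k (mOf w) q = Real.log c₀ +
      ∫ z, Real.log (lvW (mOf w) (incr (stop k q)) k
        (topW (1 - q k) (fun x => Real.exp (f x) / c₀)) 0
        (√(incr (stop k q) 0) * z)) ∂(gaussianReal 0 1) := by
    rw [patternPart_congr f (mOf w) (q' := stop k q) (fun l hl => (stop_le hl).symm)]
    have h3 := patternPart_eq (m := mOf w) (q := stop k q) (k := k) (f := f)
      (fun l hl _ => mOf_pos hm.lim.wpos hl) hf.c0 hf.a0 hf.cb2W hf.Wa hf.W1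
      (by rw [stop_le le_rfl]; exact hm.le1)
    rw [h3, stop_le le_rfl, ← topW_eq]
  filter_upwards [h1] with j hj
  -- the two forms of the increment
  set S := pS f hfm C hf.cb3.b0 (N j) (M j) (P j) (s j) (u j) with hS
  have h3 : S.dM f = Real.log c₀ + ∫ z : S.Ω × (Fin S.d → ℝ), Real.log
        (∑ x, S.w z.1 x * (Real.exp (f (lin (fun x i => S.φ x i) z.2 x)) / c₀))
          ∂(S.P.prod (gM (Fin S.d))) := by
    have h4 : ∀ z : S.Ω × (Fin S.d → ℝ), Real.log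
        (∑ x, S.w z.1 x * Real.exp (f (∑ i, z.2 i * S.φ x i))) = Real.log c₀ + Real.log
        (∑ x, S.w z.1 x * (Real.exp (f (lin (fun x i => S.φ x i) z.2 x)) / c₀)) := by
      intro z
      have h5 : ∑ x, S.w z.1 x * Real.exp (f (∑ i, z.2 i * S.φ x i)) = c₀ *
          ∑ x, S.w z.1 x * (Real.exp (f (lin (fun x i => S.φ x i) z.2 x)) / c₀) := by
        rw [Finset.mul_sum]
        refine Finset.sum_congr rfl fun x _ => ?_
        have h6 : lin (fun x i => S.φ x i) z.2 x = ∑ i, z.2 i * S.φ x i := by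
          unfold lin
          exact Finset.sum_congr rfl fun i _ => mul_comm _ _
        have hc := hf.c0.ne'
        rw [h6]
        field_simp
      have h7 : 0 < ∑ x, S.w z.1 x * (Real.exp (f (lin (fun x i => S.φ x i) z.2 x)) / c₀) := by
        have h8 : a * ∑ x, S.w z.1 x ≤
            ∑ x, S.w z.1 x * (Real.exp (f (lin (fun x i => S.φ x i) z.2 x)) / c₀) := by
          rw [Finset.mul_sum]
          refine Finset.sum_le_sum fun x _ => ?_
          rw [mul_comm a]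
          exact mul_le_mul_of_nonneg_left (hf.Wa _) (S.w0 _ _)
        rw [S.w1, mul_one] at h8
        exact hf.a0.trans_le h8
      rw [h5, Real.log_mul hf.c0.ne' h7.ne']
    unfold Sys.dM
    simp only [h4]
    have h9 : Integrable (fun z : S.Ω × (Fin S.d → ℝ) => Real.log
        (∑ x, S.w z.1 x * (Real.exp (f (lin (fun x i => S.φ x i) z.2 x)) / c₀)))
        (S.P.prod (gM (Fin S.d))) := by
      have hmem : ∀ z : S.Ω × (Fin S.d → ℝ),
          a ≤ ∑ x, S.w z.1 x * (Real.exp (f (lin (fun x i => S.φ x i) z.2 x)) / c₀) ∧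
          ∑ x, S.w z.1 x * (Real.exp (f (lin (fun x i => S.φ x i) z.2 x)) / c₀) ≤ 1 := by
        intro z
        constructor
        · calc a = ∑ x, S.w z.1 x * a := by rw [← Finset.sum_mul, S.w1, one_mul]
            _ ≤ _ := Finset.sum_le_sum fun x _ =>
              mul_le_mul_of_nonneg_left (hf.Wa _) (S.w0 _ _)
        · calc _ ≤ ∑ x, S.w z.1 x * 1 := Finset.sum_le_sum fun x _ =>
              mul_le_mul_of_nonneg_left (hf.W1 _) (S.w0 _ _)
            _ = 1 := by rw [← Finset.sum_mul, S.w1, one_mul]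
      refine Integrable.of_bound (C := -Real.log a) ?_ (Eventually.of_forall fun z => ?_)
      · apply Measurable.aestronglyMeasurable
        apply Real.measurable_log.comp
        apply Finset.measurable_sum
        intro x _
        refine ((S.hw x).comp measurable_fst).mul ?_
        refine ((Real.measurable_exp.comp (hfm.comp ?_)).div_const _)
        unfold lin
        fun_prop
      · rw [Real.norm_eq_abs, abs_le]
        obtain ⟨h10, h11⟩ := hmem z
        have h12 := Real.log_le_log hf.a0 h10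
        have h13 := Real.log_nonpos (hf.a0.le.trans h10) h11
        constructor
        · linarith only [h12]
        · linarith only [h13, h12]
    rw [integral_add (integrable_const _) h9]
    simp
  rw [h2, h3]
  have e1 : ∀ X Y Z : ℝ, X + Y - (X + Z) = Y - Z := fun X Y Z => by ring
  rw [e1]
  exact hj

end

end Vale.Agent.P157.Par
end

section

open MeasureTheory ProbabilityTheory Filter Topology Finset

namespace Vale.Agent.P157.Par

set_option linter.unusedSectionVars false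

open Vale.Agent.P367.GT (gM)

/-- Transfer of the logarithm of the average of a truncated exponential. -/
theorem trn_lim {G : ℝ → ℝ} (hG : SpvG G) {T : ℝ} (hT : 0 < T) : ∃ D : ℝ, 0 ≤ D ∧
    ∀ (U : Ultrafilter ℕ) (S : ℕ → Sys) (k : ℕ) (b : Fin k → ℝ) (w : Fin (k + 1) → ℝ),
      LimData U S b w → ∀ (v : ℕ → ℝ), (∀ l, 0 ≤ v l) → ∀ (τ ε B : ℝ), 0 ≤ τ → 0 ≤ ε →
      ∀ (K : ℕ → Type) [∀ j, Fintype (K j)] [∀ j, DecidableEq (K j)]
        (κ : ∀ j, (S j).T → (S j).X → K j → ℝ), KerClose U S b (cut v k) τ ε B κ →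
      ∀ η > 0, ∀ᶠ j in (U : Filter ℕ),
        |(∫ z : (S j).Ω × (K j → ℝ), Real.log (∑ x, (S j).w z.1 x *
            Real.exp (G (trn T (lin (κ j ((S j).π z.1)) z.2 x)))) ∂((S j).P.prod (gM (K j)))) -
          (T + ∫ z, Real.log (lvW (mOf w) v k
            (topW τ fun x => Real.exp (G (trn T x)) / Real.exp T) 0 (√(v 0) * z))
              ∂(gaussianReal 0 1))| ≤ D * ε + η := by
  obtain ⟨⟨W', W'', hW⟩, hWa, hW1⟩ := spv_W hG hT
  obtain ⟨C1, hC1, hC1'⟩ := exists_SB hW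
  set a := Real.exp (-(2 * T)) with ha
  have ha0 : 0 < a := Real.exp_pos _
  set α := max (1 - a) (1 / 2) with hα
  have hα1 : α < 1 := max_lt (by linarith) (by norm_num)
  have hα0 : 0 < α := lt_of_lt_of_le (by norm_num) (le_max_right _ _)
  refine ⟨Dl C1 α, tsum_nonneg fun n => by (clear * - hC1; positivity), ?_⟩
  intro U S k b w hL v hv τ ε B hτ hε K _ _ κ hκ η hη
  have h1 := trans_log hL (m := mOf w) hv (fun l hl _ => mOf_pos hL.wpos hl)
    (fun l => up_eq_mOf hL.wsum l) hτ hε hκ hC1 ha0 (le_max_left (1 - a) (1 / 2)) hα0 hα1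
    hC1' hWa hW1 η hη
  filter_upwards [h1] with j hj
  have h3 : (∫ z : (S j).Ω × (K j → ℝ), Real.log (∑ x, (S j).w z.1 x *
      Real.exp (G (trn T (lin (κ j ((S j).π z.1)) z.2 x)))) ∂((S j).P.prod (gM (K j)))) =
      T + ∫ z : (S j).Ω × (K j → ℝ), Real.log (∑ x, (S j).w z.1 x *
      (Real.exp (G (trn T (lin (κ j ((S j).π z.1)) z.2 x))) / Real.exp T))
        ∂((S j).P.prod (gM (K j))) := by
    have hmem : ∀ z : (S j).Ω × (K j → ℝ),
        a ≤ ∑ x, (S j).w z.1 x *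
          (Real.exp (G (trn T (lin (κ j ((S j).π z.1)) z.2 x))) / Real.exp T) ∧
        ∑ x, (S j).w z.1 x *
          (Real.exp (G (trn T (lin (κ j ((S j).π z.1)) z.2 x))) / Real.exp T) ≤ 1 := by
      intro z
      constructor
      · calc a = ∑ x, (S j).w z.1 x * a := by rw [← Finset.sum_mul, (S j).w1, one_mul]
          _ ≤ _ := Finset.sum_le_sum fun x _ =>
            mul_le_mul_of_nonneg_left (hWa _) ((S j).w0 _ _)
      · calc _ ≤ ∑ x, (S j).w z.1 x * 1 := Finset.sum_le_sum fun x _ =>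
            mul_le_mul_of_nonneg_left (hW1 _) ((S j).w0 _ _)
          _ = 1 := by rw [← Finset.sum_mul, (S j).w1, one_mul]
    have h4 : ∀ z : (S j).Ω × (K j → ℝ), Real.log (∑ x, (S j).w z.1 x *
        Real.exp (G (trn T (lin (κ j ((S j).π z.1)) z.2 x)))) = T + Real.log
        (∑ x, (S j).w z.1 x *
          (Real.exp (G (trn T (lin (κ j ((S j).π z.1)) z.2 x))) / Real.exp T)) := by
      intro z
      have h5 : ∑ x, (S j).w z.1 x *
          Real.exp (G (trn T (lin (κ j ((S j).π z.1)) z.2 x))) = Real.exp T *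
          ∑ x, (S j).w z.1 x *
          (Real.exp (G (trn T (lin (κ j ((S j).π z.1)) z.2 x))) / Real.exp T) := by
        rw [Finset.mul_sum]
        refine Finset.sum_congr rfl fun x _ => ?_
        have hc := (Real.exp_pos T).ne'
        field_simp
      rw [h5, Real.log_mul (Real.exp_pos T).ne' (ha0.trans_le (hmem z).1).ne', Real.log_exp]
    simp only [h4]
    have h9 : Integrable (fun z : (S j).Ω × (K j → ℝ) => Real.log
        (∑ x, (S j).w z.1 x *
          (Real.exp (G (trn T (lin (κ j ((S j).π z.1)) z.2 x))) / Real.exp T)))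
        ((S j).P.prod (gM (K j))) := by
      refine Integrable.of_bound (C := -Real.log a) ?_ (Eventually.of_forall fun z => ?_)
      · apply Measurable.aestronglyMeasurable
        apply Real.measurable_log.comp
        apply Finset.measurable_sum
        intro x _
        refine (((S j).hw x).comp measurable_fst).mul ?_
        exact hW.cont.measurable.comp (measurable_field (S j) (hκ.meas j) x)
      · rw [Real.norm_eq_abs, abs_le]
        obtain ⟨h10, h11⟩ := hmem z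
        have h12 := Real.log_le_log ha0 h10
        have h13 := Real.log_nonpos (ha0.le.trans h10) h11
        constructor
        · linarith only [h12]
        · linarith
    rw [integral_add (integrable_const _) h9]
    simp
  rw [h3]
  have e1 : ∀ X Y Z : ℝ, X + Y - (X + Z) = Y - Z := fun X Y Z => by ring
  rw [e1]
  exact hj

end Vale.Agent.P157.Par
end

section

open MeasureTheory ProbabilityTheory Filter Topology Finset

namespace Vale.Agent.P157.Par

set_option linter.unusedSectionVars false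

open Vale.Agent.P367.GT (gM)

lemma final_arith {X1 Y1 X2 Y2 dM Ψ DN p ε α tB tE DA iT casc ao rk xk Sg Dc Di Dm e0 e1 : ℝ}
    (hε : 0 < ε) (hα : 0 < α) (hDA : 0 ≤ DA) (hDc : 0 ≤ Dc) (hDi : 0 ≤ Di)
    (he1 : e1 = ε / (24 * (Dc + Di + 1))) (he0 : e0 ≤ ε / (12 * (α * Dm + 1)))
    (hDm : 0 ≤ Dm)
    (h1 : |X1 - Y1| ≤ Dc * (e1 / 2) + ε / 12) (h2 : |X2 - Y2| ≤ Di * e1 + ε / 12)
    (h3 : |dM - Ψ| ≤ Dm * e0 + ε / (12 * (α + 1))) (h4 : DN + α * dM ≤ p + ε / 12)
    (h5 : tB ≤ ε / (24 * (DA + 1)) ∧ tE ≤ ε / (24 * (DA + 1)))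
    (v1 : casc + (ao - rk) / 2 ≤ Y1 + ε / 12)
    (v2 : Y2 ≤ 1 / 2 * Sg + (ao - xk) / 2 + ε / 12)
    (v3 : X1 - X2 - DA * (tB + tE + iT) ≤ DN) (v4 : DA * iT ≤ ε / 12) :
    α * Ψ + (casc - rk / 2) + 1 / 2 * (xk - Sg) ≤ p + ε := by
  have a1 := (abs_le.1 h1).1
  have a2 := (abs_le.1 h2).2
  have a3 := (abs_le.1 h3).1
  have b1 : (Dc + Di) * e1 ≤ ε / 24 := by
    rw [he1, show (Dc + Di) * (ε / (24 * (Dc + Di + 1))) =
      ((Dc + Di) / (Dc + Di + 1)) * (ε / 24) by field_simp]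
    apply mul_le_of_le_one_left (by positivity)
    rw [div_le_one (by positivity)]
    linarith only []
  have b2 : α * (Dm * e0) ≤ ε / 12 := by
    have h6 : α * Dm * e0 ≤ α * Dm * (ε / (12 * (α * Dm + 1))) :=
      mul_le_mul_of_nonneg_left he0 (by positivity)
    have h7 : α * Dm * (ε / (12 * (α * Dm + 1))) ≤ ε / 12 := by
      rw [show α * Dm * (ε / (12 * (α * Dm + 1))) = (α * Dm / (α * Dm + 1)) * (ε / 12) by
        field_simp]
      apply mul_le_of_le_one_left (by positivity)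
      rw [div_le_one (by positivity)]
      linarith only []
    linarith only [h6, h7]
  have b3 : α * (ε / (12 * (α + 1))) ≤ ε / 12 := by
    rw [show α * (ε / (12 * (α + 1))) = (α / (α + 1)) * (ε / 12) by field_simp]
    apply mul_le_of_le_one_left (by positivity)
    rw [div_le_one (by positivity)]
    linarith only []
  have b4 : DA * (ε / (24 * (DA + 1))) ≤ ε / 24 := by
    rw [show DA * (ε / (24 * (DA + 1))) = (DA / (DA + 1)) * (ε / 24) by field_simp]
    apply mul_le_of_le_one_left (by positivity)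
    rw [div_le_one (by positivity)]
    linarith only []
  have b5 := mul_le_mul_of_nonneg_left h5.1 hDA
  have b6 := mul_le_mul_of_nonneg_left h5.2 hDA
  have b7 : α * Ψ ≤ α * dM + α * (Dm * e0) + α * (ε / (12 * (α + 1))) := by
    have : Ψ ≤ dM + Dm * e0 + ε / (12 * (α + 1)) := by linarith only [a3]
    have h8 := mul_le_mul_of_nonneg_left this hα.le
    linarith only [h8]
  have b8 : Dc * (e1 / 2) + Di * e1 ≤ ε / 24 := by
    have h9 : 0 ≤ e1 := by rw [he1]; positivity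
    have h10 : Dc * (e1 / 2) ≤ Dc * e1 := mul_le_mul_of_nonneg_left (by linarith only [h9]) hDc
    linarith only [b1, h10]
  linarith only [hε, h4, v1, v2, v3, v4, a1, a2, b2, b3, b4, b5, b6, b7, b8]

section

variable {C c₀ a : ℝ} {f f1 f2 f3 : ℝ → ℝ} (hf : Pot C c₀ a f f1 f2 f3) (hfm : Measurable f)
  {α : ℝ} (hα : 0 < α) {U : Ultrafilter ℕ} {N M P : ℕ → ℕ} {s : ℕ → ℝ} {u : ∀ j, Fin (P j) → ℝ}
  (hs : SeqOK f hfm C hf.cb3.b0 α U N M P s u)

include hα hs

/-- The drift is asymptotically constant. -/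
theorem drift_const : ∀ η > 0, ∃ b : ℝ, ∀ᶠ j in (U : Filter ℕ),
      (pS f hfm C hf.cb3.b0 (N j) (M j + 1) (P j) (s j) (u j)).tav (n := 1) (fun t x =>
        |cavB (1 / ((N j : ℝ) + 2)) f1 f2 (fun a => cubeS (t a) (x 0)) - b|) ≤ η ∧
      (pS f hfm C hf.cb3.b0 (N j) (M j + 1) (P j) (s j) (u j)).tav (n := 1) (fun t x =>
        |Real.exp (cavB (1 / ((N j : ℝ) + 2)) f1 f2 (fun a => cubeS (t a) (x 0)) - b) - 1|) ≤
          η := by
  refine cavB_conc hf.cb3 hfm hf.cf1 hf.cf2 hα hs.hMN fun g g' g'' hg η hη => ?_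
  obtain ⟨D, hD, hD'⟩ := rhoC_one hf hfm hα hg
  obtain ⟨k, b, w, q, hm⟩ := exists_mesh' hs.hgg (ε := η / (2 * (D + 1))) (by positivity)
  refine ⟨α * ov (fun x => Real.exp (f x) / c₀) g k w q, ?_⟩
  filter_upwards [hD' U N M P s u hs k b w q _ hm (η / 2) (by positivity)] with j hj
  refine hj.trans ?_
  have h3 : D * (η / (2 * (D + 1))) ≤ η / 2 := by
    rw [show D * (η / (2 * (D + 1))) = (D / (D + 1)) * (η / 2) by field_simp]
    apply mul_le_of_le_one_left (by positivity)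
    rw [div_le_one (by positivity)]
    linarith
  linarith only [h3]

/-- The value of the two increments. -/
theorem lower_ineq {p : ℝ} (hfin : ∀ ε > 0, ∀ᶠ j in (U : Filter ℕ),
      cubeDN f f1 f2 hfm C hf.cb3.b0 (N j) (M j + 1) (P j) (s j) (u j) +
        α * (pS f hfm C hf.cb3.b0 (N j) (M j) (P j) (s j) (u j)).dM f ≤ p + ε) :
    ∀ ε > 0, ∃ (k : ℕ) (b : Fin k → ℝ) (w : Fin (k + 1) → ℝ) (q : ℕ → ℝ) (ε₀ : ℝ),
      Mesh U (fun j => pS f hfm C hf.cb3.b0 (N j) (M j) (P j) (s j) (u j)) b w q ε₀ ∧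
      parisi α f k (mOf w) q (rr α (fun x => Real.exp (f x) / c₀) f1 k w q) ≤ p + ε := by
  intro ε hε
  obtain ⟨A, hA⟩ := hs.hb
  have hC0 : 0 ≤ C := (abs_nonneg _).trans (hf.cb3.b0 0)
  obtain ⟨g', g'', hg⟩ := hf.cf1
  obtain ⟨p', p'', hp⟩ := hg.sq_fn
  -- the constants
  obtain ⟨DA, hDA, hDA'⟩ := cubeDN_trunc (A * C ^ 2)
  obtain ⟨T1, hT1⟩ := spin_val_cosh (α * C ^ 2) (ε / 12) (by positivity)
  obtain ⟨T2, hT2⟩ := spin_val_id (α * C ^ 2) (ε / 12) (by positivity)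
  obtain ⟨T3, hT3⟩ := spv_choose DA (ε := ε / 12) (by positivity)
  set T := max (max T1 T2) (max T3 1) with hT
  have hTT1 : T1 ≤ T := (le_max_left _ _).trans (le_max_left _ _)
  have hTT2 : T2 ≤ T := (le_max_right _ _).trans (le_max_left _ _)
  have hTT3 : T3 ≤ T := (le_max_left _ _).trans (le_max_right _ _)
  have hT1' : 1 ≤ T := (le_max_right _ _).trans (le_max_right _ _)
  have hT0 : 0 < T := by linarith
  obtain ⟨b₀, hb₀⟩ := drift_const hf hfm hα hs (ε / (24 * (DA + 1))) (by positivity)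
  obtain ⟨Dc, hDc, hDc'⟩ := trn_lim spv_logcosh hT0
  obtain ⟨Di, hDi, hDi'⟩ := trn_lim spv_idG hT0
  obtain ⟨Dm, hDm, hDm'⟩ := dM_lim hf hfm
  obtain ⟨Dk, hDk, hDk'⟩ := kerClose_ker1 hf hfm hα
  -- the tolerance of the kernels
  set e1 := ε / (24 * (Dc + Di + 1)) with he1
  have he1' : 0 < e1 := by positivity
  set e0 := min (e1 ^ 2 / (8 * (Dk + 1))) (min (e1 / (4 * (α * C ^ 2 + 1)))
    (ε / (12 * (α * Dm + 1)))) with he0
  have he0' : 0 < e0 := by
    refine lt_min (by positivity) (lt_min (by (clear * - hε hDc hDi hα; positivity)) (by positivity))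
  obtain ⟨k, b, w, q, hm⟩ := exists_mesh' hs.hgg he0'
  refine ⟨k, b, w, q, e0, hm, ?_⟩
  set r := rr α (fun x => Real.exp (f x) / c₀) f1 k w q with hr
  set o := ov (fun x => Real.exp (f x) / c₀) (fun y => f1 y ^ 2) k w q with ho
  have hrpath : Path k r := rr_path hf hα hm.lim.wpos q
  have hro : r k ≤ α * o := rr_le_ov hf hα hm.lim.wpos q
  have hoC : α * o ≤ α * C ^ 2 := by
    apply mul_le_mul_of_nonneg_left _ hα.le
    exact le_of_abs_le (ov_abs_le hf.a0 hf.cb2W hf.Wa hf.W1 hm.lim.wpos q hp (fun y => by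
      rw [abs_pow]
      exact pow_le_pow_left₀ (abs_nonneg _) (hf.cb3.b1 y) 2))
  have hr0 : ∀ l ≤ k, 0 ≤ r l := fun l hl => rr_nonneg hf hα hm.lim.wpos q hl
  have hq0 : ∀ l ≤ k, 0 ≤ q l := fun l hl =>
    hm.path.1.trans (path_mono hm.path.2 0 l (Nat.zero_le _) hl)
  have hqmono := path_mono hm.path.2
  have hrmono := path_mono hrpath.2
  have hxpath : Path k (fun l => r l * q l) :=
    ⟨mul_nonneg (hr0 0 (Nat.zero_le _)) (hq0 0 (Nat.zero_le _)), fun l hl =>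
      mul_le_mul (hrpath.2 l hl) (hm.path.2 l hl) (hq0 l hl.le) (hr0 (l + 1) hl)⟩
  have hxk : r k * q k ≤ r k := mul_le_of_le_one_right (hr0 k le_rfl) hm.le1
  have hmm : ∀ l, 1 ≤ l → l ≤ k → 0 < mOf w l ∧ mOf w l ≤ 1 := fun l hl _ =>
    ⟨mOf_pos hm.lim.wpos hl, mOf_le_one hm.lim.wpos hm.lim.wsum l⟩
  -- the kernels
  have hDk1 : Dk * e0 < (e1 / 2) ^ 2 := by
    have h1 : Dk * e0 ≤ Dk * (e1 ^ 2 / (8 * (Dk + 1))) :=
      mul_le_mul_of_nonneg_left (min_le_left _ _) hDk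
    have h2 : Dk * (e1 ^ 2 / (8 * (Dk + 1))) ≤ e1 ^ 2 / 8 := by
      rw [show Dk * (e1 ^ 2 / (8 * (Dk + 1))) = (Dk / (Dk + 1)) * (e1 ^ 2 / 8) by field_simp]
      apply mul_le_of_le_one_left (by (clear * - hε hDc hDi; positivity))
      rw [div_le_one (by positivity)]
      linarith
    have h3 : 0 < e1 ^ 2 := by (clear * - hε hDc hDi; positivity)
    have h4 : (e1 / 2) ^ 2 = e1 ^ 2 / 4 := by ring
    rw [h4]
    linarith only [h1, h2, h3]
  obtain ⟨B1, hk1⟩ := hDk' U N M P s u hs k b w q e0 hm (e1 / 2) (by (clear * - hε hDc hDi; positivity)) hDk1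
  have hαC : 0 ≤ α * C ^ 2 := by (clear * - hα; positivity)
  have hlt : e1 / 2 + α * C ^ 2 * e0 < e1 := by
    have h1 : α * C ^ 2 * e0 ≤ α * C ^ 2 * (e1 / (4 * (α * C ^ 2 + 1))) :=
      mul_le_mul_of_nonneg_left ((min_le_right _ _).trans (min_le_left _ _)) hαC
    have h2 : α * C ^ 2 * (e1 / (4 * (α * C ^ 2 + 1))) ≤ e1 / 4 := by
      rw [show α * C ^ 2 * (e1 / (4 * (α * C ^ 2 + 1))) =
        (α * C ^ 2 / (α * C ^ 2 + 1)) * (e1 / 4) by field_simp]
      apply mul_le_of_le_one_left (by positivity)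
      rw [div_le_one (by (clear * - hα; positivity))]
      linarith only []
    linarith only [he1', h1, h2]
  obtain ⟨B2, hk2⟩ := kerClose_ker2 hf hfm hα hs hm hk1 hlt
  have hL1 := limData_succ hf hfm hs.hgg hs.hgg1 hm.lim
  -- the four limits
  have l1 := hDc' U _ k b w hL1 _ (incr_stop_nonneg hrpath) _ _ B1 (sub_nonneg.2 hro)
    (by positivity) _ _ hk1 (ε / 12) (by positivity)
  have l2 := hDi' U _ k b w hL1 _ (incr_stop_nonneg hxpath) _ _ B2
    (sub_nonneg.2 (hxk.trans hro)) he1'.le _ _ hk2 (ε / 12) (by positivity)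
  have l3 := hDm' U N M P s u k b w q e0 hm (ε / (12 * (α + 1))) (by positivity)
  have l4 := hfin (ε / 12) (by positivity)
  obtain ⟨j, h1, h2, h3, h4, h5⟩ := (l1.and (l2.and (l3.and (l4.and hb₀)))).exists
  -- the values
  have v1 := hT1 T hTT1 k (mOf w) (stop k r) (α * o - r k) hmm
    (by rw [stop_le (Nat.zero_le k)]; exact hr0 0 (Nat.zero_le k))
    (fun l hl => by
      rw [stop_le hl.le, stop_le (show l + 1 ≤ k from hl)]
      exact hrpath.2 l hl) (sub_nonneg.2 hro)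
    (by rw [stop_le le_rfl]; linarith only [hoC])
  have v2 := hT2 T hTT2 k (mOf w) (stop k fun l => r l * q l) (α * o - r k * q k) hmm
    (by rw [stop_le (Nat.zero_le k)]; exact hxpath.1)
    (fun l hl => by
      rw [stop_le hl.le, stop_le (show l + 1 ≤ k from hl)]
      exact hxpath.2 l hl) (sub_nonneg.2 (hxk.trans hro))
    (by rw [stop_le le_rfl]; linarith only [hoC])
  have v3 := hDA' f f1 f2 f3 C hf.cb3 hfm (N j) (M j + 1) (P j) (s j) (u j) (by
    have := mul_le_mul_of_nonneg_right (hA j) (sq_nonneg C)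
    refine le_trans (le_of_eq ?_) this
    push_cast
    ring) b₀ T hT1'
  have v4 : DA * (1 / T ^ 2) ≤ ε / 12 := by
    rw [mul_one_div]
    exact (hT3 T hTT3).2
  -- the functional
  have e2 := abel (mOf w) (fun l => r l * q l) k
  have e3 := exponents_mOf hm.lim.wpos hm.lim.wsum
  rw [e3.1, e3.2.1, zero_mul, sub_zero, one_mul] at e2
  have e4 : ∑ l ∈ Finset.range (k + 1), (mOf w (l + 1) - mOf w l) * r l * q l =
      ∑ l ∈ Finset.range (k + 1), (mOf w (l + 1) - mOf w l) * (r l * q l) :=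
    Finset.sum_congr rfl fun l _ => by ring
  have e5 : ∫ z, cascade (mOf w) (stop k r) k (fun x => Real.log (Real.cosh x))
      (√(stop k r 0) * z) ∂(gaussianReal 0 1) =
      ∫ z, cascade (mOf w) r k (fun x => Real.log (Real.cosh x))
      (√(r 0) * z) ∂(gaussianReal 0 1) := by
    rw [cascade_congr (mOf w) (q := stop k r) (q' := r) (fun l hl => stop_le hl),
      stop_le (Nat.zero_le k)]
  have e6 : ∑ l ∈ Finset.range k, mOf w (l + 1) * (stop k (fun l => r l * q l) (l + 1) -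
      stop k (fun l => r l * q l) l) =
      ∑ l ∈ Finset.range k, mOf w (l + 1) * (r (l + 1) * q (l + 1) - r l * q l) := by
    refine Finset.sum_congr rfl fun l hl => ?_
    rw [Finset.mem_range] at hl
    rw [stop_le hl.le, stop_le (show l + 1 ≤ k from hl)]
  rw [e5] at v1
  rw [e6] at v2
  unfold parisi spinPart
  rw [e4, e2]
  exact final_arith hε hα hDA hDc hDi he1 ((min_le_right _ _).trans (min_le_right _ _)) hDm
    h1 h2 h3 h4 h5 v1 v2 v3 v4

end

end Vale.Agent.P157.Par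
end
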