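import Mathlib
import Vale.Agent.P367.GT.Stein

set_option linter.all false

section

open MeasureTheory ProbabilityTheory Filter Topology
open scoped RealInnerProductSpace

namespace Vale.Agent.P157.Par

/-- A random Gibbs measure `w` on a finite configuration space `X` whose points carry unit feature
vectors `φ`. The disorder is `Ω`; the test functions may depend on the disorder only through the
map `π : Ω → T` (the rest of the disorder is the one of the perturbation). -/
structure Sys where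
  Ω : Type
  mΩ : MeasurableSpace Ω
  P : Measure Ω
  hP : IsProbabilityMeasure P
  T : Type
  mT : MeasurableSpace T
  π : Ω → T
  hπ : Measurable π
  X : Type
  fX : Fintype X
  w : Ω → X → ℝ
  hw : ∀ x, Measurable fun ω => w ω x
  w0 : ∀ ω x, 0 ≤ w ω x
  w1 : ∀ ω, ∑ x, w ω x = 1
  d : ℕ
  φ : X → EuclideanSpace ℝ (Fin d)
  hφ : ∀ x, ‖φ x‖ = 1

attribute [instance] Sys.mΩ Sys.hP Sys.mT Sys.fX

/-- The overlap. -/
noncomputable def Sys.R (S : Sys) (x y : S.X) : ℝ := ⟪S.φ x, S.φ y⟫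

/-- Average over the disorder of the average over `n` replicas. -/
noncomputable def Sys.av (S : Sys) {n : ℕ} (F : S.Ω → (Fin n → S.X) → ℝ) : ℝ :=
  ∫ ω, ∑ x : Fin n → S.X, (∏ i, S.w ω (x i)) * F ω x ∂S.P

/-- The average of a test function, which depends on the disorder only through `π`. -/
noncomputable def Sys.tav (S : Sys) {n : ℕ} (F : S.T → (Fin n → S.X) → ℝ) : ℝ :=
  S.av fun ω => F (S.π ω)

/-- Test functions of `n` replicas, bounded by one. -/
structure Sys.Test (S : Sys) {n : ℕ} (F : S.T → (Fin n → S.X) → ℝ) : Prop where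
  meas : ∀ x, Measurable fun t => F t x
  bdd : ∀ t x, |F t x| ≤ 1

/-- The defect in the Ghirlanda-Guerra identity for the function `ψ` of the overlap, the replica
`i` and the test function `F`. -/
noncomputable def Sys.ggDefect (S : Sys) (ψ : ℝ → ℝ) {n : ℕ} (i : Fin n)
    (F : S.T → (Fin n → S.X) → ℝ) : ℝ :=
  n * S.tav (fun t (x : Fin (n + 1) → S.X) =>
      F t (fun j => x j.castSucc) * ψ (S.R (x i.castSucc) (x (Fin.last n)))) -
    (S.tav F * S.tav (fun _ (x : Fin 2 → S.X) => ψ (S.R (x 0) (x 1))) +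
      ∑ j ∈ Finset.univ.erase i, S.tav (fun t x => F t x * ψ (S.R (x i) (x j))))

/-- The Ghirlanda-Guerra identities hold asymptotically for the function `ψ`, along the
ultrafilter `U`, uniformly over the test functions. -/
def AsympGG (U : Ultrafilter ℕ) (S : ℕ → Sys) (ψ : ℝ → ℝ) : Prop :=
  ∀ (n : ℕ) (i : Fin n), ∀ ε > 0, ∀ᶠ N in (U : Filter ℕ),
    ∀ F : (S N).T → (Fin n → (S N).X) → ℝ, (S N).Test F → |(S N).ggDefect ψ i F| ≤ ε

end Vale.Agent.P157.Par
end

section

open MeasureTheory ProbabilityTheory Filter Topology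
open scoped RealInnerProductSpace

namespace Vale.Agent.P157.Par

/-! ### indicators of propositions -/

open Classical in
/-- The real indicator of a proposition. -/
noncomputable def ind (p : Prop) : ℝ := if p then 1 else 0

theorem ind_eq (p : Prop) [Decidable p] : ind p = if p then 1 else 0 := by
  unfold ind
  by_cases h : p
  · rw [if_pos h, if_pos h]
  · rw [if_neg h, if_neg h]

theorem ind_of {p : Prop} (h : p) : ind p = 1 := by
  classical
  rw [ind_eq, if_pos h]

theorem ind_of_not {p : Prop} (h : ¬ p) : ind p = 0 := by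
  classical
  rw [ind_eq, if_neg h]

theorem ind_nonneg (p : Prop) : 0 ≤ ind p := by
  by_cases h : p
  · rw [ind_of h]; norm_num
  · rw [ind_of_not h]

theorem ind_le_one (p : Prop) : ind p ≤ 1 := by
  by_cases h : p
  · rw [ind_of h]
  · rw [ind_of_not h]; norm_num

theorem abs_ind_le_one (p : Prop) : |ind p| ≤ 1 := by
  rw [abs_of_nonneg (ind_nonneg p)]
  exact ind_le_one p

theorem ind_mono {p q : Prop} (h : p → q) : ind p ≤ ind q := by
  by_cases hp : p
  · rw [ind_of hp, ind_of (h hp)]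
  · rw [ind_of_not hp]
    exact ind_nonneg q

/-! ### the inner average -/

namespace Sys

variable (S : Sys)

/-- average over the replicas at fixed disorder -/
noncomputable def inn {n : ℕ} (ω : S.Ω) (F : (Fin n → S.X) → ℝ) : ℝ :=
  ∑ x : Fin n → S.X, (∏ i, S.w ω (x i)) * F x

variable {S}

theorem prod_w_nonneg {n : ℕ} (ω : S.Ω) (x : Fin n → S.X) : 0 ≤ ∏ i, S.w ω (x i) :=
  Finset.prod_nonneg fun i _ => S.w0 ω (x i)

theorem w_le_one (ω : S.Ω) (x : S.X) : S.w ω x ≤ 1 := by
  rw [← S.w1 ω]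
  exact Finset.single_le_sum (fun y _ => S.w0 ω y) (Finset.mem_univ x)

theorem inn_const {n : ℕ} (ω : S.Ω) (c : ℝ) : S.inn (n := n) ω (fun _ => c) = c := by
  classical
  unfold inn
  rw [← Finset.sum_mul, ← Fintype.prod_sum (fun (_ : Fin n) (y : S.X) => S.w ω y)]
  simp [S.w1 ω]

theorem inn_mono {n : ℕ} (ω : S.Ω) {F G : (Fin n → S.X) → ℝ} (h : ∀ x, F x ≤ G x) :
    S.inn ω F ≤ S.inn ω G :=
  Finset.sum_le_sum fun x _ => mul_le_mul_of_nonneg_left (h x) (prod_w_nonneg ω x)

theorem inn_nonneg {n : ℕ} (ω : S.Ω) {F : (Fin n → S.X) → ℝ} (h : ∀ x, 0 ≤ F x) :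
    0 ≤ S.inn ω F :=
  Finset.sum_nonneg fun x _ => mul_nonneg (prod_w_nonneg ω x) (h x)

theorem inn_add {n : ℕ} (ω : S.Ω) (F G : (Fin n → S.X) → ℝ) :
    S.inn ω (fun x => F x + G x) = S.inn ω F + S.inn ω G := by
  unfold inn
  rw [← Finset.sum_add_distrib]
  exact Finset.sum_congr rfl fun x _ => mul_add _ _ _

theorem inn_sub {n : ℕ} (ω : S.Ω) (F G : (Fin n → S.X) → ℝ) :
    S.inn ω (fun x => F x - G x) = S.inn ω F - S.inn ω G := by
  unfold inn
  rw [← Finset.sum_sub_distrib]
  exact Finset.sum_congr rfl fun x _ => mul_sub _ _ _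

theorem inn_smul {n : ℕ} (ω : S.Ω) (c : ℝ) (F : (Fin n → S.X) → ℝ) :
    S.inn ω (fun x => c * F x) = c * S.inn ω F := by
  unfold inn
  rw [Finset.mul_sum]
  exact Finset.sum_congr rfl fun x _ => by ring

theorem inn_abs_le {n : ℕ} (ω : S.Ω) {F : (Fin n → S.X) → ℝ} {C : ℝ} (h : ∀ x, |F x| ≤ C) :
    |S.inn ω F| ≤ C := by
  rw [abs_le]
  constructor
  · rw [← inn_const (n := n) ω (-C)]
    exact inn_mono ω fun x => (abs_le.mp (h x)).1
  · calc S.inn ω F ≤ S.inn (n := n) ω (fun _ => C) := inn_mono ω fun x => (abs_le.mp (h x)).2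
      _ = C := inn_const ω C

theorem inn_measurable {n : ℕ} {F : S.Ω → (Fin n → S.X) → ℝ} (h : ∀ x, Measurable fun ω => F ω x) :
    Measurable fun ω => S.inn ω (F ω) := by
  unfold inn
  exact Finset.measurable_sum _ fun x _ =>
    (Finset.measurable_prod _ fun i _ => S.hw (x i)).mul (h x)

theorem inn_integrable {n : ℕ} {F : S.Ω → (Fin n → S.X) → ℝ} {C : ℝ}
    (h : ∀ x, Measurable fun ω => F ω x) (hC : ∀ ω x, |F ω x| ≤ C) :
    Integrable (fun ω => S.inn ω (F ω)) S.P := by
  refine Integrable.of_bound (inn_measurable h).aestronglyMeasurable C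
    (Eventually.of_forall fun ω => ?_)
  rw [Real.norm_eq_abs]
  exact inn_abs_le ω (hC ω)

/-- splitting off the last `j` replicas -/
theorem inn_append {n j : ℕ} (ω : S.Ω) (F : (Fin (n + j) → S.X) → ℝ) :
    S.inn ω F = S.inn (n := n) ω (fun u => S.inn (n := j) ω (fun v => F (Fin.append u v))) := by
  unfold inn
  rw [← Equiv.sum_comp (Fin.appendEquiv n j), Fintype.sum_prod_type]
  refine Finset.sum_congr rfl fun u _ => ?_
  rw [Finset.mul_sum]
  refine Finset.sum_congr rfl fun v _ => ?_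
  have h : Fin.appendEquiv n j (u, v) = Fin.append u v := rfl
  rw [h, Fin.prod_univ_add]
  simp only [Fin.append_left, Fin.append_right]
  ring

/-- marginals of the replicas -/
theorem inn_comp {m n : ℕ} (ω : S.Ω) (e : Fin m → Fin n) (he : Function.Injective e)
    (g : (Fin m → S.X) → ℝ) :
    S.inn (n := n) ω (fun x => g (fun k => x (e k))) = S.inn ω g := by
  classical
  unfold inn
  have h1 : ∀ x : Fin n → S.X, (∏ i, S.w ω (x i)) * g (fun k => x (e k)) =
      ∑ y : Fin m → S.X, g y * ((∏ a, S.w ω (x a)) * ind (∀ k, x (e k) = y k)) := by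
    intro x
    rw [Finset.sum_eq_single (fun k => x (e k))]
    · rw [ind_of (fun _ => rfl)]
      ring
    · intro y _ hy
      rw [ind_of_not]
      · ring
      · intro h
        exact hy (funext fun k => (h k).symm)
    · intro h
      exact absurd (Finset.mem_univ _) h
  simp_rw [h1]
  rw [Finset.sum_comm]
  refine Finset.sum_congr rfl fun y _ => ?_
  rw [← Finset.mul_sum, mul_comm]
  congr 1
  have h2 : ∀ x : Fin n → S.X, (∏ a, S.w ω (x a)) * ind (∀ k, x (e k) = y k) =
      ∏ a, (S.w ω (x a) * ind (∀ k, e k = a → x a = y k)) := by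
    intro x
    rw [Finset.prod_mul_distrib]
    congr 1
    by_cases h : ∀ k, x (e k) = y k
    · rw [ind_of h]
      symm
      refine Finset.prod_eq_one fun a _ => ind_of ?_
      rintro k rfl
      exact h k
    · rw [ind_of_not h]
      push Not at h
      obtain ⟨k, hk⟩ := h
      symm
      refine Finset.prod_eq_zero (Finset.mem_univ (e k)) (ind_of_not ?_)
      intro h3
      exact hk (h3 k rfl)
  simp_rw [h2]
  rw [← Fintype.prod_sum (fun (a : Fin n) (v : S.X) =>
    S.w ω v * ind (∀ k, e k = a → v = y k))]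
  symm
  refine Fintype.prod_of_injective e he _ _ ?_ ?_
  · intro a ha
    have h3 : ∀ v : S.X, S.w ω v * ind (∀ k, e k = a → v = y k) = S.w ω v := by
      intro v
      rw [ind_of, mul_one]
      intro k hk
      exact absurd ⟨k, hk⟩ ha
    simp_rw [h3]
    exact S.w1 ω
  · intro k
    rw [Finset.sum_eq_single (y k)]
    · rw [ind_of, mul_one]
      intro k' hk'
      rw [he hk']
    · intro v _ hv
      rw [ind_of_not, mul_zero]
      intro h
      exact hv (h k rfl)
    · intro h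
      exact absurd (Finset.mem_univ _) h

theorem inn_one (ω : S.Ω) (F : (Fin 1 → S.X) → ℝ) :
    S.inn ω F = ∑ y, S.w ω y * F (fun _ => y) := by
  unfold inn
  rw [← Equiv.sum_comp (Equiv.funUnique (Fin 1) S.X).symm]
  refine Finset.sum_congr rfl fun y _ => ?_
  have h : (Equiv.funUnique (Fin 1) S.X).symm y = fun _ => y := by
    funext i
    rw [Subsingleton.elim i default]
    rfl
  rw [h]
  simp

/-- splitting off the last replica -/
theorem inn_snoc {n : ℕ} (ω : S.Ω) (F : (Fin (n + 1) → S.X) → ℝ) :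
    S.inn ω F = S.inn (n := n) ω (fun u => ∑ y, S.w ω y * F (Fin.snoc u y)) := by
  rw [inn_append (n := n) (j := 1)]
  congr 1
  funext u
  rw [inn_one]
  refine Finset.sum_congr rfl fun y _ => ?_
  congr 2
  exact Fin.append_right_eq_snoc u (fun _ => y)

/-- product structure in the last replicas -/
theorem inn_prod {j : ℕ} (ω : S.Ω) (h : S.X → ℝ) :
    S.inn (n := j) ω (fun v => ∏ k, h (v k)) = (∑ y, S.w ω y * h y) ^ j := by
  classical
  unfold inn
  have h1 : ∀ v : Fin j → S.X, (∏ i, S.w ω (v i)) * ∏ k, h (v k) =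
      ∏ k, (S.w ω (v k) * h (v k)) := fun v => by rw [Finset.prod_mul_distrib]
  simp_rw [h1]
  rw [← Fintype.prod_sum (fun (_ : Fin j) (v : S.X) => S.w ω v * h v)]
  simp

theorem inn_mono' {n : ℕ} (ω : S.Ω) {F G : (Fin n → S.X) → ℝ}
    (h : ∀ x, (∀ i, 0 < S.w ω (x i)) → F x ≤ G x) : S.inn ω F ≤ S.inn ω G := by
  refine Finset.sum_le_sum fun x _ => ?_
  by_cases hx : ∀ i, 0 < S.w ω (x i)
  · exact mul_le_mul_of_nonneg_left (h x hx) (prod_w_nonneg ω x)
  · push Not at hx
    obtain ⟨i, hi⟩ := hx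
    have h0 : S.w ω (x i) = 0 := le_antisymm hi (S.w0 ω (x i))
    rw [Finset.prod_eq_zero (Finset.mem_univ i) h0, zero_mul, zero_mul]

/-- resampling one replica -/
theorem inn_update {n : ℕ} (ω : S.Ω) (i : Fin n) (F : (Fin n → S.X) → ℝ) :
    S.inn ω F = S.inn ω (fun x => ∑ y, S.w ω y * F (Function.update x i y)) := by
  classical
  unfold inn
  have h1 : ∀ x : Fin n → S.X, (∏ a, S.w ω (x a)) * F x =
      ∑ y, ((∏ a, S.w ω (x a)) * S.w ω y) * F x := by
    intro x
    rw [← Finset.sum_mul, ← Finset.mul_sum, S.w1 ω, mul_one]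
  have h2 : ∀ x : Fin n → S.X, (∏ a, S.w ω (x a)) *
      ∑ y, S.w ω y * F (Function.update x i y) =
      ∑ y, ((∏ a, S.w ω (x a)) * S.w ω y) * F (Function.update x i y) := by
    intro x
    rw [Finset.mul_sum]
    exact Finset.sum_congr rfl fun y _ => by ring
  simp_rw [h1, h2]
  rw [← Fintype.sum_prod_type' (fun (x : Fin n → S.X) (y : S.X) =>
      ((∏ a, S.w ω (x a)) * S.w ω y) * F x),
    ← Fintype.sum_prod_type' (fun (x : Fin n → S.X) (y : S.X) =>
      ((∏ a, S.w ω (x a)) * S.w ω y) * F (Function.update x i y))]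
  let e : ((Fin n → S.X) × S.X) → ((Fin n → S.X) × S.X) :=
    fun p => (Function.update p.1 i p.2, p.1 i)
  have he : Function.Involutive e := by
    rintro ⟨x, y⟩
    simp [e]
  rw [← Equiv.sum_comp (Function.Involutive.toPerm e he)]
  refine Finset.sum_congr rfl fun p _ => ?_
  obtain ⟨x, y⟩ := p
  have h3 : Function.Involutive.toPerm e he (x, y) = (Function.update x i y, x i) := rfl
  rw [h3]
  have h4 : (∏ a, S.w ω (Function.update x i y a)) * S.w ω (x i) =
      (∏ a, S.w ω (x a)) * S.w ω y := by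
    rw [← Finset.mul_prod_erase Finset.univ _ (Finset.mem_univ i),
      ← Finset.mul_prod_erase Finset.univ (fun a => S.w ω (x a)) (Finset.mem_univ i)]
    have h5 : ∏ a ∈ Finset.univ.erase i, S.w ω (Function.update x i y a) =
        ∏ a ∈ Finset.univ.erase i, S.w ω (x a) := by
      refine Finset.prod_congr rfl fun a ha => ?_
      rw [Function.update_of_ne (Finset.ne_of_mem_erase ha)]
    rw [h5, Function.update_self]
    ring
  simp only
  rw [h4]

/-! ### averages over the disorder -/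

/-- bounded measurable functions of the replicas -/
structure Bdd (S : Sys) {n : ℕ} (F : S.T → (Fin n → S.X) → ℝ) (C : ℝ) : Prop where
  meas : ∀ x, Measurable fun t => F t x
  bdd : ∀ t x, |F t x| ≤ C

theorem tav_def {n : ℕ} (F : S.T → (Fin n → S.X) → ℝ) :
    S.tav F = ∫ ω, S.inn ω (F (S.π ω)) ∂S.P := rfl

theorem Bdd.integrable {n : ℕ} {F : S.T → (Fin n → S.X) → ℝ} {C : ℝ} (h : Bdd S F C) :
    Integrable (fun ω => S.inn ω (F (S.π ω))) S.P :=
  inn_integrable (C := C) (fun x => (h.meas x).comp S.hπ) (fun _ x => h.bdd _ x)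

/-- functions of the replicas alone -/
theorem exists_bdd {n : ℕ} (f : (Fin n → S.X) → ℝ) : ∃ C, Bdd S (fun _ => f) C := by
  classical
  refine ⟨∑ x, |f x|, fun _ => measurable_const, fun t x => ?_⟩
  exact Finset.single_le_sum (f := fun x => |f x|) (fun _ _ => abs_nonneg _) (Finset.mem_univ x)

theorem Bdd.mul {n : ℕ} {F G : S.T → (Fin n → S.X) → ℝ} {C D : ℝ} (hF : Bdd S F C)
    (hG : Bdd S G D) : Bdd S (fun t x => F t x * G t x) (C * D) where
  meas x := (hF.meas x).mul (hG.meas x)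
  bdd t x := by
    rw [abs_mul]
    exact mul_le_mul (hF.bdd t x) (hG.bdd t x) (abs_nonneg _) ((abs_nonneg _).trans (hF.bdd t x))

theorem Bdd.comp {m n : ℕ} {F : S.T → (Fin m → S.X) → ℝ} {C : ℝ} (hF : Bdd S F C)
    (e : Fin m → Fin n) : Bdd S (fun t (x : Fin n → S.X) => F t (fun k => x (e k))) C where
  meas x := hF.meas _
  bdd t x := hF.bdd t _

theorem tav_add {n : ℕ} {F G : S.T → (Fin n → S.X) → ℝ} {C D : ℝ} (hF : Bdd S F C)
    (hG : Bdd S G D) : S.tav (fun t x => F t x + G t x) = S.tav F + S.tav G := by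
  rw [tav_def, tav_def, tav_def, ← integral_add hF.integrable hG.integrable]
  exact integral_congr_ae (Eventually.of_forall fun ω => inn_add ω _ _)

theorem tav_sub {n : ℕ} {F G : S.T → (Fin n → S.X) → ℝ} {C D : ℝ} (hF : Bdd S F C)
    (hG : Bdd S G D) : S.tav (fun t x => F t x - G t x) = S.tav F - S.tav G := by
  rw [tav_def, tav_def, tav_def, ← integral_sub hF.integrable hG.integrable]
  exact integral_congr_ae (Eventually.of_forall fun ω => inn_sub ω _ _)

theorem tav_smul {n : ℕ} (c : ℝ) (F : S.T → (Fin n → S.X) → ℝ) :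
    S.tav (fun t x => c * F t x) = c * S.tav F := by
  rw [tav_def, tav_def, ← integral_const_mul]
  exact integral_congr_ae (Eventually.of_forall fun ω => inn_smul ω _ _)

theorem tav_mono {n : ℕ} {F G : S.T → (Fin n → S.X) → ℝ} {C D : ℝ} (hF : Bdd S F C)
    (hG : Bdd S G D) (h : ∀ t x, F t x ≤ G t x) : S.tav F ≤ S.tav G :=
  integral_mono hF.integrable hG.integrable fun ω => inn_mono ω (h _)

theorem tav_nonneg {n : ℕ} {F : S.T → (Fin n → S.X) → ℝ} (h : ∀ t x, 0 ≤ F t x) : 0 ≤ S.tav F :=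
  integral_nonneg fun ω => inn_nonneg ω (h _)

theorem tav_const {n : ℕ} (c : ℝ) : S.tav (n := n) (fun _ _ => c) = c := by
  rw [tav_def]
  simp_rw [inn_const]
  simp

theorem tav_congr {n : ℕ} {F G : S.T → (Fin n → S.X) → ℝ} (h : ∀ t x, F t x = G t x) :
    S.tav F = S.tav G := by
  have : F = G := by
    funext t x
    exact h t x
  rw [this]

theorem tav_abs_le {n : ℕ} {F G : S.T → (Fin n → S.X) → ℝ} {C D : ℝ} (hF : Bdd S F C)
    (hG : Bdd S G D) (h : ∀ t x, |F t x| ≤ G t x) : |S.tav F| ≤ S.tav G := by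
  rw [abs_le]
  constructor
  · have h1 : S.tav (fun t x => (-1) * G t x) = (-1) * S.tav G := tav_smul _ _
    have h2 : Bdd S (fun t x => (-1) * G t x) D :=
      ⟨fun x => (hG.meas x).const_mul _, fun t x => by
        rw [abs_mul, abs_neg, abs_one, one_mul]; exact hG.bdd t x⟩
    have h3 := tav_mono h2 hF (fun t x => by
      have := (abs_le.mp (h t x)).1
      linarith)
    linarith
  · exact tav_mono hF hG fun t x => (abs_le.mp (h t x)).2

theorem tav_comp {m n : ℕ} (e : Fin m → Fin n) (he : Function.Injective e)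
    (F : S.T → (Fin m → S.X) → ℝ) :
    S.tav (fun t (x : Fin n → S.X) => F t (fun k => x (e k))) = S.tav F := by
  rw [tav_def, tav_def]
  exact integral_congr_ae (Eventually.of_forall fun ω => inn_comp ω e he _)

theorem tav_pair {n : ℕ} {a b : Fin n} (hab : a ≠ b) (f : S.X → S.X → ℝ) :
    S.tav (fun _ (x : Fin n → S.X) => f (x a) (x b)) =
      S.tav (n := 2) (fun _ x => f (x 0) (x 1)) := by
  have h := tav_comp (S := S) (![a, b] : Fin 2 → Fin n) (by
    intro k l hkl
    fin_cases k <;> fin_cases l <;> simp_all) (fun _ x => f (x 0) (x 1))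
  exact h

end Sys

end Vale.Agent.P157.Par
end

section

open MeasureTheory ProbabilityTheory Filter Topology
open scoped RealInnerProductSpace

namespace Vale.Agent.P157.Par

/-! ### the defect as a function of `ψ` -/

namespace Sys

variable {S : Sys}

theorem Test.toBdd {n : ℕ} {F : S.T → (Fin n → S.X) → ℝ} (h : S.Test F) : Bdd S F 1 :=
  ⟨h.meas, h.bdd⟩

theorem abs_R_le (x y : S.X) : |S.R x y| ≤ 1 := by
  unfold Sys.R
  refine (abs_real_inner_le_norm _ _).trans ?_
  rw [S.hφ, S.hφ, one_mul]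

theorem R_symm (x y : S.X) : S.R x y = S.R y x := real_inner_comm _ _

theorem R_mem (x y : S.X) : S.R x y ∈ Set.Icc (-1 : ℝ) 1 := abs_le.mp (abs_R_le x y)

theorem ggDefect_sub {n : ℕ} (i : Fin n) {F : S.T → (Fin n → S.X) → ℝ} (hF : S.Test F)
    (ψ ψ' : ℝ → ℝ) : S.ggDefect (fun r => ψ r - ψ' r) i F =
      S.ggDefect ψ i F - S.ggDefect ψ' i F := by
  have hF1 := hF.toBdd
  have key : ∀ (m : ℕ) (G : S.T → (Fin m → S.X) → ℝ) (C : ℝ) (_ : Bdd S G C)
      (f f' : (Fin m → S.X) → ℝ), S.tav (fun t x => G t x * (f x - f' x)) =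
        S.tav (fun t x => G t x * f x) - S.tav (fun t x => G t x * f' x) := by
    intro m G C hG f f'
    obtain ⟨D, hD⟩ := exists_bdd (S := S) f
    obtain ⟨D', hD'⟩ := exists_bdd (S := S) f'
    rw [← tav_sub (hG.mul hD) (hG.mul hD')]
    exact tav_congr fun t x => by ring
  have key2 : ∀ (f f' : (Fin 2 → S.X) → ℝ), S.tav (fun _ x => f x - f' x) =
        S.tav (fun _ x => f x) - S.tav (fun _ x => f' x) := by
    intro f f'
    obtain ⟨D, hD⟩ := exists_bdd (S := S) f
    obtain ⟨D', hD'⟩ := exists_bdd (S := S) f'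
    rw [← tav_sub hD hD']
  unfold Sys.ggDefect
  rw [key (n + 1) (fun t x => F t (fun j => x j.castSucc)) 1 (hF1.comp _)
    (fun x => ψ (S.R (x i.castSucc) (x (Fin.last n))))
    (fun x => ψ' (S.R (x i.castSucc) (x (Fin.last n)))),
    key2 (fun x => ψ (S.R (x 0) (x 1))) (fun x => ψ' (S.R (x 0) (x 1)))]
  have h3 : ∀ j ∈ Finset.univ.erase i,
      S.tav (fun t x => F t x * (ψ (S.R (x i) (x j)) - ψ' (S.R (x i) (x j)))) =
      S.tav (fun t x => F t x * ψ (S.R (x i) (x j))) -
        S.tav (fun t x => F t x * ψ' (S.R (x i) (x j))) := fun j _ =>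
    key n F 1 hF1 (fun x => ψ (S.R (x i) (x j))) (fun x => ψ' (S.R (x i) (x j)))
  rw [Finset.sum_congr rfl h3, Finset.sum_sub_distrib]
  ring

theorem ggDefect_smul {n : ℕ} (i : Fin n) (F : S.T → (Fin n → S.X) → ℝ)
    (c : ℝ) (ψ : ℝ → ℝ) : S.ggDefect (fun r => c * ψ r) i F = c * S.ggDefect ψ i F := by
  have key : ∀ (m : ℕ) (G : S.T → (Fin m → S.X) → ℝ) (f : (Fin m → S.X) → ℝ),
      S.tav (fun t x => G t x * (c * f x)) = c * S.tav (fun t x => G t x * f x) := by
    intro m G f
    rw [← tav_smul]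
    exact tav_congr fun t x => by ring
  unfold Sys.ggDefect
  rw [key (n + 1) (fun t x => F t (fun j => x j.castSucc))
    (fun x => ψ (S.R (x i.castSucc) (x (Fin.last n)))),
    tav_smul c (fun _ (x : Fin 2 → S.X) => ψ (S.R (x 0) (x 1)))]
  have h3 : ∀ j ∈ Finset.univ.erase i,
      S.tav (fun t x => F t x * (c * ψ (S.R (x i) (x j)))) =
      c * S.tav (fun t x => F t x * ψ (S.R (x i) (x j))) := fun j _ =>
    key n F (fun x => ψ (S.R (x i) (x j)))
  rw [Finset.sum_congr rfl h3, ← Finset.mul_sum]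
  ring

theorem abs_ggDefect_le {n : ℕ} (i : Fin n) {F : S.T → (Fin n → S.X) → ℝ} (hF : S.Test F)
    (ψ : ℝ → ℝ) : |S.ggDefect ψ i F| ≤
      2 * n * S.tav (n := 2) (fun _ x => |ψ (S.R (x 0) (x 1))|) := by
  have hF1 := hF.toBdd
  set Q := S.tav (n := 2) (fun _ x => |ψ (S.R (x 0) (x 1))|) with hQ
  have key : ∀ (m : ℕ) (G : S.T → (Fin m → S.X) → ℝ) (_ : Bdd S G 1) (a b : Fin m) (_ : a ≠ b),
      |S.tav (fun t x => G t x * ψ (S.R (x a) (x b)))| ≤ Q := by
    intro m G hG a b hab
    obtain ⟨D, hD⟩ := exists_bdd (S := S) (fun x : Fin m → S.X => ψ (S.R (x a) (x b)))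
    obtain ⟨D', hD'⟩ := exists_bdd (S := S) (fun x : Fin m → S.X => |ψ (S.R (x a) (x b))|)
    have h1 := tav_abs_le (hG.mul hD) hD' (fun t x => by
      rw [abs_mul]
      exact mul_le_of_le_one_left (abs_nonneg _) (hG.bdd t x))
    rw [hQ, ← tav_pair hab (fun y z => |ψ (S.R y z)|)]
    exact h1
  have h1 : |S.tav (fun t (x : Fin (n + 1) → S.X) =>
      F t (fun j => x j.castSucc) * ψ (S.R (x i.castSucc) (x (Fin.last n))))| ≤ Q :=
    key (n + 1) (fun t x => F t (fun j => x j.castSucc)) (hF1.comp _) _ _ (Fin.castSucc_lt_last i).ne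
  have h2 : |S.tav F * S.tav (fun _ (x : Fin 2 → S.X) => ψ (S.R (x 0) (x 1)))| ≤ Q := by
    have h3 : |S.tav F| ≤ 1 := by
      have h4 := tav_abs_le (G := fun _ _ => (1 : ℝ)) (D := 1) hF1
        ⟨fun _ => measurable_const, fun _ _ => by norm_num⟩ (fun t x => hF.bdd t x)
      rwa [tav_const] at h4
    have h5 : |S.tav (fun _ (x : Fin 2 → S.X) => ψ (S.R (x 0) (x 1)))| ≤ Q := by
      have h6 := key 2 (fun _ _ => 1) ⟨fun _ => measurable_const, fun _ _ => by norm_num⟩ 0 1
        (by decide)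
      simpa using h6
    rw [abs_mul]
    exact (mul_le_of_le_one_left (abs_nonneg _) h3).trans h5
  have h4 : |∑ j ∈ Finset.univ.erase i, S.tav (fun t x => F t x * ψ (S.R (x i) (x j)))| ≤
      (n - 1) * Q := by
    refine (Finset.abs_sum_le_sum_abs _ _).trans ?_
    refine (Finset.sum_le_card_nsmul _ _ Q fun j hj =>
      key n F hF1 i j (Finset.ne_of_mem_erase hj).symm).trans ?_
    rw [Finset.card_erase_of_mem (Finset.mem_univ i), Finset.card_univ, Fintype.card_fin,
      nsmul_eq_mul]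
    have : 1 ≤ n := by have := i.2; omega
    rw [Nat.cast_sub this]
    simp
  unfold Sys.ggDefect
  have hn : (0 : ℝ) ≤ n := Nat.cast_nonneg n
  rw [abs_le] at h1 h2 h4 ⊢
  constructor
  · linarith only [mul_le_mul_of_nonneg_left h1.1 hn, h4.2, h2.2]
  · linarith only [mul_le_mul_of_nonneg_left h1.2 hn, h4.1, h2.1]

end Sys

variable {U : Ultrafilter ℕ} {S : ℕ → Sys}

theorem AsympGG.of_approx {ψ : ℝ → ℝ}
    (h : ∀ ε > 0, ∃ ψ' : ℝ → ℝ, AsympGG U S ψ' ∧ ∀ᶠ N in (U : Filter ℕ),
      (S N).tav (n := 2) (fun _ x => |ψ ((S N).R (x 0) (x 1)) - ψ' ((S N).R (x 0) (x 1))|) ≤ ε) :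
    AsympGG U S ψ := by
  intro n i ε hε
  have hn : (0 : ℝ) < 2 * n + 1 := by positivity
  obtain ⟨ψ', h1, h2⟩ := h (ε / 2 / (2 * n + 1)) (by positivity)
  filter_upwards [h1 n i (ε / 2) (by linarith), h2] with N hN1 hN2 F hF
  have h3 := Sys.abs_ggDefect_le i hF (fun r => ψ r - ψ' r)
  rw [Sys.ggDefect_sub i hF] at h3
  have h4 := hN1 F hF
  have h5 : 2 * (n : ℝ) * (S N).tav (n := 2)
      (fun _ x => |ψ ((S N).R (x 0) (x 1)) - ψ' ((S N).R (x 0) (x 1))|) ≤ ε / 2 := by
    have h6 : 2 * (n : ℝ) * (S N).tav (n := 2)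
      (fun _ x => |ψ ((S N).R (x 0) (x 1)) - ψ' ((S N).R (x 0) (x 1))|) ≤
        2 * (n : ℝ) * (ε / 2 / (2 * n + 1)) :=
      mul_le_mul_of_nonneg_left hN2 (by positivity)
    have h7 : 2 * (n : ℝ) * (ε / 2 / (2 * n + 1)) ≤ ε / 2 := by
      rw [mul_div_assoc', div_le_iff₀ hn]
      linarith only [hε]
    linarith only [h7, h6]
  rw [abs_le] at h3 h4 ⊢
  constructor <;> linarith [h3.1, h3.2, h4.1, h4.2]

theorem AsympGG.sub {ψ ψ' : ℝ → ℝ} (h : AsympGG U S ψ) (h' : AsympGG U S ψ') :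
    AsympGG U S (fun r => ψ r - ψ' r) := by
  intro n i ε hε
  filter_upwards [h n i (ε / 2) (by linarith), h' n i (ε / 2) (by linarith)] with N h1 h2 F hF
  rw [Sys.ggDefect_sub i hF]
  have h3 := h1 F hF
  have h4 := h2 F hF
  rw [abs_le] at h3 h4 ⊢
  constructor <;> linarith [h3.1, h3.2, h4.1, h4.2]

theorem AsympGG.smul {ψ : ℝ → ℝ} (h : AsympGG U S ψ) (c : ℝ) :
    AsympGG U S (fun r => c * ψ r) := by
  intro n i ε hε
  have hc : 0 < |c| + 1 := by positivity
  filter_upwards [h n i (ε / (|c| + 1)) (by positivity)] with N h1 F hF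
  rw [Sys.ggDefect_smul, abs_mul]
  have h3 := h1 F hF
  have h4 : |c| * |(S N).ggDefect ψ i F| ≤ |c| * (ε / (|c| + 1)) :=
    mul_le_mul_of_nonneg_left h3 (abs_nonneg _)
  have h5 : |c| * (ε / (|c| + 1)) ≤ ε := by
    rw [mul_div_assoc', div_le_iff₀ hc]
    linarith only [hε]
  linarith

theorem AsympGG.add {ψ ψ' : ℝ → ℝ} (h : AsympGG U S ψ) (h' : AsympGG U S ψ') :
    AsympGG U S (fun r => ψ r + ψ' r) := by
  have h1 := h.sub (h'.smul (-1))
  have h2 : (fun r => ψ r - (-1) * ψ' r) = fun r => ψ r + ψ' r := by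
    funext r
    ring
  rwa [h2] at h1

theorem AsympGG.polynomial (hGG : ∀ p : ℕ, AsympGG U S (fun x => x ^ p)) (q : Polynomial ℝ) :
    AsympGG U S (fun x => q.eval x) := by
  induction q using Polynomial.induction_on' with
  | add p q hp hq =>
    have h := hp.add hq
    have h2 : (fun r => Polynomial.eval r p + Polynomial.eval r q) =
      fun r => Polynomial.eval r (p + q) := by
      funext r
      rw [Polynomial.eval_add]
    rwa [h2] at h
  | monomial n a =>
    have h := (hGG n).smul a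
    have h2 : (fun r : ℝ => a * r ^ n) = fun r => Polynomial.eval r (Polynomial.monomial n a) := by
      funext r
      rw [Polynomial.eval_monomial]
    rwa [h2] at h

theorem AsympGG.continuous (hGG : ∀ p : ℕ, AsympGG U S (fun x => x ^ p)) {f : ℝ → ℝ}
    (hf : Continuous f) : AsympGG U S f := by
  refine AsympGG.of_approx fun ε hε => ?_
  obtain ⟨q, hq⟩ := exists_polynomial_near_of_continuousOn (-1) 1 f hf.continuousOn ε hε
  refine ⟨fun x => q.eval x, AsympGG.polynomial hGG q, Eventually.of_forall fun N => ?_⟩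
  obtain ⟨D, hD⟩ := Sys.exists_bdd (S := S N) (fun x : Fin 2 → (S N).X =>
    |f ((S N).R (x 0) (x 1)) - q.eval ((S N).R (x 0) (x 1))|)
  have h1 := Sys.tav_mono (G := fun _ _ => ε) (D := |ε|) hD
    ⟨fun _ => measurable_const, fun _ _ => le_rfl⟩ (fun t x => by
      rw [abs_sub_comm]
      exact (hq _ (Sys.R_mem _ _)).le)
  rwa [Sys.tav_const] at h1

/-- `c` is not an atom of the limiting law of the overlap. -/
def NonAtom (U : Ultrafilter ℕ) (S : ℕ → Sys) (c : ℝ) : Prop :=
  ∀ δ > 0, ∃ η > 0, ∀ᶠ N in (U : Filter ℕ),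
    (S N).tav (n := 2) (fun _ x => if |(S N).R (x 0) (x 1) - c| ≤ η then 1 else 0) ≤ δ

theorem AsympGG.indicator (hGG : ∀ p : ℕ, AsympGG U S (fun x => x ^ p)) {c : ℝ}
    (hc : NonAtom U S c) : AsympGG U S ((Set.Ici c).indicator 1) := by
  refine AsympGG.of_approx fun ε hε => ?_
  obtain ⟨η, hη, h⟩ := hc ε hε
  refine ⟨fun x => max 0 (min 1 ((x - c) / η + 1)), AsympGG.continuous hGG ?_, ?_⟩
  · fun_prop
  · filter_upwards [h] with N hN
    refine le_trans ?_ hN
    obtain ⟨D, hD⟩ := Sys.exists_bdd (S := S N) (fun x : Fin 2 → (S N).X =>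
      |(Set.Ici c).indicator (1 : ℝ → ℝ) ((S N).R (x 0) (x 1)) -
        max 0 (min 1 (((S N).R (x 0) (x 1) - c) / η + 1))|)
    obtain ⟨D', hD'⟩ := Sys.exists_bdd (S := S N) (fun x : Fin 2 → (S N).X =>
      if |(S N).R (x 0) (x 1) - c| ≤ η then (1 : ℝ) else 0)
    refine Sys.tav_mono hD hD' fun t x => ?_
    generalize (S N).R (x 0) (x 1) = r
    by_cases h1 : c ≤ r
    · rw [Set.indicator_of_mem (Set.mem_Ici.mpr h1)]
      have h2 : 1 ≤ (r - c) / η + 1 := by
        have : 0 ≤ (r - c) / η := div_nonneg (by linarith) hη.le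
        linarith
      rw [min_eq_left h2, max_eq_right zero_le_one]
      simp only [Pi.one_apply, sub_self, abs_zero]
      split_ifs <;> norm_num
    · rw [Set.indicator_of_notMem (by simpa using h1)]
      push Not at h1
      by_cases h2 : r ≤ c - η
      · have h3 : (r - c) / η + 1 ≤ 0 := by
          have : (r - c) / η ≤ -1 := by
            rw [div_le_iff₀ hη]
            linarith
          linarith
        rw [max_eq_left ((min_le_right _ _).trans h3)]
        simp only [sub_self, abs_zero]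
        split_ifs <;> norm_num
      · push Not at h2
        rw [if_pos (by rw [abs_le]; constructor <;> linarith)]
        rw [zero_sub, abs_neg, abs_of_nonneg (le_max_left _ _)]
        exact max_le zero_le_one (min_le_left _ _)

theorem exists_gap (s : Finset ℝ) : ∃ η > 0, ∀ a ∈ s, ∀ b ∈ s, a ≠ b → 2 * η < |a - b| := by
  classical
  induction s using Finset.induction_on with
  | empty => exact ⟨1, one_pos, by simp⟩
  | insert c s hc ih =>
    obtain ⟨η, hη, h⟩ := ih
    have h1 : ∃ η' > 0, ∀ a ∈ s, 2 * η' < |a - c| := by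
      clear h
      induction s using Finset.induction_on with
      | empty => exact ⟨1, one_pos, by simp⟩
      | insert d s hd ih2 =>
        obtain ⟨η', hη', h'⟩ := ih2 (fun h => hc (Finset.mem_insert_of_mem h))
        have hdc : d ≠ c := fun h => hc (by rw [h]; exact Finset.mem_insert_self _ _)
        have hpos : 0 < |d - c| := abs_pos.mpr (sub_ne_zero.mpr hdc)
        refine ⟨min η' (|d - c| / 4), lt_min hη' (by linarith only [hpos]), ?_⟩
        intro a ha
        rw [Finset.mem_insert] at ha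
        rcases ha with rfl | ha
        · have := min_le_right η' (|a - c| / 4)
          linarith only [this, hpos]
        · have := min_le_left η' (|d - c| / 4)
          have := h' a ha
          linarith
    obtain ⟨η', hη', h'⟩ := h1
    refine ⟨min η η', lt_min hη hη', ?_⟩
    have m1 := min_le_left η η'
    have m2 := min_le_right η η'
    intro a ha b hb hab
    rw [Finset.mem_insert] at ha hb
    rcases ha with rfl | ha
    · rcases hb with rfl | hb
      · exact absurd rfl hab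
      · have := h' b hb
        rw [abs_sub_comm]
        linarith
    · rcases hb with rfl | hb
      · have := h' a ha
        linarith
      · have := h a ha b hb hab
        linarith

theorem atoms_countable (U : Ultrafilter ℕ) (S : ℕ → Sys) : {c | ¬ NonAtom U S c}.Countable := by
  classical
  let A : ℕ → Set ℝ := fun m => {c | ∀ η > 0, ∀ᶠ N in (U : Filter ℕ),
    1 / ((m : ℝ) + 1) < (S N).tav (n := 2)
      (fun _ x => if |(S N).R (x 0) (x 1) - c| ≤ η then 1 else 0)}
  have hsub : {c | ¬ NonAtom U S c} ⊆ ⋃ m, A m := by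
    intro c hc
    have hc' : ¬ NonAtom U S c := hc
    unfold NonAtom at hc'
    push Not at hc'
    obtain ⟨δ, hδ, h⟩ := hc'
    obtain ⟨m, hm⟩ := exists_nat_one_div_lt hδ
    rw [Set.mem_iUnion]
    refine ⟨m, fun η hη => ?_⟩
    have h1 := h η hη
    filter_upwards [h1] with N hN
    exact lt_trans hm hN
  refine Set.Countable.mono hsub (Set.countable_iUnion fun m => Set.Finite.countable ?_)
  by_contra hinf
  have hinf' : (A m).Infinite := hinf
  obtain ⟨s, hs, hcard⟩ := hinf'.exists_subset_card_eq (m + 1)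
  obtain ⟨η, hη, hgap⟩ := exists_gap s
  have hev : ∀ᶠ N in (U : Filter ℕ), ∀ c ∈ s, 1 / ((m : ℝ) + 1) < (S N).tav (n := 2)
      (fun _ x => if |(S N).R (x 0) (x 1) - c| ≤ η then 1 else 0) := by
    rw [Filter.eventually_all_finset]
    exact fun c hc => hs hc η hη
  obtain ⟨N, hN⟩ := hev.exists
  have h1 : ∑ c ∈ s, 1 / ((m : ℝ) + 1) < ∑ c ∈ s, (S N).tav (n := 2)
      (fun _ x => if |(S N).R (x 0) (x 1) - c| ≤ η then 1 else 0) := by
    refine Finset.sum_lt_sum_of_nonempty ?_ hN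
    rw [← Finset.card_pos, hcard]
    omega
  rw [Finset.sum_const, hcard, nsmul_eq_mul] at h1
  have h2 : (((m + 1 : ℕ) : ℝ)) * (1 / ((m : ℝ) + 1)) = 1 := by
    push_cast
    field_simp
  rw [h2] at h1
  have h3 : ∀ t : Finset ℝ, t ⊆ s → ∑ c ∈ t, (S N).tav (n := 2)
      (fun _ x => if |(S N).R (x 0) (x 1) - c| ≤ η then 1 else 0) =
      (S N).tav (n := 2) (fun _ x => ∑ c ∈ t,
        if |(S N).R (x 0) (x 1) - c| ≤ η then (1 : ℝ) else 0) := by
    intro t
    induction t using Finset.induction_on with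
    | empty =>
      intro _
      simp only [Finset.sum_empty]
      exact (Sys.tav_const 0).symm
    | insert c t hct ih =>
      intro hts
      rw [Finset.sum_insert hct, ih (fun x hx => hts (Finset.mem_insert_of_mem hx))]
      obtain ⟨D, hD⟩ := Sys.exists_bdd (S := S N) (fun x : Fin 2 → (S N).X =>
        if |(S N).R (x 0) (x 1) - c| ≤ η then (1 : ℝ) else 0)
      obtain ⟨D', hD'⟩ := Sys.exists_bdd (S := S N) (fun x : Fin 2 → (S N).X => ∑ c ∈ t,
        if |(S N).R (x 0) (x 1) - c| ≤ η then (1 : ℝ) else 0)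
      rw [← Sys.tav_add hD hD']
      refine Sys.tav_congr fun _ x => ?_
      rw [Finset.sum_insert hct]
  rw [h3 s (Finset.Subset.refl s)] at h1
  obtain ⟨D', hD'⟩ := Sys.exists_bdd (S := S N) (fun x : Fin 2 → (S N).X => ∑ c ∈ s,
        if |(S N).R (x 0) (x 1) - c| ≤ η then (1 : ℝ) else 0)
  have h4 := Sys.tav_mono (G := fun _ _ => (1 : ℝ)) (D := 1) hD'
    ⟨fun _ => measurable_const, fun _ _ => by norm_num⟩ (fun t x => by
      by_cases hex : ∃ c ∈ s, |(S N).R (x 0) (x 1) - c| ≤ η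
      · obtain ⟨c, hc, hcη⟩ := hex
        rw [Finset.sum_eq_single_of_mem c hc]
        · rw [if_pos hcη]
        · intro b hb hbc
          rw [if_neg]
          intro hbη
          have h5 := hgap b hb c hc hbc
          rw [abs_le] at hbη hcη
          have h6 : |b - c| ≤ 2 * η := by
            rw [abs_le]
            constructor <;> linarith [hbη.1, hbη.2, hcη.1, hcη.2]
          linarith
      · push Not at hex
        rw [Finset.sum_eq_zero]
        · norm_num
        · intro c hc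
          rw [if_neg (not_le.mpr (hex c hc))])
  rw [Sys.tav_const] at h4
  linarith

/-- non-atomic thresholds are dense -/
theorem exists_nonAtom (U : Ultrafilter ℕ) (S : ℕ → Sys) {a b : ℝ} (hab : a < b) :
    ∃ c, a < c ∧ c < b ∧ NonAtom U S c := by
  have h := (atoms_countable U S).dense_compl ℝ
  obtain ⟨c, hc1, hc2⟩ := h.exists_between hab
  refine ⟨c, hc2.1, hc2.2, ?_⟩
  by_contra hcon
  exact hc1 hcon

end Vale.Agent.P157.Par
end

section

open MeasureTheory ProbabilityTheory Filter Topology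
open scoped RealInnerProductSpace

namespace Vale.Agent.P157.Par

namespace Sys

variable {S : Sys}

/-- conditional probability of the complement of the event `R ≥ c` -/
noncomputable def vv (S : Sys) (c : ℝ) (ω : S.Ω) (z : S.X) : ℝ :=
  ∑ y, S.w ω y * ind (S.R z y < c)

theorem vv_nonneg (c : ℝ) (ω : S.Ω) (z : S.X) : 0 ≤ S.vv c ω z :=
  Finset.sum_nonneg fun y _ => mul_nonneg (S.w0 ω y) (ind_nonneg _)

theorem vv_le_one (c : ℝ) (ω : S.Ω) (z : S.X) : S.vv c ω z ≤ 1 := by
  rw [← S.w1 ω]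
  exact Finset.sum_le_sum fun y _ => mul_le_of_le_one_right (S.w0 ω y) (ind_le_one _)

/-- the test functions used in the iteration -/
noncomputable def ff (S : Sys) {n : ℕ} (A : (Fin n → S.X) → ℝ) (i : Fin n) (c : ℝ) (j : ℕ)
    (x : Fin (n + j) → S.X) : ℝ :=
  A (fun a => x (Fin.castAdd j a)) *
    ∏ k : Fin j, ind (S.R (x (Fin.castAdd j i)) (x (Fin.natAdd n k)) < c)

theorem inn_ff {n : ℕ} (ω : S.Ω) (A : (Fin n → S.X) → ℝ) (i : Fin n) (c : ℝ) (j : ℕ)
    (H : S.X → ℝ) :
    S.inn ω (fun x => S.ff A i c j x * H (x (Fin.castAdd j i))) =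
      S.inn ω (fun u => A u * S.vv c ω (u i) ^ j * H (u i)) := by
  rw [inn_append]
  congr 1
  funext u
  have h1 : ∀ v : Fin j → S.X, S.ff A i c j (Fin.append u v) *
      H (Fin.append u v (Fin.castAdd j i)) =
      (A u * H (u i)) * ∏ k, ind (S.R (u i) (v k) < c) := by
    intro v
    unfold ff
    simp only [Fin.append_left, Fin.append_right]
    ring
  simp_rw [h1]
  rw [inn_smul, inn_prod ω (fun y => ind (S.R (u i) y < c))]
  unfold vv
  ring

theorem inn_ff_last {n : ℕ} (ω : S.Ω) (A : (Fin n → S.X) → ℝ) (i : Fin n) (c : ℝ) (j : ℕ) :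
    S.inn (n := n + j + 1) ω (fun x => S.ff A i c j (fun k => x k.castSucc) *
      (Set.Ici c).indicator 1 (S.R (x (Fin.castAdd j i).castSucc) (x (Fin.last (n + j))))) =
      S.inn ω (fun u => A u * S.vv c ω (u i) ^ j * (1 - S.vv c ω (u i))) := by
  rw [inn_snoc, ← inn_ff ω A i c j (fun z => 1 - S.vv c ω z)]
  congr 1
  funext u
  have h1 : ∀ y : S.X, (Set.Ici c).indicator (1 : ℝ → ℝ) (S.R (u (Fin.castAdd j i)) y) =
      1 - ind (S.R (u (Fin.castAdd j i)) y < c) := by
    intro y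
    by_cases h : S.R (u (Fin.castAdd j i)) y < c
    · rw [ind_of h, Set.indicator_of_notMem (by simpa using h)]
      ring
    · rw [ind_of_not h, Set.indicator_of_mem (by simpa using h)]
      simp
  have h2 : ∀ y : S.X, (fun k : Fin (n + j) =>
      (Fin.snoc (α := fun _ => S.X) u y : Fin (n + j + 1) → S.X) k.castSucc) = u := by
    intro y
    funext k
    exact Fin.snoc_castSucc _ _ _
  have h3 : ∀ y : S.X, (Fin.snoc (α := fun _ => S.X) u y : Fin (n + j + 1) → S.X)
      (Fin.castAdd j i).castSucc = u (Fin.castAdd j i) := fun y => Fin.snoc_castSucc _ _ _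
  have h4 : ∀ y : S.X, (Fin.snoc (α := fun _ => S.X) u y : Fin (n + j + 1) → S.X)
      (Fin.last (n + j)) = y := fun y => Fin.snoc_last _ _
  simp only [h2, h3, h4, h1]
  have h5 : ∀ y : S.X, S.w ω y * (S.ff A i c j u * (1 - ind (S.R (u (Fin.castAdd j i)) y < c))) =
      S.ff A i c j u * (S.w ω y - S.w ω y * ind (S.R (u (Fin.castAdd j i)) y < c)) := by
    intro y
    ring
  simp_rw [h5]
  rw [← Finset.mul_sum, Finset.sum_sub_distrib, S.w1 ω]
  rfl

/-- the numbers `a_j` -/
noncomputable def aa (S : Sys) {n : ℕ} (A : (Fin n → S.X) → ℝ) (i : Fin n) (c : ℝ) (j : ℕ) : ℝ :=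
  ∫ ω, S.inn ω (fun u => A u * S.vv c ω (u i) ^ j) ∂S.P

theorem aa_integrable {n : ℕ} (A : (Fin n → S.X) → ℝ) (i : Fin n) (c : ℝ) (j : ℕ) :
    Integrable (fun ω => S.inn ω (fun u => A u * S.vv c ω (u i) ^ j)) S.P := by
  obtain ⟨C, hC⟩ := exists_bdd (S := S) A
  refine inn_integrable (C := C) (fun x => ?_) (fun ω x => ?_)
  · refine Measurable.const_mul ?_ _
    refine Measurable.pow_const ?_ j
    unfold vv
    exact Finset.measurable_sum _ fun y _ => (S.hw y).mul_const _
  · rw [abs_mul]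
    have h1 : |S.vv c ω (x i) ^ j| ≤ 1 := by
      rw [abs_of_nonneg (pow_nonneg (vv_nonneg c ω _) j)]
      exact pow_le_one₀ (vv_nonneg c ω _) (vv_le_one c ω _)
    by_cases hT : Nonempty S.T
    · obtain ⟨t⟩ := hT
      calc |A x| * |S.vv c ω (x i) ^ j| ≤ |A x| * 1 :=
            mul_le_mul_of_nonneg_left h1 (abs_nonneg _)
        _ ≤ C := by rw [mul_one]; exact hC.bdd t x
    · exact absurd ⟨S.π ω⟩ hT

theorem tav_ff {n : ℕ} (A : (Fin n → S.X) → ℝ) (i : Fin n) (c : ℝ) (j : ℕ) :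
    S.tav (fun _ x => S.ff A i c j x) = S.aa A i c j := by
  rw [tav_def]
  unfold aa
  refine integral_congr_ae (Eventually.of_forall fun ω => ?_)
  have h := inn_ff ω A i c j (fun _ => 1)
  simpa using h

theorem tav_ff_last {n : ℕ} (A : (Fin n → S.X) → ℝ) (i : Fin n) (c : ℝ) (j : ℕ) :
    S.tav (n := n + j + 1) (fun _ x => S.ff A i c j (fun k => x k.castSucc) *
      (Set.Ici c).indicator 1 (S.R (x (Fin.castAdd j i).castSucc) (x (Fin.last (n + j))))) =
      S.aa A i c j - S.aa A i c (j + 1) := by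
  rw [tav_def]
  unfold aa
  rw [← integral_sub (aa_integrable A i c j) (aa_integrable A i c (j + 1))]
  refine integral_congr_ae (Eventually.of_forall fun ω => ?_)
  simp only
  rw [inn_ff_last, ← inn_sub]
  congr 1
  funext u
  ring

theorem ff_mul_eq_zero {n : ℕ} (E : (Fin n → S.X) → Prop) (i : Fin n) (c : ℝ) (j : ℕ)
    (hE : ∀ x, E x → ∀ a, a ≠ i → S.R (x i) (x a) < c) (l : Fin (n + j))
    (hl : l ≠ Fin.castAdd j i) (x : Fin (n + j) → S.X) :
    S.ff (fun x => ind (E x)) i c j x *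
      (Set.Ici c).indicator (1 : ℝ → ℝ) (S.R (x (Fin.castAdd j i)) (x l)) = 0 := by
  unfold ff
  by_cases hEx : E (fun a => x (Fin.castAdd j a))
  · by_cases hlt : S.R (x (Fin.castAdd j i)) (x l) < c
    · rw [Set.indicator_of_notMem (by simpa using hlt), mul_zero]
    · induction l using Fin.addCases with
      | left a =>
        exfalso
        apply hlt
        refine hE _ hEx a ?_
        rintro rfl
        exact hl rfl
      | right k =>
        rw [Finset.prod_eq_zero (Finset.mem_univ k) (ind_of_not hlt), mul_zero, zero_mul]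
  · simp only
    rw [ind_of_not hEx, zero_mul, zero_mul]

theorem defect_ff {n : ℕ} (E : (Fin n → S.X) → Prop) (i : Fin n) (c : ℝ) (j : ℕ)
    (hE : ∀ x, E x → ∀ a, a ≠ i → S.R (x i) (x a) < c) :
    S.ggDefect ((Set.Ici c).indicator 1) (Fin.castAdd j i)
      (fun _ x => S.ff (fun x => ind (E x)) i c j x) =
    ((n + j : ℕ) : ℝ) * (S.aa (fun x => ind (E x)) i c j - S.aa (fun x => ind (E x)) i c (j + 1))
      - S.aa (fun x => ind (E x)) i c j *
        S.tav (fun _ (x : Fin 2 → S.X) => (Set.Ici c).indicator 1 (S.R (x 0) (x 1))) := by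
  unfold Sys.ggDefect
  rw [tav_ff_last, tav_ff]
  have h0 : ∑ l ∈ Finset.univ.erase (Fin.castAdd j i), S.tav (fun _ x =>
      S.ff (fun x => ind (E x)) i c j x *
        (Set.Ici c).indicator (1 : ℝ → ℝ) (S.R (x (Fin.castAdd j i)) (x l))) = 0 := by
    refine Finset.sum_eq_zero fun l hl => ?_
    have h1 : S.tav (n := n + j) (fun _ x =>
      S.ff (fun x => ind (E x)) i c j x *
        (Set.Ici c).indicator (1 : ℝ → ℝ) (S.R (x (Fin.castAdd j i)) (x l))) =
        S.tav (n := n + j) (fun _ _ => 0) :=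
      tav_congr fun _ x => ff_mul_eq_zero E i c j hE l (Finset.ne_of_mem_erase hl) x
    rw [h1, tav_const]
  rw [h0, add_zero]

theorem ff_test {n : ℕ} (E : (Fin n → S.X) → Prop) (i : Fin n) (c : ℝ) (j : ℕ) :
    S.Test (fun _ x => S.ff (fun x => ind (E x)) i c j x) where
  meas _ := measurable_const
  bdd _ x := by
    unfold ff
    rw [abs_mul, Finset.abs_prod]
    have h1 : ∏ k : Fin j, |ind (S.R (x (Fin.castAdd j i)) (x (Fin.natAdd n k)) < c)| ≤ 1 :=
      Finset.prod_le_one (fun _ _ => abs_nonneg _) fun _ _ => abs_ind_le_one _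
    calc _ ≤ 1 * 1 := mul_le_mul (abs_ind_le_one _) h1
          (Finset.prod_nonneg fun _ _ => abs_nonneg _) zero_le_one
      _ = 1 := one_mul 1

/-- upper bound: pointwise inequality -/
theorem geom_bound {V W1 W2 η : ℝ} (hV0 : 0 ≤ V) (hV1 : V ≤ 1) (hW1 : 0 < W1) (hW2 : 0 ≤ W2)
    (h : W1 ≤ (1 - V) + W2) (hη : 0 < η) (J : ℕ) :
    ∑ j ∈ Finset.range J, V ^ j ≤ (2 + 2 * η * J) / W1 + J / η * W2 := by
  have hJ : (0 : ℝ) ≤ J := Nat.cast_nonneg J
  have h1 : ∑ j ∈ Finset.range J, V ^ j ≤ J := by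
    calc ∑ j ∈ Finset.range J, V ^ j ≤ ∑ j ∈ Finset.range J, (1 : ℝ) :=
          Finset.sum_le_sum fun j _ => pow_le_one₀ hV0 hV1
      _ = J := by simp
  have t1 : 0 ≤ 2 / W1 := by positivity
  have t2 : 0 ≤ 2 * η * J / W1 := by positivity
  have t3 : 0 ≤ J / η * W2 := by positivity
  rw [add_div]
  by_cases hc : W2 ≤ W1 / 2
  · have hW : W1 / 2 ≤ 1 - V := by linarith only [hc, h]
    have h2 : (∑ j ∈ Finset.range J, V ^ j) * (1 - V) ≤ 1 := by
      rw [geom_sum_mul_neg]
      have := pow_nonneg hV0 J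
      linarith only [this]
    have h3 : ∑ j ∈ Finset.range J, V ^ j ≤ 2 / W1 := by
      rw [le_div_iff₀ hW1]
      have h4 : 0 ≤ ∑ j ∈ Finset.range J, V ^ j := Finset.sum_nonneg fun j _ => pow_nonneg hV0 j
      nlinarith
    linarith only [h3, t3, t2]
  · push Not at hc
    by_cases hd : W1 ≤ 2 * η
    · have h3 : (J : ℝ) ≤ 2 * η * J / W1 := by
        rw [le_div_iff₀ hW1]
        nlinarith
      linarith only [h3, t3, t1, h1]
    · push Not at hd
      have h3 : (J : ℝ) ≤ J / η * W2 := by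
        rw [div_mul_eq_mul_div, le_div_iff₀ hη]
        have : η < W2 := by linarith
        nlinarith
      linarith only [h3, t2, t1, h1]

/-- upper bound: for fixed disorder -/
theorem inn_upper {n : ℕ} (ω : S.Ω) (E : (Fin n → S.X) → Prop) (i : Fin n) (c : ℝ)
    (T : (Fin n → S.X) → S.X → Prop) (hT : ∀ x y z, T (Function.update x i y) z ↔ T x z)
    (hET : ∀ x, E x → T x (x i)) {η : ℝ} (hη : 0 < η) (J : ℕ) :
    ∑ j ∈ Finset.range J, S.inn ω (fun u => ind (E u) * S.vv c ω (u i) ^ j) ≤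
      2 + 2 * η * J + J / η * S.inn ω (fun u => ind (E u) *
        ∑ y, S.w ω y * ind (T u y ∧ S.R (u i) y < c)) := by
  classical
  set W1 : (Fin n → S.X) → ℝ := fun u => ∑ y, S.w ω y * ind (T u y) with hW1
  set W2 : (Fin n → S.X) → ℝ := fun u => ∑ y, S.w ω y * ind (T u y ∧ S.R (u i) y < c) with hW2
  have h1 : ∑ j ∈ Finset.range J, S.inn ω (fun u => ind (E u) * S.vv c ω (u i) ^ j) =
      S.inn ω (fun u => ind (E u) * ∑ j ∈ Finset.range J, S.vv c ω (u i) ^ j) := by
    unfold inn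
    rw [Finset.sum_comm]
    refine Finset.sum_congr rfl fun x _ => ?_
    simp only [Finset.mul_sum]
  rw [h1]
  have h2 : S.inn ω (fun u => ind (E u) * ∑ j ∈ Finset.range J, S.vv c ω (u i) ^ j) ≤
      S.inn ω (fun u => (2 + 2 * η * J) * (ind (E u) / W1 u) + J / η * (ind (E u) * W2 u)) := by
    refine inn_mono' ω fun x hx => ?_
    by_cases hE : E x
    · rw [ind_of hE, one_mul, one_mul]
      have hpos : 0 < W1 x := by
        have h3 : S.w ω (x i) ≤ W1 x := by
          have h4 : S.w ω (x i) * ind (T x (x i)) ≤ W1 x :=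
            Finset.single_le_sum (f := fun y => S.w ω y * ind (T x y))
              (fun y _ => mul_nonneg (S.w0 ω y) (ind_nonneg _)) (Finset.mem_univ (x i))
          rwa [ind_of (hET x hE), mul_one] at h4
        exact lt_of_lt_of_le (hx i) h3
      have hW20 : 0 ≤ W2 x := Finset.sum_nonneg fun y _ => mul_nonneg (S.w0 ω y) (ind_nonneg _)
      have hle : W1 x ≤ (1 - S.vv c ω (x i)) + W2 x := by
        rw [← S.w1 ω]
        simp only [hW1, hW2]
        unfold vv
        rw [← Finset.sum_sub_distrib, ← Finset.sum_add_distrib]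
        refine Finset.sum_le_sum fun y _ => ?_
        have hw := S.w0 ω y
        by_cases ht : T x y
        · by_cases hr : S.R (x i) y < c
          · rw [ind_of ht, ind_of hr, ind_of ⟨ht, hr⟩]
            linarith
          · rw [ind_of ht, ind_of_not hr,
              ind_of_not (p := T x y ∧ S.R (x i) y < c) (fun h => hr h.2)]
            linarith
        · rw [ind_of_not ht, ind_of_not (p := T x y ∧ S.R (x i) y < c) (fun h => ht h.1)]
          have := ind_le_one (S.R (x i) y < c)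
          linarith only [mul_nonneg (sub_nonneg.2 hw) (sub_nonneg.2 this)]
      have h5 := geom_bound (vv_nonneg c ω (x i)) (vv_le_one c ω (x i)) hpos hW20 hle hη J
      rw [mul_one_div]
      exact h5
    · rw [ind_of_not hE]
      simp
  refine h2.trans ?_
  rw [inn_add, inn_smul, inn_smul]
  have h3 : S.inn ω (fun u => ind (E u) / W1 u) ≤ 1 := by
    rw [inn_update ω i]
    rw [← inn_const (S := S) (n := n) ω 1]
    refine inn_mono ω fun x => ?_
    have h4 : ∀ y, W1 (Function.update x i y) = W1 x := by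
      intro y
      simp only [hW1]
      refine Finset.sum_congr rfl fun z _ => ?_
      rw [show (T (Function.update x i y) z) = T x z from propext (hT x y z)]
    have h5 : ∑ y, S.w ω y * (ind (E (Function.update x i y)) / W1 (Function.update x i y)) ≤
        (∑ y, S.w ω y * ind (T x y)) / W1 x := by
      rw [Finset.sum_div]
      refine Finset.sum_le_sum fun y _ => ?_
      rw [h4 y, mul_div_assoc]
      have hW0 : 0 ≤ W1 x := Finset.sum_nonneg fun y _ => mul_nonneg (S.w0 ω y) (ind_nonneg _)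
      have h6 : ind (E (Function.update x i y)) ≤ ind (T x y) := by
        refine ind_mono fun h => ?_
        have h7 := hET _ h
        rw [Function.update_self] at h7
        exact (hT x y y).mp h7
      exact mul_le_mul_of_nonneg_left (div_le_div_of_nonneg_right h6 hW0) (S.w0 ω y)
    refine h5.trans ?_
    exact div_self_le_one _
  have h4 : 0 ≤ 2 + 2 * η * (J : ℝ) := by positivity
  linarith only [mul_le_mul_of_nonneg_left h3 h4]

end Sys

/-- probability of an event of the replicas -/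
noncomputable def Sys.pr (S : Sys) {n : ℕ} (E : (Fin n → S.X) → Prop) : ℝ :=
  S.tav fun _ x => ind (E x)

theorem Sys.bdd_ind {S : Sys} {n : ℕ} (E : (Fin n → S.X) → Prop) :
    Sys.Bdd S (fun _ x => ind (E x)) 1 :=
  ⟨fun _ => measurable_const, fun _ _ => abs_ind_le_one _⟩

theorem Sys.pr_nonneg (S : Sys) {n : ℕ} (E : (Fin n → S.X) → Prop) : 0 ≤ S.pr E :=
  Sys.tav_nonneg fun _ _ => ind_nonneg _

theorem Sys.pr_mono (S : Sys) {n : ℕ} {E E' : (Fin n → S.X) → Prop} (h : ∀ x, E x → E' x) :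
    S.pr E ≤ S.pr E' :=
  Sys.tav_mono (Sys.bdd_ind E) (Sys.bdd_ind E') fun _ x => ind_mono (h x)

/-- the event that all overlaps lie in prescribed sets -/
def Ev (S : Sys) {κ : Type*} (J : κ → κ → Set ℝ) {n : ℕ} (τ : Fin n → κ) (x : Fin n → S.X) : Prop :=
  ∀ a b, a ≠ b → S.R (x a) (x b) ∈ J (τ a) (τ b)

theorem rec_lower {n J : ℕ} {a : ℕ → ℝ} {γ ε : ℝ} (ha : ∀ j, 0 ≤ a j) (hγ1 : γ ≤ 1)
    (h : ∀ j < J, |((n + j : ℕ) : ℝ) * (a j - a (j + 1)) - a j * γ| ≤ ε) (j : ℕ) (hj : j ≤ J) :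
    ((n : ℝ) - 1) * a 0 - j * ε ≤ ((n : ℝ) + j - 1) * a j := by
  induction j with
  | zero => simp
  | succ j ih =>
    have h1 := ih (by omega)
    have h2 := (abs_le.mp (h j (by omega))).2
    have h3 := ha j
    push_cast at h2 ⊢
    linarith only [mul_nonneg (sub_nonneg.2 hγ1) (sub_nonneg.2 h3), h2, h1]

theorem sum_lower {n J : ℕ} (hn : 2 ≤ n) {a : ℕ → ℝ} {p ε : ℝ} (hε : 0 ≤ ε) (hp0 : 0 ≤ p)
    (hp : p ≤ a 0)
    (h : ∀ j < J, ((n : ℝ) - 1) * a 0 - j * ε ≤ ((n : ℝ) + j - 1) * a j) :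
    p * ((1 / (n : ℝ)) * ∑ j ∈ Finset.range J, 1 / ((j : ℝ) + 1)) - J * ε ≤
      ∑ j ∈ Finset.range J, a j := by
  have hn' : (2 : ℝ) ≤ n := by exact_mod_cast hn
  have h1 : ∀ j ∈ Finset.range J, p * ((1 / (n : ℝ)) * (1 / ((j : ℝ) + 1))) - ε ≤ a j := by
    intro j hj
    have h2 := h j (Finset.mem_range.mp hj)
    have hj0 : (0 : ℝ) ≤ j := Nat.cast_nonneg j
    have hD : (0 : ℝ) < (n : ℝ) + j - 1 := by linarith
    have h3 : (p - j * ε) / ((n : ℝ) + j - 1) ≤ a j := by
      rw [div_le_iff₀ hD]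
      linarith [mul_nonneg (sub_nonneg.2 hp) (le_of_lt (sub_pos.2 hD)), mul_nonneg (sub_nonneg.2 hp) (sub_nonneg.2 hn'), mul_nonneg (sub_nonneg.2 hp0) (sub_nonneg.2 hn'), h2]
    have h4 : p * ((1 / (n : ℝ)) * (1 / ((j : ℝ) + 1))) ≤ p / ((n : ℝ) + j - 1) := by
      rw [one_div_mul_one_div, mul_one_div]
      refine div_le_div_of_nonneg_left hp0 hD ?_
      nlinarith
    have h5 : j * ε / ((n : ℝ) + j - 1) ≤ ε := by
      rw [div_le_iff₀ hD]
      linarith [mul_nonneg (sub_nonneg.2 hε) (le_of_lt (sub_pos.2 hD)), mul_nonneg (sub_nonneg.2 hε) (sub_nonneg.2 hn')]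
    rw [sub_div] at h3
    linarith
  have h2 := Finset.sum_le_sum h1
  rw [Finset.sum_sub_distrib, Finset.sum_const, Finset.card_range, nsmul_eq_mul,
    ← Finset.mul_sum, ← Finset.mul_sum] at h2
  exact h2

variable {U : Ultrafilter ℕ} {S : ℕ → Sys}

theorem Sys.aa_nonneg {S : Sys} {n : ℕ} (E : (Fin n → S.X) → Prop) (i : Fin n) (c : ℝ) (j : ℕ) :
    0 ≤ S.aa (fun x => ind (E x)) i c j :=
  integral_nonneg fun ω => Sys.inn_nonneg ω fun _ =>
    mul_nonneg (ind_nonneg _) (pow_nonneg (Sys.vv_nonneg c ω _) j)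

theorem Sys.aa_zero {S : Sys} {n : ℕ} (E : (Fin n → S.X) → Prop) (i : Fin n) (c : ℝ) :
    S.aa (fun x => ind (E x)) i c 0 = S.pr E := by
  unfold Sys.aa Sys.pr
  rw [Sys.tav_def]
  simp

/-- averaged upper bound -/
theorem Sys.aa_upper {S : Sys} {κ : Type*} (J : κ → κ → Set ℝ) (hsymm : ∀ k l, J k l = J l k)
    {c : ℝ} {k0 : κ} (hJ0 : Set.Iio c ⊆ J k0 k0) {n : ℕ} (τ : Fin n → κ) (i : Fin n)
    (hi : τ i = k0) {η : ℝ} (hη : 0 < η) (M : ℕ) :
    ∑ j ∈ Finset.range M, S.aa (fun x => ind (Ev S J τ x)) i c j ≤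
      2 + 2 * η * M + M / η * S.pr (Ev S J (Fin.snoc (α := fun _ => κ) τ k0)) := by
  set T : (Fin n → S.X) → S.X → Prop := fun x z => ∀ a, a ≠ i → S.R z (x a) ∈ J k0 (τ a) with hTdef
  have hT : ∀ x y z, T (Function.update x i y) z ↔ T x z := by
    intro x y z
    refine forall_congr' fun a => forall_congr' fun ha => ?_
    rw [Function.update_of_ne ha]
  have hET : ∀ x, Ev S J τ x → T x (x i) := by
    intro x hx a ha
    have := hx i a ha.symm
    rwa [hi] at this
  have h1 : ∀ ω, ∑ j ∈ Finset.range M,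
      S.inn ω (fun u => ind (Ev S J τ u) * S.vv c ω (u i) ^ j) ≤
      2 + 2 * η * M + M / η * S.inn ω
        (fun x => ind (Ev S J (Fin.snoc (α := fun _ => κ) τ k0) x)) := by
    intro ω
    refine (Sys.inn_upper ω (Ev S J τ) i c T hT hET hη M).trans ?_
    have h2 : S.inn ω (fun u => ind (Ev S J τ u) *
        ∑ y, S.w ω y * ind (T u y ∧ S.R (u i) y < c)) ≤
        S.inn ω (fun x => ind (Ev S J (Fin.snoc (α := fun _ => κ) τ k0) x)) := by
      rw [Sys.inn_snoc]
      refine Sys.inn_mono ω fun u => ?_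
      rw [Finset.mul_sum]
      refine Finset.sum_le_sum fun y _ => ?_
      rw [mul_left_comm]
      refine mul_le_mul_of_nonneg_left ?_ (S.w0 ω y)
      by_cases hE : Ev S J τ u
      · by_cases hTy : T u y ∧ S.R (u i) y < c
        · rw [ind_of hE, ind_of hTy, ind_of, one_mul]
          intro a b hab
          have key : ∀ b : Fin n, S.R y (u b) ∈ J k0 (τ b) := by
            intro b
            by_cases hb : b = i
            · rw [hb, hi]
              apply hJ0
              rw [Sys.R_symm]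
              exact hTy.2
            · exact hTy.1 b hb
          induction a using Fin.lastCases with
          | last =>
            induction b using Fin.lastCases with
            | last => exact absurd rfl hab
            | cast b =>
              rw [Fin.snoc_last, Fin.snoc_last, Fin.snoc_castSucc, Fin.snoc_castSucc]
              exact key b
          | cast a =>
            induction b using Fin.lastCases with
            | last =>
              rw [Fin.snoc_last, Fin.snoc_last, Fin.snoc_castSucc, Fin.snoc_castSucc, hsymm,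
                Sys.R_symm]
              exact key a
            | cast b =>
              rw [Fin.snoc_castSucc, Fin.snoc_castSucc, Fin.snoc_castSucc, Fin.snoc_castSucc]
              refine hE a b ?_
              rintro rfl
              exact hab rfl
        · rw [ind_of_not hTy, mul_zero]
          exact ind_nonneg _
      · rw [ind_of_not hE, zero_mul]
        exact ind_nonneg _
    have h3 : 0 ≤ (M : ℝ) / η := by positivity
    linarith only [mul_le_mul_of_nonneg_left h2 h3]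
  unfold Sys.aa Sys.pr
  rw [← integral_finsetSum _ (fun j _ => Sys.aa_integrable _ i c j), Sys.tav_def]
  have hint := (Sys.bdd_ind (S := S) (Ev S J (Fin.snoc (α := fun _ => κ) τ k0))).integrable
  rw [← integral_const_mul]
  have h4 : ∫ ω, (2 + 2 * η * (M : ℝ)) ∂S.P = 2 + 2 * η * M := by simp
  rw [← h4, ← integral_add (integrable_const _) (hint.const_mul _)]
  refine integral_mono (integrable_finsetSum _ fun j _ => Sys.aa_integrable _ i c j)
    ((integrable_const _).add (hint.const_mul _)) fun ω => ?_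
  exact h1 ω

/-- **Duplication lemma.** -/
theorem dup (hGG : ∀ p : ℕ, AsympGG U S (fun x => x ^ p)) {c : ℝ} (hc : NonAtom U S c)
    {κ : Type*} (J : κ → κ → Set ℝ) (hsymm : ∀ k l, J k l = J l k) (k0 : κ)
    (hJ : ∀ k, J k0 k ⊆ Set.Iio c) (hJ0 : Set.Iio c ⊆ J k0 k0) {n : ℕ} (hn : 2 ≤ n)
    (τ : Fin n → κ) (i : Fin n) (hi : τ i = k0) {p : ℝ} (hp : 0 < p)
    (hA : ∀ᶠ N in (U : Filter ℕ), p ≤ (S N).pr (Ev (S N) J τ)) :
    ∃ δ > 0, ∀ᶠ N in (U : Filter ℕ),
      δ ≤ (S N).pr (Ev (S N) J (Fin.snoc (α := fun _ => κ) τ k0)) := by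
  have hn0 : (0 : ℝ) < n := by
    have : 0 < n := by omega
    exact_mod_cast this
  obtain ⟨M, hM⟩ : ∃ M : ℕ, 5 * n / p ≤ ∑ j ∈ Finset.range M, 1 / ((j : ℝ) + 1) :=
    ((Filter.tendsto_atTop.mp Real.tendsto_sum_range_one_div_nat_succ_atTop) (5 * n / p)).exists
  have hM1 : (0 : ℝ) < (M : ℝ) + 1 := by positivity
  set ε : ℝ := 1 / ((M : ℝ) + 1) with hε
  set η : ℝ := 1 / (2 * ((M : ℝ) + 1)) with hη
  have hε0 : 0 < ε := by (clear * -; positivity)
  have hη0 : 0 < η := by positivity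
  refine ⟨η / ((M : ℝ) + 1), by positivity, ?_⟩
  have hind := AsympGG.indicator hGG hc
  have hev : ∀ᶠ N in (U : Filter ℕ), ∀ j ∈ Finset.range M,
      ∀ F : (S N).T → (Fin (n + j) → (S N).X) → ℝ, (S N).Test F →
        |(S N).ggDefect ((Set.Ici c).indicator 1) (Fin.castAdd j i) F| ≤ ε := by
    rw [Filter.eventually_all_finset]
    exact fun j _ => hind (n + j) (Fin.castAdd j i) ε hε0
  filter_upwards [hev, hA] with N hN hpN
  have hE : ∀ x, Ev (S N) J τ x → ∀ a, a ≠ i → (S N).R (x i) (x a) < c := by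
    intro x hx a ha
    have h1 := hx i a ha.symm
    rw [hi] at h1
    exact hJ _ h1
  set a : ℕ → ℝ := fun j => (S N).aa (fun x => ind (Ev (S N) J τ x)) i c j with ha
  set γ : ℝ := (S N).tav (fun _ (x : Fin 2 → (S N).X) =>
    (Set.Ici c).indicator 1 ((S N).R (x 0) (x 1))) with hγ
  have hγ1 : γ ≤ 1 := by
    obtain ⟨D, hD⟩ := Sys.exists_bdd (S := S N) (fun x : Fin 2 → (S N).X =>
      (Set.Ici c).indicator (1 : ℝ → ℝ) ((S N).R (x 0) (x 1)))
    have h1 := Sys.tav_mono (G := fun _ _ => (1 : ℝ)) (D := 1) hD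
      ⟨fun _ => measurable_const, fun _ _ => by norm_num⟩ (fun t x => by
        unfold Set.indicator
        split_ifs <;> norm_num)
    rwa [Sys.tav_const] at h1
  have hdef : ∀ j < M, |((n + j : ℕ) : ℝ) * (a j - a (j + 1)) - a j * γ| ≤ ε := by
    intro j hj
    have h1 := hN j (Finset.mem_range.mpr hj) _
      (Sys.ff_test (S := S N) (Ev (S N) J τ) i c j)
    rwa [Sys.defect_ff (Ev (S N) J τ) i c j hE] at h1
  have hrec := rec_lower (n := n) (J := M) (a := a) (fun j => Sys.aa_nonneg _ i c j) hγ1 hdef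
  have hp0 : p ≤ a 0 := by
    simp only [ha]
    rw [Sys.aa_zero]
    exact hpN
  have hlow := sum_lower hn hε0.le hp.le hp0 (fun j hj => hrec j hj.le)
  have hup := Sys.aa_upper (S := S N) J hsymm hJ0 τ i hi hη0 M
  have h1 : 5 ≤ p * ((1 / (n : ℝ)) * ∑ j ∈ Finset.range M, 1 / ((j : ℝ) + 1)) := by
    have h2 : p * ((1 / (n : ℝ)) * (5 * n / p)) ≤
      p * ((1 / (n : ℝ)) * ∑ j ∈ Finset.range M, 1 / ((j : ℝ) + 1)) :=
      mul_le_mul_of_nonneg_left (mul_le_mul_of_nonneg_left hM (by positivity)) hp.le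
    have h3 : p * ((1 / (n : ℝ)) * (5 * n / p)) = 5 := by
      field_simp
    linarith only [h3, h2]
  have h2 : (M : ℝ) * ε ≤ 1 := by
    rw [hε, mul_one_div, div_le_one hM1]
    linarith only []
  have h3 : 2 * η * (M : ℝ) ≤ 1 := by
    rw [hη, mul_one_div, div_mul_eq_mul_div, div_le_one (by (clear * -; positivity))]
    linarith only []
  set P := (S N).pr (Ev (S N) J (Fin.snoc (α := fun _ => κ) τ k0)) with hP
  have hP0 : 0 ≤ P := Sys.pr_nonneg _ _
  have h4 : 1 ≤ (M : ℝ) / η * P := by linarith only [hup, h3, h2, h1, hlow]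
  have h5 : (M : ℝ) / η * P ≤ ((M : ℝ) + 1) / η * P :=
    mul_le_mul_of_nonneg_right (div_le_div_of_nonneg_right (by linarith only []) hη0.le) hP0
  rw [div_le_iff₀ hM1]
  have h6 : 1 ≤ ((M : ℝ) + 1) / η * P := h4.trans h5
  rw [div_mul_eq_mul_div, le_div_iff₀ hη0] at h6
  linarith only [h6]

end Vale.Agent.P157.Par
end

section

/-!
Ghirlanda-Guerra identities imply nonnegativity of the overlaps and ultrametricity
(Panchenko's theorem), for finite random Gibbs systems along an ultrafilter.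
-/

open MeasureTheory ProbabilityTheory Filter Topology
open scoped RealInnerProductSpace

namespace Vale.Agent.P157.Par

variable {U : Ultrafilter ℕ} {S : ℕ → Sys}

theorem tendsto_zero_of_not_ge (f : ℕ → ℝ) (h0 : ∀ N, 0 ≤ f N)
    (h : ∀ p > 0, ¬ ∀ᶠ N in (U : Filter ℕ), p ≤ f N) : Tendsto f U (𝓝 0) := by
  rw [tendsto_order]
  refine ⟨fun a ha => Eventually.of_forall fun N => lt_of_lt_of_le ha (h0 N), fun a ha => ?_⟩
  have h1 := h a ha
  rw [← Ultrafilter.eventually_not] at h1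
  filter_upwards [h1] with N hN
  exact not_le.mp hN

/-- iterated duplication -/
theorem dup_iter (hGG : ∀ p : ℕ, AsympGG U S (fun x => x ^ p)) {c : ℝ} (hc : NonAtom U S c)
    {κ : Type*} (J : κ → κ → Set ℝ) (hsymm : ∀ k l, J k l = J l k) (k0 : κ)
    (hJ : ∀ k, J k0 k ⊆ Set.Iio c) (hJ0 : Set.Iio c ⊆ J k0 k0) {n : ℕ} (hn : 2 ≤ n)
    (τ : Fin n → κ) (i : Fin n) (hi : τ i = k0) {p : ℝ} (hp : 0 < p)
    (hA : ∀ᶠ N in (U : Filter ℕ), p ≤ (S N).pr (Ev (S N) J τ)) (m : ℕ) :
    ∃ δ > 0, ∀ᶠ N in (U : Filter ℕ),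
      δ ≤ (S N).pr (Ev (S N) J (Fin.append τ (fun _ : Fin m => k0))) := by
  induction m with
  | zero =>
    refine ⟨p, hp, ?_⟩
    filter_upwards [hA] with N hN
    refine hN.trans ?_
    refine Sys.pr_mono (S N) fun x hx => ?_
    have h1 : Fin.append τ (fun _ : Fin 0 => k0) = τ := by
      funext a
      have := Fin.append_left τ (fun _ : Fin 0 => k0) a
      exact this
    rw [h1]
    exact hx
  | succ m ih =>
    obtain ⟨δ, hδ, h⟩ := ih
    have h1 := dup hGG hc J hsymm k0 hJ hJ0 (n := n + m) (by omega)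
      (Fin.append τ (fun _ : Fin m => k0)) (Fin.castAdd m i) (by rw [Fin.append_left, hi]) hδ h
    obtain ⟨δ', hδ', h'⟩ := h1
    refine ⟨δ', hδ', ?_⟩
    filter_upwards [h'] with N hN
    have h2 : (Fin.append τ (fun _ : Fin (m + 1) => k0) : Fin (n + (m + 1)) → κ) =
        Fin.snoc (α := fun _ => κ) (Fin.append τ (fun _ : Fin m => k0)) k0 := by
      funext a
      induction a using Fin.lastCases with
      | last =>
        exact (Fin.append_right τ (fun _ : Fin (m + 1) => k0) (Fin.last m)).trans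
          (Fin.snoc_last (α := fun _ : Fin (n + m + 1) => κ) k0
            (Fin.append τ (fun _ : Fin m => k0))).symm
      | cast a =>
        refine Eq.trans ?_ (Fin.snoc_castSucc (α := fun _ : Fin (n + m + 1) => κ) k0
            (Fin.append τ (fun _ : Fin m => k0)) a).symm
        induction a using Fin.addCases with
        | left b =>
          rw [Fin.append_left]
          exact Fin.append_left τ (fun _ : Fin (m + 1) => k0) b
        | right b =>
          rw [Fin.append_right]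
          exact Fin.append_right τ (fun _ : Fin (m + 1) => k0) b.castSucc
    rw [h2]
    exact hN

theorem Sys.exists_of_pr_pos {S : Sys} {n : ℕ} {E : (Fin n → S.X) → Prop} (h : 0 < S.pr E) :
    ∃ x, E x := by
  by_contra hcon
  push Not at hcon
  have h1 : S.pr E = 0 := by
    unfold Sys.pr
    have h2 : S.tav (n := n) (fun _ x => ind (E x)) = S.tav (n := n) (fun _ _ => 0) :=
      Sys.tav_congr fun _ x => ind_of_not (hcon x)
    rw [h2, Sys.tav_const]
  linarith

theorem norm_sum_sq_le {V : Type*} [NormedAddCommGroup V] [InnerProductSpace ℝ V] {m : ℕ}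
    (v : Fin m → V) (h1 : ∀ a, ‖v a‖ = 1) {c : ℝ} (h : ∀ a b, a ≠ b → ⟪v a, v b⟫ ≤ c) :
    ‖∑ a, v a‖ ^ 2 ≤ m + m * (m - 1) * c := by
  rw [← real_inner_self_eq_norm_sq, sum_inner]
  have h2 : ∀ a, ⟪v a, ∑ b, v b⟫ ≤ 1 + (m - 1) * c := by
    intro a
    rw [inner_sum, ← Finset.add_sum_erase _ _ (Finset.mem_univ a), real_inner_self_eq_norm_sq,
      h1 a]
    have h3 : ∑ b ∈ Finset.univ.erase a, ⟪v a, v b⟫ ≤ ∑ b ∈ Finset.univ.erase a, c :=
      Finset.sum_le_sum fun b hb => h a b (Finset.ne_of_mem_erase hb).symm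
    rw [Finset.sum_const, Finset.card_erase_of_mem (Finset.mem_univ a), Finset.card_univ,
      Fintype.card_fin, nsmul_eq_mul, Nat.cast_sub (by have := a.2; omega)] at h3
    norm_num at h3 ⊢
    linarith
  calc ∑ a, ⟪v a, ∑ b, v b⟫ ≤ ∑ _a : Fin m, (1 + ((m : ℝ) - 1) * c) :=
        Finset.sum_le_sum fun a _ => h2 a
    _ = m + m * (m - 1) * c := by
      rw [Finset.sum_const, Finset.card_univ, Fintype.card_fin, nsmul_eq_mul]
      ring

/-- **Positivity of the overlaps** -/
theorem positivity (hGG : ∀ p : ℕ, AsympGG U S (fun x => x ^ p)) {ε : ℝ} (hε : 0 < ε) :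
    Tendsto (fun N => (S N).tav (n := 2)
      (fun _ x => if (S N).R (x 0) (x 1) < -ε then 1 else 0)) U (𝓝 0) := by
  refine tendsto_zero_of_not_ge _ (fun N => Sys.tav_nonneg fun _ x => by
    split_ifs <;> norm_num) fun p hp hcon => ?_
  obtain ⟨c, hc1, hc2, hc⟩ := exists_nonAtom U S (show -ε < 0 by linarith)
  obtain ⟨m, hm⟩ := exists_nat_gt (1 / (-c))
  have hA : ∀ᶠ N in (U : Filter ℕ), p ≤ (S N).pr
      (Ev (S N) (fun _ _ : Unit => Set.Iio c) (fun _ : Fin 2 => ())) := by
    filter_upwards [hcon] with N hN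
    refine hN.trans ?_
    have h1 : (S N).tav (n := 2) (fun _ x => if (S N).R (x 0) (x 1) < -ε then 1 else 0) =
        (S N).pr (n := 2) (fun x => (S N).R (x 0) (x 1) < -ε) :=
      Sys.tav_congr fun _ x => (ind_eq _).symm
    rw [h1]
    refine Sys.pr_mono (S N) fun x hx a b hab => ?_
    show (S N).R (x a) (x b) < c
    have hx' : (S N).R (x 0) (x 1) < -ε := hx
    fin_cases a <;> fin_cases b
    · exact absurd rfl hab
    · exact lt_trans hx' hc1
    · rw [Sys.R_symm]
      exact lt_trans hx' hc1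
    · exact absurd rfl hab
  obtain ⟨δ, hδ, h⟩ := dup_iter hGG hc (fun _ _ : Unit => Set.Iio c) (fun _ _ => rfl) ()
    (fun _ => subset_rfl) subset_rfl le_rfl (fun _ : Fin 2 => ()) 0 rfl hp hA m
  obtain ⟨N, hN⟩ := h.exists
  obtain ⟨x, hx⟩ := Sys.exists_of_pr_pos (lt_of_lt_of_le hδ hN)
  have h1 := norm_sum_sq_le (fun a => (S N).φ (x a)) (fun a => (S N).hφ _) (c := c)
    (fun a b hab => (le_of_lt (hx a b hab)))
  have h2 := sq_nonneg ‖∑ a, (S N).φ (x a)‖
  have h3 : 1 < m * (-c) := by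
    rwa [div_lt_iff₀ (by linarith)] at hm
  have hm0 : (0 : ℝ) ≤ m := Nat.cast_nonneg m
  push_cast at h1
  nlinarith only [hc2, h3, h1]

/-- the sets used for ultrametricity: types `0` and `2` are the close pair, `1` is the far point -/
def umJ (c : ℝ) (I01 I02 I12 : Set ℝ) : Fin 3 → Fin 3 → Set ℝ :=
  ![![Set.Iio c, I01, I02], ![I01, Set.univ, I12], ![I02, I12, Set.Iio c]]

theorem umJ_symm (c : ℝ) (I01 I02 I12 : Set ℝ) (k l : Fin 3) :
    umJ c I01 I02 I12 k l = umJ c I01 I02 I12 l k := by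
  fin_cases k <;> fin_cases l <;> rfl

/-- the geometric contradiction -/
theorem um_geom {V : Type*} [NormedAddCommGroup V] [InnerProductSpace ℝ V] {m : ℕ}
    (hm : 0 < m) (y z : Fin m → V) (x : V) (hx : ‖x‖ = 1) (hy : ∀ a, ‖y a‖ = 1)
    (hz : ∀ a, ‖z a‖ = 1) {c β ζ α' h ε : ℝ} (hyy : ∀ a b, a ≠ b → ⟪y a, y b⟫ ≤ c)
    (hzz : ∀ a b, a ≠ b → ⟪z a, z b⟫ ≤ c) (hyz : ∀ a b, ζ ≤ ⟪y a, z b⟫)
    (hxy : ∀ a, β ≤ ⟪x, y a⟫) (hxz : ∀ a, ⟪x, z a⟫ ≤ α') (hε : 0 < ε) (hgap : ε / 2 ≤ β - α')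
    (hc1 : -1 ≤ c) (hcζ : c - ζ ≤ 2 * h) (hh : h ≤ ε ^ 2 / 64) (hm2 : 64 / ε ^ 2 < m) : False := by
  have hmR : (0 : ℝ) < m := by exact_mod_cast hm
  have h1 := norm_sum_sq_le y hy hyy
  have h2 := norm_sum_sq_le z hz hzz
  have h3 : (m : ℝ) * (m * ζ) ≤ ⟪∑ a, y a, ∑ b, z b⟫ := by
    rw [sum_inner]
    have h4 : ∀ a ∈ Finset.univ, (m : ℝ) * ζ ≤ ⟪y a, ∑ b, z b⟫ := by
      intro a _
      rw [inner_sum]
      have h5 := Finset.card_nsmul_le_sum Finset.univ (fun b => ⟪y a, z b⟫) ζ
        (fun b _ => hyz a b)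
      rw [Finset.card_univ, Fintype.card_fin, nsmul_eq_mul] at h5
      exact h5
    have h6 := Finset.card_nsmul_le_sum Finset.univ (fun a => ⟪y a, ∑ b, z b⟫) _ h4
    rw [Finset.card_univ, Fintype.card_fin, nsmul_eq_mul] at h6
    exact h6
  have h4 : (m : ℝ) * (ε / 2) ≤ ⟪x, ∑ a, y a - ∑ b, z b⟫ := by
    rw [inner_sub_right, inner_sum, inner_sum]
    have h5 := Finset.card_nsmul_le_sum Finset.univ (fun b => ⟪x, y b⟫) β (fun b _ => hxy b)
    have h6 := Finset.sum_le_card_nsmul Finset.univ (fun b => ⟪x, z b⟫) α' (fun b _ => hxz b)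
    rw [Finset.card_univ, Fintype.card_fin, nsmul_eq_mul] at h5 h6
    nlinarith only [h5, h6, hgap]
  have h5 : ⟪x, ∑ a, y a - ∑ b, z b⟫ ≤ ‖∑ a, y a - ∑ b, z b‖ := by
    have := real_inner_le_norm x (∑ a, y a - ∑ b, z b)
    rwa [hx, one_mul] at this
  have h6 : ‖∑ a, y a - ∑ b, z b‖ ^ 2 =
      ‖∑ a, y a‖ ^ 2 - 2 * ⟪∑ a, y a, ∑ b, z b⟫ + ‖∑ b, z b‖ ^ 2 := norm_sub_sq_real _ _
  have h7 : ((m : ℝ) * (ε / 2)) ^ 2 ≤ ‖∑ a, y a - ∑ b, z b‖ ^ 2 := by
    have h8 := h4.trans h5
    have h9 : 0 ≤ (m : ℝ) * (ε / 2) := by positivity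
    exact pow_le_pow_left₀ h9 h8 2
  have h8 : ((m : ℝ) * (ε / 2)) ^ 2 ≤ 4 * m + 4 * h * m ^ 2 := by nlinarith only [h1, h2, h3, h6, h7, hcζ, hc1]
  have h9 : (m : ℝ) * ε ^ 2 ≤ 64 := by
    have e1 : ((m : ℝ) * (ε / 2)) ^ 2 = m * (m * ε ^ 2 / 4) := by ring
    have e2 : 4 * (m : ℝ) + 4 * h * m ^ 2 = m * (4 + 4 * h * m) := by ring
    rw [e1, e2] at h8
    have h10 := le_of_mul_le_mul_left h8 hmR
    have h11 : 4 * h * m ≤ ε ^ 2 / 16 * m := by nlinarith only [hh]
    linarith only [h10, h11, mul_pos hmR (pow_pos hε 2)]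
  rw [div_lt_iff₀ (by positivity)] at hm2
  linarith only [hm2, h9]

theorem um_core (hGG : ∀ p : ℕ, AsympGG U S (fun x => x ^ p)) {ε h α β ζ : ℝ} (hε : 0 < ε)
    (h0 : 0 < h) (h1 : h ≤ ε / 4) (h2 : h ≤ ε ^ 2 / 64) (hζ : -1 ≤ ζ) (hβζ : β ≤ ζ)
    (hα : α < β + h - ε) {p : ℝ} (hp : 0 < p)
    (hA : ∀ᶠ N in (U : Filter ℕ), p ≤ (S N).pr (n := 3) (fun x =>
      (S N).R (x 0) (x 1) ∈ Set.Ico β (β + h) ∧ (S N).R (x 0) (x 2) ∈ Set.Ico ζ (ζ + h) ∧
        (S N).R (x 1) (x 2) ∈ Set.Ico α (α + h))) : False := by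
  obtain ⟨c, hc1, hc2, hc⟩ := exists_nonAtom U S (show ζ + h < ζ + 2 * h by linarith)
  obtain ⟨m, hm⟩ := exists_nat_gt (64 / ε ^ 2)
  have hm0 : 0 < m := by
    have : (0 : ℝ) < m := lt_trans (by positivity) hm
    exact_mod_cast this
  set I01 : Set ℝ := Set.Ico β (β + h) with hI01
  set I02 : Set ℝ := Set.Ico ζ (ζ + h) with hI02
  set I12 : Set ℝ := Set.Ico α (α + h) with hI12
  set J := umJ c I01 I02 I12 with hJdef
  have e01 : I01 ⊆ Set.Iio c := fun r hr => lt_of_lt_of_le hr.2 (by linarith only [hβζ, hc1])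
  have e02 : I02 ⊆ Set.Iio c := fun r hr => lt_of_lt_of_le hr.2 (by linarith only [hc1])
  have e12 : I12 ⊆ Set.Iio c := fun r hr => lt_of_lt_of_le hr.2 (by linarith only [h1, hβζ, hα, hc1, hc2])
  have hJ0 : ∀ k, J 0 k ⊆ Set.Iio c := by
    intro k
    fin_cases k
    · exact subset_rfl
    · exact e01
    · exact e02
  have hJ2 : ∀ k, J 2 k ⊆ Set.Iio c := by
    intro k
    fin_cases k
    · exact e02
    · exact e12
    · exact subset_rfl
  have hA' : ∀ᶠ N in (U : Filter ℕ), p ≤ (S N).pr (Ev (S N) J (fun a : Fin 3 => a)) := by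
    filter_upwards [hA] with N hN
    refine hN.trans (Sys.pr_mono (S N) fun x hx a b hab => ?_)
    obtain ⟨x01, x02, x12⟩ := hx
    fin_cases a <;> fin_cases b
    · exact absurd rfl hab
    · exact x01
    · exact x02
    · show (S N).R (x 1) (x 0) ∈ I01
      rw [Sys.R_symm]
      exact x01
    · exact absurd rfl hab
    · exact x12
    · show (S N).R (x 2) (x 0) ∈ I02
      rw [Sys.R_symm]
      exact x02
    · show (S N).R (x 2) (x 1) ∈ I12
      rw [Sys.R_symm]
      exact x12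
    · exact absurd rfl hab
  obtain ⟨δ, hδ, hB⟩ := dup_iter hGG hc J (umJ_symm _ _ _ _) 0 hJ0 subset_rfl (n := 3)
    (by norm_num) (fun a : Fin 3 => a) 0 rfl hp hA' m
  obtain ⟨δ', hδ', hC⟩ := dup_iter hGG hc J (umJ_symm _ _ _ _) 2 hJ2 subset_rfl (n := 3 + m)
    (by omega) (Fin.append (fun a : Fin 3 => a) (fun _ : Fin m => 0)) (Fin.castAdd m 2)
    (Fin.append_left _ _ _) hδ hB m
  obtain ⟨N, hN⟩ := hC.exists
  obtain ⟨x, hx⟩ := Sys.exists_of_pr_pos (lt_of_lt_of_le hδ' hN)
  set τ : Fin (3 + m + m) → Fin 3 := Fin.append (Fin.append (fun a : Fin 3 => a)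
    (fun _ : Fin m => 0)) (fun _ : Fin m => 2) with hτ
  let iy : Fin m → Fin (3 + m + m) := fun k => Fin.castAdd m (Fin.natAdd 3 k)
  let iz : Fin m → Fin (3 + m + m) := fun k => Fin.natAdd (3 + m) k
  let ix : Fin (3 + m + m) := Fin.castAdd m (Fin.castAdd m 1)
  have ty : ∀ k, τ (iy k) = 0 := fun k => by
    simp only [hτ, iy]
    rw [Fin.append_left, Fin.append_right]
  have tz : ∀ k, τ (iz k) = 2 := fun k => by
    simp only [hτ, iz]
    rw [Fin.append_right]
  have tx : τ ix = 1 := by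
    simp only [hτ, ix]
    rw [Fin.append_left, Fin.append_left]
  have nyy : ∀ a b, a ≠ b → iy a ≠ iy b := by
    intro a b hab heq
    apply hab
    have := congrArg Fin.val heq
    simp only [iy, Fin.val_castAdd, Fin.val_natAdd] at this
    exact Fin.ext (by omega)
  have nzz : ∀ a b, a ≠ b → iz a ≠ iz b := by
    intro a b hab heq
    apply hab
    have := congrArg Fin.val heq
    simp only [iz, Fin.val_natAdd] at this
    exact Fin.ext (by omega)
  have nyz : ∀ a b, iy a ≠ iz b := by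
    intro a b heq
    have := congrArg Fin.val heq
    simp only [iy, iz, Fin.val_castAdd, Fin.val_natAdd] at this
    have := a.2
    omega
  have nxy : ∀ a, ix ≠ iy a := by
    intro a heq
    have := congrArg Fin.val heq
    simp only [ix, iy, Fin.val_castAdd, Fin.val_natAdd] at this
    simp at this
    omega
  have nxz : ∀ a, ix ≠ iz a := by
    intro a heq
    have := congrArg Fin.val heq
    simp only [ix, iz, Fin.val_castAdd, Fin.val_natAdd] at this
    simp at this
    omega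
  refine um_geom hm0 (fun k => (S N).φ (x (iy k))) (fun k => (S N).φ (x (iz k)))
    ((S N).φ (x ix)) ((S N).hφ _) (fun _ => (S N).hφ _) (fun _ => (S N).hφ _)
    (c := c) (β := β) (ζ := ζ) (α' := α + h) (h := h) (ε := ε) ?_ ?_ ?_ ?_ ?_ hε ?_ ?_ ?_ h2 hm
  · intro a b hab
    have h3 := hx (iy a) (iy b) (nyy a b hab)
    rw [ty, ty] at h3
    exact le_of_lt h3
  · intro a b hab
    have h3 := hx (iz a) (iz b) (nzz a b hab)
    rw [tz, tz] at h3
    exact le_of_lt h3
  · intro a b
    have h3 := hx (iy a) (iz b) (nyz a b)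
    rw [ty, tz] at h3
    exact h3.1
  · intro a
    have h3 := hx ix (iy a) (nxy a)
    rw [tx, ty] at h3
    exact h3.1
  · intro a
    have h3 := hx ix (iz a) (nxz a)
    rw [tx, tz] at h3
    exact le_of_lt h3.2
  · linarith only [h1, hα]
  · linarith only [hc2, hc1, hζ]
  · linarith only [hc2]

theorem Sys.pr_le_sum {S : Sys} {n : ℕ} {ι : Type*} [Fintype ι] (E : (Fin n → S.X) → Prop)
    (F : ι → (Fin n → S.X) → Prop) (h : ∀ x, E x → ∃ t, F t x) : S.pr E ≤ ∑ t, S.pr (F t) := by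
  classical
  have h1 : ∀ s : Finset ι, ∑ t ∈ s, S.pr (F t) =
      S.tav (n := n) (fun _ x => ∑ t ∈ s, ind (F t x)) := by
    intro s
    induction s using Finset.induction_on with
    | empty =>
      simp only [Finset.sum_empty]
      exact (Sys.tav_const 0).symm
    | insert t s hts ih =>
      rw [Finset.sum_insert hts, ih]
      obtain ⟨D, hD⟩ := Sys.exists_bdd (S := S) (fun x : Fin n → S.X => ∑ t ∈ s, ind (F t x))
      unfold Sys.pr
      rw [← Sys.tav_add (Sys.bdd_ind (F t)) hD]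
      refine Sys.tav_congr fun _ x => ?_
      rw [Finset.sum_insert hts]
  rw [h1 Finset.univ]
  obtain ⟨D, hD⟩ := Sys.exists_bdd (S := S) (fun x : Fin n → S.X => ∑ t, ind (F t x))
  refine Sys.tav_mono (Sys.bdd_ind E) hD fun _ x => ?_
  by_cases hE : E x
  · obtain ⟨t, ht⟩ := h x hE
    rw [ind_of hE, ← ind_of ht]
    exact Finset.single_le_sum (f := fun t => ind (F t x)) (fun t _ => ind_nonneg _)
      (Finset.mem_univ t)
  · rw [ind_of_not hE]
    exact Finset.sum_nonneg fun t _ => ind_nonneg _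

theorem exists_bin {K : ℕ} {r : ℝ} (hr : r ∈ Set.Icc (-1 : ℝ) 1) :
    ∃ k : Fin (K + 2), r ∈ Set.Ico (-1 + (k : ℕ) * (2 / ((K : ℝ) + 1)))
      (-1 + (k : ℕ) * (2 / ((K : ℝ) + 1)) + 2 / ((K : ℝ) + 1)) := by
  set h : ℝ := 2 / ((K : ℝ) + 1) with hh
  have hK : (0 : ℝ) < (K : ℝ) + 1 := by positivity
  have h0 : 0 < h := by positivity
  have h1 : 0 ≤ (r + 1) / h := div_nonneg (by linarith [hr.1]) h0.le
  have h2 : (r + 1) / h ≤ K + 1 := by
    rw [div_le_iff₀ h0, hh, mul_div_cancel₀ _ hK.ne']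
    linarith [hr.2]
  have h3 := Nat.floor_le h1
  have h4 := Nat.lt_floor_add_one ((r + 1) / h)
  have h5 : ⌊(r + 1) / h⌋₊ < K + 2 := by
    have : (⌊(r + 1) / h⌋₊ : ℝ) ≤ K + 1 := h3.trans h2
    have h6 : ⌊(r + 1) / h⌋₊ ≤ K + 1 := by exact_mod_cast this
    omega
  refine ⟨⟨⌊(r + 1) / h⌋₊, h5⟩, ?_, ?_⟩
  · rw [le_div_iff₀ h0] at h3
    simp only
    linarith only [h3]
  · rw [div_lt_iff₀ h0] at h4
    simp only
    linarith only [h4]

/-- **Ultrametricity** (Panchenko's theorem). -/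
theorem ultrametricity (hGG : ∀ p : ℕ, AsympGG U S (fun x => x ^ p)) {ε : ℝ} (hε : 0 < ε) :
    Tendsto (fun N => (S N).tav (n := 3) (fun _ x =>
      if (S N).R (x 1) (x 2) < min ((S N).R (x 0) (x 1)) ((S N).R (x 0) (x 2)) - ε
        then 1 else 0)) U (𝓝 0) := by
  refine tendsto_zero_of_not_ge _ (fun N => Sys.tav_nonneg fun _ x => by
    split_ifs <;> norm_num) fun p hp hcon => ?_
  have hmin : 0 < min (ε / 4) (ε ^ 2 / 64) := lt_min (by positivity) (by positivity)
  obtain ⟨K, hK⟩ := exists_nat_gt (2 / min (ε / 4) (ε ^ 2 / 64))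
  have hK1 : (0 : ℝ) < (K : ℝ) + 1 := by positivity
  set h : ℝ := 2 / ((K : ℝ) + 1) with hh
  have h0 : 0 < h := by positivity
  have hle : h ≤ min (ε / 4) (ε ^ 2 / 64) := by
    rw [hh, div_le_iff₀ hK1]
    rw [div_lt_iff₀ hmin] at hK
    linarith only [hmin, hK]
  have h1 : h ≤ ε / 4 := hle.trans (min_le_left _ _)
  have h2 : h ≤ ε ^ 2 / 64 := hle.trans (min_le_right _ _)
  let ι := Fin (K + 2) × Fin (K + 2) × Fin (K + 2)
  let lo : Fin (K + 2) → ℝ := fun k => -1 + (k : ℕ) * h
  let F : (N : ℕ) → ι → (Fin 3 → (S N).X) → Prop := fun N t x =>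
    (S N).R (x 1) (x 2) < min ((S N).R (x 0) (x 1)) ((S N).R (x 0) (x 2)) - ε ∧
      ((S N).R (x 0) (x 1) ∈ Set.Ico (lo t.1) (lo t.1 + h) ∧
        (S N).R (x 0) (x 2) ∈ Set.Ico (lo t.2.1) (lo t.2.1 + h) ∧
        (S N).R (x 1) (x 2) ∈ Set.Ico (lo t.2.2) (lo t.2.2 + h))
  set q : ℝ := p / (Fintype.card ι) with hq
  have hcard : (0 : ℝ) < Fintype.card ι := by
    have : 0 < Fintype.card ι := Fintype.card_pos_iff.mpr ⟨(0, 0, 0)⟩
    exact_mod_cast this
  have hq0 : 0 < q := by positivity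
  have hex : ∀ᶠ N in (U : Filter ℕ), ∃ t : ι, q ≤ (S N).pr (F N t) := by
    filter_upwards [hcon] with N hN
    have e1 : (S N).tav (n := 3) (fun _ x =>
      if (S N).R (x 1) (x 2) < min ((S N).R (x 0) (x 1)) ((S N).R (x 0) (x 2)) - ε
        then 1 else 0) = (S N).pr (n := 3) (fun x =>
        (S N).R (x 1) (x 2) < min ((S N).R (x 0) (x 1)) ((S N).R (x 0) (x 2)) - ε) :=
      Sys.tav_congr fun _ x => (ind_eq _).symm
    rw [e1] at hN
    have e2 := Sys.pr_le_sum (S := S N) (fun x : Fin 3 → (S N).X =>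
        (S N).R (x 1) (x 2) < min ((S N).R (x 0) (x 1)) ((S N).R (x 0) (x 2)) - ε) (F N)
      (fun x hx => by
        obtain ⟨k1, hk1⟩ := exists_bin (K := K) (Sys.R_mem (x 0) (x 1))
        obtain ⟨k2, hk2⟩ := exists_bin (K := K) (Sys.R_mem (x 0) (x 2))
        obtain ⟨k3, hk3⟩ := exists_bin (K := K) (Sys.R_mem (x 1) (x 2))
        exact ⟨(k1, k2, k3), hx, hk1, hk2, hk3⟩)
    by_contra hno
    push Not at hno
    have e3 : ∑ t, (S N).pr (F N t) < ∑ _t : ι, q :=
      Finset.sum_lt_sum_of_nonempty ⟨(0, 0, 0), Finset.mem_univ _⟩ fun t _ => hno t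
    rw [Finset.sum_const, Finset.card_univ, nsmul_eq_mul, hq, mul_div_cancel₀ _ hcard.ne'] at e3
    linarith only [hN, e2, e3]
  rw [Ultrafilter.eventually_exists_iff] at hex
  obtain ⟨⟨k1, k2, k3⟩, ht⟩ := hex
  obtain ⟨N, hN⟩ := ht.exists
  obtain ⟨x, hx⟩ := Sys.exists_of_pr_pos (lt_of_lt_of_le hq0 hN)
  obtain ⟨hb, hx1, hx2, hx3⟩ := hx
  have hm1 := min_le_left ((S N).R (x 0) (x 1)) ((S N).R (x 0) (x 2))
  have hm2 := min_le_right ((S N).R (x 0) (x 1)) ((S N).R (x 0) (x 2))
  have g1 : lo k3 < lo k1 + h - ε := by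
    have e1 := hx3.1
    have e2 := hx1.2
    simp only at e1 e2
    linarith only [e2, e1, hm1, hb]
  have g2 : lo k3 < lo k2 + h - ε := by
    have e1 := hx3.1
    have e2 := hx2.2
    simp only at e1 e2
    linarith only [e2, e1, hm2, hb]
  have hlo : ∀ k, -1 ≤ lo k := by
    intro k
    have : 0 ≤ ((k : ℕ) : ℝ) * h := by (clear * -; positivity)
    simp only [lo]
    linarith only [this]
  rcases le_total (lo k1) (lo k2) with hcase | hcase
  · refine um_core hGG hε h0 h1 h2 (hlo k2) hcase g1 hq0 ?_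
    filter_upwards [ht] with N hN
    exact hN.trans (Sys.pr_mono (S N) fun x hx => hx.2)
  · refine um_core hGG hε h0 h1 h2 (hlo k1) hcase g2 hq0 ?_
    filter_upwards [ht] with N hN
    refine hN.trans ?_
    let G : (Fin 3 → (S N).X) → Prop := fun x =>
      (S N).R (x 0) (x 1) ∈ Set.Ico (lo k1) (lo k1 + h) ∧
        (S N).R (x 0) (x 2) ∈ Set.Ico (lo k2) (lo k2 + h) ∧
        (S N).R (x 1) (x 2) ∈ Set.Ico (lo k3) (lo k3 + h)
    have e1 : (S N).pr (F N (k1, k2, k3)) ≤ (S N).pr G := Sys.pr_mono (S N) fun x hx => hx.2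
    have e2 : (S N).pr (fun x => G (fun k => x (Equiv.swap 1 2 k))) = (S N).pr G :=
      Sys.tav_comp (S := S N) (Equiv.swap (1 : Fin 3) 2) (Equiv.injective _)
        (fun _ x => ind (G x))
    rw [← e2] at e1
    refine e1.trans (Sys.pr_mono (S N) fun x hx => ?_)
    obtain ⟨g3, g4, g5⟩ := hx
    have s0 : (Equiv.swap (1 : Fin 3) 2) 0 = 0 := by decide
    have s1 : (Equiv.swap (1 : Fin 3) 2) 1 = 2 := by decide
    have s2 : (Equiv.swap (1 : Fin 3) 2) 2 = 1 := by decide
    simp only [s0, s1, s2] at g3 g4 g5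
    refine ⟨g4, g3, ?_⟩
    rw [Sys.R_symm]
    exact g5

end Vale.Agent.P157.Par
end

section

/-! Gibbs weights on a finite set, replica sums, Gaussian integration by parts. -/

open MeasureTheory ProbabilityTheory Filter Topology
open scoped RealInnerProductSpace

namespace Vale.Agent.P157.Par

section Gibbs

variable {X : Type*} [Fintype X]

/-- Gibbs weights with energy `E`. -/
noncomputable def gwt (E : X → ℝ) (x : X) : ℝ := Real.exp (E x) / ∑ y, Real.exp (E y)

set_option linter.unusedSectionVars false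

/-- Gibbs average. -/
noncomputable def gmean (E ψ : X → ℝ) : ℝ := ∑ x, gwt E x * ψ x

lemma gpart_pos [Nonempty X] (E : X → ℝ) : 0 < ∑ y, Real.exp (E y) :=
  Finset.sum_pos (fun _ _ => Real.exp_pos _) Finset.univ_nonempty

lemma gwt_nonneg (E : X → ℝ) (x : X) : 0 ≤ gwt E x :=
  div_nonneg (Real.exp_pos _).le (Finset.sum_nonneg fun _ _ => (Real.exp_pos _).le)

lemma sum_gwt [Nonempty X] (E : X → ℝ) : ∑ x, gwt E x = 1 := by
  unfold gwt
  rw [← Finset.sum_div, div_self (gpart_pos E).ne']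

lemma gwt_le_one [Nonempty X] (E : X → ℝ) (x : X) : gwt E x ≤ 1 := by
  rw [← sum_gwt E]
  exact Finset.single_le_sum (fun y _ => gwt_nonneg E y) (Finset.mem_univ x)

lemma abs_gmean_le [Nonempty X] (E ψ : X → ℝ) {C : ℝ} (h : ∀ x, |ψ x| ≤ C) :
    |gmean E ψ| ≤ C := by
  unfold gmean
  calc |∑ x, gwt E x * ψ x| ≤ ∑ x, |gwt E x * ψ x| := Finset.abs_sum_le_sum_abs _ _
    _ ≤ ∑ x, gwt E x * C := by
        refine Finset.sum_le_sum fun x _ => ?_
        rw [abs_mul, abs_of_nonneg (gwt_nonneg E x)]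
        exact mul_le_mul_of_nonneg_left (h x) (gwt_nonneg E x)
    _ = C := by rw [← Finset.sum_mul, sum_gwt, one_mul]

lemma hasDerivAt_gexp (E a : X → ℝ) (t : ℝ) (x : X) :
    HasDerivAt (fun t => Real.exp (E x + t * a x)) (Real.exp (E x + t * a x) * a x) t := by
  have h : HasDerivAt (fun t : ℝ => E x + t * a x) (a x) t := by
    simpa using ((hasDerivAt_id t).mul_const (a x)).const_add (E x)
  exact h.exp

lemma hasDerivAt_gpart (E a : X → ℝ) (t : ℝ) :
    HasDerivAt (fun t => ∑ y, Real.exp (E y + t * a y))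
      (∑ y, Real.exp (E y + t * a y) * a y) t :=
  HasDerivAt.fun_sum fun y _ => hasDerivAt_gexp E a t y

lemma gmean_eq (E ψ : X → ℝ) :
    gmean E ψ = (∑ x, Real.exp (E x) * ψ x) / ∑ y, Real.exp (E y) := by
  unfold gmean gwt
  rw [Finset.sum_div]
  exact Finset.sum_congr rfl fun x _ => by ring

lemma hasDerivAt_gwt [Nonempty X] (E a : X → ℝ) (t : ℝ) (x : X) :
    HasDerivAt (fun t => gwt (fun y => E y + t * a y) x)
      (gwt (fun y => E y + t * a y) x * (a x - gmean (fun y => E y + t * a y) a)) t := by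
  have h := (hasDerivAt_gexp E a t x).div (hasDerivAt_gpart E a t)
    (gpart_pos (fun y => E y + t * a y)).ne'
  have hZ := (gpart_pos (fun y => E y + t * a y)).ne'
  refine (h.congr_deriv ?_)
  rw [gmean_eq]
  unfold gwt
  field_simp

lemma hasDerivAt_glog [Nonempty X] (E a : X → ℝ) (t : ℝ) :
    HasDerivAt (fun t => Real.log (∑ y, Real.exp (E y + t * a y)))
      (gmean (fun y => E y + t * a y) a) t := by
  have h := (hasDerivAt_gpart E a t).log (gpart_pos (fun y => E y + t * a y)).ne'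
  rw [gmean_eq]
  exact h

lemma hasDerivAt_gmean [Nonempty X] (E a ψ : X → ℝ) (t : ℝ) :
    HasDerivAt (fun t => gmean (fun y => E y + t * a y) ψ)
      (gmean (fun y => E y + t * a y) (fun y => ψ y * a y) -
        gmean (fun y => E y + t * a y) ψ * gmean (fun y => E y + t * a y) a) t := by
  have h : HasDerivAt (fun t => gmean (fun y => E y + t * a y) ψ)
      (∑ x, gwt (fun y => E y + t * a y) x * (a x - gmean (fun y => E y + t * a y) a) * ψ x) t :=
    HasDerivAt.fun_sum fun x _ => (hasDerivAt_gwt E a t x).mul_const (ψ x)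
  refine h.congr_deriv ?_
  have h2 : gmean (fun y => E y + t * a y) ψ * gmean (fun y => E y + t * a y) a =
      ∑ x, gwt (fun y => E y + t * a y) x * ψ x * gmean (fun y => E y + t * a y) a := by
    rw [← Finset.sum_mul]; rfl
  rw [h2]
  unfold gmean
  rw [← Finset.sum_sub_distrib]
  exact Finset.sum_congr rfl fun x _ => by ring

lemma hasDerivAt_gprod [Nonempty X] (E a : X → ℝ) (t : ℝ) {n : ℕ} (x : Fin n → X) :
    HasDerivAt (fun t => ∏ i, gwt (fun y => E y + t * a y) (x i))
      ((∏ i, gwt (fun y => E y + t * a y) (x i)) *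
        ∑ i, (a (x i) - gmean (fun y => E y + t * a y) a)) t := by
  have h := HasDerivAt.fun_finsetProd (u := Finset.univ)
    (f := fun i (t : ℝ) => gwt (fun y => E y + t * a y) (x i))
    (f' := fun i => gwt (fun y => E y + t * a y) (x i) *
      (a (x i) - gmean (fun y => E y + t * a y) a)) (x := t)
    (fun i _ => hasDerivAt_gwt E a t (x i))
  refine h.congr_deriv ?_
  rw [Finset.mul_sum]
  refine Finset.sum_congr rfl fun i hi => ?_
  rw [← Finset.mul_prod_erase _ _ (Finset.mem_univ i)]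
  simp only [smul_eq_mul]
  ring

end Gibbs

section Replica

variable {X : Type*} [Fintype X]

lemma rep_one {w : X → ℝ} (hw : ∑ x, w x = 1) (n : ℕ) :
    ∑ x : Fin n → X, ∏ j, w (x j) = 1 := by
  classical
  rw [← Fintype.piFinset_univ, ← Finset.prod_univ_sum]
  simp [hw]

lemma rep_marg {w : X → ℝ} (hw : ∑ x, w x = 1) {n : ℕ} (i : Fin n) (G : X → ℝ) :
    ∑ x : Fin n → X, (∏ j, w (x j)) * G (x i) = ∑ y, w y * G y := by
  classical
  have h1 : ∀ x : Fin n → X, (∏ j, w (x j)) * G (x i) =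
      ∏ j, (fun (j : Fin n) (y : X) => w y * (if j = i then G y else 1)) j (x j) := by
    intro x
    rw [Finset.prod_mul_distrib]
    congr 1
    rw [Finset.prod_ite_eq' Finset.univ i (fun j => G (x j))]
    simp
  have h3 := Finset.prod_univ_sum (fun _ : Fin n => (Finset.univ : Finset X))
    (fun (j : Fin n) (y : X) => w y * (if j = i then G y else 1))
  rw [Fintype.piFinset_univ] at h3
  rw [Finset.sum_congr rfl fun x _ => h1 x, ← h3,
    ← Finset.mul_prod_erase _ _ (Finset.mem_univ i)]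
  have h2 : ∏ j ∈ Finset.univ.erase i, ∑ y, w y * (if j = i then G y else 1) = 1 := by
    refine Finset.prod_eq_one fun j hj => ?_
    simp [Finset.ne_of_mem_erase hj, hw]
  rw [h2]
  simp

lemma rep_snoc (w : X → ℝ) {n : ℕ} (F : (Fin (n + 1) → X) → ℝ) :
    ∑ x : Fin (n + 1) → X, (∏ j, w (x j)) * F x =
      ∑ x : Fin n → X, (∏ j, w (x j)) * ∑ y, w y * F (Fin.snoc x y) := by
  rw [← (Fin.snocEquiv (fun _ : Fin (n + 1) => X)).sum_comp, Fintype.sum_prod_type,
    Finset.sum_comm]
  refine Finset.sum_congr rfl fun x _ => ?_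
  rw [Finset.mul_sum]
  refine Finset.sum_congr rfl fun y _ => ?_
  rw [Fin.prod_univ_castSucc]
  simp only [Fin.snocEquiv, Equiv.coe_fn_mk, Fin.snoc_castSucc, Fin.snoc_last]
  ring

end Replica

end Vale.Agent.P157.Par
end

section

/-! The perturbed system and Gaussian integration by parts for it. -/

open MeasureTheory ProbabilityTheory Filter Topology
open scoped RealInnerProductSpace

namespace Vale.Agent.P157.Par

set_option linter.unusedSectionVars false

section Gen

variable {X : Type*} [Fintype X] {ι : Type*} [Fintype ι]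

/-- The energy with Gaussian perturbation with coefficients `a`. -/
noncomputable def gen (H : X → ℝ) (a : ι → X → ℝ) (g : ι → ℝ) (x : X) : ℝ :=
  H x + ∑ e, g e * a e x

lemma gen_update [DecidableEq ι] (H : X → ℝ) (a : ι → X → ℝ) (g : ι → ℝ) (e : ι) (y : ℝ) :
    gen H a (Function.update g e y) =
      fun z => gen H a (Function.update g e 0) z + y * a e z := by
  funext z
  unfold gen
  rw [← Finset.add_sum_erase Finset.univ (fun i => Function.update g e y i * a i z)
      (Finset.mem_univ e),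
    ← Finset.add_sum_erase Finset.univ (fun i => Function.update g e 0 i * a i z)
      (Finset.mem_univ e)]
  have h : ∀ t : ℝ, ∑ i ∈ Finset.univ.erase e, Function.update g e t i * a i z =
      ∑ i ∈ Finset.univ.erase e, g i * a i z := fun t =>
    Finset.sum_congr rfl fun i hi => by
      rw [Function.update_of_ne (Finset.ne_of_mem_erase hi)]
  rw [h, h]
  simp only [Function.update_self]
  ring

variable {Ω : Type*} [MeasurableSpace Ω]

lemma measurable_gen {H : Ω → X → ℝ} (hH : ∀ x, Measurable fun ω => H ω x) (a : ι → X → ℝ)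
    (x : X) : Measurable fun z : Ω × (ι → ℝ) => gen (H z.1) a z.2 x := by
  unfold gen
  refine ((hH x).comp measurable_fst).add ?_
  refine Finset.measurable_sum _ fun e _ => ?_
  exact ((measurable_pi_apply e).comp measurable_snd).mul_const _

lemma measurable_gwt_gen {H : Ω → X → ℝ} (hH : ∀ x, Measurable fun ω => H ω x) (a : ι → X → ℝ)
    (x : X) : Measurable fun z : Ω × (ι → ℝ) => gwt (gen (H z.1) a z.2) x := by
  unfold gwt
  exact ((measurable_gen hH a x).exp).div
    (Finset.measurable_sum _ fun y _ => (measurable_gen hH a y).exp)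

lemma measurable_gmean_gen {H : Ω → X → ℝ} (hH : ∀ x, Measurable fun ω => H ω x)
    (a : ι → X → ℝ) (ψ : X → ℝ) :
    Measurable fun z : Ω × (ι → ℝ) => gmean (gen (H z.1) a z.2) ψ := by
  unfold gmean
  exact Finset.measurable_sum _ fun y _ => (measurable_gwt_gen hH a y).mul_const _

lemma prod_gwt_le [Nonempty X] {n : ℕ} (E : X → ℝ) (x : Fin n → X) :
    |∏ i, gwt E (x i)| ≤ 1 := by
  rw [abs_of_nonneg (Finset.prod_nonneg fun i _ => gwt_nonneg E _)]
  exact Finset.prod_le_one (fun i _ => gwt_nonneg E _) fun i _ => gwt_le_one E _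

lemma abs_sum_sub_le [Nonempty X] {n : ℕ} (E : X → ℝ) (x : Fin n → X) (ψ : X → ℝ) :
    |∑ i, (ψ (x i) - gmean E ψ)| ≤ n * (2 * ∑ y, |ψ y|) := by
  have hb : ∀ y, |ψ y| ≤ ∑ y, |ψ y| := fun y =>
    Finset.single_le_sum (f := fun y => |ψ y|) (fun _ _ => abs_nonneg _) (Finset.mem_univ y)
  calc |∑ i, (ψ (x i) - gmean E ψ)| ≤ ∑ i, |ψ (x i) - gmean E ψ| :=
        Finset.abs_sum_le_sum_abs _ _
    _ ≤ ∑ _i : Fin n, (2 * ∑ y, |ψ y|) := by
        refine Finset.sum_le_sum fun i _ => ?_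
        have h1 := hb (x i)
        have h2 := abs_gmean_le E ψ hb
        have h3 := abs_sub (ψ (x i)) (gmean E ψ)
        linarith
    _ = n * (2 * ∑ y, |ψ y|) := by simp

variable [Nonempty X] [DecidableEq ι]

/-- Gaussian integration by parts for fixed base disorder. -/
lemma gibp_fixed (H : X → ℝ) (a : ι → X → ℝ) (e : ι) {n : ℕ} (x : Fin n → X) :
    ∫ g, g e * ∏ i, gwt (gen H a g) (x i) ∂(P367.GT.gM ι) =
      ∫ g, (∏ i, gwt (gen H a g) (x i)) * ∑ i, (a e (x i) - gmean (gen H a g) (a e))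
        ∂(P367.GT.gM ι) := by
  have hg : ∀ y, Measurable fun g : ι → ℝ => gen H a g y := fun y => by
    unfold gen
    exact measurable_const.add
      (Finset.measurable_sum _ fun e _ => (measurable_pi_apply e).mul_const _)
  have hm : ∀ y, Measurable fun g : ι → ℝ => gwt (gen H a g) y := fun y => by
    unfold gwt
    exact ((hg y).exp).div (Finset.measurable_sum _ fun y _ => (hg y).exp)
  have hmm : Measurable fun g : ι → ℝ => gmean (gen H a g) (a e) := by
    unfold gmean
    exact Finset.measurable_sum _ fun y _ => (hm y).mul_const _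
  refine P367.GT.stein_pi e (fun g => ∏ i, gwt (gen H a g) (x i))
    (fun g => (∏ i, gwt (gen H a g) (x i)) * ∑ i, (a e (x i) - gmean (gen H a g) (a e)))
    (1 + n * (2 * ∑ y, |a e y|)) ?_ ?_ ?_ ?_ ?_
  · exact Finset.measurable_prod _ fun i _ => hm (x i)
  · exact (Finset.measurable_prod _ fun i _ => hm (x i)).mul
      (Finset.measurable_sum _ fun i _ => measurable_const.sub hmm)
  · intro J t
    have h := hasDerivAt_gprod (gen H a (Function.update J e 0)) (a e) t x
    have h' : (fun y => ∏ i, gwt (gen H a (Function.update J e y)) (x i)) =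
        fun y => ∏ i, gwt (fun z => gen H a (Function.update J e 0) z + y * a e z) (x i) := by
      funext y
      rw [gen_update H a J e y]
    rw [gen_update H a J e t, h']
    exact h
  · intro J
    have h1 := prod_gwt_le (gen H a J) x
    have h2 : 0 ≤ (n : ℝ) * (2 * ∑ y, |a e y|) := by positivity
    linarith
  · intro J
    rw [abs_mul]
    have h1 := prod_gwt_le (gen H a J) x
    have h2 := abs_sum_sub_le (gen H a J) x (a e)
    have h3 : 0 ≤ (n : ℝ) * (2 * ∑ y, |a e y|) := by positivity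
    calc |∏ i, gwt (gen H a J) (x i)| * |∑ i, (a e (x i) - gmean (gen H a J) (a e))|
        ≤ 1 * (n * (2 * ∑ y, |a e y|)) := mul_le_mul h1 h2 (abs_nonneg _) zero_le_one
      _ ≤ _ := by linarith

lemma integrable_coord (P : Measure Ω) [IsProbabilityMeasure P] (e : ι) :
    Integrable (fun z : Ω × (ι → ℝ) => z.2 e) (P.prod (P367.GT.gM ι)) := by
  have hJi : Integrable (fun J : ι → ℝ => J e) (P367.GT.gM ι) :=
    integrable_comp_eval (μ := fun _ : ι => gaussianReal 0 1) (i := e) (f := fun x => x)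
      ((memLp_id_gaussianReal 1).integrable le_rfl)
  exact hJi.comp_snd P

lemma integrable_bdd {α : Type*} [MeasurableSpace α] (μ : Measure α) [IsFiniteMeasure μ]
    {f : α → ℝ} (hf : Measurable f) (C : ℝ) (hC : ∀ z, |f z| ≤ C) : Integrable f μ :=
  Integrable.of_bound hf.aestronglyMeasurable C
    (Filter.Eventually.of_forall fun z => by rw [Real.norm_eq_abs]; exact hC z)

lemma integrable_mul_bdd {α : Type*} [MeasurableSpace α] {μ : Measure α}
    {f g : α → ℝ} (hg : Integrable g μ) (hf : Measurable f) (C : ℝ) (hC : ∀ z, |f z| ≤ C) :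
    Integrable (fun z => g z * f z) μ := by
  have := hg.bdd_mul (c := C) (f := f) hf.aestronglyMeasurable
    (Filter.Eventually.of_forall fun J => by rw [Real.norm_eq_abs]; exact hC J)
  refine this.congr (Filter.Eventually.of_forall fun J => ?_)
  simp only [mul_comm]

/-- Gaussian integration by parts. -/
lemma gibp_prod (P : Measure Ω) [IsProbabilityMeasure P] {H : Ω → X → ℝ}
    (hH : ∀ x, Measurable fun ω => H ω x) (a : ι → X → ℝ) (e : ι) {n : ℕ} (x : Fin n → X)
    {f : Ω → ℝ} (hf : Measurable f) {C : ℝ} (hC : ∀ ω, |f ω| ≤ C) :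
    ∫ z, z.2 e * ((∏ i, gwt (gen (H z.1) a z.2) (x i)) * f z.1) ∂(P.prod (P367.GT.gM ι)) =
      ∫ z, ((∏ i, gwt (gen (H z.1) a z.2) (x i)) * f z.1) *
        ∑ i, (a e (x i) - gmean (gen (H z.1) a z.2) (a e)) ∂(P.prod (P367.GT.gM ι)) := by
  have hC0 : 0 ≤ C ∨ IsEmpty Ω := by
    by_cases h : Nonempty Ω
    · obtain ⟨ω⟩ := h
      exact Or.inl ((abs_nonneg _).trans (hC ω))
    · exact Or.inr (not_nonempty_iff.1 h)
  have hW : Measurable fun z : Ω × (ι → ℝ) =>
      (∏ i, gwt (gen (H z.1) a z.2) (x i)) * f z.1 :=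
    (Finset.measurable_prod _ fun i _ => measurable_gwt_gen hH a (x i)).mul
      (hf.comp measurable_fst)
  have hWb : ∀ z : Ω × (ι → ℝ), |(∏ i, gwt (gen (H z.1) a z.2) (x i)) * f z.1| ≤ C := by
    intro z
    rw [abs_mul]
    calc _ ≤ 1 * C := mul_le_mul (prod_gwt_le _ _) (hC _) (abs_nonneg _) zero_le_one
      _ = C := one_mul C
  have hi1 : Integrable (fun z : Ω × (ι → ℝ) =>
      z.2 e * ((∏ i, gwt (gen (H z.1) a z.2) (x i)) * f z.1)) (P.prod (P367.GT.gM ι)) :=
    integrable_mul_bdd (integrable_coord P e) hW C hWb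
  have hi2 : Integrable (fun z : Ω × (ι → ℝ) =>
      ((∏ i, gwt (gen (H z.1) a z.2) (x i)) * f z.1) *
        ∑ i, (a e (x i) - gmean (gen (H z.1) a z.2) (a e))) (P.prod (P367.GT.gM ι)) := by
    refine integrable_mul_bdd (integrable_bdd _ hW C hWb) ?_ (n * (2 * ∑ y, |a e y|))
      fun z => abs_sum_sub_le _ x (a e)
    exact Finset.measurable_sum _ fun i _ => measurable_const.sub (measurable_gmean_gen hH a _)
  rw [integral_prod _ hi1, integral_prod _ hi2]
  refine integral_congr_ae (Filter.Eventually.of_forall fun ω => ?_)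
  have h := gibp_fixed (H ω) a e x
  calc ∫ y, y e * ((∏ i, gwt (gen (H ω) a y) (x i)) * f ω) ∂(P367.GT.gM ι)
      = (∫ y, y e * (∏ i, gwt (gen (H ω) a y) (x i)) ∂(P367.GT.gM ι)) * f ω := by
        rw [← integral_mul_const]
        refine integral_congr_ae (Filter.Eventually.of_forall fun y => ?_)
        simp only
        ring
    _ = _ := by
        rw [h, ← integral_mul_const]
        refine integral_congr_ae (Filter.Eventually.of_forall fun y => ?_)
        simp only
        ring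

end Gen

end Vale.Agent.P157.Par
end

section

/-! Calculus of replica averages; the perturbed systems; the Ghirlanda-Guerra identity from
Gaussian integration by parts. -/

open MeasureTheory ProbabilityTheory Filter Topology
open scoped RealInnerProductSpace

namespace Vale.Agent.P157.Par

set_option linter.unusedSectionVars false

section Calculus

variable {Ω X : Type*} [MeasurableSpace Ω] [Fintype X]

/-- Random probability weights. -/
structure IsWt (w : Ω → X → ℝ) : Prop where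
  meas : ∀ x, Measurable fun ω => w ω x
  nn : ∀ ω x, 0 ≤ w ω x
  one : ∀ ω, ∑ x, w ω x = 1

/-- The replica average. -/
noncomputable def rav (μ : Measure Ω) (w : Ω → X → ℝ) {n : ℕ} (F : Ω → (Fin n → X) → ℝ) : ℝ :=
  ∫ ω, ∑ x : Fin n → X, (∏ i, w ω (x i)) * F ω x ∂μ

variable {μ : Measure Ω} [IsProbabilityMeasure μ] {w : Ω → X → ℝ} (hw : IsWt w) {n : ℕ}

include hw

lemma IsWt.le_one (ω : Ω) (x : X) : w ω x ≤ 1 := by
  rw [← hw.one ω]
  exact Finset.single_le_sum (fun y _ => hw.nn ω y) (Finset.mem_univ x)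

lemma IsWt.prod_nonneg (ω : Ω) (x : Fin n → X) : 0 ≤ ∏ i, w ω (x i) :=
  Finset.prod_nonneg fun _ _ => hw.nn ω _

lemma IsWt.prod_le_one (ω : Ω) (x : Fin n → X) : |∏ i, w ω (x i)| ≤ 1 := by
  rw [abs_of_nonneg (hw.prod_nonneg ω x)]
  exact Finset.prod_le_one (fun _ _ => hw.nn ω _) fun _ _ => hw.le_one ω _

lemma IsWt.prod_meas (x : Fin n → X) : Measurable fun ω => ∏ i, w ω (x i) :=
  Finset.measurable_prod _ fun i _ => hw.meas (x i)

lemma IsWt.int {F : Ω → (Fin n → X) → ℝ} (hF : ∀ x, Integrable (fun ω => F ω x) μ)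
    (x : Fin n → X) : Integrable (fun ω => (∏ i, w ω (x i)) * F ω x) μ := by
  have h := integrable_mul_bdd (hF x) (hw.prod_meas x) 1 (fun ω => hw.prod_le_one ω x)
  exact h.congr (Filter.Eventually.of_forall fun ω => mul_comm _ _)

lemma IsWt.int_sum {F : Ω → (Fin n → X) → ℝ} (hF : ∀ x, Integrable (fun ω => F ω x) μ) :
    Integrable (fun ω => ∑ x : Fin n → X, (∏ i, w ω (x i)) * F ω x) μ :=
  integrable_finsetSum _ fun x _ => hw.int hF x

lemma IsWt.rav_eq {F : Ω → (Fin n → X) → ℝ} (hF : ∀ x, Integrable (fun ω => F ω x) μ) :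
    rav μ w F = ∑ x : Fin n → X, ∫ ω, (∏ i, w ω (x i)) * F ω x ∂μ := by
  unfold rav
  exact integral_finsetSum _ fun x _ => hw.int hF x

lemma IsWt.rav_add {F G : Ω → (Fin n → X) → ℝ} (hF : ∀ x, Integrable (fun ω => F ω x) μ)
    (hG : ∀ x, Integrable (fun ω => G ω x) μ) :
    rav μ w (fun ω x => F ω x + G ω x) = rav μ w F + rav μ w G := by
  unfold rav
  rw [← integral_add (hw.int_sum hF) (hw.int_sum hG)]
  congr 1
  funext ω
  rw [← Finset.sum_add_distrib]
  exact Finset.sum_congr rfl fun x _ => by ring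

lemma IsWt.rav_sub {F G : Ω → (Fin n → X) → ℝ} (hF : ∀ x, Integrable (fun ω => F ω x) μ)
    (hG : ∀ x, Integrable (fun ω => G ω x) μ) :
    rav μ w (fun ω x => F ω x - G ω x) = rav μ w F - rav μ w G := by
  unfold rav
  rw [← integral_sub (hw.int_sum hF) (hw.int_sum hG)]
  congr 1
  funext ω
  rw [← Finset.sum_sub_distrib]
  exact Finset.sum_congr rfl fun x _ => by ring

omit hw [IsProbabilityMeasure μ] in
lemma rav_const_mul (c : ℝ) (F : Ω → (Fin n → X) → ℝ) :
    rav μ w (fun ω x => c * F ω x) = c * rav μ w F := by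
  unfold rav
  rw [← integral_const_mul]
  congr 1
  funext ω
  rw [Finset.mul_sum]
  exact Finset.sum_congr rfl fun x _ => by ring

lemma IsWt.rav_sum {κ : Type*} (s : Finset κ) {F : κ → Ω → (Fin n → X) → ℝ}
    (hF : ∀ k ∈ s, ∀ x, Integrable (fun ω => F k ω x) μ) :
    rav μ w (fun ω x => ∑ k ∈ s, F k ω x) = ∑ k ∈ s, rav μ w (F k) := by
  unfold rav
  rw [← integral_finsetSum _ fun k hk => hw.int_sum (hF k hk)]
  congr 1
  funext ω
  rw [Finset.sum_comm]
  exact Finset.sum_congr rfl fun x _ => by rw [Finset.mul_sum]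

lemma IsWt.rav_mono {F G : Ω → (Fin n → X) → ℝ} (hF : ∀ x, Integrable (fun ω => F ω x) μ)
    (hG : ∀ x, Integrable (fun ω => G ω x) μ) (h : ∀ ω x, F ω x ≤ G ω x) :
    rav μ w F ≤ rav μ w G := by
  unfold rav
  refine integral_mono (hw.int_sum hF) (hw.int_sum hG) fun ω => ?_
  exact Finset.sum_le_sum fun x _ => mul_le_mul_of_nonneg_left (h ω x) (hw.prod_nonneg ω x)

lemma IsWt.rav_abs_le {F : Ω → (Fin n → X) → ℝ} (hF : ∀ x, Integrable (fun ω => F ω x) μ) :
    |rav μ w F| ≤ rav μ w (fun ω x => |F ω x|) := by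
  rw [abs_le]
  constructor
  · have h := hw.rav_mono (μ := μ) (F := fun ω x => (-1) * |F ω x|) (G := F)
      (fun x => ((hF x).abs).const_mul _) hF (fun ω x => by
        have := neg_abs_le (F ω x); linarith)
    rw [rav_const_mul] at h
    linarith
  · exact hw.rav_mono hF (fun x => (hF x).abs) fun ω x => le_abs_self _

lemma IsWt.rav_const (c : ℝ) : rav μ w (n := n) (fun _ _ => c) = c := by
  unfold rav
  have h : ∀ ω, ∑ x : Fin n → X, (∏ i, w ω (x i)) * c = c := fun ω => by
    rw [← Finset.sum_mul, rep_one (hw.one ω), one_mul]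
  simp [h]

lemma IsWt.rav_marg (i : Fin n) (G : Ω → X → ℝ) :
    rav μ w (n := n) (fun ω x => G ω (x i)) = ∫ ω, ∑ y, w ω y * G ω y ∂μ := by
  unfold rav
  congr 1
  funext ω
  exact rep_marg (hw.one ω) i (G ω)

omit hw [IsProbabilityMeasure μ] in
lemma rav_snoc (F : Ω → (Fin (n + 1) → X) → ℝ) :
    rav μ w F = rav μ w (n := n) (fun ω x => ∑ y, w ω y * F ω (Fin.snoc x y)) := by
  unfold rav
  congr 1
  funext ω
  exact rep_snoc (w ω) (F ω)

omit hw [IsProbabilityMeasure μ] in
lemma rav_congr {F G : Ω → (Fin n → X) → ℝ} (h : ∀ ω x, F ω x = G ω x) :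
    rav μ w F = rav μ w G := by
  have : F = G := by funext ω x; exact h ω x
  rw [this]

end Calculus

/-- A random Hamiltonian `H` on a finite set whose points carry unit feature vectors. -/
structure Base where
  Ω : Type
  mΩ : MeasurableSpace Ω
  P : Measure Ω
  hP : IsProbabilityMeasure P
  X : Type
  fX : Fintype X
  nX : Nonempty X
  H : Ω → X → ℝ
  hH : ∀ x, Measurable fun ω => H ω x
  K : ℝ
  hK : ∀ ω x, |H ω x| ≤ K
  d : ℕ
  φ : X → EuclideanSpace ℝ (Fin d)
  hφ : ∀ x, ‖φ x‖ = 1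

attribute [instance] Base.mΩ Base.hP Base.fX Base.nX

/-- The system obtained by adding the Gaussian term with coefficients `a`. -/
noncomputable def Base.gsys (B : Base) {ι : Type} [Fintype ι] (a : ι → B.X → ℝ) : Sys where
  Ω := B.Ω × (ι → ℝ)
  mΩ := inferInstance
  P := B.P.prod (P367.GT.gM ι)
  hP := inferInstance
  T := B.Ω
  mT := B.mΩ
  π := Prod.fst
  hπ := measurable_fst
  X := B.X
  fX := B.fX
  w := fun z x => gwt (gen (B.H z.1) a z.2) x
  hw := fun x => measurable_gwt_gen B.hH a x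
  w0 := fun _ _ => gwt_nonneg _ _
  w1 := fun _ => sum_gwt _
  d := B.d
  φ := B.φ
  hφ := B.hφ

/-- The index set of the Gaussian coordinates of the perturbation. -/
abbrev GI (P d : ℕ) : Type := Σ p : Fin P, (Fin ((p : ℕ) + 1) → Fin d)

/-- The Gaussian process with covariance `R^(p+1)`. -/
noncomputable def Base.hh (B : Base) {P : ℕ} (p : Fin P) (g : GI P B.d → ℝ) (x : B.X) : ℝ :=
  ∑ k : Fin ((p : ℕ) + 1) → Fin B.d, g ⟨p, k⟩ * ∏ r, B.φ x (k r)

/-- The coefficients of the perturbation. -/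
noncomputable def Base.coef (B : Base) (P : ℕ) (s : ℝ) (u : Fin P → ℝ) (e : GI P B.d)
    (x : B.X) : ℝ :=
  s * u e.1 * (1 / 2) ^ ((e.1 : ℕ) + 1) * ∏ r, B.φ x (e.2 r)

/-- The perturbed system. -/
noncomputable def Base.sys (B : Base) (P : ℕ) (s : ℝ) (u : Fin P → ℝ) : Sys :=
  B.gsys (B.coef P s u)

/-- The energy of the perturbed system. -/
lemma Base.gen_eq (B : Base) (P : ℕ) (s : ℝ) (u : Fin P → ℝ) (ω : B.Ω) (g : GI P B.d → ℝ)
    (x : B.X) : gen (B.H ω) (B.coef P s u) g x =
      B.H ω x + s * ∑ p : Fin P, u p * (1 / 2) ^ ((p : ℕ) + 1) * B.hh p g x := by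
  unfold gen Base.coef Base.hh
  rw [Fintype.sum_sigma, Finset.mul_sum]
  congr 1
  refine Finset.sum_congr rfl fun p _ => ?_
  rw [Finset.mul_sum, Finset.mul_sum]
  exact Finset.sum_congr rfl fun k _ => by ring

/-- The weights of the perturbed system. -/
lemma Base.sys_w (B : Base) (P : ℕ) (s : ℝ) (u : Fin P → ℝ) (z : B.Ω × (GI P B.d → ℝ))
    (x : B.X) : (B.sys P s u).w z x =
      Real.exp (B.H z.1 x + s * ∑ p : Fin P, u p * (1 / 2) ^ ((p : ℕ) + 1) * B.hh p z.2 x) /
      ∑ y, Real.exp (B.H z.1 y + s * ∑ p : Fin P, u p * (1 / 2) ^ ((p : ℕ) + 1) * B.hh p z.2 y) := by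
  simp only [← B.gen_eq]
  rfl

/-- The weights of the perturbed system, as a function on the product. -/
noncomputable def Base.wt (B : Base) {ι : Type} [Fintype ι] (a : ι → B.X → ℝ)
    (z : B.Ω × (ι → ℝ)) (x : B.X) : ℝ :=
  gwt (gen (B.H z.1) a z.2) x

lemma Base.isWt (B : Base) {ι : Type} [Fintype ι] (a : ι → B.X → ℝ) : IsWt (B.wt a) where
  meas := fun x => measurable_gwt_gen B.hH a x
  nn := fun _ _ => gwt_nonneg _ _
  one := fun _ => sum_gwt _

lemma Base.gsys_av (B : Base) {ι : Type} [Fintype ι] (a : ι → B.X → ℝ) {n : ℕ}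
    (F : B.Ω × (ι → ℝ) → (Fin n → B.X) → ℝ) :
    (B.gsys a).av F = rav (B.P.prod (P367.GT.gM ι)) (B.wt a) F := rfl

lemma Base.sys_av (B : Base) (P : ℕ) (s : ℝ) (u : Fin P → ℝ) {n : ℕ}
    (F : B.Ω × (GI P B.d → ℝ) → (Fin n → B.X) → ℝ) :
    (B.sys P s u).av F =
      rav (B.P.prod (P367.GT.gM (GI P B.d))) (B.wt (B.coef P s u)) F := rfl

lemma Base.inner_pow (B : Base) (p : ℕ) (x y : B.X) :
    ∑ k : Fin (p + 1) → Fin B.d, (∏ r, B.φ x (k r)) * (∏ r, B.φ y (k r)) =
      ⟪B.φ x, B.φ y⟫ ^ (p + 1) := by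
  have h : ⟪B.φ x, B.φ y⟫ = ∑ i, B.φ x i * B.φ y i := by
    rw [PiLp.inner_apply]
    exact Finset.sum_congr rfl fun i _ => by simp [mul_comm]
  rw [h, Fintype.sum_pow]
  exact Finset.sum_congr rfl fun k _ => by rw [Finset.prod_mul_distrib]

end Vale.Agent.P157.Par
end

section

/-! The Ghirlanda-Guerra defect is at most the fluctuation of the perturbation. -/

open MeasureTheory ProbabilityTheory Filter Topology
open scoped RealInnerProductSpace

namespace Vale.Agent.P157.Par

set_option linter.unusedSectionVars false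

namespace Base

variable (B : Base)

/-- The joint law of the base disorder and of the Gaussian coordinates. -/
noncomputable abbrev jl (ι : Type) [Fintype ι] : Measure (B.Ω × (ι → ℝ)) :=
  B.P.prod (P367.GT.gM ι)

lemma gibp_av {ι : Type} [Fintype ι] [DecidableEq ι] (a : ι → B.X → ℝ) (e : ι) {n : ℕ}
    {f : B.Ω → (Fin n → B.X) → ℝ} (hf : ∀ x, Measurable fun ω => f ω x) {C : ℝ}
    (hC : ∀ ω x, |f ω x| ≤ C) :
    rav (B.jl ι) (B.wt a) (n := n) (fun z x => z.2 e * f z.1 x) =
      rav (B.jl ι) (B.wt a) (n := n) (fun z x => f z.1 x *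
        ∑ j, (a e (x j) - gmean (gen (B.H z.1) a z.2) (a e))) := by
  have hC0 : ∀ x : Fin n → B.X, ∀ ω, |f ω x| ≤ C := fun x ω => hC ω x
  have hf' : ∀ x : Fin n → B.X, Measurable fun z : B.Ω × (ι → ℝ) => f z.1 x := fun x =>
    (hf x).comp measurable_fst
  have h1 : ∀ x : Fin n → B.X, Integrable (fun z : B.Ω × (ι → ℝ) => z.2 e * f z.1 x)
      (B.jl ι) := fun x =>
    integrable_mul_bdd (integrable_coord B.P e) (hf' x) C fun z => hC0 x _
  have h2 : ∀ x : Fin n → B.X, Integrable (fun z : B.Ω × (ι → ℝ) => f z.1 x *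
      ∑ j, (a e (x j) - gmean (gen (B.H z.1) a z.2) (a e))) (B.jl ι) := by
    intro x
    refine integrable_mul_bdd (integrable_bdd _ (hf' x) C fun z => hC0 x _) ?_
      (n * (2 * ∑ y, |a e y|)) fun z => abs_sum_sub_le _ x (a e)
    exact Finset.measurable_sum _ fun i _ => measurable_const.sub (measurable_gmean_gen B.hH a _)
  rw [(B.isWt a).rav_eq h1, (B.isWt a).rav_eq h2]
  refine Finset.sum_congr rfl fun x _ => ?_
  have h := gibp_prod B.P B.hH a e x (hf x) (hC0 x)
  calc _ = ∫ z, z.2 e * ((∏ i, gwt (gen (B.H z.1) a z.2) (x i)) * f z.1 x)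
        ∂(B.jl ι) := by
        refine integral_congr_ae (Filter.Eventually.of_forall fun z => ?_)
        show (∏ i, gwt (gen (B.H z.1) a z.2) (x i)) * (z.2 e * f z.1 x) = _
        ring
    _ = _ := by
        rw [h]
        refine integral_congr_ae (Filter.Eventually.of_forall fun z => ?_)
        show _ = (∏ i, gwt (gen (B.H z.1) a z.2) (x i)) * (f z.1 x * _)
        ring

/-- The monomials of the features. -/
noncomputable def mono (p : ℕ) (k : Fin (p + 1) → Fin B.d) (x : B.X) : ℝ :=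
  ∏ r, B.φ x (k r)

lemma mono_inner (p : ℕ) (x y : B.X) :
    ∑ k : Fin (p + 1) → Fin B.d, B.mono p k x * B.mono p k y = ⟪B.φ x, B.φ y⟫ ^ (p + 1) :=
  B.inner_pow p x y

lemma abs_phi_le (x : B.X) (i : Fin B.d) : |B.φ x i| ≤ 1 := by
  have h := PiLp.norm_apply_le (B.φ x) i
  rwa [B.hφ, Real.norm_eq_abs] at h

lemma abs_mono_le (p : ℕ) (k : Fin (p + 1) → Fin B.d) (x : B.X) : |B.mono p k x| ≤ 1 := by
  unfold mono
  rw [Finset.abs_prod]
  exact Finset.prod_le_one (fun _ _ => abs_nonneg _) fun _ _ => B.abs_phi_le _ _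

lemma abs_inner_le (x y : B.X) : |⟪B.φ x, B.φ y⟫| ≤ 1 := by
  have h := abs_real_inner_le_norm (B.φ x) (B.φ y)
  rwa [B.hφ, B.hφ, one_mul] at h

lemma abs_inner_pow_le (x y : B.X) (p : ℕ) : |⟪B.φ x, B.φ y⟫ ^ p| ≤ 1 := by
  rw [abs_pow]
  exact pow_le_one₀ (abs_nonneg _) (B.abs_inner_le x y)

variable (P : ℕ) (s : ℝ) (u : Fin P → ℝ)

/-- The coefficient of the `p`-th process. -/
noncomputable def cc (_ : Base) {P : ℕ} (s : ℝ) (u : Fin P → ℝ) (p : Fin P) : ℝ :=
  s * u p * (1 / 2) ^ ((p : ℕ) + 1)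

lemma coef_apply (p : Fin P) (k : Fin ((p : ℕ) + 1) → Fin B.d) (x : B.X) :
    B.coef P s u ⟨p, k⟩ x = B.cc s u p * B.mono p k x := rfl

lemma gmean_coef (p : Fin P) (k : Fin ((p : ℕ) + 1) → Fin B.d) (E : B.X → ℝ) :
    gmean E (B.coef P s u ⟨p, k⟩) = B.cc s u p * gmean E (B.mono p k) := by
  unfold gmean
  rw [Finset.mul_sum]
  exact Finset.sum_congr rfl fun x _ => by rw [coef_apply]; ring

lemma gmean_mono_inner (p : ℕ) (E : B.X → ℝ) (x : B.X) :
    ∑ k : Fin (p + 1) → Fin B.d, B.mono p k x * gmean E (B.mono p k) =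
      gmean E (fun y => ⟪B.φ x, B.φ y⟫ ^ (p + 1)) := by
  unfold gmean
  simp only [← mono_inner, Finset.mul_sum]
  rw [Finset.sum_comm]
  refine Finset.sum_congr rfl fun y _ => Finset.sum_congr rfl fun k _ => by ring

/-- Integration by parts for the average of the perturbation against a test function. -/
lemma av_hh (p : Fin P) {n : ℕ} (i : Fin n) {F : B.Ω → (Fin n → B.X) → ℝ}
    (hF : ∀ x, Measurable fun ω => F ω x) {C : ℝ} (hC : ∀ ω x, |F ω x| ≤ C) :
    rav (B.jl (GI P B.d)) (B.wt (B.coef P s u)) (n := n)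
        (fun z x => F z.1 x * B.hh p z.2 (x i)) =
      B.cc s u p * (∑ j, rav (B.jl (GI P B.d)) (B.wt (B.coef P s u)) (n := n)
          (fun z x => F z.1 x * ⟪B.φ (x i), B.φ (x j)⟫ ^ ((p : ℕ) + 1)) -
        n * rav (B.jl (GI P B.d)) (B.wt (B.coef P s u)) (n := n + 1)
          (fun z x => F z.1 (fun j => x j.castSucc) *
          ⟪B.φ (x i.castSucc), B.φ (x (Fin.last n))⟫ ^ ((p : ℕ) + 1))) := by
  classical
  set μ := B.jl (GI P B.d) with hμ
  set w := B.wt (B.coef P s u) with hw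
  have hW : IsWt w := B.isWt _
  have hFm : ∀ x : Fin n → B.X, Measurable fun z : B.Ω × (GI P B.d → ℝ) => F z.1 x := fun x =>
    (hF x).comp measurable_fst
  have hbd : ∀ (k : Fin ((p : ℕ) + 1) → Fin B.d) (x : Fin n → B.X),
      ∀ ω, |F ω x * B.mono p k (x i)| ≤ C := by
    intro k x ω
    rw [abs_mul]
    have h1 := hC ω x
    have h2 := B.abs_mono_le p k (x i)
    have h3 := abs_nonneg (F ω x)
    have h4 := abs_nonneg (B.mono p k (x i))
    linarith only [mul_nonneg (sub_nonneg.2 h2) (sub_nonneg.2 h3), mul_nonneg (sub_nonneg.2 h1) (sub_nonneg.2 h4), mul_nonneg (sub_nonneg.2 h1) (sub_nonneg.2 h2)]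
  -- step 1
  have e1 : rav μ w (n := n) (fun z x => F z.1 x * B.hh p z.2 (x i)) =
      ∑ k : Fin ((p : ℕ) + 1) → Fin B.d,
        rav μ w (n := n) (fun z x => z.2 ⟨p, k⟩ * (F z.1 x * B.mono p k (x i))) := by
    rw [← hW.rav_sum]
    · refine rav_congr fun z x => ?_
      unfold Base.hh Base.mono
      rw [Finset.mul_sum]
      exact Finset.sum_congr rfl fun k _ => by ring
    · intro k _ x
      exact integrable_mul_bdd (integrable_coord B.P _) ((hFm x).mul_const _) C
        fun z => hbd k x z.1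
  have e2 : ∀ k : Fin ((p : ℕ) + 1) → Fin B.d,
      rav μ w (n := n) (fun z x => z.2 ⟨p, k⟩ * (F z.1 x * B.mono p k (x i))) =
      rav μ w (n := n) (fun z x => (F z.1 x * B.mono p k (x i)) *
        ∑ j, (B.coef P s u ⟨p, k⟩ (x j) -
          gmean (gen (B.H z.1) (B.coef P s u) z.2) (B.coef P s u ⟨p, k⟩))) := by
    intro k
    exact B.gibp_av (B.coef P s u) ⟨p, k⟩ (f := fun ω x => F ω x * B.mono p k (x i))
      (C := C) (fun x => (hF x).mul_const _) fun ω x => hbd k x ω
  have e3 : ∑ k : Fin ((p : ℕ) + 1) → Fin B.d,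
      rav μ w (n := n) (fun z x => z.2 ⟨p, k⟩ * (F z.1 x * B.mono p k (x i))) =
      rav μ w (n := n) (fun z x => B.cc s u p * (∑ j, F z.1 x *
          ⟪B.φ (x i), B.φ (x j)⟫ ^ ((p : ℕ) + 1) - n * (F z.1 x *
          gmean (gen (B.H z.1) (B.coef P s u) z.2)
            (fun y => ⟪B.φ (x i), B.φ y⟫ ^ ((p : ℕ) + 1))))) := by
    rw [Finset.sum_congr rfl fun k _ => e2 k, ← hW.rav_sum]
    · refine rav_congr fun z x => ?_
      simp only [B.coef_apply, B.gmean_coef]
      rw [← B.gmean_mono_inner]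
      simp only [← B.mono_inner, Finset.sum_sub_distrib, Finset.sum_const, Finset.card_univ,
        Fintype.card_fin, nsmul_eq_mul, mul_sub, Finset.mul_sum]
      congr 1
      · rw [Finset.sum_comm]
        exact Finset.sum_congr rfl fun j _ => Finset.sum_congr rfl fun k _ => by ring
      · exact Finset.sum_congr rfl fun k _ => by ring
    · intro k _ x
      refine integrable_mul_bdd (integrable_bdd _ ((hFm x).mul_const _) C fun z => hbd k x z.1) ?_
        (n * (2 * ∑ y, |B.coef P s u ⟨p, k⟩ y|)) fun z => abs_sum_sub_le _ x _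
      exact Finset.measurable_sum _ fun i _ =>
        measurable_const.sub (measurable_gmean_gen B.hH _ _)
  have hI : ∀ (j : Fin n) (x : Fin n → B.X), Integrable (fun z : B.Ω × (GI P B.d → ℝ) =>
      F z.1 x * ⟪B.φ (x i), B.φ (x j)⟫ ^ ((p : ℕ) + 1)) μ := by
    intro j x
    refine (integrable_bdd _ (hFm x) C fun z => hC _ _).mul_const _
  have hJ : ∀ (x : Fin n → B.X), Integrable (fun z : B.Ω × (GI P B.d → ℝ) =>
      F z.1 x * gmean (gen (B.H z.1) (B.coef P s u) z.2)
        (fun y => ⟪B.φ (x i), B.φ y⟫ ^ ((p : ℕ) + 1))) μ := by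
    intro x
    refine integrable_mul_bdd (integrable_bdd _ (hFm x) C fun z => hC _ _)
      (measurable_gmean_gen B.hH _ _) 1 fun z => abs_gmean_le _ _ fun y => B.abs_inner_pow_le _ _ _
  rw [e1, e3, rav_const_mul, hW.rav_sub (fun x => integrable_finsetSum _ fun j _ => hI j x)
    (fun x => (hJ x).const_mul _), hW.rav_sum _ (fun j _ x => hI j x), rav_const_mul,
    rav_snoc (n := n)]
  congr 3
  refine rav_congr fun z x => ?_
  simp only [Fin.snoc_castSucc, Fin.snoc_last]
  unfold gmean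
  rw [Finset.mul_sum]
  refine Finset.sum_congr rfl fun y _ => ?_
  show F z.1 x * (gwt (gen (B.H z.1) (B.coef P s u) z.2) y * _) =
    gwt (gen (B.H z.1) (B.coef P s u) z.2) y * _
  ring

end Base

end Vale.Agent.P157.Par
end

section

/-! The Ghirlanda-Guerra defect is at most the fluctuation of the perturbation (2). -/

open MeasureTheory ProbabilityTheory Filter Topology
open scoped RealInnerProductSpace

namespace Vale.Agent.P157.Par

set_option linter.unusedSectionVars false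

namespace Base

variable (B : Base) (P : ℕ) (s : ℝ) (u : Fin P → ℝ)

/-- The average deviation of the `p`-th process from the constant `c`. -/
noncomputable def dev (p : Fin P) (c : ℝ) : ℝ :=
  (B.sys P s u).av (n := 1)
    (fun (z : B.Ω × (GI P B.d → ℝ)) (x : Fin 1 → B.X) => |B.hh p z.2 (x 0) - c|)

/-- The average of the `p`-th process. -/
noncomputable def mh (p : Fin P) : ℝ :=
  (B.sys P s u).av (n := 1)
    (fun (z : B.Ω × (GI P B.d → ℝ)) (x : Fin 1 → B.X) => B.hh p z.2 (x 0))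

lemma int_hh (p : Fin P) (x : B.X) :
    Integrable (fun z : B.Ω × (GI P B.d → ℝ) => B.hh p z.2 x) (B.jl (GI P B.d)) := by
  unfold hh
  exact integrable_finsetSum _ fun k _ => (integrable_coord B.P _).mul_const _

lemma dev_eq (p : Fin P) (c : ℝ) {n : ℕ} (i : Fin n) :
    rav (B.jl (GI P B.d)) (B.wt (B.coef P s u)) (n := n)
      (fun z x => |B.hh p z.2 (x i) - c|) = B.dev P s u p c := by
  rw [dev, sys_av]
  rw [(B.isWt _).rav_marg i (fun z x => |B.hh p z.2 x - c|),
    (B.isWt _).rav_marg (0 : Fin 1) (fun z x => |B.hh p z.2 x - c|)]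

lemma mh_eq (p : Fin P) {n : ℕ} (i : Fin n) :
    rav (B.jl (GI P B.d)) (B.wt (B.coef P s u)) (n := n)
      (fun z x => B.hh p z.2 (x i)) = B.mh P s u p := by
  rw [mh, sys_av]
  rw [(B.isWt _).rav_marg i (fun z x => B.hh p z.2 x),
    (B.isWt _).rav_marg (0 : Fin 1) (fun z x => B.hh p z.2 x)]

/-- The average of the `p`-th process. -/
lemma mh_formula (p : Fin P) : B.mh P s u p = B.cc s u p *
    (1 - rav (B.jl (GI P B.d)) (B.wt (B.coef P s u)) (n := 2)
      (fun _ x => ⟪B.φ (x 0), B.φ (x 1)⟫ ^ ((p : ℕ) + 1))) := by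
  have h := B.av_hh P s u p (n := 1) 0 (F := fun _ _ => 1) (C := 1)
    (fun _ => measurable_const) (fun _ _ => by simp)
  simp only [one_mul] at h
  rw [B.mh_eq P s u p (0 : Fin 1)] at h
  rw [h]
  congr 1
  have h1 : rav (B.jl (GI P B.d)) (B.wt (B.coef P s u)) (n := 1)
      (fun _ x => ⟪B.φ (x 0), B.φ (x 0)⟫ ^ ((p : ℕ) + 1)) = 1 := by
    have h2 := (B.isWt (B.coef P s u)).rav_const (μ := B.jl (GI P B.d)) (n := 1) 1
    rw [← h2]
    refine rav_congr fun z x => ?_
    rw [real_inner_self_eq_norm_sq, B.hφ]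
    simp
  simp only [Finset.univ_unique, Fin.default_eq_zero, Finset.sum_singleton, h1, Nat.cast_one,
    one_mul]
  rfl

lemma mh_nonneg (hs : 0 ≤ s) (p : Fin P) (hu : 0 ≤ u p) : 0 ≤ B.mh P s u p := by
  rw [mh_formula]
  have h := (B.isWt (B.coef P s u)).rav_mono (μ := B.jl (GI P B.d)) (n := 2)
    (F := fun _ x => ⟪B.φ (x 0), B.φ (x 1)⟫ ^ ((p : ℕ) + 1)) (G := fun _ _ => 1)
    (fun _ => integrable_const _) (fun _ => integrable_const _)
    (fun z x => (le_abs_self _).trans (B.abs_inner_pow_le _ _ _))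
  rw [(B.isWt (B.coef P s u)).rav_const] at h
  refine mul_nonneg ?_ (by linarith)
  unfold cc
  positivity

lemma mh_le (hs : 0 ≤ s) (p : Fin P) (hu : 0 ≤ u p) :
    B.mh P s u p ≤ 2 * (s * u p * (1 / 2) ^ ((p : ℕ) + 1)) := by
  rw [mh_formula]
  have h := (B.isWt (B.coef P s u)).rav_mono (μ := B.jl (GI P B.d)) (n := 2)
    (G := fun _ x => ⟪B.φ (x 0), B.φ (x 1)⟫ ^ ((p : ℕ) + 1)) (F := fun _ _ => -1)
    (fun _ => integrable_const _) (fun _ => integrable_const _)
    (fun z x => (abs_le.1 (B.abs_inner_pow_le _ _ _)).1)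
  rw [(B.isWt (B.coef P s u)).rav_const] at h
  have h2 : 0 ≤ B.cc s u p := by unfold cc; positivity
  have h3 : B.cc s u p = s * u p * (1 / 2) ^ ((p : ℕ) + 1) := rfl
  rw [← h3]
  linarith only [mul_nonneg (sub_nonneg.2 h) (sub_nonneg.2 h2)]

/-- The defect as a covariance. -/
lemma defect_eq (p : Fin P) {n : ℕ} (i : Fin n) {F : B.Ω → (Fin n → B.X) → ℝ}
    (hF : ∀ x, Measurable fun ω => F ω x) (hC : ∀ ω x, |F ω x| ≤ 1) :
    B.cc s u p * (B.sys P s u).ggDefect (fun x => x ^ ((p : ℕ) + 1)) i F =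
      B.mh P s u p * rav (B.jl (GI P B.d)) (B.wt (B.coef P s u)) (n := n) (fun z x => F z.1 x) -
      rav (B.jl (GI P B.d)) (B.wt (B.coef P s u)) (n := n)
        (fun z x => F z.1 x * B.hh p z.2 (x i)) := by
  have h1 := B.av_hh P s u p i hF hC
  rw [h1, mh_formula]
  unfold Sys.ggDefect
  have e1 : (B.sys P s u).tav (n := n) F =
      rav (B.jl (GI P B.d)) (B.wt (B.coef P s u)) (n := n) (fun z x => F z.1 x) := rfl
  have e2 : (B.sys P s u).tav (n := n + 1) (fun t (x : Fin (n + 1) → (B.sys P s u).X) =>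
      F t (fun j => x j.castSucc) *
        (B.sys P s u).R (x i.castSucc) (x (Fin.last n)) ^ ((p : ℕ) + 1)) =
      rav (B.jl (GI P B.d)) (B.wt (B.coef P s u)) (n := n + 1)
        (fun z x => F z.1 (fun j => x j.castSucc) *
          ⟪B.φ (x i.castSucc), B.φ (x (Fin.last n))⟫ ^ ((p : ℕ) + 1)) := rfl
  have e3 : (B.sys P s u).tav (n := 2) (fun _ (x : Fin 2 → (B.sys P s u).X) =>
      (B.sys P s u).R (x 0) (x 1) ^ ((p : ℕ) + 1)) =
      rav (B.jl (GI P B.d)) (B.wt (B.coef P s u)) (n := 2)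
        (fun _ x => ⟪B.φ (x 0), B.φ (x 1)⟫ ^ ((p : ℕ) + 1)) := rfl
  have e4 : ∀ j : Fin n, (B.sys P s u).tav (n := n) (fun t (x : Fin n → (B.sys P s u).X) =>
      F t x * (B.sys P s u).R (x i) (x j) ^ ((p : ℕ) + 1)) =
      rav (B.jl (GI P B.d)) (B.wt (B.coef P s u)) (n := n)
        (fun z x => F z.1 x * ⟪B.φ (x i), B.φ (x j)⟫ ^ ((p : ℕ) + 1)) := fun j => rfl
  simp only [e1, e2, e3, e4]
  rw [← Finset.add_sum_erase Finset.univ (fun j => rav (B.jl (GI P B.d))
    (B.wt (B.coef P s u)) (n := n)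
    (fun z x => F z.1 x * ⟪B.φ (x i), B.φ (x j)⟫ ^ ((p : ℕ) + 1))) (Finset.mem_univ i)]
  have e5 : rav (B.jl (GI P B.d)) (B.wt (B.coef P s u)) (n := n)
      (fun z x => F z.1 x * ⟪B.φ (x i), B.φ (x i)⟫ ^ ((p : ℕ) + 1)) =
      rav (B.jl (GI P B.d)) (B.wt (B.coef P s u)) (n := n) (fun z x => F z.1 x) := by
    refine rav_congr fun z x => ?_
    rw [real_inner_self_eq_norm_sq, B.hφ]
    simp
  rw [e5]
  ring

lemma int_test {n : ℕ} {F : B.Ω → (Fin n → B.X) → ℝ}
    (hF : ∀ x, Measurable fun ω => F ω x) (hC : ∀ ω x, |F ω x| ≤ 1) (x : Fin n → B.X) :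
    Integrable (fun z : B.Ω × (GI P B.d → ℝ) => F z.1 x) (B.jl (GI P B.d)) :=
  integrable_bdd _ ((hF x).comp measurable_fst) 1 fun z => hC z.1 x

/-- The Ghirlanda-Guerra defect is bounded by the deviation of the perturbation from any
constant. -/
theorem ggDefect_le (hs : 0 < s) (p : Fin P) (hu : 0 < u p) (c : ℝ) {n : ℕ} (i : Fin n)
    (F : (B.sys P s u).T → (Fin n → (B.sys P s u).X) → ℝ) (hF : (B.sys P s u).Test F) :
    |(B.sys P s u).ggDefect (fun x => x ^ ((p : ℕ) + 1)) i F| ≤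
      2 * B.dev P s u p c / (s * u p * (1 / 2) ^ ((p : ℕ) + 1)) := by
  have hFm : ∀ x : Fin n → B.X, Measurable fun ω : B.Ω => F ω x := hF.meas
  have hFb : ∀ (ω : B.Ω) (x : Fin n → B.X), |F ω x| ≤ 1 := hF.bdd
  have h := B.defect_eq P s u p i hFm hFb
  have hc : 0 < B.cc s u p := by unfold cc; positivity
  have h3 : B.cc s u p = s * u p * (1 / 2) ^ ((p : ℕ) + 1) := rfl
  have hW := B.isWt (B.coef P s u)
  set μ := B.jl (GI P B.d) with hμ
  set w := B.wt (B.coef P s u) with hw
  rw [← h3, le_div_iff₀ hc, mul_comm, ← abs_of_pos hc, ← abs_mul, h]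
  have hFi := B.int_test P hFm hFb
  have hhi : ∀ x : Fin n → B.X, Integrable (fun z : B.Ω × (GI P B.d → ℝ) =>
      B.hh p z.2 (x i)) μ := fun x => B.int_hh P p (x i)
  have hFhi : ∀ x : Fin n → B.X, Integrable (fun z : B.Ω × (GI P B.d → ℝ) =>
      F z.1 x * B.hh p z.2 (x i)) μ := fun x => by
    refine (integrable_mul_bdd (hhi x) ((hFm x).comp measurable_fst) 1
      fun z => hFb z.1 x).congr (Filter.Eventually.of_forall fun z => ?_)
    exact mul_comm _ _
  have e1 : rav μ w (n := n) (fun z x => F z.1 x * (B.hh p z.2 (x i) - c)) =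
      rav μ w (n := n) (fun z x => F z.1 x * B.hh p z.2 (x i)) -
        c * rav μ w (n := n) (fun z x => F z.1 x) := by
    rw [← rav_const_mul, ← hW.rav_sub hFhi (fun x => (hFi x).const_mul c)]
    exact rav_congr fun z x => by ring
  have e2 : rav μ w (n := n) (fun z x => B.hh p z.2 (x i) - c) = B.mh P s u p - c := by
    rw [hW.rav_sub hhi (fun x => integrable_const _), hW.rav_const, B.mh_eq]
  have b1 : |rav μ w (n := n) (fun z x => F z.1 x * (B.hh p z.2 (x i) - c))| ≤
      B.dev P s u p c := by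
    rw [← B.dev_eq P s u p c i]
    refine (hW.rav_abs_le fun x => ?_).trans (hW.rav_mono (fun x => ?_) (fun x => ?_) ?_)
    · refine ((hFhi x).sub ((hFi x).mul_const c)).congr
        (Filter.Eventually.of_forall fun z => ?_)
      simp only [Pi.sub_apply]
      ring
    · refine (((hFhi x).sub ((hFi x).mul_const c)).congr
        (Filter.Eventually.of_forall fun z => ?_)).abs
      simp only [Pi.sub_apply]
      ring
    · exact ((hhi x).sub (integrable_const c)).abs
    · intro z x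
      rw [abs_mul]
      exact mul_le_of_le_one_left (abs_nonneg _) (hFb z.1 x)
  have b2 : |rav μ w (n := n) (fun z x => B.hh p z.2 (x i) - c)| ≤ B.dev P s u p c := by
    rw [← B.dev_eq P s u p c i]
    exact hW.rav_abs_le fun x => (hhi x).sub (integrable_const c)
  have b3 : |rav μ w (n := n) (fun z x => F z.1 x)| ≤ 1 := by
    refine (hW.rav_abs_le hFi).trans ?_
    refine (hW.rav_mono (fun x => (hFi x).abs) (fun x => integrable_const 1)
      fun z x => hFb z.1 x).trans ?_
    rw [hW.rav_const]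
  have e3 : B.mh P s u p * rav μ w (n := n) (fun z x => F z.1 x) -
      rav μ w (n := n) (fun z x => F z.1 x * B.hh p z.2 (x i)) =
      (rav μ w (n := n) (fun z x => B.hh p z.2 (x i) - c)) *
        rav μ w (n := n) (fun z x => F z.1 x) -
      rav μ w (n := n) (fun z x => F z.1 x * (B.hh p z.2 (x i) - c)) := by
    rw [e1, e2]; ring
  rw [e3]
  calc _ ≤ |(rav μ w (n := n) (fun z x => B.hh p z.2 (x i) - c)) *
        rav μ w (n := n) (fun z x => F z.1 x)| +
      |rav μ w (n := n) (fun z x => F z.1 x * (B.hh p z.2 (x i) - c))| := abs_sub _ _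
    _ ≤ B.dev P s u p c * 1 + B.dev P s u p c := by
        rw [abs_mul]
        refine add_le_add (mul_le_mul b2 b3 (abs_nonneg _) ?_) b1
        exact (abs_nonneg _).trans b2
    _ = 2 * B.dev P s u p c := by ring

/-- The Ghirlanda-Guerra defect is bounded by the fluctuation of the perturbation. -/
theorem ggDefect_le_mh (hs : 0 < s) (p : Fin P) (hu : 0 < u p) {n : ℕ} (i : Fin n)
    (F : (B.sys P s u).T → (Fin n → (B.sys P s u).X) → ℝ) (hF : (B.sys P s u).Test F) :
    |(B.sys P s u).ggDefect (fun x => x ^ ((p : ℕ) + 1)) i F| ≤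
      B.dev P s u p (B.mh P s u p) / (s * u p * (1 / 2) ^ ((p : ℕ) + 1)) := by
  have hFm : ∀ x : Fin n → B.X, Measurable fun ω : B.Ω => F ω x := hF.meas
  have hFb : ∀ (ω : B.Ω) (x : Fin n → B.X), |F ω x| ≤ 1 := hF.bdd
  have h := B.defect_eq P s u p i hFm hFb
  have hc : 0 < B.cc s u p := by unfold cc; positivity
  have h3 : B.cc s u p = s * u p * (1 / 2) ^ ((p : ℕ) + 1) := rfl
  have hW := B.isWt (B.coef P s u)
  set c := B.mh P s u p with hcc
  set μ := B.jl (GI P B.d) with hμ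
  set w := B.wt (B.coef P s u) with hw
  rw [← h3, le_div_iff₀ hc, mul_comm, ← abs_of_pos hc, ← abs_mul, h]
  have hFi := B.int_test P hFm hFb
  have hhi : ∀ x : Fin n → B.X, Integrable (fun z : B.Ω × (GI P B.d → ℝ) =>
      B.hh p z.2 (x i)) μ := fun x => B.int_hh P p (x i)
  have hFhi : ∀ x : Fin n → B.X, Integrable (fun z : B.Ω × (GI P B.d → ℝ) =>
      F z.1 x * B.hh p z.2 (x i)) μ := fun x => by
    refine (integrable_mul_bdd (hhi x) ((hFm x).comp measurable_fst) 1
      fun z => hFb z.1 x).congr (Filter.Eventually.of_forall fun z => ?_)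
    exact mul_comm _ _
  have e1 : rav μ w (n := n) (fun z x => F z.1 x * (B.hh p z.2 (x i) - c)) =
      rav μ w (n := n) (fun z x => F z.1 x * B.hh p z.2 (x i)) -
        c * rav μ w (n := n) (fun z x => F z.1 x) := by
    rw [← rav_const_mul, ← hW.rav_sub hFhi (fun x => (hFi x).const_mul c)]
    exact rav_congr fun z x => by ring
  rw [abs_sub_comm, ← e1, ← B.dev_eq P s u p c i]
  refine (hW.rav_abs_le fun x => ?_).trans (hW.rav_mono (fun x => ?_) (fun x => ?_) ?_)
  · refine ((hFhi x).sub ((hFi x).mul_const c)).congr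
      (Filter.Eventually.of_forall fun z => ?_)
    simp only [Pi.sub_apply]
    ring
  · refine (((hFhi x).sub ((hFi x).mul_const c)).congr
      (Filter.Eventually.of_forall fun z => ?_)).abs
    simp only [Pi.sub_apply]
    ring
  · exact ((hhi x).sub (integrable_const c)).abs
  · intro z x
    rw [abs_mul]
    exact mul_le_of_le_one_left (abs_nonneg _) (hFb z.1 x)

end Base

/-- The Ghirlanda-Guerra defect for constants vanishes. -/
theorem Sys.ggDefect_zero (S : Sys) {n : ℕ} (i : Fin n) (F : S.T → (Fin n → S.X) → ℝ) :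
    S.ggDefect (fun x => x ^ 0) i F = 0 := by
  have hw : IsWt S.w := ⟨S.hw, S.w0, S.w1⟩
  unfold Sys.ggDefect
  simp only [pow_zero, mul_one]
  have h1 : S.tav (fun t (x : Fin (n + 1) → S.X) => F t (fun j => x j.castSucc)) = S.tav F := by
    have h := rav_snoc (μ := S.P) (w := S.w) (n := n)
      (fun ω x => F (S.π ω) (fun j => x j.castSucc))
    have h2 : rav S.P S.w (n := n) (fun ω x => ∑ y, S.w ω y *
        F (S.π ω) (fun j => (Fin.snoc x y : Fin (n + 1) → S.X) j.castSucc)) =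
        rav S.P S.w (n := n) (fun ω x => F (S.π ω) x) := by
      refine rav_congr fun ω x => ?_
      simp only [Fin.snoc_castSucc]
      rw [← Finset.sum_mul, S.w1, one_mul]
    exact h.trans h2
  have h3 : S.tav (fun _ (x : Fin 2 → S.X) => (1 : ℝ)) = 1 := hw.rav_const (μ := S.P) (n := 2) 1
  rw [h1, h3, Finset.sum_const, Finset.card_erase_of_mem (Finset.mem_univ i), Finset.card_univ,
    Fintype.card_fin, nsmul_eq_mul]
  have hn : 1 ≤ n := i.pos
  push_cast [Nat.cast_sub hn]
  ring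

end Vale.Agent.P157.Par
end

section

/-! Log-partition function of the perturbed system as a function of the parameters. -/

open MeasureTheory ProbabilityTheory Filter Topology
open scoped RealInnerProductSpace

namespace Vale.Agent.P157.Par

set_option linter.unusedSectionVars false

section Gibbs2

variable {X : Type*} [Fintype X] [Nonempty X]

lemma gmean_const_mul (E : X → ℝ) (c : ℝ) (ψ : X → ℝ) :
    gmean E (fun x => c * ψ x) = c * gmean E ψ := by
  unfold gmean
  rw [Finset.mul_sum]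
  exact Finset.sum_congr rfl fun x _ => by ring

lemma gmean_var (E ψ : X → ℝ) :
    gmean E (fun x => (ψ x - gmean E ψ) ^ 2) =
      gmean E (fun x => ψ x * ψ x) - gmean E ψ * gmean E ψ := by
  set m := gmean E ψ with hm
  have h1 : gmean E (fun x => (ψ x - m) ^ 2) =
      gmean E (fun x => ψ x * ψ x) - 2 * m * gmean E ψ + m ^ 2 * ∑ x, gwt E x := by
    unfold gmean
    rw [Finset.mul_sum, Finset.mul_sum, ← Finset.sum_sub_distrib, ← Finset.sum_add_distrib]
    exact Finset.sum_congr rfl fun x _ => by ring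
  rw [h1, sum_gwt, ← hm]
  ring

lemma gmean_mono {E ψ χ : X → ℝ} (h : ∀ x, ψ x ≤ χ x) : gmean E ψ ≤ gmean E χ :=
  Finset.sum_le_sum fun x _ => mul_le_mul_of_nonneg_left (h x) (gwt_nonneg E x)

lemma gmean_nonneg {E ψ : X → ℝ} (h : ∀ x, 0 ≤ ψ x) : 0 ≤ gmean E ψ :=
  Finset.sum_nonneg fun x _ => mul_nonneg (gwt_nonneg E x) (h x)

lemma glog_le {E E' : X → ℝ} {C : ℝ} (h : ∀ x, E x ≤ E' x + C) :
    Real.log (∑ y, Real.exp (E y)) ≤ Real.log (∑ y, Real.exp (E' y)) + C := by
  have h1 : ∑ y, Real.exp (E y) ≤ (∑ y, Real.exp (E' y)) * Real.exp C := by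
    rw [Finset.sum_mul]
    refine Finset.sum_le_sum fun y _ => ?_
    rw [← Real.exp_add]
    exact Real.exp_le_exp.2 (h y)
  have h2 := Real.log_le_log (gpart_pos E) h1
  rwa [Real.log_mul (gpart_pos E').ne' (Real.exp_pos _).ne', Real.log_exp] at h2

lemma abs_glog_sub_le {E E' : X → ℝ} {C : ℝ} (h : ∀ x, |E x - E' x| ≤ C) :
    |Real.log (∑ y, Real.exp (E y)) - Real.log (∑ y, Real.exp (E' y))| ≤ C := by
  rw [abs_le]
  constructor
  · have := glog_le (E := E') (E' := E) (C := C) fun x => by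
      have := (abs_le.1 (h x)).1; linarith
    linarith
  · have := glog_le (E := E) (E' := E') (C := C) fun x => by
      have := (abs_le.1 (h x)).2; linarith
    linarith

end Gibbs2

namespace Base

variable (B : Base) {P : ℕ} (s : ℝ) (u : Fin P → ℝ)

/-- The logarithm of the partition function. -/
noncomputable def lz (z : B.Ω × (GI P B.d → ℝ)) : ℝ :=
  Real.log (∑ y, Real.exp (gen (B.H z.1) (B.coef P s u) z.2 y))

/-- The Gibbs average of the `p`-th process. -/
noncomputable def hm (p : Fin P) (z : B.Ω × (GI P B.d → ℝ)) : ℝ :=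
  gmean (gen (B.H z.1) (B.coef P s u) z.2) (B.hh p z.2)

/-- The Gibbs variance of the `p`-th process. -/
noncomputable def hv (p : Fin P) (z : B.Ω × (GI P B.d → ℝ)) : ℝ :=
  gmean (gen (B.H z.1) (B.coef P s u) z.2) (fun x => B.hh p z.2 x * B.hh p z.2 x) -
    B.hm s u p z * B.hm s u p z

/-- The derivative of the energy in the `p`-th parameter is `kap p` times the process. -/
noncomputable def kap (_ : Base) {P : ℕ} (s : ℝ) (p : Fin P) : ℝ := s * (1 / 2) ^ ((p : ℕ) + 1)

lemma gen_upd (p : Fin P) (v : ℝ) (ω : B.Ω) (g : GI P B.d → ℝ) :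
    gen (B.H ω) (B.coef P s (Function.update u p v)) g =
      fun x => gen (B.H ω) (B.coef P s (Function.update u p 0)) g x +
        v * (B.kap s p * B.hh p g x) := by
  funext x
  rw [gen_eq, gen_eq]
  rw [← Finset.add_sum_erase Finset.univ (fun q : Fin P => Function.update u p v q *
      (1 / 2) ^ ((q : ℕ) + 1) * B.hh q g x) (Finset.mem_univ p),
    ← Finset.add_sum_erase Finset.univ (fun q : Fin P => Function.update u p 0 q *
      (1 / 2) ^ ((q : ℕ) + 1) * B.hh q g x) (Finset.mem_univ p)]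
  have h : ∀ t : ℝ, ∑ q ∈ Finset.univ.erase p, Function.update u p t q *
      (1 / 2) ^ ((q : ℕ) + 1) * B.hh q g x =
      ∑ q ∈ Finset.univ.erase p, u q * (1 / 2) ^ ((q : ℕ) + 1) * B.hh q g x := fun t =>
    Finset.sum_congr rfl fun i hi => by
      rw [Function.update_of_ne (Finset.ne_of_mem_erase hi)]
  rw [h, h]
  simp only [Function.update_self]
  unfold kap
  ring

lemma hasDerivAt_lz (p : Fin P) (z : B.Ω × (GI P B.d → ℝ)) (v : ℝ) :
    HasDerivAt (fun v => B.lz s (Function.update u p v) z)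
      (B.kap s p * B.hm s (Function.update u p v) p z) v := by
  have h := hasDerivAt_glog (gen (B.H z.1) (B.coef P s (Function.update u p 0)) z.2)
    (fun x => B.kap s p * B.hh p z.2 x) v
  rw [gmean_const_mul, ← B.gen_upd s u p v z.1 z.2] at h
  have h' : (fun v => B.lz s (Function.update u p v) z) =
      fun t => Real.log (∑ y, Real.exp (gen (B.H z.1) (B.coef P s (Function.update u p 0)) z.2 y +
        t * (B.kap s p * B.hh p z.2 y))) := by
    funext t
    unfold lz
    rw [B.gen_upd s u p t z.1 z.2]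
  rw [h']
  exact h

lemma hasDerivAt_hm (p : Fin P) (z : B.Ω × (GI P B.d → ℝ)) (v : ℝ) :
    HasDerivAt (fun v => B.hm s (Function.update u p v) p z)
      (B.kap s p * B.hv s (Function.update u p v) p z) v := by
  have h := hasDerivAt_gmean (gen (B.H z.1) (B.coef P s (Function.update u p 0)) z.2)
    (fun x => B.kap s p * B.hh p z.2 x) (B.hh p z.2) v
  rw [← B.gen_upd s u p v z.1 z.2] at h
  have h' : (fun v => B.hm s (Function.update u p v) p z) =
      fun t => gmean (fun y => gen (B.H z.1) (B.coef P s (Function.update u p 0)) z.2 y +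
        t * (B.kap s p * B.hh p z.2 y)) (B.hh p z.2) := by
    funext t
    unfold hm
    rw [B.gen_upd s u p t z.1 z.2]
  rw [h']
  refine h.congr_deriv ?_
  have h1 : (fun x => B.hh p z.2 x * (B.kap s p * B.hh p z.2 x)) =
      fun x => B.kap s p * (B.hh p z.2 x * B.hh p z.2 x) := by
    funext x; ring
  rw [h1, gmean_const_mul, gmean_const_mul]
  unfold hv hm
  ring

lemma hv_eq (p : Fin P) (z : B.Ω × (GI P B.d → ℝ)) :
    B.hv s u p z = gmean (gen (B.H z.1) (B.coef P s u) z.2)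
      (fun x => (B.hh p z.2 x - B.hm s u p z) ^ 2) := by
  unfold hv hm
  rw [gmean_var]

lemma hv_nonneg (p : Fin P) (z : B.Ω × (GI P B.d → ℝ)) : 0 ≤ B.hv s u p z := by
  rw [hv_eq]
  exact gmean_nonneg fun x => sq_nonneg _

/-- A bound for the `p`-th process. -/
noncomputable def hb (p : Fin P) (z : B.Ω × (GI P B.d → ℝ)) : ℝ :=
  ∑ k : Fin ((p : ℕ) + 1) → Fin B.d, |z.2 ⟨p, k⟩|

lemma hb_nonneg (p : Fin P) (z : B.Ω × (GI P B.d → ℝ)) : 0 ≤ B.hb p z :=
  Finset.sum_nonneg fun _ _ => abs_nonneg _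

lemma abs_hh_le (p : Fin P) (z : B.Ω × (GI P B.d → ℝ)) (x : B.X) :
    |B.hh p z.2 x| ≤ B.hb p z := by
  unfold hh hb
  refine (Finset.abs_sum_le_sum_abs _ _).trans (Finset.sum_le_sum fun k _ => ?_)
  rw [abs_mul]
  exact mul_le_of_le_one_right (abs_nonneg _) (B.abs_mono_le p k x)

lemma abs_hm_le (p : Fin P) (z : B.Ω × (GI P B.d → ℝ)) : |B.hm s u p z| ≤ B.hb p z :=
  abs_gmean_le _ _ fun x => B.abs_hh_le p z x

lemma hv_le (p : Fin P) (z : B.Ω × (GI P B.d → ℝ)) : B.hv s u p z ≤ B.hb p z ^ 2 := by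
  have h1 : gmean (gen (B.H z.1) (B.coef P s u) z.2)
      (fun x => B.hh p z.2 x * B.hh p z.2 x) ≤ B.hb p z ^ 2 := by
    refine (le_abs_self _).trans (abs_gmean_le _ _ fun x => ?_)
    rw [abs_mul, sq]
    exact mul_le_mul (B.abs_hh_le p z x) (B.abs_hh_le p z x) (abs_nonneg _) (B.hb_nonneg p z)
  unfold hv
  linarith only [mul_self_nonneg (B.hm s u p z), h1]

lemma memLp_coord (e : GI P B.d) :
    MemLp (fun z : B.Ω × (GI P B.d → ℝ) => z.2 e) 2 (B.jl (GI P B.d)) := by
  have h1 : MemLp (fun J : GI P B.d → ℝ => J e) 2 (P367.GT.gM (GI P B.d)) :=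
    (memLp_id_gaussianReal (μ := 0) (v := 1) 2).comp_measurePreserving
      (measurePreserving_eval (fun _ : GI P B.d => gaussianReal 0 1) e)
  exact h1.comp_snd B.P

lemma memLp_hb (p : Fin P) : MemLp (B.hb p) 2 (B.jl (GI P B.d)) := by
  unfold hb
  exact memLp_finsetSum _ fun k _ => (B.memLp_coord ⟨p, k⟩).abs

lemma int_hb (p : Fin P) : Integrable (B.hb p) (B.jl (GI P B.d)) :=
  (B.memLp_hb p).integrable (by norm_num)

lemma int_hb_sq (p : Fin P) : Integrable (fun z => B.hb p z ^ 2) (B.jl (GI P B.d)) :=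
  (B.memLp_hb p).integrable_sq

end Base

end Vale.Agent.P157.Par
end

section

/-! Measurability, continuity and integrability for the perturbed system. -/

open MeasureTheory ProbabilityTheory Filter Topology
open scoped RealInnerProductSpace

namespace Vale.Agent.P157.Par

set_option linter.unusedSectionVars false

namespace Base

variable (B : Base) {P : ℕ} (s : ℝ) (u : Fin P → ℝ)

/-! Joint measurability. -/

lemma jmeas_gen (x : B.X) : Measurable fun q : (Fin P → ℝ) × (B.Ω × (GI P B.d → ℝ)) =>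
    gen (B.H q.2.1) (B.coef P s q.1) q.2.2 x := by
  unfold gen coef
  refine ((B.hH x).comp (measurable_fst.comp measurable_snd)).add ?_
  refine Finset.measurable_sum _ fun e _ => ?_
  refine ((measurable_pi_apply e).comp (measurable_snd.comp measurable_snd)).mul ?_
  refine Measurable.mul_const (Measurable.mul_const (Measurable.const_mul ?_ _) _) _
  exact (measurable_pi_apply e.1).comp measurable_fst

lemma jmeas_gwt (x : B.X) : Measurable fun q : (Fin P → ℝ) × (B.Ω × (GI P B.d → ℝ)) =>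
    gwt (gen (B.H q.2.1) (B.coef P s q.1) q.2.2) x := by
  unfold gwt
  exact ((B.jmeas_gen s x).exp).div (Finset.measurable_sum _ fun y _ => (B.jmeas_gen s y).exp)

lemma jmeas_lz : Measurable fun q : (Fin P → ℝ) × (B.Ω × (GI P B.d → ℝ)) =>
    B.lz s q.1 q.2 := by
  unfold lz
  exact (Finset.measurable_sum _ fun y _ => (B.jmeas_gen s y).exp).log

lemma meas_hh (p : Fin P) (x : B.X) :
    Measurable fun z : B.Ω × (GI P B.d → ℝ) => B.hh p z.2 x := by
  unfold hh
  exact Finset.measurable_sum _ fun k _ =>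
    ((measurable_pi_apply _).comp measurable_snd).mul_const _

lemma jmeas_hm (p : Fin P) : Measurable fun q : (Fin P → ℝ) × (B.Ω × (GI P B.d → ℝ)) =>
    B.hm s q.1 p q.2 := by
  unfold hm gmean
  exact Finset.measurable_sum _ fun y _ =>
    (B.jmeas_gwt s y).mul ((B.meas_hh p y).comp measurable_snd)

lemma jmeas_hv (p : Fin P) : Measurable fun q : (Fin P → ℝ) × (B.Ω × (GI P B.d → ℝ)) =>
    B.hv s q.1 p q.2 := by
  unfold hv
  refine Measurable.sub ?_ ((B.jmeas_hm s p).mul (B.jmeas_hm s p))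
  unfold gmean
  exact Finset.measurable_sum _ fun y _ => (B.jmeas_gwt s y).mul
    (((B.meas_hh p y).comp measurable_snd).mul ((B.meas_hh p y).comp measurable_snd))

lemma meas_lz : Measurable (B.lz s u) := by
  have h : Measurable fun z : B.Ω × (GI P B.d → ℝ) => (u, z) := measurable_prodMk_left
  have h2 := (B.jmeas_lz s).comp h
  simp only [Function.comp_def] at h2
  exact h2

lemma meas_hm (p : Fin P) : Measurable (B.hm s u p) := by
  have h : Measurable fun z : B.Ω × (GI P B.d → ℝ) => (u, z) := measurable_prodMk_left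
  have h2 := (B.jmeas_hm s p).comp h
  simp only [Function.comp_def] at h2
  exact h2

lemma meas_hv (p : Fin P) : Measurable (B.hv s u p) := by
  have h : Measurable fun z : B.Ω × (GI P B.d → ℝ) => (u, z) := measurable_prodMk_left
  have h2 := (B.jmeas_hv s p).comp h
  simp only [Function.comp_def] at h2
  exact h2

/-! Continuity in the parameters. -/

lemma cont_gen (z : B.Ω × (GI P B.d → ℝ)) (x : B.X) :
    Continuous fun u : Fin P → ℝ => gen (B.H z.1) (B.coef P s u) z.2 x := by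
  unfold gen coef
  refine continuous_const.add (continuous_finsetSum _ fun e _ => ?_)
  exact continuous_const.mul (((continuous_const.mul (continuous_apply e.1)).mul
    continuous_const).mul continuous_const)

lemma cont_gwt (z : B.Ω × (GI P B.d → ℝ)) (x : B.X) :
    Continuous fun u : Fin P → ℝ => gwt (gen (B.H z.1) (B.coef P s u) z.2) x := by
  unfold gwt
  exact ((B.cont_gen s z x).rexp).div (continuous_finsetSum _ fun y _ => (B.cont_gen s z y).rexp)
    fun u => (gpart_pos _).ne'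

lemma cont_hm (p : Fin P) (z : B.Ω × (GI P B.d → ℝ)) :
    Continuous fun u : Fin P → ℝ => B.hm s u p z := by
  unfold hm gmean
  exact continuous_finsetSum _ fun y _ => (B.cont_gwt s z y).mul continuous_const

lemma cont_hv (p : Fin P) (z : B.Ω × (GI P B.d → ℝ)) :
    Continuous fun u : Fin P → ℝ => B.hv s u p z := by
  unfold hv
  refine Continuous.sub ?_ ((B.cont_hm s p z).mul (B.cont_hm s p z))
  unfold gmean
  exact continuous_finsetSum _ fun y _ => (B.cont_gwt s z y).mul continuous_const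

lemma cont_upd (p : Fin P) : Continuous fun v : ℝ => Function.update u p v :=
  continuous_const.update p continuous_id

/-! Integrability. -/

lemma abs_lz_le (z : B.Ω × (GI P B.d → ℝ)) : |B.lz s u z| ≤
    |Real.log (Fintype.card B.X)| + (B.K + |s| * ∑ p, |u p| * B.hb p z) := by
  have h : ∀ x, |gen (B.H z.1) (B.coef P s u) z.2 x - (fun _ => (0 : ℝ)) x| ≤
      B.K + |s| * ∑ p, |u p| * B.hb p z := by
    intro x
    rw [sub_zero, gen_eq]
    refine (abs_add_le _ _).trans (add_le_add (B.hK _ _) ?_)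
    rw [abs_mul]
    refine mul_le_mul_of_nonneg_left ?_ (abs_nonneg _)
    refine (Finset.abs_sum_le_sum_abs _ _).trans (Finset.sum_le_sum fun p _ => ?_)
    rw [abs_mul, abs_mul]
    refine mul_le_mul ?_ (B.abs_hh_le p z x) (abs_nonneg _) (abs_nonneg _)
    refine mul_le_of_le_one_right (abs_nonneg _) ?_
    rw [abs_of_pos (by positivity)]
    exact pow_le_one₀ (by norm_num) (by norm_num)
  have h2 : Real.log (∑ _y : B.X, Real.exp 0) = Real.log (Fintype.card B.X) := by simp
  have h1 : |B.lz s u z - Real.log (∑ _y : B.X, Real.exp 0)| ≤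
      B.K + |s| * ∑ p, |u p| * B.hb p z := abs_glog_sub_le h
  rw [h2] at h1
  have h3 := abs_sub_abs_le_abs_sub (B.lz s u z) (Real.log (Fintype.card B.X))
  linarith

lemma memLp_bound : MemLp (fun z : B.Ω × (GI P B.d → ℝ) =>
    |Real.log (Fintype.card B.X)| + (B.K + |s| * ∑ p, |u p| * B.hb p z)) 2
    (B.jl (GI P B.d)) := by
  have h1 : MemLp (fun z : B.Ω × (GI P B.d → ℝ) => ∑ p, |u p| * B.hb p z) 2
      (B.jl (GI P B.d)) := memLp_finsetSum _ fun p _ => (B.memLp_hb p).const_mul _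
  have h2 : MemLp (fun z : B.Ω × (GI P B.d → ℝ) => |s| * ∑ p, |u p| * B.hb p z) 2
      (B.jl (GI P B.d)) := h1.const_mul _
  have h3 : MemLp (fun z : B.Ω × (GI P B.d → ℝ) => B.K + |s| * ∑ p, |u p| * B.hb p z) 2
      (B.jl (GI P B.d)) := (memLp_const B.K).add h2
  exact (memLp_const |Real.log (Fintype.card B.X)|).add h3

lemma memLp_lz : MemLp (B.lz s u) 2 (B.jl (GI P B.d)) := by
  refine (B.memLp_bound s u).mono (B.meas_lz s u).aestronglyMeasurable
    (Filter.Eventually.of_forall fun z => ?_)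
  rw [Real.norm_eq_abs, Real.norm_eq_abs]
  exact (B.abs_lz_le s u z).trans (le_abs_self _)

lemma int_lz : Integrable (B.lz s u) (B.jl (GI P B.d)) :=
  (B.memLp_lz s u).integrable (by norm_num)

lemma int_hm (p : Fin P) : Integrable (B.hm s u p) (B.jl (GI P B.d)) := by
  refine (B.int_hb p).mono' (B.meas_hm s u p).aestronglyMeasurable
    (Filter.Eventually.of_forall fun z => ?_)
  rw [Real.norm_eq_abs]
  exact B.abs_hm_le s u p z

lemma int_hv (p : Fin P) : Integrable (B.hv s u p) (B.jl (GI P B.d)) := by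
  refine (B.int_hb_sq p).mono' (B.meas_hv s u p).aestronglyMeasurable
    (Filter.Eventually.of_forall fun z => ?_)
  rw [Real.norm_eq_abs, abs_of_nonneg (B.hv_nonneg s u p z)]
  exact B.hv_le s u p z

lemma mh_eq_int (p : Fin P) : B.mh P s u p = ∫ z, B.hm s u p z ∂(B.jl (GI P B.d)) := by
  rw [mh, sys_av, (B.isWt _).rav_marg (0 : Fin 1) (fun z x => B.hh p z.2 x)]
  rfl

/-- The expected free energy of the perturbed system. -/
noncomputable def elz : ℝ := ∫ z, B.lz s u z ∂(B.jl (GI P B.d))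

/-- The process at a random point of the Gibbs measure deviates from a constant by at most the
thermal variance and the deviation of its Gibbs average. -/
lemma dev_le (p : Fin P) (c : ℝ) : B.dev P s u p c ≤
    1 / 2 + (∫ z, B.hv s u p z ∂(B.jl (GI P B.d))) / 2 +
      ∫ z, |B.hm s u p z - c| ∂(B.jl (GI P B.d)) := by
  rw [dev, sys_av, (B.isWt _).rav_marg (0 : Fin 1) (fun z x => |B.hh p z.2 x - c|)]
  have h1 : Integrable (fun z : B.Ω × (GI P B.d → ℝ) =>
      ∑ y, B.wt (B.coef P s u) z y * |B.hh p z.2 y - c|) (B.jl (GI P B.d)) := by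
    refine integrable_finsetSum _ fun y _ => ?_
    refine (integrable_mul_bdd ((B.int_hh P p y).sub (integrable_const c)).abs
      ((B.isWt (B.coef P s u)).meas y) 1 fun z => ?_).congr
      (Filter.Eventually.of_forall fun z => mul_comm _ _)
    rw [abs_of_nonneg ((B.isWt _).nn z y)]
    exact (B.isWt _).le_one z y
  have h2 : Integrable (fun z : B.Ω × (GI P B.d → ℝ) => |B.hm s u p z - c|)
      (B.jl (GI P B.d)) := ((B.int_hm s u p).sub (integrable_const c)).abs
  have h3 : Integrable (fun z : B.Ω × (GI P B.d → ℝ) => 1 / 2 + B.hv s u p z / 2)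
      (B.jl (GI P B.d)) := (integrable_const _).add ((B.int_hv s u p).div_const 2)
  have h4 := integral_mono h1 (h3.add h2) (fun z => ?_)
  · refine h4.trans (le_of_eq ?_)
    simp only [Pi.add_apply]
    rw [integral_add h3 h2, integral_add (integrable_const _) ((B.int_hv s u p).div_const 2),
      integral_const, integral_div]
    simp
  · simp only [Pi.add_apply]
    have e1 : ∀ y, |B.hh p z.2 y - c| ≤ 1 / 2 + (B.hh p z.2 y - B.hm s u p z) ^ 2 / 2 +
        |B.hm s u p z - c| := by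
      intro y
      have t1 : |B.hh p z.2 y - c| ≤ |B.hh p z.2 y - B.hm s u p z| + |B.hm s u p z - c| :=
        abs_sub_le _ _ _
      have t2 : |B.hh p z.2 y - B.hm s u p z| ≤
          1 / 2 + (B.hh p z.2 y - B.hm s u p z) ^ 2 / 2 := by
        rw [← sq_abs]
        linarith only [sq_nonneg (|B.hh p z.2 y - B.hm s u p z| - 1)]
      linarith
    have e2 : ∑ y, B.wt (B.coef P s u) z y * |B.hh p z.2 y - c| ≤
        ∑ y, B.wt (B.coef P s u) z y * (1 / 2 + (B.hh p z.2 y - B.hm s u p z) ^ 2 / 2 +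
        |B.hm s u p z - c|) :=
      Finset.sum_le_sum fun y _ => mul_le_mul_of_nonneg_left (e1 y) ((B.isWt _).nn z y)
    refine e2.trans (le_of_eq ?_)
    have e3 : B.hv s u p z = ∑ y, B.wt (B.coef P s u) z y *
        (B.hh p z.2 y - B.hm s u p z) ^ 2 := B.hv_eq s u p z
    have e4 : ∑ y, B.wt (B.coef P s u) z y = 1 := (B.isWt _).one z
    rw [e3]
    calc _ = (∑ y, B.wt (B.coef P s u) z y) * (1 / 2) +
          (∑ y, B.wt (B.coef P s u) z y * (B.hh p z.2 y - B.hm s u p z) ^ 2) / 2 +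
          (∑ y, B.wt (B.coef P s u) z y) * |B.hm s u p z - c| := by
          rw [Finset.sum_mul, Finset.sum_mul, Finset.sum_div, ← Finset.sum_add_distrib,
            ← Finset.sum_add_distrib]
          exact Finset.sum_congr rfl fun y _ => by ring
      _ = _ := by rw [e4]; ring

end Base

end Vale.Agent.P157.Par
end
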