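import Vale.Agent.P146.Bdl.B26
import Vale.Agent.P146.Bdl.B19
import Vale.Agent.P146.Bdl.B5
import Vale.Agent.P146.Bdl.B17
import Vale.Agent.P146.Bdl.B4
import Vale.Agent.P146.Bdl.B7

set_option linter.all false

section

/-!
Definitions for the spin consistency: an extra Gaussian field acting on the new spin.
-/

open MeasureTheory ProbabilityTheory Filter Topology

namespace Vale.Agent.P157.Par

open Vale.Agent.P367.GT (gM)
open Vale.Agent.P157.Par.Cube (ini las)

/-- The polynomial `ξ(x) = ∑_{p ≤ n} c_p x^p`. -/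
noncomputable def xi (c : ℕ → ℝ) (n : ℕ) (x : ℝ) : ℝ :=
  ∑ p ∈ Finset.range (n + 1), c p * x ^ p

/-- The overlap on the cube `{-1,1}^(N+1)`. -/
noncomputable def cR (N : ℕ) (x y : Fin (N + 1) → Bool) : ℝ := ∑ i, cubeφ N x i * cubeφ N y i

/-- The index set of the extra field. -/
abbrev KX (n N : ℕ) : Type := Unit ⊕ GI n (N + 1)

/-- The kernel of the Gaussian field with covariance `ξ(R)`. -/
noncomputable def kx (N : ℕ) {n : ℕ} (c : ℕ → ℝ) (x : Fin (N + 1) → Bool) : KX n N → ℝ :=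
  Sum.elim (fun _ => √(c 0)) (fun e => √(c ((e.1 : ℕ) + 1)) * ∏ i, cubeφ N x (e.2 i))

/-- The kernel of the extra field acting on the last spin of `{-1,1}^(N+2)`; its covariance is
`ε₁ ε₂ ξ(R)`, where `ε₁, ε₂` are the last spins and `R` is the overlap of the others. -/
noncomputable def ky (N : ℕ) {n : ℕ} (c : ℕ → ℝ) (y : Fin (N + 2) → Bool) : KX n N → ℝ :=
  fun e => sgn (las y) * kx N c (ini y) e

/-- The free energy increment due to the extra field, for the perceptron on `{-1,1}^(N+2)`. -/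
noncomputable def exN (f : ℝ → ℝ) (hf : Measurable f) (C : ℝ) (hC : ∀ x, |f x| ≤ C)
    (N M P : ℕ) (s : ℝ) (u : Fin P → ℝ) (n : ℕ) (c : ℕ → ℝ) : ℝ :=
  ∫ z : ((Fin M → Fin (N + 2) → ℝ) × (GI P (N + 2) → ℝ)) × (KX n N → ℝ),
    Real.log (∑ y, (pS f hf C hC (N + 1) M P s u).w z.1 y * Real.exp (lin (ky N c) z.2 y))
    ∂((pS f hf C hC (N + 1) M P s u).P.prod (gM (KX n N)))

/-- The kernel of the field of the new spin, with the extra field. -/
noncomputable def kerX {M N n : ℕ} (δ : ℝ) (f1 : ℝ → ℝ) (c : ℕ → ℝ)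
    (t : Fin M → Fin (N + 1) → ℝ) (x : Fin (N + 1) → Bool) : Fin M ⊕ KX n N → ℝ :=
  Sum.elim (ker1 δ f1 t x) (kx N c x)

/-- The cavity term of the new spin, with the extra field. -/
noncomputable def T1x (f f1 f2 : ℝ → ℝ) (hf : Measurable f) (C : ℝ) (hC : ∀ x, |f x| ≤ C)
    (N M P : ℕ) (s : ℝ) (u : Fin P → ℝ) (n : ℕ) (c : ℕ → ℝ) : ℝ :=
  ∫ z : ((Fin M → Fin (N + 1) → ℝ) × (GI P (N + 1) → ℝ)) × (Fin M ⊕ KX n N → ℝ),
    Real.log (∑ x, (pS f hf C hC N M P s u).w z.1 x *
      (Real.exp (cavB (1 / ((N : ℝ) + 2)) f1 f2 fun a => cubeS (z.1.1 a) x) *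
        Real.cosh (lin (kerX (n := n) (1 / ((N : ℝ) + 2)) f1 c z.1.1) z.2 x)))
    ∂((pS f hf C hC N M P s u).P.prod (gM (Fin M ⊕ KX n N)))

end Vale.Agent.P157.Par
end

section

/-! The first order effect of a small Gaussian field. -/

open MeasureTheory ProbabilityTheory Filter Topology

namespace Vale.Agent.P157.Par

open Vale.Agent.P367.GT (gM)
open Vale.Agent.P157.Par.Cube (ini las)

lemma tder_exp1 (z : ℝ) : |Real.exp z - 1 - z| ≤ |z| ^ 2 * Real.exp |z| := by
  have h := Complex.norm_exp_sub_sum_le_norm_mul_exp (z : ℂ) 2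
  rw [Finset.sum_range_succ, Finset.sum_range_succ, Finset.sum_range_zero] at h
  simp only [pow_zero, Nat.factorial, Nat.cast_one, div_one, zero_add, pow_one, mul_one] at h
  have e : Complex.exp (z : ℂ) - (1 + (z : ℂ)) = ((Real.exp z - 1 - z : ℝ) : ℂ) := by
    push_cast
    ring
  rw [e, Complex.norm_real, Complex.norm_real, Real.norm_eq_abs, Real.norm_eq_abs] at h
  exact h

lemma tder_exp2 (z : ℝ) : |Real.exp z - 1 - z - z ^ 2 / 2| ≤ |z| ^ 3 * Real.exp |z| := by
  have h := Complex.norm_exp_sub_sum_le_norm_mul_exp (z : ℂ) 3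
  rw [Finset.sum_range_succ, Finset.sum_range_succ, Finset.sum_range_succ,
    Finset.sum_range_zero] at h
  simp only [pow_zero, Nat.factorial, Nat.cast_one, div_one, zero_add, pow_one, mul_one] at h
  have e : Complex.exp (z : ℂ) - (1 + (z : ℂ) + (z : ℂ) ^ 2 / ((Nat.succ 1 : ℕ) : ℂ))
      = ((Real.exp z - 1 - z - z ^ 2 / 2 : ℝ) : ℂ) := by
    push_cast
    ring
  rw [e, Complex.norm_real, Complex.norm_real, Real.norm_eq_abs, Real.norm_eq_abs] at h
  exact h

lemma tder_log {u : ℝ} (hu : 0 ≤ u) : |Real.log (1 + u) - u| ≤ u ^ 2 / 2 := by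
  have h1 : Real.log (1 + u) ≤ u := by
    have := Real.log_le_sub_one_of_pos (show 0 < 1 + u by linarith)
    linarith
  have h2 : u - u ^ 2 / 2 ≤ Real.log (1 + u) := by
    by_cases h3 : u ≤ 1
    · have h4 := Real.le_log_one_add_of_nonneg hu
      refine le_trans ?_ h4
      rw [le_div_iff₀ (by linarith)]
      linarith only [hu, mul_nonneg hu hu, mul_nonneg (mul_nonneg hu hu) hu]
    · push Not at h3
      by_cases h5 : u ≤ 2
      · have h4 := Real.le_log_one_add_of_nonneg hu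
        refine le_trans ?_ h4
        rw [le_div_iff₀ (by linarith)]
        linarith only [mul_nonneg hu hu, mul_nonneg (mul_nonneg hu hu) hu]
      · push Not at h5
        have : u - u ^ 2 / 2 ≤ 0 := by nlinarith
        exact this.trans (Real.log_nonneg (by linarith))
  rw [abs_le]
  constructor <;> linarith

section det

variable {Y : Type} [Fintype Y]

lemma tder_det {p : Y → ℝ} (hp : ∀ y, 0 ≤ p y) (hp1 : ∑ y, p y = 1) (X : Y → ℝ) :
    |Real.log (∑ y, p y * Real.exp (X y)) - ∑ y, p y * X y -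
      1 / 2 * ∑ y, p y * (X y - ∑ y', p y' * X y') ^ 2| ≤
      2 * ∑ y, p y * (|X y - ∑ y', p y' * X y'| ^ 3 *
        Real.exp (3 * |X y - ∑ y', p y' * X y'|)) := by
  set m := ∑ y', p y' * X y' with hm
  set Z : Y → ℝ := fun y => X y - m with hZ
  have hZ0 : ∑ y, p y * Z y = 0 := by
    simp only [hZ, mul_sub, Finset.sum_sub_distrib]
    rw [← Finset.sum_mul, hp1, one_mul, ← hm, sub_self]
  have hfac : ∑ y, p y * Real.exp (X y) = Real.exp m * ∑ y, p y * Real.exp (Z y) := by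
    rw [Finset.mul_sum]
    refine Finset.sum_congr rfl fun y _ => ?_
    have : X y = m + Z y := by simp [hZ]
    rw [this, Real.exp_add]
    ring
  set u := ∑ y, p y * (Real.exp (Z y) - 1 - Z y) with hu
  have hu1 : ∑ y, p y * Real.exp (Z y) = 1 + u := by
    simp only [hu, mul_sub, Finset.sum_sub_distrib, mul_one]
    rw [hp1, hZ0]
    ring
  have hu0 : 0 ≤ u := Finset.sum_nonneg fun y _ => mul_nonneg (hp y) (by
    have := Real.add_one_le_exp (Z y)
    linarith)
  have hlog : Real.log (∑ y, p y * Real.exp (X y)) = m + Real.log (1 + u) := by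
    rw [hfac, hu1, Real.log_mul (Real.exp_pos _).ne' (by linarith), Real.log_exp]
  have hu2 : |u - 1 / 2 * ∑ y, p y * Z y ^ 2| ≤ ∑ y, p y * (|Z y| ^ 3 * Real.exp (3 * |Z y|)) := by
    have e : u - 1 / 2 * ∑ y, p y * Z y ^ 2
        = ∑ y, p y * (Real.exp (Z y) - 1 - Z y - Z y ^ 2 / 2) := by
      rw [hu, Finset.mul_sum, ← Finset.sum_sub_distrib]
      refine Finset.sum_congr rfl fun y _ => by ring
    rw [e]
    refine (Finset.abs_sum_le_sum_abs _ _).trans (Finset.sum_le_sum fun y _ => ?_)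
    rw [abs_mul, abs_of_nonneg (hp y)]
    refine mul_le_mul_of_nonneg_left ((tder_exp2 _).trans ?_) (hp y)
    refine mul_le_mul_of_nonneg_left (Real.exp_le_exp.2 ?_) (by positivity)
    linarith only [abs_nonneg (Z y)]
  have hu3 : u ^ 2 ≤ ∑ y, p y * (|Z y| ^ 3 * Real.exp (3 * |Z y|)) := by
    have h1 : u ≤ ∑ y, p y * (|Z y| ^ 2 * Real.exp |Z y|) := by
      refine Finset.sum_le_sum fun y _ => mul_le_mul_of_nonneg_left ?_ (hp y)
      exact (le_abs_self _).trans (tder_exp1 _)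
    have h2 : u ^ 2 ≤ (∑ y, p y * (|Z y| ^ 2 * Real.exp |Z y|)) ^ 2 :=
      pow_le_pow_left₀ hu0 h1 2
    have h3 : (∑ y, p y * (|Z y| ^ 2 * Real.exp |Z y|)) ^ 2
        ≤ ∑ y, p y * (|Z y| ^ 2 * Real.exp |Z y|) ^ 2 := by
      have h5 : 0 ≤ ∑ y, p y * (|Z y| ^ 2 * Real.exp |Z y| -
          ∑ y', p y' * (|Z y'| ^ 2 * Real.exp |Z y'|)) ^ 2 :=
        Finset.sum_nonneg fun y _ => mul_nonneg (hp y) (sq_nonneg _)
      set q := ∑ y', p y' * (|Z y'| ^ 2 * Real.exp |Z y'|) with hq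
      have h6 : ∑ y, p y * (|Z y| ^ 2 * Real.exp |Z y| - q) ^ 2
          = ∑ y, p y * (|Z y| ^ 2 * Real.exp |Z y|) ^ 2 - q ^ 2 := by
        have : ∀ y, p y * (|Z y| ^ 2 * Real.exp |Z y| - q) ^ 2
            = p y * (|Z y| ^ 2 * Real.exp |Z y|) ^ 2
              - 2 * q * (p y * (|Z y| ^ 2 * Real.exp |Z y|)) + q ^ 2 * p y := fun y => by ring
        simp only [this, Finset.sum_add_distrib, Finset.sum_sub_distrib]
        rw [← Finset.mul_sum, ← Finset.mul_sum, hp1, ← hq]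
        ring
      linarith
    refine h2.trans (h3.trans (Finset.sum_le_sum fun y _ => ?_))
    refine mul_le_mul_of_nonneg_left ?_ (hp y)
    have h7 : |Z y| ≤ Real.exp |Z y| := by
      have := Real.add_one_le_exp |Z y|
      linarith
    have h8 : Real.exp (3 * |Z y|) = Real.exp |Z y| * Real.exp |Z y| ^ 2 := by
      rw [← Real.exp_nat_mul, ← Real.exp_add]
      congr 1
      push_cast
      ring
    rw [h8]
    have h9 : (|Z y| ^ 2 * Real.exp |Z y|) ^ 2 = |Z y| ^ 3 * (|Z y| * Real.exp |Z y| ^ 2) := by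
      ring
    rw [h9]
    refine mul_le_mul_of_nonneg_left ?_ (by positivity)
    exact mul_le_mul_of_nonneg_right h7 (by positivity)
  have hfin := tder_log hu0
  rw [hlog]
  have e : m + Real.log (1 + u) - m - 1 / 2 * ∑ y, p y * Z y ^ 2
      = (Real.log (1 + u) - u) + (u - 1 / 2 * ∑ y, p y * Z y ^ 2) := by ring
  rw [e]
  have := abs_add_le (Real.log (1 + u) - u) (u - 1 / 2 * ∑ y, p y * Z y ^ 2)
  have h10 : 0 ≤ ∑ y, p y * (|Z y| ^ 3 * Real.exp (3 * |Z y|)) :=
    Finset.sum_nonneg fun y _ => mul_nonneg (hp y) (by positivity)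
  linarith only [hu2, hu3, hfin, this, h10]

end det

section law

variable {K : Type} [Fintype K] [DecidableEq K]

/-- The law of a linear form. -/
lemma tder_law (V : K → ℝ) : (gM K).map (fun ξ => ∑ c, V c * ξ c) =
    (gaussianReal 0 1).map (fun x => √(∑ c, V c ^ 2) * x) := by
  have hs0 : 0 ≤ ∑ c, V c ^ 2 := Finset.sum_nonneg fun c _ => sq_nonneg _
  by_cases hs : ∑ c, V c ^ 2 = 0
  · have hV : ∀ c, V c = 0 := fun c => by
      have := (Finset.sum_eq_zero_iff_of_nonneg fun c _ => sq_nonneg (V c)).1 hs c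
        (Finset.mem_univ c)
      exact pow_eq_zero_iff (two_ne_zero) |>.1 this
    simp only [hV, zero_mul, Finset.sum_const_zero, ne_eq, OfNat.ofNat_ne_zero,
      not_false_eq_true, zero_pow, Real.sqrt_zero]
    rw [Measure.map_const, Measure.map_const]
    simp
  · have hs1 : 0 < ∑ c, V c ^ 2 := lt_of_le_of_ne hs0 (Ne.symm hs)
    have hσ : 0 < √(∑ c, V c ^ 2) := Real.sqrt_pos.2 hs1
    set σ := √(∑ c, V c ^ 2) with hσd
    have h1 : ∑ c, (fun _ : Unit => fun c => V c / σ) () c ^ 2 = 1 := by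
      simp only [div_pow]
      rw [← Finset.sum_div, hσd, Real.sq_sqrt hs0, div_self hs]
    have h2 := Lin.law_lin (J := Unit) (fun _ : Unit => fun c => V c / σ) () h1
    rw [← h2, Measure.map_map (by fun_prop) (by unfold lin; fun_prop)]
    congr 1
    funext ξ
    simp only [Function.comp, lin]
    rw [Finset.mul_sum]
    refine Finset.sum_congr rfl fun c _ => ?_
    field_simp

omit [DecidableEq K] in
lemma tder_meas (V : K → ℝ) : Measurable fun ξ : K → ℝ => ∑ c, V c * ξ c := by fun_prop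

lemma tder_int (V : K → ℝ) {h : ℝ → ℝ} (hm : Measurable h) :
    ∫ ξ, h (∑ c, V c * ξ c) ∂(gM K) = ∫ x, h (√(∑ c, V c ^ 2) * x) ∂(gaussianReal 0 1) := by
  rw [← integral_map (tder_meas V).aemeasurable hm.aestronglyMeasurable, tder_law,
    integral_map (by fun_prop) hm.aestronglyMeasurable]

lemma tder_intble (V : K → ℝ) {h : ℝ → ℝ} (hm : Measurable h)
    (hi : Integrable (fun x => h (√(∑ c, V c ^ 2) * x)) (gaussianReal 0 1)) :
    Integrable (fun ξ => h (∑ c, V c * ξ c)) (gM K) := by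
  refine (integrable_map_measure hm.aestronglyMeasurable (tder_meas V).aemeasurable).1 ?_
  rw [tder_law]
  exact (integrable_map_measure hm.aestronglyMeasurable (by fun_prop)).2 hi

lemma tder_i1 : Integrable (fun x : ℝ => x) (gaussianReal 0 1) :=
  (memLp_id_gaussianReal (μ := 0) (v := 1) 1).integrable le_rfl

lemma tder_i2 : Integrable (fun x : ℝ => x ^ 2) (gaussianReal 0 1) :=
  (memLp_id_gaussianReal (μ := 0) (v := 1) 2).integrable_sq

lemma tder_m2 : ∫ x : ℝ, x ^ 2 ∂(gaussianReal 0 1) = 1 := by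
  have h := Lin.integral_sq_sub_one
  rw [integral_sub tder_i2 (integrable_const _)] at h
  simp only [integral_const, smul_eq_mul, mul_one, probReal_univ] at h
  linarith

/-- The constant. -/
noncomputable def tderK : ℝ := ∫ x : ℝ, |x| ^ 3 * Real.exp (6 * |x|) ∂(gaussianReal 0 1)

lemma tder_K0 : 0 ≤ tderK := integral_nonneg fun x => by positivity

lemma tder_i3 : Integrable (fun x : ℝ => |x| ^ 3 * Real.exp (6 * |x|)) (gaussianReal 0 1) := by
  refine Integrable.mono' (Lin.integrable_exp_abs 9)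
    (Measurable.aestronglyMeasurable (by fun_prop)) (Filter.Eventually.of_forall fun x => ?_)
  rw [Real.norm_eq_abs, abs_of_nonneg (by positivity)]
  have h1 : |x| ≤ Real.exp |x| := by
    have := Real.add_one_le_exp |x|
    linarith
  have h2 : |x| ^ 3 ≤ Real.exp |x| ^ 3 := pow_le_pow_left₀ (abs_nonneg _) h1 3
  calc |x| ^ 3 * Real.exp (6 * |x|) ≤ Real.exp |x| ^ 3 * Real.exp (6 * |x|) :=
        mul_le_mul_of_nonneg_right h2 (Real.exp_pos _).le
    _ = Real.exp (9 * |x|) := by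
        rw [← Real.exp_nat_mul, ← Real.exp_add]
        congr 1
        push_cast
        ring

/-- pointwise bound for the third moment -/
lemma tder_pt {σ A x : ℝ} (hσ : 0 ≤ σ) (hA : 0 ≤ A) (hA1 : A ≤ 1) (h : σ ^ 2 ≤ 4 * A) :
    |σ * x| ^ 3 * Real.exp (3 * |σ * x|) ≤ 8 * (A * √A) * (|x| ^ 3 * Real.exp (6 * |x|)) := by
  have h1 : σ ≤ 2 * √A := by
    apply le_of_sq_le_sq _ (by positivity)
    rw [mul_pow, Real.sq_sqrt hA]
    linarith
  have h2 : √A ≤ 1 := Real.sqrt_le_iff.2 ⟨zero_le_one, by linarith⟩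
  have h3 : σ ≤ 2 := by linarith
  rw [abs_mul, abs_of_nonneg hσ, mul_pow]
  have h4 : σ ^ 3 ≤ 8 * (A * √A) := by
    calc σ ^ 3 ≤ (2 * √A) ^ 3 := pow_le_pow_left₀ hσ h1 3
      _ = 8 * (√A ^ 2 * √A) := by ring
      _ = _ := by rw [Real.sq_sqrt hA]
  have h5 : Real.exp (3 * (σ * |x|)) ≤ Real.exp (6 * |x|) := by
    apply Real.exp_le_exp.2
    nlinarith only [hσ, hA1, h, abs_nonneg x]
  calc σ ^ 3 * |x| ^ 3 * Real.exp (3 * (σ * |x|))
      ≤ 8 * (A * √A) * |x| ^ 3 * Real.exp (6 * |x|) := by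
        apply mul_le_mul (mul_le_mul_of_nonneg_right h4 (by positivity)) h5
          (Real.exp_pos _).le (by positivity)
    _ = _ := by ring

lemma tder_mom (V : K → ℝ) {A : ℝ} (hA : 0 ≤ A) (hA1 : A ≤ 1) (h : ∑ c, V c ^ 2 ≤ 4 * A) :
    Integrable (fun ξ => |∑ c, V c * ξ c| ^ 3 * Real.exp (3 * |∑ c, V c * ξ c|)) (gM K) ∧
    ∫ ξ, |∑ c, V c * ξ c| ^ 3 * Real.exp (3 * |∑ c, V c * ξ c|) ∂(gM K) ≤
      8 * (A * √A) * tderK := by
  have hs0 : 0 ≤ ∑ c, V c ^ 2 := Finset.sum_nonneg fun c _ => sq_nonneg _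
  have hsq : √(∑ c, V c ^ 2) ^ 2 ≤ 4 * A := by rwa [Real.sq_sqrt hs0]
  have hi : Integrable (fun x => |√(∑ c, V c ^ 2) * x| ^ 3 *
      Real.exp (3 * |√(∑ c, V c ^ 2) * x|)) (gaussianReal 0 1) := by
    refine Integrable.mono' (tder_i3.const_mul (8 * (A * √A)))
      (Measurable.aestronglyMeasurable (by fun_prop)) (Filter.Eventually.of_forall fun x => ?_)
    rw [Real.norm_eq_abs, abs_of_nonneg (by positivity)]
    exact tder_pt (Real.sqrt_nonneg _) hA hA1 hsq
  constructor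
  · exact tder_intble V (h := fun t => |t| ^ 3 * Real.exp (3 * |t|)) (by fun_prop) hi
  · rw [tder_int V (h := fun t => |t| ^ 3 * Real.exp (3 * |t|)) (by fun_prop), tderK,
      ← integral_const_mul]
    exact integral_mono hi (tder_i3.const_mul _) fun x =>
      tder_pt (Real.sqrt_nonneg _) hA hA1 hsq

lemma tder_mean (V : K → ℝ) : Integrable (fun ξ => ∑ c, V c * ξ c) (gM K) ∧
    ∫ ξ, ∑ c, V c * ξ c ∂(gM K) = 0 := by
  constructor
  · exact tder_intble V (h := fun t => t) measurable_id (tder_i1.const_mul _)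
  · rw [tder_int V (h := fun t => t) measurable_id, integral_const_mul]
    have : ∫ x : ℝ, x ∂(gaussianReal 0 1) = 0 := integral_id_gaussianReal (μ := 0) (v := 1)
    rw [this, mul_zero]

lemma tder_var (V : K → ℝ) : Integrable (fun ξ => (∑ c, V c * ξ c) ^ 2) (gM K) ∧
    ∫ ξ, (∑ c, V c * ξ c) ^ 2 ∂(gM K) = ∑ c, V c ^ 2 := by
  have hs0 : 0 ≤ ∑ c, V c ^ 2 := Finset.sum_nonneg fun c _ => sq_nonneg _
  have e : ∀ x : ℝ, (√(∑ c, V c ^ 2) * x) ^ 2 = (∑ c, V c ^ 2) * x ^ 2 := fun x => by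
    rw [mul_pow, Real.sq_sqrt hs0]
  constructor
  · refine tder_intble V (h := fun t => t ^ 2) (by fun_prop) ?_
    simp only [e]
    exact tder_i2.const_mul _
  · rw [tder_int V (h := fun t => t ^ 2) (by fun_prop)]
    simp only [e]
    rw [integral_const_mul, tder_m2, mul_one]

variable {Y : Type} [Fintype Y]

/-- One small Gaussian field, for fixed weights. -/
lemma tder_main {p : Y → ℝ} (hp : ∀ y, 0 ≤ p y) (hp1 : ∑ y, p y = 1) (U : Y → K → ℝ) {A : ℝ}
    (hA : 0 ≤ A) (hA1 : A ≤ 1) (hU : ∀ y, ∑ c, U y c ^ 2 = A) :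
    |∫ ξ, Real.log (∑ y, p y * Real.exp (lin U ξ y)) ∂(gM K) -
      1 / 2 * (A - ∑ y, ∑ y', p y * p y' * gram U U y y')| ≤ 16 * tderK * (A * √A) := by
  set mc : K → ℝ := fun c => ∑ y, p y * U y c with hmc
  set V : Y → K → ℝ := fun y c => U y c - mc c with hV
  have hm : ∀ ξ : K → ℝ, ∑ y, p y * lin U ξ y = ∑ c, mc c * ξ c := by
    intro ξ
    simp only [lin, hmc, Finset.mul_sum, Finset.sum_mul]
    rw [Finset.sum_comm]
    refine Finset.sum_congr rfl fun c _ => Finset.sum_congr rfl fun y _ => by ring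
  have hZ : ∀ (ξ : K → ℝ) (y : Y), lin U ξ y - ∑ y', p y' * lin U ξ y' = ∑ c, V y c * ξ c := by
    intro ξ y
    rw [hm]
    simp only [lin, hV, sub_mul, Finset.sum_sub_distrib]
  -- the variances
  have hmc2 : ∑ c, mc c ^ 2 = ∑ y, ∑ y', p y * p y' * gram U U y y' := by
    have e0 : ∀ c, mc c ^ 2 = ∑ y, ∑ y', p y * p y' * (U y c * U y' c) := by
      intro c
      rw [sq, hmc, Finset.sum_mul_sum]
      refine Finset.sum_congr rfl fun y _ => Finset.sum_congr rfl fun y' _ => by ring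
    simp only [e0, gram, Finset.mul_sum]
    rw [Finset.sum_comm]
    refine Finset.sum_congr rfl fun y _ => ?_
    rw [Finset.sum_comm]
  have hvar : ∑ y, p y * ∑ c, V y c ^ 2 = A - ∑ c, mc c ^ 2 := by
    have e1 : ∀ y, p y * ∑ c, V y c ^ 2 = p y * ∑ c, U y c ^ 2
        - 2 * ∑ c, mc c * (p y * U y c) + p y * ∑ c, mc c ^ 2 := by
      intro y
      simp only [hV, Finset.mul_sum]
      rw [← Finset.sum_sub_distrib, ← Finset.sum_add_distrib]
      refine Finset.sum_congr rfl fun c _ => by ring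
    simp only [e1, Finset.sum_add_distrib, Finset.sum_sub_distrib]
    have e2 : ∑ y, p y * ∑ c, U y c ^ 2 = A := by
      simp only [hU]
      rw [← Finset.sum_mul, hp1, one_mul]
    have e3 : ∑ y, 2 * ∑ c, mc c * (p y * U y c) = 2 * ∑ c, mc c ^ 2 := by
      rw [← Finset.mul_sum, Finset.sum_comm]
      congr 1
      refine Finset.sum_congr rfl fun c _ => ?_
      rw [← Finset.mul_sum, sq]
    have e4 : ∑ y, p y * ∑ c, mc c ^ 2 = ∑ c, mc c ^ 2 := by
      rw [← Finset.sum_mul, hp1, one_mul]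
    rw [e2, e3, e4]
    ring
  have hmcA : ∑ c, mc c ^ 2 ≤ A := by
    have : 0 ≤ ∑ y, p y * ∑ c, V y c ^ 2 :=
      Finset.sum_nonneg fun y _ => mul_nonneg (hp y) (Finset.sum_nonneg fun c _ => sq_nonneg _)
    linarith
  have hV4 : ∀ y, ∑ c, V y c ^ 2 ≤ 4 * A := by
    intro y
    have : ∑ c, V y c ^ 2 ≤ ∑ c, (2 * U y c ^ 2 + 2 * mc c ^ 2) := by
      refine Finset.sum_le_sum fun c _ => ?_
      simp only [hV]
      linarith only [sq_nonneg (U y c + mc c)]
    rw [Finset.sum_add_distrib, ← Finset.mul_sum, ← Finset.mul_sum, hU] at this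
    linarith
  -- the remainder
  set F : (K → ℝ) → ℝ := fun ξ => Real.log (∑ y, p y * Real.exp (lin U ξ y)) -
    ∑ y, p y * lin U ξ y - 1 / 2 * ∑ y, p y * (lin U ξ y - ∑ y', p y' * lin U ξ y') ^ 2 with hF
  set R : (K → ℝ) → ℝ := fun ξ => 2 * ∑ y, p y * (|∑ c, V y c * ξ c| ^ 3 *
    Real.exp (3 * |∑ c, V y c * ξ c|)) with hR
  have hFR : ∀ ξ, |F ξ| ≤ R ξ := by
    intro ξ
    have h := tder_det hp hp1 (lin U ξ)
    simp only [hF, hR, ← hZ]
    exact h
  have hRi : Integrable R (gM K) :=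
    (integrable_finsetSum _ fun y _ => ((tder_mom (V y) hA hA1 (hV4 y)).1.const_mul _)).const_mul _
  have hlm : Measurable fun ξ : K → ℝ => Real.log (∑ y, p y * Real.exp (lin U ξ y)) := by
    unfold lin; fun_prop
  have hFm : Measurable F := by
    simp only [hF]
    unfold lin
    fun_prop
  have hFi : Integrable F (gM K) := Integrable.mono' hRi hFm.aestronglyMeasurable
    (Filter.Eventually.of_forall fun ξ => by rw [Real.norm_eq_abs]; exact hFR ξ)
  have hmi : Integrable (fun ξ : K → ℝ => ∑ c, mc c * ξ c) (gM K) := (tder_mean mc).1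
  have hqi : Integrable (fun ξ : K → ℝ => 1 / 2 * ∑ y, p y * (∑ c, V y c * ξ c) ^ 2) (gM K) :=
    (integrable_finsetSum _ fun y _ => ((tder_var (V y)).1.const_mul _)).const_mul _
  have hdec : ∀ ξ, Real.log (∑ y, p y * Real.exp (lin U ξ y)) =
      F ξ + (∑ c, mc c * ξ c + 1 / 2 * ∑ y, p y * (∑ c, V y c * ξ c) ^ 2) := by
    intro ξ
    have e6 : ∑ y, p y * (lin U ξ y - ∑ y', p y' * lin U ξ y') ^ 2 =
        ∑ y, p y * (∑ c, V y c * ξ c) ^ 2 := by
      refine Finset.sum_congr rfl fun y _ => ?_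
      rw [hZ]
    simp only [hF]
    rw [e6, hm]
    ring
  have hint : ∫ ξ, Real.log (∑ y, p y * Real.exp (lin U ξ y)) ∂(gM K) =
      ∫ ξ, F ξ ∂(gM K) + 1 / 2 * (A - ∑ c, mc c ^ 2) := by
    simp only [hdec]
    rw [integral_add hFi (show Integrable (fun ξ : K → ℝ => ∑ c, mc c * ξ c +
      1 / 2 * ∑ y, p y * (∑ c, V y c * ξ c) ^ 2) (gM K) from hmi.add hqi),
      integral_add hmi hqi, (tder_mean mc).2,
      integral_const_mul, integral_finsetSum _ fun y _ => ((tder_var (V y)).1.const_mul _)]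
    simp only [integral_const_mul, (tder_var _).2]
    rw [hvar, zero_add]
  rw [hint, hmc2]
  have e5 : ∫ ξ, F ξ ∂(gM K) + 1 / 2 * (A - ∑ y, ∑ y', p y * p y' * gram U U y y') -
      1 / 2 * (A - ∑ y, ∑ y', p y * p y' * gram U U y y') = ∫ ξ, F ξ ∂(gM K) := by ring
  rw [e5]
  calc |∫ ξ, F ξ ∂(gM K)| ≤ ∫ ξ, R ξ ∂(gM K) := by
        rw [← Real.norm_eq_abs]
        exact norm_integral_le_of_norm_le hRi (Filter.Eventually.of_forall fun ξ => by
          rw [Real.norm_eq_abs]; exact hFR ξ)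
    _ = 2 * ∑ y, p y * ∫ ξ, |∑ c, V y c * ξ c| ^ 3 *
          Real.exp (3 * |∑ c, V y c * ξ c|) ∂(gM K) := by
        simp only [hR]
        rw [integral_const_mul, integral_finsetSum _ fun y _ =>
          ((tder_mom (V y) hA hA1 (hV4 y)).1.const_mul _)]
        simp only [integral_const_mul]
    _ ≤ 2 * ∑ y, p y * (8 * (A * √A) * tderK) := by
        refine mul_le_mul_of_nonneg_left (Finset.sum_le_sum fun y _ =>
          mul_le_mul_of_nonneg_left (tder_mom (V y) hA hA1 (hV4 y)).2 (hp y)) (by norm_num)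
    _ = 16 * tderK * (A * √A) := by
        rw [← Finset.sum_mul, hp1]
        ring

end law

section app

lemma tder_xi_eq (c : ℕ → ℝ) (n : ℕ) (x : ℝ) :
    xi c n x = c 0 + ∑ p : Fin n, c ((p : ℕ) + 1) * x ^ ((p : ℕ) + 1) := by
  unfold xi
  rw [Finset.sum_range_succ', Fin.sum_univ_eq_sum_range (fun p => c (p + 1) * x ^ (p + 1)) n]
  simp
  ring

/-- The covariance of the extra field. -/
lemma tder_gram_kx (N : ℕ) {n : ℕ} {c : ℕ → ℝ} (hc : ∀ p, 0 ≤ c p) (x y : Fin (N + 1) → Bool) :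
    gram (kx (n := n) N c) (kx N c) x y = xi c n (cR N x y) := by
  rw [tder_xi_eq]
  unfold gram kx cR
  rw [Fintype.sum_sum_type]
  simp only [Sum.elim_inl, Sum.elim_inr, Finset.univ_unique, Finset.sum_singleton]
  rw [Real.mul_self_sqrt (hc 0)]
  congr 1
  rw [Fintype.sum_sigma]
  refine Finset.sum_congr rfl fun p _ => ?_
  rw [Fintype.sum_pow, Finset.mul_sum]
  refine Finset.sum_congr rfl fun k _ => ?_
  rw [Finset.prod_mul_distrib]
  simp only
  have := Real.mul_self_sqrt (hc ((p : ℕ) + 1))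
  calc √(c ((p : ℕ) + 1)) * (∏ i, cubeφ N x (k i)) * (√(c ((p : ℕ) + 1)) * ∏ i, cubeφ N y (k i))
      = (√(c ((p : ℕ) + 1)) * √(c ((p : ℕ) + 1))) *
        ((∏ i, cubeφ N x (k i)) * ∏ i, cubeφ N y (k i)) := by ring
    _ = _ := by rw [this]

lemma tder_gram_ky (N : ℕ) {n : ℕ} {c : ℕ → ℝ} (hc : ∀ p, 0 ≤ c p) (x y : Fin (N + 2) → Bool) :
    gram (ky (n := n) N c) (ky N c) x y =
      sgn (las x) * sgn (las y) * xi c n (cR N (ini x) (ini y)) := by
  rw [← tder_gram_kx N hc]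
  unfold gram ky
  rw [Finset.mul_sum]
  refine Finset.sum_congr rfl fun e _ => by ring

lemma tder_ky_sq (N : ℕ) {n : ℕ} {c : ℕ → ℝ} (hc : ∀ p, 0 ≤ c p) (y : Fin (N + 2) → Bool) :
    ∑ e, ky (n := n) N c y e ^ 2 = xi c n 1 := by
  have h := tder_gram_ky (n := n) N hc y y
  have h1 : cR N (ini y) (ini y) = 1 := by
    unfold cR
    simp_rw [← sq]
    exact Cube.sum_cubeφ_sq N (ini y)
  rw [h1, ← sq, sgn_sq, one_mul] at h
  rw [← h]
  unfold gram
  refine Finset.sum_congr rfl fun e _ => by ring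

/-- A sum over two replicas. -/
lemma tder_two {X : Type} [Fintype X] (w : X → ℝ) (G : X → X → ℝ) :
    ∑ x : Fin 2 → X, (∏ i, w (x i)) * G (x 0) (x 1) = ∑ y, ∑ y', w y * w y' * G y y' := by
  rw [← (finTwoArrowEquiv X).symm.sum_comp, Fintype.sum_prod_type]
  refine Finset.sum_congr rfl fun y _ => Finset.sum_congr rfl fun y' _ => ?_
  simp [finTwoArrowEquiv, Fin.prod_univ_two]

lemma tder_logb {Y : Type} [Fintype Y] {p : Y → ℝ} (hp : ∀ y, 0 ≤ p y) (hp1 : ∑ y, p y = 1)
    (E : Y → ℝ) : |Real.log (∑ y, p y * Real.exp (E y))| ≤ ∑ y, |E y| := by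
  set M := ∑ y, |E y| with hM
  have hEy : ∀ y, |E y| ≤ M := fun y => Finset.single_le_sum (f := fun y => |E y|)
    (fun y _ => abs_nonneg _) (Finset.mem_univ y)
  have h1 : Real.exp (-M) ≤ ∑ y, p y * Real.exp (E y) := by
    calc Real.exp (-M) = ∑ y, p y * Real.exp (-M) := by rw [← Finset.sum_mul, hp1, one_mul]
      _ ≤ _ := Finset.sum_le_sum fun y _ => mul_le_mul_of_nonneg_left (Real.exp_le_exp.2 (by
          linarith [neg_abs_le (E y), hEy y])) (hp y)
  have h2 : ∑ y, p y * Real.exp (E y) ≤ Real.exp M := by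
    calc ∑ y, p y * Real.exp (E y) ≤ ∑ y, p y * Real.exp M :=
        Finset.sum_le_sum fun y _ => mul_le_mul_of_nonneg_left (Real.exp_le_exp.2 (by
          linarith [le_abs_self (E y), hEy y])) (hp y)
      _ = Real.exp M := by rw [← Finset.sum_mul, hp1, one_mul]
  have l1 := Real.log_le_log (Real.exp_pos _) h1
  have l2 := Real.log_le_log (lt_of_lt_of_le (Real.exp_pos _) h1) h2
  rw [Real.log_exp] at l1 l2
  rw [abs_le]
  constructor <;> linarith

/-- The free energy increment due to the extra field, to the first order. -/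
theorem extra_deriv : ∃ K : ℝ, 0 ≤ K ∧ ∀ (f : ℝ → ℝ) (hf : Measurable f) (C : ℝ)
    (hC : ∀ x, |f x| ≤ C) (N M P : ℕ) (s : ℝ) (u : Fin P → ℝ) (n : ℕ) (c : ℕ → ℝ),
    (∀ p, 0 ≤ c p) → xi c n 1 ≤ 1 →
    |exN f hf C hC N M P s u n c - 1 / 2 * (xi c n 1 -
      (pS f hf C hC (N + 1) M P s u).tav (n := 2) (fun _ x =>
        sgn (las (x 0)) * sgn (las (x 1)) * xi c n (cR N (ini (x 0)) (ini (x 1)))))| ≤
      K * (xi c n 1 * √(xi c n 1)) := by
  refine ⟨16 * tderK, mul_nonneg (by norm_num) tder_K0, ?_⟩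
  intro f hf C hC N M P s u n c hc hc1
  have hA0 : 0 ≤ xi c n 1 := by
    unfold xi
    exact Finset.sum_nonneg fun p _ => mul_nonneg (hc p) (by positivity)
  set S := pS f hf C hC (N + 1) M P s u with hS
  have hP : IsProbabilityMeasure S.P := S.hP
  -- weights
  have hw0 : ∀ (ω : S.Ω) (y : Fin (N + 2) → Bool), 0 ≤ S.w ω y := S.w0
  have hw1 : ∀ ω : S.Ω, ∑ y : Fin (N + 2) → Bool, S.w ω y = 1 := S.w1
  have hwm : ∀ y : Fin (N + 2) → Bool, Measurable fun ω : S.Ω => S.w ω y := S.hw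
  let L : S.Ω × (KX n N → ℝ) → ℝ := fun z =>
    Real.log (∑ y : Fin (N + 2) → Bool, S.w z.1 y * Real.exp (lin (ky N c) z.2 y))
  have hex : exN f hf C hC N M P s u n c = ∫ z, L z ∂(S.P.prod (gM (KX n N))) := rfl
  let G : (Fin (N + 2) → Bool) → (Fin (N + 2) → Bool) → ℝ := fun y y' =>
    sgn (las y) * sgn (las y') * xi c n (cR N (ini y) (ini y'))
  have htav : S.tav (n := 2) (fun _ x =>
        sgn (las (x 0)) * sgn (las (x 1)) * xi c n (cR N (ini (x 0)) (ini (x 1)))) =
      ∫ ω, ∑ y : Fin (N + 2) → Bool, ∑ y' : Fin (N + 2) → Bool,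
        S.w ω y * S.w ω y' * G y y' ∂S.P := by
    have h1 : S.tav (n := 2) (fun _ x =>
        sgn (las (x 0)) * sgn (las (x 1)) * xi c n (cR N (ini (x 0)) (ini (x 1)))) =
        ∫ ω, ∑ x : Fin 2 → (Fin (N + 2) → Bool), (∏ i, S.w ω (x i)) * G (x 0) (x 1) ∂S.P := rfl
    rw [h1]
    refine integral_congr_ae (Filter.Eventually.of_forall fun ω => ?_)
    exact tder_two (fun y => S.w ω y) G
  have hLm : Measurable L := by
    refine Real.measurable_log.comp (Finset.measurable_sum _ fun y _ => ?_)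
    refine ((hwm y).comp measurable_fst).mul (Real.measurable_exp.comp ?_)
    unfold lin
    fun_prop
  have hLi : Integrable L (S.P.prod (gM (KX n N))) := by
    have h1 : Integrable (fun z : KX n N → ℝ => ∑ y : Fin (N + 2) → Bool, |lin (ky N c) z y|)
        (gM (KX n N)) := integrable_finsetSum _ fun y _ => ((tder_mean (ky N c y)).1).abs
    refine Integrable.mono' (h1.comp_snd S.P) hLm.aestronglyMeasurable
      (Filter.Eventually.of_forall fun z => ?_)
    rw [Real.norm_eq_abs]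
    exact tder_logb (hw0 z.1) (hw1 z.1) _
  have hGi : Integrable (fun ω => ∑ y : Fin (N + 2) → Bool, ∑ y' : Fin (N + 2) → Bool,
        S.w ω y * S.w ω y' * G y y') S.P := by
    refine integrable_finsetSum _ fun y _ => integrable_finsetSum _ fun y' _ => ?_
    refine Integrable.mul_const ?_ _
    refine Integrable.mono' (integrable_const (1 : ℝ)) ((hwm y).mul (hwm y')).aestronglyMeasurable
      (Filter.Eventually.of_forall fun ω => ?_)
    have h1 : ∀ y, S.w ω y ≤ 1 := fun y => by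
      rw [← hw1 ω]
      exact Finset.single_le_sum (f := fun y => S.w ω y) (fun y _ => hw0 ω y) (Finset.mem_univ y)
    rw [Real.norm_eq_abs, abs_of_nonneg (mul_nonneg (hw0 ω y) (hw0 ω y'))]
    exact mul_le_one₀ (h1 y) (hw0 ω y') (h1 y')
  have hIi : Integrable (fun ω => ∫ z, L (ω, z) ∂(gM (KX n N))) S.P := hLi.integral_prod_left
  have hdiff : exN f hf C hC N M P s u n c - 1 / 2 * (xi c n 1 -
      S.tav (n := 2) (fun _ x =>
        sgn (las (x 0)) * sgn (las (x 1)) * xi c n (cR N (ini (x 0)) (ini (x 1))))) =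
      ∫ ω, (∫ z, L (ω, z) ∂(gM (KX n N)) - 1 / 2 * (xi c n 1 -
        ∑ y : Fin (N + 2) → Bool, ∑ y' : Fin (N + 2) → Bool, S.w ω y * S.w ω y' * G y y'))
        ∂S.P := by
    rw [hex, htav, integral_prod L hLi]
    obtain ⟨Gs, hGs⟩ : ∃ Gs : S.Ω → ℝ, Gs = fun ω => ∑ y : Fin (N + 2) → Bool,
      ∑ y' : Fin (N + 2) → Bool, S.w ω y * S.w ω y' * G y y' := ⟨_, rfl⟩
    rw [← hGs] at hGi
    have e0 : ∀ ω, ∑ y : Fin (N + 2) → Bool, ∑ y' : Fin (N + 2) → Bool,
      S.w ω y * S.w ω y' * G y y' = Gs ω := fun ω => by rw [hGs]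
    have e1 : ∫ ω, (∫ z, L (ω, z) ∂(gM (KX n N)) - 1 / 2 * (xi c n 1 - Gs ω)) ∂S.P =
        ∫ ω, ∫ z, L (ω, z) ∂(gM (KX n N)) ∂S.P - 1 / 2 * (xi c n 1 - ∫ ω, Gs ω ∂S.P) := by
      have hg2 : Integrable (fun ω => 1 / 2 * (xi c n 1 - Gs ω)) S.P :=
        ((integrable_const _).sub hGi).const_mul _
      refine (integral_sub hIi hg2).trans ?_
      congr 1
      have e2 : ∫ ω, (xi c n 1 - Gs ω) ∂S.P = xi c n 1 - ∫ ω, Gs ω ∂S.P := by
        rw [integral_sub (integrable_const _) hGi]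
        simp
      rw [← e2]
      exact integral_const_mul _ _
    simp only [e0]
    exact e1.symm
  rw [hdiff]
  have hpt : ∀ ω, |∫ z, L (ω, z) ∂(gM (KX n N)) - 1 / 2 * (xi c n 1 -
        ∑ y : Fin (N + 2) → Bool, ∑ y' : Fin (N + 2) → Bool, S.w ω y * S.w ω y' * G y y')| ≤
      16 * tderK * (xi c n 1 * √(xi c n 1)) := by
    intro ω
    have h := tder_main (K := KX n N) (hw0 ω) (hw1 ω) (ky N c) hA0 hc1 (tder_ky_sq N hc)
    simp only [tder_gram_ky N hc] at h
    exact h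
  calc |∫ ω, (∫ z, L (ω, z) ∂(gM (KX n N)) - 1 / 2 * (xi c n 1 -
        ∑ y : Fin (N + 2) → Bool, ∑ y' : Fin (N + 2) → Bool, S.w ω y * S.w ω y' * G y y'))
        ∂S.P| ≤ ∫ ω, 16 * tderK * (xi c n 1 * √(xi c n 1)) ∂S.P := by
        rw [← Real.norm_eq_abs]
        exact norm_integral_le_of_norm_le (integrable_const _)
          (Filter.Eventually.of_forall fun ω => by rw [Real.norm_eq_abs]; exact hpt ω)
    _ = 16 * tderK * (xi c n 1 * √(xi c n 1)) := by simp

end app

end Vale.Agent.P157.Par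
end

section

/-!
One Gaussian pattern with the potential `log (1 - ε cos (λ s))` against one copy of a small
Gaussian field: second order expansions of the logarithm of a Gibbs average.
-/

open MeasureTheory ProbabilityTheory Filter Topology
open Vale.Agent.P157 Vale.Agent.P157.Par
open Vale.Agent.P367.GT (gM)

namespace Vale.Agent.P146.Low

/-- `log (1 - y) ≤ -y - y²/2 + 2|y|³` for `|y| ≤ 1/2`. -/
lemma log_one_sub_le {y : ℝ} (hy : |y| ≤ 1 / 2) :
    Real.log (1 - y) ≤ -y - y ^ 2 / 2 + 2 * |y| ^ 3 := by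
  have h := Real.abs_log_sub_add_sum_range_le (x := y) (by linarith) 2
  have h1 : |y| ^ (2 + 1) / (1 - |y|) ≤ 2 * |y| ^ 3 := by
    rw [div_le_iff₀ (by linarith)]
    have h3 : 0 ≤ |y| ^ 3 := by positivity
    have h4 : |y| ^ 3 * |y| ≤ |y| ^ 3 * (1 / 2) := mul_le_mul_of_nonneg_left hy h3
    calc |y| ^ (2 + 1) = |y| ^ 3 := by norm_num
      _ ≤ _ := by linarith
  have h2 := (abs_le.1 (h.trans h1)).2
  simp only [Finset.sum_range_succ, Finset.sum_range_zero] at h2
  norm_num at h2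
  linarith

/-- `log (1 - y) ≥ -y - y²/2 - 2|y|³` for `|y| ≤ 1/2`. -/
lemma log_one_sub_ge {y : ℝ} (hy : |y| ≤ 1 / 2) :
    -y - y ^ 2 / 2 - 2 * |y| ^ 3 ≤ Real.log (1 - y) := by
  have h := Real.abs_log_sub_add_sum_range_le (x := y) (by linarith) 2
  have h1 : |y| ^ (2 + 1) / (1 - |y|) ≤ 2 * |y| ^ 3 := by
    rw [div_le_iff₀ (by linarith)]
    have h3 : 0 ≤ |y| ^ 3 := by positivity
    have h4 : |y| ^ 3 * |y| ≤ |y| ^ 3 * (1 / 2) := mul_le_mul_of_nonneg_left hy h3
    calc |y| ^ (2 + 1) = |y| ^ 3 := by norm_num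
      _ ≤ _ := by linarith
  have h2 := (abs_le.1 (h.trans h1)).1
  simp only [Finset.sum_range_succ, Finset.sum_range_zero] at h2
  norm_num at h2
  linarith

variable {Y K : Type} [Fintype K] [DecidableEq K]

/-- The expectation of the cosine of a linear functional. -/
lemma int_cos_lin (V : K → ℝ) :
    ∫ ξ, Real.cos (∑ c, V c * ξ c) ∂(gM K) = Real.exp (-(∑ c, V c ^ 2) / 2) := by
  have h := tder_int V (h := Real.cos) Real.measurable_cos
  rw [h]
  have h2 := gauss_cos (w := 1) zero_le_one (√(∑ c, V c ^ 2)) 0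
  simp only [Real.sqrt_one, one_mul, zero_add, mul_zero, Real.cos_zero, mul_one] at h2
  rw [Real.sq_sqrt (Finset.sum_nonneg fun _ _ => sq_nonneg _)] at h2
  exact h2

variable (U : Y → K → ℝ)

/-- The covariance kernel of the cosines. -/
lemma int_cos_cos (hU : ∀ y, ∑ c, U y c ^ 2 = 1) (lam : ℝ) (x y : Y) :
    ∫ ξ, Real.cos (lam * lin U ξ x) * Real.cos (lam * lin U ξ y) ∂(gM K) =
      Real.exp (-lam ^ 2) * Real.cosh (lam ^ 2 * gram U U x y) := by
  have e1 : ∀ ξ : K → ℝ, Real.cos (lam * lin U ξ x) * Real.cos (lam * lin U ξ y) =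
      1 / 2 * Real.cos (∑ c, (lam * (U x c - U y c)) * ξ c) +
      1 / 2 * Real.cos (∑ c, (lam * (U x c + U y c)) * ξ c) := by
    intro ξ
    have a1 : ∑ c, (lam * (U x c - U y c)) * ξ c = lam * lin U ξ x - lam * lin U ξ y := by
      unfold lin
      rw [Finset.mul_sum, Finset.mul_sum, ← Finset.sum_sub_distrib]
      exact Finset.sum_congr rfl fun c _ => by ring
    have a2 : ∑ c, (lam * (U x c + U y c)) * ξ c = lam * lin U ξ x + lam * lin U ξ y := by
      unfold lin
      rw [Finset.mul_sum, Finset.mul_sum, ← Finset.sum_add_distrib]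
      exact Finset.sum_congr rfl fun c _ => by ring
    rw [a1, a2, Real.cos_sub, Real.cos_add]
    ring
  simp_rw [e1]
  have hi : ∀ V : K → ℝ, Integrable (fun ξ : K → ℝ => 1 / 2 * Real.cos (∑ c, V c * ξ c))
      (gM K) := by
    intro V
    have hm : Measurable fun ξ : K → ℝ => ∑ c, V c * ξ c := by fun_prop
    refine Integrable.of_bound (C := 1 / 2)
      ((Real.measurable_cos.comp hm).const_mul _).aestronglyMeasurable (ae_of_all _ fun ξ => ?_)
    rw [norm_mul, Real.norm_eq_abs, Real.norm_eq_abs]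
    have := Real.abs_cos_le_one (∑ c, V c * ξ c)
    have h2 : |(1 / 2 : ℝ)| = 1 / 2 := abs_of_pos (by norm_num)
    rw [h2]
    linarith
  rw [integral_add (hi _) (hi _), integral_const_mul, integral_const_mul, int_cos_lin,
    int_cos_lin]
  have s1 : ∑ c, (lam * (U x c - U y c)) ^ 2 = lam ^ 2 * (2 - 2 * gram U U x y) := by
    have : ∀ c, (lam * (U x c - U y c)) ^ 2 =
        lam ^ 2 * (U x c ^ 2 + U y c ^ 2 - 2 * (U x c * U y c)) := fun c => by ring
    simp_rw [this]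
    rw [← Finset.mul_sum, Finset.sum_sub_distrib, Finset.sum_add_distrib, hU, hU,
      ← Finset.mul_sum]
    unfold gram
    ring
  have s2 : ∑ c, (lam * (U x c + U y c)) ^ 2 = lam ^ 2 * (2 + 2 * gram U U x y) := by
    have : ∀ c, (lam * (U x c + U y c)) ^ 2 =
        lam ^ 2 * (U x c ^ 2 + U y c ^ 2 + 2 * (U x c * U y c)) := fun c => by ring
    simp_rw [this]
    rw [← Finset.mul_sum, Finset.sum_add_distrib, Finset.sum_add_distrib, hU, hU,
      ← Finset.mul_sum]
    unfold gram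
    ring
  rw [s1, s2, Real.cosh_eq]
  have e2 : -(lam ^ 2 * (2 - 2 * gram U U x y)) / 2 = -lam ^ 2 + lam ^ 2 * gram U U x y := by ring
  have e3 : -(lam ^ 2 * (2 + 2 * gram U U x y)) / 2 = -lam ^ 2 + -(lam ^ 2 * gram U U x y) := by
    ring
  rw [e2, e3, Real.exp_add, Real.exp_add]
  ring

lemma int_cos_one (hU : ∀ y, ∑ c, U y c ^ 2 = 1) (lam : ℝ) (y : Y) :
    ∫ ξ, Real.cos (lam * lin U ξ y) ∂(gM K) = Real.exp (-lam ^ 2 / 2) := by
  have e1 : ∀ ξ : K → ℝ, lam * lin U ξ y = ∑ c, (lam * U y c) * ξ c := by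
    intro ξ
    unfold lin
    rw [Finset.mul_sum]
    exact Finset.sum_congr rfl fun c _ => by ring
  simp_rw [e1]
  rw [int_cos_lin]
  have : ∑ c, (lam * U y c) ^ 2 = lam ^ 2 := by
    simp_rw [mul_pow]
    rw [← Finset.mul_sum, hU, mul_one]
  rw [this]

/-- **One pattern**: the logarithm of the Gibbs average of `1 - ε cos`. -/
theorem pat_step [Fintype Y] [DecidableEq Y] {p : Y → ℝ} (hp : ∀ y, 0 ≤ p y) (hp1 : ∑ y, p y = 1)
    (hU : ∀ y, ∑ c, U y c ^ 2 = 1) {ε : ℝ} (h0 : 0 ≤ ε) (h1 : ε ≤ 1 / 2) (lam : ℝ) :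
    ∫ ξ, Real.log (∑ y, p y * (1 - ε * Real.cos (lam * lin U ξ y))) ∂(gM K) ≤
      -ε * Real.exp (-lam ^ 2 / 2) - 1 / 2 * ε ^ 2 * (∑ x, ∑ y, p x * p y *
        (Real.exp (-lam ^ 2) * Real.cosh (lam ^ 2 * gram U U x y))) + 2 * ε ^ 3 := by
  set C : (K → ℝ) → ℝ := fun ξ => ∑ y, p y * Real.cos (lam * lin U ξ y) with hC
  have hlm : ∀ y, Measurable fun ξ : K → ℝ => lin U ξ y := fun y => measurable_lin U y
  have hCm : Measurable C := by
    refine Finset.measurable_sum _ fun y _ => ?_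
    exact (Real.measurable_cos.comp ((hlm y).const_mul lam)).const_mul _
  have hC1 : ∀ ξ, |C ξ| ≤ 1 := by
    intro ξ
    calc |C ξ| ≤ ∑ y, |p y * Real.cos (lam * lin U ξ y)| := Finset.abs_sum_le_sum_abs _ _
      _ ≤ ∑ y, p y := by
        refine Finset.sum_le_sum fun y _ => ?_
        rw [abs_mul, abs_of_nonneg (hp y)]
        exact mul_le_of_le_one_right (hp y) (Real.abs_cos_le_one _)
      _ = 1 := hp1
  have e1 : ∀ ξ : K → ℝ, ∑ y, p y * (1 - ε * Real.cos (lam * lin U ξ y)) = 1 - ε * C ξ := by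
    intro ξ
    have a1 : ∀ y, p y * (1 - ε * Real.cos (lam * lin U ξ y)) =
        p y - ε * (p y * Real.cos (lam * lin U ξ y)) := fun y => by ring
    simp_rw [a1]
    rw [Finset.sum_sub_distrib, hp1, ← Finset.mul_sum]
  simp_rw [e1]
  have habs : ∀ ξ, |ε * C ξ| ≤ ε := by
    intro ξ
    rw [abs_mul, abs_of_nonneg h0]
    exact mul_le_of_le_one_right h0 (hC1 ξ)
  have hpt : ∀ ξ, Real.log (1 - ε * C ξ) ≤ -ε * C ξ - 1 / 2 * ε ^ 2 * C ξ ^ 2 + 2 * ε ^ 3 := by
    intro ξ
    have h := log_one_sub_le (y := ε * C ξ) ((habs ξ).trans h1)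
    have h3 : |ε * C ξ| ^ 3 ≤ ε ^ 3 := pow_le_pow_left₀ (abs_nonneg _) (habs ξ) 3
    have h4 : (ε * C ξ) ^ 2 / 2 = 1 / 2 * ε ^ 2 * C ξ ^ 2 := by ring
    rw [h4] at h
    linarith
  have hi1 : Integrable (fun ξ => Real.log (1 - ε * C ξ)) (gM K) := by
    refine Integrable.of_bound (C := Real.log 2)
      (Real.measurable_log.comp ((hCm.const_mul ε).const_sub 1)).aestronglyMeasurable
      (ae_of_all _ fun ξ => ?_)
    have h3 := abs_le.1 (habs ξ)
    rw [Real.norm_eq_abs, abs_le]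
    constructor
    · have h4 : Real.log (1 / 2) ≤ Real.log (1 - ε * C ξ) :=
        Real.log_le_log (by norm_num) (by linarith)
      have h5 : Real.log (1 / 2) = -Real.log 2 := by
        rw [one_div, Real.log_inv]
      linarith
    · exact Real.log_le_log (by linarith) (by linarith)
  have hiC : Integrable C (gM K) := Integrable.of_bound (C := 1) hCm.aestronglyMeasurable
    (ae_of_all _ fun ξ => hC1 ξ)
  have hiC2 : Integrable (fun ξ => C ξ ^ 2) (gM K) := by
    refine Integrable.of_bound (C := 1) (hCm.pow_const 2).aestronglyMeasurable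
      (ae_of_all _ fun ξ => ?_)
    rw [Real.norm_eq_abs, abs_pow]
    exact pow_le_one₀ (abs_nonneg _) (hC1 ξ)
  have hcos : ∀ y, Integrable (fun ξ : K → ℝ => Real.cos (lam * lin U ξ y)) (gM K) := by
    intro y
    refine Integrable.of_bound (C := 1)
      (Real.measurable_cos.comp ((hlm y).const_mul lam)).aestronglyMeasurable
      (ae_of_all _ fun ξ => Real.abs_cos_le_one _)
  have hcc : ∀ x y, Integrable (fun ξ : K → ℝ => Real.cos (lam * lin U ξ x) *
      Real.cos (lam * lin U ξ y)) (gM K) := by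
    intro x y
    refine Integrable.of_bound (C := 1)
      ((Real.measurable_cos.comp ((hlm x).const_mul lam)).mul
        (Real.measurable_cos.comp ((hlm y).const_mul lam))).aestronglyMeasurable
      (ae_of_all _ fun ξ => ?_)
    rw [norm_mul]
    exact mul_le_one₀ (Real.abs_cos_le_one _) (norm_nonneg _) (Real.abs_cos_le_one _)
  have hEC : ∫ ξ, C ξ ∂(gM K) = Real.exp (-lam ^ 2 / 2) := by
    simp only [hC]
    rw [integral_finsetSum _ fun y _ => (hcos y).const_mul _]
    simp_rw [integral_const_mul, int_cos_one U hU]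
    rw [← Finset.sum_mul, hp1, one_mul]
  have hEC2 : ∫ ξ, C ξ ^ 2 ∂(gM K) = ∑ x, ∑ y, p x * p y *
        (Real.exp (-lam ^ 2) * Real.cosh (lam ^ 2 * gram U U x y)) := by
    have e2 : ∀ ξ, C ξ ^ 2 = ∑ x, ∑ y, p x * p y * (Real.cos (lam * lin U ξ x) *
      Real.cos (lam * lin U ξ y)) := by
      intro ξ
      simp only [hC]
      rw [sq, Finset.sum_mul_sum]
      exact Finset.sum_congr rfl fun x _ => Finset.sum_congr rfl fun y _ => by ring
    simp_rw [e2]
    rw [integral_finsetSum _ fun x _ => integrable_finsetSum _ fun y _ => (hcc x y).const_mul _]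
    refine Finset.sum_congr rfl fun x _ => ?_
    rw [integral_finsetSum _ fun y _ => (hcc x y).const_mul _]
    refine Finset.sum_congr rfl fun y _ => ?_
    rw [integral_const_mul, int_cos_cos U hU]
  have hi2 : Integrable (fun ξ => -ε * C ξ - 1 / 2 * ε ^ 2 * C ξ ^ 2) (gM K) :=
    (hiC.const_mul (-ε)).sub (hiC2.const_mul (1 / 2 * ε ^ 2))
  have hi3 : Integrable (fun ξ => -ε * C ξ - 1 / 2 * ε ^ 2 * C ξ ^ 2 + 2 * ε ^ 3) (gM K) :=
    hi2.add (integrable_const (2 * ε ^ 3))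
  refine (integral_mono hi1 hi3 hpt).trans (le_of_eq ?_)
  rw [integral_add hi2 (integrable_const _),
    integral_sub (hiC.const_mul (-ε)) (hiC2.const_mul (1 / 2 * ε ^ 2)), integral_const_mul,
    integral_const_mul, hEC, hEC2]
  simp

end Vale.Agent.P146.Low
end

section

/-!
Comparison of the perceptron with the potential `log (1 - ε cos (λ s))` and `M` patterns with a
Gaussian field whose covariance is quadratic in the overlap.
-/

open MeasureTheory ProbabilityTheory Filter Topology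
open Vale.Agent.P157 Vale.Agent.P157.Par
open Vale.Agent.P367.GT (gM)

namespace Vale.Agent.P146.Low

/-- The potential `log (1 - ε cos (λ s))`. -/
noncomputable def fp (ε lam : ℝ) (s : ℝ) : ℝ := Real.log (1 - ε * Real.cos (lam * s))

lemma one_sub_cos_bd {ε : ℝ} (h0 : 0 ≤ ε) (h1 : ε ≤ 1 / 2) (x : ℝ) :
    1 / 2 ≤ 1 - ε * Real.cos x ∧ 1 - ε * Real.cos x ≤ 2 := by
  have h2 := Real.cos_le_one x
  have h3 := Real.neg_one_le_cos x
  constructor <;> nlinarith

lemma exp_fp {ε : ℝ} (h0 : 0 ≤ ε) (h1 : ε ≤ 1 / 2) (lam s : ℝ) :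
    Real.exp (fp ε lam s) = 1 - ε * Real.cos (lam * s) := by
  unfold fp
  rw [Real.exp_log]
  linarith [(one_sub_cos_bd h0 h1 (lam * s)).1]

lemma fp_meas (ε lam : ℝ) : Measurable (fp ε lam) := by
  unfold fp
  fun_prop

lemma abs_fp_le {ε : ℝ} (h0 : 0 ≤ ε) (h1 : ε ≤ 1 / 2) (lam s : ℝ) :
    |fp ε lam s| ≤ Real.log 2 := by
  obtain ⟨h2, h3⟩ := one_sub_cos_bd h0 h1 (lam * s)
  unfold fp
  rw [abs_le]
  constructor
  · have h4 : Real.log (1 / 2) ≤ Real.log (1 - ε * Real.cos (lam * s)) :=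
      Real.log_le_log (by norm_num) h2
    have h5 : Real.log (1 / 2) = -Real.log 2 := by
      rw [one_div, Real.log_inv]
    linarith
  · exact Real.log_le_log (by linarith) h3

/-- The gain of one step of the comparison. -/
noncomputable def dl (ε lam : ℝ) : ℝ :=
  (ε ^ 2 * lam ^ 4 / 2) / 2 - 16 * tderK * ((ε ^ 2 * lam ^ 4 / 2) * √(ε ^ 2 * lam ^ 4 / 2)) +
    ε * Real.exp (-lam ^ 2 / 2) + 1 / 2 * ε ^ 2 * Real.exp (-lam ^ 2) -
    1 / 4 * ε ^ 2 * lam ^ 6 - 2 * ε ^ 3

lemma one_add_sq_half_le_cosh (x : ℝ) : 1 + x ^ 2 / 2 ≤ Real.cosh x := by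
  have h1 : Real.cosh x = 1 + 2 * Real.sinh (x / 2) ^ 2 := by
    have a1 := Real.cosh_two_mul (x / 2)
    have a2 := Real.cosh_sq (x / 2)
    rw [show 2 * (x / 2) = x by ring] at a1
    linarith
  have h2 : (x / 2) ^ 2 ≤ Real.sinh (x / 2) ^ 2 := by
    have a1 : |x / 2| ≤ |Real.sinh (x / 2)| := by
      rcases le_total 0 (x / 2) with h | h
      · have b1 := Real.self_le_sinh_iff.2 h
        rw [abs_of_nonneg h, abs_of_nonneg (h.trans b1)]
        exact b1
      · have b1 := Real.sinh_le_self_iff.2 h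
        rw [abs_of_nonpos h, abs_of_nonpos (b1.trans h)]
        linarith
    exact sq_le_sq.2 a1
  nlinarith

lemma cosh_lower {lam R : ℝ} (hl0 : 0 ≤ lam) (hl1 : lam ≤ 1) (hR : R ^ 2 ≤ 1) :
    Real.exp (-lam ^ 2) + lam ^ 4 * R ^ 2 / 2 - lam ^ 6 / 2 ≤
      Real.exp (-lam ^ 2) * Real.cosh (lam ^ 2 * R) := by
  have h1 : 1 + (lam ^ 2 * R) ^ 2 / 2 ≤ Real.cosh (lam ^ 2 * R) := by
    exact one_add_sq_half_le_cosh (lam ^ 2 * R)
  have h2 : 1 - lam ^ 2 ≤ Real.exp (-lam ^ 2) := by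
    linarith [Real.add_one_le_exp (-lam ^ 2)]
  have h3 : 0 < Real.exp (-lam ^ 2) := Real.exp_pos _
  have h4 : Real.exp (-lam ^ 2) * (1 + (lam ^ 2 * R) ^ 2 / 2) ≤
      Real.exp (-lam ^ 2) * Real.cosh (lam ^ 2 * R) := mul_le_mul_of_nonneg_left h1 h3.le
  have h5 : (1 - lam ^ 2) * ((lam ^ 2 * R) ^ 2 / 2) ≤
      Real.exp (-lam ^ 2) * ((lam ^ 2 * R) ^ 2 / 2) :=
    mul_le_mul_of_nonneg_right h2 (by positivity)
  have h6 : lam ^ 2 * ((lam ^ 2 * R) ^ 2 / 2) ≤ lam ^ 6 / 2 := by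
    have : lam ^ 2 * ((lam ^ 2 * R) ^ 2 / 2) = lam ^ 6 / 2 * R ^ 2 := by ring
    rw [this]
    exact mul_le_of_le_one_right (by positivity) hR
  have h7 : (lam ^ 2 * R) ^ 2 / 2 = lam ^ 4 * R ^ 2 / 2 := by ring
  rw [h7] at h4 h5 h6
  nlinarith

section step

variable {Y K K' : Type} [Fintype Y] [DecidableEq Y] [Nonempty Y] [Fintype K] [DecidableEq K]
  [Fintype K'] [DecidableEq K']

omit [Fintype Y] [DecidableEq Y] [Nonempty Y] [DecidableEq K] in
lemma gram_sq_le {U : Y → K → ℝ} (hU : ∀ y, ∑ c, U y c ^ 2 = 1) (x y : Y) :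
    gram U U x y ^ 2 ≤ 1 := by
  unfold gram
  have := Finset.sum_mul_sq_le_sq_mul_sq Finset.univ (U x) (U y)
  rw [hU, hU, one_mul] at this
  exact this

/-- One step of the comparison, for probability weights. -/
theorem one_step_prob {p : Y → ℝ} (hp : ∀ y, 0 ≤ p y) (hp1 : ∑ y, p y = 1) {U : Y → K → ℝ}
    (hU : ∀ y, ∑ c, U y c ^ 2 = 1) {S : Y → K' → ℝ} {κ : ℝ}
    (hS : ∀ x y, gram S S x y = κ * gram U U x y ^ 2) {ε lam b : ℝ} (h0 : 0 ≤ ε)
    (h1 : ε ≤ 1 / 2) (hl0 : 0 ≤ lam) (hl1 : lam ≤ 1) (hb : b ^ 2 * κ = ε ^ 2 * lam ^ 4 / 2) :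
    ∫ ξ, Real.log (∑ y, p y * Real.exp (fp ε lam (lin U ξ y))) ∂(gM K) + dl ε lam ≤
      ∫ ξ, Real.log (∑ y, p y * Real.exp (b * lin S ξ y)) ∂(gM K') := by
  set s := ε ^ 2 * lam ^ 4 / 2 with hs
  have hs0 : 0 ≤ s := by positivity
  have hs1 : s ≤ 1 := by
    have a1 : ε ^ 2 ≤ 1 := pow_le_one₀ h0 (by linarith)
    have a2 : lam ^ 4 ≤ 1 := pow_le_one₀ hl0 hl1
    have a3 : ε ^ 2 * lam ^ 4 ≤ 1 := mul_le_one₀ a1 (by positivity) a2
    rw [hs]; linarith
  have hgU : ∀ y, gram U U y y = 1 := by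
    intro y
    rw [← hU y]
    exact Finset.sum_congr rfl fun c _ => (sq _).symm
  have hT : ∀ y, ∑ c, (fun y c => b * S y c) y c ^ 2 = s := by
    intro y
    have e1 : ∑ c, (b * S y c) ^ 2 = b ^ 2 * gram S S y y := by
      unfold gram
      rw [Finset.mul_sum]
      exact Finset.sum_congr rfl fun c _ => by ring
    simp only
    rw [e1, hS, hgU, one_pow, mul_one, hb]
  have hlin : ∀ (ξ : K' → ℝ) (y : Y), lin (fun y c => b * S y c) ξ y = b * lin S ξ y := by
    intro ξ y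
    unfold lin
    rw [Finset.mul_sum]
    exact Finset.sum_congr rfl fun c _ => by ring
  have hgT : ∀ x y, gram (fun y c => b * S y c) (fun y c => b * S y c) x y =
      s * gram U U x y ^ 2 := by
    intro x y
    have e1 : gram (fun y c => b * S y c) (fun y c => b * S y c) x y =
        b ^ 2 * gram S S x y := by
      unfold gram
      rw [Finset.mul_sum]
      exact Finset.sum_congr rfl fun c _ => by ring
    rw [e1, hS, ← mul_assoc, hb]
  have hD2 := tder_main hp hp1 (fun y c => b * S y c) hs0 hs1 hT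
  simp only [hlin, hgT] at hD2
  have hD2' := (abs_le.1 hD2).1
  have hD1 := pat_step U hp hp1 hU h0 h1 lam
  simp only [exp_fp h0 h1]
  -- comparison of the quadratic terms
  have hpp : ∑ x, ∑ y, p x * p y = 1 := by
    rw [← Finset.sum_mul_sum, hp1, one_mul]
  have hcmp : Real.exp (-lam ^ 2) - lam ^ 6 / 2 +
      lam ^ 4 / 2 * ∑ x, ∑ y, p x * p y * gram U U x y ^ 2 ≤
      ∑ x, ∑ y, p x * p y * (Real.exp (-lam ^ 2) * Real.cosh (lam ^ 2 * gram U U x y)) := by
    have a1 : ∑ x, ∑ y, p x * p y * (Real.exp (-lam ^ 2) + lam ^ 4 * gram U U x y ^ 2 / 2 -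
        lam ^ 6 / 2) ≤ ∑ x, ∑ y, p x * p y *
          (Real.exp (-lam ^ 2) * Real.cosh (lam ^ 2 * gram U U x y)) :=
      Finset.sum_le_sum fun x _ => Finset.sum_le_sum fun y _ =>
        mul_le_mul_of_nonneg_left (cosh_lower hl0 hl1 (gram_sq_le hU x y))
          (mul_nonneg (hp x) (hp y))
    refine le_trans (le_of_eq ?_) a1
    have a2 : ∀ x y, p x * p y * (Real.exp (-lam ^ 2) + lam ^ 4 * gram U U x y ^ 2 / 2 -
        lam ^ 6 / 2) = (Real.exp (-lam ^ 2) - lam ^ 6 / 2) * (p x * p y) +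
        lam ^ 4 / 2 * (p x * p y * gram U U x y ^ 2) := fun x y => by ring
    simp_rw [a2, Finset.sum_add_distrib, ← Finset.mul_sum]
    simp only [hp1, mul_one]
  have hfin : ∑ x, ∑ y, p x * p y * (s * gram U U x y ^ 2) =
      s * ∑ x, ∑ y, p x * p y * gram U U x y ^ 2 := by
    rw [Finset.mul_sum]
    refine Finset.sum_congr rfl fun x _ => ?_
    rw [Finset.mul_sum]
    exact Finset.sum_congr rfl fun y _ => by ring
  rw [hfin] at hD2'
  set G := ∑ x, ∑ y, p x * p y * gram U U x y ^ 2 with hG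
  set H := ∑ x, ∑ y, p x * p y * (Real.exp (-lam ^ 2) * Real.cosh (lam ^ 2 * gram U U x y))
  have h5 : 1 / 2 * ε ^ 2 * (Real.exp (-lam ^ 2) - lam ^ 6 / 2 + lam ^ 4 / 2 * G) ≤
      1 / 2 * ε ^ 2 * H := mul_le_mul_of_nonneg_left hcmp (by positivity)
  have h6 : 1 / 2 * ε ^ 2 * (lam ^ 4 / 2 * G) = 1 / 2 * (s * G) := by rw [hs]; ring
  unfold dl
  rw [← hs]
  nlinarith

/-- One step of the comparison. -/
theorem one_step {w : Y → ℝ} (hw : ∀ y, 0 < w y) {U : Y → K → ℝ}
    (hU : ∀ y, ∑ c, U y c ^ 2 = 1) {S : Y → K' → ℝ} {κ : ℝ}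
    (hS : ∀ x y, gram S S x y = κ * gram U U x y ^ 2) {ε lam b : ℝ} (h0 : 0 ≤ ε)
    (h1 : ε ≤ 1 / 2) (hl0 : 0 ≤ lam) (hl1 : lam ≤ 1) (hb : b ^ 2 * κ = ε ^ 2 * lam ^ 4 / 2) :
    ∫ ξ, Real.log (∑ y, w y * Real.exp (fp ε lam (lin U ξ y))) ∂(gM K) + dl ε lam ≤
      ∫ ξ, Real.log (∑ y, w y * Real.exp (b * lin S ξ y)) ∂(gM K') := by
  set W := ∑ y, w y with hW
  have hW0 : 0 < W := Finset.sum_pos (fun y _ => hw y) Finset.univ_nonempty
  set p : Y → ℝ := fun y => w y / W with hp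
  have hp0 : ∀ y, 0 < p y := fun y => div_pos (hw y) hW0
  have hp1 : ∑ y, p y = 1 := by
    rw [hp, ← Finset.sum_div, div_self hW0.ne']
  have key : ∀ E : Y → ℝ, Real.log (∑ y, w y * Real.exp (E y)) =
      Real.log W + Real.log (∑ y, p y * Real.exp (E y)) := by
    intro E
    have hpos : 0 < ∑ y, p y * Real.exp (E y) :=
      Finset.sum_pos (fun y _ => mul_pos (hp0 y) (Real.exp_pos _)) Finset.univ_nonempty
    rw [← Real.log_mul hW0.ne' hpos.ne', Finset.mul_sum]
    congr 1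
    refine Finset.sum_congr rfl fun y _ => ?_
    rw [hp]
    field_simp
  have h := one_step_prob (fun y => (hp0 y).le) hp1 hU hS h0 h1 hl0 hl1 hb
  have hi1 : Integrable (fun ξ => Real.log (∑ y, p y * Real.exp (fp ε lam (lin U ξ y))))
      (gM K) := by
    refine Lin.integrable_logsum hp0 fun y => ?_
    refine Integrable.of_bound (C := Real.log 2)
      ((fp_meas ε lam).comp (measurable_lin U y)).aestronglyMeasurable
      (ae_of_all _ fun ξ => abs_fp_le h0 h1 _ _)
  have hi2 : Integrable (fun ξ => Real.log (∑ y, p y * Real.exp (b * lin S ξ y)))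
      (gM K') := Lin.integrable_logsum hp0 fun y => (Cube.integrable_lin S y).const_mul b
  simp_rw [key]
  rw [integral_add (integrable_const _) hi1, integral_add (integrable_const _) hi2]
  simp only [integral_const, probReal_univ, smul_eq_mul, one_mul]
  linarith

/-- The comparison with `M` patterns. -/
theorem tele {U : Y → K → ℝ}
    (hU : ∀ y, ∑ c, U y c ^ 2 = 1) {S : Y → K' → ℝ} {κ : ℝ}
    (hS : ∀ x y, gram S S x y = κ * gram U U x y ^ 2) {ε lam b : ℝ} (h0 : 0 ≤ ε)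
    (h1 : ε ≤ 1 / 2) (hl0 : 0 ≤ lam) (hl1 : lam ≤ 1) (hb : b ^ 2 * κ = ε ^ 2 * lam ^ 4 / 2)
    (M : ℕ) {w : Y → ℝ} (hw : ∀ y, 0 < w y) :
    ∫ g : Fin M → K → ℝ, Real.log (∑ y, w y * Real.exp (∑ a, fp ε lam (lin U (g a) y)))
      ∂(Measure.pi fun _ => gM K) + M * dl ε lam ≤
      ∫ ξ, Real.log (∑ y, w y * Real.exp (√M * b * lin S ξ y)) ∂(gM K') := by
  induction M generalizing w with
  | zero => simp
  | succ M ih =>
    have hmf : ∀ y, Measurable fun z : K → ℝ => fp ε lam (lin U z y) := fun y =>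
      (fp_meas ε lam).comp (measurable_lin U y)
    -- the left side
    have hiF : Integrable (fun q : (K → ℝ) × (Fin M → K → ℝ) =>
        Real.log (∑ y, w y * Real.exp (fp ε lam (lin U q.1 y) +
          ∑ a, fp ε lam (lin U (q.2 a) y)))) ((gM K).prod (Measure.pi fun _ => gM K)) := by
      refine Lin.integrable_logsum hw fun y => ?_
      refine Integrable.of_bound (C := Real.log 2 + M * Real.log 2) ?_ (ae_of_all _ fun q => ?_)
      · refine ((hmf y).comp measurable_fst).add ?_ |>.aestronglyMeasurable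
        exact Finset.measurable_sum _ fun a _ =>
          (hmf y).comp ((measurable_pi_apply a).comp measurable_snd)
      · rw [Real.norm_eq_abs]
        refine (abs_add_le _ _).trans (add_le_add (abs_fp_le h0 h1 _ _) ?_)
        refine (Finset.abs_sum_le_sum_abs _ _).trans ?_
        refine (Finset.sum_le_sum fun a _ => abs_fp_le h0 h1 _ _).trans ?_
        simp
    have e1 : ∫ g : Fin (M + 1) → K → ℝ, Real.log (∑ y, w y *
        Real.exp (∑ a, fp ε lam (lin U (g a) y))) ∂(Measure.pi fun _ => gM K) =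
        ∫ z, ∫ g : Fin M → K → ℝ, Real.log (∑ y, (w y * Real.exp (fp ε lam (lin U z y))) *
          Real.exp (∑ a, fp ε lam (lin U (g a) y))) ∂(Measure.pi fun _ => gM K) ∂(gM K) := by
      rw [integral_pi_cons]
      have a1 : ∀ q : (K → ℝ) × (Fin M → K → ℝ), Real.log (∑ y, w y *
          Real.exp (∑ a, fp ε lam (lin U ((Fin.cons q.1 q.2 : Fin (M + 1) → K → ℝ) a) y))) =
          Real.log (∑ y, w y * Real.exp (fp ε lam (lin U q.1 y) +
          ∑ a, fp ε lam (lin U (q.2 a) y))) := by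
        intro q
        congr 1
        refine Finset.sum_congr rfl fun y _ => ?_
        rw [Fin.sum_univ_succ]
        simp only [Fin.cons_zero, Fin.cons_succ]
      simp_rw [a1]
      rw [integral_prod _ hiF]
      simp_rw [mul_assoc, ← Real.exp_add]
    have e2 : Integrable (fun z => ∫ g : Fin M → K → ℝ, Real.log (∑ y,
        (w y * Real.exp (fp ε lam (lin U z y))) *
          Real.exp (∑ a, fp ε lam (lin U (g a) y))) ∂(Measure.pi fun _ => gM K)) (gM K) := by
      simp_rw [mul_assoc, ← Real.exp_add]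
      exact hiF.integral_prod_left
    -- the middle
    set c' := √M * b with hc'
    have hiG : Integrable (fun q : (K → ℝ) × (K' → ℝ) =>
        Real.log (∑ y, w y * Real.exp (fp ε lam (lin U q.1 y) + c' * lin S q.2 y)))
        ((gM K).prod (gM K')) := by
      refine Lin.integrable_logsum hw fun y => ?_
      have a1 : Integrable (fun z : K → ℝ => fp ε lam (lin U z y)) (gM K) :=
        Integrable.of_bound (C := Real.log 2) (hmf y).aestronglyMeasurable
          (ae_of_all _ fun z => abs_fp_le h0 h1 _ _)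
      exact (a1.comp_fst _).add (((Cube.integrable_lin S y).const_mul c').comp_snd _)
    have e3 : Integrable (fun z => ∫ ξ, Real.log (∑ y, (w y * Real.exp (fp ε lam (lin U z y))) *
        Real.exp (c' * lin S ξ y)) ∂(gM K')) (gM K) := by
      simp_rw [mul_assoc, ← Real.exp_add]
      exact hiG.integral_prod_left
    have e4 : ∫ z, ∫ ξ, Real.log (∑ y, (w y * Real.exp (fp ε lam (lin U z y))) *
        Real.exp (c' * lin S ξ y)) ∂(gM K') ∂(gM K) =
        ∫ ξ, ∫ z, Real.log (∑ y, (w y * Real.exp (c' * lin S ξ y)) *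
          Real.exp (fp ε lam (lin U z y))) ∂(gM K) ∂(gM K') := by
      have a1 : ∀ z ξ, Real.log (∑ y, (w y * Real.exp (fp ε lam (lin U z y))) *
        Real.exp (c' * lin S ξ y)) = Real.log (∑ y, w y *
          Real.exp (fp ε lam (lin U z y) + c' * lin S ξ y)) := by
        intro z ξ
        simp_rw [mul_assoc, ← Real.exp_add]
      have a2 : ∀ ξ z, Real.log (∑ y, (w y * Real.exp (c' * lin S ξ y)) *
          Real.exp (fp ε lam (lin U z y))) = Real.log (∑ y, w y *
          Real.exp (fp ε lam (lin U z y) + c' * lin S ξ y)) := by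
        intro ξ z
        simp_rw [mul_assoc, ← Real.exp_add, add_comm]
      simp_rw [a1, a2]
      exact integral_integral_swap hiG
    -- the end
    have hiH : Integrable (fun q : (K' → ℝ) × (K' → ℝ) =>
        Real.log (∑ y, w y * Real.exp (c' * lin S q.1 y + b * lin S q.2 y)))
        ((gM K').prod (gM K')) :=
      Lin.integrable_logsum hw fun y => (((Cube.integrable_lin S y).const_mul c').comp_fst _).add
        (((Cube.integrable_lin S y).const_mul b).comp_snd _)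
    have e5 : ∫ ξ, ∫ η, Real.log (∑ y, (w y * Real.exp (c' * lin S ξ y)) *
          Real.exp (b * lin S η y)) ∂(gM K') ∂(gM K') =
        ∫ ξ, Real.log (∑ y, w y * Real.exp (√(M + 1 : ℕ) * b * lin S ξ y)) ∂(gM K') := by
      have a1 : ∀ ξ η, Real.log (∑ y, (w y * Real.exp (c' * lin S ξ y)) *
          Real.exp (b * lin S η y)) = Real.log (∑ y, w y *
          Real.exp (c' * lin S ξ y + b * lin S η y)) := by
        intro ξ η
        simp_rw [mul_assoc, ← Real.exp_add]
      simp_rw [a1]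
      rw [← integral_prod _ hiH]
      have hl : ∀ (c : ℝ) (ξ : K' → ℝ) (y : Y), c * lin S ξ y = lin (fun y e => c * S y e) ξ y := by
        intro c ξ y
        unfold lin
        rw [Finset.mul_sum]
        exact Finset.sum_congr rfl fun e _ => by ring
      simp_rw [hl]
      have a2 := Cube.integral_sum_index (fun y e => c' * S y e) (fun y e => b * S y e)
        (fun z : Y → ℝ => Real.log (∑ y, w y * Real.exp (z y)))
      rw [← a2]
      refine integral_lin_congr (fun x y => ?_)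
        (F := fun z : Y → ℝ => Real.log (∑ y, w y * Real.exp (z y))) (by fun_prop)
      rw [Cube.gram_elim]
      have a3 : ∀ c : ℝ, gram (fun y e => c * S y e) (fun y e => c * S y e) x y =
          c ^ 2 * gram S S x y := by
        intro c
        unfold gram
        rw [Finset.mul_sum]
        exact Finset.sum_congr rfl fun e _ => by ring
      rw [a3, a3, a3, hc', mul_pow, mul_pow, Real.sq_sqrt (Nat.cast_nonneg _),
        Real.sq_sqrt (Nat.cast_nonneg _)]
      push_cast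
      ring
    have e6 : Integrable (fun ξ => ∫ η, Real.log (∑ y, (w y * Real.exp (c' * lin S ξ y)) *
          Real.exp (b * lin S η y)) ∂(gM K')) (gM K') := by
      simp_rw [mul_assoc, ← Real.exp_add]
      exact hiH.integral_prod_left
    have e7 : Integrable (fun ξ => ∫ z, Real.log (∑ y, (w y * Real.exp (c' * lin S ξ y)) *
          Real.exp (fp ε lam (lin U z y))) ∂(gM K)) (gM K') := by
      have a2 : ∀ ξ z, Real.log (∑ y, (w y * Real.exp (c' * lin S ξ y)) *
          Real.exp (fp ε lam (lin U z y))) = Real.log (∑ y, w y *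
          Real.exp (fp ε lam (lin U z y) + c' * lin S ξ y)) := by
        intro ξ z
        simp_rw [mul_assoc, ← Real.exp_add, add_comm]
      simp_rw [a2]
      exact hiG.integral_prod_right
    -- assembly
    rw [e1]
    have f1 : ∫ z, ∫ g : Fin M → K → ℝ, Real.log (∑ y, (w y * Real.exp (fp ε lam (lin U z y))) *
          Real.exp (∑ a, fp ε lam (lin U (g a) y))) ∂(Measure.pi fun _ => gM K) ∂(gM K) ≤
        ∫ z, (∫ ξ, Real.log (∑ y, (w y * Real.exp (fp ε lam (lin U z y))) *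
        Real.exp (c' * lin S ξ y)) ∂(gM K') - M * dl ε lam) ∂(gM K) := by
      refine integral_mono e2 (e3.sub (integrable_const _)) fun z => ?_
      have := ih (w := fun y => w y * Real.exp (fp ε lam (lin U z y)))
        (fun y => mul_pos (hw y) (Real.exp_pos _))
      simp only
      linarith
    rw [integral_sub e3 (integrable_const _), e4] at f1
    have f2 : ∫ ξ, ∫ z, Real.log (∑ y, (w y * Real.exp (c' * lin S ξ y)) *
          Real.exp (fp ε lam (lin U z y))) ∂(gM K) ∂(gM K') ≤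
        ∫ ξ, (∫ η, Real.log (∑ y, (w y * Real.exp (c' * lin S ξ y)) *
          Real.exp (b * lin S η y)) ∂(gM K') - dl ε lam) ∂(gM K') := by
      refine integral_mono e7 (e6.sub (integrable_const _)) fun ξ => ?_
      have := one_step (w := fun y => w y * Real.exp (c' * lin S ξ y))
        (fun y => mul_pos (hw y) (Real.exp_pos _)) hU hS h0 h1 hl0 hl1 hb
      simp only
      linarith
    rw [integral_sub e6 (integrable_const _), e5] at f2
    simp only [integral_const, probReal_univ, smul_eq_mul, one_mul] at f1 f2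
    have f3 : ((M + 1 : ℕ) : ℝ) * dl ε lam = M * dl ε lam + dl ε lam := by
      push_cast
      ring
    rw [f3]
    linarith

end step

end Vale.Agent.P146.Low
end

section

/-!
Second order expansion of the pattern part of the Parisi functional for the potential
`log (1 - ε cos (λ s))`, uniformly in the cascade.
-/

open MeasureTheory ProbabilityTheory Filter Topology
open Vale.Agent.P157 Vale.Agent.P157.Par

namespace Vale.Agent.P146.Low

lemma exp_ge_cubic {y : ℝ} (hy : |y| ≤ 1) : 1 + y + y ^ 2 / 2 - 2 / 9 * |y| ^ 3 ≤ Real.exp y := by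
  have h := Real.exp_bound hy (n := 3) (by norm_num)
  have h1 : ∑ m ∈ Finset.range 3, y ^ m / (m.factorial : ℝ) = 1 + y + y ^ 2 / 2 := by
    simp [Finset.sum_range_succ]
  have h2 : |y| ^ 3 * (((3 : ℕ).succ : ℝ) / ((3 : ℕ).factorial * ((3 : ℕ) : ℝ))) =
      2 / 9 * |y| ^ 3 := by
    norm_num [Nat.factorial]
    ring
  rw [h1, h2] at h
  linarith [(abs_le.1 h).1]

/-- Second order lower bound for the logarithm of the moment generating function of a bounded
variable. -/
theorem log_int_ge {Ω : Type*} [MeasurableSpace Ω] {μ : Measure Ω} [IsProbabilityMeasure μ]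
    {X : Ω → ℝ} (hX : Measurable X) {c D m : ℝ} (hD : ∀ ω, |X ω - c| ≤ D) (hD1 : D ≤ 1)
    (hc : ∫ ω, X ω ∂μ = c) (hm : 0 < m) (hm1 : m ≤ 1) :
    c + m / 2 * (∫ ω, (X ω - c) ^ 2 ∂μ) - D * (∫ ω, (X ω - c) ^ 2 ∂μ) ≤
      1 / m * Real.log (∫ ω, Real.exp (m * X ω) ∂μ) := by
  obtain ⟨ω0⟩ : Nonempty Ω := μ.nonempty_of_neZero
  have hD0 : 0 ≤ D := (abs_nonneg _).trans (hD ω0)
  set V := ∫ ω, (X ω - c) ^ 2 ∂μ with hV
  have hV0 : 0 ≤ V := integral_nonneg fun ω => sq_nonneg _
  have hsq : ∀ ω, (X ω - c) ^ 2 ≤ D ^ 2 := fun ω => sq_le_sq' (by linarith [(abs_le.1 (hD ω)).1])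
    (abs_le.1 (hD ω)).2
  have hi2 : Integrable (fun ω => (X ω - c) ^ 2) μ := by
    refine Integrable.of_bound (C := D ^ 2) (by fun_prop) (ae_of_all _ fun ω => ?_)
    rw [Real.norm_eq_abs, abs_of_nonneg (sq_nonneg _)]
    exact hsq ω
  have hV1 : V ≤ D ^ 2 := by
    have := integral_mono hi2 (integrable_const (D ^ 2)) hsq
    simpa using this
  have hi1 : Integrable (fun ω => X ω - c) μ :=
    Integrable.of_bound (C := D) (by fun_prop) (ae_of_all _ fun ω => hD ω)
  have hiX : Integrable X μ := by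
    have := hi1.add (integrable_const c)
    refine this.congr (ae_of_all _ fun ω => ?_)
    simp
  have hiE : Integrable (fun ω => Real.exp (m * (X ω - c))) μ := by
    refine Integrable.of_bound (C := Real.exp (m * D)) (by fun_prop) (ae_of_all _ fun ω => ?_)
    rw [Real.norm_eq_abs, abs_of_pos (Real.exp_pos _)]
    exact Real.exp_le_exp.2 (mul_le_mul_of_nonneg_left (abs_le.1 (hD ω)).2 hm.le)
  have h0 : ∫ ω, (X ω - c) ∂μ = 0 := by
    rw [integral_sub hiX (integrable_const _), hc]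
    simp
  -- pointwise
  have hp : ∀ ω, 1 + m * (X ω - c) + (m ^ 2 * (1 / 2 - 2 / 9 * (m * D))) * (X ω - c) ^ 2 ≤
      Real.exp (m * (X ω - c)) := by
    intro ω
    have a0 : |m * (X ω - c)| ≤ m * D := by
      rw [abs_mul, abs_of_pos hm]
      exact mul_le_mul_of_nonneg_left (hD ω) hm.le
    have a1 : |m * (X ω - c)| ≤ 1 := a0.trans (mul_le_one₀ hm1 hD0 hD1)
    have a2 := exp_ge_cubic a1
    have a3 : |m * (X ω - c)| ^ 3 ≤ (m * D) * (m * (X ω - c)) ^ 2 := by
      have : |m * (X ω - c)| ^ 3 = |m * (X ω - c)| * (m * (X ω - c)) ^ 2 := by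
        rw [← sq_abs (m * (X ω - c))]; ring
      rw [this]
      exact mul_le_mul_of_nonneg_right a0 (sq_nonneg _)
    have e1 : 1 + m * (X ω - c) + (m ^ 2 * (1 / 2 - 2 / 9 * (m * D))) * (X ω - c) ^ 2 =
        1 + m * (X ω - c) + (m * (X ω - c)) ^ 2 / 2 - 2 / 9 * ((m * D) *
          (m * (X ω - c)) ^ 2) := by ring
    rw [e1]
    linarith
  have hI : 1 + m ^ 2 * (1 / 2 - 2 / 9 * (m * D)) * V ≤ ∫ ω, Real.exp (m * (X ω - c)) ∂μ := by
    have hi3 : Integrable (fun ω => 1 + m * (X ω - c)) μ := (integrable_const 1).add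
      (hi1.const_mul m)
    have hi4 : Integrable (fun ω => (m ^ 2 * (1 / 2 - 2 / 9 * (m * D))) * (X ω - c) ^ 2) μ :=
      hi2.const_mul _
    have a1 : ∫ ω, (1 + m * (X ω - c) + (m ^ 2 * (1 / 2 - 2 / 9 * (m * D))) * (X ω - c) ^ 2) ∂μ ≤
        ∫ ω, Real.exp (m * (X ω - c)) ∂μ := integral_mono (hi3.add hi4) hiE hp
    have a2 : ∫ ω, (1 + m * (X ω - c) + (m ^ 2 * (1 / 2 - 2 / 9 * (m * D))) * (X ω - c) ^ 2) ∂μ =
        1 + m ^ 2 * (1 / 2 - 2 / 9 * (m * D)) * V := by
      rw [integral_add hi3 hi4, integral_add (integrable_const 1) (hi1.const_mul m),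
        integral_const_mul, integral_const_mul, h0]
      simp [hV]
    rw [a2] at a1
    exact a1
  set t := m ^ 2 * (1 / 2 - 2 / 9 * (m * D)) * V with ht
  have hmD : m * D ≤ 1 := mul_le_one₀ hm1 hD0 hD1
  have hmD0 : 0 ≤ m * D := mul_nonneg hm.le hD0
  have ht0 : 0 ≤ t := mul_nonneg (mul_nonneg (sq_nonneg m) (by linarith)) hV0
  have ht1 : t ≤ 1 / 2 * (m ^ 2 * V) := by
    have : m ^ 2 * (1 / 2 - 2 / 9 * (m * D)) * V =
        1 / 2 * (m ^ 2 * V) - 2 / 9 * (m * D) * (m ^ 2 * V) := by ring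
    rw [ht, this]
    have : 0 ≤ 2 / 9 * (m * D) * (m ^ 2 * V) := by positivity
    linarith
  have hlog : t - t ^ 2 ≤ Real.log (1 + t) := by
    have a1 := Real.one_sub_inv_le_log_of_pos (x := 1 + t) (by linarith)
    have a2 : t - t ^ 2 ≤ 1 - (1 + t)⁻¹ := by
      rw [← sub_nonneg]
      have : 1 - (1 + t)⁻¹ - (t - t ^ 2) = t ^ 3 / (1 + t) := by
        field_simp
        ring
      rw [this]
      positivity
    linarith
  have hlog2 : Real.log (1 + t) ≤ Real.log (∫ ω, Real.exp (m * (X ω - c)) ∂μ) :=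
    Real.log_le_log (by linarith) hI
  have hsplit : ∫ ω, Real.exp (m * X ω) ∂μ =
      Real.exp (m * c) * ∫ ω, Real.exp (m * (X ω - c)) ∂μ := by
    rw [← integral_const_mul]
    refine integral_congr_ae (ae_of_all _ fun ω => ?_)
    simp only
    rw [← Real.exp_add]
    congr 1
    ring
  have hpos : 0 < ∫ ω, Real.exp (m * (X ω - c)) ∂μ := lt_of_lt_of_le (by linarith) hI
  rw [hsplit, Real.log_mul (Real.exp_pos _).ne' hpos.ne', Real.log_exp, mul_add]
  have e1 : 1 / m * (m * c) = c := by field_simp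
  rw [e1]
  have h3 : m / 2 * V - D * V ≤ 1 / m * Real.log (∫ ω, Real.exp (m * (X ω - c)) ∂μ) := by
    have a1 : m * (m / 2 * V - D * V) ≤ Real.log (∫ ω, Real.exp (m * (X ω - c)) ∂μ) := by
      refine le_trans ?_ (hlog.trans hlog2)
      -- t - t ^ 2 ≥ m ^ 2 V / 2 - m D V
      have b1 : t ^ 2 ≤ 1 / 4 * (m * D) * (m * D * V) := by
        have c1 : t ^ 2 ≤ (1 / 2 * (m ^ 2 * V)) * (1 / 2 * (m ^ 2 * V)) := by
          rw [sq]
          exact mul_le_mul ht1 ht1 ht0 (by positivity)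
        have c2 : (m ^ 2 * V) ≤ (m * D) * (m * D) := by
          have : (m * D) * (m * D) = m ^ 2 * D ^ 2 := by ring
          rw [this]
          exact mul_le_mul_of_nonneg_left hV1 (sq_nonneg m)
        have c3 : m ^ 2 * V ≤ V := mul_le_of_le_one_left hV0 (pow_le_one₀ hm.le hm1)
        have c4 : (m ^ 2 * V) * (m ^ 2 * V) ≤ ((m * D) * (m * D)) * V :=
          mul_le_mul c2 c3 (by positivity) (by positivity)
        nlinarith
      have b2 : t = 1 / 2 * (m * (m * V)) - 2 / 9 * (m * D) * (m * (m * V)) := by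
        rw [ht]; ring
      have b3 : m * (m * V) ≤ V := by
        have c3 : m ^ 2 * V ≤ V := mul_le_of_le_one_left hV0 (pow_le_one₀ hm.le hm1)
        have c4 : m * (m * V) = m ^ 2 * V := by ring
        rw [c4]; exact c3
      have b4 : (m * D) * (m * (m * V)) ≤ m * D * V := mul_le_mul_of_nonneg_left b3 hmD0
      have b5 : (m * D) * (m * D * V) ≤ m * D * V :=
        mul_le_of_le_one_left (mul_nonneg hmD0 hV0) hmD
      have b6 : m * (m / 2 * V - D * V) = 1 / 2 * (m * (m * V)) - m * D * V := by ring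
      have b7 : 0 ≤ m * D * V := mul_nonneg hmD0 hV0
      rw [b6]
      nlinarith
    rw [one_div, inv_mul_eq_div, le_div_iff₀ hm]
    linarith
  linarith

end Vale.Agent.P146.Low
end
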