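import Vale.Agent.P146.Bdl.B17
import Vale.Agent.P146.Bdl.B24
import Vale.Agent.P146.Bdl.B28
import Vale.Agent.P146.Bdl.B15
import Vale.Agent.P146.Bdl.B23

set_option linter.all false

section

/-!
# P146, module VALQ, part 1: the values of the quadratic forms of the resolvent
-/

open MeasureTheory ProbabilityTheory Matrix Filter Topology

namespace Vale.Agent.P146.Pw2

set_option linter.all false

open Vale.Agent.P157 (spin)
open Vale.Agent.P157.Lv
open Vale.Agent.P157.Lv.Sy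
open Vale.Agent.P157.Par (Path Exponents topN lw spinPart)
open Vale.Agent.P146.Sk
open Vale.Agent.P146.Sk.Gen (GI gz gl r0 gS gF gOb gIsOpt GD gV)

variable {N K : ℕ} {m : ℕ → ℝ} {β y a b : ℝ} {s : ℕ → ℝ}

/-! ### Linear algebra -/

lemma sum_Me_PEQ (hN : 0 < N) {P : Matrix (Fin N) (Fin N) ℝ} (hP : Pᵀ = P)
    (Q : Matrix (Fin N) (Fin N) ℝ) (u : Fin N → ℝ) :
    ∑ e : Ix N, Me u ((P * Em N e * Q) *ᵥ u) e =
      1 / N * (u ⬝ᵥ (P * Q) *ᵥ u + P.trace * (u ⬝ᵥ Q *ᵥ u)) := by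
  have hN' : (0 : ℝ) < N := by exact_mod_cast hN
  have h2 : ∀ (e : Ix N) (i : Fin N), ((P * Em N e * Q) *ᵥ u) i =
      (P i e.1 * (Q *ᵥ u) e.2 + P i e.2 * (Q *ᵥ u) e.1) / √(2 * (N : ℝ)) := by
    intro e i
    simp only [mulVec, dotProduct, mul_Em_mul, Finset.mul_sum, ← Finset.sum_add_distrib,
      Finset.sum_div]
    exact Finset.sum_congr rfl fun j _ => by ring
  rw [Fintype.sum_prod_type]
  have h3 : ∀ a b : Fin N, Me u ((P * Em N (a, b) * Q) *ᵥ u) (a, b) =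
      1 / (2 * N) * (u a * P b a * (Q *ᵥ u) b + u a * (Q *ᵥ u) a * P b b) +
      1 / (2 * N) * (u b * P a b * (Q *ᵥ u) a + u b * (Q *ᵥ u) b * P a a) := by
    intro a b
    simp only [Me, h2]
    rw [mul_div_assoc', mul_div_assoc', ← add_div, div_div, sqrt_mul_sqrt_two hN]
    field_simp
    ring
  simp only [h3, Finset.sum_add_distrib, ← Finset.mul_sum]
  have h4 : ∑ a : Fin N, ∑ b : Fin N, u a * P b a * (Q *ᵥ u) b = u ⬝ᵥ (P * Q) *ᵥ u := by
    rw [← mulVec_mulVec]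
    simp only [dotProduct, mulVec, Finset.mul_sum]
    refine Finset.sum_congr rfl fun a _ => Finset.sum_congr rfl fun b _ => ?_
    rw [show P b a = P a b from congrFun (congrFun hP a) b]
    exact Finset.sum_congr rfl fun c _ => by ring
  have h5 : ∑ a : Fin N, u a * (Q *ᵥ u) a * ∑ b, P b b = P.trace * (u ⬝ᵥ Q *ᵥ u) := by
    rw [← Finset.sum_mul, mul_comm]
    rfl
  have h5' : ∑ a : Fin N, ∑ b : Fin N, u a * (Q *ᵥ u) a * P b b = P.trace * (u ⬝ᵥ Q *ᵥ u) := by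
    rw [← h5]
    exact Finset.sum_congr rfl fun a _ => (Finset.mul_sum _ _ _).symm
  have h6 : ∑ a : Fin N, ∑ b : Fin N, u b * P a b * (Q *ᵥ u) a = u ⬝ᵥ (P * Q) *ᵥ u := by
    rw [← h4]
    exact Finset.sum_comm
  have h7 : ∑ a : Fin N, ∑ b : Fin N, u b * (Q *ᵥ u) b * P a a = P.trace * (u ⬝ᵥ Q *ᵥ u) := by
    rw [← h5']
    exact Finset.sum_comm
  rw [h4, h5, h6, h7]
  field_simp
  ring

/-! ### The context -/

lemma ctx_q {E : (Ix N → ℝ) → (Fin N → Bool) → ℝ}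
    {D B : Ix N → (Ix N → ℝ) → (Fin N → Bool) → ℝ} {c w : ℝ} (hN : 0 < N)
    (h : GD K m E D (spin (N := N)))
    (hB : ∀ e z x, D e z x = c * (spin x e.1 * spin x e.2 / √(2 * (N : ℝ))) + B e z x)
    (hBe : ∀ e x, EG (fun z => B e z x)) (hBw : ∀ z x, ∑ e, B e z x ^ 2 ≤ N * w) :
    Rec.Ctx (gS K m E spin s) (Gen.gD D spin s) (fun e => (Sum.inl e : GI (Ix N) N K)) spin
      c (fun e z x => B e (r0 z) x) (fun _ => w) where
  reg := Gen.gS_regD h s
  N0 := hN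
  norm := spin_norm
  inj := fun _ _ h => Sum.inl.inj h
  lev := fun e => rfl
  dB := fun e z x => hB e (r0 z) x
  nB := fun e x => Gen.EG.r0 (hBe e x)
  bB := fun z x => hBw (r0 z) x
  ew := EG.const _

/-- The quadratic forms of a matrix of the level zero as a hierarchical matrix. -/
noncomputable def TQ (S : Sy (GI (Ix N) N K) (Fin N → Bool))
    (A : (GI (Ix N) N K → ℝ) → Matrix (Fin N) (Fin N) ℝ) : ℝ × (ℕ → ℝ) :=
  (Rec.TT S spin A (K + 1), fun l => Rec.TT S spin A l)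

/-- the weighted norm of the errors -/
lemma hN_le_of (hm' : Exponents K m) {T : ℝ × (ℕ → ℝ)} {E : ℕ → ℝ} {G : ℝ}
    (htop : E (K + 1) ≤ ∑ l ∈ Finset.range (K + 1), (m (l + 1) - m l) * E l)
    (h1 : |T.1| ≤ 7 * E (K + 1) + 2 * (∑ l ∈ Finset.range (K + 1), (m (l + 1) - m l) * E l) + G)
    (h2 : ∀ l ≤ K, |T.2 l| ≤
      7 * E l + 2 * (∑ l ∈ Finset.range (K + 1), (m (l + 1) - m l) * E l) + G) :
    hN K m T ≤ 18 * (∑ l ∈ Finset.range (K + 1), (m (l + 1) - m l) * E l) + 2 * G := by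
  have hp : ∀ l ∈ Finset.range (K + 1), 0 ≤ m (l + 1) - m l := fun l hl => by
    have := hm'.2.2 l (Nat.lt_succ_iff.1 (Finset.mem_range.1 hl))
    linarith
  have hp1 : ∑ l ∈ Finset.range (K + 1), (m (l + 1) - m l) = 1 := by
    rw [Finset.sum_range_sub, hm'.1, hm'.2.1, sub_zero]
  set Sg : ℝ := ∑ l ∈ Finset.range (K + 1), (m (l + 1) - m l) * E l with hSg
  unfold Sk.hN
  have h3 : ∑ i ∈ Finset.range (K + 1), (m (i + 1) - m i) * |T.2 i| ≤
      ∑ i ∈ Finset.range (K + 1), (m (i + 1) - m i) * (7 * E i + 2 * Sg + G) :=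
    Finset.sum_le_sum fun i hi => mul_le_mul_of_nonneg_left
      (h2 i (Nat.lt_succ_iff.1 (Finset.mem_range.1 hi))) (hp i hi)
  have h4 : ∑ i ∈ Finset.range (K + 1), (m (i + 1) - m i) * (7 * E i + 2 * Sg + G) =
      7 * Sg + (2 * Sg + G) := by
    have e5 : ∀ i ∈ Finset.range (K + 1), (m (i + 1) - m i) * (7 * E i + 2 * Sg + G) =
        7 * ((m (i + 1) - m i) * E i) + (m (i + 1) - m i) * (2 * Sg + G) := fun i _ => by ring
    rw [Finset.sum_congr rfl e5, Finset.sum_add_distrib, ← Finset.mul_sum, ← Finset.sum_mul, hp1,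
      one_mul]
  rw [h4] at h3
  linarith

section bridge

variable {E : (Ix N → ℝ) → (Fin N → Bool) → ℝ}

/-- the diagonal of the product -/
lemma HH_top (A : (GI (Ix N) N K → ℝ) → Matrix (Fin N) (Fin N) ℝ) :
    Rec.HH (gS K m E spin s) spin A (K + 1) =
      (hm K m (1, fun l => (gS K m E spin s).Rl spin l) (TQ (gS K m E spin s) A)).1 := by
  set S := gS K m E spin s with hS
  have hSK : S.K = K := rfl
  have hSp : ∀ l, S.p l = m (l + 1) - m l := fun l => rfl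
  show Rec.HH S spin A (K + 1) = 1 * Rec.TT S spin A (K + 1) -
    ∑ i ∈ Finset.range (K + 1), (m (i + 1) - m i) * (S.Rl spin i * Rec.TT S spin A i)
  unfold Rec.HH
  rw [if_neg (by rw [hSK]; omega), one_mul, hSK]
  congr 1
  refine Finset.sum_congr rfl fun i hi => ?_
  have hi' : i ≤ S.K := Nat.lt_succ_iff.1 (Finset.mem_range.1 hi)
  rw [RR_lev S hi', hSp]

/-- the levels of the product -/
lemma HH_lev (A : (GI (Ix N) N K → ℝ) → Matrix (Fin N) (Fin N) ℝ) {l : ℕ} (hl : l ≤ K) :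
    Rec.HH (gS K m E spin s) spin A l =
      (hm K m (1, fun l => (gS K m E spin s).Rl spin l) (TQ (gS K m E spin s) A)).2 l := by
  set S := gS K m E spin s with hS
  have hSK : S.K = K := rfl
  have hSp : ∀ l, S.p l = m (l + 1) - m l := fun l => rfl
  have hSm : S.m = m := rfl
  show Rec.HH S spin A l = S.Rl spin l * (Rec.TT S spin A (K + 1) -
      ∑ i ∈ Finset.Ico (l + 1) (K + 1), (m (i + 1) - m i) * Rec.TT S spin A i -
        m (l + 1) * Rec.TT S spin A l) +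
    (1 - ∑ i ∈ Finset.Ico l (K + 1), (m (i + 1) - m i) * S.Rl spin i) * Rec.TT S spin A l -
      ∑ i ∈ Finset.range l, (m (i + 1) - m i) * (S.Rl spin i * Rec.TT S spin A i)
  unfold Rec.HH
  have hle : l ≤ S.K := hl
  rw [if_pos hle, RR_lev S hle, hSK, hSm]
  congr 1
  · congr 1
    congr 2
    refine Finset.sum_congr rfl fun i hi => ?_
    have hi' : i ≤ S.K := by
      have := Finset.mem_Ico.1 hi
      show i ≤ K
      omega
    rw [RR_lev S hi', hSp]
  · refine Finset.sum_congr rfl fun i hi => ?_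
    have hi' : i ≤ S.K := by
      have := Finset.mem_range.1 hi
      show i ≤ K
      omega
    rw [RR_lev S hi', hSp]

/-- the norm of the magnetization -/
lemma TT_one {D : Ix N → (Ix N → ℝ) → (Fin N → Bool) → ℝ} (h : GD K m E D (spin (N := N)))
    (j : ℕ) : Rec.TT (gS K m E spin s) spin (fun _ => 1) j = Rec.RR (gS K m E spin s) spin j := by
  have hN' : (0 : ℝ) < N := by exact_mod_cast h.N0
  set S := gS K m E spin s with hS
  have hReg : S.Reg := Gen.gS_reg h s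
  unfold Rec.TT Rec.RR
  split_ifs with hj
  · unfold Sy.Rl
    congr 2
    funext z x
    rw [Rec.yv_le hj, one_mulVec]
    simp only [dotProduct]
    exact Finset.sum_congr rfl fun i _ => by ring
  · have e1 : (fun (z : GI (Ix N) N K → ℝ) (x : Fin N → Bool) =>
        ((1 : Matrix (Fin N) (Fin N) ℝ) *ᵥ Rec.yv S spin j z x) ⬝ᵥ Rec.yv S spin j z x) =
        fun _ _ => (N : ℝ) := by
      funext z x
      rw [Rec.yv_gt (by omega), one_mulVec, dot_self_eq, nv_sq, spin_norm]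
    rw [e1, hReg.Ex_const]
    field_simp

/-- the errors with constant bounds -/
lemma er_const {D : Ix N → (Ix N → ℝ) → (Fin N → Bool) → ℝ} (h : GD K m E D (spin (N := N)))
    {c A₀ w : ℝ} (hA₀ : 0 ≤ A₀) (k : ℕ) :
    Rec.er (gS K m E spin s) spin c (fun _ => A₀) (fun _ => w) k =
      A₀ * (|c| * √(Rec.vv (gS K m E spin s) spin k) + √(2 * w)) := by
  have hReg : (gS K m E spin s).Reg := Gen.gS_reg h s
  unfold Rec.er
  rw [hReg.Ex_const, hReg.Ex_const, Real.sqrt_sq hA₀]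

/-- the weighted sum of the errors -/
lemma sum_er_le {D : Ix N → (Ix N → ℝ) → (Fin N → Bool) → ℝ} (h : GD K m E D (spin (N := N)))
    {c c' A₀ w : ℝ} (hA₀ : 0 ≤ A₀) (hc : |c| ≤ c') :
    ∑ l ∈ Finset.range (K + 1), (m (l + 1) - m l) *
      Rec.er (gS K m E spin s) spin c (fun _ => A₀) (fun _ => w) l ≤
      A₀ * (c' * √(Vd m (gS K m E spin s)) + √(2 * w)) := by
  set S := gS K m E spin s with hS
  have hm' := h.hm
  have hReg : S.Reg := Gen.gS_reg h s
  have hc0 : 0 ≤ c' := (abs_nonneg _).trans hc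
  have hV : ∀ l ≤ K, 0 ≤ dev2 S l := fun l hl => hReg.pairEx_nonneg hl fun x x' => sq_nonneg _
  have hp0 : ∀ l ∈ Finset.range (K + 1), 0 ≤ m (l + 1) - m l := fun l hl => by
    have := hm'.2.2 l (Nat.lt_succ_iff.1 (Finset.mem_range.1 hl))
    linarith
  have hp1 : ∑ l ∈ Finset.range (K + 1), (m (l + 1) - m l) = 1 := by
    rw [Finset.sum_range_sub, hm'.1, hm'.2.1, sub_zero]
  have h1 : ∀ l ∈ Finset.range (K + 1), (m (l + 1) - m l) *
      Rec.er S spin c (fun _ => A₀) (fun _ => w) l ≤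
      A₀ * (c' * ((m (l + 1) - m l) * √(dev2 S l))) + (m (l + 1) - m l) * (A₀ * √(2 * w)) := by
    intro l hl
    have hl' : l ≤ S.K := Nat.lt_succ_iff.1 (Finset.mem_range.1 hl)
    rw [er_const h hA₀, vv_lev S hl']
    have h2 : |c| * √(dev2 S l) ≤ c' * √(dev2 S l) :=
      mul_le_mul_of_nonneg_right hc (Real.sqrt_nonneg _)
    calc (m (l + 1) - m l) * (A₀ * (|c| * √(dev2 S l) + √(2 * w))) ≤
          (m (l + 1) - m l) * (A₀ * (c' * √(dev2 S l) + √(2 * w))) := by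
          refine mul_le_mul_of_nonneg_left (mul_le_mul_of_nonneg_left ?_ hA₀) (hp0 l hl)
          linarith
      _ = _ := by ring
  refine (Finset.sum_le_sum h1).trans ?_
  rw [Finset.sum_add_distrib, ← Finset.mul_sum, ← Finset.mul_sum, ← Finset.sum_mul, hp1, one_mul]
  have h3 := sum_sqrt_le hm' hV
  have h4 : Vd m S = ∑ l ∈ Finset.range (K + 1), (m (l + 1) - m l) * dev2 S l := rfl
  rw [h4]
  have h5 := mul_le_mul_of_nonneg_left (mul_le_mul_of_nonneg_left h3 hc0) hA₀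
  linarith

lemma rl_mono {ι X : Type} [Fintype ι] [DecidableEq ι] [Fintype X] [DecidableEq X] [Nonempty X]
    {S : Sy ι X} {D : ι → (ι → ℝ) → X → ℝ} {φ : X → Fin N → ℝ} {zc : ℕ → Fin N → ι}
    {s : ℕ → ℝ} (F : Fld S D φ zc s) {l : ℕ} (hl : l < S.K) : S.Rl φ l ≤ S.Rl φ (l + 1) := by
  have h := F.Rl_sub hl
  have h2 : 0 ≤ 1 / N * S.Ex (fun z _ => ∑ i, (S.mg φ (l + 1) i z - S.mg φ l i z) ^ 2) := by
    rw [← Sy.Ex_const_mul, ← F.hreg.Ex_const 0]
    refine F.hreg.Ex_mono (Sy.Nh.fst (EG.const 0)) (Sy.Nh.fst (EG.const_mul _ (EG.sum _ fun i _ =>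
      ((Fld.eg_mg F.hreg hl i).sub (Fld.eg_mg F.hreg hl.le i)).pow 2))) fun z _ => ?_
    have := F.N_pos
    positivity
  linarith

/-- The overlaps form a path. -/
lemma path_q {D : Ix N → (Ix N → ℝ) → (Fin N → Bool) → ℝ} (h : GD K m E D (spin (N := N)))
    (hs : ∀ l ≤ K, 0 ≤ s l) : Path K (fun l => (gS K m E spin s).Rl spin l) ∧
      (gS K m E spin s).Rl spin K ≤ 1 := by
  have F := Gen.gS_fld h hs
  refine ⟨⟨F.Rl_nonneg (Nat.zero_le _), fun l hl => rl_mono F hl⟩, F.Rl_le_one le_rfl⟩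

end bridge

/-- the value of `T_w`, for a given system -/
lemma tw_of {D B : Ix N → (Ix N → ℝ) → (Fin N → Bool) → ℝ} {w : ℝ} (hN : 0 < N)
    {E : (Ix N → ℝ) → (Fin N → Bool) → ℝ} {c c' : ℝ} (hc : |c| ≤ c')
    (h : GD K m E D (spin (N := N)))
    (hB : ∀ e z x, D e z x = c * (spin x e.1 * spin x e.2 / √(2 * (N : ℝ))) + B e z x)
    (hBe : ∀ e x, EG (fun z => B e z x)) (hBw : ∀ z x, ∑ e, B e z x ^ 2 ≤ N * w) :
    |Tw (gS K m E spin s) - c * trp K m (fun l => (gS K m E spin s).Rl spin l) 2| ≤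
      9 * (c' * √(Vd m (gS K m E spin s)) + √(2 * w)) := by
  set S := gS K m E spin s with hS
  have hC := ctx_q (s := s) hN h hB hBe hBw
  rw [← hS] at hC
  have hSK : S.K = K := rfl
  have hL : Rec.LMat S (fun _ => (1 : Matrix (Fin N) (Fin N) ℝ)) (fun _ => 1) := {
    eg := EGM.const _
    dep := fun a b z w => rfl
    symm := fun z => transpose_one
    op := fun z => OpB.one
    ega := EG.const _
    nn := fun z => zero_le_one }
  have h1 := exact_idx (A' := fun _ _ => 0) hC hL (fun e => PDM.const _) (fun e => EGM.const _)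
    (j := K + 1) (by rw [hSK])
  have hm' := h.hm
  have e1 : 1 / (N : ℝ) * S.Ex (fun z x => Rec.yv S spin (K + 1) z x ⬝ᵥ
      Rec.WW (fun e => (Sum.inl e : GI (Ix N) N K)) z *ᵥ ((1 : Matrix (Fin N) (Fin N) ℝ) *ᵥ
        Rec.yv S spin (K + 1) z x)) = Tw S := by
    unfold Tw
    congr 2
    funext z x
    rw [one_mulVec, Rec.yv_gt (by rw [hSK]; omega), qf_eq]
    rfl
  have e2 : S.Ex (fun z x => ∑ e, Me (Rec.yv S spin (K + 1) z x)
      ((0 : Matrix (Fin N) (Fin N) ℝ) *ᵥ Rec.yv S spin (K + 1) z x) e) = 0 := by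
    have e3 : (fun (z : GI (Ix N) N K → ℝ) (x : Fin N → Bool) => ∑ e,
        Me (Rec.yv S spin (K + 1) z x)
        ((0 : Matrix (Fin N) (Fin N) ℝ) *ᵥ Rec.yv S spin (K + 1) z x) e) = fun _ _ => 0 := by
      funext z x
      refine Finset.sum_eq_zero fun e _ => ?_
      simp [Me]
    rw [e3]
    exact (Gen.gS_reg h s).Ex_const 0
  have e4 : Rec.HH S spin (fun _ => 1) (K + 1) = trp K m (fun l => S.Rl spin l) 2 := by
    unfold Rec.HH
    rw [if_neg (by rw [hSK]; omega), hSK, TT_one h, trp_two]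
    have e5 : Rec.RR S spin (K + 1) = 1 := Rec.RR_top S spin
    rw [← hS, e5]
    congr 1
    refine Finset.sum_congr rfl fun i hi => ?_
    have hi' : i ≤ S.K := Nat.lt_succ_iff.1 (Finset.mem_range.1 hi)
    rw [TT_one h, ← hS, RR_lev S hi', sq]
    rfl
  rw [e1, e2, e4, mul_zero, add_zero] at h1
  refine h1.trans ?_
  have h2 : Rec.ej S spin c (fun _ => 1) (fun _ => w) (K + 1) =
      7 * Rec.er S spin c (fun _ => 1) (fun _ => w) (K + 1) +
      2 * ∑ l ∈ Finset.range (K + 1), (m (l + 1) - m l) *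
        Rec.er S spin c (fun _ => 1) (fun _ => w) l := rfl
  have h3 := sum_er_le (s := s) (c := c) (w := w) h (zero_le_one) hc
  have h4 : Rec.er S spin c (fun _ => 1) (fun _ => w) (K + 1) = √(2 * w) := by
    rw [er_const h zero_le_one]
    unfold Rec.vv
    rw [if_neg (by show ¬ (K + 1 ≤ K); omega), Real.sqrt_zero, mul_zero, zero_add, one_mul]
  rw [h2, h4]
  rw [← hS, one_mul] at h3
  have h5 : 0 ≤ c' * √(Vd m S) := mul_nonneg ((abs_nonneg _).trans hc) (Real.sqrt_nonneg _)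
  linarith only [h5, h3]

end Vale.Agent.P146.Pw2
end

section

/-!
# P146, module VALQ, part 2: the resolvent equations
-/

open MeasureTheory ProbabilityTheory Matrix Filter Topology

namespace Vale.Agent.P146.Pw2

set_option linter.all false

open Vale.Agent.P157 (spin)
open Vale.Agent.P157.Lv
open Vale.Agent.P157.Lv.Sy
open Vale.Agent.P157.Par (Path Exponents topN lw spinPart)
open Vale.Agent.P146.Sk
open Vale.Agent.P146.Sk.Gen (GI gz gl r0 gS gF gOb gIsOpt GD gV)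

variable {N K : ℕ} {m : ℕ → ℝ} {β y a b : ℝ} {s : ℕ → ℝ}

/-- a matrix of the level zero -/
def Z0 (N K : ℕ) (P : (Ix N → ℝ) → Matrix (Fin N) (Fin N) ℝ) :
    (GI (Ix N) N K → ℝ) → Matrix (Fin N) (Fin N) ℝ := fun z => P (r0 z)

lemma egm_Z0 {P : (Ix N → ℝ) → Matrix (Fin N) (Fin N) ℝ} (hP : EGM P) : EGM (Z0 N K P) :=
  fun i j => Gen.EG.r0 (hP i j)

lemma pdm_Z0 {P P' : (Ix N → ℝ) → Matrix (Fin N) (Fin N) ℝ} {e : Ix N} (hP : PDM e P P') :
    PDM (Sum.inl e : GI (Ix N) N K) (Z0 N K P) (Z0 N K P') := fun i j =>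
  Rec.pd_g (g := fun e => (Sum.inl e : GI (Ix N) N K)) (fun _ _ h => Sum.inl.inj h) (hP i j)

lemma lmat_Z0 {E : (Ix N → ℝ) → (Fin N → Bool) → ℝ}
    {P : (Ix N → ℝ) → Matrix (Fin N) (Fin N) ℝ} {α : ℝ} (hα : 0 ≤ α) (hP : EGM P)
    (hs : ∀ g, (P g)ᵀ = P g) (ho : ∀ g, OpB (P g) α) :
    Rec.LMat (gS K m E spin s) (Z0 N K P) (fun _ => α) where
  eg := egm_Z0 hP
  dep := fun a b => Rec.dep_g (g := fun e => (Sum.inl e : GI (Ix N) N K)) (fun e => rfl)
    (fun g => P g a b)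
  symm := fun z => hs _
  op := fun z => ho _
  ega := EG.const _
  nn := fun z => hα

section terms

variable {E : (Ix N → ℝ) → (Fin N → Bool) → ℝ}
  {D : Ix N → (Ix N → ℝ) → (Fin N → Bool) → ℝ}

/-- the form of a matrix of the level zero -/
lemma nh_form (h : GD K m E D (spin (N := N))) {P : (Ix N → ℝ) → Matrix (Fin N) (Fin N) ℝ}
    (hP : EGM P) (j : ℕ) : Nh (fun z x => Rec.yv (gS K m E spin s) spin j z x ⬝ᵥ
      Z0 N K P z *ᵥ Rec.yv (gS K m E spin s) spin j z x) :=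
  (Rec.nhv_yv (Gen.gS_reg h s) j).dot ((Rec.nhv_yv (Gen.gS_reg h s) j).mulVec (egm_Z0 hP))

lemma TT_eq (P : (Ix N → ℝ) → Matrix (Fin N) (Fin N) ℝ) (j : ℕ) :
    Rec.TT (gS K m E spin s) spin (Z0 N K P) j = 1 / N * (gS K m E spin s).Ex (fun z x =>
      Rec.yv (gS K m E spin s) spin j z x ⬝ᵥ
        Z0 N K P z *ᵥ Rec.yv (gS K m E spin s) spin j z x) := by
  unfold Rec.TT
  congr 2
  funext z x
  rw [dotProduct_comm]

/-- replacing a trace by its mean -/
lemma tr_term (h : GD K m E D (spin (N := N))) {P : (Ix N → ℝ) → Matrix (Fin N) (Fin N) ℝ}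
    {τ : (Ix N → ℝ) → ℝ} {μ α v : ℝ} (hα : 0 ≤ α) (hP : EGM P) (ho : ∀ g, OpB (P g) α)
    (hτ : EG τ) (hv : ∫ g, (τ g - μ) ^ 2 ∂(gI (Ix N)) ≤ v ^ 2) (hv0 : 0 ≤ v) (j : ℕ) :
    |1 / (N : ℝ) * (gS K m E spin s).Ex (fun z x => τ (r0 z) *
      (Rec.yv (gS K m E spin s) spin j z x ⬝ᵥ
        Z0 N K P z *ᵥ Rec.yv (gS K m E spin s) spin j z x)) -
      μ * Rec.TT (gS K m E spin s) spin (Z0 N K P) j| ≤ v * α := by
  have hN' : (0 : ℝ) < N := by exact_mod_cast h.N0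
  set S := gS K m E spin s with hS
  have hReg : S.Reg := Gen.gS_reg h s
  have nF := nh_form (s := s) h hP j
  rw [← hS] at nF
  have eτ : EG fun z : GI (Ix N) N K → ℝ => τ (r0 z) := Gen.EG.r0 hτ
  have nd : Nh (fun (z : GI (Ix N) N K → ℝ) (_ : Fin N → Bool) => τ (r0 z) - μ) :=
    Sy.Nh.fst (eτ.sub (EG.const _))
  have n3 : Nh (fun z x => 1 / (N : ℝ) * (Rec.yv S spin j z x ⬝ᵥ
      Z0 N K P z *ᵥ Rec.yv S spin j z x)) := Sy.Nh.const_mul _ nF
  have e0 := TT_eq (s := s) (m := m) (E := E) (K := K) P j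
  rw [← hS] at e0
  have e1 : 1 / (N : ℝ) * S.Ex (fun z x => τ (r0 z) * (Rec.yv S spin j z x ⬝ᵥ
        Z0 N K P z *ᵥ Rec.yv S spin j z x)) - μ * Rec.TT S spin (Z0 N K P) j =
      S.Ex (fun z x => (τ (r0 z) - μ) * (1 / (N : ℝ) * (Rec.yv S spin j z x ⬝ᵥ
        Z0 N K P z *ᵥ Rec.yv S spin j z x))) := by
    have e2 : (fun z x => (τ (r0 z) - μ) * (1 / (N : ℝ) * (Rec.yv S spin j z x ⬝ᵥ
        Z0 N K P z *ᵥ Rec.yv S spin j z x))) = fun z x => 1 / (N : ℝ) * (τ (r0 z) *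
        (Rec.yv S spin j z x ⬝ᵥ Z0 N K P z *ᵥ Rec.yv S spin j z x)) -
        μ * (1 / (N : ℝ) * (Rec.yv S spin j z x ⬝ᵥ
        Z0 N K P z *ᵥ Rec.yv S spin j z x)) := by
      funext z x
      ring
    rw [e2, hReg.Ex_sub (Sy.Nh.const_mul _ (Sy.Nh.mul (Sy.Nh.fst eτ) nF))
      (Sy.Nh.const_mul _ (Sy.Nh.const_mul _ nF)), Sy.Ex_const_mul, Sy.Ex_const_mul,
      Sy.Ex_const_mul, e0]
  rw [e1]
  refine (Rec.Ex_abs_cs hReg nd n3).trans ?_
  have h1 : S.Ex (fun z _ => (τ (r0 z) - μ) ^ 2) ≤ v ^ 2 := by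
    rw [hS, Gen.gS_Ex_zero h s (W := fun g => (τ g - μ) ^ 2) ((hτ.sub (EG.const _)).pow 2)]
    exact hv
  have h2 : S.Ex (fun z x => (1 / (N : ℝ) * (Rec.yv S spin j z x ⬝ᵥ
        Z0 N K P z *ᵥ Rec.yv S spin j z x)) ^ 2) ≤ α ^ 2 := by
    have e3 := hReg.Ex_const (α ^ 2)
    rw [← e3]
    refine hReg.Ex_mono (Sy.Nh.pow n3 2) (Sy.Nh.fst (EG.const _)) fun z x => ?_
    rw [← sq_abs]
    exact pow_le_pow_left₀ (abs_nonneg _) (Rec.quad_le hReg h.N0 spin_norm (ho _) hα j z x) 2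
  refine mul_le_mul ?_ ?_ (Real.sqrt_nonneg _) hv0
  · exact Real.sqrt_le_iff.2 ⟨hv0, h1⟩
  · exact Real.sqrt_le_iff.2 ⟨hα, h2⟩

/-- the terms without trace -/
lemma no_tr (h : GD K m E D (spin (N := N))) {P : (Ix N → ℝ) → Matrix (Fin N) (Fin N) ℝ}
    {α : ℝ} (hα : 0 ≤ α) (hP : EGM P) (ho : ∀ g, OpB (P g) α) (j : ℕ) :
    |1 / (N : ℝ) * (gS K m E spin s).Ex (fun z x =>
      Rec.yv (gS K m E spin s) spin j z x ⬝ᵥ
        Z0 N K P z *ᵥ Rec.yv (gS K m E spin s) spin j z x)| ≤ α := by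
  set S := gS K m E spin s with hS
  have hReg : S.Reg := Gen.gS_reg h s
  have nF := nh_form (s := s) h hP j
  rw [← hS] at nF
  rw [← Sy.Ex_const_mul]
  have n3 : Nh (fun z x => 1 / (N : ℝ) * (Rec.yv S spin j z x ⬝ᵥ
      Z0 N K P z *ᵥ Rec.yv S spin j z x)) := Sy.Nh.const_mul _ nF
  refine (hReg.abs_Ex_le n3).trans ?_
  rw [← hReg.Ex_const α]
  exact hReg.Ex_mono (Sy.Nh.abs n3) (Sy.Nh.fst (EG.const _)) fun z x =>
    Rec.quad_le hReg h.N0 spin_norm (ho _) hα j z x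

/-- The contribution of the derivative `P E Q` of a matrix. -/
lemma goe_q (h : GD K m E D (spin (N := N))) {P Q : (Ix N → ℝ) → Matrix (Fin N) (Fin N) ℝ}
    {τ : (Ix N → ℝ) → ℝ} {μ α v : ℝ} (hα : 0 ≤ α) (hP : EGM P) (hQ : EGM Q)
    (hPs : ∀ g, (P g)ᵀ = P g) (hPo : ∀ g, OpB (P g) α) (hQo : ∀ g, OpB (Q g) α)
    (hτ' : ∀ g, τ g = 1 / N * (P g).trace)
    (hτ : EG τ) (hv : ∫ g, (τ g - μ) ^ 2 ∂(gI (Ix N)) ≤ v ^ 2) (hv0 : 0 ≤ v) (j : ℕ) :
    |1 / (N : ℝ) * (gS K m E spin s).Ex (fun z x => ∑ e,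
      Me (Rec.yv (gS K m E spin s) spin j z x)
        ((Z0 N K P z * Em N e * Z0 N K Q z) *ᵥ Rec.yv (gS K m E spin s) spin j z x) e) -
      μ * Rec.TT (gS K m E spin s) spin (Z0 N K Q) j| ≤ v * α + α * α / N := by
  have hN' : (0 : ℝ) < N := by exact_mod_cast h.N0
  have h1 := tr_term (s := s) h hα hQ hQo hτ hv hv0 j
  have h2 := no_tr (s := s) h (mul_nonneg hα hα) (hP.mul hQ)
    (fun g => (hPo g).mul hα (hQo g)) j
  set S := gS K m E spin s with hS
  have hReg : S.Reg := Gen.gS_reg h s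
  have nPQ := nh_form (s := s) h (hP.mul hQ) j
  have nQ := nh_form (s := s) h hQ j
  rw [← hS] at nPQ nQ
  have e1 : (fun z x => ∑ e, Me (Rec.yv S spin j z x)
        ((Z0 N K P z * Em N e * Z0 N K Q z) *ᵥ Rec.yv S spin j z x) e) = fun z x =>
      1 / (N : ℝ) * (Rec.yv S spin j z x ⬝ᵥ Z0 N K (fun g => P g * Q g) z *ᵥ
        Rec.yv S spin j z x) +
      τ (r0 z) * (Rec.yv S spin j z x ⬝ᵥ Z0 N K Q z *ᵥ Rec.yv S spin j z x) := by
    funext z x
    rw [sum_Me_PEQ h.N0 (P := Z0 N K P z) (hPs _), hτ']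
    unfold Z0
    ring
  rw [e1, hReg.Ex_add (Sy.Nh.const_mul _ nPQ)
    (Sy.Nh.mul (Sy.Nh.fst (Gen.EG.r0 hτ)) nQ), Sy.Ex_const_mul]
  have h3 : |1 / (N : ℝ) * (1 / (N : ℝ) * S.Ex (fun z x => Rec.yv S spin j z x ⬝ᵥ
      Z0 N K (fun g => P g * Q g) z *ᵥ Rec.yv S spin j z x))| ≤ α * α / N := by
    rw [abs_mul, abs_of_pos (by positivity : (0 : ℝ) < 1 / N)]
    calc 1 / (N : ℝ) * _ ≤ 1 / N * (α * α) := mul_le_mul_of_nonneg_left h2 (by positivity)
      _ = _ := by ring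
  rw [abs_le] at h1 h3 ⊢
  constructor
  · linarith only [h3.1, h1.1]
  · linarith [h1.2, h3.2]

lemma Me_sub_q (u v w : Fin N → ℝ) (e : Ix N) : Me u (v - w) e = Me u v e - Me u w e := by
  simp only [Me, Pi.sub_apply]
  ring

lemma Me_add_q (u v w : Fin N → ℝ) (e : Ix N) : Me u (v + w) e = Me u v e + Me u w e := by
  simp only [Me, Pi.add_apply]
  ring

/-- the matrix `A` of the level zero -/
noncomputable abbrev ZA (N K : ℕ) (y : ℝ) : (GI (Ix N) N K → ℝ) → Matrix (Fin N) (Fin N) ℝ :=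
  Z0 N K (fun g => Ay y (Wm N g))

/-- the matrix `B` of the level zero -/
noncomputable abbrev ZB (N K : ℕ) (y : ℝ) : (GI (Ix N) N K → ℝ) → Matrix (Fin N) (Fin N) ℝ :=
  Z0 N K (fun g => By y (Wm N g))

lemma sqrt_var (hN : 0 < N) (hy : 0 < y) :
    (8 : ℝ) / (N ^ 2 * y ^ 4) ≤ (3 / (N * y ^ 2)) ^ 2 := by
  have hN' : (0 : ℝ) < N := by exact_mod_cast hN
  have e : (3 / ((N : ℝ) * y ^ 2)) ^ 2 = 9 / (N ^ 2 * y ^ 4) := by
    rw [div_pow]
    congr 1
    · norm_num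
    · ring
  rw [e]
  gcongr
  norm_num

lemma nh_me (h : GD K m E D (spin (N := N)))
    {P : Ix N → (GI (Ix N) N K → ℝ) → Matrix (Fin N) (Fin N) ℝ} (hP : ∀ e, EGM (P e)) (j : ℕ) :
    Nh (fun z x => ∑ e, Me (Rec.yv (gS K m E spin s) spin j z x)
      (P e z *ᵥ Rec.yv (gS K m E spin s) spin j z x) e) :=
  Sy.Nh.sum _ fun e _ => (Rec.nhv_yv (Gen.gS_reg h s) j).me
    ((Rec.nhv_yv (Gen.gS_reg h s) j).mulVec (hP e)) e

lemma egm_PEQ {P Q : (GI (Ix N) N K → ℝ) → Matrix (Fin N) (Fin N) ℝ} (hP : EGM P) (hQ : EGM Q)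
    (e : Ix N) : EGM (fun z => P z * Em N e * Q z) := (hP.mul (EGM.const _)).mul hQ

/-- the derivative terms for `A` -/
lemma goe_A (h : GD K m E D (spin (N := N))) (hy : 0 < y) (j : ℕ) :
    |1 / (N : ℝ) * (gS K m E spin s).Ex (fun z x => ∑ e,
      Me (Rec.yv (gS K m E spin s) spin j z x)
        ((ZA N K y z * Em N e * ZA N K y z - ZB N K y z * Em N e * ZB N K y z) *ᵥ
          Rec.yv (gS K m E spin s) spin j z x) e) -
      (mA N y * Rec.TT (gS K m E spin s) spin (ZA N K y) j -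
        mB N y * Rec.TT (gS K m E spin s) spin (ZB N K y) j)| ≤
      2 * (3 / (N * y ^ 2) * (1 / y) + 1 / y * (1 / y) / N) := by
  have hN' : (0 : ℝ) < N := by exact_mod_cast h.N0
  have hy1 : (0 : ℝ) ≤ 1 / y := by positivity
  have oA : ∀ g : Ix N → ℝ, OpB (Ay y (Wm N g)) (1 / y) := fun g => Ay_opB (Wm_transpose g) hy
  have oB : ∀ g : Ix N → ℝ, OpB (By y (Wm N g)) (1 / y) := fun g => By_opB (Wm_transpose g) hy
  obtain ⟨vA, vB⟩ := var_tr' h.N0 hy
  have hA := goe_q (s := s) h hy1 (egm_ay hy) (egm_ay hy) (fun g => ay_symm hy (Wm_transpose g))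
    oA oA (τ := tA N y) (fun g => rfl) (eg_tA hy) (vA.trans (sqrt_var h.N0 hy)) (by positivity) j
  have hB := goe_q (s := s) h hy1 (egm_by hy) (egm_by hy) (fun g => by_symm (Wm_transpose g))
    oB oB (τ := tB N y) (fun g => rfl) (eg_tB hy) (vB.trans (sqrt_var h.N0 hy)) (by positivity) j
  have hReg : (gS K m E spin s).Reg := Gen.gS_reg h s
  have nA := nh_me (s := s) h (fun e => egm_PEQ (egm_Z0 (K := K) (egm_ay (N := N) hy))
    (egm_Z0 (egm_ay hy)) e) j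
  have nB := nh_me (s := s) h (fun e => egm_PEQ (egm_Z0 (K := K) (egm_by (N := N) hy))
    (egm_Z0 (egm_by hy)) e) j
  have e1 : (fun z x => ∑ e, Me (Rec.yv (gS K m E spin s) spin j z x)
        ((ZA N K y z * Em N e * ZA N K y z - ZB N K y z * Em N e * ZB N K y z) *ᵥ
          Rec.yv (gS K m E spin s) spin j z x) e) = fun z x =>
      ∑ e, Me (Rec.yv (gS K m E spin s) spin j z x)
        ((ZA N K y z * Em N e * ZA N K y z) *ᵥ Rec.yv (gS K m E spin s) spin j z x) e -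
      ∑ e, Me (Rec.yv (gS K m E spin s) spin j z x)
        ((ZB N K y z * Em N e * ZB N K y z) *ᵥ Rec.yv (gS K m E spin s) spin j z x) e := by
    funext z x
    rw [← Finset.sum_sub_distrib]
    refine Finset.sum_congr rfl fun e _ => ?_
    rw [sub_mulVec, Me_sub_q]
  rw [e1, hReg.Ex_sub nA nB, mul_sub]
  rw [abs_le] at hA hB ⊢
  constructor
  · linarith only [hB.2, hA.1]
  · linarith only [hB.1, hA.2]

/-- the derivative terms for `B` -/
lemma goe_B (h : GD K m E D (spin (N := N))) (hy : 0 < y) (j : ℕ) :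
    |1 / (N : ℝ) * (gS K m E spin s).Ex (fun z x => ∑ e,
      Me (Rec.yv (gS K m E spin s) spin j z x)
        ((ZA N K y z * Em N e * ZB N K y z + ZB N K y z * Em N e * ZA N K y z) *ᵥ
          Rec.yv (gS K m E spin s) spin j z x) e) -
      (mA N y * Rec.TT (gS K m E spin s) spin (ZB N K y) j +
        mB N y * Rec.TT (gS K m E spin s) spin (ZA N K y) j)| ≤
      2 * (3 / (N * y ^ 2) * (1 / y) + 1 / y * (1 / y) / N) := by
  have hN' : (0 : ℝ) < N := by exact_mod_cast h.N0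
  have hy1 : (0 : ℝ) ≤ 1 / y := by positivity
  have oA : ∀ g : Ix N → ℝ, OpB (Ay y (Wm N g)) (1 / y) := fun g => Ay_opB (Wm_transpose g) hy
  have oB : ∀ g : Ix N → ℝ, OpB (By y (Wm N g)) (1 / y) := fun g => By_opB (Wm_transpose g) hy
  obtain ⟨vA, vB⟩ := var_tr' h.N0 hy
  have hA := goe_q (s := s) h hy1 (egm_ay hy) (egm_by hy) (fun g => ay_symm hy (Wm_transpose g))
    oA oB (τ := tA N y) (fun g => rfl) (eg_tA hy) (vA.trans (sqrt_var h.N0 hy)) (by positivity) j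
  have hB := goe_q (s := s) h hy1 (egm_by hy) (egm_ay hy) (fun g => by_symm (Wm_transpose g))
    oB oA (τ := tB N y) (fun g => rfl) (eg_tB hy) (vB.trans (sqrt_var h.N0 hy)) (by positivity) j
  have hReg : (gS K m E spin s).Reg := Gen.gS_reg h s
  have nA := nh_me (s := s) h (fun e => egm_PEQ (egm_Z0 (K := K) (egm_ay (N := N) hy))
    (egm_Z0 (egm_by hy)) e) j
  have nB := nh_me (s := s) h (fun e => egm_PEQ (egm_Z0 (K := K) (egm_by (N := N) hy))
    (egm_Z0 (egm_ay hy)) e) j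
  have e1 : (fun z x => ∑ e, Me (Rec.yv (gS K m E spin s) spin j z x)
        ((ZA N K y z * Em N e * ZB N K y z + ZB N K y z * Em N e * ZA N K y z) *ᵥ
          Rec.yv (gS K m E spin s) spin j z x) e) = fun z x =>
      ∑ e, Me (Rec.yv (gS K m E spin s) spin j z x)
        ((ZA N K y z * Em N e * ZB N K y z) *ᵥ Rec.yv (gS K m E spin s) spin j z x) e +
      ∑ e, Me (Rec.yv (gS K m E spin s) spin j z x)
        ((ZB N K y z * Em N e * ZA N K y z) *ᵥ Rec.yv (gS K m E spin s) spin j z x) e := by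
    funext z x
    rw [← Finset.sum_add_distrib]
    refine Finset.sum_congr rfl fun e _ => ?_
    rw [add_mulVec, Me_add_q]
  rw [e1, hReg.Ex_add nA nB, mul_add]
  rw [abs_le] at hA hB ⊢
  constructor
  · linarith only [hB.1, hA.1]
  · linarith only [hB.2, hA.2]

/-- the left-hand side for `A` -/
lemma lhs_A (h : GD K m E D (spin (N := N))) (hy : 0 < y) (j : ℕ) :
    1 / (N : ℝ) * (gS K m E spin s).Ex (fun z x => Rec.yv (gS K m E spin s) spin j z x ⬝ᵥ
      Rec.WW (fun e => (Sum.inl e : GI (Ix N) N K)) z *ᵥ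
        (ZA N K y z *ᵥ Rec.yv (gS K m E spin s) spin j z x)) =
      2 * Rec.TT (gS K m E spin s) spin (ZA N K y) j +
      y * Rec.TT (gS K m E spin s) spin (ZB N K y) j - Rec.RR (gS K m E spin s) spin j := by
  have hReg : (gS K m E spin s).Reg := Gen.gS_reg h s
  have nA := nh_form (s := s) h (egm_ay (N := N) hy) j
  have nB := nh_form (s := s) h (egm_by (N := N) hy) j
  have n1 := nh_form (s := s) h (EGM.const (1 : Matrix (Fin N) (Fin N) ℝ)) j
  have e1 : (fun z x => Rec.yv (gS K m E spin s) spin j z x ⬝ᵥ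
      Rec.WW (fun e => (Sum.inl e : GI (Ix N) N K)) z *ᵥ
        (ZA N K y z *ᵥ Rec.yv (gS K m E spin s) spin j z x)) = fun z x =>
      (2 * (Rec.yv (gS K m E spin s) spin j z x ⬝ᵥ ZA N K y z *ᵥ
        Rec.yv (gS K m E spin s) spin j z x) +
      y * (Rec.yv (gS K m E spin s) spin j z x ⬝ᵥ ZB N K y z *ᵥ
        Rec.yv (gS K m E spin s) spin j z x)) -
      Rec.yv (gS K m E spin s) spin j z x ⬝ᵥ (Z0 N K (fun _ => 1) z) *ᵥ
        Rec.yv (gS K m E spin s) spin j z x := by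
    funext z x
    have h1 := res_re (y := y) hy (Wm_transpose (r0 z))
    have h2 : Rec.WW (fun e => (Sum.inl e : GI (Ix N) N K)) z = Wm N (r0 z) := rfl
    rw [mulVec_mulVec, h2]
    have h3 : Wm N (r0 z) * ZA N K y z = Wm N (r0 z) * Ay y (Wm N (r0 z)) := rfl
    rw [h3, h1, sub_mulVec, add_mulVec, smul_mulVec, smul_mulVec, dotProduct_sub,
      dotProduct_add, dotProduct_smul, dotProduct_smul, smul_eq_mul, smul_eq_mul]
    rfl
  rw [e1, hReg.Ex_sub (Sy.Nh.add (Sy.Nh.const_mul _ nA) (Sy.Nh.const_mul _ nB)) n1,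
    hReg.Ex_add (Sy.Nh.const_mul _ nA) (Sy.Nh.const_mul _ nB), Sy.Ex_const_mul,
    Sy.Ex_const_mul, TT_eq, TT_eq, ← TT_one h]
  have e2 := TT_eq (s := s) (m := m) (E := E) (K := K) (fun _ : Ix N → ℝ => 1) j
  have e3 : (Z0 N K (fun _ : Ix N → ℝ => (1 : Matrix (Fin N) (Fin N) ℝ))) = fun _ => 1 := rfl
  rw [e3] at e2 ⊢
  rw [e2]
  ring

/-- the left-hand side for `B` -/
lemma lhs_B (h : GD K m E D (spin (N := N))) (hy : 0 < y) (j : ℕ) :
    1 / (N : ℝ) * (gS K m E spin s).Ex (fun z x => Rec.yv (gS K m E spin s) spin j z x ⬝ᵥ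
      Rec.WW (fun e => (Sum.inl e : GI (Ix N) N K)) z *ᵥ
        (ZB N K y z *ᵥ Rec.yv (gS K m E spin s) spin j z x)) =
      2 * Rec.TT (gS K m E spin s) spin (ZB N K y) j -
      y * Rec.TT (gS K m E spin s) spin (ZA N K y) j := by
  have hReg : (gS K m E spin s).Reg := Gen.gS_reg h s
  have nA := nh_form (s := s) h (egm_ay (N := N) hy) j
  have nB := nh_form (s := s) h (egm_by (N := N) hy) j
  have e1 : (fun z x => Rec.yv (gS K m E spin s) spin j z x ⬝ᵥ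
      Rec.WW (fun e => (Sum.inl e : GI (Ix N) N K)) z *ᵥ
        (ZB N K y z *ᵥ Rec.yv (gS K m E spin s) spin j z x)) = fun z x =>
      2 * (Rec.yv (gS K m E spin s) spin j z x ⬝ᵥ ZB N K y z *ᵥ
        Rec.yv (gS K m E spin s) spin j z x) -
      y * (Rec.yv (gS K m E spin s) spin j z x ⬝ᵥ ZA N K y z *ᵥ
        Rec.yv (gS K m E spin s) spin j z x) := by
    funext z x
    have h1 := res_im (y := y) hy (Wm_transpose (r0 z))
    have h2 : Rec.WW (fun e => (Sum.inl e : GI (Ix N) N K)) z = Wm N (r0 z) := rfl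
    rw [mulVec_mulVec, h2]
    have h3 : Wm N (r0 z) * ZB N K y z = Wm N (r0 z) * By y (Wm N (r0 z)) := rfl
    rw [h3, h1, sub_mulVec, smul_mulVec, smul_mulVec, dotProduct_sub,
      dotProduct_smul, dotProduct_smul, smul_eq_mul, smul_eq_mul]
    rfl
  rw [e1, hReg.Ex_sub (Sy.Nh.const_mul _ nB) (Sy.Nh.const_mul _ nA), Sy.Ex_const_mul,
    Sy.Ex_const_mul, TT_eq, TT_eq]
  ring

end terms

/-- the value of `T_b`, for a given system -/
theorem tb_of {D B : Ix N → (Ix N → ℝ) → (Fin N → Bool) → ℝ} {w : ℝ} (hN : 0 < N) (hy : 0 < y)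
    (hy1 : y ≤ 1) {E : (Ix N → ℝ) → (Fin N → Bool) → ℝ} {c c' κ : ℝ} (hc0 : 0 ≤ c) (hc : c ≤ c')
    (h : GD K m E D (spin (N := N)))
    (hB : ∀ e z x, D e z x = c * (spin x e.1 * spin x e.2 / √(2 * (N : ℝ))) + B e z x)
    (hBe : ∀ e x, EG (fun z => B e z x)) (hBw : ∀ z x, ∑ e, B e z x ^ 2 ≤ N * w)
    (hs : ∀ l ≤ K, 0 ≤ s l) (hκ : 0 < κ) (hκ1 : κ ≤ 1)
    (hζ : c * chi K m (fun l => (gS K m E spin s).Rl spin l) + κ ≤ ‖zt N y‖) :
    |Tb y (gS K m E spin s) -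
      PHI (zt N y) c K m (fun l => (gS K m E spin s).Rl spin l)| ≤
      8 * (1 + c) / κ ^ 2 * (18 * (1 / y * (c' * √(Vd m (gS K m E spin s)) + √(2 * w))) +
        2 * (8 / (N * y ^ 4))) := by
  have hN' : (0 : ℝ) < N := by exact_mod_cast hN
  have hy0 : (0 : ℝ) ≤ 1 / y := by positivity
  have hm' := h.hm
  obtain ⟨hP, hP1⟩ := path_q h hs
  have hi : 0 < (zt N y).im := by
    have := mB_nonneg (N := N) hy
    show 0 < y + mB N y
    linarith
  have oA : ∀ g : Ix N → ℝ, OpB (Ay y (Wm N g)) (1 / y) := fun g => Ay_opB (Wm_transpose g) hy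
  have oB : ∀ g : Ix N → ℝ, OpB (By y (Wm N g)) (1 / y) := fun g => By_opB (Wm_transpose g) hy
  have hC := ctx_q (s := s) hN h hB hBe hBw
  have lA := lmat_Z0 (K := K) (m := m) (E := E) (s := s) hy0 (egm_ay (N := N) hy)
    (fun g => ay_symm hy (Wm_transpose g)) oA
  have lB := lmat_Z0 (K := K) (m := m) (E := E) (s := s) hy0 (egm_by (N := N) hy)
    (fun g => by_symm (Wm_transpose g)) oB
  set G : ℝ := 2 * (3 / (N * y ^ 2) * (1 / y) + 1 / y * (1 / y) / N) with hG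
  -- the equations
  have hA : ∀ j ≤ K + 1, |2 * Rec.TT (gS K m E spin s) spin (ZA N K y) j +
      y * Rec.TT (gS K m E spin s) spin (ZB N K y) j - Rec.RR (gS K m E spin s) spin j -
      (c * Rec.HH (gS K m E spin s) spin (ZA N K y) j +
      (mA N y * Rec.TT (gS K m E spin s) spin (ZA N K y) j -
        mB N y * Rec.TT (gS K m E spin s) spin (ZB N K y) j))| ≤
      Rec.ej (gS K m E spin s) spin c (fun _ => 1 / y) (fun _ => w) j + G := by
    intro j hj
    have h1 := exact_idx hC lA (A' := fun e => Z0 N K (fun g =>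
      Ay y (Wm N g) * Em N e * Ay y (Wm N g) - By y (Wm N g) * Em N e * By y (Wm N g)))
      (fun e => pdm_Z0 (pdm_ay hy e))
      (fun e => egm_Z0 ((((egm_ay hy).mul (EGM.const _)).mul (egm_ay hy)).sub
        (((egm_by hy).mul (EGM.const _)).mul (egm_by hy)))) hj
    have h2 := goe_A (s := s) h hy j
    have h3 := lhs_A (s := s) h hy j
    rw [h3] at h1
    have h4 : (gS K m E spin s).Ex (fun z x => ∑ e, Me (Rec.yv (gS K m E spin s) spin j z x)
        (Z0 N K (fun g => Ay y (Wm N g) * Em N e * Ay y (Wm N g) -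
          By y (Wm N g) * Em N e * By y (Wm N g)) z *ᵥ
          Rec.yv (gS K m E spin s) spin j z x) e) = (gS K m E spin s).Ex (fun z x => ∑ e,
        Me (Rec.yv (gS K m E spin s) spin j z x)
        ((ZA N K y z * Em N e * ZA N K y z - ZB N K y z * Em N e * ZB N K y z) *ᵥ
          Rec.yv (gS K m E spin s) spin j z x) e) := rfl
    rw [h4] at h1
    rw [← hG] at h2
    rw [abs_le] at h1 h2 ⊢
    constructor
    · linarith only [h2.1, h1.1]
    · linarith only [h2.2, h1.2]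
  have hB' : ∀ j ≤ K + 1, |2 * Rec.TT (gS K m E spin s) spin (ZB N K y) j -
      y * Rec.TT (gS K m E spin s) spin (ZA N K y) j -
      (c * Rec.HH (gS K m E spin s) spin (ZB N K y) j +
      (mA N y * Rec.TT (gS K m E spin s) spin (ZB N K y) j +
        mB N y * Rec.TT (gS K m E spin s) spin (ZA N K y) j))| ≤
      Rec.ej (gS K m E spin s) spin c (fun _ => 1 / y) (fun _ => w) j + G := by
    intro j hj
    have h1 := exact_idx hC lB (A' := fun e => Z0 N K (fun g =>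
      Ay y (Wm N g) * Em N e * By y (Wm N g) + By y (Wm N g) * Em N e * Ay y (Wm N g)))
      (fun e => pdm_Z0 (pdm_by hy e))
      (fun e => egm_Z0 ((((egm_ay hy).mul (EGM.const _)).mul (egm_by hy)).add
        (((egm_by hy).mul (EGM.const _)).mul (egm_ay hy)))) hj
    have h2 := goe_B (s := s) h hy j
    have h3 := lhs_B (s := s) h hy j
    rw [h3] at h1
    have h4 : (gS K m E spin s).Ex (fun z x => ∑ e, Me (Rec.yv (gS K m E spin s) spin j z x)
        (Z0 N K (fun g => Ay y (Wm N g) * Em N e * By y (Wm N g) +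
          By y (Wm N g) * Em N e * Ay y (Wm N g)) z *ᵥ
          Rec.yv (gS K m E spin s) spin j z x) e) = (gS K m E spin s).Ex (fun z x => ∑ e,
        Me (Rec.yv (gS K m E spin s) spin j z x)
        ((ZA N K y z * Em N e * ZB N K y z + ZB N K y z * Em N e * ZA N K y z) *ᵥ
          Rec.yv (gS K m E spin s) spin j z x) e) := rfl
    rw [h4] at h1
    rw [← hG] at h2
    rw [abs_le] at h1 h2 ⊢
    constructor
    · linarith only [h2.1, h1.1]
    · linarith only [h2.2, h1.2]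
  -- the norms
  set R : ℕ → ℝ := fun l => (gS K m E spin s).Rl spin l with hR
  set TA : ℝ × (ℕ → ℝ) := TQ (gS K m E spin s) (ZA N K y) with hTA
  set TB : ℝ × (ℕ → ℝ) := TQ (gS K m E spin s) (ZB N K y) with hTB
  set F : ℕ → ℝ := fun l => Rec.er (gS K m E spin s) spin c (fun _ => 1 / y) (fun _ => w) l
    with hF
  have hej : ∀ j, Rec.ej (gS K m E spin s) spin c (fun _ => 1 / y) (fun _ => w) j =
      7 * F j + 2 * ∑ l ∈ Finset.range (K + 1), (m (l + 1) - m l) * F l := fun j => rfl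
  have hp : ∀ l ∈ Finset.range (K + 1), 0 ≤ m (l + 1) - m l := fun l hl => by
    have := hm'.2.2 l (Nat.lt_succ_iff.1 (Finset.mem_range.1 hl))
    linarith
  have hp1 : ∑ l ∈ Finset.range (K + 1), (m (l + 1) - m l) = 1 := by
    rw [Finset.sum_range_sub, hm'.1, hm'.2.1, sub_zero]
  have htop : F (K + 1) ≤ ∑ l ∈ Finset.range (K + 1), (m (l + 1) - m l) * F l := by
    have : F (K + 1) = ∑ l ∈ Finset.range (K + 1), (m (l + 1) - m l) * F (K + 1) := by
      rw [← Finset.sum_mul, hp1, one_mul]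
    rw [this]
    exact Finset.sum_le_sum fun l hl => mul_le_mul_of_nonneg_left
      (Rec.er_top_le (S := gS K m E spin s) (φ := spin) _ _ _ l) (hp l hl)
  have hRR : Rec.RR (gS K m E spin s) spin (K + 1) = 1 := Rec.RR_top _ _
  have hRl : ∀ l ≤ K, Rec.RR (gS K m E spin s) spin l = R l := fun l hl => RR_lev _ hl
  have eA : Sk.hN K m ((zt N y).re • TA + (zt N y).im • TB - (1, R) - c • hm K m (1, R) TA) ≤
      18 * (∑ l ∈ Finset.range (K + 1), (m (l + 1) - m l) * F l) + 2 * G := by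
    refine hN_le_of hm' htop ?_ ?_
    · have h1 := hA (K + 1) le_rfl
      rw [hej, hRR, HH_top] at h1
      refine le_trans (le_of_eq ?_) h1
      congr 1
      show (2 - mA N y) * Rec.TT (gS K m E spin s) spin (ZA N K y) (K + 1) +
        (y + mB N y) * Rec.TT (gS K m E spin s) spin (ZB N K y) (K + 1) - 1 -
        c * (hm K m (1, R) TA).1 = _
      rw [← hTA]
      ring
    · intro l hl
      have h1 := hA l (by omega)
      rw [hej, hRl l hl, HH_lev _ hl] at h1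
      refine le_trans (le_of_eq ?_) h1
      congr 1
      show (2 - mA N y) * Rec.TT (gS K m E spin s) spin (ZA N K y) l +
        (y + mB N y) * Rec.TT (gS K m E spin s) spin (ZB N K y) l - R l -
        c * (hm K m (1, R) TA).2 l = _
      rw [← hTA]
      ring
  have eB : Sk.hN K m ((zt N y).im • TA - (zt N y).re • TB + c • hm K m (1, R) TB) ≤
      18 * (∑ l ∈ Finset.range (K + 1), (m (l + 1) - m l) * F l) + 2 * G := by
    refine hN_le_of hm' htop ?_ ?_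
    · have h1 := hB' (K + 1) le_rfl
      rw [hej, HH_top] at h1
      refine le_trans (le_of_eq ?_) h1
      rw [← abs_neg]
      congr 1
      show -((y + mB N y) * Rec.TT (gS K m E spin s) spin (ZA N K y) (K + 1) -
        (2 - mA N y) * Rec.TT (gS K m E spin s) spin (ZB N K y) (K + 1) +
        c * (hm K m (1, R) TB).1) = _
      rw [← hTB]
      ring
    · intro l hl
      have h1 := hB' l (by omega)
      rw [hej, HH_lev _ hl] at h1
      refine le_trans (le_of_eq ?_) h1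
      rw [← abs_neg]
      congr 1
      show -((y + mB N y) * Rec.TT (gS K m E spin s) spin (ZA N K y) l -
        (2 - mA N y) * Rec.TT (gS K m E spin s) spin (ZB N K y) l +
        c * (hm K m (1, R) TB).2 l) = _
      rw [← hTB]
      ring
  have h1 := hres hm' hP hP1 hc0 hκ hκ1 hi hζ eA eB
  have e1 : TB.1 = Tb y (gS K m E spin s) := by
    show Rec.TT (gS K m E spin s) spin (ZB N K y) (K + 1) = _
    unfold Rec.TT Tb
    congr 2
    funext z x
    rw [Rec.yv_gt (by show K < K + 1; omega), qf_eq_dot _ (by_symm (Wm_transpose _))]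
    rfl
  rw [e1] at h1
  refine h1.trans ?_
  refine mul_le_mul_of_nonneg_left ?_ (by positivity)
  have h2 := sum_er_le (s := s) (c := c) (c' := c') (w := w) h hy0
    (by rw [abs_of_nonneg hc0]; exact hc)
  have h3 : G ≤ 8 / (N * y ^ 4) := by
    rw [hG]
    have h4 : 2 * (3 / (N * y ^ 2) * (1 / y) + 1 / y * (1 / y) / N) =
        (6 * y + 2 * y ^ 2) / (N * y ^ 4) := by
      field_simp
      ring
    rw [h4]
    refine div_le_div_of_nonneg_right ?_ (by positivity)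
    (by_contra nlg; linarith only [nlg, mul_nonneg (sub_nonneg.2 hy1) (sub_nonneg.2 hκ1), mul_nonneg (sub_nonneg.2 hy1) (le_of_lt (sub_pos.2 hκ)), mul_nonneg (le_of_lt (sub_pos.2 hy)) (sub_nonneg.2 hy1), mul_nonneg (le_of_lt (sub_pos.2 (not_le.1 nlg))) (sub_nonneg.2 hκ1), mul_pos (sub_pos.2 (not_le.1 nlg)) (sub_pos.2 hκ)])
  linarith only [h3, h2]

end Vale.Agent.P146.Pw2
end

section

/-!
# P146, module VALQ: the values of the quadratic forms
-/

open MeasureTheory ProbabilityTheory Matrix Filter Topology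

namespace Vale.Agent.P146.Pw2

set_option linter.all false

open Vale.Agent.P157 (spin)
open Vale.Agent.P157.Lv
open Vale.Agent.P157.Par (Path Exponents topN lw spinPart)
open Vale.Agent.P146.Sk
open Vale.Agent.P146.Sk.Gen (GI gz gl r0 gS gF gOb gIsOpt GD gV)

lemma sqrt_w {β b y : ℝ} (hβ : 0 ≤ β) (hb : 0 ≤ b) :
    √(2 * (2 * β ^ 2 * b ^ 2 / y ^ 4)) = 2 * β * (b / y ^ 2) := by
  have e : 2 * (2 * β ^ 2 * b ^ 2 / y ^ 4) = (2 * β * (b / y ^ 2)) ^ 2 := by
    rw [mul_pow, div_pow]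
    ring
  rw [e, Real.sqrt_sq (by positivity)]

/-- the value of `T_w` -/
theorem val_w {β : ℝ} (hβ : 0 ≤ β) : ∃ C : ℝ, 1 ≤ C ∧ ∀ (N K : ℕ) (m : ℕ → ℝ) (y a b : ℝ)
    (s : ℕ → ℝ), 0 < N → Exponents K m → 0 < y → y ≤ 1 → a ∈ Set.Icc (0 : ℝ) 1 →
    b ∈ Set.Icc (0 : ℝ) 1 → (∀ l ≤ K, 0 ≤ s l) →
    |Tw (sy N K m β y a b s) -
      β * a * trp K m (fun l => (sy N K m β y a b s).Rl spin l) 2| ≤
      C * (√(Vd m (sy N K m β y a b s)) + b / y ^ 2) := by
  refine ⟨18 * β + 1, by linarith, fun N K m y a b s hN hm' hy hy1 ha hb hs => ?_⟩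
  obtain ⟨D, B, h, hB, hBe, hBw⟩ := gdq (K := K) β hy hN hm' a b
  have hc : |β * a| ≤ β := by
    rw [abs_of_nonneg (mul_nonneg hβ ha.1)]
    exact mul_le_of_le_one_right hβ ha.2
  refine (tw_of (s := s) hN hc h hB hBe hBw).trans ?_
  rw [sqrt_w hβ hb.1]
  have h1 : 0 ≤ √(Vd m (sy N K m β y a b s)) := Real.sqrt_nonneg _
  have h2 : 0 ≤ b / y ^ 2 := div_nonneg hb.1 (by positivity)
  linarith only [mul_nonneg hβ h1, h2, h1]

/-- the value of `T_b` -/
theorem val_b {β : ℝ} (hβ : 0 ≤ β) : ∃ C : ℝ, 1 ≤ C ∧ ∀ (N K : ℕ) (m : ℕ → ℝ) (y a b κ : ℝ)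
    (s : ℕ → ℝ), 0 < N → Exponents K m → 0 < y → y ≤ 1 / C → C ≤ N * y ^ 6 →
    a ∈ Set.Icc (0 : ℝ) 1 → b ∈ Set.Icc (0 : ℝ) 1 → (∀ l ≤ K, 0 ≤ s l) → 0 < κ → κ ≤ 1 →
    β * a * chi K m (fun l => (sy N K m β y a b s).Rl spin l) + κ ≤ ‖zt N y‖ →
    |Tb y (sy N K m β y a b s) -
      PHI (zt N y) (β * a) K m (fun l => (sy N K m β y a b s).Rl spin l)| ≤
      C / κ ^ 2 * (1 / y * (√(Vd m (sy N K m β y a b s)) + b / y ^ 2) + 1 / (N * y ^ 4)) := by
  refine ⟨8 * (1 + β) * (36 * β + 16), by linarith only [mul_nonneg (sub_nonneg.2 hβ) (sub_nonneg.2 hβ), hβ],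
    fun N K m y a b κ s hN hm' hy hyC hNy ha hb hs hκ hκ1 hζ => ?_⟩
  have hN' : (0 : ℝ) < N := by exact_mod_cast hN
  have hy1 : y ≤ 1 := hyC.trans (by
    rw [div_le_one (by positivity)]
    (by_contra nlg; linarith only [nlg, mul_nonneg (sub_nonneg.2 hβ) (sub_nonneg.2 hκ1), mul_nonneg (sub_nonneg.2 hβ) (le_of_lt (sub_pos.2 hκ)), mul_nonneg (sub_nonneg.2 hβ) (sub_nonneg.2 hβ), mul_nonneg (le_of_lt (sub_pos.2 (not_le.1 nlg))) (sub_nonneg.2 hκ1), mul_pos (sub_pos.2 (not_le.1 nlg)) (sub_pos.2 hκ)]))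
  obtain ⟨D, B, h, hB, hBe, hBw⟩ := gdq (K := K) β hy hN hm' a b
  have hc0 : 0 ≤ β * a := mul_nonneg hβ ha.1
  have hc : β * a ≤ β := mul_le_of_le_one_right hβ ha.2
  refine (tb_of (s := s) hN hy hy1 hc0 hc h hB hBe hBw hs hκ hκ1 hζ).trans ?_
  rw [sqrt_w hβ hb.1]
  set v : ℝ := √(Vd m (sy N K m β y a b s)) with hv
  have h1 : 0 ≤ v := Real.sqrt_nonneg _
  have h2 : 0 ≤ b / y ^ 2 := div_nonneg hb.1 (by positivity)
  have h3 : 0 ≤ 1 / ((N : ℝ) * y ^ 4) := by positivity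
  have h4 : 0 ≤ 1 / y := by positivity
  have h5 : 18 * (1 / y * (β * v + 2 * β * (b / y ^ 2))) + 2 * (8 / (N * y ^ 4)) ≤
      (36 * β + 16) * (1 / y * (v + b / y ^ 2) + 1 / (N * y ^ 4)) := by
    have e1 : 8 / ((N : ℝ) * y ^ 4) = 8 * (1 / (N * y ^ 4)) := by ring
    rw [e1]
    have q1 : 0 ≤ 1 / y * v := mul_nonneg h4 h1
    have q2 : 0 ≤ 1 / y * (b / y ^ 2) := mul_nonneg h4 h2
    have q3 : 0 ≤ β * (1 / y * v) := mul_nonneg hβ q1
    have q4 : 0 ≤ β * (1 / y * (b / y ^ 2)) := mul_nonneg hβ q2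
    have q5 : 0 ≤ β * (1 / ((N : ℝ) * y ^ 4)) := mul_nonneg hβ h3
    linarith only [q5, q3, q2, q1]
  have h6 : 8 * (1 + β * a) / κ ^ 2 ≤ 8 * (1 + β) / κ ^ 2 := by
    refine div_le_div_of_nonneg_right ?_ (by positivity)
    linarith
  calc 8 * (1 + β * a) / κ ^ 2 *
        (18 * (1 / y * (β * v + 2 * β * (b / y ^ 2))) + 2 * (8 / (N * y ^ 4))) ≤
      8 * (1 + β) / κ ^ 2 * ((36 * β + 16) * (1 / y * (v + b / y ^ 2) + 1 / (N * y ^ 4))) := by
        refine mul_le_mul h6 h5 (by (clear * - hy hβ h2 hN; positivity)) (by positivity)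
    _ = _ := by ring

end Vale.Agent.P146.Pw2
end
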