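import Vale.Agent.P146.Bdl.B24
import Vale.Agent.P146.Bdl.B29

set_option linter.all false

section

/-!
# P146 / Pw2, module VARQ: the variance of the free energy in terms of `J = (1/N) E⟨x·Bx⟩`

The vector field is `v_ij = B_ij`, `B = -Im (2 + i y - W)⁻¹`.
-/

open MeasureTheory ProbabilityTheory Matrix Filter Topology Finset

namespace Vale.Agent.P146.Pw2

open Vale.Agent.P157 (spin)
open Vale.Agent.P157.Lv Vale.Agent.P146.Sk

set_option linter.all false

variable {N : ℕ} {y : ℝ}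

lemma sum_entry_mul {P Q : Matrix (Fin N) (Fin N) ℝ} (hQ : Qᵀ = Q) :
    ∑ e : Ix N, P e.1 e.2 * Q e.1 e.2 = (P * Q).trace := by
  rw [trace_mul_eq_sum]
  refine sum_congr rfl fun e _ => ?_
  rw [entry_symm hQ e.2 e.1]

lemma trace_Em_symm {P Q R : Matrix (Fin N) (Fin N) ℝ} (h : Q * P = R) (hR : Rᵀ = R) (e : Ix N) :
    (P * Em N e * Q).trace = 2 / √(2 * (N : ℝ)) * R e.1 e.2 := by
  rw [trace_Em, h, entry_symm hR e.2 e.1]
  ring

/-- the divergence of the field `B` -/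
noncomputable def dq (N : ℕ) (y : ℝ) (g : Ix N → ℝ) : ℝ :=
  √(2 * (N : ℝ)) / 2 * (2 * (By y (Wm N g)).trace - y * (Ay y (Wm N g)).trace) -
    2 / √(2 * (N : ℝ)) * ((Ay y (Wm N g)).trace * (By y (Wm N g)).trace +
      (Ay y (Wm N g) * By y (Wm N g)).trace)

lemma eg_dq (hy : 0 < y) : EG (dq N y) :=
  (((egm_By hy).trace.const_mul 2).sub ((egm_Ay hy).trace.const_mul y)).const_mul _ |>.sub
    ((((egm_Ay hy).trace.mul (egm_By hy).trace).add ((egm_Ay hy).mul (egm_By hy)).trace).const_mul _)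

lemma dq_eq (hN : 0 < N) (hy : 0 < y) (g : Ix N → ℝ) :
    ∑ e : Ix N, (g e * By y (Wm N g) e.1 e.2 -
      (By y (Wm N g) * Em N e * Ay y (Wm N g) + Ay y (Wm N g) * Em N e * By y (Wm N g)) e.1 e.2) =
      dq N y g := by
  have hN' : (0 : ℝ) < N := by exact_mod_cast hN
  set c : ℝ := √(2 * (N : ℝ)) with hc
  have hc0 : 0 < c := Real.sqrt_pos.2 (by positivity)
  have hM := Wm_transpose g
  set A := Ay y (Wm N g) with hA
  set B := By y (Wm N g) with hB
  have hAt : Aᵀ = A := Ay_transpose hM hy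
  have hBt : Bᵀ = B := By_transpose hM
  rw [sum_sub_distrib]
  have h1 : ∑ e : Ix N, g e * B e.1 e.2 = c / 2 * (Wm N g * B).trace := by
    rw [trace_mul_eq_sum]
    have h3 : ∀ e : Ix N, Wm N g e.1 e.2 * B e.2 e.1 =
        (1 / c) * (g (e.1, e.2) * B e.1 e.2) + (1 / c) * (g (e.2, e.1) * B e.2 e.1) := by
      intro e
      rw [entry_symm hBt e.1 e.2]
      simp only [Wm, Matrix.of_apply, ← hc]
      ring
    simp only [h3]
    rw [sum_add_distrib, sum_Ix_swap (fun i j => (1 / c) * (g (i, j) * B i j)), ← two_mul,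
      ← mul_assoc, ← mul_sum, ← mul_assoc]
    have h4 : c / 2 * 2 * (1 / c) = 1 := by field_simp
    rw [h4, one_mul]
  have h2 : ∑ e : Ix N, (B * Em N e * A + A * Em N e * B) e.1 e.2 =
      2 / c * (A.trace * B.trace + (A * B).trace) := by
    have h5 : ∀ e : Ix N, (B * Em N e * A + A * Em N e * B) e.1 e.2 =
        (1 / c) * (B e.1 e.1 * A e.2 e.2) + (1 / c) * (A e.1 e.1 * B e.2 e.2) +
        (2 / c) * (A e.1 e.2 * B e.1 e.2) := by
      intro e
      rw [Matrix.add_apply, mul_Em_mul, mul_Em_mul, ← hc]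
      ring
    simp only [h5]
    rw [sum_add_distrib, sum_add_distrib, ← mul_sum, ← mul_sum, ← mul_sum, ← trace_mul_trace,
      ← trace_mul_trace, sum_entry_mul hBt]
    ring
  rw [h1, h2, hB, mul_By, trace_sub, trace_smul, trace_smul, smul_eq_mul, smul_eq_mul]
  rfl

/-- integration by parts against the divergence -/
theorem ibp_dq (hN : 0 < N) (hy : 0 < y) {F : (Ix N → ℝ) → ℝ} {F' : Ix N → (Ix N → ℝ) → ℝ}
    (hF : EG F) (hFd : ∀ e, PD e F (F' e)) (hF' : ∀ e, EG (F' e)) :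
    ∫ g, F g * dq N y g ∂(gI (Ix N)) =
      ∫ g, ∑ e : Ix N, F' e g * By y (Wm N g) e.1 e.2 ∂(gI (Ix N)) := by
  have hg : ∀ e : Ix N, EG (fun g => By y (Wm N g) e.1 e.2) := fun e => egm_By hy _ _
  have hw : ∀ e : Ix N, EG (fun g => (By y (Wm N g) * Em N e * Ay y (Wm N g) +
      Ay y (Wm N g) * Em N e * By y (Wm N g)) e.1 e.2) := fun e =>
    (((egm_By hy).mul (EGM.const _)).mul (egm_Ay hy)).add
      (((egm_Ay hy).mul (EGM.const _)).mul (egm_By hy)) _ _
  have hs : ∀ e : Ix N, ∫ g, g e * (F g * By y (Wm N g) e.1 e.2) ∂(gI (Ix N)) =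
      ∫ g, (F' e g * By y (Wm N g) e.1 e.2 + F g * (By y (Wm N g) * Em N e * Ay y (Wm N g) +
      Ay y (Wm N g) * Em N e * By y (Wm N g)) e.1 e.2) ∂(gI (Ix N)) := fun e =>
    PD.stein ((hFd e).mul (pdm_By hy e e.1 e.2)) (hF.mul (hg e))
      (((hF' e).mul (hg e)).add (hF.mul (hw e)))
  have h1 : ∀ g, F g * dq N y g = ∑ e : Ix N, (g e * (F g * By y (Wm N g) e.1 e.2) -
      F g * (By y (Wm N g) * Em N e * Ay y (Wm N g) +
      Ay y (Wm N g) * Em N e * By y (Wm N g)) e.1 e.2) := by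
    intro g
    rw [← dq_eq hN hy, mul_sum]
    refine sum_congr rfl fun e _ => ?_
    ring
  simp only [h1]
  rw [integral_finsetSum _ fun e _ => (((EG.coord e).mul (hF.mul (hg e))).sub
    (hF.mul (hw e))).integrable]
  rw [integral_finsetSum _ fun e _ => ((hF' e).mul (hg e)).integrable]
  refine sum_congr rfl fun e _ => ?_
  rw [integral_sub ((EG.coord e).mul (hF.mul (hg e))).integrable (hF.mul (hw e)).integrable, hs e,
    integral_add ((hF' e).mul (hg e)).integrable (hF.mul (hw e)).integrable, add_sub_cancel_right]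

/-! ### the derivative of the divergence -/

/-- the partial derivatives of the divergence -/
noncomputable def pdq (N : ℕ) (y : ℝ) (e : Ix N) (g : Ix N → ℝ) : ℝ :=
  4 * (Ay y (Wm N g) * By y (Wm N g)) e.1 e.2 -
    y * (Ay y (Wm N g) * Ay y (Wm N g) - By y (Wm N g) * By y (Wm N g)) e.1 e.2 -
    2 / N * ((Ay y (Wm N g) * Ay y (Wm N g) - By y (Wm N g) * By y (Wm N g)) e.1 e.2 *
      (By y (Wm N g)).trace + 2 * (Ay y (Wm N g)).trace * (Ay y (Wm N g) * By y (Wm N g)) e.1 e.2 +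
      ((3 : ℝ) • (Ay y (Wm N g) * Ay y (Wm N g) * By y (Wm N g)) -
        By y (Wm N g) * By y (Wm N g) * By y (Wm N g)) e.1 e.2)

lemma eg_pdq (hy : 0 < y) (e : Ix N) : EG (pdq N y e) := by
  have a := egm_Ay (N := N) hy
  have b := egm_By (N := N) hy
  have h3 : EG (fun g : Ix N → ℝ => ((3 : ℝ) • (Ay y (Wm N g) * Ay y (Wm N g) * By y (Wm N g)) -
        By y (Wm N g) * By y (Wm N g) * By y (Wm N g)) e.1 e.2) :=
    (((a.mul a).mul b e.1 e.2).const_mul 3).sub ((b.mul b).mul b e.1 e.2)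
  exact (((a.mul b e.1 e.2).const_mul 4).sub (((a.mul a).sub (b.mul b) e.1 e.2).const_mul y)).sub
    ((((((a.mul a).sub (b.mul b) e.1 e.2).mul b.trace).add
      ((a.trace.const_mul 2).mul (a.mul b e.1 e.2))).add h3).const_mul _)

lemma pd_trA (hy : 0 < y) (e : Ix N) : PD e (fun g : Ix N → ℝ => (Ay y (Wm N g)).trace)
    (fun g => 2 / √(2 * (N : ℝ)) *
      (Ay y (Wm N g) * Ay y (Wm N g) - By y (Wm N g) * By y (Wm N g)) e.1 e.2) := by
  refine PD.congr (pdm_Ay hy e).trace fun g => ?_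
  have hM := Wm_transpose g
  have hA := Ay_transpose hM hy
  have hB := By_transpose (y := y) hM
  rw [trace_sub, trace_Em_symm rfl (by rw [transpose_mul, hA]),
    trace_Em_symm rfl (by rw [transpose_mul, hB]), Matrix.sub_apply]
  ring

lemma pd_trB (hy : 0 < y) (e : Ix N) : PD e (fun g : Ix N → ℝ => (By y (Wm N g)).trace)
    (fun g => 4 / √(2 * (N : ℝ)) * (Ay y (Wm N g) * By y (Wm N g)) e.1 e.2) := by
  refine PD.congr (pdm_By hy e).trace fun g => ?_
  have hM := Wm_transpose g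
  have hA := Ay_transpose hM hy
  have hB := By_transpose (y := y) hM
  have hAB := Ay_mul_By hM hy
  have hs : (Ay y (Wm N g) * By y (Wm N g))ᵀ = Ay y (Wm N g) * By y (Wm N g) := by
    rw [transpose_mul, hA, hB, hAB]
  rw [trace_add, trace_Em_symm rfl hs, trace_Em_symm hAB.symm hs]
  ring

lemma pd_trAB (hy : 0 < y) (e : Ix N) :
    PD e (fun g : Ix N → ℝ => (Ay y (Wm N g) * By y (Wm N g)).trace)
    (fun g => 2 / √(2 * (N : ℝ)) * ((3 : ℝ) • (Ay y (Wm N g) * Ay y (Wm N g) * By y (Wm N g)) -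
        By y (Wm N g) * By y (Wm N g) * By y (Wm N g)) e.1 e.2) := by
  refine PD.congr ((pdm_Ay hy e).mul (pdm_By hy e)).trace fun g => ?_
  have hM := Wm_transpose g
  have hA := Ay_transpose hM hy
  have hB := By_transpose (y := y) hM
  have hAB := Ay_mul_By hM hy
  set A := Ay y (Wm N g) with hAdef
  set B := By y (Wm N g) with hBdef
  have hS : (A * A * B)ᵀ = A * A * B := by
    rw [transpose_mul, transpose_mul, hA, hB, ← mul_assoc, ← hAB, mul_assoc, ← hAB, ← mul_assoc]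
  have hB3 : (B * B * B)ᵀ = B * B * B := by
    rw [transpose_mul, transpose_mul, hB, ← mul_assoc]
  have e1 : (A * Em N e * A - B * Em N e * B) * B =
      A * Em N e * (A * B) - B * Em N e * (B * B) := by
    rw [sub_mul, mul_assoc (A * Em N e), mul_assoc (B * Em N e)]
  have e2 : A * (B * Em N e * A + A * Em N e * B) =
      (A * B) * Em N e * A + (A * A) * Em N e * B := by
    simp only [mul_add, mul_assoc]
  have r1 : (A * B) * A = A * A * B := by
    rw [mul_assoc, ← hAB, mul_assoc]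
  have r2 : A * (A * B) = A * A * B := by rw [mul_assoc]
  have r3 : B * (A * A) = A * A * B := by
    rw [← mul_assoc, ← hAB, mul_assoc, ← hAB, ← mul_assoc]
  rw [e1, e2, trace_add, trace_sub, trace_add, trace_Em_symm r1 hS, trace_Em_symm rfl hB3,
    trace_Em_symm r2 hS, trace_Em_symm r3 hS, Matrix.sub_apply, Matrix.smul_apply, smul_eq_mul]
  ring

lemma pd_dq (hN : 0 < N) (hy : 0 < y) (e : Ix N) : PD e (dq N y) (pdq N y e) := by
  have hN' : (0 : ℝ) < N := by exact_mod_cast hN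
  have hc0 : 0 < √(2 * (N : ℝ)) := Real.sqrt_pos.2 (by positivity)
  have hc2 : √(2 * (N : ℝ)) * √(2 * (N : ℝ)) = 2 * N := Real.mul_self_sqrt (by positivity)
  refine PD.congr ((((pd_trB hy e).const_mul 2).sub ((pd_trA hy e).const_mul y)).const_mul _ |>.sub
    ((((pd_trA hy e).mul (pd_trB hy e)).add (pd_trAB hy e)).const_mul _)) fun g => ?_
  unfold pdq
  set c : ℝ := √(2 * (N : ℝ)) with hc
  generalize (Ay y (Wm N g) * Ay y (Wm N g) - By y (Wm N g) * By y (Wm N g)) e.1 e.2 = d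
  generalize (Ay y (Wm N g) * By y (Wm N g)) e.1 e.2 = a
  generalize ((3 : ℝ) • (Ay y (Wm N g) * Ay y (Wm N g) * By y (Wm N g)) -
        By y (Wm N g) * By y (Wm N g) * By y (Wm N g)) e.1 e.2 = s
  generalize (By y (Wm N g)).trace = tb
  generalize (Ay y (Wm N g)).trace = ta
  have h1 : c / 2 * (2 * (4 / c * a) - y * (2 / c * d)) = 4 * a - y * d := by
    field_simp
  have h2 : (2 / c) * (2 / c) = 2 / N := by
    rw [div_mul_div_comm, hc2]
    field_simp
  rw [h1]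
  linear_combination (-(d * tb + 2 * ta * a + s)) * h2

/-- the sum `∑ ∂_e (δ v) v_e` -/
lemma sum_pdq (hy : 0 < y) (g : Ix N → ℝ) :
    ∑ e : Ix N, pdq N y e g * By y (Wm N g) e.1 e.2 =
    4 * (Ay y (Wm N g) * By y (Wm N g) * By y (Wm N g)).trace -
    y * ((Ay y (Wm N g) * Ay y (Wm N g) - By y (Wm N g) * By y (Wm N g)) * By y (Wm N g)).trace -
    2 / N * (((Ay y (Wm N g) * Ay y (Wm N g) - By y (Wm N g) * By y (Wm N g)) *
        By y (Wm N g)).trace *
      (By y (Wm N g)).trace + 2 * (Ay y (Wm N g)).trace *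
        (Ay y (Wm N g) * By y (Wm N g) * By y (Wm N g)).trace +
      (((3 : ℝ) • (Ay y (Wm N g) * Ay y (Wm N g) * By y (Wm N g)) -
        By y (Wm N g) * By y (Wm N g) * By y (Wm N g)) * By y (Wm N g)).trace) := by
  have hB := By_transpose (y := y) (Wm_transpose g)
  rw [← sum_entry_mul hB, ← sum_entry_mul hB, ← sum_entry_mul hB]
  unfold pdq
  simp only [mul_sum, sum_mul, ← sum_sub_distrib, ← sum_add_distrib]
  refine sum_congr rfl fun e _ => ?_
  ring

/-! ### bounds of the traces -/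

lemma tr_conj_le {P K : Matrix (Fin N) (Fin N) ℝ} {c : ℝ} (hP : Pᵀ = P) (hK : OpB K c) :
    |(P * K * P).trace| ≤ c * ∑ i, ∑ j, P i j ^ 2 := by
  have h1 : ∀ j : Fin N, (P * K * P) j j = (P *ᵥ Pi.single j 1) ⬝ᵥ (K *ᵥ (P *ᵥ Pi.single j 1)) := by
    intro j
    rw [entry_eq_dot (P * K * P) j j]
    rw [← mulVec_mulVec, ← mulVec_mulVec, dotProduct_mulVec, ← mulVec_transpose, hP]
  have h2 : ∀ j : Fin N, nv (P *ᵥ Pi.single j (1 : ℝ)) ^ 2 = ∑ i, P i j ^ 2 := by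
    intro j
    rw [nv_sq, mulVec_single_one]
    rfl
  have h3 : ∀ j : Fin N, |(P * K * P) j j| ≤ c * ∑ i, P i j ^ 2 := by
    intro j
    rw [h1, ← h2]
    refine (abs_dot_le _ _).trans ?_
    have h4 := hK (P *ᵥ Pi.single j (1 : ℝ))
    have h5 := nv_nonneg (P *ᵥ Pi.single j (1 : ℝ))
    calc _ ≤ nv (P *ᵥ Pi.single j (1 : ℝ)) * (c * nv (P *ᵥ Pi.single j (1 : ℝ))) :=
          mul_le_mul_of_nonneg_left h4 h5
      _ = _ := by ring
  rw [Matrix.trace]
  refine (abs_sum_le_sum_abs _ _).trans ?_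
  refine (sum_le_sum fun j _ => h3 j).trans (le_of_eq ?_)
  rw [← mul_sum, sum_comm]

section bounds

variable (g : Ix N → ℝ)

lemma hs_le (hy : 0 < y) : (∑ i, ∑ j, Ay y (Wm N g) i j ^ 2) + ∑ i, ∑ j, By y (Wm N g) i j ^ 2 =
    N * tB N y g / y := by
  rw [← trace_Hy (Wm_transpose g) hy]
  unfold tB
  rw [trace_By]
  rcases Nat.eq_zero_or_pos N with h0 | h0
  · subst h0
    simp [Matrix.trace]
  · have : (N : ℝ) ≠ 0 := by positivity
    field_simp

lemma hsA_nonneg : 0 ≤ ∑ i, ∑ j, Ay y (Wm N g) i j ^ 2 :=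
  Finset.sum_nonneg fun i _ => Finset.sum_nonneg fun j _ => sq_nonneg _

lemma hsB_nonneg : 0 ≤ ∑ i, ∑ j, By y (Wm N g) i j ^ 2 :=
  Finset.sum_nonneg fun i _ => Finset.sum_nonneg fun j _ => sq_nonneg _

lemma al_le (hy : 0 < y) : |(Ay y (Wm N g) * By y (Wm N g) * By y (Wm N g)).trace| ≤
    N * tB N y g / y ^ 2 := by
  have hM := Wm_transpose g
  rw [Ay_mul_By hM hy]
  refine (tr_conj_le (By_transpose hM) (Ay_opB hM hy)).trans ?_
  have h1 := hs_le g hy
  have h2 := hsA_nonneg (y := y) g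
  calc 1 / y * ∑ i, ∑ j, By y (Wm N g) i j ^ 2 ≤ 1 / y * (N * tB N y g / y) :=
        mul_le_mul_of_nonneg_left (by linarith) (by positivity)
    _ = _ := by field_simp

lemma de_le (hy : 0 < y) :
    |((Ay y (Wm N g) * Ay y (Wm N g) - By y (Wm N g) * By y (Wm N g)) * By y (Wm N g)).trace| ≤
    N * tB N y g / y ^ 2 := by
  have hM := Wm_transpose g
  have h1 := hs_le g hy
  have r1 : Ay y (Wm N g) * Ay y (Wm N g) * By y (Wm N g) =
      Ay y (Wm N g) * By y (Wm N g) * Ay y (Wm N g) :=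
    calc Ay y (Wm N g) * Ay y (Wm N g) * By y (Wm N g) =
        Ay y (Wm N g) * (Ay y (Wm N g) * By y (Wm N g)) := mul_assoc _ _ _
      _ = Ay y (Wm N g) * (By y (Wm N g) * Ay y (Wm N g)) := by rw [Ay_mul_By hM hy]
      _ = _ := (mul_assoc _ _ _).symm
  rw [sub_mul, r1, trace_sub]
  have h2 := tr_conj_le (Ay_transpose hM hy) (By_opB hM hy)
  have h3 := tr_conj_le (By_transpose (y := y) hM) (By_opB hM hy)
  refine (abs_sub _ _).trans ?_
  calc _ ≤ 1 / y * ∑ i, ∑ j, Ay y (Wm N g) i j ^ 2 + 1 / y * ∑ i, ∑ j, By y (Wm N g) i j ^ 2 :=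
        add_le_add h2 h3
    _ = 1 / y * (N * tB N y g / y) := by rw [← mul_add, h1]
    _ = _ := by field_simp

lemma si_le (hy : 0 < y) : |(((3 : ℝ) • (Ay y (Wm N g) * Ay y (Wm N g) * By y (Wm N g)) -
        By y (Wm N g) * By y (Wm N g) * By y (Wm N g)) * By y (Wm N g)).trace| ≤ 4 * N / y ^ 4 := by
  have hM := Wm_transpose g
  have hy1 : (0 : ℝ) ≤ 1 / y := by positivity
  have hAB := Ay_mul_By hM hy
  have r1 : Ay y (Wm N g) * Ay y (Wm N g) * By y (Wm N g) =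
      By y (Wm N g) * (Ay y (Wm N g) * Ay y (Wm N g)) := by
    rw [mul_assoc, hAB, ← mul_assoc, hAB, mul_assoc]
  have r2 : By y (Wm N g) * By y (Wm N g) * By y (Wm N g) =
      By y (Wm N g) * (By y (Wm N g) * By y (Wm N g)) := by rw [mul_assoc]
  rw [sub_mul, Matrix.smul_mul, r1, r2, trace_sub, trace_smul, smul_eq_mul]
  have h2 := tr_conj_le (By_transpose (y := y) hM) ((Ay_opB hM hy).mul hy1 (Ay_opB hM hy))
  have h3 := tr_conj_le (By_transpose (y := y) hM) ((By_opB hM hy).mul hy1 (By_opB hM hy))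
  have h4 : ∑ i, ∑ j, By y (Wm N g) i j ^ 2 ≤ N / y ^ 2 := by
    have := trace_Hy hM hy
    have h5 := trace_Hy_le hM hy
    have h6 := hsA_nonneg (y := y) g
    linarith only [h6, h5, this]
  have h5 : 1 / y * (1 / y) * ∑ i, ∑ j, By y (Wm N g) i j ^ 2 ≤ N / y ^ 4 := by
    calc _ ≤ 1 / y * (1 / y) * (N / y ^ 2) := mul_le_mul_of_nonneg_left h4 (by positivity)
      _ = _ := by field_simp
  refine (abs_sub _ _).trans ?_
  rw [abs_mul, abs_of_pos (by norm_num : (0 : ℝ) < 3)]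
  calc _ ≤ 3 * (N / y ^ 4) + N / y ^ 4 := by
        refine add_le_add (mul_le_mul_of_nonneg_left (h2.trans h5) (by norm_num)) (h3.trans h5)
    _ = _ := by ring

/-- the pointwise bound -/
lemma sum_pdq_le (hN : 0 < N) (hy : 0 < y) :
    ∑ e : Ix N, pdq N y e g * By y (Wm N g) e.1 e.2 ≤
      N / y ^ 2 * (2 * (1 - tA N y g) ^ 2 + 4 * tB N y g ^ 2 + y * tB N y g) + 8 / y ^ 4 := by
  have hN' : (0 : ℝ) < N := by exact_mod_cast hN
  rw [sum_pdq hy]
  have ha := al_le g hy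
  have hd := de_le g hy
  have hs := si_le g hy
  have hb := tB_nonneg hy g
  set α := (Ay y (Wm N g) * By y (Wm N g) * By y (Wm N g)).trace
  set δ := ((Ay y (Wm N g) * Ay y (Wm N g) - By y (Wm N g) * By y (Wm N g)) *
    By y (Wm N g)).trace
  set σ := (((3 : ℝ) • (Ay y (Wm N g) * Ay y (Wm N g) * By y (Wm N g)) -
        By y (Wm N g) * By y (Wm N g) * By y (Wm N g)) * By y (Wm N g)).trace
  have e1 : (By y (Wm N g)).trace = N * tB N y g := by
    unfold tB; field_simp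
  have e2 : (Ay y (Wm N g)).trace = N * tA N y g := by
    unfold tA; field_simp
  rw [e1, e2]
  set b := tB N y g
  set a := tA N y g
  have e3 : 4 * α - y * δ - 2 / N * (δ * (N * b) + 2 * (N * a) * α + σ) =
      4 * (1 - a) * α - (y + 2 * b) * δ - 2 / N * σ := by
    field_simp
    ring
  rw [e3]
  have f1 : 4 * (1 - a) * α ≤ 4 * |1 - a| * (N * b / y ^ 2) := by
    calc 4 * (1 - a) * α ≤ |4 * (1 - a) * α| := le_abs_self _
      _ = 4 * |1 - a| * |α| := by rw [abs_mul, abs_mul]; norm_num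
      _ ≤ _ := mul_le_mul_of_nonneg_left ha (by (clear * -; positivity))
  have f2 : -((y + 2 * b) * δ) ≤ (y + 2 * b) * (N * b / y ^ 2) := by
    rw [← mul_neg]
    exact mul_le_mul_of_nonneg_left ((neg_le_abs δ).trans hd) (by positivity)
  have f3 : -(2 / N * σ) ≤ 8 / y ^ 4 := by
    rw [← mul_neg]
    calc 2 / (N : ℝ) * -σ ≤ 2 / N * (4 * N / y ^ 4) :=
          mul_le_mul_of_nonneg_left ((neg_le_abs σ).trans hs) (by positivity)
      _ = _ := by field_simp; norm_num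
  have f4 : 4 * |1 - a| * (N * b / y ^ 2) ≤ N / y ^ 2 * (2 * (1 - a) ^ 2 + 2 * b ^ 2) := by
    have h1 : 4 * |1 - a| * b ≤ 2 * (1 - a) ^ 2 + 2 * b ^ 2 := by
      rw [← sq_abs (1 - a)]
      linarith only [sq_nonneg (|1 - a| - b)]
    calc 4 * |1 - a| * (N * b / y ^ 2) = N / y ^ 2 * (4 * |1 - a| * b) := by ring
      _ ≤ _ := mul_le_mul_of_nonneg_left h1 (by positivity)
  have f5 : (y + 2 * b) * (N * b / y ^ 2) = N / y ^ 2 * (2 * b ^ 2 + y * b) := by ring
  rw [f5] at f2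
  have f6 : N / y ^ 2 * (2 * (1 - a) ^ 2 + 4 * b ^ 2 + y * b) =
      N / y ^ 2 * (2 * (1 - a) ^ 2 + 2 * b ^ 2) + N / y ^ 2 * (2 * b ^ 2 + y * b) := by ring
  rw [f6]
  linarith only [f4, f3, f2, f1]

end bounds

/-- the second moment of the divergence -/
theorem int_dq_sq (hN : 0 < N) (hy : 0 < y) (hy1 : y ≤ 1) (hNy : 8 ≤ N * y ^ 3)
    (hNy5 : 8 ≤ (N : ℝ) ^ 2 * y ^ 5) (hA0 : 0 ≤ 1 - mA N y) (hA : 1 - mA N y ≤ √y)
    (hB : mB N y ≤ √y) (hB2 : ∫ g, tB N y g ^ 2 ∂(gI (Ix N)) ≤ 2 * y) :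
    ∫ g, dq N y g * dq N y g ∂(gI (Ix N)) ≤ 14 * N / y := by
  have hN' : (0 : ℝ) < N := by exact_mod_cast hN
  rw [ibp_dq hN hy (eg_dq hy) (fun e => pd_dq hN hy e) fun e => eg_pdq hy e]
  have eA := eg_tA (N := N) hy
  have eB := eg_tB (N := N) hy
  have eS : EG (fun g => ∑ e : Ix N, pdq N y e g * By y (Wm N g) e.1 e.2) :=
    EG.sum _ fun e _ => (eg_pdq hy e).mul (egm_By hy _ _)
  have e1 : EG (fun g : Ix N → ℝ => (1 - tA N y g) ^ 2) := ((EG.const 1).sub eA).pow 2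
  have e2 : EG (fun g : Ix N → ℝ => 2 * (1 - tA N y g) ^ 2 + 4 * tB N y g ^ 2 + y * tB N y g) :=
    ((e1.const_mul 2).add ((eB.pow 2).const_mul 4)).add (eB.const_mul y)
  have h1 : ∫ g, ∑ e : Ix N, pdq N y e g * By y (Wm N g) e.1 e.2 ∂(gI (Ix N)) ≤
      ∫ g, (N / y ^ 2 * (2 * (1 - tA N y g) ^ 2 + 4 * tB N y g ^ 2 + y * tB N y g) + 8 / y ^ 4)
        ∂(gI (Ix N)) :=
    integral_mono eS.integrable ((e2.const_mul _).add (EG.const _)).integrable
      fun g => sum_pdq_le g hN hy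
  refine h1.trans ?_
  rw [integral_add (e2.const_mul _).integrable (integrable_const _), integral_const_mul,
    integral_add ((e1.const_mul 2).add ((eB.pow 2).const_mul 4)).integrable
      (eB.const_mul y).integrable,
    integral_add (e1.const_mul 2).integrable ((eB.pow 2).const_mul 4).integrable,
    integral_const_mul, integral_const_mul, integral_const_mul]
  have hmB : ∫ g, tB N y g ∂(gI (Ix N)) = mB N y := rfl
  have hA2 : ∫ g, (1 - tA N y g) ^ 2 ∂(gI (Ix N)) =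
      (1 - mA N y) ^ 2 + ∫ g, (tA N y g - mA N y) ^ 2 ∂(gI (Ix N)) := by
    have h2 : ∀ g, (1 - tA N y g) ^ 2 = (1 - mA N y) ^ 2 +
        (-(2 * (1 - mA N y)) * (tA N y g - mA N y) + (tA N y g - mA N y) ^ 2) := by
      intro g; ring
    simp only [h2]
    have e3 : EG (fun g : Ix N → ℝ => tA N y g - mA N y) := eA.sub (EG.const _)
    rw [integral_add (integrable_const _) ((e3.const_mul _).add (e3.pow 2)).integrable,
      integral_add (e3.const_mul _).integrable (e3.pow 2).integrable, integral_const_mul,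
      integral_sub eA.integrable (integrable_const _)]
    have h4 : ∫ g, tA N y g ∂(gI (Ix N)) = mA N y := rfl
    rw [h4]
    simp
  obtain ⟨vA, -⟩ := var_tr' hN hy
  rw [hmB, hA2]
  have k1 : (1 - mA N y) ^ 2 ≤ y := by
    calc (1 - mA N y) ^ 2 ≤ √y ^ 2 := pow_le_pow_left₀ hA0 hA 2
      _ = y := Real.sq_sqrt hy.le
  have k2 : (8 : ℝ) / (N ^ 2 * y ^ 4) ≤ y := by
    rw [div_le_iff₀ (by positivity)]
    calc (8 : ℝ) ≤ (N : ℝ) ^ 2 * y ^ 5 := hNy5
      _ = y * (N ^ 2 * y ^ 4) := by ring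
  have k3 : mB N y ≤ 1 := hB.trans (by rw [← Real.sqrt_one]; exact Real.sqrt_le_sqrt hy1)
  have k4 : 8 / y ^ 4 ≤ N / y := by
    rw [div_le_div_iff₀ (by positivity) hy]
    calc 8 * y ≤ N * y ^ 3 * y := mul_le_mul_of_nonneg_right hNy hy.le
      _ = N * y ^ 4 := by ring
  have k5 : 2 * ((1 - mA N y) ^ 2 + ∫ g, (tA N y g - mA N y) ^ 2 ∂(gI (Ix N))) +
      4 * ∫ g, tB N y g ^ 2 ∂(gI (Ix N)) + y * mB N y ≤ 13 * y := by
    have : y * mB N y ≤ y * 1 := mul_le_mul_of_nonneg_left k3 hy.le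
    linarith only [this, k2, k1, vA, hB2]
  have k6 : ∫ _g : Ix N → ℝ, 8 / y ^ 4 ∂(gI (Ix N)) = 8 / y ^ 4 := by simp
  rw [k6]
  calc _ ≤ N / y ^ 2 * (13 * y) + N / y :=
        add_le_add (mul_le_mul_of_nonneg_left k5 (by positivity)) k4
    _ = 14 * N / y := by field_simp; norm_num

/-! ### the free energy -/

lemma int_F1_dq (hN : 0 < N) (hy : 0 < y) (β : ℝ) : ∫ g, Vr.F1 β g * dq N y g ∂(gI (Ix N)) =
    β * N / √(2 * (N : ℝ)) * (Jy β y N - mB N y) := by
  have hN' : (0 : ℝ) < N := by exact_mod_cast hN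
  set c : ℝ := √(2 * (N : ℝ)) with hc
  have hc0 : 0 < c := Real.sqrt_pos.2 (by positivity)
  rw [ibp_dq hN hy (Vr.eg_F1 β) (fun e => Vr.pd_F1 β e) fun e => Vr.eg_F1' β e]
  have h1 : ∀ g : Ix N → ℝ, ∑ e : Ix N, Vr.F1' β e g * By y (Wm N g) e.1 e.2 =
      (β / c) * (Sk.gav β N g (fun x => qf (By y (Wm N g)) (spin x)) - (By y (Wm N g)).trace) := by
    intro g
    rw [← gb_eq_gav, Vr.gb_qf]
    have h2 : ∀ e : Ix N, Vr.F1' β e g * By y (Wm N g) e.1 e.2 =
        (β / c) * (By y (Wm N g) e.1 e.2 * Vr.gb β g (fun σ => Vr.sg σ e.1 * Vr.sg σ e.2)) -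
        (β / c) * (if e.1 = e.2 then By y (Wm N g) e.1 e.2 else 0) := by
      intro e
      rw [Vr.F1', Vr.gb_cf, ← hc]
      split_ifs
      · field_simp
      · ring
    simp only [h2]
    rw [sum_sub_distrib, ← mul_sum, ← mul_sum]
    have h3 : ∑ e : Ix N, (if e.1 = e.2 then By y (Wm N g) e.1 e.2 else 0) =
        (By y (Wm N g)).trace := by
      rw [Fintype.sum_prod_type]
      unfold Matrix.trace
      refine sum_congr rfl fun i _ => ?_
      simp
    rw [h3]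
    ring
  simp only [h1]
  have e1 : EG (fun g : Ix N → ℝ => Sk.gav β N g (fun x => qf (By y (Wm N g)) (spin x))) := by
    have h2 : (fun g : Ix N → ℝ => Sk.gav β N g (fun x => qf (By y (Wm N g)) (spin x))) =
        fun g => Vr.gb β g (fun σ => Vr.qf (By y (Wm N g)) σ) := by
      funext g; exact (gb_eq_gav β g _).symm
    rw [h2]
    exact Vr.eg_gb_qf β (egm_By hy)
  rw [integral_const_mul, integral_sub e1.integrable (egm_By hy).trace.integrable]
  have h4 : ∫ g, (By y (Wm N g)).trace ∂(gI (Ix N)) = N * mB N y := by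
    unfold mB tB
    rw [integral_const_mul]
    field_simp
  have h5 : ∫ g, Sk.gav β N g (fun x => qf (By y (Wm N g)) (spin x)) ∂(gI (Ix N)) =
      N * Jy β y N := by
    unfold Jy
    field_simp
  rw [h4, h5]
  ring

lemma int_dq (hN : 0 < N) (hy : 0 < y) : ∫ g, dq N y g ∂(gI (Ix N)) = 0 := by
  have h := ibp_dq hN hy (F := fun _ => 1) (F' := fun _ _ => 0) (EG.const _)
    (fun e => PD.const _) (fun e => EG.const _)
  simpa using h

lemma var_ge_dq (hN : 0 < N) (hy : 0 < y) (β t : ℝ) :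
    2 * t * ∫ g, Vr.F1 β g * dq N y g ∂(gI (Ix N)) -
    t ^ 2 * ∫ g, dq N y g * dq N y g ∂(gI (Ix N)) ≤ Var[freeEnergy N β; disorder N] := by
  rw [Vr.var_free hN]
  generalize ∫ z, Vr.F1 β z ∂(gI (Ix N)) = m
  have ed := eg_dq (N := N) hy
  have e1 : EG (fun z : Ix N → ℝ => Vr.F1 β z - m) := (Vr.eg_F1 β).sub (EG.const _)
  have e2 : EG (fun z : Ix N → ℝ => (Vr.F1 β z - m) ^ 2) := e1.pow 2
  have e3 : EG (fun z : Ix N → ℝ => dq N y z * dq N y z) := ed.mul ed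
  have e4 : EG (fun z : Ix N → ℝ => Vr.F1 β z * dq N y z) := (Vr.eg_F1 β).mul ed
  have h0 : 0 ≤ ∫ z, (Vr.F1 β z - m - t * dq N y z) ^ 2 ∂(gI (Ix N)) :=
    integral_nonneg fun z => sq_nonneg _
  have h1 : ∫ z, (Vr.F1 β z - m - t * dq N y z) ^ 2 ∂(gI (Ix N)) =
      ∫ z, (Vr.F1 β z - m) ^ 2 ∂(gI (Ix N)) - 2 * t * ∫ z, Vr.F1 β z * dq N y z ∂(gI (Ix N)) +
      2 * t * m * ∫ z, dq N y z ∂(gI (Ix N)) +
      t ^ 2 * ∫ z, dq N y z * dq N y z ∂(gI (Ix N)) := by
    rw [← integral_const_mul, ← integral_const_mul, ← integral_const_mul,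
      ← integral_sub e2.integrable (e4.const_mul _).integrable,
      ← integral_add (e2.sub (e4.const_mul _)).integrable (ed.const_mul _).integrable,
      ← integral_add ((e2.sub (e4.const_mul _)).add (ed.const_mul _)).integrable
        (e3.const_mul _).integrable]
    congr 1
    funext z
    ring
  rw [int_dq hN hy] at h1
  linarith

/-- **VARQ.** -/
theorem varq {β : ℝ} (hβ : 0 < β) : ∃ c : ℝ, 0 < c ∧ ∃ C : ℝ, 1 ≤ C ∧ ∀ (N : ℕ) (y : ℝ),
    0 < N → 0 < y → y ≤ 1 / C → C ≤ N * y ^ 6 →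
    c * y * Jy β y N ^ 2 - C ≤ Var[freeEnergy N β; disorder N] := by
  obtain ⟨C₀, hC₀, hz⟩ := zeta_facts
  refine ⟨β ^ 2 / 56, by positivity, C₀ + 8 + β ^ 2, by linarith only [sq_nonneg β, hC₀],
    fun N y hN hy hyC hNy => ?_⟩
  have hN' : (0 : ℝ) < N := by exact_mod_cast hN
  have hN1 : (1 : ℝ) ≤ N := by exact_mod_cast hN
  have hb2 : 0 ≤ β ^ 2 := sq_nonneg β
  have hCpos : 0 < C₀ + 8 + β ^ 2 := by positivity
  have hyC0 : y ≤ 1 / C₀ := hyC.trans (by
    apply one_div_le_one_div_of_le (by linarith only [hC₀]); linarith)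
  have hy1 : y ≤ 1 := hyC.trans (by rw [div_le_one hCpos]; linarith)
  obtain ⟨z1, z2, z3, z4, z5, z6, -⟩ := hz N y hN hy hyC0 (by linarith)
  have hA0 : 0 ≤ 1 - mA N y := le_trans (by positivity) z1
  have p1 : (N : ℝ) * y ^ 6 ≤ N * y ^ 3 :=
    mul_le_mul_of_nonneg_left (pow_le_pow_of_le_one hy.le hy1 (by norm_num)) hN'.le
  have p2 : (N : ℝ) * y ^ 6 ≤ (N : ℝ) ^ 2 * y ^ 5 := by
    have h1 : (N : ℝ) * y ^ 6 ≤ N * y ^ 5 :=
      mul_le_mul_of_nonneg_left (pow_le_pow_of_le_one hy.le hy1 (by norm_num)) hN'.le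
    have h2 : (N : ℝ) * y ^ 5 ≤ N ^ 2 * y ^ 5 := by
      refine mul_le_mul_of_nonneg_right ?_ (by positivity)
      nlinarith
    linarith only [h2, h1]
  have hsq := int_dq_sq hN hy hy1 (by linarith only [p1, hb2, hNy, hC₀]) (by linarith) hA0 z2 z5 z6
  have hF := int_F1_dq hN hy β
  set c : ℝ := √(2 * (N : ℝ)) with hc
  have hc0 : 0 < c := Real.sqrt_pos.2 (by positivity)
  have hc2 : c * c = 2 * N := Real.mul_self_sqrt (by positivity)
  set D := Jy β y N - mB N y with hD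
  have hv := var_ge_dq hN hy β (β * D * y / (14 * c))
  rw [hF] at hv
  have k1 : 2 * (β * D * y / (14 * c)) * (β * N / c * D) = β ^ 2 * D ^ 2 * y / 14 := by
    have : 2 * (β * D * y / (14 * c)) * (β * N / c * D) =
        2 * N * (β ^ 2 * D ^ 2 * y / 14) / (c * c) := by
      field_simp
    rw [this, hc2]
    field_simp
  have k2 : (β * D * y / (14 * c)) ^ 2 * ∫ g, dq N y g * dq N y g ∂(gI (Ix N)) ≤
      β ^ 2 * D ^ 2 * y / 28 := by
    calc (β * D * y / (14 * c)) ^ 2 * ∫ g, dq N y g * dq N y g ∂(gI (Ix N)) ≤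
        (β * D * y / (14 * c)) ^ 2 * (14 * N / y) :=
          mul_le_mul_of_nonneg_left hsq (sq_nonneg _)
      _ = (2 * N) * (β ^ 2 * D ^ 2 * y / 28) / (c * c) := by
          field_simp
          ring
      _ = _ := by
          rw [hc2]
          field_simp
  rw [k1] at hv
  have k3 : Jy β y N ^ 2 ≤ 2 * D ^ 2 + 2 * mB N y ^ 2 := by
    have : Jy β y N = D + mB N y := by rw [hD]; ring
    rw [this]
    linarith only [sq_nonneg (D - mB N y)]
  have k4 : mB N y ^ 2 ≤ 1 := by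
    have h0 := mB_nonneg (N := N) hy
    have h1 : √y ≤ 1 := by rw [← Real.sqrt_one]; exact Real.sqrt_le_sqrt hy1
    (by_contra nlg; linarith only [nlg, mul_nonneg (sub_nonneg.2 h1) (sub_nonneg.2 h1), mul_nonneg (sub_nonneg.2 h0) (sub_nonneg.2 h1), mul_nonneg (sub_nonneg.2 z5) (sub_nonneg.2 h1), mul_nonneg (sub_nonneg.2 z5) (sub_nonneg.2 z5), mul_nonneg (sub_nonneg.2 z4) (sub_nonneg.2 h0), mul_nonneg (le_of_lt (sub_pos.2 hy)) (sub_nonneg.2 z4), mul_nonneg (le_of_lt (sub_pos.2 hy)) (sub_nonneg.2 z3), mul_pos (sub_pos.2 hy) (sub_pos.2 hy), mul_nonneg (le_of_lt (sub_pos.2 (not_le.1 nlg))) (sub_nonneg.2 h1), mul_nonneg (le_of_lt (sub_pos.2 (not_le.1 nlg))) (sub_nonneg.2 h0), mul_nonneg (le_of_lt (sub_pos.2 (not_le.1 nlg))) (sub_nonneg.2 z5)])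
  have k5 : β ^ 2 * y * Jy β y N ^ 2 ≤ β ^ 2 * y * (2 * D ^ 2 + 2) :=
    mul_le_mul_of_nonneg_left (by linarith only [k4, k3]) (by positivity)
  have k6 : β ^ 2 * y ≤ β ^ 2 * 1 := mul_le_mul_of_nonneg_left hy1 hb2
  have k7 : β ^ 2 / 56 * y * Jy β y N ^ 2 = (β ^ 2 * y * Jy β y N ^ 2) / 56 := by ring
  have k8 : β ^ 2 * D ^ 2 * y = β ^ 2 * y * D ^ 2 := by ring
  rw [k7]
  rw [k8] at hv k2
  linarith only [k6, k5, k2, hv, hb2, hC₀]

end Vale.Agent.P146.Pw2
end
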