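import Vale.Agent.P146.Bdl.B29
import Vale.Agent.P146.Bdl.B15
import Vale.Agent.P146.Bdl.B6
import Vale.Agent.P146.Bdl.B1
import Vale.Agent.P146.Bdl.B21
import Vale.Agent.P146.Bdl.B22

set_option linter.all false

section

/-!
# P146: the random coefficients are bounded below with high probability
-/

open MeasureTheory ProbabilityTheory Finset Matrix Filter Topology
open scoped Matrix.Norms.L2Operator

namespace Vale.Agent.P146.Sk.Pw

open Vale.Agent.P157 (spin)
open Vale.Agent.P157.Lv Vale.Agent.P146.Sk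
open Vale.Agent.P157.Par (Path Exponents topN lw spinPart)
open Vale.Agent.P146.Sk.Gen (GD)

set_option linter.all false

section lse

variable {ι X : Type} [Fintype ι] [DecidableEq ι] [Fintype X] [Nonempty X]

/-- log-sum-exp -/
noncomputable def lse (E : (ι → ℝ) → X → ℝ) (g : ι → ℝ) : ℝ := Real.log (∑ x, Real.exp (E g x))

/-- the Gibbs average -/
noncomputable def lav (E : (ι → ℝ) → X → ℝ) (g : ι → ℝ) (f : X → ℝ) : ℝ :=
  (∑ x, Real.exp (E g x) * f x) / ∑ x, Real.exp (E g x)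

variable {E : (ι → ℝ) → X → ℝ} {D : ι → (ι → ℝ) → X → ℝ}

lemma sum_exp_pos (g : ι → ℝ) : 0 < ∑ x, Real.exp (E g x) :=
  sum_pos (fun _ _ => Real.exp_pos _) univ_nonempty

lemma pd_lse (h : ∀ e x, PD e (fun g => E g x) (fun g => D e g x)) (e : ι) :
    PD e (lse E) (fun g => lav E g (fun x => D e g x)) :=
  (PD.sum _ fun x _ => (h e x).exp).log fun g => (sum_exp_pos g).ne'

lemma abs_lav_le (g : ι → ℝ) {f : X → ℝ} {C : ℝ} (hf : ∀ x, |f x| ≤ C) : |lav E g f| ≤ C := by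
  unfold lav
  rw [abs_div, abs_of_pos (sum_exp_pos g), div_le_iff₀ (sum_exp_pos g)]
  calc |∑ x, Real.exp (E g x) * f x| ≤ ∑ x, |Real.exp (E g x) * f x| := abs_sum_le_sum_abs _ _
    _ ≤ ∑ x, C * Real.exp (E g x) := by
        refine sum_le_sum fun x _ => ?_
        rw [abs_mul, abs_of_pos (Real.exp_pos _), mul_comm]
        exact mul_le_mul_of_nonneg_right (hf x) (Real.exp_pos _).le
    _ = C * ∑ x, Real.exp (E g x) := by rw [mul_sum]

lemma eg_lse (h : ∀ x, EG fun g => E g x) : EG (lse E) := by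
  have hm : Measurable (lse E) := by
    unfold lse
    exact Real.measurable_log.comp (Finset.measurable_fun_sum _ fun x _ =>
      Real.measurable_exp.comp (h x).meas)
  have h2 : EG (fun g : ι → ℝ => |Real.log (∑ _x : X, (1 : ℝ))| + ∑ x, |E g x|) :=
    (EG.const _).add (EG.sum _ fun x _ => (h x).abs)
  refine h2.mono hm fun g => ?_
  have h3 := Vale.Agent.P157.Par.Lin.logsum_bound (w := fun _ : X => (1 : ℝ))
    (fun _ => one_pos) (E g)
  simp only [one_mul] at h3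
  exact h3.trans (le_abs_self _)

lemma eg_lav (hE : ∀ x, EG fun g => E g x) (hm : ∀ x, Measurable fun g => E g x)
    {f : (ι → ℝ) → X → ℝ} (hf : ∀ x, Measurable fun g => f g x) {C : ℝ}
    (hC : ∀ g x, |f g x| ≤ C) : EG (fun g => lav E g (f g)) := by
  refine EG.of_bdd ?_ (C := C) fun g => abs_lav_le g (hC g)
  unfold lav
  exact (Finset.measurable_fun_sum _ fun x _ => (Real.measurable_exp.comp (hm x)).mul (hf x)).div
    (Finset.measurable_fun_sum _ fun x _ => Real.measurable_exp.comp (hm x))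

lemma lav_sq_le (g : ι → ℝ) (f : X → ℝ) : lav E g f ^ 2 ≤ lav E g (fun x => f x ^ 2) := by
  have hZ := sum_exp_pos (E := E) g
  unfold lav
  rw [div_pow, div_le_div_iff₀ (by positivity) hZ]
  have h1 : (∑ x, Real.exp (E g x) * f x) ^ 2 ≤
      (∑ x, Real.exp (E g x)) * ∑ x, Real.exp (E g x) * f x ^ 2 := by
    have h2 := Finset.sum_mul_sq_le_sq_mul_sq (univ : Finset X)
      (fun x => √(Real.exp (E g x))) (fun x => √(Real.exp (E g x)) * f x)
    have h3 : ∀ x, √(Real.exp (E g x)) * (√(Real.exp (E g x)) * f x) = Real.exp (E g x) * f x := by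
      intro x
      rw [← mul_assoc, Real.mul_self_sqrt (Real.exp_pos _).le]
    have h4 : ∀ x, √(Real.exp (E g x)) ^ 2 = Real.exp (E g x) := fun x =>
      Real.sq_sqrt (Real.exp_pos _).le
    simp only [h3, mul_pow, h4] at h2
    exact h2
  calc (∑ x, Real.exp (E g x) * f x) ^ 2 * ∑ x, Real.exp (E g x) ≤
      ((∑ x, Real.exp (E g x)) * ∑ x, Real.exp (E g x) * f x ^ 2) * ∑ x, Real.exp (E g x) :=
        mul_le_mul_of_nonneg_right h1 hZ.le
    _ = _ := by ring

lemma lav_sum {κ : Type*} (s : Finset κ) (g : ι → ℝ) (f : κ → X → ℝ) :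
    ∑ k ∈ s, lav E g (f k) = lav E g (fun x => ∑ k ∈ s, f k x) := by
  unfold lav
  rw [← sum_div, sum_comm]
  simp only [mul_sum]

lemma lav_mono (g : ι → ℝ) {f f' : X → ℝ} (h : ∀ x, f x ≤ f' x) : lav E g f ≤ lav E g f' := by
  unfold lav
  exact div_le_div_of_nonneg_right (sum_le_sum fun x _ =>
    mul_le_mul_of_nonneg_left (h x) (Real.exp_pos _).le) (sum_exp_pos g).le

lemma lav_const (g : ι → ℝ) (c : ℝ) : lav E g (fun _ => c) = c := by
  unfold lav
  rw [← sum_mul, mul_div_assoc, mul_comm, div_mul_cancel₀ _ (sum_exp_pos g).ne']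

/-- Poincaré for the log-sum-exp -/
theorem var_lse (hE : ∀ x, EG fun g => E g x)
    (h : ∀ e x, PD e (fun g => E g x) (fun g => D e g x)) (hm : ∀ e x, Measurable fun g => D e g x)
    {C : ℝ} (hC : ∀ e g x, |D e g x| ≤ C) {w : (ι → ℝ) → ℝ} (hw : EG w)
    (hD : ∀ g x, ∑ e, D e g x ^ 2 ≤ w g) :
    ∫ g, (lse E g - ∫ g', lse E g' ∂(gI ι)) ^ 2 ∂(gI ι) ≤ ∫ g, w g ∂(gI ι) := by
  have e1 : ∀ e, EG (fun g => lav E g (fun x => D e g x)) := fun e =>
    eg_lav hE (fun x => (hE x).meas) (hm e) (hC e)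
  refine (cc_var_le_one (eg_lse hE) (fun e => pd_lse h e) e1).trans ?_
  rw [← integral_finsetSum _ fun e _ => ((e1 e).pow 2).integrable]
  refine integral_mono (EG.sum _ fun e _ => (e1 e).pow 2).integrable hw.integrable fun g => ?_
  calc ∑ e, lav E g (fun x => D e g x) ^ 2 ≤ ∑ e, lav E g (fun x => D e g x ^ 2) :=
        sum_le_sum fun e _ => lav_sq_le g _
    _ = lav E g (fun x => ∑ e, D e g x ^ 2) := lav_sum _ g _
    _ ≤ lav E g (fun _ => w g) := lav_mono g (hD g)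
    _ = w g := lav_const g _

/-- Jensen -/
lemma lse_add_ge {E E' : (ι → ℝ) → X → ℝ} (g : ι → ℝ) :
    lse E g + lav E g (fun x => E' g x - E g x) ≤ lse E' g := by
  have hZ := sum_exp_pos (E := E) g
  have hZ' := sum_exp_pos (E := E') g
  set m := lav E g (fun x => E' g x - E g x) with hm
  have h1 : Real.exp m * ∑ x, Real.exp (E g x) ≤ ∑ x, Real.exp (E' g x) := by
    have h2 : ∀ x, Real.exp (E g x) * (Real.exp m * (1 + (E' g x - E g x - m))) ≤
        Real.exp (E' g x) := by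
      intro x
      have h3 := Real.add_one_le_exp (E' g x - E g x - m)
      have h4 : Real.exp (E' g x) = Real.exp (E g x) * (Real.exp m *
          Real.exp (E' g x - E g x - m)) := by
        rw [← Real.exp_add, ← Real.exp_add]; congr 1; ring
      rw [h4]
      refine mul_le_mul_of_nonneg_left (mul_le_mul_of_nonneg_left ?_ (Real.exp_pos _).le)
        (Real.exp_pos _).le
      linarith
    have h5 : ∑ x, Real.exp (E g x) * (Real.exp m * (1 + (E' g x - E g x - m))) =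
        Real.exp m * ∑ x, Real.exp (E g x) := by
      have h6 : ∑ x, Real.exp (E g x) * (E' g x - E g x) = m * ∑ x, Real.exp (E g x) := by
        rw [hm, lav, div_mul_cancel₀ _ hZ.ne']
      have h7 : ∀ x, Real.exp (E g x) * (Real.exp m * (1 + (E' g x - E g x - m))) =
          Real.exp m * (Real.exp (E g x) + (Real.exp (E g x) * (E' g x - E g x) -
            m * Real.exp (E g x))) := fun x => by ring
      simp only [h7]
      rw [← mul_sum, sum_add_distrib, sum_sub_distrib, h6, ← mul_sum, sub_self, add_zero]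
    rw [← h5]
    exact sum_le_sum fun x _ => h2 x
  have h8 := Real.log_le_log (by positivity) h1
  rw [Real.log_mul (Real.exp_pos _).ne' hZ.ne', Real.log_exp] at h8
  unfold lse
  linarith

end lse

variable {N : ℕ}

/-- The pressure with the perturbation. -/
noncomputable def pb (β b : ℝ) (κ N : ℕ) : ℝ := 1 / N * ∫ g, lse (Esk N β 1 b κ) g ∂(gI (Ix N))

/-- Uniform bounds for the gradient of the energy. -/
def GradB (β : ℝ) (κ : ℕ) : Prop := ∃ V : ℝ, 0 ≤ V ∧ ∀ N : ℕ, 0 < N → ∀ b ∈ Set.Icc (0 : ℝ) 1,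
  ∃ (K : ℕ) (m : ℕ → ℝ) (D : Ix N → (Ix N → ℝ) → (Fin N → Bool) → ℝ) (w : (Ix N → ℝ) → ℝ),
    GD K m (Esk N β 1 b κ) D spin ∧ EG w ∧ (∀ g x, ∑ e, D e g x ^ 2 ≤ N * w g) ∧
      ∫ g, w g ∂(gI (Ix N)) ≤ V

lemma var_pb {β : ℝ} {κ : ℕ} (hG : GradB β κ) : ∃ V : ℝ, 0 ≤ V ∧ ∀ N : ℕ, 0 < N →
    ∀ b ∈ Set.Icc (0 : ℝ) 1, EG (lse (Esk N β 1 b κ)) ∧
    ∫ g, (1 / N * lse (Esk N β 1 b κ) g - pb β b κ N) ^ 2 ∂(gI (Ix N)) ≤ V / N := by
  obtain ⟨V, hV, h⟩ := hG
  refine ⟨V, hV, fun N hN b hb => ?_⟩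
  have hN' : (0 : ℝ) < N := by exact_mod_cast hN
  obtain ⟨K, m, D, w, hD, hw, hDw, hwV⟩ := h N hN b hb
  have hE : ∀ x, EG fun g => Esk N β 1 b κ g x := fun x => (hD.lip x).eg
  obtain ⟨C, hC⟩ := hD.bd
  have h1 := var_lse hE hD.pd hD.md hC (hw.const_mul N) hDw
  refine ⟨eg_lse hE, ?_⟩
  rw [integral_const_mul] at h1
  have h2 : ∀ g, (1 / N * lse (Esk N β 1 b κ) g - pb β b κ N) ^ 2 = (1 / (N : ℝ) ^ 2) *
      (lse (Esk N β 1 b κ) g - ∫ g', lse (Esk N β 1 b κ) g' ∂(gI (Ix N))) ^ 2 := by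
    intro g
    rw [pb, ← mul_sub, mul_pow, div_pow, one_pow]
  simp only [h2]
  rw [integral_const_mul]
  calc (1 / (N : ℝ) ^ 2) * ∫ g, (lse (Esk N β 1 b κ) g -
      ∫ g', lse (Esk N β 1 b κ) g' ∂(gI (Ix N))) ^ 2 ∂(gI (Ix N)) ≤
      (1 / (N : ℝ) ^ 2) * (N * V) := by
        refine mul_le_mul_of_nonneg_left (h1.trans ?_) (by positivity)
        exact mul_le_mul_of_nonneg_left hwV hN'.le
    _ = V / N := by field_simp

lemma lse_zero (β : ℝ) (κ : ℕ) (g : Ix N → ℝ) : lse (Esk N β 1 0 κ) g = Ft β N g := by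
  unfold lse Ft Esk
  congr 1
  refine sum_congr rfl fun x _ => ?_
  congr 1
  ring

lemma pb_zero (β : ℝ) (κ N : ℕ) : pb β 0 κ N = pN β N := by
  unfold pb pN
  simp only [lse_zero]

lemma lav_zero (β : ℝ) (κ : ℕ) (g : Ix N → ℝ) (f : (Fin N → Bool) → ℝ) :
    lav (Esk N β 1 0 κ) g f = gav β N g f := by
  unfold lav gav
  have h1 : ∀ x, Real.exp (Esk N β 1 0 κ g x) =
      Real.exp (β / 2 * qf (Wm N g) (spin x)) * Real.exp (-(N * Real.log 2)) := by
    intro x
    rw [← Real.exp_add]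
    unfold Esk
    congr 1
    ring
  have h2 : ∑ x : Fin N → Bool, Real.exp (Esk N β 1 0 κ g x) * f x =
      (∑ x : Fin N → Bool, Real.exp (β / 2 * qf (Wm N g) (spin x)) * f x) *
        Real.exp (-(N * Real.log 2)) := by
    rw [sum_mul]
    refine sum_congr rfl fun x _ => ?_
    rw [h1]
    ring
  have h3 : ∑ x : Fin N → Bool, Real.exp (Esk N β 1 0 κ g x) =
      (∑ x : Fin N → Bool, Real.exp (β / 2 * qf (Wm N g) (spin x))) *
        Real.exp (-(N * Real.log 2)) := by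
    rw [sum_mul]
    exact sum_congr rfl fun x _ => h1 x
  rw [h2, h3, mul_div_mul_right _ _ (Real.exp_pos _).ne']

/-- the pathwise inequality -/
lemma pathwise (hN : 0 < N) (β b : ℝ) (κ : ℕ) (g : Ix N → ℝ) :
    1 / N * lse (Esk N β 1 0 κ) g - 1 / N * lse (Esk N β 1 b κ) g ≤
      b / 2 * (cut N g * Vr.ck β κ g) := by
  have h1 := lse_add_ge (E := Esk N β 1 0 κ) (E' := Esk N β 1 b κ) g
  have h2 : lav (Esk N β 1 0 κ) g (fun x => Esk N β 1 b κ g x - Esk N β 1 0 κ g x) =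
      -(b * β / 2 * cut N g) * gav β N g (fun x => qf (Um (Wm N g) κ) (spin x)) := by
    rw [lav_zero]
    unfold gav
    rw [← mul_div_assoc, mul_sum]
    congr 1
    refine sum_congr rfl fun x _ => ?_
    unfold Esk
    ring
  rw [h2] at h1
  have h3 : Vr.ck β κ g = β / N * gav β N g (fun x => qf (Um (Wm N g) κ) (spin x)) := by
    unfold Vr.ck
    rw [gb_eq_gav]
  rw [h3]
  have hN' : (0 : ℝ) < N := by exact_mod_cast hN
  have h4 := mul_le_mul_of_nonneg_left h1 (by positivity : (0 : ℝ) ≤ 1 / N)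
  have h5 : b / 2 * (cut N g * (β / N * gav β N g (fun x => qf (Um (Wm N g) κ) (spin x)))) =
      1 / N * (b * β / 2 * cut N g * gav β N g (fun x => qf (Um (Wm N g) κ) (spin x))) := by
    field_simp
  rw [h5]
  linarith only [h4]

lemma int_cut_le (κ : ℕ) : ∃ C : ℝ, 0 ≤ C ∧ ∀ N : ℕ, 0 < N →
    ∫ g, (1 - cut N g) * om N g ^ κ ∂(gI (Ix N)) ≤ C / √N := by
  obtain ⟨C, hC1, hC⟩ := exists_om_moment (2 * κ)
  refine ⟨1 + C, by linarith, fun N hN => ?_⟩
  have hN' : (0 : ℝ) < N := by exact_mod_cast hN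
  have hs : 0 < √(N : ℝ) := Real.sqrt_pos.2 hN'
  have hss : √(N : ℝ) * √(N : ℝ) = N := Real.mul_self_sqrt hN'.le
  have e1 : EG (fun g : Ix N → ℝ => 1 - cut N g) := (EG.const 1).sub eg_cut
  have e2 : EG (fun g : Ix N → ℝ => om N g ^ (2 * κ)) := eg_om.pow _
  have h1 : ∀ g : Ix N → ℝ, (1 - cut N g) * om N g ^ κ ≤
      √N * (1 - cut N g) + 1 / √N * om N g ^ (2 * κ) := by
    intro g
    have c0 : 0 ≤ 1 - cut N g := by linarith [cut_le_one g]
    have c1 : 1 - cut N g ≤ 1 := by linarith [cut_nonneg g]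
    have w0 : 0 ≤ om N g ^ κ := pow_nonneg (om_nonneg g) _
    have w2 : om N g ^ (2 * κ) = (om N g ^ κ) ^ 2 := by rw [mul_comm, pow_mul]
    rw [w2]
    set c := 1 - cut N g
    set w := om N g ^ κ
    have h3 : √N * c ^ 2 + 1 / √N * w ^ 2 - 2 * (c * w) = 1 / √N * (√N * c - w) ^ 2 := by
      field_simp
      ring
    have h4 : 0 ≤ 1 / √(N : ℝ) * (√N * c - w) ^ 2 := by positivity
    have h5 : √(N : ℝ) * c ^ 2 ≤ √N * c :=
      mul_le_mul_of_nonneg_left (by linarith only [mul_nonneg (sub_nonneg.2 c0) (sub_nonneg.2 c1)]) hs.le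
    have h6 : 0 ≤ c * w := mul_nonneg c0 w0
    linarith only [h6, h5, h4, h3]
  have h2 : ∫ g, (1 - cut N g) * om N g ^ κ ∂(gI (Ix N)) ≤
      ∫ g, (√N * (1 - cut N g) + 1 / √N * om N g ^ (2 * κ)) ∂(gI (Ix N)) :=
    integral_mono (e1.mul (eg_om.pow κ)).integrable
      ((e1.const_mul _).add (e2.const_mul _)).integrable h1
  rw [integral_add (e1.const_mul _).integrable (e2.const_mul _).integrable,
    integral_const_mul, integral_const_mul] at h2
  have h3 := int_one_sub_cut_le hN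
  have h4 := hC N
  calc _ ≤ √N * ∫ g, (1 - cut N g) ∂(gI (Ix N)) +
        1 / √N * ∫ g, om N g ^ (2 * κ) ∂(gI (Ix N)) := h2
    _ ≤ √N * (1 / N) + 1 / √N * C := by gcongr
    _ = (1 + C) / √N := by
      have : √(N : ℝ) * (1 / N) = 1 / √N := by rw [mul_one_div, Real.sqrt_div_self']
      rw [this]
      ring

lemma abs_ck_le (hN : 0 < N) {β : ℝ} (hβ : 0 ≤ β) (κ : ℕ) (g : Ix N → ℝ) :
    |Vr.ck β κ g| ≤ β * om N g ^ κ := by
  have hN' : (0 : ℝ) < N := by exact_mod_cast hN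
  have h3 : Vr.ck β κ g = β / N * gav β N g (fun x => qf (Um (Wm N g) κ) (spin x)) := by
    unfold Vr.ck
    rw [gb_eq_gav]
  have h4 : |gav β N g (fun x => qf (Um (Wm N g) κ) (spin x))| ≤ N * om N g ^ κ := by
    rw [← lav_zero β κ]
    exact abs_lav_le g fun x => abs_qf_Um_le g κ x
  rw [h3, abs_mul, abs_of_nonneg (by positivity : 0 ≤ β / N)]
  calc β / N * |gav β N g (fun x => qf (Um (Wm N g) κ) (spin x))| ≤ β / N * (N * om N g ^ κ) :=
        mul_le_mul_of_nonneg_left h4 (by positivity)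
    _ = _ := by field_simp

/-- an `L¹` bound from an `L²` bound -/
lemma int_abs_le {f : (Ix N → ℝ) → ℝ} (hf : EG f) {t V : ℝ} (ht : 0 < t)
    (h : ∫ g, f g ^ 2 ∂(gI (Ix N)) ≤ V) : ∫ g, |f g| ∂(gI (Ix N)) ≤ t + V / t := by
  have h6 : ∀ g : Ix N → ℝ, |f g| ≤ t + 1 / t * f g ^ 2 := by
    intro g
    rw [← sq_abs]
    have h7 : t + 1 / t * |f g| ^ 2 - 2 * |f g| = 1 / t * (|f g| - t) ^ 2 := by
      field_simp
      ring
    have h8 : 0 ≤ 1 / t * (|f g| - t) ^ 2 := by positivity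
    linarith only [abs_nonneg (f g), h8, h7]
  calc ∫ g, |f g| ∂(gI (Ix N)) ≤ ∫ g, (t + 1 / t * f g ^ 2) ∂(gI (Ix N)) :=
        integral_mono hf.abs.integrable ((EG.const _).add ((hf.pow 2).const_mul _)).integrable h6
    _ = t + 1 / t * ∫ g, f g ^ 2 ∂(gI (Ix N)) := by
        rw [integral_add (integrable_const _) ((hf.pow 2).const_mul _).integrable,
          integral_const_mul, integral_const]
        simp only [probReal_univ, one_smul]
    _ ≤ t + 1 / t * V := by gcongr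
    _ = t + V / t := by ring

/-- **The random coefficients.** -/
theorem ck_lower {β : ℝ} (hβ : 0 ≤ β) {κ : ℕ} (hG : GradB β κ)
    (hd : ∀ ε : ℝ, 0 < ε → ∃ b ∈ Set.Ioc (0 : ℝ) 1, ∀ᶠ N : ℕ in atTop,
      b / 2 * (1 - ε) ≤ pN β N - pb β b κ N) :
    Tendsto (fun N : ℕ => ∫ g : Ix N → ℝ, max (1 - Vr.ck β κ g) 0 ∂(gI (Ix N))) atTop (𝓝 0) := by
  obtain ⟨V, hV, hvar⟩ := var_pb hG
  obtain ⟨C, hC, hcut⟩ := int_cut_le κ
  rw [Metric.tendsto_atTop]
  intro ε hε
  obtain ⟨b, hb, hev⟩ := hd (ε / 4) (by positivity)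
  have hb0 : 0 < b := hb.1
  -- choose `t` and `N` large
  set t : ℝ := b * ε / 32 with ht
  have ht0 : 0 < t := by positivity
  have l1 : Tendsto (fun N : ℕ => (2 / b) * (2 * (V / t) * (1 / (N : ℝ))) +
      β * C * (1 / √(N : ℝ))) atTop (𝓝 ((2 / b) * (2 * (V / t) * 0) + β * C * 0)) := by
    have h0 : Tendsto (fun N : ℕ => 1 / (N : ℝ)) atTop (𝓝 0) :=
      tendsto_one_div_atTop_nhds_zero_nat
    have h1 : Tendsto (fun N : ℕ => 1 / √(N : ℝ)) atTop (𝓝 0) := by
      simp only [one_div]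
      exact (tendsto_inv_atTop_zero.comp (Real.tendsto_sqrt_atTop.comp
        tendsto_natCast_atTop_atTop))
    exact ((h0.const_mul _).const_mul _).add (h1.const_mul _)
  rw [mul_zero, mul_zero, mul_zero, add_zero] at l1
  have l2 := l1.eventually (gt_mem_nhds (by positivity : (0 : ℝ) < ε / 4))
  obtain ⟨N₀, hN₀⟩ := Filter.eventually_atTop.1 ((hev.and l2).and (eventually_gt_atTop 0))
  refine ⟨N₀, fun N hN => ?_⟩
  obtain ⟨⟨h1, h2⟩, hN0⟩ := hN₀ N hN
  have hN' : (0 : ℝ) < N := by exact_mod_cast hN0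
  obtain ⟨eb, vb⟩ := hvar N hN0 b ⟨hb0.le, hb.2⟩
  obtain ⟨e0, v0⟩ := hvar N hN0 0 ⟨le_refl _, zero_le_one⟩
  -- the deviations
  set f0 : (Ix N → ℝ) → ℝ := fun g => 1 / N * lse (Esk N β 1 0 κ) g - pb β 0 κ N with hf0
  set fb : (Ix N → ℝ) → ℝ := fun g => 1 / N * lse (Esk N β 1 b κ) g - pb β b κ N with hfb
  have ef0 : EG f0 := (e0.const_mul _).sub (EG.const _)
  have efb : EG fb := (eb.const_mul _).sub (EG.const _)
  have a0 := int_abs_le ef0 ht0 v0
  have ab := int_abs_le efb ht0 vb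
  have ec : EG (fun g : Ix N → ℝ => (1 - cut N g) * om N g ^ κ) :=
    ((EG.const 1).sub eg_cut).mul (eg_om.pow κ)
  have hpt : ∀ g : Ix N → ℝ, max (1 - Vr.ck β κ g) 0 ≤
      ε / 4 + (2 / b) * (|f0 g| + |fb g|) + β * ((1 - cut N g) * om N g ^ κ) := by
    intro g
    have c0 := cut_nonneg g
    have c1 := cut_le_one g
    have p1 := pathwise hN0 β b κ g
    have p2 : 1 / N * lse (Esk N β 1 0 κ) g - 1 / N * lse (Esk N β 1 b κ) g =
        f0 g - fb g + (pN β N - pb β b κ N) := by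
      rw [hf0, hfb]
      simp only
      rw [pb_zero]
      ring
    rw [p2] at p1
    have p3 : -|f0 g| - |fb g| ≤ f0 g - fb g := by
      linarith only [le_abs_self (fb g), neg_abs_le (f0 g)]
    have p4 : b / 2 * (1 - ε / 4) - (|f0 g| + |fb g|) ≤ b / 2 * (cut N g * Vr.ck β κ g) := by
      linarith only [p3, p1, h1]
    have p5 : (1 - ε / 4) - (2 / b) * (|f0 g| + |fb g|) ≤ cut N g * Vr.ck β κ g := by
      have := mul_le_mul_of_nonneg_left p4 (by positivity : (0 : ℝ) ≤ 2 / b)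
      have e1 : 2 / b * (b / 2 * (1 - ε / 4) - (|f0 g| + |fb g|)) =
          (1 - ε / 4) - (2 / b) * (|f0 g| + |fb g|) := by field_simp
      have e2 : 2 / b * (b / 2 * (cut N g * Vr.ck β κ g)) = cut N g * Vr.ck β κ g := by
        field_simp
      rw [e1, e2] at this
      exact this
    have p6 : cut N g * Vr.ck β κ g ≤ Vr.ck β κ g + β * ((1 - cut N g) * om N g ^ κ) := by
      have p7 := abs_ck_le hN0 hβ κ g
      have p8 : (1 - cut N g) * |Vr.ck β κ g| ≤ (1 - cut N g) * (β * om N g ^ κ) :=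
        mul_le_mul_of_nonneg_left p7 (by linarith only [c1])
      have p9 : (1 - cut N g) * (-|Vr.ck β κ g|) ≤ (1 - cut N g) * Vr.ck β κ g :=
        mul_le_mul_of_nonneg_left (neg_abs_le _) (by linarith only [c1])
      linarith only [p9, p8]
    have p10 : 0 ≤ (1 - cut N g) * om N g ^ κ :=
      mul_nonneg (by linarith only [c1]) (pow_nonneg (om_nonneg g) _)
    have p11 : 0 ≤ (2 / b) * (|f0 g| + |fb g|) := by (clear * - hb0; positivity)
    refine max_le ?_ ?_
    · linarith only [p6, p5]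
    · have : 0 ≤ β * ((1 - cut N g) * om N g ^ κ) := mul_nonneg hβ p10
      (clear * - hε hb0 hβ p10; positivity)
  have h3 : ∫ g : Ix N → ℝ, max (1 - Vr.ck β κ g) 0 ∂(gI (Ix N)) ≤
      ε / 4 + (2 / b) * (∫ g, |f0 g| ∂(gI (Ix N)) + ∫ g, |fb g| ∂(gI (Ix N))) +
        β * ∫ g, (1 - cut N g) * om N g ^ κ ∂(gI (Ix N)) := by
    calc ∫ g : Ix N → ℝ, max (1 - Vr.ck β κ g) 0 ∂(gI (Ix N)) ≤
        ∫ g : Ix N → ℝ, (ε / 4 + (2 / b) * (|f0 g| + |fb g|) +
          β * ((1 - cut N g) * om N g ^ κ)) ∂(gI (Ix N)) :=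
          integral_mono (Vr.eg_max β κ).integrable (((EG.const _).add
            ((ef0.abs.add efb.abs).const_mul _)).add (ec.const_mul _)).integrable hpt
      _ = _ := by
          rw [integral_add ((EG.const _).add ((ef0.abs.add efb.abs).const_mul _)).integrable
            (ec.const_mul _).integrable, integral_add (integrable_const _)
            ((ef0.abs.add efb.abs).const_mul _).integrable, integral_const_mul,
            integral_const_mul, integral_add ef0.abs.integrable efb.abs.integrable,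
            integral_const]
          simp only [probReal_univ, one_smul]
  have h4 := hcut N hN0
  rw [Real.dist_eq, sub_zero, abs_of_nonneg (integral_nonneg fun g => le_max_right _ _)]
  have h5 : (2 / b) * (∫ g, |f0 g| ∂(gI (Ix N)) + ∫ g, |fb g| ∂(gI (Ix N))) ≤
      ε / 4 + (2 / b) * (2 * (V / t) * (1 / (N : ℝ))) := by
    have h6 : ∫ g, |f0 g| ∂(gI (Ix N)) + ∫ g, |fb g| ∂(gI (Ix N)) ≤
        2 * t + 2 * (V / t) * (1 / (N : ℝ)) := by
      have h7 : V / N / t = V / t * (1 / (N : ℝ)) := by field_simp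
      rw [h7] at a0 ab
      linarith only [ab, a0]
    calc (2 / b) * (∫ g, |f0 g| ∂(gI (Ix N)) + ∫ g, |fb g| ∂(gI (Ix N))) ≤
        (2 / b) * (2 * t + 2 * (V / t) * (1 / (N : ℝ))) :=
          mul_le_mul_of_nonneg_left h6 (by positivity)
      _ = (2 / b) * (2 * t) + (2 / b) * (2 * (V / t) * (1 / (N : ℝ))) := by ring
      _ ≤ _ := by
          have : (2 / b) * (2 * t) = ε / 8 := by rw [ht]; field_simp; norm_num
          rw [this]
          linarith only [hε]
  have h8 : β * ∫ g, (1 - cut N g) * om N g ^ κ ∂(gI (Ix N)) ≤ β * C * (1 / √(N : ℝ)) := by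
    calc _ ≤ β * (C / √N) := mul_le_mul_of_nonneg_left h4 hβ
      _ = _ := by ring
  linarith only [h8, h5, h3, h2, hε]

end Vale.Agent.P146.Sk.Pw
end

section

/-!
# P146: the free energy spreads and its variance diverges (assembly from the pressure differences)
-/

open MeasureTheory ProbabilityTheory Finset Matrix Filter Topology

namespace Vale.Agent.P146.Sk.Pw

open Vale.Agent.P157.Lv Vale.Agent.P146.Sk

/-- The spreading and the divergence of the variance from the pressure differences. -/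
theorem spread_of_diff {β : ℝ} (hβ : 0 ≤ β) (hG : ∀ κ, GradB β κ)
    (hd : ∀ κ : ℕ, 2 ≤ κ → ∀ ε : ℝ, 0 < ε → ∃ b ∈ Set.Ioc (0 : ℝ) 1, ∀ᶠ N : ℕ in atTop,
      b / 2 * (1 - ε) ≤ pN β N - pb β b κ N) :
    (∀ K : ℝ, Tendsto (fun n : ℕ => ⨆ a : ℝ, (disorder n).real
      {g | |freeEnergy n β g - a| ≤ K}) atTop (𝓝 0)) ∧
    Tendsto (fun n : ℕ => Var[freeEnergy n β; disorder n]) atTop atTop := by
  have h1 : ∀ κ : ℕ, 2 ≤ κ → Tendsto (fun N : ℕ => ∫ g : Ix N → ℝ,
      max (1 - Vr.ck β κ g) 0 ∂(gI (Ix N))) atTop (𝓝 0) :=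
    fun κ hκ => ck_lower hβ (hG κ) (hd κ hκ)
  refine ⟨fun K => Vr.spread_iSup hβ h1 K, Vr.var_tendsto hβ one_pos fun p hp ε hε => ?_⟩
  filter_upwards [(h1 p hp).eventually (gt_mem_nhds hε)] with N hN
  have h2 : Vr.corr β p N = ∫ z, Vr.ck β p z ∂(gI (Ix N)) := by
    unfold Vr.corr Vr.ck
    rw [integral_const_mul]
  have h3 : ∫ z : Ix N → ℝ, (1 - Vr.ck β p z) ∂(gI (Ix N)) ≤
      ∫ z : Ix N → ℝ, max (1 - Vr.ck β p z) 0 ∂(gI (Ix N)) :=
    integral_mono ((EG.const 1).sub (Vr.eg_ck β p)).integrable (Vr.eg_max β p).integrable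
      fun z => le_max_left _ _
  rw [integral_sub (integrable_const _) (Vr.eg_ck β p).integrable, integral_const] at h3
  simp only [probReal_univ, one_smul] at h3
  rw [h2]
  linarith

end Vale.Agent.P146.Sk.Pw
end

section

/-!
The gradient bound of the energy with the cut-off quadratic form (input of `Pathw`).
-/

open MeasureTheory ProbabilityTheory Filter Topology

namespace Vale.Agent.P146.Sk

open Vale.Agent.P157.Par (Exponents)
open Vale.Agent.P157 (spin)
open Vale.Agent.P157.Lv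

lemma exponents_zero : Exponents 0 (fun l => (l : ℝ)) := by
  refine ⟨by simp, by simp, fun l hl => ?_⟩
  push_cast
  linarith

theorem gradB_of (β : ℝ) (κ : ℕ) : Pw.GradB β κ := by
  obtain ⟨C, hC, h⟩ := instP β κ
  refine ⟨β ^ 2 + 2 * C, by positivity, fun N hN b hb => ?_⟩
  obtain ⟨D, B, w, hD, hDB, hB, hBw, hw, hwC⟩ := h N 0 (fun l => (l : ℝ)) 1 b hN exponents_zero
    ⟨zero_le_one, le_refl _⟩ hb
  have hN' : (0 : ℝ) < N := by exact_mod_cast hN
  refine ⟨0, fun l => (l : ℝ), D, fun g => β ^ 2 + 2 * w g, hD,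
    (EG.const (β ^ 2)).add (hw.const_mul 2), fun g x => ?_, ?_⟩
  · have h1 : ∀ e : Ix N, D e g x ^ 2 ≤ 2 * (β ^ 2 * (1 / (2 * (N : ℝ)))) + 2 * B e g x ^ 2 := by
      intro e
      rw [hDB]
      have h2 : (spin x e.1 * spin x e.2 / √(2 * (N : ℝ))) ^ 2 = 1 / (2 * (N : ℝ)) := by
        rw [div_pow, Real.sq_sqrt (by positivity), mul_pow]
        have e1 : spin x e.1 ^ 2 = 1 := by cases x e.1 <;> simp [spin]
        have e2 : spin x e.2 ^ 2 = 1 := by cases x e.2 <;> simp [spin]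
        rw [e1, e2, one_mul]
      have h3 : (β * 1 * (spin x e.1 * spin x e.2 / √(2 * (N : ℝ)))) ^ 2 =
          β ^ 2 * (1 / (2 * (N : ℝ))) := by
        rw [mul_pow, h2]; ring
      linarith only [sq_nonneg (β * 1 * (spin x e.1 * spin x e.2 / √(2 * (N : ℝ))) - B e g x), h3]
    calc ∑ e, D e g x ^ 2 ≤ ∑ e : Ix N, (2 * (β ^ 2 * (1 / (2 * (N : ℝ)))) + 2 * B e g x ^ 2) :=
          Finset.sum_le_sum fun e _ => h1 e
      _ = (N : ℝ) * N * (2 * (β ^ 2 * (1 / (2 * (N : ℝ))))) + 2 * ∑ e, B e g x ^ 2 := by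
          rw [Finset.sum_add_distrib, Finset.sum_const, Finset.mul_sum, nsmul_eq_mul]
          congr 2
          simp [Ix, Fintype.card_prod]
      _ ≤ (N : ℝ) * N * (2 * (β ^ 2 * (1 / (2 * (N : ℝ))))) + 2 * (N * w g) := by
          have := hBw g x
          linarith only [this]
      _ = N * (β ^ 2 + 2 * w g) := by field_simp
  · rw [integral_add (integrable_const _) ((hw.const_mul 2).integrable), integral_const,
      integral_const_mul]
    simp only [probReal_univ, one_smul]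
    have h4 : b ^ 2 ≤ 1 := by have := hb.1; have := hb.2; nlinarith
    linarith only [mul_le_mul_of_nonneg_left h4 hC, hwC]

end Vale.Agent.P146.Sk
end

section

/-!
Monotonicity of the spin part of the Parisi functional of the cube in the path, up to the
linear term.
-/

open MeasureTheory ProbabilityTheory Filter Topology
open Vale.Agent.P157 Vale.Agent.P157.Par

namespace Vale.Agent.P146.Low

theorem spin_le_strict {k : ℕ} {m r r' : ℕ → ℝ} (hm : Exponents k m) (hr : SPath k r)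
    (hrp : Path k r) (hr' : Path k r') (hle : ∀ l ≤ k, r' l ≤ r l) :
    spinPart k m r' ≤ spinPart k m r +
      1 / 2 * ∑ l ∈ Finset.range (k + 1), (m (l + 1) - m l) * (r l - r' l) := by
  have h := spin_tangent hm hr hr'
  have h2 : -(1 / 2 * ∑ l ∈ Finset.range (k + 1), (m (l + 1) - m l) * spR k m r l *
      (r' l - r l)) ≤ 1 / 2 * ∑ l ∈ Finset.range (k + 1), (m (l + 1) - m l) * (r l - r' l) := by
    rw [← mul_neg, ← Finset.sum_neg_distrib]
    refine mul_le_mul_of_nonneg_left (Finset.sum_le_sum fun l hl => ?_) (by norm_num)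
    have hlk : l ≤ k := by
      have := Finset.mem_range.1 hl
      omega
    have a1 : 0 < m (l + 1) - m l := sub_pos.2 (hm.2.2 l hlk)
    have a2 := (spR_lt_one hm hrp hlk).le
    have a3 : 0 ≤ r l - r' l := sub_nonneg.2 (hle l hlk)
    have a4 : spR k m r l * (r l - r' l) ≤ 1 * (r l - r' l) := mul_le_mul_of_nonneg_right a2 a3
    have a5 := mul_le_mul_of_nonneg_left a4 a1.le
    have e1 : -((m (l + 1) - m l) * spR k m r l * (r' l - r l)) =
        (m (l + 1) - m l) * (spR k m r l * (r l - r' l)) := by ring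
    rw [e1]
    linarith only [a5]
  linarith

/-- For admissible paths `r' ≤ r` one has `Γ(r') ≤ Γ(r) + ½ ∑ p_l (r_l - r'_l)`. -/
theorem spin_le {k : ℕ} {m r r' : ℕ → ℝ} (hm : Exponents k m) (hr : Path k r)
    (hr' : Path k r') (hle : ∀ l ≤ k, r' l ≤ r l) :
    spinPart k m r' ≤ spinPart k m r +
      1 / 2 * ∑ l ∈ Finset.range (k + 1), (m (l + 1) - m l) * (r l - r' l) := by
  have hmono : ∀ s : ℝ, s < 1 →
      SPath k (fun l => (r l + ((l : ℝ) + 1)) + s * (-((l : ℝ) + 1))) := by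
    intro s hs
    refine ⟨?_, fun l hl => ?_⟩
    · have := hr.1
      push_cast
      linarith
    · have h1 := hr.2 l hl
      push_cast
      linarith only [h1, hs]
  have hpath : ∀ s : ℝ, s < 1 →
      Path k (fun l => (r l + ((l : ℝ) + 1)) + s * (-((l : ℝ) + 1))) := by
    intro s hs
    exact ⟨(hmono s hs).1.le, fun l hl => ((hmono s hs).2 l hl).le⟩
  have hone : (fun l => (r l + ((l : ℝ) + 1)) + 1 * (-((l : ℝ) + 1))) = r := by
    funext l
    ring
  have hd := spin_deriv (r := fun l => r l + ((l : ℝ) + 1)) (η := fun l => -((l : ℝ) + 1)) hm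
    one_pos (fun s hs => hmono s hs.2) (by rw [hone]; exact hr)
  have hc := hd.1 1 (Set.right_mem_Icc.2 zero_le_one)
  set g : ℝ → ℝ := fun s => spinPart k m (fun l => (r l + ((l : ℝ) + 1)) + s * (-((l : ℝ) + 1)))
  have hc2 : Tendsto g (𝓝[<] 1) (𝓝 (g 1)) := by
    rw [← nhdsWithin_Ioo_eq_nhdsLT (zero_lt_one' ℝ)]
    exact hc.tendsto.mono_left (nhdsWithin_mono _ Set.Ioo_subset_Icc_self)
  have hc3 : Tendsto (fun s : ℝ => g s + 1 / 2 * ∑ l ∈ Finset.range (k + 1),
      (m (l + 1) - m l) * ((r l + ((l : ℝ) + 1)) + s * (-((l : ℝ) + 1)) - r' l)) (𝓝[<] 1)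
      (𝓝 (g 1 + 1 / 2 * ∑ l ∈ Finset.range (k + 1),
      (m (l + 1) - m l) * ((r l + ((l : ℝ) + 1)) + 1 * (-((l : ℝ) + 1)) - r' l))) := by
    refine hc2.add (Tendsto.const_mul _ (tendsto_finsetSum _ fun l _ => ?_))
    refine Tendsto.const_mul _ (Tendsto.sub_const (Tendsto.const_add _ ?_) _)
    exact (tendsto_nhdsWithin_of_tendsto_nhds tendsto_id).mul_const _
  have hev : ∀ᶠ s : ℝ in 𝓝[<] 1, spinPart k m r' ≤ g s + 1 / 2 * ∑ l ∈ Finset.range (k + 1),
      (m (l + 1) - m l) * ((r l + ((l : ℝ) + 1)) + s * (-((l : ℝ) + 1)) - r' l) := by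
    filter_upwards [self_mem_nhdsWithin] with s hs
    refine spin_le_strict hm (hmono s hs) (hpath s hs) hr' fun l hl => ?_
    have h1 := hle l hl
    have h2 : (0 : ℝ) ≤ (l : ℝ) + 1 := by positivity
    have hs' : s < 1 := hs
    linarith only [mul_nonneg (sub_nonneg.2 h2) (le_of_lt (sub_pos.2 hs')), hs', h1]
  have := ge_of_tendsto hc3 hev
  have e1 : g 1 = spinPart k m r := by
    show spinPart k m (fun l => (r l + ((l : ℝ) + 1)) + 1 * (-((l : ℝ) + 1))) = _
    rw [hone]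
  rw [e1] at this
  refine this.trans (le_of_eq ?_)
  congr 2
  refine Finset.sum_congr rfl fun l _ => ?_
  ring

end Vale.Agent.P146.Low
end
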