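import Vale.Agent.P146.Bdl.B23
import Vale.Agent.P146.Bdl.B9
import Vale.Agent.P146.Bdl.B19
import Vale.Agent.P146.Bdl.B20

set_option linter.all false

section

/-!
UP, part 2: the main inequality.
-/

open MeasureTheory ProbabilityTheory Matrix Filter Topology
open scoped Matrix.Norms.L2Operator

namespace Vale.Agent.P146.Sk

open Vale.Agent.P157 (spin)
open Vale.Agent.P157.Lv
open Vale.Agent.P157.Par (Path Exponents topN lw spinPart)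
open Gen (GI gz gl r0 gS gF gOb gIsOpt GD gV)

variable {N K : ℕ}

/-- Summation of small increments. -/
lemma real_chain {A B : ℝ} {V : ℝ → ℝ}
    (h : ∀ a a', 0 ≤ a → a ≤ a' → a' ≤ 1 → V a' - V a ≤ (a' - a) * (A * a' + B)) {a : ℝ}
    (ha0 : 0 ≤ a) (ha1 : a ≤ 1) : V a - V 0 ≤ A * a ^ 2 / 2 + B * a := by
  have h1 : ∀ n : ℕ, 0 < n →
      V a - V 0 ≤ A * a ^ 2 / 2 + B * a + A * a ^ 2 / 2 * (1 / n) := by
    intro n hn
    have hn' : (0 : ℝ) < n := by exact_mod_cast hn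
    have h2 : V a - V 0 = ∑ j ∈ Finset.range n,
        (V (a * ((j + 1 : ℕ) : ℝ) / n) - V (a * (j : ℝ) / n)) := by
      rw [Finset.sum_range_sub (fun j : ℕ => V (a * (j : ℝ) / n))]
      simp only [Nat.cast_zero, mul_zero, zero_div]
      rw [mul_div_cancel_right₀ a hn'.ne']
    have h3 : ∀ j ∈ Finset.range n, V (a * ((j + 1 : ℕ) : ℝ) / n) - V (a * (j : ℝ) / n) ≤
        a / n * (A * (a * ((j : ℝ) + 1) / n) + B) := by
      intro j hj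
      have hj' : (j : ℝ) + 1 ≤ n := by exact_mod_cast Finset.mem_range.1 hj
      have h4 := h (a * (j : ℝ) / n) (a * ((j + 1 : ℕ) : ℝ) / n) (by positivity)
        (by push_cast; gcongr; linarith) (by
          push_cast
          rw [div_le_one hn']
          nlinarith)
      refine h4.trans (le_of_eq ?_)
      push_cast
      field_simp
      ring
    rw [h2]
    refine (Finset.sum_le_sum h3).trans (le_of_eq ?_)
    rw [← Finset.mul_sum, Finset.sum_add_distrib, Finset.sum_const, Finset.card_range,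
      nsmul_eq_mul]
    have h5 : ∑ j ∈ Finset.range n, A * (a * ((j : ℝ) + 1) / n) =
        A * a / n * (n * (n + 1) / 2) := by
      have h6 : ∀ n : ℕ, ∑ j ∈ Finset.range n, ((j : ℝ) + 1) = (n : ℝ) * (n + 1) / 2 := by
        intro n
        induction n with
        | zero => simp
        | succ n ih => rw [Finset.sum_range_succ, ih]; push_cast; ring
      rw [← h6, Finset.mul_sum]
      refine Finset.sum_congr rfl fun j _ => ?_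
      ring
    rw [h5]
    field_simp
    ring
  have h7 : Tendsto (fun n : ℕ => A * a ^ 2 / 2 + B * a + A * a ^ 2 / 2 * (1 / (n : ℝ))) atTop
      (𝓝 (A * a ^ 2 / 2 + B * a + A * a ^ 2 / 2 * 0)) :=
    tendsto_const_nhds.add (tendsto_const_nhds.mul tendsto_one_div_atTop_nhds_zero_nat)
  rw [mul_zero, add_zero] at h7
  refine ge_of_tendsto h7 ?_
  filter_upwards [eventually_gt_atTop 0] with n hn
  exact h1 n hn

/-- U6: everything at one point `(a, b)`. -/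
theorem opt_point {β : ℝ} (hβ : 0 ≤ β) {κ : ℕ} (hκ : 1 ≤ κ) : ∃ C : ℝ, 0 ≤ C ∧
    ∀ (K : ℕ) (m q : ℕ → ℝ)
    (P δ η ε : ℝ), Exponents K m → (∀ l ≤ K, m (l + 1) - m l ≤ δ) → Path K q → q K ≤ 1 →
    GoodPath β K m q P → 0 < η → η ≤ 1 → 0 < ε →
    ∃ N₀ : ℕ, ∀ N : ℕ, N₀ ≤ N → 0 < N → ∀ a ∈ Set.Icc (0 : ℝ) 1, ∀ b ∈ Set.Icc (0 : ℝ) 1,
      ∃ (s R : ℕ → ℝ), gIsOpt K m q η (Esk N β a b κ) (spin (N := N)) s ∧
        (∀ j ≤ K, -η ≤ ∑ l ∈ Finset.Ico j (K + 1), (m (l + 1) - m l) * (R l - q l)) ∧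
        Path K R ∧ R K ≤ 1 ∧
        |Td (skf N K m β a b κ s) 1 - β * a * trp K m R 2| ≤ C * (√δ + b + ε) ∧
        |Td (skf N K m β a b κ s) κ - (β * a) ^ κ * trp K m R (κ + 1)| ≤
          C * (√δ + b + ε) := by
  obtain ⟨C, hC0, θ, hθ, hC⟩ := exists_val β hβ κ
  refine ⟨3 * C, by positivity, fun K m q P δ η ε hm' hδ hq hq1 hg hη hη1 hε => ?_⟩
  obtain ⟨N₀, hN₀⟩ := opt_main β κ hm' hq hq1 hg hδ hη hη1 (ε := ε ^ 2) (by positivity)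
  obtain ⟨N₁, hN₁⟩ := (hθ.eventually (eventually_le_nhds hε)).exists_forall_of_atTop
  have hδ0 : 0 ≤ δ := by
    have := hδ 0 (Nat.zero_le K)
    have h2 := hm'.2.2 0 (Nat.zero_le K)
    linarith
  refine ⟨max N₀ N₁, fun N hN hN0 a ha b hb => ?_⟩
  obtain ⟨s, hs, ht, hd, hp, hR1⟩ := hN₀ N ((le_max_left _ _).trans hN) hN0 a ha b hb
  refine ⟨s, fun l => (skf N K m β a b κ s).Rl spin l, hs, ht, hp, hR1, ?_⟩
  have h1 : √(∑ l ∈ Finset.range (K + 1), (m (l + 1) - m l) * dev2 (skf N K m β a b κ s) l) ≤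
      3 * √δ + ε := by
    refine Real.sqrt_le_iff.2 ⟨by positivity, hd.trans ?_⟩
    have h2 : (3 * √δ + ε) ^ 2 = 9 * (√δ) ^ 2 + 6 * √δ * ε + ε ^ 2 := by ring
    rw [h2, Real.sq_sqrt hδ0]
    have : 0 ≤ 6 * √δ * ε := by positivity
    linarith
  have h3 : θ N ≤ ε := hN₁ N ((le_max_right _ _).trans hN)
  have hs0 : ∀ l ≤ K, 0 ≤ s l := fun l hl => (hs.pos l hl).le
  have key : ∀ p ≤ κ, |Td (skf N K m β a b κ s) p -
      (β * a) ^ p * trp K m (fun l => (skf N K m β a b κ s).Rl spin l) (p + 1)| ≤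
      3 * C * (√δ + b + ε) := by
    intro p hp
    refine (hC N K m a b s hN0 hm' ha hb hs0 p hp).trans ?_
    have hs' : 0 ≤ √δ := Real.sqrt_nonneg _
    have hb0 := hb.1
    calc _ ≤ C * ((3 * √δ + ε) + b + ε) := by gcongr
      _ ≤ C * (3 * (√δ + b + ε)) := by gcongr; linarith only [hb0, hε]
      _ = _ := by ring
  refine ⟨?_, key κ le_rfl⟩
  have := key 1 hκ
  simpa using this

/-- The value function. -/
noncomputable def Vv (N K : ℕ) (m q : ℕ → ℝ) (η β : ℝ) (κ : ℕ) (a b : ℝ) : ℝ :=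
  gV K m q η (Esk N β a b κ) (spin (N := N))

/-- The data at a point. -/
def PtOK (N K : ℕ) (m q : ℕ → ℝ) (η β : ℝ) (κ : ℕ) (C w a b : ℝ) (s R : ℕ → ℝ) : Prop :=
  gIsOpt K m q η (Esk N β a b κ) (spin (N := N)) s ∧
    (∀ j ≤ K, -η ≤ ∑ l ∈ Finset.Ico j (K + 1), (m (l + 1) - m l) * (R l - q l)) ∧
    Path K R ∧ R K ≤ 1 ∧
    |Td (skf N K m β a b κ s) 1 - β * a * trp K m R 2| ≤ C * (w + b) ∧
    |Td (skf N K m β a b κ s) κ - (β * a) ^ κ * trp K m R (κ + 1)| ≤ C * (w + b)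

lemma tan_V (hN : 0 < N) {m q : ℕ → ℝ} (hm' : Exponents K m) {η β : ℝ} {κ : ℕ}
    {a b a' b' : ℝ} {s s' : ℕ → ℝ} (hs : gIsOpt K m q η (Esk N β a b κ) (spin (N := N)) s)
    (hs' : gIsOpt K m q η (Esk N β a' b' κ) (spin (N := N)) s') :
    Vv N K m q η β κ a' b' - Vv N K m q η β κ a b ≤
      β / 2 * ((a' - a) * Td (skf N K m β a' b' κ s') 1 -
        (b' - b) * Tc (skf N K m β a' b' κ s') κ) := by
  have e1 := hs.max s' hs'.pos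
  have e2 := tangent_ab hN hm' β κ a' b' a b s'
  unfold Vv
  rw [hs.gV_eq, hs'.gV_eq]
  unfold gOb at e1 ⊢
  linarith only [e2, e1]

lemma chain_V (hN : 0 < N) {m q : ℕ → ℝ} (hm' : Exponents K m) (hq : Path K q) (hq1 : q K ≤ 1)
    {η β : ℝ} (hβ : 0 < β) (hη : 0 ≤ η) {κ : ℕ} {C w b : ℝ}
    (pt : ∀ a ∈ Set.Icc (0 : ℝ) 1, ∃ s R, PtOK N K m q η β κ C w a b s R) {a : ℝ}
    (ha : a ∈ Set.Icc (0 : ℝ) 1) :
    Vv N K m q η β κ a b - Vv N K m q η β κ 0 b ≤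
      β ^ 2 / 2 * (trp K m q 2 + 2 * η) * a ^ 2 / 2 + β / 2 * (C * (w + b)) * a := by
  refine real_chain (A := β ^ 2 / 2 * (trp K m q 2 + 2 * η)) (B := β / 2 * (C * (w + b)))
      (V := fun a => Vv N K m q η β κ a b) (fun a a' ha0 haa ha1 => ?_) ha.1 ha.2
  obtain ⟨s, R, hs, -⟩ := pt a ⟨ha0, haa.trans ha1⟩
  obtain ⟨s', R', hs', htl, hpR, hR1, hv1, -⟩ := pt a' ⟨ha0.trans haa, ha1⟩
  have e2 := tan_V hN hm' hs hs'
  have e3 := schur_two hm' hq hq1 hpR hR1 hη htl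
  have e4 := (abs_le.1 hv1).2
  have ha'0 : 0 ≤ a' := ha0.trans haa
  have e5 : β * a' * trp K m R' 2 ≤ β * a' * (trp K m q 2 + 2 * η) :=
    mul_le_mul_of_nonneg_left e3 (mul_nonneg hβ.le ha'0)
  have e6 : Td (skf N K m β a' b κ s') 1 ≤
      β * a' * (trp K m q 2 + 2 * η) + C * (w + b) := by linarith only [e5, e4]
  have e7 : (a' - a) * Td (skf N K m β a' b κ s') 1 ≤
      (a' - a) * (β * a' * (trp K m q 2 + 2 * η) + C * (w + b)) :=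
    mul_le_mul_of_nonneg_left e6 (by linarith)
  have e8 : β / 2 * ((a' - a) * Td (skf N K m β a' b κ s') 1) ≤
      β / 2 * ((a' - a) * (β * a' * (trp K m q 2 + 2 * η) + C * (w + b))) :=
    mul_le_mul_of_nonneg_left e7 (by positivity)
  have e9 : β / 2 * ((a' - a) * (β * a' * (trp K m q 2 + 2 * η) + C * (w + b))) =
      (a' - a) * (β ^ 2 / 2 * (trp K m q 2 + 2 * η) * a' + β / 2 * (C * (w + b))) := by
    ring
  rw [e9] at e8
  rw [sub_self, zero_mul, sub_zero] at e2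
  exact e2.trans e8

lemma V0b_le (hN : 0 < N) {m q : ℕ → ℝ} (hm' : Exponents K m) (hq : Path K q) (hq1 : q K ≤ 1)
    {η β P : ℝ} (hβ : 0 < β) (hη : 0 ≤ η) {κ : ℕ} (hg : GoodPath β K m q P) {C₃ b : ℝ}
    (hb : 0 ≤ b)
    (h3 : ∀ (N K : ℕ) (m : ℕ → ℝ) (β a b : ℝ) (s : ℕ → ℝ), 0 < N → Exponents K m →
      |Tc (skf N K m β a b κ s) κ| ≤ C₃)
    {s₀ s : ℕ → ℝ} (hs₀ : gIsOpt K m q η (Esk N β 0 0 κ) (spin (N := N)) s₀)
    (hs : gIsOpt K m q η (Esk N β 0 b κ) (spin (N := N)) s) :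
    Vv N K m q η β κ 0 b ≤ P - β ^ 2 / 4 * trp K m q 2 + β / 2 * (b * C₃) := by
  have e0 : Vv N K m q η β κ 0 0 ≤ P - β ^ 2 / 4 * trp K m q 2 := by
    unfold Vv
    rw [hs₀.gV_eq]
    exact gOb_zero_le hN hm' hq hq1 κ hg hη hs₀.pos
  have e1 := tan_V hN hm' hs₀ hs
  have e2 := (abs_le.1 (h3 N K m β 0 b s hN hm')).1
  rw [sub_self, zero_mul, zero_sub, sub_zero] at e1
  have e3 : β / 2 * -(b * Tc (skf N K m β 0 b κ s) κ) ≤ β / 2 * (b * C₃) := by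
    refine mul_le_mul_of_nonneg_left ?_ (by positivity)
    have : b * -C₃ ≤ b * Tc (skf N K m β 0 b κ s) κ := mul_le_mul_of_nonneg_left e2 hb
    linarith only [this]
  linarith only [e3, e1, e0]

/-- The bound of the value function at `(a, b)`. -/
lemma Vab_le (hN : 0 < N) {m q : ℕ → ℝ} (hm' : Exponents K m) (hq : Path K q) (hq1 : q K ≤ 1)
    {η β P : ℝ} (hβ : 0 < β) (hη : 0 ≤ η) {κ : ℕ} (hg : GoodPath β K m q P) {C C₃ w b : ℝ}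
    (hC : 0 ≤ C) (hw : 0 ≤ w) (hb : b ∈ Set.Icc (0 : ℝ) 1)
    (h3 : ∀ (N K : ℕ) (m : ℕ → ℝ) (β a b : ℝ) (s : ℕ → ℝ), 0 < N → Exponents K m →
      |Tc (skf N K m β a b κ s) κ| ≤ C₃)
    (pt : ∀ a ∈ Set.Icc (0 : ℝ) 1, ∀ b ∈ Set.Icc (0 : ℝ) 1,
      ∃ s R, PtOK N K m q η β κ C w a b s R) {a : ℝ} (ha : a ∈ Set.Icc (0 : ℝ) 1) :
    Vv N K m q η β κ a b ≤ P - β ^ 2 / 4 * trp K m q 2 * (1 - a ^ 2) + β ^ 2 / 2 * η +
      β / 2 * (b * C₃) + β / 2 * (C * (w + b)) := by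
  have h01 : (0 : ℝ) ∈ Set.Icc (0 : ℝ) 1 := ⟨le_rfl, zero_le_one⟩
  obtain ⟨s₀, -, hs₀, -⟩ := pt 0 h01 0 h01
  obtain ⟨s, -, hs, -⟩ := pt 0 h01 b hb
  have e1 := V0b_le hN hm' hq hq1 hβ hη hg hb.1 h3 hs₀ hs
  have e2 := chain_V hN hm' hq hq1 hβ hη (fun a ha => pt a ha b hb) ha
  have hb0 := hb.1
  have e3 : β / 2 * (C * (w + b)) * a ≤ β / 2 * (C * (w + b)) * 1 :=
    mul_le_mul_of_nonneg_left ha.2 (by (clear * - hβ hC hw hb0; positivity))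
  have h9 : a ^ 2 ≤ 1 := pow_le_one₀ ha.1 ha.2
  have h10 : β ^ 2 / 2 * η * a ^ 2 ≤ β ^ 2 / 2 * η * 1 :=
    mul_le_mul_of_nonneg_left h9 (by positivity)
  have e4 : β ^ 2 / 2 * (trp K m q 2 + 2 * η) * a ^ 2 / 2 =
      β ^ 2 / 4 * trp K m q 2 * a ^ 2 + β ^ 2 / 2 * η * a ^ 2 := by ring
  have e5 : β ^ 2 / 4 * trp K m q 2 * (1 - a ^ 2) =
      β ^ 2 / 4 * trp K m q 2 - β ^ 2 / 4 * trp K m q 2 * a ^ 2 := by ring
  rw [e4] at e2
  rw [e5]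
  linarith only [h10, e3, e2, e1]

/-- The parameters of the barrier. -/
lemma exists_barrier (K : ℕ) {ρ : ℝ} (hρ : 0 < ρ) (hρ1 : ρ ≤ 1) : ∃ t η : ℝ, 0 < t ∧
    2 * (K + 1) * t ^ 2 ≤ ρ ∧ η = t ^ 3 ∧ 0 < η ∧ η ≤ 1 ∧ η ≤ ρ := by
  have hK : (0 : ℝ) < 2 * (K + 1) := by positivity
  have hK1 : (1 : ℝ) ≤ 2 * (K + 1) := by
    have : (0 : ℝ) ≤ K := Nat.cast_nonneg K
    linarith
  obtain ⟨t, ht⟩ : ∃ t : ℝ, t = ρ / (2 * (K + 1)) := ⟨_, rfl⟩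
  have ht0 : 0 < t := by rw [ht]; positivity
  have ht1 : t ≤ 1 := by
    rw [ht, div_le_one hK]
    linarith
  have htρ : t ≤ ρ := by
    rw [ht, div_le_iff₀ hK]
    calc ρ = ρ * 1 := (mul_one ρ).symm
      _ ≤ ρ * (2 * (K + 1)) := mul_le_mul_of_nonneg_left hK1 hρ.le
  have ht3 : t ^ 3 ≤ t := by
    calc t ^ 3 = t * t ^ 2 := by ring
      _ ≤ t * 1 := mul_le_mul_of_nonneg_left (pow_le_one₀ ht0.le ht1) ht0.le
      _ = t := mul_one t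
  refine ⟨t, t ^ 3, ht0, ?_, rfl, by positivity, ht3.trans ht1, ht3.trans htρ⟩
  have e : 2 * ((K : ℝ) + 1) * t ^ 2 = (2 * (K + 1) * t) * t := by ring
  have e2 : 2 * ((K : ℝ) + 1) * t = ρ := by rw [ht]; field_simp
  rw [e, e2]
  calc ρ * t ≤ ρ * 1 := mul_le_mul_of_nonneg_left ht1 hρ.le
    _ = ρ := mul_one ρ

/-- The main inequality at a fixed `N`. -/
lemma main_N (hN : 0 < N) {m q : ℕ → ℝ} (hm' : Exponents K m) (hq : Path K q) (hq1 : q K ≤ 1)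
    {η β P : ℝ} (hβ : 0 < β) {κ : ℕ} (hκ : 1 ≤ κ) (hg : GoodPath β K m q P)
    {C₁ C₂ C₃ sd b ε₀ ρ t r : ℝ} (hC₁ : 0 ≤ C₁) (hC₃ : 0 ≤ C₃)
    (h2 : ∀ (N K : ℕ) (m : ℕ → ℝ) (β a b : ℝ) (s : ℕ → ℝ), 0 < N → Exponents K m →
      |Tc (skf N K m β a b κ s) κ - Td (skf N K m β a b κ s) κ| ≤ C₂ / √N)
    (h3 : ∀ (N K : ℕ) (m : ℕ → ℝ) (β a b : ℝ) (s : ℕ → ℝ), 0 < N → Exponents K m →
      |Tc (skf N K m β a b κ s) κ| ≤ C₃)
    (pt : ∀ a ∈ Set.Icc (0 : ℝ) 1, ∀ b ∈ Set.Icc (0 : ℝ) 1,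
      ∃ s R, PtOK N K m q η β κ C₁ (sd + ρ) a b s R)
    (hsd : 0 ≤ sd) (hsd1 : sd ≤ 1) (hb : 0 < b) (hb1 : b ≤ 1) (hε₀ : 0 ≤ ε₀) (hε₀1 : ε₀ ≤ 1)
    (hρ : 0 < ρ) (hρ1 : ρ ≤ 1) (ht0 : 0 < t) (ht2 : 2 * (K + 1) * t ^ 2 ≤ ρ) (hη : η = t ^ 3)
    (hη0 : 0 < η) (hη1 : η ≤ 1) (hηρ : η ≤ ρ) (hr0 : 0 < r) (hr : r ^ 2 = b + sd + ε₀ + ρ)
    (hP : P ≤ pN β N + ε₀) (hsN : β * C₂ * (1 / √(N : ℝ)) ≤ ρ) :
    b / 2 * (β ^ (κ + 1) * trp K m q (κ + 1) -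
      (β * (β ^ κ * (((κ : ℝ) + 1) * κ / 2 * ((β / 4 + 4 * (2 + β * C₃ + β ^ 2 + β * C₁) / β +
        2 * C₁) / β) + 4 * (((κ : ℝ) + 1) * κ)) + 2 * C₁)) * r -
      (2 * (1 + β ^ 2 + β * C₁) + 1) * (sd + ε₀ + ρ) / b) ≤
      pN β N - gF K m (Esk N β 1 b κ) (spin (N := N)) (fun _ => 0) := by
  have h01 : (0 : ℝ) ∈ Set.Icc (0 : ℝ) 1 := ⟨le_rfl, zero_le_one⟩
  have h11 : (1 : ℝ) ∈ Set.Icc (0 : ℝ) 1 := ⟨zero_le_one, le_rfl⟩
  have hbI : b ∈ Set.Icc (0 : ℝ) 1 := ⟨hb.le, hb1⟩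
  have hr2 : r ≤ 2 := by
    have : r ^ 2 ≤ 2 ^ 2 := by rw [hr]; linarith only [hρ1, hε₀1, hb1, hsd1]
    exact (sq_le_sq₀ hr0.le (by norm_num)).1 this
  have haI : 1 - r / 2 ∈ Set.Icc (0 : ℝ) 1 := ⟨by linarith only [hr2], by linarith⟩
  obtain ⟨s, R, hs, htl, hpR, hR1, hv1, hvκ⟩ := pt 1 h11 b hbI
  obtain ⟨s₁, -, hs₁, -⟩ := pt (1 - r / 2) haI b hbI
  obtain ⟨s₂, -, hs₂, -⟩ := pt 1 h11 0 h01
  obtain ⟨D, hD⟩ := exists_gd β κ N K m hN hm' 1 b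
  have hgV := hs.gF_zero_le_gV hD hq ht0 hη hη1
  have hw : 0 ≤ sd + ρ := by linarith
  have e0 := Vab_le hN hm' hq hq1 hβ hη0.le hg hC₁ hw h01 h3 pt h11
  have e1 := Vab_le hN hm' hq hq1 hβ hη0.le hg hC₁ hw hbI h3 pt haI
  have e2 := tan_V hN hm' hs₁ hs
  have e3 := tan_V hN hm' hs₂ hs
  have e4 := tangent_ab hN hm' β κ 1 0 1 b (fun _ => 0)
  rw [gF_eq_pN β κ hN hm'] at e4
  have e5 := (abs_le.1 (h3 N K m β 1 0 (fun _ => 0) hN hm')).2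
  have e6 := (abs_le.1 (h2 N K m β 1 b s hN hm')).1
  have e7 := schur_k hm' hq hq1 hpR hR1 hη0.le htl (k := κ + 1) (by omega)
  have q2 : trp K m q 2 ≤ 1 := trp_le_one hm' hq hq1 2
  have g1 : pN β N - β / 2 * b * C₃ ≤
      gF K m (Esk N β 1 b κ) (spin (N := N)) (fun _ => 0) := by
    have f1 : β / 2 * (b * Tc (skf N K m β 1 0 κ (fun _ => 0)) κ) ≤ β / 2 * (b * C₃) :=
      mul_le_mul_of_nonneg_left (mul_le_mul_of_nonneg_left e5 hb.le) (by positivity)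
    rw [sub_self, zero_mul, zero_sub, sub_zero] at e4
    linarith only [f1, e4]
  have g2 : gF K m (Esk N β 1 b κ) (spin (N := N)) (fun _ => 0) - ρ ≤
      Vv N K m q η β κ 1 b := by
    unfold Vv
    linarith only [hgV, ht2]
  have g3 : Vv N K m q η β κ 1 0 ≤ P + (β ^ 2 / 2 * η + β / 2 * (C₁ * (sd + ρ))) := by
    rw [one_pow, sub_self, mul_zero, zero_mul, mul_zero, add_zero, sub_zero, add_zero] at e0
    linarith only [e0]
  have g4 : Vv N K m q η β κ (1 - r / 2) b ≤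
      P - β ^ 2 / 4 * trp K m q 2 * (1 - (1 - r / 2) ^ 2) + β ^ 2 / 2 * η + β / 2 * (b * C₃) +
      β / 2 * (C₁ * (sd + b + ρ)) := by
    have : sd + b + ρ = sd + ρ + b := by ring
    rw [this]
    exact e1
  have g5 : Vv N K m q η β κ 1 b - Vv N K m q η β κ (1 - r / 2) b ≤
      r / 2 * (β / 2 * Td (skf N K m β 1 b κ s) 1) := by
    rw [sub_self, zero_mul, sub_zero, sub_sub_cancel] at e2
    linarith only [e2]
  have g6 : Vv N K m q η β κ 1 b ≤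
      Vv N K m q η β κ 1 0 - β / 2 * b * Tc (skf N K m β 1 b κ s) κ := by
    rw [sub_self, zero_mul, zero_sub, sub_zero] at e3
    linarith only [e3]
  have g7 : Td (skf N K m β 1 b κ s) κ - C₂ * (1 / √(N : ℝ)) ≤
      Tc (skf N K m β 1 b κ s) κ := by
    rw [mul_one_div]
    linarith only [e6]
  have g8 : Td (skf N K m β 1 b κ s) 1 ≤ β * trp K m R 2 + C₁ * (sd + b + ρ) := by
    have := (abs_le.1 hv1).2
    rw [mul_one, add_right_comm] at this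
    linarith only [this]
  have g9 : β ^ κ * trp K m R (κ + 1) - C₁ * (sd + b + ρ) ≤ Td (skf N K m β 1 b κ s) κ := by
    have := (abs_le.1 hvκ).1
    rw [mul_one, add_right_comm] at this
    linarith only [this]
  have g10 : trp K m q (κ + 1) - ((κ : ℝ) + 1) * κ / 2 * (trp K m q 2 - trp K m R 2) -
      ((κ : ℝ) + 1) * κ * η ≤ trp K m R (κ + 1) := by
    rw [Nat.cast_add_one, add_sub_cancel_right] at e7
    exact e7
  exact real_main hβ hC₁ hC₃ hsd hb hb1 hε₀ hρ hηρ hr0 hr2 hr q2 hP g1 g2 g3 g4 g5 g6 g7 g8 g9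
    g10 hsN

/-- **The main inequality**, for the difference of the pressures. -/
theorem main_diff {β : ℝ} (hβ : 0 < β) {κ : ℕ} (hκ : 1 ≤ κ) : ∃ C : ℝ, 0 ≤ C ∧
    ∀ (K : ℕ) (m q : ℕ → ℝ) (P δ ε₀ b ρ : ℝ), Exponents K m → (∀ l ≤ K, m (l + 1) - m l ≤ δ) →
      Path K q → q K ≤ 1 → GoodPath β K m q P → 0 ≤ δ → δ ≤ 1 → 0 < b → b ≤ 1 → 0 ≤ ε₀ →
      ε₀ ≤ 1 → 0 < ρ → ρ ≤ 1 → (∀ᶠ N : ℕ in atTop, P ≤ pN β N + ε₀) →
      ∀ᶠ N : ℕ in atTop, b / 2 * (β ^ (κ + 1) * trp K m q (κ + 1) -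
        C * √(b + √δ + ε₀ + ρ) - C * (√δ + ε₀ + ρ) / b) ≤
        pN β N - gF K m (Esk N β 1 b κ) (spin (N := N)) (fun _ => 0) := by
  obtain ⟨C₁, hC₁, h1⟩ := opt_point hβ.le hκ
  obtain ⟨C₂, hC₂, h2⟩ := exists_Tc_sub_le κ
  obtain ⟨C₃, hC₃, h3⟩ := exists_Tc_le κ
  obtain ⟨Ca, hCa⟩ : ∃ Ca : ℝ, Ca = β * (β ^ κ * (((κ : ℝ) + 1) * κ / 2 * ((β / 4 +
    4 * (2 + β * C₃ + β ^ 2 + β * C₁) / β + 2 * C₁) / β) + 4 * (((κ : ℝ) + 1) * κ)) + 2 * C₁) :=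
    ⟨_, rfl⟩
  obtain ⟨Cb, hCb⟩ : ∃ Cb : ℝ, Cb = 2 * (1 + β ^ 2 + β * C₁) + 1 := ⟨_, rfl⟩
  have hCa0 : 0 ≤ Ca := by rw [hCa]; positivity
  have hCb0 : 0 ≤ Cb := by rw [hCb]; positivity
  refine ⟨Ca + Cb, by positivity, fun K m q P δ ε₀ b ρ hm' hδ hq hq1 hg hδ0 hδ1 hb hb1 hε₀ hε₀1
    hρ hρ1 hpN => ?_⟩
  obtain ⟨t, η, ht0, ht2, hη, hη0, hη1, hηρ⟩ := exists_barrier K hρ hρ1
  obtain ⟨N₀, hN₀⟩ := h1 K m q P δ η ρ hm' hδ hq hq1 hg hη0 hη1 hρ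
  have hsq : Tendsto (fun N : ℕ => β * C₂ * (1 / √(N : ℝ))) atTop (𝓝 0) := by
    have h6 : Tendsto (fun N : ℕ => √(N : ℝ)) atTop atTop :=
      Real.tendsto_sqrt_atTop.comp tendsto_natCast_atTop_atTop
    have h7 := (tendsto_const_nhds (x := β * C₂)).mul
      (tendsto_const_nhds (x := (1 : ℝ)) |>.div_atTop h6)
    simpa using h7
  have hsd : 0 ≤ √δ := Real.sqrt_nonneg _
  have hsd1 : √δ ≤ 1 := by
    rw [← Real.sqrt_one]
    exact Real.sqrt_le_sqrt hδ1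
  obtain ⟨r, hr⟩ : ∃ r, r = √(b + √δ + ε₀ + ρ) := ⟨_, rfl⟩
  have hr0 : 0 < r := by rw [hr]; exact Real.sqrt_pos.2 (by positivity)
  have hrsq : r ^ 2 = b + √δ + ε₀ + ρ := by rw [hr]; exact Real.sq_sqrt (by (clear * - hb hε₀ hρ; positivity))
  filter_upwards [hpN, eventually_ge_atTop N₀, eventually_gt_atTop 0,
    hsq.eventually (eventually_le_nhds hρ)] with N hP hN hN0 hsN
  have pt : ∀ a ∈ Set.Icc (0 : ℝ) 1, ∀ b ∈ Set.Icc (0 : ℝ) 1,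
      ∃ s R, PtOK N K m q η β κ C₁ (√δ + ρ) a b s R := by
    intro a ha b hb
    obtain ⟨s, R, hs⟩ := hN₀ N hN hN0 a ha b hb
    rw [add_right_comm] at hs
    exact ⟨s, R, hs⟩
  have key := main_N hN0 hm' hq hq1 hβ hκ hg hC₁ hC₃ h2 (fun N K m β a b s hN hm' =>
      (h3 N K m β a b s hN hm').1) pt hsd hsd1 hb hb1 hε₀ hε₀1 hρ hρ1 ht0 ht2 hη hη0 hη1 hηρ
    hr0 hrsq hP hsN
  rw [← hCa, ← hCb] at key
  refine le_trans (mul_le_mul_of_nonneg_left ?_ (by positivity)) key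
  have f1 : Ca * r ≤ (Ca + Cb) * √(b + √δ + ε₀ + ρ) := by
    rw [← hr]
    exact mul_le_mul_of_nonneg_right (by linarith only [hCb0]) hr0.le
  have f2 : Cb * (√δ + ε₀ + ρ) / b ≤ (Ca + Cb) * (√δ + ε₀ + ρ) / b := by
    refine div_le_div_of_nonneg_right (mul_le_mul_of_nonneg_right (by linarith only [hCa0]) (by (clear * - hε₀ hρ; positivity)))
      hb.le
  linarith only [f2, f1]

end Vale.Agent.P146.Sk
end

section

/-!
FIN: the lower bound for the coefficients.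
-/

open MeasureTheory ProbabilityTheory Matrix Filter Topology

namespace Vale.Agent.P146.Sk

open Vale.Agent.P157.Par (Path Exponents spinPart)

/-- T1 (no gap): near-optimal paths with fine exponents with `β χ ≥ 1 - ε`. -/
def T1P (β : ℝ) : Prop := ∀ ε : ℝ, 0 < ε → ∀ (k : ℕ) (μ p : ℕ → ℝ), Exponents k μ → Path k p →
  p k ≤ 1 → ∃ (K : ℕ) (m q : ℕ → ℝ), Exponents K m ∧
  (∀ l ≤ K, m (l + 1) - m l ≤ ε) ∧ Path K q ∧ q K ≤ 1 ∧
  GoodPath β K m q (PSK β k μ p + ε) ∧ 1 - ε ≤ β * chi K m q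

/-- LOW: the lower bound of the Parisi formula for the SK model. -/
def LowP (β : ℝ) : Prop := ∀ ε : ℝ, 0 < ε → ∃ (K : ℕ) (m q : ℕ → ℝ), Exponents K m ∧
  Path K q ∧ q K ≤ 1 ∧ ∀ᶠ N : ℕ in atTop, PSK β K m q ≤ pN β N + ε

/-- The choice of the small parameter. -/
lemma exists_small (C : ℝ) (κ : ℕ) {ε : ℝ} (hε : 0 < ε) : ∃ b : ℝ, 0 < b ∧ b ≤ 1 / 2 ∧
    1 - ε ≤ (1 - b ^ 4) ^ (κ + 1) - C * √(b + b ^ 2 + 2 * b ^ 4 + b ^ 4) -
      C * (b + 2 * b ^ 3 + b ^ 3) := by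
  have h : Continuous fun b : ℝ => (1 - b ^ 4) ^ (κ + 1) -
      C * √(b + b ^ 2 + 2 * b ^ 4 + b ^ 4) - C * (b + 2 * b ^ 3 + b ^ 3) := by fun_prop
  have h1 := (h.tendsto 0).mono_left (nhdsWithin_le_nhds (s := Set.Ioi 0))
  have h2 : ((1 : ℝ) - 0 ^ 4) ^ (κ + 1) - C * √(0 + 0 ^ 2 + 2 * 0 ^ 4 + 0 ^ 4) -
      C * (0 + 2 * 0 ^ 3 + 0 ^ 3) = 1 := by norm_num
  rw [h2] at h1
  have h3 := h1.eventually (eventually_ge_nhds (show (1 : ℝ) - ε < 1 by linarith))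
  have h4 : ∀ᶠ b : ℝ in 𝓝[>] 0, b ≤ 1 / 2 :=
    (eventually_le_nhds (show (0 : ℝ) < 1 / 2 by norm_num)).filter_mono nhdsWithin_le_nhds
  obtain ⟨b, hb, hb2, hb0⟩ := (h3.and (h4.and self_mem_nhdsWithin)).exists
  exact ⟨b, hb0, hb2, hb⟩

/-- The differences of the pressures. -/
theorem diff_lower {β : ℝ} (hβ : 0 < β) (h1 : T1P β) (h2 : LowP β) {κ : ℕ} (hκ : 1 ≤ κ)
    {ε : ℝ} (hε : 0 < ε) : ∃ b ∈ Set.Ioc (0 : ℝ) 1, ∀ᶠ N : ℕ in atTop, b / 2 * (1 - ε) ≤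
      pN β N - 1 / N * ∫ g, Real.log (∑ x : Fin N → Bool, Real.exp (Esk N β 1 b κ g x))
        ∂(Vale.Agent.P157.Lv.gI (Ix N)) := by
  obtain ⟨C, hC0, hC⟩ := main_diff hβ hκ
  obtain ⟨b, hb0, hb1, hb⟩ := exists_small C κ hε
  have hb2 : b ≤ 1 := by linarith
  have hb40 : 0 < b ^ 4 := by positivity
  have hb41 : b ^ 4 ≤ 1 / 16 := by
    calc b ^ 4 ≤ (1 / 2) ^ 4 := pow_le_pow_left₀ hb0.le hb1 4
      _ = 1 / 16 := by norm_num
  obtain ⟨k, μ, p, hμ, hp, hp1, hlow⟩ := h2 (b ^ 4) hb40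
  obtain ⟨K, m, q, hm', hδ, hq, hq1, hg, hchi⟩ := h1 (b ^ 4) hb40 k μ p hμ hp hp1
  have hsq : √(b ^ 4) = b ^ 2 := by
    rw [show b ^ 4 = (b ^ 2) ^ 2 by ring]
    exact Real.sqrt_sq (by positivity)
  have key := hC K m q (PSK β k μ p + b ^ 4) (b ^ 4) (2 * b ^ 4) b (b ^ 4) hm' hδ hq hq1 hg
    hb40.le (by linarith only [hb41, hb40]) hb0 hb2 (by positivity) (by linarith only [hb41, hb40]) hb40 (by linarith)
    (hlow.mono fun N hN => by linarith)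
  refine ⟨b, ⟨hb0, hb2⟩, ?_⟩
  filter_upwards [key, eventually_gt_atTop 0] with N hN hN0
  obtain ⟨D, hD⟩ := exists_gd β κ N K m hN0 hm' 1 b
  rw [Gen.gF_no_field hD] at hN
  refine le_trans (mul_le_mul_of_nonneg_left (hb.trans ?_) (by positivity)) hN
  rw [hsq]
  have e1 : C * (b ^ 2 + 2 * b ^ 4 + b ^ 4) / b = C * (b + 2 * b ^ 3 + b ^ 3) := by
    field_simp
  rw [e1]
  have e2 : (1 - b ^ 4) ^ (κ + 1) ≤ β ^ (κ + 1) * trp K m q (κ + 1) := by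
    calc (1 - b ^ 4) ^ (κ + 1) ≤ (β * chi K m q) ^ (κ + 1) :=
          pow_le_pow_left₀ (by linarith only [hb41, hb40]) hchi _
      _ = β ^ (κ + 1) * chi K m q ^ (κ + 1) := mul_pow _ _ _
      _ ≤ _ := mul_le_mul_of_nonneg_left (chi_pow_le hm' hq hq1 _) (by positivity)
  linarith only [e2]

end Vale.Agent.P146.Sk
end

section

/-!
# P146 / Pw2: the one-variable conclusion with rates (RA)
-/

open MeasureTheory Set

namespace Vale.Agent.P146.Pw2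

open Vale.Agent.P146.Gap

/-- an upper bound for `h` from the convexity of `k = h'` -/
theorem ra_upper {V A e : ℝ} {h k : ℝ → ℝ} (hA : 0 ≤ A) (he : 0 ≤ e)
    (hc : ContinuousOn h (Icc 0 V)) (hd : ∀ τ ∈ Ioo 0 V, HasDerivAt h (k τ) τ)
    (hk : ConvexOn ℝ (Icc 0 V) k) (h0 : k 0 ≤ A) (hh0 : h 0 = 0) (hhs : h V ≤ e) :
    ∀ t ∈ Icc 0 V, h t ≤ A * V + e := by
  intro t ht
  have hV : 0 ≤ V := ht.1.trans ht.2
  by_cases hA' : ∀ τ ∈ Ioo 0 t, k τ ≤ A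
  · have h1 : AntitoneOn (fun τ => h τ - A * τ) (Icc 0 t) := by
      refine antitoneOn_of_deriv_nonpos (convex_Icc 0 t) ?_ ?_ ?_
      · exact (hc.mono (Icc_subset_Icc_right ht.2)).sub (by fun_prop)
      · rw [interior_Icc]
        intro τ hτ
        have := (hd τ ⟨hτ.1, hτ.2.trans_le ht.2⟩).sub ((hasDerivAt_id τ).const_mul A)
        exact this.differentiableAt.differentiableWithinAt
      · rw [interior_Icc]
        intro τ hτ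
        have := (hd τ ⟨hτ.1, hτ.2.trans_le ht.2⟩).sub ((hasDerivAt_id τ).const_mul A)
        have e1 : deriv (fun t => h t - A * t) τ = k τ - A * 1 := this.deriv
        rw [e1]
        have := hA' τ hτ
        linarith
    have h2 := h1 (left_mem_Icc.2 ht.1) (right_mem_Icc.2 ht.1) ht.1
    simp only [mul_zero, sub_zero, hh0] at h2
    have h3 : A * t ≤ A * V := mul_le_mul_of_nonneg_left ht.2 hA
    linarith
  · push Not at hA'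
    obtain ⟨τ, hτ, hpos⟩ := hA'
    have h1 : MonotoneOn h (Icc τ V) := by
      refine monotoneOn_of_deriv_nonneg (convex_Icc τ V) (hc.mono (Icc_subset_Icc_left hτ.1.le))
        ?_ ?_
      · rw [interior_Icc]
        intro σ hσ
        exact (hd σ ⟨hτ.1.trans hσ.1, hσ.2⟩).differentiableAt.differentiableWithinAt
      · rw [interior_Icc]
        intro σ hσ
        rw [(hd σ ⟨hτ.1.trans hσ.1, hσ.2⟩).deriv]
        have h3 : k τ ≤ max (k 0) (k σ) :=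
          hk.le_max_of_mem_Icc ⟨le_rfl, hV⟩ ⟨(hτ.1.trans hσ.1).le, hσ.2.le⟩ ⟨hτ.1.le, hσ.1.le⟩
        rcases le_max_iff.1 h3 with h | h
        · linarith
        · linarith
    have h2 := h1 ⟨hτ.2.le, ht.2⟩ ⟨(hτ.2.le.trans ht.2), le_rfl⟩ ht.2
    have h3 : 0 ≤ A * V := mul_nonneg hA hV
    linarith

/-- integration of an upper bound of the derivative -/
theorem ra_le_of_deriv {V : ℝ} {f f' p p' : ℝ → ℝ} (hc : ContinuousOn f (Icc 0 V))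
    (hp : Continuous p) (hd : ∀ τ ∈ Ioo 0 V, HasDerivAt f (f' τ) τ)
    (hdp : ∀ τ, HasDerivAt p (p' τ) τ) (hle : ∀ τ ∈ Ioo 0 V, f' τ ≤ p' τ) (h0 : f 0 ≤ p 0) :
    ∀ t ∈ Icc 0 V, f t ≤ p t := by
  intro t ht
  have h1 : AntitoneOn (fun τ => f τ - p τ) (Icc 0 V) := by
    refine antitoneOn_of_deriv_nonpos (convex_Icc 0 V) (hc.sub hp.continuousOn) ?_ ?_
    · rw [interior_Icc]
      intro τ hτ
      exact ((hd τ hτ).sub (hdp τ)).differentiableAt.differentiableWithinAt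
    · rw [interior_Icc]
      intro τ hτ
      have e1 : deriv (fun t => f t - p t) τ = f' τ - p' τ := ((hd τ hτ).sub (hdp τ)).deriv
      rw [e1]
      have := hle τ hτ
      linarith
  have h2 := h1 (left_mem_Icc.2 (ht.1.trans ht.2)) ht ht.1
  simp only at h2
  linarith

theorem ra_hasDeriv2 (a b' c : ℝ) (τ : ℝ) :
    HasDerivAt (fun t : ℝ => a + (b' * t + c * (t ^ 2 / 2))) (b' + c * τ) τ := by
  have h2 : HasDerivAt (fun t : ℝ => t ^ 2 / 2) τ τ := by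
    have := (hasDerivAt_pow 2 τ).div_const 2
    refine this.congr_deriv ?_
    norm_num
  have h1 := (((hasDerivAt_id τ).const_mul b').add (h2.const_mul c)).const_add a
  refine h1.congr_deriv ?_
  ring

theorem ra_hasDeriv3 (a b' c : ℝ) (τ : ℝ) :
    HasDerivAt (fun t : ℝ => a * t + (b' * (t ^ 2 / 2) + c * (t ^ 3 / 6)))
      (a + (b' * τ + c * (τ ^ 2 / 2))) τ := by
  have h2 : HasDerivAt (fun t : ℝ => t ^ 2 / 2) τ τ := by
    have := (hasDerivAt_pow 2 τ).div_const 2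
    refine this.congr_deriv ?_
    norm_num
  have h3 : HasDerivAt (fun t : ℝ => t ^ 3 / 6) (τ ^ 2 / 2) τ := by
    have := (hasDerivAt_pow 3 τ).div_const 6
    refine this.congr_deriv ?_
    norm_num
    ring
  have h1 := ((hasDerivAt_id τ).const_mul a).add ((h2.const_mul b').add (h3.const_mul c))
  refine h1.congr_deriv ?_
  ring

/-- the final arithmetic -/
theorem ra_arith {S V t0 κ g c₄ A₀ e₁ e₂ : ℝ} (hκ0 : 0 < κ) (hc₄ : 0 < c₄) (hS : 0 < S)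
    (hV : 0 < V) (hVS : V ≤ S) (ht0p : 0 < t0) (ht0V : t0 ≤ V) (ht0 : t0 = κ * g)
    (hA0 : 0 ≤ A₀) (he1 : 0 ≤ e₁) (he2 : 0 ≤ e₂)
    (hmain : c₄ * g / 9 * t0 ^ 3 ≤ e₂ + A₀ * (t0 ^ 2 / 2) + (V - t0) * (A₀ * V + e₁)) :
    g ^ 4 ≤ 9 * (1 + |S| + 2 * S ^ 2) / (c₄ * κ ^ 3) * (e₁ + e₂ + A₀) := by
  have hSV : V * V ≤ S * S := mul_le_mul hVS hVS hV.le hS.le
  have ht0S : t0 * t0 ≤ S * S := mul_le_mul (ht0V.trans hVS) (ht0V.trans hVS) ht0p.le hS.le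
  have hr1 : A₀ * (t0 ^ 2 / 2) ≤ S ^ 2 * A₀ := by
    have h1 := mul_le_mul_of_nonneg_left ht0S hA0
    have h2 : 0 ≤ A₀ * (S * S) := by positivity
    have e1 : A₀ * (t0 ^ 2 / 2) = A₀ * (t0 * t0) / 2 := by ring
    have e2 : S ^ 2 * A₀ = A₀ * (S * S) := by ring
    rw [e1, e2]
    linarith only [h2, h1]
  have hr2 : (V - t0) * (A₀ * V + e₁) ≤ S ^ 2 * A₀ + S * e₁ := by
    have h6 : (V - t0) * (A₀ * V + e₁) ≤ V * (A₀ * V + e₁) := by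
      apply mul_le_mul_of_nonneg_right (by linarith only [ht0p])
      positivity
    have h7 : A₀ * (V * V) ≤ A₀ * (S * S) := mul_le_mul_of_nonneg_left hSV hA0
    have h8 : V * e₁ ≤ S * e₁ := mul_le_mul_of_nonneg_right hVS he1
    have e1 : V * (A₀ * V + e₁) = A₀ * (V * V) + V * e₁ := by ring
    have e2 : S ^ 2 * A₀ = A₀ * (S * S) := by ring
    rw [e2]
    linarith only [h8, h7, h6]
  rw [abs_of_pos hS, div_mul_eq_mul_div, le_div_iff₀ (by positivity)]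
  have e5 : c₄ * g / 9 * t0 ^ 3 = (c₄ * κ ^ 3) * g ^ 4 / 9 := by rw [ht0]; ring
  rw [e5] at hmain
  have hq : 0 ≤ S * e₂ := by positivity
  have hq2 : 0 ≤ S ^ 2 * e₂ := by positivity
  have hq3 : 0 ≤ S ^ 2 * e₁ := by positivity
  have hq4 : 0 ≤ S * A₀ := by positivity
  have e6 : 9 * (1 + S + 2 * S ^ 2) * (e₁ + e₂ + A₀) = 9 * (e₁ + e₂ + A₀ + S * e₁ + S * e₂ +
      S * A₀ + 2 * (S ^ 2 * e₁) + 2 * (S ^ 2 * e₂) + 2 * (S ^ 2 * A₀)) := by ring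
  rw [e6]
  have e7 : g ^ 4 * (c₄ * κ ^ 3) = c₄ * κ ^ 3 * g ^ 4 := by ring
  rw [e7]
  linarith only [hq4, hq3, hq2, hq, hr2, hr1, hmain, he1, hA0]

/-- RA: a long gap just above zero forces the exponent of the gap to be small. -/
theorem ra_real {b S c₃ c₄ C₂ : ℝ} (hc₃ : 0 < c₃) (hc₄ : 0 < c₄) (hC₂ : 0 ≤ C₂) :
    ∃ K : ℝ, 0 < K ∧ ∀ (V g A₀ e₁ e₂ : ℝ) (R M M1 M2 : ℝ → ℝ), V ≤ S → 0 < g →
      c₃ * g ≤ V → 0 ≤ A₀ → 0 ≤ e₁ → 0 ≤ e₂ →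
      ContinuousOn R (Icc 0 V) → ContinuousOn M (Icc 0 V) → ContinuousOn M1 (Icc 0 V) →
      (∀ τ ∈ Ioo 0 V, HasDerivAt R (M τ) τ) → (∀ τ ∈ Ioo 0 V, HasDerivAt M (M1 τ) τ) →
      (∀ τ ∈ Ioo 0 V, HasDerivAt M1 (M2 τ) τ) → (∀ τ ∈ Ioo 0 V, 0 ≤ M2 τ) →
      (∀ τ ∈ Ioo 0 V, M2 τ ≤ C₂) → R 0 = 0 → R V ≤ V / b ^ 2 + e₁ →
      V ^ 2 / (2 * b ^ 2) - e₂ ≤ ∫ τ in (0 : ℝ)..V, R τ →
      M 0 ≤ 1 / b ^ 2 + A₀ → M1 0 ≤ -(c₄ * g) → g ^ 4 ≤ K * (e₁ + e₂ + A₀) := by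
  obtain ⟨c, hc⟩ : ∃ c : ℝ, c = 1 / b ^ 2 := ⟨_, rfl⟩
  obtain ⟨κ, hκ⟩ : ∃ κ : ℝ, κ = min c₃ (c₄ / (C₂ + 1)) := ⟨_, rfl⟩
  have hκ0 : 0 < κ := by rw [hκ]; exact lt_min hc₃ (by positivity)
  have hκ3 : κ ≤ c₃ := by rw [hκ]; exact min_le_left _ _
  have hκ4 : C₂ * κ ≤ c₄ := by
    have h1 : κ ≤ c₄ / (C₂ + 1) := by rw [hκ]; exact min_le_right _ _
    have h2 : κ * (C₂ + 1) ≤ c₄ := (le_div_iff₀ (by positivity)).1 h1
    linarith only [h2, hκ0]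
  refine ⟨9 * (1 + |S| + 2 * S ^ 2) / (c₄ * κ ^ 3), by positivity, ?_⟩
  intro V g A₀ e₁ e₂ R M M1 M2 hVS hg hgV hA0 he1 he2 cR cM cM1 dR dM dM1 hM2 hM2' hR0 hRV hint
    hM0 hM10
  have hV : 0 < V := lt_of_lt_of_le (mul_pos hc₃ hg) hgV
  have hS : 0 < S := hV.trans_le hVS
  rw [← hc] at hM0
  have hM1mono : MonotoneOn M1 (Icc 0 V) := by
    refine monotoneOn_of_deriv_nonneg (convex_Icc 0 V) cM1 ?_ ?_
    · rw [interior_Icc]
      exact fun τ hτ => (dM1 τ hτ).differentiableAt.differentiableWithinAt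
    · rw [interior_Icc]
      intro τ hτ
      rw [(dM1 τ hτ).deriv]; exact hM2 τ hτ
  have hkd : ∀ τ ∈ Ioo 0 V, HasDerivAt (fun t => M t - c) (M1 τ) τ := fun τ hτ =>
    (dM τ hτ).sub_const c
  have hconv : ConvexOn ℝ (Icc 0 V) (fun t => M t - c) := by
    refine MonotoneOn.convexOn_of_deriv (convex_Icc 0 V) (cM.sub continuousOn_const) ?_ ?_
    · rw [interior_Icc]
      exact fun τ hτ => (hkd τ hτ).differentiableAt.differentiableWithinAt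
    · rw [interior_Icc]
      intro x hx y hy hxy
      rw [(hkd x hx).deriv, (hkd y hy).deriv]
      exact hM1mono (Ioo_subset_Icc_self hx) (Ioo_subset_Icc_self hy) hxy
  have hd : ∀ τ ∈ Ioo 0 V, HasDerivAt (fun t => R t - c * t) (M τ - c) τ := by
    intro τ hτ
    have := (dR τ hτ).sub ((hasDerivAt_id τ).const_mul c)
    rw [mul_one] at this
    exact this
  have hcont : ContinuousOn (fun t => R t - c * t) (Icc 0 V) := cR.sub (by fun_prop)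
  have hup : ∀ t ∈ Icc 0 V, R t - c * t ≤ A₀ * V + e₁ := by
    refine ra_upper hA0 he1 hcont hd hconv (by linarith) (by simp [hR0]) ?_
    have e2 : V / b ^ 2 = c * V := by rw [hc]; ring
    rw [e2] at hRV
    linarith
  -- the bounds near zero
  have hb1 : ∀ t ∈ Icc 0 V, M1 t ≤ -(c₄ * g) + C₂ * t :=
    ra_le_of_deriv (p := fun t => -(c₄ * g) + C₂ * t) (p' := fun _ => C₂) cM1 (by fun_prop) dM1
      (fun τ => by simpa using ((hasDerivAt_id τ).const_mul C₂).const_add (-(c₄ * g)))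
      (fun τ hτ => hM2' τ hτ) (by simpa using hM10)
  have hb2 : ∀ t ∈ Icc 0 V, M t ≤ (c + A₀) + (-(c₄ * g) * t + C₂ * (t ^ 2 / 2)) := by
    exact ra_le_of_deriv (p := fun t => (c + A₀) + (-(c₄ * g) * t + C₂ * (t ^ 2 / 2)))
      (p' := fun t => -(c₄ * g) + C₂ * t) cM (by fun_prop) dM
      (fun τ => ra_hasDeriv2 (c + A₀) (-(c₄ * g)) C₂ τ)
      (fun τ hτ => hb1 τ (Ioo_subset_Icc_self hτ)) (by simpa using hM0)
  have hb3 : ∀ t ∈ Icc 0 V, R t ≤ (c + A₀) * t + (-(c₄ * g) * (t ^ 2 / 2) + C₂ * (t ^ 3 / 6)) := by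
    exact ra_le_of_deriv
      (p := fun t => (c + A₀) * t + (-(c₄ * g) * (t ^ 2 / 2) + C₂ * (t ^ 3 / 6)))
      (p' := fun t => (c + A₀) + (-(c₄ * g) * t + C₂ * (t ^ 2 / 2))) cR (by fun_prop) dR
      (fun τ => ra_hasDeriv3 (c + A₀) (-(c₄ * g)) C₂ τ)
      (fun τ hτ => hb2 τ (Ioo_subset_Icc_self hτ)) (by simp [hR0])
  obtain ⟨t0, ht0⟩ : ∃ t0, t0 = κ * g := ⟨_, rfl⟩
  have ht0p : 0 < t0 := by rw [ht0]; positivity
  have ht0V : t0 ≤ V := by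
    rw [ht0]
    exact (mul_le_mul_of_nonneg_right hκ3 hg.le).trans hgV
  have hC0 : C₂ * t0 ≤ c₄ * g := by
    rw [ht0, ← mul_assoc]
    exact mul_le_mul_of_nonneg_right hκ4 hg.le
  have hlow : ∀ t ∈ Icc 0 t0, R t - c * t ≤ A₀ * t - c₄ * g / 3 * t ^ 2 := by
    intro t ht
    have h1 := hb3 t ⟨ht.1, ht.2.trans ht0V⟩
    have h2 : C₂ * t ≤ c₄ * g := (mul_le_mul_of_nonneg_left ht.2 hC₂).trans hC0
    have h3 : C₂ * t * t ^ 2 ≤ c₄ * g * t ^ 2 := mul_le_mul_of_nonneg_right h2 (sq_nonneg t)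
    have e3 : C₂ * (t ^ 3 / 6) = C₂ * t * t ^ 2 / 6 := by ring
    rw [e3] at h1
    linarith only [h3, h1]
  have i1 : IntervalIntegrable (fun t => R t - c * t) volume 0 t0 := by
    apply ContinuousOn.intervalIntegrable
    rw [uIcc_of_le ht0p.le]
    exact hcont.mono (Icc_subset_Icc_right ht0V)
  have i2 : IntervalIntegrable (fun t => R t - c * t) volume t0 V := by
    apply ContinuousOn.intervalIntegrable
    rw [uIcc_of_le ht0V]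
    exact hcont.mono (Icc_subset_Icc_left ht0p.le)
  have hsplit : ∫ τ in (0 : ℝ)..V, (R τ - c * τ) = (∫ τ in (0 : ℝ)..V, R τ) - c * V ^ 2 / 2 := by
    rw [intervalIntegral.integral_sub, intervalIntegral.integral_const_mul, integral_id]
    · ring
    · apply ContinuousOn.intervalIntegrable
      rw [uIcc_of_le hV.le]
      exact cR
    · exact (by fun_prop : Continuous fun τ : ℝ => c * τ).intervalIntegrable _ _
  have h3 : ∫ τ in (0 : ℝ)..t0, (R τ - c * τ) ≤ ∫ τ in (0 : ℝ)..t0, (A₀ * τ - c₄ * g / 3 * τ ^ 2) := by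
    refine intervalIntegral.integral_mono_on ht0p.le i1 ?_ hlow
    exact (by fun_prop : Continuous fun τ : ℝ => A₀ * τ - c₄ * g / 3 * τ ^ 2).intervalIntegrable _ _
  have h4 : ∫ τ in t0..V, (R τ - c * τ) ≤ (V - t0) * (A₀ * V + e₁) := by
    have : ∫ τ in t0..V, (R τ - c * τ) ≤ ∫ _τ in t0..V, (A₀ * V + e₁) := by
      refine intervalIntegral.integral_mono_on ht0V i2 (by simp) fun t ht => ?_
      exact hup t ⟨ht0p.le.trans ht.1, ht.2⟩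
    rwa [intervalIntegral.integral_const, smul_eq_mul] at this
  have h5 : ∫ τ in (0 : ℝ)..t0, (A₀ * τ - c₄ * g / 3 * τ ^ 2) =
      A₀ * (t0 ^ 2 / 2) - c₄ * g / 3 * (t0 ^ 3 / 3) := by
    rw [intervalIntegral.integral_sub, intervalIntegral.integral_const_mul,
      intervalIntegral.integral_const_mul, integral_id, integral_pow]
    · norm_num
    · exact (by fun_prop : Continuous fun τ : ℝ => A₀ * τ).intervalIntegrable _ _
    · exact (by fun_prop : Continuous fun τ : ℝ => c₄ * g / 3 * τ ^ 2).intervalIntegrable _ _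
  have hsum := intervalIntegral.integral_add_adjacent_intervals i1 i2
  rw [hsplit] at hsum
  have e4 : V ^ 2 / (2 * b ^ 2) = c * V ^ 2 / 2 := by rw [hc]; ring
  rw [e4] at hint
  have hmain : c₄ * g / 9 * t0 ^ 3 ≤ e₂ + A₀ * (t0 ^ 2 / 2) + (V - t0) * (A₀ * V + e₁) := by
    have : c₄ * g / 3 * (t0 ^ 3 / 3) = c₄ * g / 9 * t0 ^ 3 := by ring
    linarith only [hsum, h5, h4, h3, hint]
  exact ra_arith hκ0 hc₄ hS hV hVS ht0p ht0V ht0 hA0 he1 he2 hmain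

end Vale.Agent.P146.Pw2
end
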