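import Vale.Agent.P146.Bdl.B23

set_option linter.all false

section

/-!
# P146 / Pw2, module OPTQ: the optimal strengths with explicit rates
-/

open MeasureTheory ProbabilityTheory Matrix Filter Topology

namespace Vale.Agent.P146.Pw2

open Vale.Agent.P157 (spin)
open Vale.Agent.P157.Lv
open Vale.Agent.P157.Par (Path Exponents topN lw spinPart)
open Vale.Agent.P146.Sk
open Vale.Agent.P166.F (Lam)
open Vale.Agent.P146.Sk.Gen (GI gz gl r0 gS gF gOb gIsOpt GD gV)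

set_option linter.all false

variable {N K : ℕ} {y : ℝ}

namespace Oq

/-- The free energy does not change much with `a`, `b`. -/
lemma gF_close : ∃ C : ℝ, 1 ≤ C ∧ ∀ (N K : ℕ) (β y : ℝ) (m : ℕ → ℝ) (a b : ℝ) (s : ℕ → ℝ),
    0 < β → 0 < y → y ≤ 1 → 0 < N → Exponents K m → a ∈ Set.Icc (0:ℝ) 1 → b ∈ Set.Icc (0:ℝ) 1 →
    |gF K m (Ey N β y a b) (spin (N := N)) s - gF K m (Ey N β y 0 0) (spin (N := N)) s| ≤
      β * C / y := by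
  obtain ⟨C, hC1, hC⟩ := tw_bound
  refine ⟨C, hC1, fun N K β y m a b s hβ hy hy1 hN hm' ha hb => ?_⟩
  have h1 := tangent_q β hy hN hm' a b 0 0 s
  have h2 := tangent_q β hy hN hm' 0 0 a b s
  have h3 := abs_le.1 (hC N K β y m a b s hy hN hm')
  have h4 := abs_le.1 (hC N K β y m 0 0 s hy hN hm')
  have h5 := tb_bounds β hy hN hm' a b s
  have h6 := tb_bounds β hy hN hm' 0 0 s
  have hyi : 1 ≤ 1 / y := by rw [le_div_iff₀ hy]; linarith only [hy1]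
  obtain ⟨Y, hY⟩ : ∃ Y, Y = 1 / y := ⟨_, rfl⟩
  have e : β * C / y = β * (C * Y) := by rw [hY]; ring
  rw [e]
  rw [← hY] at hyi h5 h6
  obtain ⟨F, hF⟩ : ∃ F, F = gF K m (Ey N β y a b) (spin (N := N)) s := ⟨_, rfl⟩
  obtain ⟨F₀, hF₀⟩ : ∃ F₀, F₀ = gF K m (Ey N β y 0 0) (spin (N := N)) s := ⟨_, rfl⟩
  obtain ⟨w, hw⟩ : ∃ w, w = Tw (sy N K m β y a b s) := ⟨_, rfl⟩
  obtain ⟨w₀, hw₀⟩ : ∃ w₀, w₀ = Tw (sy N K m β y 0 0 s) := ⟨_, rfl⟩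
  obtain ⟨u, hu⟩ : ∃ u, u = Tb y (sy N K m β y a b s) := ⟨_, rfl⟩
  obtain ⟨u₀, hu₀⟩ : ∃ u₀, u₀ = Tb y (sy N K m β y 0 0 s) := ⟨_, rfl⟩
  rw [← hF, ← hF₀, ← hw, ← hu] at h1
  rw [← hF, ← hF₀, ← hw₀, ← hu₀] at h2
  rw [← hw] at h3
  rw [← hw₀] at h4
  rw [← hu] at h5
  rw [← hu₀] at h6
  rw [← hF, ← hF₀]
  clear hF hF₀ hw hw₀ hu hu₀
  have hCY : C ≤ C * Y := by (by_contra nlg; linarith only [nlg, mul_nonneg (sub_nonneg.2 hy1) (sub_nonneg.2 hyi), mul_nonneg (le_of_lt (sub_pos.2 hy)) (sub_nonneg.2 hyi), mul_nonneg (sub_nonneg.2 hC1) (sub_nonneg.2 hyi), mul_nonneg (le_of_lt (sub_pos.2 (not_le.1 nlg))) (sub_nonneg.2 hy1), mul_pos (sub_pos.2 (not_le.1 nlg)) (sub_pos.2 hy)])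
  have hYC : Y ≤ C * Y := by (by_contra nlg; linarith only [nlg, mul_nonneg (sub_nonneg.2 hC1) (sub_nonneg.2 hyi), mul_nonneg (sub_nonneg.2 hC1) (sub_nonneg.2 hy1), mul_nonneg (sub_nonneg.2 hC1) (le_of_lt (sub_pos.2 hy)), mul_nonneg (le_of_lt (sub_pos.2 (not_le.1 nlg))) (sub_nonneg.2 hy1), mul_pos (sub_pos.2 (not_le.1 nlg)) (sub_pos.2 hy)])
  have k1 : a * w ≤ C * Y := by
    have := ha.1; have := ha.2; nlinarith [h3.2]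
  have k2 : -(b * u) ≤ 0 := by
    have := hb.1; (by_contra nlg; linarith only [nlg, mul_nonneg (sub_nonneg.2 this) (sub_nonneg.2 h5.1), mul_nonneg (le_of_lt (sub_pos.2 (not_le.1 nlg))) (sub_nonneg.2 hy1), mul_pos (sub_pos.2 (not_le.1 nlg)) (sub_pos.2 hy)])
  have k3 : -(C * Y) ≤ a * w₀ := by
    have := ha.1; have := ha.2; nlinarith [h4.1]
  have k4 : -(C * Y) ≤ -(b * u₀) := by
    have := hb.1; have := hb.2; nlinarith [h6.1, h6.2]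
  rw [abs_le]
  constructor
  · have k5 : β / 2 * ((a - 0) * w₀ - (b - 0) * u₀) ≥ β / 2 * (-(C * Y) + -(C * Y)) := by
      refine mul_le_mul_of_nonneg_left ?_ (by positivity)
      linarith only [k4, k3]
    linarith only [k5, h2]
  · have k5 : β / 2 * ((0 - a) * w - (0 - b) * u) ≥ β / 2 * (-(C * Y)) := by
      refine mul_le_mul_of_nonneg_left ?_ (by positivity)
      linarith only [k2, k1]
    have k6 : 0 ≤ β * (C * Y) := by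
      have : 0 ≤ C * Y := by linarith only [hYC, hyi]
      positivity
    linarith only [k6, k5, h1]

/-- The free energy at `a = b = 0` without fields is zero. -/
lemma gF_zero_zero (hN : 0 < N) {m : ℕ → ℝ} (hm' : Exponents K m) (β y : ℝ) :
    gF K m (Ey N β y 0 0) (spin (N := N)) (fun _ => 0) = 0 := by
  rw [ey_zero β 0 0, u4_energy, Gen.gF_no_field (u4_gd hN hm')]
  have h1 : Real.log (∑ x : Fin N → Bool, Real.exp (-((N : ℝ) * Real.log 2))) = 0 := by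
    rw [Finset.sum_const, Finset.card_univ, nsmul_eq_mul, Fintype.card_fun, Fintype.card_fin,
      Fintype.card_bool]
    rw [Real.exp_neg, mul_comm (N : ℝ), Real.exp_mul, Real.exp_log two_pos]
    push_cast
    rw [Real.rpow_natCast, mul_inv_cancel₀ (by positivity), Real.log_one]
  simp only [h1, integral_zero, mul_zero]

lemma arith1 {L r σ Z : ℝ} (hL0 : 0 < L) (hr : 1 ≤ r) (hZ1 : 1 ≤ Z)
    (hσZ : σ = Z⁻¹) (hLZ : L ≤ Z) :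
    √((2 + 3 / σ ^ 3) / (1 / L * r ^ 4)) ≤ 3 * Z ^ 2 / r := by
  have hZ0 : 0 < Z := by linarith
  have hr0 : 0 < r := by linarith
  have e1 : 3 / σ ^ 3 = 3 * Z ^ 3 := by rw [hσZ]; field_simp
  have hZ31 : 1 ≤ Z ^ 3 := one_le_pow₀ hZ1
  have hr2 : 1 ≤ r ^ 2 := one_le_pow₀ hr
  rw [Real.sqrt_le_iff]
  refine ⟨by positivity, ?_⟩
  rw [e1]
  have a1 : (2 + 3 * Z ^ 3) / (1 / L * r ^ 4) = ((2 + 3 * Z ^ 3) * L) / r ^ 4 := by field_simp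
  have a2 : (3 * Z ^ 2 / r) ^ 2 = (9 * Z ^ 4 * r ^ 2) / r ^ 4 := by field_simp; ring
  rw [a1, a2]
  have a3 : (2 + 3 * Z ^ 3) * L ≤ 5 * Z ^ 3 * Z := by
    refine mul_le_mul (by linarith only [hZ31]) hLZ hL0.le (by positivity)
  have a4 : 5 * Z ^ 3 * Z ≤ 9 * Z ^ 4 * r ^ 2 := by
    have : 0 ≤ Z ^ 4 := by positivity
    linarith only [mul_nonneg (sub_nonneg.2 hr2) (sub_nonneg.2 this), mul_nonneg (le_of_lt (sub_pos.2 hZ0)) (sub_nonneg.2 hZ31), hZ0]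
  exact div_le_div_of_nonneg_right (a3.trans a4) (by positivity)

lemma arith2 {r σ Z : ℝ} (hr : 1 ≤ r) (hZ1 : 1 ≤ Z)
    (hσZ : σ = Z⁻¹) : (2 + 3 / σ ^ 3) * (σ / (2 * r)) ≤ 5 / 2 * Z ^ 2 / r := by
  have hZ0 : 0 < Z := by linarith
  have hr0 : 0 < r := by linarith
  have e1 : 3 / σ ^ 3 = 3 * Z ^ 3 := by rw [hσZ]; field_simp
  have hZ31 : 1 ≤ Z ^ 3 := one_le_pow₀ hZ1
  rw [e1, hσZ]
  have a1 : (2 + 3 * Z ^ 3) * (Z⁻¹ / (2 * r)) = (2 + 3 * Z ^ 3) / (2 * Z * r) := by field_simp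
  have a2 : 5 / 2 * Z ^ 2 / r = 5 * Z ^ 3 / (2 * Z * r) := by field_simp
  rw [a1, a2]
  exact div_le_div_of_nonneg_right (by linarith only [hZ31]) (by positivity)

lemma arith3 {β η y r σ Z : ℝ} (hη : 0 < η) (hy : 0 < y) (hr : 1 ≤ r) (hZ1 : 1 ≤ Z)
    (hσZ : σ = Z⁻¹) (hyZ : 1 / y ≤ Z) (hηZ : 1 / η ≤ Z) :
    √((β ^ 2 + 4 * β ^ 2 / y ^ 4 + (1 / η + 1 / σ ^ 2 + 1) ^ 2) / r ^ 4) ≤
      (5 * β ^ 2 + 9) * Z ^ 2 / r ^ 2 := by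
  have hZ0 : 0 < Z := by linarith
  have hr0 : 0 < r := by linarith
  have hZ2 : Z ≤ Z ^ 2 := by (by_contra nlg; linarith only [nlg, mul_pos (sub_pos.2 (not_le.1 nlg)) (sub_pos.2 hZ0), mul_nonneg (sq_nonneg (Z : ℝ)) (sub_nonneg.2 hZ1)])
  have hZ21 : 1 ≤ Z ^ 2 := one_le_pow₀ hZ1
  have e2 : 1 / σ ^ 2 = Z ^ 2 := by rw [hσZ]; field_simp
  rw [Real.sqrt_le_iff]
  refine ⟨by positivity, ?_⟩
  rw [e2]
  have a2 : ((5 * β ^ 2 + 9) * Z ^ 2 / r ^ 2) ^ 2 = ((5 * β ^ 2 + 9) ^ 2 * Z ^ 4) / r ^ 4 := by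
    rw [div_pow]
    ring
  rw [a2]
  have a3 : 4 * β ^ 2 / y ^ 4 ≤ 4 * β ^ 2 * Z ^ 4 := by
    have b1 : 4 * β ^ 2 / y ^ 4 = 4 * β ^ 2 * (1 / y) ^ 4 := by rw [div_pow, one_pow]; ring
    rw [b1]
    have b2 : (1 / y) ^ 4 ≤ Z ^ 4 := pow_le_pow_left₀ (by positivity) hyZ 4
    exact mul_le_mul_of_nonneg_left b2 (by positivity)
  have a4 : (1 / η + Z ^ 2 + 1) ^ 2 ≤ (3 * Z ^ 2) ^ 2 := by
    refine pow_le_pow_left₀ (by positivity) ?_ 2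
    linarith only [hZ21, hZ2, hηZ]
  have a5 : β ^ 2 ≤ β ^ 2 * Z ^ 4 := by
    have b1 : 1 ≤ Z ^ 4 := one_le_pow₀ hZ1
    linarith only [mul_nonneg (sub_nonneg.2 b1) (sq_nonneg β)]
  have a6 : β ^ 2 + 4 * β ^ 2 / y ^ 4 + (1 / η + Z ^ 2 + 1) ^ 2 ≤
      (5 * β ^ 2 + 9) ^ 2 * Z ^ 4 := by
    have b1 : (5 * β ^ 2 + 9) * Z ^ 4 ≤ (5 * β ^ 2 + 9) ^ 2 * Z ^ 4 := by
      have b2 : 0 ≤ Z ^ 4 := by positivity
      have b3 : 5 * β ^ 2 + 9 ≤ (5 * β ^ 2 + 9) ^ 2 := by (by_contra nlg; linarith only [nlg, mul_nonneg (sq_nonneg β) (sq_nonneg β), mul_nonneg (sub_nonneg.2 b2) (sq_nonneg β), mul_nonneg (sub_nonneg.2 a5) (sq_nonneg β), mul_nonneg (sub_nonneg.2 hZ2) (sub_nonneg.2 hZ21), mul_nonneg (le_of_lt (sub_pos.2 hZ0)) (sub_nonneg.2 hZ21), mul_pos (sub_pos.2 hZ0) (sub_pos.2 hZ0), mul_nonneg (le_of_lt (sub_pos.2 (not_le.1 nlg))) (sub_nonneg.2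 b2)])
      exact mul_le_mul_of_nonneg_right b3 b2
    have b2 : (3 * Z ^ 2) ^ 2 = 9 * Z ^ 4 := by ring
    have b3 : β ^ 2 * Z ^ 4 + 4 * β ^ 2 * Z ^ 4 + 9 * Z ^ 4 = (5 * β ^ 2 + 9) * Z ^ 4 := by ring
    linarith
  exact div_le_div_of_nonneg_right a6 (by positivity)

lemma arith4 {β r σ Z V : ℝ} (hr : 1 ≤ r) (hZ1 : 1 ≤ Z)
    (hσZ : σ = Z⁻¹) (h3 : V ≤ (5 * β ^ 2 + 9) * Z ^ 2 / r ^ 2) :
    4 * V / (σ / (2 * r)) ≤ 8 * (5 * β ^ 2 + 9) * Z ^ 3 / r := by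
  have hZ0 : 0 < Z := by linarith
  have hr0 : 0 < r := by linarith
  have a2 : 0 < σ / (2 * r) := by rw [hσZ]; positivity
  have a1 : 4 * ((5 * β ^ 2 + 9) * Z ^ 2 / r ^ 2) / (σ / (2 * r)) =
      8 * (5 * β ^ 2 + 9) * Z ^ 3 / r := by
    rw [hσZ]
    generalize 5 * β ^ 2 + 9 = T
    field_simp
    ring
  rw [← a1]
  exact div_le_div_of_nonneg_right (by linarith) a2.le

lemma arith5 {β r Z A B C : ℝ} (hr : 1 ≤ r) (hZ1 : 1 ≤ Z) (h1 : A ≤ 3 * Z ^ 2 / r)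
    (h2 : B ≤ 5 / 2 * Z ^ 2 / r) (h4 : C ≤ 8 * (5 * β ^ 2 + 9) * Z ^ 3 / r) :
    A + B + C ≤ 80 * (β ^ 2 + 1) * Z ^ 3 / r := by
  have hZ0 : 0 < Z := by linarith
  have hr0 : 0 < r := by linarith
  refine (add_le_add (add_le_add h1 h2) h4).trans ?_
  have a1 : 3 * Z ^ 2 / r + 5 / 2 * Z ^ 2 / r + 8 * (5 * β ^ 2 + 9) * Z ^ 3 / r =
      (3 * Z ^ 2 + 5 / 2 * Z ^ 2 + 8 * (5 * β ^ 2 + 9) * Z ^ 3) / r := by ring
  rw [a1]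
  have a2 : Z ^ 2 ≤ Z ^ 3 := by linarith only [mul_nonneg (sub_nonneg.2 hZ1) (sq_nonneg Z)]
  have a3 : 0 ≤ β ^ 2 * Z ^ 3 := by positivity
  refine div_le_div_of_nonneg_right ?_ hr0.le
  nlinarith

lemma arith6 {β C₂ X L r σ Z V : ℝ} (hL0 : 0 < L) (hr : 1 ≤ r) (hZ1 : 1 ≤ Z)
    (hσZ : σ = Z⁻¹) (hLZ : L ≤ Z) (hZ : Z = C₂ * X)
    (h5 : V ≤ 80 * (β ^ 2 + 1) * Z ^ 3 / r) :
    20 * V / (σ * (1 / L)) ≤ 2000 * (β ^ 2 + 1) * C₂ ^ 5 * X ^ 5 / r := by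
  have hZ0 : 0 < Z := by linarith
  have hr0 : 0 < r := by linarith
  have hσ0 : 0 < σ * (1 / L) := by rw [hσZ]; positivity
  have h6 : 20 * (80 * (β ^ 2 + 1) * Z ^ 3 / r) / (σ * (1 / L)) =
      1600 * (β ^ 2 + 1) * Z ^ 4 * L / r := by
    rw [hσZ]
    generalize β ^ 2 + 1 = T
    field_simp
    ring
  have h7 : 1600 * (β ^ 2 + 1) * Z ^ 4 * L / r ≤ 2000 * (β ^ 2 + 1) * C₂ ^ 5 * X ^ 5 / r := by
    have a1 : C₂ ^ 5 * X ^ 5 = Z ^ 4 * Z := by rw [hZ]; ring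
    have a2 : Z ^ 4 * L ≤ Z ^ 4 * Z := mul_le_mul_of_nonneg_left hLZ (by positivity)
    have a4 : 0 ≤ (β ^ 2 + 1) * (Z ^ 4 * Z) := by positivity
    have a5 : (β ^ 2 + 1) * (Z ^ 4 * L) ≤ (β ^ 2 + 1) * (Z ^ 4 * Z) :=
      mul_le_mul_of_nonneg_left a2 (by positivity)
    have a6 : 2000 * (β ^ 2 + 1) * C₂ ^ 5 * X ^ 5 = 2000 * ((β ^ 2 + 1) * (Z ^ 4 * Z)) := by
      rw [← a1]; ring
    rw [a6]
    refine div_le_div_of_nonneg_right ?_ hr0.le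
    linarith
  refine le_trans ?_ h7
  rw [← h6]
  exact div_le_div_of_nonneg_right (by linarith only [h5]) hσ0.le

/-- The arithmetic of the error. -/
lemma arith {β C₂ η y L r σ : ℝ} (hC₂ : 1 ≤ C₂) (hη : 0 < η) (hη1 : η ≤ 1)
    (hy : 0 < y) (hy1 : y ≤ 1) (hL : 1 ≤ L) (hr : 1 ≤ r) (hσ : σ = η * y / (C₂ * L)) :
    20 * (√((2 + 3 / σ ^ 3) / (1 / L * r ^ 4)) + (2 + 3 / σ ^ 3) * (σ / (2 * r)) +
      4 * √((β ^ 2 + 4 * β ^ 2 / y ^ 4 + (1 / η + 1 / σ ^ 2 + 1) ^ 2) / r ^ 4) /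
        (σ / (2 * r))) / (σ * (1 / L)) ≤
      2000 * (β ^ 2 + 1) * C₂ ^ 5 * (L / (η * y)) ^ 5 / r := by
  obtain ⟨X, hX⟩ : ∃ X : ℝ, X = L / (η * y) := ⟨_, rfl⟩
  obtain ⟨Z, hZ⟩ : ∃ Z : ℝ, Z = C₂ * X := ⟨_, rfl⟩
  have hηy : 0 < η * y := by positivity
  have hX0 : 0 < X := by rw [hX]; positivity
  have hXZ : X ≤ Z := by rw [hZ]; (by_contra nlg; linarith only [nlg, mul_nonneg (sub_nonneg.2 hC₂) (le_of_lt (sub_pos.2 hX0)), mul_nonneg (le_of_lt (sub_pos.2 (not_le.1 nlg))) (sub_nonneg.2 hy1), mul_pos (sub_pos.2 (not_le.1 nlg)) (sub_pos.2 hy)])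
  have hLX : L ≤ X := by
    rw [hX, le_div_iff₀ hηy]
    have : η * y ≤ 1 := by (by_contra nlg; linarith only [nlg, mul_nonneg (sub_nonneg.2 hy1) (le_of_lt (sub_pos.2 hηy)), mul_nonneg (sub_nonneg.2 hη1) (le_of_lt (sub_pos.2 hy)), mul_pos (sub_pos.2 (not_le.1 nlg)) (sub_pos.2 hy)])
    (by_contra nlg; linarith only [nlg, mul_nonneg (sub_nonneg.2 this) (sub_nonneg.2 this), mul_nonneg (le_of_lt (sub_pos.2 hηy)) (sub_nonneg.2 this), mul_nonneg (sub_nonneg.2 hL) (sub_nonneg.2 this), mul_nonneg (le_of_lt (sub_pos.2 (not_le.1 nlg))) (sub_nonneg.2 this), mul_pos (sub_pos.2 (not_le.1 nlg)) (sub_pos.2 hηy)])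
  have hyX : 1 / y ≤ X := by
    rw [hX, div_le_div_iff₀ hy hηy]
    have : η * y ≤ L * y := by (by_contra nlg; linarith only [nlg, mul_nonneg (le_of_lt (sub_pos.2 hy)) (sub_nonneg.2 hL), mul_nonneg (sub_nonneg.2 hη1) (le_of_lt (sub_pos.2 hy)), mul_nonneg (le_of_lt (sub_pos.2 (not_le.1 nlg))) (sub_nonneg.2 hy1), mul_pos (sub_pos.2 (not_le.1 nlg)) (sub_pos.2 hy)])
    linarith
  have hηX : 1 / η ≤ X := by
    rw [hX, div_le_div_iff₀ hη hηy]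
    have : η * y ≤ L * η := by (by_contra nlg; linarith only [nlg, mul_nonneg (sub_nonneg.2 hL) (le_of_lt (sub_pos.2 hηy)), mul_nonneg (sub_nonneg.2 hy1) (le_of_lt (sub_pos.2 hηy)), mul_pos (sub_pos.2 (not_le.1 nlg)) (sub_pos.2 hy)])
    linarith
  have hZ1 : 1 ≤ Z := by linarith
  have hL0 : 0 < L := by linarith
  have hσZ : σ = Z⁻¹ := by
    rw [hσ, hZ, hX]
    field_simp
  rw [← hX]
  exact arith6 hL0 hr hZ1 hσZ (by linarith) hZ (arith5 hr hZ1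
    (arith1 hL0 hr hZ1 hσZ (by linarith)) (arith2 hr hZ1 hσZ)
    (arith4 hr hZ1 hσZ (arith3 hη hy hr hZ1 hσZ (by linarith) (by linarith))))

/-- The arithmetic of the lower bound of the strengths. -/
lemma low_arith {β C₀ Cw Cg C₂ L y η t P g x σ : ℝ} (hy : 0 < y) (hy1 : y ≤ 1) (hL1 : 1 ≤ L)
    (hβw : 0 < β * Cw) (hC0 : 0 ≤ C₀) (hC₂ : C₂ = C₀ + 2 * (β * Cw) + 2)
    (hCg : Cg = β * Cw / y) (hP : P ≤ C₀) (ht : 0 ≤ t) (hg : -Cg ≤ g) (hx : 0 < x)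
    (h1 : η ≤ x * (P - t + Cg - g + 2 * L)) (hσ : σ = η * y / (C₂ * L)) : σ ≤ x := by
  have hC₂0 : 0 < C₂ := by rw [hC₂]; positivity
  have hL0 : 0 < L := by linarith
  have h7 : Cg * y = β * Cw := by rw [hCg]; field_simp
  have h5 : (P - t + Cg - g + 2 * L) * y ≤ C₂ * L := by
    have h6 : P - t + Cg - g + 2 * L ≤ C₀ + 2 * Cg + 2 * L := by linarith
    have h8 : (C₀ + 2 * Cg + 2 * L) * y = C₀ * y + 2 * (β * Cw) + 2 * (L * y) := by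
      rw [← h7]; ring
    have h9 : C₀ * y ≤ C₀ * L := mul_le_mul_of_nonneg_left (by linarith) hC0
    have h10 : β * Cw * 1 ≤ β * Cw * L := mul_le_mul_of_nonneg_left hL1 hβw.le
    have h11 : L * y ≤ L * 1 := mul_le_mul_of_nonneg_left hy1 hL0.le
    have h12 : (P - t + Cg - g + 2 * L) * y ≤ (C₀ + 2 * Cg + 2 * L) * y :=
      mul_le_mul_of_nonneg_right h6 hy.le
    rw [h8] at h12
    have h13 : C₂ * L = C₀ * L + 2 * (β * Cw * L) + 2 * L := by rw [hC₂]; ring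
    rw [h13]
    linarith
  rw [hσ, div_le_iff₀ (by positivity)]
  calc η * y ≤ x * (P - t + Cg - g + 2 * L) * y := mul_le_mul_of_nonneg_right h1 hy.le
    _ = x * ((P - t + Cg - g + 2 * L) * y) := by ring
    _ ≤ x * (C₂ * L) := mul_le_mul_of_nonneg_left h5 hx.le

/-- The upper bound of the objective. -/
lemma obj_le {n : ℕ} {m q : ℕ → ℝ} {β Cg P a b : ℝ} (hN0 : 0 < N) (hm' : Exponents n m)
    (hg : GoodPath β n m q P)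
    (hcl : ∀ s : ℕ → ℝ, |gF n m (Ey N β y a b) (spin (N := N)) s -
      gF n m (Ey N β y 0 0) (spin (N := N)) s| ≤ Cg) (s : ℕ → ℝ) (hs : ∀ j ≤ n, 0 ≤ s j) :
    gF n m (Ey N β y a b) (spin (N := N)) s -
      1 / 2 * ∑ j ∈ Finset.range (n + 1), aco n m q j * s j ^ 2 ≤
        P - β ^ 2 / 4 * trp n m q 2 + Cg := by
  have h1 := u4_sub (β := β) (P := P) hN0 hm' 0 hg hs
  rw [← ey_zero (y := y) β 0 0] at h1
  have h2 := (abs_le.1 (hcl s)).2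
  linarith only [h2, h1]

/-- The bound of the second moment of the derivatives. -/
lemma int_le (hy : 0 < y) {β b : ℝ} (hb : b ∈ Set.Icc (0 : ℝ) 1) :
    ∫ z : Ix N → ℝ, (N : ℝ) * (β ^ 2 + 2 * (2 * β ^ 2 * b ^ 2 / y ^ 4)) ∂(gI (Ix N)) ≤
      N * (β ^ 2 + 4 * β ^ 2 / y ^ 4) := by
  have hb2 : b ^ 2 ≤ 1 := by nlinarith [hb.1, hb.2]
  have h2 : 2 * β ^ 2 * b ^ 2 ≤ 2 * β ^ 2 := by linarith only [mul_nonneg (sub_nonneg.2 hb2) (sq_nonneg β)]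
  have h3 : 2 * β ^ 2 * b ^ 2 / y ^ 4 ≤ 2 * β ^ 2 / y ^ 4 :=
    div_le_div_of_nonneg_right h2 (by positivity)
  simp only [integral_const, probReal_univ, one_smul]
  refine mul_le_mul_of_nonneg_left ?_ (Nat.cast_nonneg N)
  have h1 : 4 * β ^ 2 / y ^ 4 = 2 * (2 * β ^ 2 / y ^ 4) := by ring
  rw [h1]
  linarith

/-- The deviations of the overlaps at the optimum. -/
lemma dev_le {n : ℕ} {q : ℕ → ℝ} {β a b η C₂ L r σ : ℝ} {s : ℕ → ℝ}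
    {D : Ix N → (Ix N → ℝ) → (Fin N → Bool) → ℝ} (hN0 : 0 < N)
    (hq : Path n q) (hη : 0 < η) (hη1 : η ≤ 1) (hy : 0 < y) (hy1 : y ≤ 1) (hC₂1 : 1 ≤ C₂)
    (hb : b ∈ Set.Icc (0 : ℝ) 1)
    (hD : GD n (gm n) (Ey N β y a b) D (spin (N := N)))
    (hs : gIsOpt n (gm n) q η (Ey N β y a b) (spin (N := N)) s)
    (hL : L = (n : ℝ) + 1) (hr1 : 1 ≤ r) (hr4 : r ^ 4 = N) (hσ : σ = η * y / (C₂ * L))
    (hσ1 : σ ≤ 1) (hlow : ∀ j ≤ n, σ ≤ s j) (hup : s 0 ≤ 1 / η + 1 / σ ^ 2)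
    (hsum : ∀ z x, ∑ e, D e z x ^ 2 ≤ (N : ℝ) * (β ^ 2 + 2 * (2 * β ^ 2 * b ^ 2 / y ^ 4))) :
    ∑ l ∈ Finset.range (n + 1), (gm n (l + 1) - gm n l) *
      dev2 (gS n (gm n) (Ey N β y a b) spin s) l ≤
      6 / L + 2000 * (β ^ 2 + 1) * C₂ ^ 5 * (L / (η * y)) ^ 5 / r := by
  have hm' := gm_exponents n
  have hL1 : 1 ≤ L := by rw [hL]; have : (0 : ℝ) ≤ n := Nat.cast_nonneg n; linarith
  have hL0 : 0 < L := by linarith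
  have hr0 : 0 < r := by linarith
  have hσ0 : 0 < σ := by rw [hσ]; positivity
  obtain ⟨t, ht⟩ : ∃ t : ℝ, t = σ / (2 * r) := ⟨_, rfl⟩
  have ht0 : 0 < t := by rw [ht]; positivity
  have ht2 : t ≤ σ / 2 := by
    rw [ht, div_le_div_iff₀ (by positivity) two_pos]
    (by_contra nlg; linarith only [nlg, mul_nonneg (sub_nonneg.2 hr1) (le_of_lt (sub_pos.2 hσ0)), mul_pos (sub_pos.2 (not_le.1 nlg)) (sub_pos.2 hσ0), mul_nonneg (le_of_lt (sub_pos.2 (not_le.1 nlg))) (sub_nonneg.2 hσ1)])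
  have ht1 : t ≤ 1 := by linarith
  obtain ⟨ε₁, hε₁⟩ : ∃ ε₁ : ℝ, ε₁ = √((2 + 3 / σ ^ 3) / (gm n 1 * N)) + (2 + 3 / σ ^ 3) * t +
        4 * √(((β ^ 2 + 4 * β ^ 2 / y ^ 4) + ((1 / η + 1 / σ ^ 2) + 1) ^ 2) / N) / t := ⟨_, rfl⟩
  have hε₁0 : 0 ≤ ε₁ := by rw [hε₁]; (clear * - hσ0 ht0 hy hη hN0; positivity)
  have hconc : ∀ l ≤ n, ∃ c, (gS n (gm n) (Ey N β y a b) spin s).Ex
      (fun z x => |hz spin gz l z x - c|) ≤ ε₁ := by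
    intro l hl
    obtain ⟨c, hc⟩ := hs.conc hD hq hη hη1 hσ0 hlow hup (EG.const _) hsum (int_le hy hb) hl
      ht0 ht1 ht2
    exact ⟨c, hc.trans (le_of_eq hε₁.symm)⟩
  have hsub : ∀ l ≤ n, gm n (l + 1) - gm n l = 1 / L := fun l _ => by rw [gm_sub, hL]
  have h1 := om_dev hD (δ := 1 / L) (fun l hl => (hsub l hl).le) (π := 1 / L) (by positivity)
    (fun l hl => (hsub l hl).ge) hσ0 hlow hε₁0 hconc
  have h2 : gm n 1 = 1 / L := by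
    have := hsub 0 (Nat.zero_le _)
    rw [hm'.1, sub_zero] at this
    exact this
  have h3 := arith (β := β) hC₂1 hη hη1 hy hy1 hL1 hr1 hσ
  rw [hr4, ← ht] at h3
  rw [h2] at hε₁
  rw [← hε₁] at h3
  have h5 : (6 : ℝ) * (1 / L) = 6 / L := by ring
  rw [h5] at h1
  exact h1.trans (add_le_add le_rfl h3)

end Oq

/-- **The optimal strengths with rates**, with the exponent `5`. -/
theorem opt_q5 {β C₀ : ℝ} (hβ : 0 < β) : ∃ C : ℝ, 1 ≤ C ∧ ∀ (N n : ℕ) (y η P : ℝ)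
    (q : ℕ → ℝ), 0 < N → 0 < y → y ≤ 1 → 0 < η → η ≤ 1 → Path n q → q n ≤ 1 →
    GoodPath β n (gm n) q P → |P| ≤ C₀ →
    ∀ a ∈ Set.Icc (0 : ℝ) 1, ∀ b ∈ Set.Icc (0 : ℝ) 1,
      ∃ s, gIsOpt n (gm n) q η (Ey N β y a b) (spin (N := N)) s ∧
        (∀ j ≤ n, -η ≤ ∑ l ∈ Finset.Ico j (n + 1), (gm n (l + 1) - gm n l) *
          ((sy N n (gm n) β y a b s).Rl spin l - q l)) ∧
        Vd (gm n) (sy N n (gm n) β y a b s) ≤ 6 / (n + 1) + C * ((n + 1) / (η * y)) ^ 5 /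
          √√(N : ℝ) ∧
        Path n (fun l => (sy N n (gm n) β y a b s).Rl spin l) ∧
        (sy N n (gm n) β y a b s).Rl spin n ≤ 1 := by
  obtain ⟨Cw, hCw1, hCg⟩ := Oq.gF_close
  obtain ⟨C₂, hC₂⟩ : ∃ C₂ : ℝ, C₂ = |C₀| + 2 * (β * Cw) + 2 := ⟨_, rfl⟩
  have hβw : 0 < β * Cw := by positivity
  have hC₂1 : 1 ≤ C₂ := by
    have := abs_nonneg C₀
    linarith
  have hCpow : 1 ≤ C₂ ^ 5 := one_le_pow₀ hC₂1
  refine ⟨2000 * (β ^ 2 + 1) * C₂ ^ 5, by linarith only [mul_nonneg (sub_nonneg.2 hCpow) (sq_nonneg β), mul_pos (sub_pos.2 hβ) (sub_pos.2 hβ), hCpow],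
    fun N n y η P q hN0 hy hy1 hη hη1 hq hq1 hg hP a ha b hb => ?_⟩
  have hN' : (0 : ℝ) < N := by exact_mod_cast hN0
  have hN1 : (1 : ℝ) ≤ N := by exact_mod_cast hN0
  obtain ⟨L, hL⟩ : ∃ L : ℝ, L = (n : ℝ) + 1 := ⟨_, rfl⟩
  have hL1 : 1 ≤ L := by rw [hL]; have : (0 : ℝ) ≤ n := Nat.cast_nonneg n; linarith
  have hm' := gm_exponents n
  obtain ⟨r, hr⟩ : ∃ r : ℝ, r = √√(N : ℝ) := ⟨_, rfl⟩
  have hr1 : 1 ≤ r := by
    rw [hr, Real.one_le_sqrt, Real.one_le_sqrt]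
    exact hN1
  have hr4 : r ^ 4 = N := by
    have h1 : r ^ 2 = √(N : ℝ) := by rw [hr, Real.sq_sqrt (Real.sqrt_nonneg _)]
    have h2 : r ^ 4 = (r ^ 2) ^ 2 := by ring
    rw [h2, h1, Real.sq_sqrt hN'.le]
  obtain ⟨Cg, hCgd⟩ : ∃ Cg : ℝ, Cg = β * Cw / y := ⟨_, rfl⟩
  obtain ⟨σ, hσ⟩ : ∃ σ : ℝ, σ = η * y / (C₂ * L) := ⟨_, rfl⟩
  have hσ0 : 0 < σ := by rw [hσ]; positivity
  have hσ1 : σ ≤ 1 := by
    rw [hσ, div_le_one (by positivity)]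
    have h1 : η * y ≤ 1 := by (by_contra nlg; linarith only [nlg, mul_nonneg (sub_nonneg.2 hη1) (sub_nonneg.2 hη1), mul_nonneg (le_of_lt (sub_pos.2 hη)) (sub_nonneg.2 hη1), mul_nonneg (sub_nonneg.2 hy1) (le_of_lt (sub_pos.2 hη)), mul_nonneg (le_of_lt (sub_pos.2 (not_le.1 nlg))) (sub_nonneg.2 hη1), mul_pos (sub_pos.2 (not_le.1 nlg)) (sub_pos.2 hη)])
    have h2 : 1 ≤ C₂ * L := by (by_contra nlg; linarith only [nlg, mul_nonneg (sub_nonneg.2 hη1) (sub_nonneg.2 hL1), mul_nonneg (le_of_lt (sub_pos.2 hη)) (sub_nonneg.2 hL1), mul_nonneg (sub_nonneg.2 hC₂1) (sub_nonneg.2 hL1), mul_nonneg (sub_nonneg.2 hC₂1) (sub_nonneg.2 hη1), mul_nonneg (sub_nonneg.2 hC₂1) (le_of_lt (sub_pos.2 hη)), mul_nonneg (le_of_lt (sub_pos.2 (not_le.1 nlg))) (sub_nonneg.2 hη1), mul_pos (sub_pos.2 (not_le.1 nlg)) (sub_pos.2 hη)])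
    linarith
  obtain ⟨D, B, hD, hDB, -, hBw⟩ := gdq (K := n) β hy hN0 hm' a b
  have hcl : ∀ s : ℕ → ℝ, |gF n (gm n) (Ey N β y a b) (spin (N := N)) s -
      gF n (gm n) (Ey N β y 0 0) (spin (N := N)) s| ≤ Cg := fun s => by
    rw [hCgd]
    exact hCg N n β y (gm n) a b s hβ hy hy1 hN0 hm' ha hb
  have hC := Oq.obj_le hN0 hm' hg hcl
  obtain ⟨s, hs⟩ := Gen.exists_gIsOpt hD hη hC
  have hC0 : 0 ≤ C₀ := (abs_nonneg P).trans hP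
  have hlow : ∀ j ≤ n, σ ≤ s j := by
    intro j hj
    have h1 := hs.lower hD hq hη hη1 hC hj
    have h2 := (abs_le.1 (hcl (fun _ => 0))).1
    rw [Oq.gF_zero_zero hN0 hm' β y, sub_zero] at h2
    have htr : 0 ≤ β ^ 2 / 4 * trp n (gm n) q 2 :=
      mul_nonneg (by positivity) (trp_nonneg hm' hq hq1 2)
    rw [abs_of_nonneg hC0] at hC₂
    rw [← hL] at h1
    exact Oq.low_arith hy hy1 hL1 hβw hC0 hC₂ hCgd (abs_le.1 hP).2 htr h2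
      (hs.pos j hj) h1 hσ
  have hup : s 0 ≤ 1 / η + 1 / σ ^ 2 :=
    hs.upper hD hq hq1 hη hσ0 (hlow 0 (Nat.zero_le _))
  have hsum : ∀ z x, ∑ e, D e z x ^ 2 ≤
      (N : ℝ) * (β ^ 2 + 2 * (2 * β ^ 2 * b ^ 2 / y ^ 4)) :=
    fun z x => om_sum_sq_le (w := fun _ => 2 * β ^ 2 * b ^ 2 / y ^ 4) hN0 ha hDB hBw z x
  have hs0 : ∀ l ≤ n, 0 ≤ s l := fun l hl => (hs.pos l hl).le
  refine ⟨s, hs, fun j hj => ?_, ?_, om_path hD hs0, (Gen.gS_fld hD hs0).Rl_le_one le_rfl⟩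
  · have h1 := hs.tails hD hj
    have h2 := hs.pos j hj
    have h3 : 0 ≤ η / s j ^ 3 := by positivity
    show -η ≤ ∑ l ∈ Finset.Ico j (n + 1), (gm n (l + 1) - gm n l) *
      ((gS n (gm n) (Ey N β y a b) spin s).Rl spin l - q l)
    rw [h1]
    linarith only [h3]
  · have h1 := Oq.dev_le hN0 hq hη hη1 hy hy1 hC₂1 hb hD hs hL hr1 hr4 hσ hσ1 hlow hup hsum
    rw [← hL, ← hr]
    exact h1

/-- **The optimal strengths with rates**. -/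
theorem opt_q {β C₀ : ℝ} (hβ : 0 < β) : ∃ C : ℝ, 1 ≤ C ∧ ∃ D : ℕ, ∀ (N n : ℕ) (y η P : ℝ)
    (q : ℕ → ℝ), 0 < N → 0 < y → y ≤ 1 → 0 < η → η ≤ 1 → Path n q → q n ≤ 1 →
    GoodPath β n (gm n) q P → |P| ≤ C₀ →
    ∀ a ∈ Set.Icc (0 : ℝ) 1, ∀ b ∈ Set.Icc (0 : ℝ) 1,
      ∃ s, gIsOpt n (gm n) q η (Ey N β y a b) (spin (N := N)) s ∧
        (∀ j ≤ n, -η ≤ ∑ l ∈ Finset.Ico j (n + 1), (gm n (l + 1) - gm n l) *
          ((sy N n (gm n) β y a b s).Rl spin l - q l)) ∧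
        Vd (gm n) (sy N n (gm n) β y a b s) ≤ 6 / (n + 1) + C * ((n + 1) / (η * y)) ^ D /
          √√(N : ℝ) ∧
        Path n (fun l => (sy N n (gm n) β y a b s).Rl spin l) ∧
        (sy N n (gm n) β y a b s).Rl spin n ≤ 1 := by
  obtain ⟨C, hC1, hC⟩ := opt_q5 (C₀ := C₀) hβ
  exact ⟨C, hC1, 5, hC⟩

end Vale.Agent.P146.Pw2
end
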