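import Vale.Agent.P146.Bdl.B24
import Vale.Agent.P146.Bdl.B23
import Vale.Agent.P146.Bdl.B28
import Vale.Agent.P146.Bdl.B33
import Vale.Agent.P146.Bdl.B19
import Vale.Agent.P146.Bdl.B38
import Vale.Agent.P146.Bdl.B36
import Vale.Agent.P146.Bdl.B13
import Vale.Agent.P146.Bdl.B22
import Vale.Agent.P146.Bdl.B35
import Vale.Agent.P146.Bdl.B18
import Vale.Agent.P146.Bdl.B37
import Vale.Agent.P146.Bdl.B34
import Vale.Agent.P146.Bdl.B32
import Vale.Agent.P146.Bdl.B30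
import Vale.Agent.P146.Bdl.B39

set_option linter.all false

section

/-!
# P146, polynomial lower bound: the main inequality
-/

open MeasureTheory ProbabilityTheory Matrix Filter Topology

namespace Vale.Agent.P146.Pw2

open Vale.Agent.P157 (spin)
open Vale.Agent.P157.Lv
open Vale.Agent.P157.Par (Path Exponents topN lw spinPart)
open Vale.Agent.P146.Sk
open Vale.Agent.P166.F (Lam)
open Vale.Agent.P146.Sk.Gen (GI gz gl r0 gS gF gOb gIsOpt GD gV)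

variable {N K : ℕ} {y : ℝ}

/-- The value function. -/
noncomputable def Vq (N K : ℕ) (m q : ℕ → ℝ) (η β y a b : ℝ) : ℝ :=
  gV K m q η (Ey N β y a b) (spin (N := N))

/-- The data at a point. -/
def PtQ (N K : ℕ) (m q : ℕ → ℝ) (η β y v a b : ℝ) (s : ℕ → ℝ) : Prop :=
  gIsOpt K m q η (Ey N β y a b) (spin (N := N)) s ∧
    (∀ j ≤ K, -η ≤ ∑ l ∈ Finset.Ico j (K + 1), (m (l + 1) - m l) *
      ((sy N K m β y a b s).Rl spin l - q l)) ∧
    √(Vd m (sy N K m β y a b s)) ≤ v ∧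
    Path K (fun l => (sy N K m β y a b s).Rl spin l) ∧ (sy N K m β y a b s).Rl spin K ≤ 1

lemma tan_Vq (hy : 0 < y) (hN : 0 < N) {m q : ℕ → ℝ} (hm' : Exponents K m) {η β : ℝ}
    {a b a' b' : ℝ} {s s' : ℕ → ℝ} (hs : gIsOpt K m q η (Ey N β y a b) (spin (N := N)) s)
    (hs' : gIsOpt K m q η (Ey N β y a' b') (spin (N := N)) s') :
    Vq N K m q η β y a' b' - Vq N K m q η β y a b ≤
      β / 2 * ((a' - a) * Tw (sy N K m β y a' b' s') -
        (b' - b) * Tb y (sy N K m β y a' b' s')) := by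
  have e1 := hs.max s' hs'.pos
  have e2 := tangent_q β hy hN hm' a' b' a b s'
  unfold Vq
  rw [hs.gV_eq, hs'.gV_eq]
  unfold gOb at e1 ⊢
  linarith

lemma chain_Vq (hy : 0 < y) (hN : 0 < N) {m q : ℕ → ℝ} (hm' : Exponents K m) (hq : Path K q)
    (hq1 : q K ≤ 1) {η β : ℝ} (hβ : 0 < β) (hη : 0 ≤ η) {v w b : ℝ}
    (pt : ∀ a ∈ Set.Icc (0 : ℝ) 1, ∃ s, PtQ N K m q η β y v a b s)
    (hw : ∀ a ∈ Set.Icc (0 : ℝ) 1, ∀ s, PtQ N K m q η β y v a b s →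
      |Tw (sy N K m β y a b s) -
        β * a * trp K m (fun l => (sy N K m β y a b s).Rl spin l) 2| ≤ w) {a : ℝ}
    (ha : a ∈ Set.Icc (0 : ℝ) 1) :
    Vq N K m q η β y a b - Vq N K m q η β y 0 b ≤
      β ^ 2 / 2 * (trp K m q 2 + 2 * η) * a ^ 2 / 2 + β / 2 * w * a := by
  refine real_chain (A := β ^ 2 / 2 * (trp K m q 2 + 2 * η)) (B := β / 2 * w)
      (V := fun a => Vq N K m q η β y a b) (fun a a' ha0 haa ha1 => ?_) ha.1 ha.2
  obtain ⟨s, hs, -⟩ := pt a ⟨ha0, haa.trans ha1⟩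
  obtain ⟨s', hpt'⟩ := pt a' ⟨ha0.trans haa, ha1⟩
  obtain ⟨hs', htl, hv, hpR, hR1⟩ := hpt'
  have e2 := tan_Vq hy hN hm' hs hs'
  have e3 := schur_two hm' hq hq1 hpR hR1 hη htl
  have e4 := (abs_le.1 (hw a' ⟨ha0.trans haa, ha1⟩ s' ⟨hs', htl, hv, hpR, hR1⟩)).2
  have ha'0 : 0 ≤ a' := ha0.trans haa
  have e5 : β * a' * trp K m (fun l => (sy N K m β y a' b s').Rl spin l) 2 ≤
      β * a' * (trp K m q 2 + 2 * η) :=
    mul_le_mul_of_nonneg_left e3 (mul_nonneg hβ.le ha'0)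
  have e6 : Tw (sy N K m β y a' b s') ≤ β * a' * (trp K m q 2 + 2 * η) + w := by linarith only [e5, e4]
  have e7 : (a' - a) * Tw (sy N K m β y a' b s') ≤
      (a' - a) * (β * a' * (trp K m q 2 + 2 * η) + w) :=
    mul_le_mul_of_nonneg_left e6 (by linarith only [haa])
  have e8 : β / 2 * ((a' - a) * Tw (sy N K m β y a' b s')) ≤
      β / 2 * ((a' - a) * (β * a' * (trp K m q 2 + 2 * η) + w)) :=
    mul_le_mul_of_nonneg_left e7 (by positivity)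
  have e9 : β / 2 * ((a' - a) * (β * a' * (trp K m q 2 + 2 * η) + w)) =
      (a' - a) * (β ^ 2 / 2 * (trp K m q 2 + 2 * η) * a' + β / 2 * w) := by
    ring
  rw [e9] at e8
  rw [sub_self, zero_mul, sub_zero] at e2
  exact e2.trans e8

/-- The bound of the value function at `(a, b)`. -/
lemma Vqab_le (hy : 0 < y) (hN : 0 < N) {m q : ℕ → ℝ} (hm' : Exponents K m) (hq : Path K q)
    (hq1 : q K ≤ 1) {η β P : ℝ} (hβ : 0 < β) (hη : 0 ≤ η) (hg : GoodPath β K m q P) {v w b : ℝ}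
    (hb : b ∈ Set.Icc (0 : ℝ) 1) (hw0 : 0 ≤ w)
    (pt : ∀ a ∈ Set.Icc (0 : ℝ) 1, ∀ b ∈ Set.Icc (0 : ℝ) 1, ∃ s, PtQ N K m q η β y v a b s)
    (hw : ∀ a ∈ Set.Icc (0 : ℝ) 1, ∀ s, PtQ N K m q η β y v a b s →
      |Tw (sy N K m β y a b s) -
        β * a * trp K m (fun l => (sy N K m β y a b s).Rl spin l) 2| ≤ w) {a : ℝ}
    (ha : a ∈ Set.Icc (0 : ℝ) 1) :
    Vq N K m q η β y a b ≤ P - β ^ 2 / 4 * trp K m q 2 * (1 - a ^ 2) + β ^ 2 / 2 * η +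
      β / 2 * w := by
  have h01 : (0 : ℝ) ∈ Set.Icc (0 : ℝ) 1 := ⟨le_rfl, zero_le_one⟩
  obtain ⟨s₀, hs₀, -⟩ := pt 0 h01 0 h01
  obtain ⟨s, hs, -⟩ := pt 0 h01 b hb
  have e0 : Vq N K m q η β y 0 0 ≤ P - β ^ 2 / 4 * trp K m q 2 := by
    unfold Vq
    rw [hs₀.gV_eq]
    exact gOb_zero_le' hN hm' hg hη hs₀.pos
  have e1 := tan_Vq hy hN hm' hs₀ hs
  have e3 : 0 ≤ β / 2 * (b * Tb y (sy N K m β y 0 b s)) := by
    have h1 := (tb_bounds β hy hN hm' 0 b s).1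
    have h2 := hb.1
    (clear * - hβ h2 h1; positivity)
  rw [sub_self, zero_mul, zero_sub, sub_zero, mul_neg] at e1
  have e2 := chain_Vq hy hN hm' hq hq1 hβ hη (fun a ha => pt a ha b hb) hw ha
  have e4 : β / 2 * w * a ≤ β / 2 * w * 1 := mul_le_mul_of_nonneg_left ha.2 (by (clear * - hβ hw0; positivity))
  have h9 : a ^ 2 ≤ 1 := pow_le_one₀ ha.1 ha.2
  have h10 : β ^ 2 / 2 * η * a ^ 2 ≤ β ^ 2 / 2 * η * 1 :=
    mul_le_mul_of_nonneg_left h9 (by positivity)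
  have e5 : β ^ 2 / 2 * (trp K m q 2 + 2 * η) * a ^ 2 / 2 =
      β ^ 2 / 4 * trp K m q 2 * a ^ 2 + β ^ 2 / 2 * η * a ^ 2 := by ring
  have e6 : β ^ 2 / 4 * trp K m q 2 * (1 - a ^ 2) =
      β ^ 2 / 4 * trp K m q 2 - β ^ 2 / 4 * trp K m q 2 * a ^ 2 := by ring
  rw [e5] at e2
  rw [e6]
  linarith only [h10, e4, e2, e3, e1, e0]

lemma real_q1 {β C₁ s8 b' η ρ w R P p g V1b Va X Y : ℝ} (hβ : 0 < β)
    (h8 : s8 ≤ R) (hρ : ρ ≤ 4 * R) (hb : b' ≤ R) (hη : η ≤ R) (hw : w ≤ 4 * C₁ * R)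
    (hp : P ≤ p + s8) (hg : p - β / 2 * b' ≤ g) (hV1b : g - ρ ≤ V1b)
    (hVa : Va ≤ P - X + β ^ 2 / 2 * η + β / 2 * w) (hT1 : V1b - Va ≤ Y) :
    X - (5 + β / 2 + β ^ 2 / 2 + 2 * β * C₁) * R ≤ Y := by
  have e1 : β / 2 * b' ≤ β / 2 * R := mul_le_mul_of_nonneg_left hb (by positivity)
  have e2 : β ^ 2 / 2 * η ≤ β ^ 2 / 2 * R := mul_le_mul_of_nonneg_left hη (by positivity)
  have e3 : β / 2 * w ≤ β / 2 * (4 * C₁ * R) := mul_le_mul_of_nonneg_left hw (by positivity)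
  have e4 : (5 + β / 2 + β ^ 2 / 2 + 2 * β * C₁) * R =
      5 * R + β / 2 * R + β ^ 2 / 2 * R + β / 2 * (4 * C₁ * R) := by ring
  rw [e4]
  linarith only [e3, e2, e1, hT1, hVa, hV1b, hg, hp, hρ, h8]

/-- the difference of the traces -/
lemma real_q2 {β C₁ s8 b' η ρ w r P p g V1b Va T1 Q2 R2 : ℝ} (hβ : 0 < β) (hC₁ : 0 ≤ C₁)
    (hr0 : 0 < r) (hr2 : r ≤ 2) (hQ2 : Q2 ≤ 1)
    (h8 : s8 ≤ r ^ 2) (hρ : ρ ≤ 4 * r ^ 2) (hb : b' ≤ r ^ 2) (hη : η ≤ r ^ 2)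
    (hw : w ≤ 4 * C₁ * r ^ 2)
    (hp : P ≤ p + s8) (hg : p - β / 2 * b' ≤ g) (hV1b : g - ρ ≤ V1b)
    (hVa : Va ≤ P - β ^ 2 / 4 * Q2 * (1 - (1 - r / 2) ^ 2) + β ^ 2 / 2 * η + β / 2 * w)
    (hT1 : V1b - Va ≤ r / 2 * (β / 2 * T1)) (hT1R : T1 ≤ β * R2 + w) :
    Q2 - R2 ≤ (β / 4 + 4 * (5 + β / 2 + β ^ 2 / 2 + 2 * β * C₁) / β + 8 * C₁) / β * r := by
  have a1 := real_q1 (C₁ := C₁) hβ h8 hρ hb hη hw hp hg hV1b hVa hT1
  have a2 := real_a2 hβ hr0 hQ2 a1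
  have hE2 : r ^ 2 ≤ 2 * r := by
    rw [pow_two]
    exact mul_le_mul_of_nonneg_right hr2 hr0.le
  have a3 := real_a3 (C₁ := 4 * C₁) (E := r ^ 2) (R2 := R2) hβ (by positivity) hE2 a2
    (by linarith only [hT1R, hw])
  refine a3.trans (le_of_eq ?_)
  ring

/-- the coefficient -/
lemma real_q3 {β b ρ s8 η w₀ J T P p g V1b V10 : ℝ} (hβ : 0 < β) (hb : 0 < b)
    (hJ : p - g ≤ β * b / 2 * J) (hp : P ≤ p + s8) (hV1b : g - ρ ≤ V1b)
    (hV10 : V10 ≤ P + (β ^ 2 / 2 * η + β / 2 * w₀))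
    (hTc : V1b ≤ V10 - β / 2 * b * T) :
    T - 2 / (β * b) * (s8 + ρ + β ^ 2 / 2 * η + β / 2 * w₀) ≤ J := by
  have e1 : β * b / 2 * T - (s8 + ρ + β ^ 2 / 2 * η + β / 2 * w₀) ≤ β * b / 2 * J := by
    have : β * b / 2 * T = β / 2 * b * T := by ring
    linarith
  have e2 : β * b / 2 * (T - 2 / (β * b) * (s8 + ρ + β ^ 2 / 2 * η + β / 2 * w₀)) =
      β * b / 2 * T - (s8 + ρ + β ^ 2 / 2 * η + β / 2 * w₀) := by
    field_simp
  rw [← e2] at e1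
  exact le_of_mul_le_mul_left e1 (by positivity)

/-- The main inequality at a fixed `N`, the part with the free energies. -/
lemma main_qN (hy : 0 < y) (hN : 0 < N) {m q : ℕ → ℝ} (hm' : Exponents K m) (hq : Path K q)
    (hq1 : q K ≤ 1) {η β P : ℝ} (hβ : 0 < β) (hg : GoodPath β K m q P)
    {C₁ v ρ s8 b t r J : ℝ} (hC₁ : 0 ≤ C₁) (hv0 : 0 ≤ v)
    (hJJ : pN β N - gF K m (Ey N β y 1 b) (spin (N := N)) (fun _ => 0) ≤ β * b / 2 * J)
    (hw : ∀ (a b : ℝ) (s : ℕ → ℝ), a ∈ Set.Icc (0 : ℝ) 1 → b ∈ Set.Icc (0 : ℝ) 1 →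
      (∀ l ≤ K, 0 ≤ s l) →
      |Tw (sy N K m β y a b s) -
        β * a * trp K m (fun l => (sy N K m β y a b s).Rl spin l) 2| ≤
        C₁ * (√(Vd m (sy N K m β y a b s)) + b / y ^ 2))
    (pt : ∀ a ∈ Set.Icc (0 : ℝ) 1, ∀ b ∈ Set.Icc (0 : ℝ) 1, ∃ s, PtQ N K m q η β y v a b s)
    (hb : 0 < b) (hb1 : b ≤ 1) (hP : P ≤ pN β N + s8)
    (ht0 : 0 < t) (ht2 : 2 * (K + 1) * t ^ 2 ≤ ρ) (hη : η = t ^ 3) (hη0 : 0 < η) (hη1 : η ≤ 1)
    (hr0 : 0 < r) (hr2 : r ≤ 2) (h8 : s8 ≤ r ^ 2) (hρr : ρ ≤ 4 * r ^ 2) (hbr : b / y ≤ r ^ 2)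
    (hηr : η ≤ r ^ 2) (hwr : C₁ * (v + b / y ^ 2) ≤ 4 * C₁ * r ^ 2) :
    ∃ s : ℕ → ℝ, PtQ N K m q η β y v 1 b s ∧
      trp K m q 2 - trp K m (fun l => (sy N K m β y 1 b s).Rl spin l) 2 ≤
        (β / 4 + 4 * (5 + β / 2 + β ^ 2 / 2 + 2 * β * C₁) / β + 8 * C₁) / β * r ∧
      Tb y (sy N K m β y 1 b s) -
        2 / (β * b) * (s8 + ρ + β ^ 2 / 2 * η + β / 2 * (C₁ * v)) ≤ J := by
  have h01 : (0 : ℝ) ∈ Set.Icc (0 : ℝ) 1 := ⟨le_rfl, zero_le_one⟩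
  have h11 : (1 : ℝ) ∈ Set.Icc (0 : ℝ) 1 := ⟨zero_le_one, le_rfl⟩
  have hbI : b ∈ Set.Icc (0 : ℝ) 1 := ⟨hb.le, hb1⟩
  have haI : 1 - r / 2 ∈ Set.Icc (0 : ℝ) 1 := ⟨by linarith only [hr2], by linarith only [hr0]⟩
  have hw' : ∀ b ∈ Set.Icc (0 : ℝ) 1, ∀ a ∈ Set.Icc (0 : ℝ) 1, ∀ s,
      PtQ N K m q η β y v a b s → |Tw (sy N K m β y a b s) -
        β * a * trp K m (fun l => (sy N K m β y a b s).Rl spin l) 2| ≤
        C₁ * (v + b / y ^ 2) := by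
    intro b hb a ha s hs
    refine (hw a b s ha hb fun l hl => (hs.1.pos l hl).le).trans ?_
    exact mul_le_mul_of_nonneg_left (add_le_add hs.2.2.1 le_rfl) hC₁
  obtain ⟨s, hpt⟩ := pt 1 h11 b hbI
  obtain ⟨hs, htl, hv, hpR, hR1⟩ := hpt
  obtain ⟨s₁, hs₁, -⟩ := pt (1 - r / 2) haI b hbI
  obtain ⟨s₂, hs₂, -⟩ := pt 1 h11 0 h01
  obtain ⟨D, B, hD, -⟩ := gdq β hy hN hm' 1 b
  have hgV := hs.gF_zero_le_gV hD hq ht0 hη hη1
  have e0 := Vqab_le hy hN hm' hq hq1 hβ hη0.le hg h01 (w := C₁ * (v + 0 / y ^ 2))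
    (by (clear * - hC₁ hv0 hy; positivity)) pt (hw' 0 h01) h11
  have e1 := Vqab_le hy hN hm' hq hq1 hβ hη0.le hg hbI (w := C₁ * (v + b / y ^ 2))
    (by (clear * - hC₁ hv0 hb hy; positivity)) pt (hw' b hbI) haI
  have e2 := tan_Vq hy hN hm' hs₁ hs
  have e3 := tan_Vq hy hN hm' hs₂ hs
  have e4 := tangent_q β hy hN hm' 1 0 1 b (fun _ => 0)
  rw [gF_pN β hy hN hm'] at e4
  have e5 := (tb_bounds β hy hN hm' 1 0 (fun _ => 0)).2
  have q2 : trp K m q 2 ≤ 1 := trp_le_one hm' hq hq1 2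
  have g1 : pN β N - β / 2 * (b / y) ≤
      gF K m (Ey N β y 1 b) (spin (N := N)) (fun _ => 0) := by
    have f1 : β / 2 * (b * Tb y (sy N K m β y 1 0 (fun _ => 0))) ≤ β / 2 * (b * (1 / y)) :=
      mul_le_mul_of_nonneg_left (mul_le_mul_of_nonneg_left e5 hb.le) (by positivity)
    rw [sub_self, zero_mul, zero_sub, sub_zero] at e4
    rw [mul_one_div] at f1
    linarith only [f1, e4]
  have g2 : gF K m (Ey N β y 1 b) (spin (N := N)) (fun _ => 0) - ρ ≤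
      Vq N K m q η β y 1 b := by
    unfold Vq
    linarith only [hgV, ht2]
  have g3 : Vq N K m q η β y 1 0 ≤ P + (β ^ 2 / 2 * η + β / 2 * (C₁ * v)) := by
    rw [one_pow, sub_self, mul_zero, sub_zero, zero_div, add_zero] at e0
    linarith only [e0]
  have g5 : Vq N K m q η β y 1 b - Vq N K m q η β y (1 - r / 2) b ≤
      r / 2 * (β / 2 * Tw (sy N K m β y 1 b s)) := by
    rw [sub_self, zero_mul, sub_zero, sub_sub_cancel] at e2
    linarith only [e2]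
  have g6 : Vq N K m q η β y 1 b ≤
      Vq N K m q η β y 1 0 - β / 2 * b * Tb y (sy N K m β y 1 b s) := by
    rw [sub_self, zero_mul, zero_sub, sub_zero] at e3
    linarith only [e3]
  have g8 : Tw (sy N K m β y 1 b s) ≤
      β * trp K m (fun l => (sy N K m β y 1 b s).Rl spin l) 2 + C₁ * (v + b / y ^ 2) := by
    have := (abs_le.1 (hw' b hbI 1 h11 s ⟨hs, htl, hv, hpR, hR1⟩)).2
    rw [mul_one] at this
    linarith only [this]
  refine ⟨s, ⟨hs, htl, hv, hpR, hR1⟩, ?_, ?_⟩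
  · exact real_q2 hβ hC₁ hr0 hr2 q2 h8 hρr hbr hηr hwr hP g1 g2 e1 g5 g8
  · exact real_q3 hβ hb hJJ hP g2 g3 g6

/-- Bookkeeping of the powers of `s`. -/
lemma powers {s y : ℝ} (hs : 0 < s) (hy : 0 < y) (hy1 : y ≤ 1) (hsy : s ≤ y) :
    s ^ 6 ≤ (s / y) ^ 2 ∧ 4 * s ^ 4 ≤ 4 * (s / y) ^ 2 ∧ s ^ 2 / y ≤ (s / y) ^ 2 ∧
    s ^ 18 ≤ (s / y) ^ 2 ∧ s ^ 2 / y ^ 2 = (s / y) ^ 2 ∧ s ^ 4 ≤ (s / y) ^ 2 ∧ s ^ 2 ≤ s ∧
    s ^ 4 ≤ s ^ 2 ∧ s ^ 6 ≤ s ^ 4 ∧ s ^ 18 ≤ s ^ 4 := by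
  have hs1 : s ≤ 1 := hsy.trans hy1
  have e0 : s ^ 2 / y ^ 2 = (s / y) ^ 2 := by rw [div_pow]
  have e1 : s ^ 2 ≤ (s / y) ^ 2 := by
    rw [← e0, le_div_iff₀ (by positivity)]
    calc s ^ 2 * y ^ 2 ≤ s ^ 2 * 1 := mul_le_mul_of_nonneg_left (pow_le_one₀ hy.le hy1)
          (by positivity)
      _ = s ^ 2 := mul_one _
  have e2 : s ^ 4 ≤ s ^ 2 := pow_le_pow_of_le_one hs.le hs1 (by norm_num)
  have e3 : s ^ 6 ≤ s ^ 4 := pow_le_pow_of_le_one hs.le hs1 (by norm_num)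
  have e4 : s ^ 18 ≤ s ^ 4 := pow_le_pow_of_le_one hs.le hs1 (by norm_num)
  have e5 : s ^ 2 ≤ s := by
    calc s ^ 2 ≤ s ^ 1 := pow_le_pow_of_le_one hs.le hs1 (by norm_num)
      _ = s := pow_one s
  refine ⟨by linarith only [e3, e2, e1], by linarith only [e2, e1], ?_, by linarith only [e4, e2, e1], e0, by linarith only [e2, e1], e5, e2, e3, e4⟩
  rw [← e0]
  refine div_le_div_of_nonneg_left (by positivity) (by positivity) ?_
  calc y ^ 2 ≤ y ^ 1 := pow_le_pow_of_le_one hy.le hy1 (by norm_num)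
    _ = y := pow_one y

lemma sqrt_sqrt_le {C s : ℝ} {D D₃ N : ℕ} (hs : 0 < s) (hs1 : s ≤ 1) (hC : 0 < C)
    (hD : 4 * D₃ ≤ D) (hN : C ^ 4 ≤ N * s ^ D) : C / s ^ D₃ ≤ √√(N : ℝ) := by
  have h1 : (C / s ^ D₃) ^ 4 ≤ N := by
    rw [div_pow, div_le_iff₀ (by positivity), ← pow_mul]
    refine hN.trans (mul_le_mul_of_nonneg_left ?_ (Nat.cast_nonneg N))
    exact pow_le_pow_of_le_one hs.le hs1 (by omega)
  have h2 : 0 ≤ C / s ^ D₃ := by positivity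
  refine Real.le_sqrt_of_sq_le (Real.le_sqrt_of_sq_le ?_)
  rw [← pow_mul]
  exact h1

/-- the deviations -/
lemma vd_le {C s y V : ℝ} {D₃ D N n : ℕ} (hs : 0 < s) (hsy : s ≤ y) (hy1 : y ≤ 1)
    (hC : 1 ≤ C) (hn1 : 1 / ((n : ℝ) + 1) ≤ s ^ 8) (hn2 : ((n : ℝ) + 1) * s ^ 8 ≤ 2)
    (hD : 4 * (27 * D₃ + 8) ≤ D) (hN : (C * 2 ^ D₃) ^ 4 ≤ N * s ^ D)
    (hV : V ≤ 6 / ((n : ℝ) + 1) + C * (((n : ℝ) + 1) / (s ^ 18 * y)) ^ D₃ / √√(N : ℝ)) :
    √V ≤ 3 * s ^ 4 := by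
  have hs1 : s ≤ 1 := hsy.trans hy1
  have hy : 0 < y := hs.trans_le hsy
  have hn0 : (0 : ℝ) < (n : ℝ) + 1 := by positivity
  have h1 := sqrt_sqrt_le (D₃ := 27 * D₃ + 8) hs hs1 (by positivity : 0 < C * 2 ^ D₃) hD hN
  have hX : 0 < C * 2 ^ D₃ / s ^ (27 * D₃ + 8) := by positivity
  have hNN : 0 < √√(N : ℝ) := hX.trans_le h1
  have h2 : ((n : ℝ) + 1) / (s ^ 18 * y) ≤ 2 / s ^ 27 := by
    rw [div_le_div_iff₀ (by positivity) (by positivity)]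
    calc ((n : ℝ) + 1) * s ^ 27 = ((n : ℝ) + 1) * s ^ 8 * (s ^ 18 * s) := by ring
      _ ≤ 2 * (s ^ 18 * y) := by gcongr
  have h3 : (((n : ℝ) + 1) / (s ^ 18 * y)) ^ D₃ ≤ (2 / s ^ 27) ^ D₃ :=
    pow_le_pow_left₀ (by positivity) h2 _
  have h4 : C * (((n : ℝ) + 1) / (s ^ 18 * y)) ^ D₃ / √√(N : ℝ) ≤ s ^ 8 := by
    rw [div_le_iff₀ hNN]
    calc C * (((n : ℝ) + 1) / (s ^ 18 * y)) ^ D₃ ≤ C * (2 / s ^ 27) ^ D₃ := by gcongr
      _ = s ^ 8 * (C * 2 ^ D₃ / s ^ (27 * D₃ + 8)) := by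
          rw [div_pow, ← pow_mul, pow_add]
          field_simp
      _ ≤ s ^ 8 * √√(N : ℝ) := by gcongr
  have h5 : 6 / ((n : ℝ) + 1) = 6 * (1 / ((n : ℝ) + 1)) := by ring
  refine Real.sqrt_le_iff.2 ⟨by positivity, ?_⟩
  have h6 : (3 * s ^ 4) ^ 2 = 9 * s ^ 8 := by ring
  have h7 : 0 < s ^ 8 := by positivity
  rw [h6]
  linarith only [h7, h5, h4, hV, hn1]

/-- the final bookkeeping -/
lemma real_q4 {β C₂ M₂ D₁ s y κ i J T Pq PR Vs dQ : ℝ} {D : ℕ} (hβ : 0 < β) (hs : 0 < s)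
    (hy : 0 < y) (hy1 : y ≤ 1) (hsy : s ≤ y) (hC₂ : 0 ≤ C₂) (hM₂ : 0 ≤ M₂) (hD₁ : 0 ≤ D₁)
    (hD : 5 ≤ D) (hκ : κ = √y / 4) (hi : i ≤ s)
    (hVs : Vs ≤ 3 * s ^ 4)
    (h1 : T - M₂ * s ^ 2 ≤ J)
    (h2 : PR - C₂ / κ ^ 2 * (1 / y * (Vs + s ^ 2 / y ^ 2) + i / y ^ 4) ≤ T)
    (h3 : Pq - 8 * β / κ ^ 3 * (dQ / 2 + 2 * s ^ 18) ≤ PR)
    (h4 : dQ ≤ D₁ * (s / y)) :
    Pq - (M₂ + 80 * C₂ + 512 * β * (D₁ / 2 + 2)) * s / y ^ D ≤ J := by
  have hs1 : s ≤ 1 := hsy.trans hy1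
  have hsq : 0 < √y := Real.sqrt_pos.2 hy
  have hκ0 : 0 < κ := by rw [hκ]; positivity
  have hy5 : y ^ 5 ≤ 1 := pow_le_one₀ hy.le hy1
  have hX : 0 < s / y ^ 5 := by positivity
  have hs5 : s ≤ s / y ^ 5 := by
    rw [le_div_iff₀ (by positivity)]
    calc s * y ^ 5 ≤ s * 1 := mul_le_mul_of_nonneg_left hy5 hs.le
      _ = s := mul_one s
  -- first error
  have f1 : M₂ * s ^ 2 ≤ M₂ * (s / y ^ 5) := by
    refine mul_le_mul_of_nonneg_left (le_trans ?_ hs5) hM₂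
    calc s ^ 2 ≤ s ^ 1 := pow_le_pow_of_le_one hs.le hs1 (by norm_num)
      _ = s := pow_one s
  -- second error
  have hk2 : C₂ / κ ^ 2 = 16 * C₂ / y := by
    rw [hκ, div_pow, Real.sq_sqrt hy.le]
    field_simp
    norm_num
  have f2 : 1 / y * (Vs + s ^ 2 / y ^ 2) + i / y ^ 4 ≤ 5 * (s / y ^ 4) := by
    have g1 : Vs ≤ 3 * s := by
      refine hVs.trans (mul_le_mul_of_nonneg_left ?_ (by norm_num))
      calc s ^ 4 ≤ s ^ 1 := pow_le_pow_of_le_one hs.le hs1 (by norm_num)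
        _ = s := pow_one s
    have g2 : 1 / y * Vs ≤ 3 * (s / y ^ 4) := by
      calc 1 / y * Vs ≤ 1 / y * (3 * s) := mul_le_mul_of_nonneg_left g1 (by positivity)
        _ = 3 * (s / y) := by ring
        _ ≤ 3 * (s / y ^ 4) := by
            refine mul_le_mul_of_nonneg_left (div_le_div_of_nonneg_left hs.le (by positivity) ?_)
              (by norm_num)
            calc y ^ 4 ≤ y ^ 1 := pow_le_pow_of_le_one hy.le hy1 (by norm_num)
              _ = y := pow_one y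
    have g3 : 1 / y * (s ^ 2 / y ^ 2) ≤ s / y ^ 4 := by
      have e1 : 1 / y * (s ^ 2 / y ^ 2) = s / y ^ 3 * s := by field_simp
      have e2 : s / y ^ 4 = s / y ^ 3 * (1 / y) := by field_simp
      rw [e1, e2]
      refine mul_le_mul_of_nonneg_left ?_ (by positivity)
      rw [le_div_iff₀ hy]
      (by_contra nlg; linarith only [nlg, mul_nonneg (sub_nonneg.2 hy1) (sub_nonneg.2 hy1), mul_nonneg (le_of_lt (sub_pos.2 hy)) (sub_nonneg.2 hs1), mul_nonneg (le_of_lt (sub_pos.2 hy)) (sub_nonneg.2 hy1), mul_nonneg (le_of_lt (sub_pos.2 (not_le.1 nlg))) (sub_nonneg.2 hy1), mul_pos (sub_pos.2 (not_le.1 nlg)) (sub_pos.2 hy)])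
    have g4 : i / y ^ 4 ≤ s / y ^ 4 := div_le_div_of_nonneg_right hi (by positivity)
    rw [mul_add]
    linarith only [g4, g3, g2]
  have f3 : C₂ / κ ^ 2 * (1 / y * (Vs + s ^ 2 / y ^ 2) + i / y ^ 4) ≤
      80 * C₂ * (s / y ^ 5) := by
    rw [hk2]
    calc 16 * C₂ / y * (1 / y * (Vs + s ^ 2 / y ^ 2) + i / y ^ 4) ≤
          16 * C₂ / y * (5 * (s / y ^ 4)) := mul_le_mul_of_nonneg_left f2 (by positivity)
      _ = 80 * C₂ * (s / y ^ 5) := by field_simp; ring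
  -- third error
  have hk3 : 8 * β / κ ^ 3 ≤ 512 * β / y ^ 2 := by
    have e1 : κ ^ 3 = y * √y / 64 := by
      rw [hκ, div_pow]
      have : √y ^ 3 = √y ^ 2 * √y := by ring
      rw [this, Real.sq_sqrt hy.le]
      norm_num
    have e2 : y ≤ √y := by
      apply Real.le_sqrt_of_sq_le
      (by_contra nlg; linarith only [nlg, mul_nonneg (le_of_lt (sub_pos.2 hy)) (sub_nonneg.2 hy1), mul_nonneg (le_of_lt (sub_pos.2 (not_le.1 nlg))) (sub_nonneg.2 hy1), mul_pos (sub_pos.2 (not_le.1 nlg)) (sub_pos.2 hy)])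
    rw [e1, div_le_div_iff₀ (by positivity) (by positivity)]
    have e3 : y ^ 2 ≤ y * √y := by
      rw [pow_two]
      exact mul_le_mul_of_nonneg_left e2 hy.le
    have e4 : 8 * β * y ^ 2 ≤ 8 * β * (y * √y) := mul_le_mul_of_nonneg_left e3 (by positivity)
    linarith only [e4]
  have f4 : dQ / 2 + 2 * s ^ 18 ≤ (D₁ / 2 + 2) * (s / y) := by
    have e1 : s ^ 18 ≤ s / y := by
      have : s ^ 18 ≤ s := by
        calc s ^ 18 ≤ s ^ 1 := pow_le_pow_of_le_one hs.le hs1 (by norm_num)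
          _ = s := pow_one s
      refine this.trans ?_
      rw [le_div_iff₀ hy]
      calc s * y ≤ s * 1 := mul_le_mul_of_nonneg_left hy1 hs.le
        _ = s := mul_one s
    linarith only [e1, h4]
  have f5 : 8 * β / κ ^ 3 * (dQ / 2 + 2 * s ^ 18) ≤
      512 * β * (D₁ / 2 + 2) * (s / y ^ 5) := by
    calc 8 * β / κ ^ 3 * (dQ / 2 + 2 * s ^ 18) ≤
          8 * β / κ ^ 3 * ((D₁ / 2 + 2) * (s / y)) :=
          mul_le_mul_of_nonneg_left f4 (by positivity)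
      _ ≤ 512 * β / y ^ 2 * ((D₁ / 2 + 2) * (s / y)) :=
          mul_le_mul_of_nonneg_right hk3 (by positivity)
      _ = 512 * β * (D₁ / 2 + 2) * (s / y ^ 3) := by field_simp
      _ ≤ 512 * β * (D₁ / 2 + 2) * (s / y ^ 5) := by
          refine mul_le_mul_of_nonneg_left (div_le_div_of_nonneg_left hs.le (by positivity) ?_)
            (by positivity)
          exact pow_le_pow_of_le_one hy.le hy1 (by norm_num)
  have f6 : (M₂ + 80 * C₂ + 512 * β * (D₁ / 2 + 2)) * s / y ^ D ≥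
      (M₂ + 80 * C₂ + 512 * β * (D₁ / 2 + 2)) * (s / y ^ 5) := by
    rw [mul_div_assoc]
    refine mul_le_mul_of_nonneg_left (div_le_div_of_nonneg_left hs.le (by positivity) ?_)
      (by positivity)
    exact pow_le_pow_of_le_one hy.le hy1 hD
  linarith only [f6, f5, f3, f1, h3, h2, h1]

lemma chi_le_of_tails {m q R : ℕ → ℝ} {η : ℝ}
    (h : ∀ j ≤ K, -η ≤ ∑ l ∈ Finset.Ico j (K + 1), (m (l + 1) - m l) * (R l - q l)) :
    Sk.chi K m R ≤ Sk.chi K m q + η := by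
  have h0 := h 0 (Nat.zero_le K)
  have e : ∑ l ∈ Finset.Ico 0 (K + 1), (m (l + 1) - m l) * (R l - q l) =
      ∑ l ∈ Finset.range (K + 1), (m (l + 1) - m l) * R l -
      ∑ l ∈ Finset.range (K + 1), (m (l + 1) - m l) * q l := by
    rw [← Finset.sum_sub_distrib, Finset.range_eq_Ico]
    exact Finset.sum_congr rfl fun l _ => by ring
  rw [e] at h0
  unfold Sk.chi
  linarith

/-- the facts on `ζ` used below -/
lemma zeta_use {ζ : ℂ} {y β χq χR η : ℝ} (hβ : 0 < β) (hy : 0 < y) (hy1 : y ≤ 1)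
    (h1 : 1 + √y / 2 ≤ ζ.re) (h2 : ζ.re ≤ 1 + √y) (h3 : √y / 2 ≤ ζ.im) (h4 : ζ.im ≤ 2 * √y)
    (hq : β * χq ≤ 1 + √y / 16) (hR : χR ≤ χq + η) (hη : β * η ≤ √y / 16) :
    ‖ζ‖ ≤ 4 ∧ β * (χq + η) + √y / 4 ≤ ζ.re ∧ β * χR + √y / 4 ≤ ‖ζ‖ := by
  have hs0 : 0 < √y := Real.sqrt_pos.2 hy
  have hs1 : √y ≤ 1 := by
    rw [← Real.sqrt_one]
    exact Real.sqrt_le_sqrt hy1
  have e1 : ‖ζ‖ ≤ |ζ.re| + |ζ.im| := Complex.norm_le_abs_re_add_abs_im ζ
  have e2 : |ζ.re| ≤ ‖ζ‖ := Complex.abs_re_le_norm ζ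
  have e3 : |ζ.re| = ζ.re := abs_of_nonneg (by linarith only [hs0, h1])
  have e4 : |ζ.im| = ζ.im := abs_of_nonneg (by linarith only [hs0, h3])
  rw [e3, e4] at e1
  rw [e3] at e2
  have e5 : β * (χq + η) = β * χq + β * η := by ring
  have e6 : β * χR ≤ β * (χq + η) := mul_le_mul_of_nonneg_left hR hβ.le
  refine ⟨by linarith only [e1, hs1, h4, h2], by linarith, by linarith only [e6, e2, hs0, hη, hq, h1]⟩

lemma mq_eta {β s y : ℝ} (hβ : 0 < β) (hs : 0 < s) (hy : 0 < y) (hy1 : y ≤ 1) (hsy : s ≤ y)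
    (h3 : y ≤ 1 / (16 * β)) : β * s ^ 18 ≤ √y / 16 := by
  have hs1 : s ≤ 1 := hsy.trans hy1
  have h1 : s ^ 18 ≤ y * y := by
    calc s ^ 18 ≤ s ^ 2 := pow_le_pow_of_le_one hs.le hs1 (by norm_num)
      _ ≤ y ^ 2 := pow_le_pow_left₀ hs.le hsy 2
      _ = y * y := by ring
  have h2 : β * y ≤ 1 / 16 := by
    calc β * y ≤ β * (1 / (16 * β)) := mul_le_mul_of_nonneg_left h3 hβ.le
      _ = 1 / 16 := by field_simp
  have h4 : y ≤ √y := by
    apply Real.le_sqrt_of_sq_le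
    (by_contra nlg; linarith only [nlg, mul_nonneg (le_of_lt (sub_pos.2 hy)) (sub_nonneg.2 hy1), mul_nonneg (le_of_lt (sub_pos.2 (not_le.1 nlg))) (sub_nonneg.2 hy1), mul_pos (sub_pos.2 (not_le.1 nlg)) (sub_pos.2 hy)])
  calc β * s ^ 18 ≤ β * (y * y) := mul_le_mul_of_nonneg_left h1 hβ.le
    _ = (β * y) * y := by ring
    _ ≤ 1 / 16 * √y := mul_le_mul h2 h4 hy.le (by norm_num)
    _ = √y / 16 := by ring

lemma mq_M2 {β s C₁ : ℝ} (hβ : 0 < β) (hs : 0 < s) (p9 : s ^ 6 ≤ s ^ 4)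
    (p10 : s ^ 18 ≤ s ^ 4) :
    2 / (β * s ^ 2) * (s ^ 6 + 4 * s ^ 4 + β ^ 2 / 2 * s ^ 18 + β / 2 * (C₁ * (3 * s ^ 4))) ≤
      2 / β * (5 + β ^ 2 / 2 + 3 / 2 * β * C₁) * s ^ 2 := by
  have e1 : s ^ 6 + 4 * s ^ 4 + β ^ 2 / 2 * s ^ 18 + β / 2 * (C₁ * (3 * s ^ 4)) ≤
      (5 + β ^ 2 / 2 + 3 / 2 * β * C₁) * s ^ 4 := by
    have e2 : β ^ 2 / 2 * s ^ 18 ≤ β ^ 2 / 2 * s ^ 4 :=
      mul_le_mul_of_nonneg_left p10 (by positivity)
    have e3 : (5 + β ^ 2 / 2 + 3 / 2 * β * C₁) * s ^ 4 =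
        5 * s ^ 4 + β ^ 2 / 2 * s ^ 4 + β / 2 * (C₁ * (3 * s ^ 4)) := by ring
    rw [e3]
    linarith only [e2, p9]
  calc 2 / (β * s ^ 2) * (s ^ 6 + 4 * s ^ 4 + β ^ 2 / 2 * s ^ 18 +
        β / 2 * (C₁ * (3 * s ^ 4))) ≤
      2 / (β * s ^ 2) * ((5 + β ^ 2 / 2 + 3 / 2 * β * C₁) * s ^ 4) :=
        mul_le_mul_of_nonneg_left e1 (by positivity)
    _ = 2 / β * (5 + β ^ 2 / 2 + 3 / 2 * β * C₁) * s ^ 2 := by field_simp

/-- consequences of the size of `N` -/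
lemma mq_N {C s y : ℝ} {D N : ℕ} (hN : 0 < N) (hs : 0 < s) (hsy : s ≤ y) (hy1 : y ≤ 1)
    (hC1 : 1 ≤ C) (hD6 : 6 ≤ D) (hNs : C ≤ N * s ^ D) :
    C ≤ N * y ^ 6 ∧ 1 / (N : ℝ) ≤ s := by
  have hs1 : s ≤ 1 := hsy.trans hy1
  have hN0 : (0 : ℝ) < N := by exact_mod_cast hN
  refine ⟨hNs.trans (mul_le_mul_of_nonneg_left ?_ hN0.le), ?_⟩
  · calc s ^ D ≤ s ^ 6 := pow_le_pow_of_le_one hs.le hs1 hD6
      _ ≤ y ^ 6 := pow_le_pow_left₀ hs.le hsy 6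
  · rw [div_le_iff₀ hN0]
    have h1 : (1 : ℝ) ≤ N * s ^ D := hC1.trans hNs
    have h2 : s ^ D ≤ s := by
      calc s ^ D ≤ s ^ 1 := pow_le_pow_of_le_one hs.le hs1 (by omega)
        _ = s := pow_one s
    have h3 := mul_le_mul_of_nonneg_left h2 hN0.le
    linarith only [h3, h1]

lemma mq_t {s : ℝ} {n : ℕ} (hn2 : ((n : ℝ) + 1) * s ^ 8 ≤ 2) :
    2 * ((n : ℝ) + 1) * (s ^ 6) ^ 2 ≤ 4 * s ^ 4 := by
  have e : 2 * ((n : ℝ) + 1) * (s ^ 6) ^ 2 = 2 * (((n : ℝ) + 1) * s ^ 8) * s ^ 4 := by ring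
  rw [e]
  have := mul_le_mul_of_nonneg_right hn2 (show 0 ≤ s ^ 4 by positivity)
  linarith

lemma mq_w {C₁ s y : ℝ} (hC₁ : 1 ≤ C₁) (p5 : s ^ 2 / y ^ 2 = (s / y) ^ 2)
    (p6 : s ^ 4 ≤ (s / y) ^ 2) : C₁ * (3 * s ^ 4 + s ^ 2 / y ^ 2) ≤ 4 * C₁ * (s / y) ^ 2 := by
  rw [p5]
  have : C₁ * (3 * s ^ 4 + (s / y) ^ 2) ≤ C₁ * (3 * (s / y) ^ 2 + (s / y) ^ 2) :=
    mul_le_mul_of_nonneg_left (by linarith) (by linarith only [hC₁])
  linarith only [this]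

/-- The first half of the main inequality. -/
lemma mq_first {β : ℝ} (hβ : 0 < β) {C₁ C₃ : ℝ} {D₃ D N n : ℕ} {s P J : ℝ} {q : ℕ → ℝ}
    (hC₁ : 1 ≤ C₁) (hC₃ : 1 ≤ C₃)
    (hw : ∀ (a b : ℝ) (s : ℕ → ℝ), a ∈ Set.Icc (0 : ℝ) 1 → b ∈ Set.Icc (0 : ℝ) 1 →
      (∀ l ≤ n, 0 ≤ s l) →
      |Tw (sy N n (gm n) β y a b s) -
        β * a * trp n (gm n) (fun l => (sy N n (gm n) β y a b s).Rl spin l) 2| ≤
        C₁ * (√(Vd (gm n) (sy N n (gm n) β y a b s)) + b / y ^ 2))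
    (ho : ∀ a ∈ Set.Icc (0 : ℝ) 1, ∀ b ∈ Set.Icc (0 : ℝ) 1,
      ∃ s', gIsOpt n (gm n) q (s ^ 18) (Ey N β y a b) (spin (N := N)) s' ∧
        (∀ j ≤ n, -(s ^ 18) ≤ ∑ l ∈ Finset.Ico j (n + 1), (gm n (l + 1) - gm n l) *
          ((sy N n (gm n) β y a b s').Rl spin l - q l)) ∧
        Vd (gm n) (sy N n (gm n) β y a b s') ≤ 6 / (n + 1) +
          C₃ * ((n + 1) / (s ^ 18 * y)) ^ D₃ / √√(N : ℝ) ∧
        Path n (fun l => (sy N n (gm n) β y a b s').Rl spin l) ∧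
        (sy N n (gm n) β y a b s').Rl spin n ≤ 1)
    (hN : 0 < N) (hy : 0 < y) (hy1 : y ≤ 1) (hs : 0 < s) (hsy : s ≤ y)
    (hn1 : 1 / ((n : ℝ) + 1) ≤ s ^ 8) (hn2 : ((n : ℝ) + 1) * s ^ 8 ≤ 2)
    (hDD : 4 * (27 * D₃ + 8) ≤ D) (hNs : (C₃ * 2 ^ D₃) ^ 4 ≤ N * s ^ D) (hq : Path n q)
    (hq1 : q n ≤ 1) (hg : GoodPath β n (gm n) q P) (hP : P ≤ pN β N + s ^ 6)
    (hJJ : pN β N - gF n (gm n) (Ey N β y 1 (s ^ 2)) (spin (N := N)) (fun _ => 0) ≤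
      β * s ^ 2 / 2 * J) :
    ∃ s' : ℕ → ℝ, PtQ N n (gm n) q (s ^ 18) β y (3 * s ^ 4) 1 (s ^ 2) s' ∧
      trp n (gm n) q 2 - trp n (gm n) (fun l => (sy N n (gm n) β y 1 (s ^ 2) s').Rl spin l) 2 ≤
        (β / 4 + 4 * (5 + β / 2 + β ^ 2 / 2 + 2 * β * C₁) / β + 8 * C₁) / β * (s / y) ∧
      Tb y (sy N n (gm n) β y 1 (s ^ 2) s') -
        2 / β * (5 + β ^ 2 / 2 + 3 / 2 * β * C₁) * s ^ 2 ≤ J := by
  have hs1 : s ≤ 1 := hsy.trans hy1
  obtain ⟨p1, p2, p3, p4, p5, p6, p7, p8, p9, p10⟩ := powers hs hy hy1 hsy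
  have pt : ∀ a ∈ Set.Icc (0 : ℝ) 1, ∀ b ∈ Set.Icc (0 : ℝ) 1,
      ∃ s', PtQ N n (gm n) q (s ^ 18) β y (3 * s ^ 4) a b s' := by
    intro a ha b hb
    obtain ⟨s', h1, h2, h3, h4, h5⟩ := ho a ha b hb
    exact ⟨s', h1, h2, vd_le hs hsy hy1 hC₃ hn1 hn2 hDD hNs h3, h4, h5⟩
  obtain ⟨s', hpt, hdQ, hJ⟩ := main_qN (K := n) (m := gm n) (q := q) (η := s ^ 18) (β := β)
    (P := P) (C₁ := C₁) (v := 3 * s ^ 4) (ρ := 4 * s ^ 4) (s8 := s ^ 6) (b := s ^ 2)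
    (t := s ^ 6) (r := s / y) hy hN (gm_exponents n) hq hq1 hβ hg (by linarith only [hC₁]) (by positivity)
    hJJ hw pt (by positivity) (pow_le_one₀ hs.le hs1) hP (by positivity) (mq_t hn2) (by ring)
    (by positivity) (pow_le_one₀ hs.le hs1) (by positivity)
    (((div_le_one hy).2 hsy).trans (by norm_num)) p1 p2 p3 p4 (mq_w hC₁ p5 p6)
  exact ⟨s', hpt, hdQ, le_trans (sub_le_sub_left (mq_M2 hβ hs p9 p10) _) hJ⟩

/-- The second half of the main inequality. -/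
lemma mq_second {β : ℝ} (hβ : 0 < β) {C₂ M₂ D₁ : ℝ} {D N n : ℕ} {s J : ℝ} {q s' : ℕ → ℝ}
    (hC₂ : 0 ≤ C₂) (hM₂ : 0 ≤ M₂) (hD₁ : 0 ≤ D₁)
    (hb : (∀ l ≤ n, 0 ≤ s' l) → 0 < √y / 4 → √y / 4 ≤ 1 →
      β * 1 * Sk.chi n (gm n) (fun l => (sy N n (gm n) β y 1 (s ^ 2) s').Rl spin l) + √y / 4 ≤
        ‖zt N y‖ →
      |Tb y (sy N n (gm n) β y 1 (s ^ 2) s') -
        PHI (zt N y) (β * 1) n (gm n)
          (fun l => (sy N n (gm n) β y 1 (s ^ 2) s').Rl spin l)| ≤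
        C₂ / (√y / 4) ^ 2 * (1 / y * (√(Vd (gm n) (sy N n (gm n) β y 1 (s ^ 2) s')) +
          s ^ 2 / y ^ 2) + 1 / (N * y ^ 4)))
    (z1 : 1 + √y / 2 ≤ (zt N y).re) (z2 : (zt N y).re ≤ 1 + √y) (z3 : √y / 2 ≤ (zt N y).im)
    (z4 : (zt N y).im ≤ 2 * √y)
    (hy : 0 < y) (hy1 : y ≤ 1) (hs : 0 < s) (hsy : s ≤ y) (hD6 : 6 ≤ D)
    (hi : 1 / (N : ℝ) ≤ s) (hyβ : y ≤ 1 / (16 * β)) (hq : Path n q) (hq1 : q n ≤ 1)
    (hchi : β * Sk.chi n (gm n) q ≤ 1 + √y / 16)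
    (hpt : PtQ N n (gm n) q (s ^ 18) β y (3 * s ^ 4) 1 (s ^ 2) s')
    (hdQ : trp n (gm n) q 2 -
      trp n (gm n) (fun l => (sy N n (gm n) β y 1 (s ^ 2) s').Rl spin l) 2 ≤ D₁ * (s / y))
    (hJ : Tb y (sy N n (gm n) β y 1 (s ^ 2) s') - M₂ * s ^ 2 ≤ J) :
    PHI (zt N y) β n (gm n) q - (M₂ + 80 * C₂ + 512 * β * (D₁ / 2 + 2)) * s / y ^ D ≤
      J := by
  obtain ⟨hs', htl, hv, hpR, hR1⟩ := hpt
  have hη := mq_eta hβ hs hy hy1 hsy hyβ
  obtain ⟨u1, u2, u3⟩ := zeta_use hβ hy hy1 z1 z2 z3 z4 hchi (chi_le_of_tails htl) hη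
  have hsq : 0 < √y := Real.sqrt_pos.2 hy
  have hsq1 : √y ≤ 1 := by
    rw [← Real.sqrt_one]
    exact Real.sqrt_le_sqrt hy1
  have hval := hb (fun l hl => (hs'.pos l hl).le) (by positivity) (by linarith only [hsq1])
    (by rw [mul_one]; exact u3)
  rw [mul_one] at hval
  have hcmp := phi_compare (gm_exponents n) hq hq1 hpR hR1 (η := s ^ 18) (c := β)
    (κ := √y / 4) (by positivity) hβ.le (by positivity) (by linarith only [u1]) u2 htl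
  have hT := (abs_le.1 hval).1
  have e1 : 1 / (N : ℝ) / y ^ 4 = 1 / (N * y ^ 4) := by rw [div_div]
  refine real_q4 (Vs := √(Vd (gm n) (sy N n (gm n) β y 1 (s ^ 2) s'))) (i := 1 / (N : ℝ))
    (κ := √y / 4) (D := D) hβ hs hy hy1 hsy hC₂ hM₂ hD₁ (by omega) rfl hi hv hJ ?_ hcmp hdQ
  rw [e1]
  linarith only [hT]

/-- The conclusion of `opt_q` with the exponent `D`. -/
def OptQ (D : ℕ) (β C₀ : ℝ) : Prop := ∃ C : ℝ, 1 ≤ C ∧ ∀ (N n : ℕ) (y η P : ℝ)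
    (q : ℕ → ℝ), 0 < N → 0 < y → y ≤ 1 → 0 < η → η ≤ 1 → Path n q → q n ≤ 1 →
    GoodPath β n (gm n) q P → |P| ≤ C₀ →
    ∀ a ∈ Set.Icc (0 : ℝ) 1, ∀ b ∈ Set.Icc (0 : ℝ) 1,
      ∃ s, gIsOpt n (gm n) q η (Ey N β y a b) (spin (N := N)) s ∧
        (∀ j ≤ n, -η ≤ ∑ l ∈ Finset.Ico j (n + 1), (gm n (l + 1) - gm n l) *
          ((sy N n (gm n) β y a b s).Rl spin l - q l)) ∧
        Vd (gm n) (sy N n (gm n) β y a b s) ≤ 6 / (n + 1) + C * ((n + 1) / (η * y)) ^ D /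
          √√(N : ℝ) ∧
        Path n (fun l => (sy N n (gm n) β y a b s).Rl spin l) ∧
        (sy N n (gm n) β y a b s).Rl spin n ≤ 1

/-- The conclusion of the main inequality with the exponent `D` (general coefficient). -/
def MainQ (D : ℕ) (β C₀ : ℝ) : Prop := ∃ C : ℝ, 1 ≤ C ∧ ∀ (N n : ℕ) (y s P J : ℝ)
    (q : ℕ → ℝ), 0 < N → 0 < y → y ≤ 1 / C → 0 < s → s ≤ y ^ D → 1 / ((n : ℝ) + 1) ≤ s ^ 8 →
    ((n : ℝ) + 1) * s ^ 8 ≤ 2 → C ≤ N * s ^ D → Path n q → q n ≤ 1 → GoodPath β n (gm n) q P →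
    |P| ≤ C₀ → P ≤ pN β N + s ^ 6 → β * Sk.chi n (gm n) q ≤ 1 + √y / 16 →
    pN β N - gF n (gm n) (Ey N β y 1 (s ^ 2)) (spin (N := N)) (fun _ => 0) ≤
      β * s ^ 2 / 2 * J →
    PHI (zt N y) β n (gm n) q - C * s / y ^ D ≤ J

/-- **The main inequality** with a general coefficient. -/
theorem main_of_opt {D₃ : ℕ} {β C₀ : ℝ} (hβ : 0 < β) (hopt : OptQ D₃ β C₀) :
    MainQ (108 * D₃ + 32) β C₀ := by
  obtain ⟨D, hD⟩ : ∃ D, D = 108 * D₃ + 32 := ⟨_, rfl⟩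
  rw [← hD]
  obtain ⟨C₁, hC₁, hw⟩ := val_w hβ.le
  obtain ⟨C₂, hC₂, hb⟩ := val_b hβ.le
  obtain ⟨C₃, hC₃, ho⟩ := hopt
  obtain ⟨C₄, hC₄, hz⟩ := zeta_facts
  obtain ⟨M₂, hM₂⟩ : ∃ M₂ : ℝ, M₂ = 2 / β * (5 + β ^ 2 / 2 + 3 / 2 * β * C₁) := ⟨_, rfl⟩
  obtain ⟨D₁, hD₁⟩ : ∃ D₁ : ℝ,
      D₁ = (β / 4 + 4 * (5 + β / 2 + β ^ 2 / 2 + 2 * β * C₁) / β + 8 * C₁) / β := ⟨_, rfl⟩
  have hM₂0 : 0 ≤ M₂ := by rw [hM₂]; positivity
  have hD₁0 : 0 ≤ D₁ := by rw [hD₁]; positivity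
  obtain ⟨X, hX⟩ : ∃ X : ℝ, X = M₂ + 80 * C₂ + 512 * β * (D₁ / 2 + 2) := ⟨_, rfl⟩
  have hX0 : 0 ≤ X := by rw [hX]; (clear * - hM₂0 hC₂ hβ hD₁0; positivity)
  obtain ⟨Z, hZd⟩ : ∃ Z : ℝ, Z = (C₃ * 2 ^ D₃) ^ 4 := ⟨_, rfl⟩
  have hZ : 1 ≤ Z := by
    rw [hZd]
    refine one_le_pow₀ ?_
    calc (1 : ℝ) = 1 * 1 := (mul_one 1).symm
      _ ≤ C₃ * 2 ^ D₃ := mul_le_mul hC₃ (one_le_pow₀ (by norm_num)) zero_le_one (by linarith only [hC₃])
  obtain ⟨C, hC⟩ : ∃ C, C = X + C₂ + C₄ + Z + 16 * β := ⟨_, rfl⟩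
  have hD6 : 6 ≤ D := by omega
  have hDD : 4 * (27 * D₃ + 8) ≤ D := by omega
  have hC1 : 1 ≤ C := by rw [hC]; linarith only [hZ, hX0, hC₄, hC₂, hβ]
  have hCX : X ≤ C := by rw [hC]; linarith only [hZ, hC₄, hC₂, hβ]
  have hCC₂ : C₂ ≤ C := by rw [hC]; linarith only [hZ, hX0, hC₄, hβ]
  have hCC₄ : C₄ ≤ C := by rw [hC]; linarith only [hZ, hX0, hC₂, hβ]
  have hCZ : Z ≤ C := by rw [hC]; linarith only [hX0, hC₄, hC₂, hβ]
  have hCβ : 16 * β ≤ C := by rw [hC]; linarith only [hZ, hX0, hC₄, hC₂]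
  clear hC hD
  have hC0 : 0 < C := by linarith only [hCβ, hβ]
  refine ⟨C, hC1, ?_⟩
  intro N n y s P J q hN hy hyC hs hsD hn1 hn2 hNs hq hq1 hg hPC hP hchi hJJ
  have hy1 : y ≤ 1 := hyC.trans (by rw [div_le_one hC0]; exact hC1)
  have hle : ∀ c, 0 < c → c ≤ C → y ≤ 1 / c := fun c hc hcC =>
    hyC.trans (one_div_le_one_div_of_le hc hcC)
  have hsy : s ≤ y := by
    refine hsD.trans ?_
    calc y ^ D ≤ y ^ 1 := pow_le_pow_of_le_one hy.le hy1 (by omega)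
      _ = y := pow_one y
  obtain ⟨hNy, hi⟩ := mq_N hN hs hsy hy1 hC1 hD6 hNs
  obtain ⟨s', hpt, hdQ, hJ⟩ := mq_first hβ hC₁ hC₃
    (fun a b s' ha hb hs' => hw N n (gm n) y a b s' hN (gm_exponents n) hy hy1 ha hb hs')
    (ho N n y (s ^ 18) P q hN hy hy1 (by positivity) (pow_le_one₀ hs.le (hsy.trans hy1)) hq hq1
      hg hPC) hN hy hy1 hs hsy hn1 hn2 hDD (by rw [← hZd]; exact hCZ.trans hNs) hq hq1 hg hP hJJ
  rw [← hM₂] at hJ
  rw [← hD₁] at hdQ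
  obtain ⟨-, -, -, -, -, -, z1, z2, z3, z4⟩ := hz N y hN hy (hle C₄ (by linarith only [hC₄]) hCC₄)
    (hCC₄.trans hNy)
  have key := mq_second hβ (by linarith only [hC₂]) hM₂0 hD₁0
    (hb N n (gm n) y 1 (s ^ 2) (√y / 4) s' hN (gm_exponents n) hy (hle C₂ (by linarith only [hC₂]) hCC₂)
      (hCC₂.trans hNy) ⟨zero_le_one, le_rfl⟩ ⟨by positivity,
        pow_le_one₀ hs.le (hsy.trans hy1)⟩) z1 z2 z3 z4 hy hy1 hs hsy hD6 hi
    (hle (16 * β) (by positivity) hCβ) hq hq1 hchi hpt hdQ hJ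
  rw [← hX] at key
  refine le_trans (sub_le_sub_left ?_ _) key
  exact div_le_div_of_nonneg_right (mul_le_mul_of_nonneg_right hCX hs.le) (by positivity)

end Vale.Agent.P146.Pw2
end

section

/-!
# P146, polynomial lower bound: lemmas for the conclusion
-/

open MeasureTheory ProbabilityTheory Matrix Filter Topology

namespace Vale.Agent.P146.Pw2

open Vale.Agent.P157 (spin)
open Vale.Agent.P157.Lv
open Vale.Agent.P157.Par (Path Exponents topN lw spinPart)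
open Vale.Agent.P146.Sk
open Vale.Agent.P166.F (Lam)
open Vale.Agent.P146.Sk.Gen (GI gz gl r0 gS gF gOb gIsOpt GD gV)

lemma ft_le {N : ℕ} {β : ℝ} (hβ : 0 ≤ β) (g : Ix N → ℝ) : Ft β N g ≤ β / 2 * (N * om N g) := by
  unfold Ft
  have h1 : ∀ x : Fin N → Bool, Real.exp (β / 2 * qf (Wm N g) (spin x) - N * Real.log 2) ≤
      Real.exp (β / 2 * (N * om N g)) * Real.exp (-(N * Real.log 2)) := by
    intro x
    rw [← Real.exp_add]
    apply Real.exp_le_exp.2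
    have h2 := abs_qf_Um_le g 1 x
    rw [Um_one, pow_one] at h2
    have h3 := mul_le_mul_of_nonneg_left ((le_abs_self _).trans h2) (show 0 ≤ β / 2 by positivity)
    linarith only [h3]
  have h2 : ∑ x : Fin N → Bool, Real.exp (β / 2 * qf (Wm N g) (spin x) - N * Real.log 2) ≤
      Real.exp (β / 2 * (N * om N g)) := by
    refine (Finset.sum_le_sum fun x _ => h1 x).trans ?_
    rw [Finset.sum_const, Finset.card_univ, Fintype.card_fun, Fintype.card_bool, Fintype.card_fin,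
      nsmul_eq_mul, Real.exp_neg]
    have e : Real.exp ((N : ℝ) * Real.log 2) = 2 ^ N := by
      rw [mul_comm, Real.exp_mul, Real.exp_log two_pos, Real.rpow_natCast]
    rw [e]
    push_cast
    field_simp
    exact le_rfl
  have h3 : 0 < ∑ x : Fin N → Bool, Real.exp (β / 2 * qf (Wm N g) (spin x) - N * Real.log 2) :=
    Finset.sum_pos (fun _ _ => Real.exp_pos _) Finset.univ_nonempty
  rw [← Real.log_exp (β / 2 * (N * om N g))]
  exact Real.log_le_log h3 h2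

lemma pN_le {β : ℝ} (hβ : 0 ≤ β) : ∃ C : ℝ, 0 ≤ C ∧ ∀ N : ℕ, 0 < N → pN β N ≤ C := by
  obtain ⟨C, hC1, hC⟩ := exists_om_moment 1
  refine ⟨β / 2 * C, by positivity, fun N hN => ?_⟩
  have hN' : (0 : ℝ) < N := by exact_mod_cast hN
  obtain ⟨V, hV, hpb⟩ := Pw.var_pb (gradB_of β 1)
  have hEG := (hpb N hN 0 ⟨le_rfl, zero_le_one⟩).1
  have e : Pw.lse (Esk N β 1 0 1) = Ft β N := funext fun g => Pw.lse_zero β 1 g
  rw [e] at hEG
  have h1 : ∫ g, Ft β N g ∂(gI (Ix N)) ≤ ∫ g, β / 2 * (N * om N g) ∂(gI (Ix N)) :=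
    integral_mono hEG.integrable ((eg_om.const_mul (N : ℝ)).const_mul (β / 2)).integrable
      fun g => ft_le hβ g
  rw [integral_const_mul, integral_const_mul] at h1
  have h2 := hC N
  simp only [pow_one] at h2
  unfold pN
  calc 1 / (N : ℝ) * ∫ g, Ft β N g ∂(gI (Ix N)) ≤
      1 / N * (β / 2 * (N * ∫ g, om N g ∂(gI (Ix N)))) :=
        mul_le_mul_of_nonneg_left h1 (by positivity)
    _ = β / 2 * ∫ g, om N g ∂(gI (Ix N)) := by field_simp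
    _ ≤ β / 2 * C := mul_le_mul_of_nonneg_left h2 (by positivity)

lemma cascade_zero {m : ℕ → ℝ} (F : ℝ → ℝ) : ∀ l : ℕ, (∀ j < l, m (j + 1) ≠ 0) →
    Vale.Agent.P157.Par.cascade m (fun _ => 0) l F 0 = F 0 := by
  intro l
  induction l generalizing F with
  | zero => intro _; simp [Vale.Agent.P157.Par.cascade]
  | succ l ih =>
    intro h
    rw [Vale.Agent.P157.Par.cascade_succ_def, sub_self, Gap.ex_gstep_zero (h l (by omega))]
    exact ih F fun j hj => h j (by omega)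

lemma goodPath_nonneg {K : ℕ} {m q : ℕ → ℝ} (hm' : Exponents K m) (hq : Path K q)
    (hq1 : q K ≤ 1) {β P : ℝ} (hg : GoodPath β K m q P) : 0 ≤ P := by
  have h1 := hg (fun _ => 0) ⟨le_rfl, fun _ _ => le_rfl⟩
  have h2 : spinPart K m (fun _ => 0) = 0 := by
    unfold spinPart
    have h3 := cascade_zero (m := m) (fun x => Real.log (Real.cosh x)) K fun j hj =>
      (Vale.Agent.P157.Par.sp4_exp_pos hm' hj.le).ne'
    rw [Real.cosh_zero, Real.log_one] at h3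
    simp [h3]
  rw [h2] at h1
  simp only [mul_zero, zero_mul, Finset.sum_const_zero, add_zero] at h1
  have h3 := trp_nonneg hm' hq hq1 2
  have h4 : 0 ≤ β ^ 2 / 4 * trp K m q 2 := by positivity
  linarith only [h4, h1]

/-- The number of levels. -/
lemma exists_levels {s : ℝ} (hs : 0 < s) (hs1 : s ≤ 1) : ∃ n : ℕ, 1 / ((n : ℝ) + 1) ≤ s ^ 8 ∧
    ((n : ℝ) + 1) * s ^ 8 ≤ 2 := by
  have h8 : 0 < s ^ 8 := by positivity
  have h81 : s ^ 8 ≤ 1 := pow_le_one₀ hs.le hs1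
  refine ⟨⌊1 / s ^ 8⌋₊, ?_, ?_⟩
  · rw [div_le_iff₀ (by positivity)]
    have h1 := (Nat.lt_floor_add_one (1 / s ^ 8)).le
    rw [div_le_iff₀ h8] at h1
    linarith
  · have h1 : (⌊1 / s ^ 8⌋₊ : ℝ) ≤ 1 / s ^ 8 := Nat.floor_le (by positivity)
    rw [le_div_iff₀ h8] at h1
    linarith [h1, h81]

/-- Facts on the parameters. -/
lemma fin_params {X Ct t : ℝ} {D E : ℕ} (ht : 0 < t) (hX : 0 < X) (htX : t ≤ 1 / X)
    (hCt : 1 ≤ Ct) (h8 : 8 * Ct ≤ X) (h2 : 2 ≤ X) (hE : E = 18 * D + 5)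
    {y : ℝ} (hy : y = (8 * Ct) ^ 2 * t ^ 18) :
    (∀ c, c ≤ X → c * t ≤ 1) ∧ t ≤ 1 ∧ 0 < y ∧ √y = 8 * (Ct * t ^ 9) ∧ Ct * t ^ 9 ≤ 1 / 8 ∧
    (∀ c, 0 < c → (8 * Ct) ^ 2 * c ≤ X → y ≤ 1 / c) ∧ t ^ E ≤ t * y ^ D ∧
    (t ^ E) ^ 8 ≤ t ^ 28 ∧ t ^ 108 ≤ y ^ 6 ∧ (t ^ E) ^ 8 ≤ t ^ 9 / 2 ∧ (t ^ E) ^ 2 ≤ t := by
  have hc : ∀ c, c ≤ X → c * t ≤ 1 := by
    intro c hc
    calc c * t ≤ X * (1 / X) := mul_le_mul hc htX ht.le hX.le
      _ = 1 := by field_simp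
  have ht1 : t ≤ 1 := by
    have := hc 2 h2
    linarith
  have hCt0 : 0 < Ct := by linarith
  have h8C : 1 ≤ 8 * Ct := by linarith
  have hle : ∀ a b : ℕ, a ≤ b → t ^ b ≤ t ^ a := fun a b h => pow_le_pow_of_le_one ht.le ht1 h
  have hy0 : 0 < y := by rw [hy]; positivity
  have hyt : t ^ 18 ≤ y := by
    rw [hy]
    have : (1 : ℝ) * t ^ 18 ≤ (8 * Ct) ^ 2 * t ^ 18 :=
      mul_le_mul_of_nonneg_right (one_le_pow₀ h8C) (by positivity)
    linarith only [this]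
  have h91 : t ^ 9 ≤ t := by
    have := hle 1 9 (by norm_num)
    rwa [pow_one] at this
  refine ⟨hc, ht1, hy0, ?_, ?_, ?_, ?_, ?_, ?_, ?_, ?_⟩
  · rw [hy, show (8 * Ct) ^ 2 * t ^ 18 = (8 * (Ct * t ^ 9)) ^ 2 by ring]
    exact Real.sqrt_sq (by positivity)
  · have h1 := hc (8 * Ct) h8
    have h2 : Ct * t ^ 9 ≤ Ct * t := mul_le_mul_of_nonneg_left h91 hCt0.le
    linarith
  · intro c hc0 hcX
    rw [le_div_iff₀ hc0, hy]
    have h1 := hc _ hcX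
    have h2 : t ^ 18 ≤ t := by
      have := hle 1 18 (by norm_num)
      rwa [pow_one] at this
    calc (8 * Ct) ^ 2 * t ^ 18 * c = (8 * Ct) ^ 2 * c * t ^ 18 := by ring
      _ ≤ (8 * Ct) ^ 2 * c * t := mul_le_mul_of_nonneg_left h2 (by positivity)
      _ ≤ 1 := h1
  · have h1 : (t ^ 18) ^ D ≤ y ^ D := pow_le_pow_left₀ (by positivity) hyt D
    calc t ^ E ≤ t ^ (18 * D + 1) := hle _ _ (by omega)
      _ = t * (t ^ 18) ^ D := by rw [pow_succ', pow_mul]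
      _ ≤ t * y ^ D := mul_le_mul_of_nonneg_left h1 ht.le
  · rw [← pow_mul]
    exact hle _ _ (by omega)
  · calc t ^ 108 = (t ^ 18) ^ 6 := by rw [← pow_mul]
      _ ≤ y ^ 6 := pow_le_pow_left₀ (by positivity) hyt 6
  · have h1 : (t ^ E) ^ 8 ≤ t ^ 10 := by
      rw [← pow_mul]
      exact hle _ _ (by omega)
    have h2 := hc 2 h2
    have h3 : t ^ 10 = t ^ 9 * t := by ring
    have h4 : t ^ 9 * (2 * t) ≤ t ^ 9 * 1 := mul_le_mul_of_nonneg_left h2 (by positivity)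
    linarith only [h4, h1]
  · rw [← pow_mul]
    have := hle 1 (E * 2) (by omega)
    rwa [pow_one] at this

/-- The size of `N`. -/
lemma fin_size {X t : ℝ} {N M k : ℕ} (ht : 0 < t) (ht1 : t ≤ 1) (hX : X * t ≤ 1)
    (hN : 1 ≤ N * t ^ M) (hk : k + 1 ≤ M) : X ≤ N * t ^ k := by
  have h1 : t ^ M ≤ t ^ (k + 1) := pow_le_pow_of_le_one ht.le ht1 hk
  have h2 : (N : ℝ) * t ^ M ≤ N * t ^ (k + 1) := mul_le_mul_of_nonneg_left h1 (Nat.cast_nonneg N)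
  have h3 : X * t ≤ N * t ^ k * t := by
    calc X * t ≤ 1 := hX
      _ ≤ N * t ^ (k + 1) := hN.trans h2
      _ = N * t ^ k * t := by ring
  exact le_of_mul_le_mul_right h3 ht

/-- The Parisi value. -/
lemma fin_P {Cr Ct t s psk p i nd : ℝ} (ht : 0 < t) (hs : 0 < s)
    (hr : psk ≤ p + Cr * nd) (hnd0 : 0 ≤ nd) (hnd : nd ≤ s ^ 6 * t) (h2 : 2 * |Cr| * t ≤ 1)
    (hi : i ≤ s ^ 8) (hCt : 0 ≤ Ct) (h3 : 8 * Ct * t ≤ 1) (hst : s ^ 2 ≤ t) :
    psk + Ct * i ≤ p + s ^ 6 := by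
  have e1 : Cr * nd ≤ |Cr| * (s ^ 6 * t) :=
    mul_le_mul (le_abs_self _) hnd hnd0 (abs_nonneg _)
  have e2 : |Cr| * (s ^ 6 * t) = s ^ 6 * (2 * |Cr| * t) / 2 := by ring
  have e3 : s ^ 6 * (2 * |Cr| * t) ≤ s ^ 6 * 1 := mul_le_mul_of_nonneg_left h2 (by positivity)
  have e4 : Ct * i ≤ Ct * s ^ 8 := mul_le_mul_of_nonneg_left hi hCt
  have e5 : Ct * s ^ 8 = s ^ 6 * (Ct * s ^ 2) := by ring
  have e6 : Ct * s ^ 2 ≤ Ct * t := mul_le_mul_of_nonneg_left hst hCt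
  have e7 : s ^ 6 * (Ct * s ^ 2) ≤ s ^ 6 * (1 / 2) :=
    mul_le_mul_of_nonneg_left (by
      have : 0 ≤ Ct * t := by positivity
      linarith only [e6, h3]) (by positivity)
  linarith only [e7, e4, e3, e1, hr]

end Vale.Agent.P146.Pw2
end

section

/-!
# P146, polynomial lower bound: small ball probabilities of the free energy
-/

open MeasureTheory ProbabilityTheory Finset Matrix Filter Topology

namespace Vale.Agent.P146.Pw2

open Vale.Agent.P157 (spin)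
open Vale.Agent.P157.Lv Vale.Agent.P146.Sk
open Vale.Agent.P157.Par (Path Exponents topN lw spinPart)
open Vale.Agent.P146.Sk.Gen (GI gz gl r0 gS gF gOb gIsOpt GD gV)
open Vale.Agent.P146.Sk.Pw (lse lav)

set_option linter.all false

variable {N n : ℕ} {y : ℝ}

/-- the random coefficient -/
noncomputable def Jg (β y : ℝ) (g : Ix N → ℝ) : ℝ :=
  1 / N * Sk.gav β N g (fun x => qf (By y (Wm N g)) (spin x))

lemma eg_Jg (β : ℝ) (hy : 0 < y) : EG (Jg (N := N) β y) := by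
  have h2 : (fun g : Ix N → ℝ => Sk.gav β N g (fun x => qf (By y (Wm N g)) (spin x))) =
      fun g => Vr.gb β g (fun σ => Vr.qf (By y (Wm N g)) σ) := by
    funext g; exact (gb_eq_gav β g _).symm
  have h3 : EG (fun g : Ix N → ℝ => Sk.gav β N g (fun x => qf (By y (Wm N g)) (spin x))) := by
    rw [h2]
    exact Vr.eg_gb_qf β (egm_By hy)
  exact h3.const_mul _

/-- the derivative of the free energy in the direction of the vector field -/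
lemma grad_Jg (hN : 0 < N) (hy : 0 < y) (β : ℝ) (g : Ix N → ℝ) :
    ∑ e : Ix N, Vr.F1' β e g * By y (Wm N g) e.1 e.2 =
      β * N / √(2 * (N : ℝ)) * (Jg β y g - tB N y g) := by
  have hN' : (0 : ℝ) < N := by exact_mod_cast hN
  set c : ℝ := √(2 * (N : ℝ)) with hc
  have hc0 : 0 < c := Real.sqrt_pos.2 (by positivity)
  have h1 : ∑ e : Ix N, Vr.F1' β e g * By y (Wm N g) e.1 e.2 =
      (β / c) * (Sk.gav β N g (fun x => qf (By y (Wm N g)) (spin x)) - (By y (Wm N g)).trace) := by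
    rw [← gb_eq_gav, Vr.gb_qf]
    have h2 : ∀ e : Ix N, Vr.F1' β e g * By y (Wm N g) e.1 e.2 =
        (β / c) * (By y (Wm N g) e.1 e.2 * Vr.gb β g (fun σ => Vr.sg σ e.1 * Vr.sg σ e.2)) -
        (β / c) * (if e.1 = e.2 then By y (Wm N g) e.1 e.2 else 0) := by
      intro e
      rw [Vr.F1', Vr.gb_cf, ← hc]
      split_ifs
      · field_simp
      · ring
    simp only [h2]
    rw [sum_sub_distrib, ← mul_sum, ← mul_sum]
    have h3 : ∑ e : Ix N, (if e.1 = e.2 then By y (Wm N g) e.1 e.2 else 0) =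
        (By y (Wm N g)).trace := by
      rw [Fintype.sum_prod_type]
      unfold Matrix.trace
      refine sum_congr rfl fun i _ => ?_
      simp
    rw [h3]
    ring
  rw [h1]
  unfold Jg tB
  field_simp

lemma eg_maxJ (β : ℝ) (hy : 0 < y) (J : ℝ) :
    EG (fun z : Ix N → ℝ => max (J - Jg β y z) 0) := by
  have h := (EG.const (ι := Ix N) J).sub (eg_Jg (N := N) β hy)
  refine h.mono (h.meas.max measurable_const) fun z => ?_
  rw [abs_of_nonneg (le_max_right _ _)]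
  exact max_le (le_abs_self _) (abs_nonneg _)

/-- small ball probabilities -/
theorem small_ball_q (hN : 0 < N) (hy : 0 < y) {β K J t : ℝ} (hβ : 0 < β) (hK : 0 < K)
    (hJ : 0 ≤ J) (ht : 0 < t)
    (hS : ∫ g, dq N y g * dq N y g ∂(gI (Ix N)) ≤ t ^ 2) (a : ℝ) :
    J / (2 * K) * (disorder N).real {g | |freeEnergy N β g - a| ≤ K} ≤
      √(2 * (N : ℝ)) / (β * N) * (Real.pi / 2 * t) +
      (1 / K) * (∫ z, max (J - Jg β y z) 0 ∂(gI (Ix N)) + mB N y) := by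
  have hN' : (0 : ℝ) < N := by exact_mod_cast hN
  set c : ℝ := √(2 * (N : ℝ)) with hc
  have hc0 : 0 < c := Real.sqrt_pos.2 (by positivity)
  -- the test function
  set ψ : ℝ → ℝ := fun x => Real.arctan ((x - a) / K) with hψ
  set ψ' : ℝ → ℝ := fun x => (1 / K) * (1 / (1 + ((x - a) / K) ^ 2)) with hψ'
  have hd : ∀ x, HasDerivAt ψ (ψ' x) x := by
    intro x
    have h1 : HasDerivAt (fun x : ℝ => (x - a) / K) (1 / K) x :=
      ((hasDerivAt_id x).sub_const a).div_const K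
    have h2 := h1.arctan
    refine h2.congr_deriv ?_
    rw [hψ']
    ring
  have hψ'0 : ∀ x, 0 ≤ ψ' x := fun x => by
    simp only [hψ']; (clear * - hK; positivity)
  have hψ'1 : ∀ x, ψ' x ≤ 1 / K := fun x => by
    simp only [hψ']
    have : 1 / (1 + ((x - a) / K) ^ 2) ≤ 1 := by
      rw [div_le_one (by (clear * -; positivity))]
      linarith only [sq_nonneg ((x - a) / K)]
    calc (1 / K) * (1 / (1 + ((x - a) / K) ^ 2)) ≤ (1 / K) * 1 :=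
          mul_le_mul_of_nonneg_left this (by positivity)
      _ = 1 / K := mul_one _
  have hψ'2 : ∀ x, |x - a| ≤ K → 1 / (2 * K) ≤ ψ' x := fun x hx => by
    simp only [hψ']
    have h1 : ((x - a) / K) ^ 2 ≤ 1 := by
      rw [div_pow, div_le_one (by positivity), ← sq_abs]
      exact pow_le_pow_left₀ (abs_nonneg _) hx 2
    have h2 : (1 : ℝ) / 2 ≤ 1 / (1 + ((x - a) / K) ^ 2) := by
      apply one_div_le_one_div_of_le (by positivity)
      linarith only [h1]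
    calc 1 / (2 * K) = (1 / K) * (1 / 2) := by field_simp
      _ ≤ _ := mul_le_mul_of_nonneg_left h2 (by positivity)
  have hψb : ∀ x, |ψ x| ≤ Real.pi / 2 := fun x => by
    simp only [hψ]
    rw [abs_le]
    exact ⟨(Real.neg_pi_div_two_lt_arctan _).le, (Real.arctan_lt_pi_div_two _).le⟩
  have hψm : Measurable ψ := by
    rw [hψ]; exact Real.continuous_arctan.measurable.comp (by fun_prop)
  have hψ'm : Measurable ψ' := by
    rw [hψ']; fun_prop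
  -- integration by parts
  have e1 : EG (fun z : Ix N → ℝ => ψ (Vr.F1 β z)) :=
    EG.of_bdd (hψm.comp (Vr.eg_F1 β).meas) fun z => hψb _
  have e2 : EG (fun z : Ix N → ℝ => ψ' (Vr.F1 β z)) :=
    EG.of_bdd (hψ'm.comp (Vr.eg_F1 β).meas) (C := 1 / K) fun z => by
      rw [abs_of_nonneg (hψ'0 _)]; exact hψ'1 _
  have hp : ∀ e : Ix N, PD e (fun z => ψ (Vr.F1 β z))
      (fun z => ψ' (Vr.F1 β z) * Vr.F1' β e z) :=
    fun e => (Vr.pd_F1 β e).comp hd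
  have h1 := ibp_dq hN hy e1 hp (fun e => e2.mul (Vr.eg_F1' β e))
  have eJ := eg_Jg (N := N) β hy
  have eB := eg_tB (N := N) hy
  have h2 : ∫ z, ∑ e : Ix N, ψ' (Vr.F1 β z) * Vr.F1' β e z *
      By y (Wm N z) e.1 e.2 ∂(gI (Ix N)) = β * N / c * ∫ z, ψ' (Vr.F1 β z) *
      (Jg β y z - tB N y z) ∂(gI (Ix N)) := by
    rw [← integral_const_mul]
    congr 1
    funext z
    have h3 : ∑ e : Ix N, ψ' (Vr.F1 β z) * Vr.F1' β e z * By y (Wm N z) e.1 e.2 =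
        ψ' (Vr.F1 β z) * ∑ e : Ix N, Vr.F1' β e z * By y (Wm N z) e.1 e.2 := by
      rw [mul_sum]
      exact sum_congr rfl fun e _ => by ring
    rw [h3, grad_Jg hN hy, ← hc]
    ring
  rw [h2] at h1
  -- upper bound
  have h3 : ∫ z, ψ (Vr.F1 β z) * dq N y z ∂(gI (Ix N)) ≤ (Real.pi / 2) * t := by
    have h4 : ∀ z : Ix N → ℝ, ψ (Vr.F1 β z) * dq N y z ≤
        (Real.pi / 2) * (t / 2 + 1 / (2 * t) * (dq N y z * dq N y z)) := by
      intro z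
      have h5 : |dq N y z| ≤ t / 2 + 1 / (2 * t) * (dq N y z * dq N y z) := by
        have h6 : t / 2 + 1 / (2 * t) * (dq N y z * dq N y z) - |dq N y z| =
            1 / (2 * t) * (|dq N y z| - t) ^ 2 := by
          rw [← abs_mul_abs_self (dq N y z)]
          field_simp
          ring
        have h7 : 0 ≤ 1 / (2 * t) * (|dq N y z| - t) ^ 2 := by (clear * - ht; positivity)
        linarith only [h7, h6]
      calc ψ (Vr.F1 β z) * dq N y z ≤ |ψ (Vr.F1 β z) * dq N y z| := le_abs_self _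
        _ = |ψ (Vr.F1 β z)| * |dq N y z| := abs_mul _ _
        _ ≤ (Real.pi / 2) * |dq N y z| := mul_le_mul_of_nonneg_right (hψb _) (abs_nonneg _)
        _ ≤ _ := mul_le_mul_of_nonneg_left h5 (by positivity)
    have ed := eg_dq (N := N) hy
    have e3 : EG (fun z : Ix N → ℝ => dq N y z * dq N y z) := ed.mul ed
    calc ∫ z, ψ (Vr.F1 β z) * dq N y z ∂(gI (Ix N)) ≤
        ∫ z, (Real.pi / 2) * (t / 2 + 1 / (2 * t) * (dq N y z * dq N y z)) ∂(gI (Ix N)) :=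
          integral_mono (e1.mul ed).integrable
            (((EG.const _).add (e3.const_mul _)).const_mul _).integrable h4
      _ = (Real.pi / 2) * (t / 2 + 1 / (2 * t) * ∫ z, dq N y z * dq N y z ∂(gI (Ix N))) := by
          rw [integral_const_mul, integral_add (integrable_const _) (e3.const_mul _).integrable,
            integral_const_mul, integral_const]
          simp only [probReal_univ, one_smul]
      _ ≤ (Real.pi / 2) * (t / 2 + 1 / (2 * t) * t ^ 2) := by gcongr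
      _ = (Real.pi / 2) * t := by
          field_simp
          norm_num
  -- lower bound
  have hm : Measurable (freeEnergy N β) := by
    unfold freeEnergy partitionFn hamiltonian
    fun_prop
  have hms : MeasurableSet {g | |freeEnergy N β g - a| ≤ K} :=
    measurableSet_le (by fun_prop) measurable_const
  have h5 : (disorder N).real {g | |freeEnergy N β g - a| ≤ K} =
      ∫ z, ({x : ℝ | |x - a| ≤ K}.indicator 1 (Vr.F1 β z) : ℝ) ∂(gI (Ix N)) := by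
    have h6 := integral_indicator_one (μ := disorder N) hms
    rw [← h6, integral_disorder (measurable_one.indicator hms)]
    congr 1
    funext z
    simp only [Set.indicator, Set.mem_setOf_eq, Pi.one_apply, Vr.free_phi hN β z, Vr.F1]
  have hms2 : MeasurableSet {x : ℝ | |x - a| ≤ K} := measurableSet_le (by fun_prop) measurable_const
  have e4 : EG (fun z : Ix N → ℝ => ({x : ℝ | |x - a| ≤ K}.indicator 1 (Vr.F1 β z) : ℝ)) := by
    refine EG.of_bdd ((measurable_one.indicator hms2).comp (Vr.eg_F1 β).meas) (C := 1)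
      fun z => ?_
    by_cases hz : |Vr.F1 β z - a| ≤ K
    · rw [Set.indicator_of_mem (by exact hz), Pi.one_apply, abs_one]
    · rw [Set.indicator_of_notMem (by exact hz), abs_zero]
      exact zero_le_one
  have eM := eg_maxJ (N := N) β hy J
  have h7 : ∀ z : Ix N → ℝ,
      J * (1 / (2 * K)) * ({x : ℝ | |x - a| ≤ K}.indicator 1 (Vr.F1 β z) : ℝ) -
      (1 / K) * (max (J - Jg β y z) 0 + tB N y z) ≤ ψ' (Vr.F1 β z) *
      (Jg β y z - tB N y z) := by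
    intro z
    have hB0 := tB_nonneg hy z
    have hM0 : 0 ≤ max (J - Jg β y z) 0 := le_max_right _ _
    have hM1 : J - Jg β y z ≤ max (J - Jg β y z) 0 := le_max_left _ _
    have h8 : ψ' (Vr.F1 β z) * (J - (max (J - Jg β y z) 0 + tB N y z)) ≤
        ψ' (Vr.F1 β z) * (Jg β y z - tB N y z) :=
      mul_le_mul_of_nonneg_left (by linarith only [hM1]) (hψ'0 _)
    have h9 : ψ' (Vr.F1 β z) * (max (J - Jg β y z) 0 + tB N y z) ≤
        (1 / K) * (max (J - Jg β y z) 0 + tB N y z) :=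
      mul_le_mul_of_nonneg_right (hψ'1 _) (by linarith only [hM0, hB0])
    have h10 : J * (1 / (2 * K)) * ({x : ℝ | |x - a| ≤ K}.indicator 1 (Vr.F1 β z) : ℝ) ≤
        ψ' (Vr.F1 β z) * J := by
      by_cases hz : |Vr.F1 β z - a| ≤ K
      · rw [Set.indicator_of_mem (by exact hz), Pi.one_apply, mul_one, mul_comm]
        exact mul_le_mul_of_nonneg_right (hψ'2 _ hz) hJ
      · rw [Set.indicator_of_notMem (by exact hz), mul_zero]
        exact mul_nonneg (hψ'0 _) hJ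
    rw [mul_sub] at h8
    linarith only [h10, h9, h8]
  have h11 : J * (1 / (2 * K)) * ∫ z, ({x : ℝ | |x - a| ≤ K}.indicator 1 (Vr.F1 β z) : ℝ)
      ∂(gI (Ix N)) - (1 / K) * (∫ z, max (J - Jg β y z) 0 ∂(gI (Ix N)) + mB N y) ≤
      ∫ z, ψ' (Vr.F1 β z) * (Jg β y z - tB N y z) ∂(gI (Ix N)) := by
    have h12 : ∫ z, max (J - Jg β y z) 0 ∂(gI (Ix N)) + mB N y =
        ∫ z, (max (J - Jg β y z) 0 + tB N y z) ∂(gI (Ix N)) := by
      rw [integral_add eM.integrable eB.integrable]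
      rfl
    rw [h12, ← integral_const_mul, ← integral_const_mul,
      ← integral_sub (e4.const_mul _).integrable ((eM.add eB).const_mul _).integrable]
    exact integral_mono ((e4.const_mul _).sub ((eM.add eB).const_mul _)).integrable
      (e2.mul (eJ.sub eB)).integrable h7
  rw [h1] at h3
  rw [h5]
  have h13 : ∫ z, ψ' (Vr.F1 β z) * (Jg β y z - tB N y z) ∂(gI (Ix N)) ≤
      c / (β * N) * (Real.pi / 2 * t) := by
    have h14 : ∫ z, ψ' (Vr.F1 β z) * (Jg β y z - tB N y z) ∂(gI (Ix N)) =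
        c / (β * N) * (β * N / c * ∫ z, ψ' (Vr.F1 β z) * (Jg β y z - tB N y z)
          ∂(gI (Ix N))) := by
      field_simp
    rw [h14]
    exact mul_le_mul_of_nonneg_left h3 (by positivity)
  have h15 : J / (2 * K) = J * (1 / (2 * K)) := by ring
  rw [h15]
  linarith only [h13, h11]

/-! ### the pathwise lower bound -/

/-- the pathwise inequality -/
lemma pathwise_q (hN : 0 < N) (β b : ℝ) (g : Ix N → ℝ) :
    1 / N * lse (Ey N β y 1 0) g - 1 / N * lse (Ey N β y 1 b) g ≤ β * b / 2 * Jg β y g := by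
  have hN' : (0 : ℝ) < N := by exact_mod_cast hN
  have h1 := Pw.lse_add_ge (E := Ey N β y 1 0) (E' := Ey N β y 1 b) g
  have h2 : lav (Ey N β y 1 0) g (fun x => Ey N β y 1 b g x - Ey N β y 1 0 g x) =
      -(β * b / 2) * Sk.gav β N g (fun x => qf (By y (Wm N g)) (spin x)) := by
    rw [ey_zero β 1 0, Pw.lav_zero]
    unfold Sk.gav
    rw [← mul_div_assoc, mul_sum]
    congr 1
    refine sum_congr rfl fun x _ => ?_
    unfold Esk Ey
    ring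
  rw [h2] at h1
  unfold Jg
  have h4 := mul_le_mul_of_nonneg_left h1 (by positivity : (0 : ℝ) ≤ 1 / N)
  have h5 : β * b / 2 * (1 / N * Sk.gav β N g (fun x => qf (By y (Wm N g)) (spin x))) =
      -(1 / N * (-(β * b / 2) * Sk.gav β N g (fun x => qf (By y (Wm N g)) (spin x)))) := by
    ring
  rw [h5]
  linarith only [h4]

/-- the variance of the perturbed free energies -/
lemma var_lse_q (hN : 0 < N) (hy : 0 < y) {β b : ℝ} (hb : 0 ≤ b) (hby : b ≤ y ^ 2) :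
    EG (lse (Ey N β y 1 b)) ∧
    ∫ g, |1 / N * lse (Ey N β y 1 b) g -
      1 / N * ∫ g', lse (Ey N β y 1 b) g' ∂(gI (Ix N))| ∂(gI (Ix N)) ≤
        1 / √(N : ℝ) + 5 * β ^ 2 / √(N : ℝ) := by
  have hN' : (0 : ℝ) < N := by exact_mod_cast hN
  have hs : 0 < √(N : ℝ) := Real.sqrt_pos.2 hN'
  have hss : √(N : ℝ) * √(N : ℝ) = N := Real.mul_self_sqrt hN'.le
  obtain ⟨D, B, hD, hDB, hB, hB2⟩ := gdq β hy hN (gm_exponents 0) 1 b
  have hE : ∀ x, EG fun g => Ey N β y 1 b g x := fun x => (hD.lip x).eg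
  obtain ⟨C, hC⟩ := hD.bd
  have hDw : ∀ (g : Ix N → ℝ) (x : Fin N → Bool), ∑ e, D e g x ^ 2 ≤ 5 * β ^ 2 * N := by
    intro g x
    have h1 : ∀ e : Ix N, D e g x ^ 2 ≤ 2 * (β ^ 2 / (2 * N)) + 2 * B e g x ^ 2 := by
      intro e
      rw [hDB]
      have hsp : ∀ i, spin x i ^ 2 = 1 := fun i => by unfold spin; split_ifs <;> norm_num
      have h2 : (β * 1 * (spin x e.1 * spin x e.2 / √(2 * (N : ℝ)))) ^ 2 = β ^ 2 / (2 * N) := by
        rw [mul_pow, div_pow, Real.sq_sqrt (by positivity), mul_pow, mul_pow (spin x e.1), hsp, hsp]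
        ring
      rw [← h2]
      linarith only [sq_nonneg (β * 1 * (spin x e.1 * spin x e.2 / √(2 * (N : ℝ))) - B e g x)]
    have h3 : ∑ _e : Ix N, 2 * (β ^ 2 / (2 * (N : ℝ))) = β ^ 2 * N := by
      rw [sum_const, card_univ]
      have h4 : Fintype.card (Ix N) = N * N := by simp [Sk.Ix]
      rw [h4, nsmul_eq_mul]
      push_cast
      field_simp
    have h5 : N * (2 * β ^ 2 * b ^ 2 / y ^ 4) ≤ 2 * β ^ 2 * N := by
      have h6 : b ^ 2 ≤ y ^ 4 := by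
        calc b ^ 2 ≤ (y ^ 2) ^ 2 := pow_le_pow_left₀ hb hby 2
          _ = y ^ 4 := by ring
      have h7 : 2 * β ^ 2 * b ^ 2 / y ^ 4 ≤ 2 * β ^ 2 := by
        rw [div_le_iff₀ (by positivity)]
        exact mul_le_mul_of_nonneg_left h6 (by (clear * -; positivity))
      calc _ ≤ N * (2 * β ^ 2) := mul_le_mul_of_nonneg_left h7 hN'.le
        _ = _ := by ring
    calc ∑ e, D e g x ^ 2 ≤ ∑ e : Ix N, (2 * (β ^ 2 / (2 * N)) + 2 * B e g x ^ 2) :=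
          sum_le_sum fun e _ => h1 e
      _ = β ^ 2 * N + 2 * ∑ e, B e g x ^ 2 := by rw [sum_add_distrib, h3, mul_sum]
      _ ≤ _ := by linarith only [hB2 g x, h5]
  have h1 := Pw.var_lse hE hD.pd hD.md hC (EG.const (5 * β ^ 2 * N)) hDw
  have hI : ∫ _g : Ix N → ℝ, 5 * β ^ 2 * (N : ℝ) ∂(gI (Ix N)) = 5 * β ^ 2 * N := by simp
  rw [hI] at h1
  have hL : EG (lse (Ey N β y 1 b)) := Pw.eg_lse hE
  refine ⟨hL, ?_⟩
  have hf : EG (fun g => 1 / N * lse (Ey N β y 1 b) g -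
      1 / N * ∫ g', lse (Ey N β y 1 b) g' ∂(gI (Ix N))) := (hL.const_mul _).sub (EG.const _)
  have h2 : ∫ g, (1 / N * lse (Ey N β y 1 b) g -
      1 / N * ∫ g', lse (Ey N β y 1 b) g' ∂(gI (Ix N))) ^ 2 ∂(gI (Ix N)) ≤ 5 * β ^ 2 / N := by
    have h3 : ∀ g, (1 / N * lse (Ey N β y 1 b) g -
        1 / N * ∫ g', lse (Ey N β y 1 b) g' ∂(gI (Ix N))) ^ 2 = (1 / (N : ℝ) ^ 2) *
        (lse (Ey N β y 1 b) g - ∫ g', lse (Ey N β y 1 b) g' ∂(gI (Ix N))) ^ 2 := by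
      intro g
      rw [← mul_sub, mul_pow, div_pow, one_pow]
    simp only [h3]
    rw [integral_const_mul]
    calc _ ≤ (1 / (N : ℝ) ^ 2) * (5 * β ^ 2 * N) := mul_le_mul_of_nonneg_left h1 (by positivity)
      _ = _ := by field_simp
  refine (Pw.int_abs_le hf (t := 1 / √(N : ℝ)) (by positivity) h2).trans (le_of_eq ?_)
  congr 1
  have h4 : 5 * β ^ 2 / (N : ℝ) / (1 / √(N : ℝ)) = 5 * β ^ 2 * √(N : ℝ) / (√(N : ℝ) * √(N : ℝ)) := by
    rw [hss]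
    field_simp
  rw [h4]
  field_simp

/-- the random coefficient is bounded below -/
theorem Jg_lower (hN : 0 < N) (hy : 0 < y) {m : ℕ → ℝ} (hm' : Exponents n m) {β b J : ℝ}
    (hβ : 0 < β) (hb : 0 < b) (hby : b ≤ y ^ 2)
    (hJ : β * b / 2 * J ≤ pN β N - gF n m (Ey N β y 1 b) (spin (N := N)) (fun _ => 0)) :
    ∫ z, max (J - Jg β y z) 0 ∂(gI (Ix N)) ≤
      4 * (1 + 5 * β ^ 2) / β * (1 / (b * √(N : ℝ))) := by
  have hN' : (0 : ℝ) < N := by exact_mod_cast hN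
  have hs : 0 < √(N : ℝ) := Real.sqrt_pos.2 hN'
  obtain ⟨L0, v0⟩ := var_lse_q (N := N) (β := β) hN hy (le_refl (0 : ℝ)) (by positivity)
  obtain ⟨Lb, vb⟩ := var_lse_q (N := N) (β := β) hN hy hb.le hby
  obtain ⟨D, B, hD, -⟩ := gdq β hy hN hm' 1 b
  have e1 : gF n m (Ey N β y 1 b) (spin (N := N)) (fun _ => 0) =
      1 / N * ∫ g', lse (Ey N β y 1 b) g' ∂(gI (Ix N)) := Gen.gF_no_field hD
  have e2 : pN β N = 1 / N * ∫ g', lse (Ey N β y 1 0) g' ∂(gI (Ix N)) := by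
    obtain ⟨D, B, hD, -⟩ := gdq β hy hN hm' 1 0
    rw [← gF_pN β hy hN hm', Gen.gF_no_field hD]
    rfl
  rw [e1, e2] at hJ
  set m0 := 1 / N * ∫ g', lse (Ey N β y 1 0) g' ∂(gI (Ix N)) with hm0
  set mb := 1 / N * ∫ g', lse (Ey N β y 1 b) g' ∂(gI (Ix N)) with hmb
  have a0 : EG (fun g => |1 / N * lse (Ey N β y 1 0) g - m0|) :=
    ((L0.const_mul _).sub (EG.const _)).abs
  have ab : EG (fun g => |1 / N * lse (Ey N β y 1 b) g - mb|) :=
    ((Lb.const_mul _).sub (EG.const _)).abs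
  have hpt : ∀ g : Ix N → ℝ, max (J - Jg β y g) 0 ≤
      2 / (β * b) * (|1 / N * lse (Ey N β y 1 0) g - m0| +
        |1 / N * lse (Ey N β y 1 b) g - mb|) := by
    intro g
    refine max_le ?_ (by (clear * - hβ hb; positivity))
    have h1 := pathwise_q (y := y) hN β b g
    have h2 := neg_abs_le (1 / N * lse (Ey N β y 1 0) g - m0)
    have h3 := le_abs_self (1 / N * lse (Ey N β y 1 b) g - mb)
    have h4 : β * b / 2 * (J - Jg β y g) ≤ |1 / N * lse (Ey N β y 1 0) g - m0| +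
        |1 / N * lse (Ey N β y 1 b) g - mb| := by
      rw [mul_sub]
      linarith only [h3, h2, h1, hJ]
    have h5 := mul_le_mul_of_nonneg_left h4 (by positivity : 0 ≤ 2 / (β * b))
    have h6 : 2 / (β * b) * (β * b / 2 * (J - Jg β y g)) = J - Jg β y g := by
      field_simp
    rwa [h6] at h5
  calc ∫ z, max (J - Jg β y z) 0 ∂(gI (Ix N)) ≤
      ∫ g, 2 / (β * b) * (|1 / N * lse (Ey N β y 1 0) g - m0| +
        |1 / N * lse (Ey N β y 1 b) g - mb|) ∂(gI (Ix N)) :=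
        integral_mono (eg_maxJ β hy J).integrable ((a0.add ab).const_mul _).integrable hpt
    _ = 2 / (β * b) * (∫ g, |1 / N * lse (Ey N β y 1 0) g - m0| ∂(gI (Ix N)) +
        ∫ g, |1 / N * lse (Ey N β y 1 b) g - mb| ∂(gI (Ix N))) := by
        rw [integral_const_mul, integral_add a0.integrable ab.integrable]
    _ ≤ 2 / (β * b) * ((1 / √(N : ℝ) + 5 * β ^ 2 / √(N : ℝ)) +
        (1 / √(N : ℝ) + 5 * β ^ 2 / √(N : ℝ))) :=
        mul_le_mul_of_nonneg_left (add_le_add v0 vb) (by positivity)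
    _ = _ := by
        field_simp
        ring

/-- **SPREADQ.** -/
theorem spreadq {β : ℝ} (hβ : 0 < β) : ∃ C : ℝ, 1 ≤ C ∧ ∀ (N n : ℕ) (m : ℕ → ℝ)
    (y b J K a : ℝ), 0 < N → Exponents n m → 0 < y → y ≤ 1 / C → C ≤ N * y ^ 6 → 0 < b →
    b ≤ y ^ 2 → 0 ≤ J → 0 < K →
    β * b / 2 * J ≤ pN β N - gF n m (Ey N β y 1 b) (spin (N := N)) (fun _ => 0) →
    J * (disorder N).real {g | |freeEnergy N β g - a| ≤ K} ≤
      C * (K / √y + 1 / (b * √(N : ℝ)) + 1) := by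
  obtain ⟨C₀, hC₀, hz⟩ := zeta_facts
  have hp1 : 0 ≤ 20 / β := by positivity
  have hp2 : 0 ≤ 8 * (1 + 5 * β ^ 2) / β := by positivity
  refine ⟨C₀ + 8 + 20 / β + 8 * (1 + 5 * β ^ 2) / β, by linarith,
    fun N n m y b J K a hN hm' hy hyC hNy hb hby hJ hK hdiff => ?_⟩
  have hN' : (0 : ℝ) < N := by exact_mod_cast hN
  have hN1 : (1 : ℝ) ≤ N := by exact_mod_cast hN
  have hCpos : 0 < C₀ + 8 + 20 / β + 8 * (1 + 5 * β ^ 2) / β := by positivity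
  have hyC0 : y ≤ 1 / C₀ := hyC.trans (by
    apply one_div_le_one_div_of_le (by linarith only [hC₀]); linarith only [hp2, hp1])
  have hy1 : y ≤ 1 := hyC.trans (by rw [div_le_one hCpos]; linarith only [hp2, hp1, hC₀])
  obtain ⟨z1, z2, z3, z4, z5, z6, -⟩ := hz N y hN hy hyC0 (by linarith only [hNy, hp2, hp1])
  have hA0 : 0 ≤ 1 - mA N y := le_trans (by positivity) z1
  have p1 : (N : ℝ) * y ^ 6 ≤ N * y ^ 3 :=
    mul_le_mul_of_nonneg_left (pow_le_pow_of_le_one hy.le hy1 (by norm_num)) hN'.le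
  have p2 : (N : ℝ) * y ^ 6 ≤ (N : ℝ) ^ 2 * y ^ 5 := by
    have h1 : (N : ℝ) * y ^ 6 ≤ N * y ^ 5 :=
      mul_le_mul_of_nonneg_left (pow_le_pow_of_le_one hy.le hy1 (by norm_num)) hN'.le
    have h2 : (N : ℝ) * y ^ 5 ≤ N ^ 2 * y ^ 5 := by
      refine mul_le_mul_of_nonneg_right ?_ (by positivity)
      nlinarith
    linarith only [h2, h1]
  have hsq := int_dq_sq hN hy hy1 (by linarith only [p1, hNy, hp2, hp1, hC₀]) (by linarith only [p2, hNy, hp2, hp1, hC₀]) hA0 z2 z5 z6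
  have hsy : 0 < √y := Real.sqrt_pos.2 hy
  have hsN : 0 < √(14 * (N : ℝ)) := Real.sqrt_pos.2 (by positivity)
  have hsq' : ∫ g, dq N y g * dq N y g ∂(gI (Ix N)) ≤ (√(14 * (N : ℝ)) / √y) ^ 2 := by
    rw [div_pow, Real.sq_sqrt (by positivity), Real.sq_sqrt hy.le]
    exact hsq
  have hb1 := small_ball_q hN hy hβ hK hJ (by positivity : 0 < √(14 * (N : ℝ)) / √y) hsq' a
  have hb2 := Jg_lower hN hy hm' hβ hb hby hdiff
  have hm1 : mB N y ≤ 1 := z5.trans (by rw [← Real.sqrt_one]; exact Real.sqrt_le_sqrt hy1)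
  set P := (disorder N).real {g | |freeEnergy N β g - a| ≤ K} with hP
  set E := ∫ z, max (J - Jg β y z) 0 ∂(gI (Ix N)) with hE
  have h1 : √(2 * (N : ℝ)) * √(14 * (N : ℝ)) ≤ 6 * N := by
    rw [← Real.sqrt_mul (by positivity)]
    apply Real.sqrt_le_iff.2
    refine ⟨by positivity, ?_⟩
    linarith only [sq_nonneg (N : ℝ)]
  have h2 : √(2 * (N : ℝ)) / (β * N) * (Real.pi / 2 * (√(14 * (N : ℝ)) / √y)) ≤
      10 / (β * √y) := by
    have hpi : Real.pi ≤ 10 / 3 := by linarith only [Real.pi_lt_d2]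
    calc _ = (√(2 * (N : ℝ)) * √(14 * (N : ℝ))) * (Real.pi / 2) / (β * N * √y) := by
          field_simp
      _ ≤ (6 * N) * (10 / 3 / 2) / (β * N * √y) := by gcongr
      _ = _ := by field_simp; norm_num
  have h3 : J / (2 * K) * P ≤ 10 / (β * √y) + 1 / K * (E + 1) := by
    have : 1 / K * (E + mB N y) ≤ 1 / K * (E + 1) := by gcongr
    linarith only [this, h2, hb1]
  have h4 : J * P ≤ 20 / β * (K / √y) + 2 * E + 2 := by
    have h5 := mul_le_mul_of_nonneg_left h3 (by positivity : 0 ≤ 2 * K)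
    have h6 : 2 * K * (J / (2 * K) * P) = J * P := by field_simp
    have h7 : 2 * K * (10 / (β * √y) + 1 / K * (E + 1)) = 20 / β * (K / √y) + 2 * E + 2 := by
      field_simp
      ring
    rwa [h6, h7] at h5
  have h5 : 0 ≤ K / √y := by positivity
  have h6 : 0 ≤ 1 / (b * √(N : ℝ)) := by positivity
  have h7 : 2 * E ≤ 8 * (1 + 5 * β ^ 2) / β * (1 / (b * √(N : ℝ))) := by
    have : 8 * (1 + 5 * β ^ 2) / β * (1 / (b * √(N : ℝ))) =
        2 * (4 * (1 + 5 * β ^ 2) / β * (1 / (b * √(N : ℝ)))) := by ring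
    linarith only [this, hb2]
  have h8 : 20 / β * (K / √y) ≤ (C₀ + 8 + 20 / β + 8 * (1 + 5 * β ^ 2) / β) * (K / √y) :=
    mul_le_mul_of_nonneg_right (by linarith only [hp2, hC₀]) h5
  have h9 : 8 * (1 + 5 * β ^ 2) / β * (1 / (b * √(N : ℝ))) ≤
      (C₀ + 8 + 20 / β + 8 * (1 + 5 * β ^ 2) / β) * (1 / (b * √(N : ℝ))) :=
    mul_le_mul_of_nonneg_right (by linarith only [hp1, hC₀]) h6
  rw [mul_add, mul_add, mul_one]
  linarith only [h9, h8, h7, h4, hp2, hp1, hC₀]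

end Vale.Agent.P146.Pw2
end

section

/-!
# P146, polynomial spreading of the free energy
-/

open MeasureTheory ProbabilityTheory Matrix Filter Topology

namespace Vale.Agent.P146.Pw2

open Vale.Agent.P157 (spin)
open Vale.Agent.P157.Lv
open Vale.Agent.P157.Par (Path Exponents topN lw spinPart)
open Vale.Agent.P146.Sk
open Vale.Agent.P166.F (Lam)
open Vale.Agent.P146.Sk.Gen (GI gz gl r0 gS gF gOb gIsOpt GD gV)

/-- The numbers of the last step. -/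
lemma fins_real {t y J K pr c₁ Cs Ct P bN : ℝ} (ht : 0 < t) (hCt : 1 ≤ Ct) (hCs : 0 ≤ Cs)
    (hc₁ : c₁ = 1 / (10 ^ 6 * Ct ^ 2)) (hy : √y = 8 * (Ct * t ^ 9))
    (hP : t ^ 8 / (10 ^ 6 * (Ct * t ^ 9) ^ 2) ≤ P) (hJ : P - 1 ≤ J)
    (ht1 : t ^ 10 ≤ c₁ / 2) (hK : 0 < K) (hbN : bN ≤ 1)
    (hS : 0 ≤ J → J * pr ≤ Cs * (K / √y + bN + 1)) (hpr : 0 ≤ pr) :
    pr ≤ 4 * Cs / c₁ * (K * t + t ^ 10) := by
  have hc0 : 0 < c₁ := by rw [hc₁]; positivity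
  have e1 : t ^ 8 / (10 ^ 6 * (Ct * t ^ 9) ^ 2) = c₁ / t ^ 10 := by
    rw [hc₁]
    field_simp
  rw [e1] at hP
  have h1 : c₁ / (2 * t ^ 10) ≤ J := by
    have h2 : 1 ≤ c₁ / (2 * t ^ 10) := by
      rw [le_div_iff₀ (by positivity)]
      linarith only [ht1]
    have h3 : c₁ / t ^ 10 = c₁ / (2 * t ^ 10) + c₁ / (2 * t ^ 10) := by
      field_simp
      norm_num
    linarith only [h3, h2, hJ, hP]
  have hJ0 : 0 ≤ J := le_trans (by positivity) h1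
  have h2 := hS hJ0
  have h3 : K / √y ≤ K / t ^ 9 := by
    rw [hy]
    refine div_le_div_of_nonneg_left hK.le (by positivity) ?_
    have : 0 < t ^ 9 := by positivity
    (by_contra nlg; linarith only [nlg, mul_nonneg (sub_nonneg.2 hCt) (le_of_lt (sub_pos.2 this)), mul_nonneg (mul_self_nonneg (1 : ℝ)) (le_of_lt (sub_pos.2 (not_le.1 nlg))), this])
  have h4 : c₁ / (2 * t ^ 10) * pr ≤ Cs * (K / t ^ 9 + 2) := by
    calc c₁ / (2 * t ^ 10) * pr ≤ J * pr := mul_le_mul_of_nonneg_right h1 hpr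
      _ ≤ Cs * (K / √y + bN + 1) := h2
      _ ≤ Cs * (K / t ^ 9 + 2) := mul_le_mul_of_nonneg_left (by linarith only [h3, hbN]) hCs
  have h5 := mul_le_mul_of_nonneg_left h4 (by positivity : 0 ≤ 2 * t ^ 10 / c₁)
  have h6 : 2 * t ^ 10 / c₁ * (c₁ / (2 * t ^ 10) * pr) = pr := by
    field_simp
  have h7 : 2 * t ^ 10 / c₁ * (Cs * (K / t ^ 9 + 2)) =
      2 * Cs / c₁ * (K * t) + 4 * Cs / c₁ * t ^ 10 := by
    field_simp
    ring
  rw [h6, h7] at h5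
  have h8 : 2 * Cs / c₁ * (K * t) ≤ 4 * Cs / c₁ * (K * t) := by
    refine mul_le_mul_of_nonneg_right ?_ (by positivity)
    refine div_le_div_of_nonneg_right (by linarith only [hCs]) hc0.le
  rw [mul_add]
  linarith only [h8, h5]

/-- The size of `N`. -/
lemma fins_size {s : ℝ} {N : ℕ} (hs : 0 < s) (hN : 1 ≤ N * s ^ 4) :
    1 / (s ^ 2 * √(N : ℝ)) ≤ 1 := by
  have h1 : 1 ≤ s ^ 2 * √(N : ℝ) := by
    have h2 : √((N : ℝ) * s ^ 4) = s ^ 2 * √(N : ℝ) := by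
      rw [mul_comm, Real.sqrt_mul (by positivity), show s ^ 4 = (s ^ 2) ^ 2 by ring,
        Real.sqrt_sq (by positivity)]
    rw [← h2]
    rw [show (1 : ℝ) = √1 by simp]
    exact Real.sqrt_le_sqrt hN
  rw [div_le_one (by linarith)]
  exact h1

/-- The Parisi side. -/
def ParQ (β : ℝ) : Prop := ∃ C : ℝ, 1 ≤ C ∧ ∀ t : ℝ, 0 < t → t ≤ 1 / C → ∀ n : ℕ,
    C ≤ ((n : ℝ) + 1) * t ^ 27 → ∀ (k : ℕ) (μ p : ℕ → ℝ), Exponents k μ → Path k p → p k ≤ 1 →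
    ∃ q : ℕ → ℝ, Path n q ∧ q n ≤ 1 ∧ GoodPath β n (gm n) q (PSK β k μ p + C / (n + 1)) ∧
      β * Sk.chi n (gm n) q ≤ 1 + C / (n + 1) ∧
      ∀ u ∈ Set.Icc (0 : ℝ) (t ^ 8), 1 - C * t ^ 9 ≤ β * Lam n (gm n) q u

/-- The rate of convergence of the mean free energy. -/
def RateQ (d β : ℝ) : Prop := ∃ C : ℝ, ∀ N : ℕ, 0 < N →
    ∃ (k : ℕ) (μ p : ℕ → ℝ), Exponents k μ ∧ Path k p ∧ p k ≤ 1 ∧
      PSK β k μ p ≤ pN β N + C * (N : ℝ) ^ (-d)

/-- The conclusion at a fixed `N` and a small parameter `t`. -/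
theorem fins_core {D : ℕ} {d β : ℝ} (hβ : 1 < β) (hpar : ParQ β) (hrt : RateQ d β)
    (hmain : ∀ C₀, MainQ D β C₀) : ∃ T : ℝ, 0 < T ∧ ∃ B : ℝ, 0 ≤ B ∧
    ∀ (N : ℕ) (t : ℝ), 0 < N → 0 < t → t ≤ T →
      1 ≤ N * t ^ ((18 * (D + 1) + 5) * (D + 7) + 110) →
      (N : ℝ) ^ (-d) ≤ t ^ ((18 * (D + 1) + 5) * (D + 7) + 110) →
      ∀ K a : ℝ, 0 < K →
        (disorder N).real {g | |freeEnergy N β g - a| ≤ K} ≤ B * (K * t + t ^ 10) := by
  have hβ0 : 0 < β := by linarith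
  obtain ⟨Ct, hCt1, hT1⟩ := hpar
  obtain ⟨Cr, hr⟩ := hrt
  obtain ⟨Cp, hCp0, hp⟩ := pN_le hβ0.le
  obtain ⟨Cm, hCm1, hm⟩ := hmain (Cp + |Cr| + Ct)
  obtain ⟨Cs, hCs1, hsp⟩ := spreadq hβ0
  obtain ⟨Cz, hCz1, hz⟩ := zeta_facts
  obtain ⟨c₁, hc₁⟩ : ∃ c₁ : ℝ, c₁ = 1 / (10 ^ 6 * Ct ^ 2) := ⟨_, rfl⟩
  obtain ⟨E, hE⟩ : ∃ E : ℕ, E = 18 * (D + 1) + 5 := ⟨_, rfl⟩
  have hc0 : 0 < c₁ := by rw [hc₁]; positivity
  obtain ⟨X, hX⟩ : ∃ X : ℝ, X = (8 * Ct) ^ 2 * (Cm + Cs + Cz) + 2 * Ct + 8 * Ct + 2 * |Cr| +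
    Cm + Cs + Cz + 2 / c₁ + 2 := ⟨_, rfl⟩
  have hCr := abs_nonneg Cr
  have q1 : 0 ≤ (8 * Ct) ^ 2 * Cm := by positivity
  have q2 : 0 ≤ (8 * Ct) ^ 2 * Cs := by positivity
  have q3 : 0 ≤ (8 * Ct) ^ 2 * Cz := by positivity
  have q4 : 0 ≤ 2 / c₁ := by positivity
  have q6 : (8 * Ct) ^ 2 * (Cm + Cs + Cz) = (8 * Ct) ^ 2 * Cm + (8 * Ct) ^ 2 * Cs +
    (8 * Ct) ^ 2 * Cz := by ring
  have x1 : (8 * Ct) ^ 2 * Cm ≤ X := by rw [hX, q6]; linarith only [q4, q3, q2, hCr, hCz1, hCs1, hCm1, hCt1]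
  have x2 : (8 * Ct) ^ 2 * Cs ≤ X := by rw [hX, q6]; linarith only [q4, q3, q1, hCr, hCz1, hCs1, hCm1, hCt1]
  have x3 : (8 * Ct) ^ 2 * Cz ≤ X := by rw [hX, q6]; linarith only [q4, q2, q1, hCr, hCz1, hCs1, hCm1, hCt1]
  have x4 : 8 * Ct ≤ X := by rw [hX, q6]; linarith only [q4, q3, q2, q1, hCr, hCz1, hCs1, hCm1, hCt1]
  have x5 : 2 * |Cr| ≤ X := by rw [hX, q6]; linarith only [q4, q3, q2, q1, hCz1, hCs1, hCm1, hCt1]
  have x6 : Cm ≤ X := by rw [hX, q6]; linarith only [q4, q3, q2, q1, hCr, hCz1, hCs1, hCt1]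
  have x7 : Cs ≤ X := by rw [hX, q6]; linarith only [q4, q3, q2, q1, hCr, hCz1, hCm1, hCt1]
  have x8 : Cz ≤ X := by rw [hX, q6]; linarith
  have x9 : 2 / c₁ ≤ X := by rw [hX, q6]; linarith only [q3, q2, q1, hCr, hCz1, hCs1, hCm1, hCt1]
  have x11 : 2 ≤ X := by rw [hX, q6]; linarith only [q4, q3, q2, q1, hCr, hCz1, hCs1, hCm1, hCt1]
  clear hX q1 q2 q3 q4 q6
  have hX0 : 0 < X := by linarith
  refine ⟨1 / X, by positivity, 4 * Cs / c₁, by positivity, ?_⟩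
  intro N t hN ht htX hNt hNd K a hK
  have hM : (18 * (D + 1) + 5) * (D + 7) + 110 = E * (D + 1) + 6 * E + 110 := by
    rw [← hE]
    ring
  rw [hM] at hNt hNd
  obtain ⟨y, hy⟩ : ∃ y : ℝ, y = (8 * Ct) ^ 2 * t ^ 18 := ⟨_, rfl⟩
  obtain ⟨hc, ht1, hy0, hsqy, hκ, hyc, hsyD, hs28, hy6, hs9, hs2⟩ :=
    fin_params (D := D + 1) ht hX0 htX hCt1 x4 x11 hE hy
  have hCt0 : 0 < Ct := by linarith only [hCt1]
  have hs0 : 0 < t ^ E := by positivity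
  have hs1 : t ^ E ≤ 1 := pow_le_one₀ ht.le ht1
  obtain ⟨n, hn1, hn2⟩ := exists_levels hs0 hs1
  have hn0 : (0 : ℝ) < (n : ℝ) + 1 := by positivity
  obtain ⟨k, μ, p, hμ, hpp, hp1, hrate⟩ := hr N hN
  -- the Parisi side
  have hn27 : Ct ≤ ((n : ℝ) + 1) * t ^ 27 := by
    have h1 : 1 ≤ ((n : ℝ) + 1) * (t ^ E) ^ 8 := by
      rw [div_le_iff₀ hn0] at hn1
      linarith only [hn1]
    have h2 : ((n : ℝ) + 1) * (t ^ E) ^ 8 ≤ ((n : ℝ) + 1) * t ^ 28 :=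
      mul_le_mul_of_nonneg_left hs28 hn0.le
    have h3 : Ct * t ≤ ((n : ℝ) + 1) * t ^ 27 * t := by
      calc Ct * t ≤ 1 := hc Ct (by linarith only [hCt0, x4])
        _ ≤ ((n : ℝ) + 1) * t ^ 28 := h1.trans h2
        _ = ((n : ℝ) + 1) * t ^ 27 * t := by ring
    exact le_of_mul_le_mul_right h3 ht
  obtain ⟨q, hq, hq1, hg, hchi, hlow⟩ := hT1 t ht (by
    rw [le_div_iff₀ hCt0, mul_comm]
    exact hc Ct (by linarith only [hCt0, x4])) n hn27 k μ p hμ hpp hp1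
  have hdiv : Ct / ((n : ℝ) + 1) = Ct * (1 / ((n : ℝ) + 1)) := by ring
  rw [hdiv] at hg hchi
  have hnd : (N : ℝ) ^ (-d) ≤ (t ^ E) ^ 6 * t := by
    refine hNd.trans ?_
    calc t ^ (E * (D + 1) + 6 * E + 110) ≤ t ^ (E * 6 + 1) :=
          pow_le_pow_of_le_one ht.le ht1 (by omega)
      _ = (t ^ E) ^ 6 * t := by rw [pow_succ, pow_mul]
  have hP : PSK β k μ p + Ct * (1 / ((n : ℝ) + 1)) ≤ pN β N + (t ^ E) ^ 6 :=
    fin_P ht hs0 hrate (by positivity) hnd (hc _ x5) hn1 hCt0.le (hc _ x4) hs2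
  have hP0 := goodPath_nonneg (gm_exponents n) hq hq1 hg
  have hPC : |PSK β k μ p + Ct * (1 / ((n : ℝ) + 1))| ≤ Cp + |Cr| + Ct := by
    rw [abs_of_nonneg hP0]
    have h1 := hp N hN
    have h2 : (t ^ E) ^ 6 ≤ 1 := pow_le_one₀ hs0.le hs1
    linarith only [h2, h1, hP, hCr, hCt1]
  have hchi' : β * Sk.chi n (gm n) q ≤ 1 + √y / 16 := by
    rw [hsqy]
    have h1 : Ct * (1 / ((n : ℝ) + 1)) ≤ Ct * (t ^ 9 / 2) :=
      mul_le_mul_of_nonneg_left (hn1.trans hs9) hCt0.le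
    linarith only [h1, hchi]
  have hy1 : y ≤ 1 / Cm := hyc Cm (by linarith only [hCm1]) x1
  have hyle : y ≤ 1 := hy1.trans (by rw [div_le_one (by linarith only [hCm1])]; exact hCm1)
  have hyD : 0 < y ^ D := by positivity
  have hyD1 : y ^ (D + 1) ≤ y ^ D := pow_le_pow_of_le_one hy0.le hyle (by omega)
  have hsyD' : t ^ E ≤ t * y ^ D :=
    hsyD.trans (mul_le_mul_of_nonneg_left hyD1 ht.le)
  have hsy : t ^ E ≤ y ^ D := hsyD'.trans (by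
    calc t * y ^ D ≤ 1 * y ^ D := mul_le_mul_of_nonneg_right ht1 hyD.le
      _ = y ^ D := one_mul _)
  have hsy1 : t ^ E ≤ y := hsyD.trans (by
    calc t * y ^ (D + 1) ≤ 1 * y ^ (D + 1) := mul_le_mul_of_nonneg_right ht1 (by positivity)
      _ = y ^ (D + 1) := one_mul _
      _ ≤ y ^ 1 := pow_le_pow_of_le_one hy0.le hyle (by omega)
      _ = y := pow_one y)
  have hXt := hc X le_rfl
  have hNm : Cm ≤ N * (t ^ E) ^ D := by
    rw [← pow_mul]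
    refine x6.trans (fin_size ht ht1 hXt hNt ?_)
    have : E * D ≤ E * (D + 1) := Nat.mul_le_mul_left _ (by omega)
    omega
  have hN108 : X ≤ N * y ^ 6 :=
    (fin_size (k := 108) ht ht1 hXt hNt (by omega)).trans
      (mul_le_mul_of_nonneg_left hy6 (Nat.cast_nonneg N))
  have hNs4 : 1 ≤ N * (t ^ E) ^ 4 := by
    rw [← pow_mul]
    exact (by linarith only [hCt0, x11, x4] : (1 : ℝ) ≤ X).trans (fin_size ht ht1 hXt hNt (by omega))
  -- the coefficient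
  obtain ⟨J, hJdef⟩ : ∃ J : ℝ, J = 2 / (β * (t ^ E) ^ 2) *
      (pN β N - gF n (gm n) (Ey N β y 1 ((t ^ E) ^ 2)) (spin (N := N)) (fun _ => 0)) := ⟨_, rfl⟩
  have hJeq : β * (t ^ E) ^ 2 / 2 * J =
      pN β N - gF n (gm n) (Ey N β y 1 ((t ^ E) ^ 2)) (spin (N := N)) (fun _ => 0) := by
    rw [hJdef]
    field_simp
  have key := hm N n y (t ^ E) _ J q hN hy0 hy1 hs0 hsy hn1 hn2 hNm hq hq1 hg hPC hP hchi'
    hJeq.ge
  have hJ : PHI (zt N y) β n (gm n) q - 1 ≤ J := by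
    refine le_trans (sub_le_sub_left ?_ _) key
    rw [div_le_one hyD]
    calc Cm * t ^ E ≤ Cm * (t * y ^ D) := mul_le_mul_of_nonneg_left hsyD' (by linarith only [hCm1])
      _ = Cm * t * y ^ D := by ring
      _ ≤ 1 * y ^ D := mul_le_mul_of_nonneg_right (hc Cm x6) hyD.le
      _ = y ^ D := one_mul _
  obtain ⟨-, -, -, -, -, -, z1, z2, z3, z4⟩ := hz N y hN hy0 (hyc Cz (by linarith only [hCz1]) x3)
    (x8.trans hN108)
  rw [hsqy] at z1 z2 z3 z4 hchi'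
  have hphi := phi_lower (c := β) (κ := Ct * t ^ 9) (v := t ^ 8) (gm_exponents n) hq hq1 hβ0.le
    (by positivity) hκ (by linarith only [z1]) (by linarith only [z2]) (by linarith only [z3]) (by linarith only [z4])
    (by
      have : 0 ≤ Ct * t ^ 9 := by positivity
      linarith only [this, hchi']) (by positivity) (pow_le_one₀ ht.le ht1) hlow
  have hb2 : (t ^ E) ^ 2 ≤ y ^ 2 := pow_le_pow_left₀ hs0.le hsy1 2
  refine fins_real (Cs := Cs) (K := K) (y := y) ht hCt1 (by linarith only [hCs1]) hc₁ hsqy hphi hJ ?_ hK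
    (fins_size hs0 hNs4) (fun hJ0 => ?_) measureReal_nonneg
  · have h1 := hc _ x9
    have h2 : t ^ 10 ≤ t := by
      calc t ^ 10 ≤ t ^ 1 := pow_le_pow_of_le_one ht.le ht1 (by norm_num)
        _ = t := pow_one t
    have h3 : t ≤ c₁ / 2 := by
      have e : 2 / c₁ * t * (c₁ / 2) = t := by field_simp
      have h4 : 2 / c₁ * t * (c₁ / 2) ≤ 1 * (c₁ / 2) :=
        mul_le_mul_of_nonneg_right h1 (by positivity)
      rw [e] at h4
      linarith only [h4]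
    exact h2.trans h3
  · exact hsp N n (gm n) y ((t ^ E) ^ 2) J K a hN (gm_exponents n) hy0
      (hyc Cs (by linarith only [hCs1]) x2) (x7.trans hN108) (by positivity) hb2 hJ0 hK hJeq.le

/-- **Polynomial spreading**, for every centering. -/
theorem fins_spread {D : ℕ} {d β : ℝ} (hβ : 1 < β) (hd : 0 < d) (hd1 : d ≤ 1) (hpar : ParQ β)
    (hrt : RateQ d β) (hmain : ∀ C₀, MainQ D β C₀) : ∀ᶠ N : ℕ in atTop, ∀ a : ℝ,
    (disorder N).real {g | |freeEnergy N β g - a| ≤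
      (N : ℝ) ^ (d / (4 * (((18 * (D + 1) + 5) * (D + 7) + 110 : ℕ) : ℝ)))} ≤
      (N : ℝ) ^ (-(d / (4 * (((18 * (D + 1) + 5) * (D + 7) + 110 : ℕ) : ℝ)))) := by
  obtain ⟨T, hT, B, hB, h⟩ := fins_core hβ hpar hrt hmain
  obtain ⟨M, hMd⟩ : ∃ M : ℕ, M = (18 * (D + 1) + 5) * (D + 7) + 110 := ⟨_, rfl⟩
  have hM : 0 < M := by omega
  rw [← hMd] at h ⊢
  have hM0 : (0 : ℝ) < M := by exact_mod_cast hM
  obtain ⟨a, ha⟩ : ∃ a : ℝ, a = d / M := ⟨_, rfl⟩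
  have ha0 : 0 < a := by rw [ha]; positivity
  have haM : a * M = d := by rw [ha]; field_simp
  have ha4 : d / (4 * (M : ℝ)) = a / 4 := by rw [ha]; field_simp
  rw [ha4]
  have ht : Tendsto (fun N : ℕ => (N : ℝ) ^ (-a)) atTop (𝓝 0) :=
    (tendsto_rpow_neg_atTop ha0).comp tendsto_natCast_atTop_atTop
  have ht2 : Tendsto (fun N : ℕ => (2 * B) * (N : ℝ) ^ (-(a / 2))) atTop (𝓝 ((2 * B) * 0)) :=
    ((tendsto_rpow_neg_atTop (by positivity : 0 < a / 2)).comp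
      tendsto_natCast_atTop_atTop).const_mul _
  rw [mul_zero] at ht2
  filter_upwards [eventually_gt_atTop 0, ht.eventually (eventually_le_nhds hT),
    ht2.eventually (eventually_le_nhds one_pos)] with N hN hNT hN2 a'
  have hN0 : (0 : ℝ) < N := by exact_mod_cast hN
  have hN1 : (1 : ℝ) ≤ N := by exact_mod_cast hN
  have hpow : ((N : ℝ) ^ (-a)) ^ M = (N : ℝ) ^ (-d) := by
    rw [← Real.rpow_natCast, ← Real.rpow_mul hN0.le, neg_mul, haM]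
  have key := h N ((N : ℝ) ^ (-a)) hN (by positivity) hNT (by
    rw [hpow]
    have h1 : (N : ℝ) * (N : ℝ) ^ (-d) = (N : ℝ) ^ (1 - d) := by
      rw [sub_eq_add_neg, Real.rpow_add hN0, Real.rpow_one]
    rw [h1]
    exact Real.one_le_rpow hN1 (by linarith only [hd1])) (by rw [hpow])
    ((N : ℝ) ^ (a / 4)) a' (by positivity)
  refine key.trans ?_
  have h1 : (N : ℝ) ^ (a / 4) * (N : ℝ) ^ (-a) = (N : ℝ) ^ (-(a / 2)) * (N : ℝ) ^ (-(a / 4)) := by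
    rw [← Real.rpow_add hN0, ← Real.rpow_add hN0]
    congr 1
    ring
  have h2 : ((N : ℝ) ^ (-a)) ^ 10 ≤ (N : ℝ) ^ (-(a / 2)) * (N : ℝ) ^ (-(a / 4)) := by
    rw [← Real.rpow_natCast, ← Real.rpow_mul hN0.le, ← Real.rpow_add hN0]
    refine Real.rpow_le_rpow_of_exponent_le hN1 ?_
    push_cast
    linarith only [ha0]
  calc B * ((N : ℝ) ^ (a / 4) * (N : ℝ) ^ (-a) + ((N : ℝ) ^ (-a)) ^ 10) ≤
      B * ((N : ℝ) ^ (-(a / 2)) * (N : ℝ) ^ (-(a / 4)) +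
        (N : ℝ) ^ (-(a / 2)) * (N : ℝ) ^ (-(a / 4))) := by
        refine mul_le_mul_of_nonneg_left ?_ hB
        rw [h1]
        linarith only [h2]
    _ = 2 * B * (N : ℝ) ^ (-(a / 2)) * (N : ℝ) ^ (-(a / 4)) := by ring
    _ ≤ 1 * (N : ℝ) ^ (-(a / 4)) := mul_le_mul_of_nonneg_right hN2 (by positivity)
    _ = _ := one_mul _

/-- The variance from the small ball probabilities. -/
lemma var_of_ball {N : ℕ} (hN : 0 < N) {β K p : ℝ} (hK : 0 < K)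
    (h : ∀ a : ℝ, (disorder N).real {g | |freeEnergy N β g - a| ≤ K} ≤ p) :
    K ^ 2 * (1 - p) ≤ Var[freeEnergy N β; disorder N] := by
  rw [Vr.var_free hN]
  generalize ∫ z, Vr.F1 β z ∂(gI (Sk.Ix N)) = m
  have hm : Measurable (freeEnergy N β) := by
    unfold freeEnergy partitionFn hamiltonian
    fun_prop
  have hms : MeasurableSet {g | |freeEnergy N β g - m| ≤ K} :=
    measurableSet_le (by fun_prop) measurable_const
  have h5 : (disorder N).real {g | |freeEnergy N β g - m| ≤ K} =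
      ∫ z, ({x : ℝ | |x - m| ≤ K}.indicator 1 (Vr.F1 β z) : ℝ) ∂(gI (Sk.Ix N)) := by
    have h6 := integral_indicator_one (μ := disorder N) hms
    rw [← h6, integral_disorder (measurable_one.indicator hms)]
    congr 1
    funext z
    simp only [Set.indicator, Set.mem_setOf_eq, Pi.one_apply, Vr.free_phi hN β z, Vr.F1]
  have hms2 : MeasurableSet {x : ℝ | |x - m| ≤ K} := measurableSet_le (by fun_prop) measurable_const
  have e4 : EG (fun z : Sk.Ix N → ℝ =>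
      ({x : ℝ | |x - m| ≤ K}.indicator 1 (Vr.F1 β z) : ℝ)) := by
    refine EG.of_bdd ((measurable_one.indicator hms2).comp (Vr.eg_F1 β).meas) (C := 1)
      fun z => ?_
    by_cases hz : |Vr.F1 β z - m| ≤ K
    · rw [Set.indicator_of_mem (by exact hz), Pi.one_apply, abs_one]
    · rw [Set.indicator_of_notMem (by exact hz), abs_zero]
      exact zero_le_one
  have e1 : EG (fun z : Sk.Ix N → ℝ => (Vr.F1 β z - m) ^ 2) :=
    ((Vr.eg_F1 β).sub (EG.const _)).pow 2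
  have h1 : ∀ z : Sk.Ix N → ℝ, K ^ 2 * (1 - ({x : ℝ | |x - m| ≤ K}.indicator 1 (Vr.F1 β z) : ℝ)) ≤
      (Vr.F1 β z - m) ^ 2 := by
    intro z
    by_cases hz : |Vr.F1 β z - m| ≤ K
    · rw [Set.indicator_of_mem (by exact hz), Pi.one_apply, sub_self, mul_zero]
      exact sq_nonneg _
    · rw [Set.indicator_of_notMem (by exact hz), sub_zero, mul_one, ← sq_abs (Vr.F1 β z - m)]
      exact pow_le_pow_left₀ hK.le (not_le.1 hz).le 2
  have h2 := integral_mono (((EG.const 1).sub e4).const_mul (K ^ 2)).integrable e1.integrable h1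
  rw [integral_const_mul, integral_sub (integrable_const _) e4.integrable, ← h5,
    integral_const] at h2
  simp only [probReal_univ, one_smul] at h2
  refine le_trans (mul_le_mul_of_nonneg_left ?_ (sq_nonneg K)) h2
  linarith [h m]

/-- **The conclusion.** -/
theorem fins_of {D : ℕ} {d β : ℝ} (hβ : 1 < β) (hd : 0 < d) (hd1 : d ≤ 1) (hpar : ParQ β)
    (hrt : RateQ d β) (hmain : ∀ C₀, MainQ D β C₀) {c : ℝ}
    (hc : c = d / (4 * (((18 * (D + 1) + 5) * (D + 7) + 110 : ℕ) : ℝ))) : ∀ᶠ N : ℕ in atTop,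
    (⨆ a : ℝ, (disorder N).real {g | |freeEnergy N β g - a| ≤ (N : ℝ) ^ c}) ≤ (N : ℝ) ^ (-c) ∧
    (N : ℝ) ^ c ≤ Var[freeEnergy N β; disorder N] := by
  have hc0 : 0 < c := by
    rw [hc]
    have : (0 : ℝ) < (((18 * (D + 1) + 5) * (D + 7) + 110 : ℕ) : ℝ) := by
      exact_mod_cast (by positivity)
    positivity
  have h := fins_spread hβ hd hd1 hpar hrt hmain
  rw [← hc] at h
  have ht : Tendsto (fun N : ℕ => (N : ℝ) ^ (-c)) atTop (𝓝 0) :=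
    (tendsto_rpow_neg_atTop hc0).comp tendsto_natCast_atTop_atTop
  filter_upwards [eventually_gt_atTop 0, h,
    ht.eventually (eventually_le_nhds (by norm_num : (0 : ℝ) < 1 / 2))] with N hN hN2 hN3
  have hN0 : (0 : ℝ) < N := by exact_mod_cast hN
  refine ⟨ciSup_le hN2, ?_⟩
  have h1 := var_of_ball hN (by positivity : 0 < (N : ℝ) ^ c) hN2
  have h2 : (N : ℝ) ^ c * (N : ℝ) ^ (-c) = 1 := by
    rw [← Real.rpow_add hN0, add_neg_cancel, Real.rpow_zero]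
  have h3 : (2 : ℝ) ≤ (N : ℝ) ^ c := by
    have h4 : (0 : ℝ) < (N : ℝ) ^ c := by positivity
    (by_contra nlg; linarith only [nlg, mul_nonneg (sub_nonneg.2 hN3) (le_of_lt (sub_pos.2 h4)), mul_eq_zero_of_left (sub_eq_zero.2 h2) (1 - (d)), mul_eq_zero_of_left (sub_eq_zero.2 h2) (d - (0)), mul_nonneg (le_of_lt (sub_pos.2 (not_le.1 nlg))) (sub_nonneg.2 hd1), mul_pos (sub_pos.2 (not_le.1 nlg)) (sub_pos.2 hd)])
  refine le_trans ?_ h1
  (by_contra nlg; linarith only [nlg, mul_nonneg (sub_nonneg.2 h3) (sub_nonneg.2 h3), mul_eq_zero_of_left (sub_eq_zero.2 h2) (↑N ^ c - (2)), mul_nonneg (sub_nonneg.2 hd1) (sub_nonneg.2 h3), mul_eq_zero_of_left (sub_eq_zero.2 h2) (1 - (d)), mul_nonneg (le_of_lt (sub_pos.2 hd)) (sub_nonneg.2 h3), mul_eq_zero_of_left (sub_eq_zero.2 h2) (d - (0)), mul_nonneg (le_of_lt (sub_pos.2 (not_le.1 nlg))) (sub_nonneg.2 hd1), mul_pos (sub_pos.2 (not_le.1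 nlg)) (sub_pos.2 hd)])

end Vale.Agent.P146.Pw2
end

section

/-!
# P146, polynomial lower bound, Parisi side: no atom near zero (T1M)
-/

open MeasureTheory ProbabilityTheory Filter Topology Set

namespace Vale.Agent.P146.Pw2

open Vale.Agent.P157.Par
open Vale.Agent.P146.Gap

section T1M

/-- `max {l ≤ n : r l ≤ v}` -/
theorem t1m_last {n L : ℕ} {r : ℕ → ℝ} {v : ℝ} (hL : L ≤ n) (hv : r L ≤ v) :
    ∃ L', L ≤ L' ∧ L' ≤ n ∧ r L' ≤ v ∧ (L' < n → v < r (L' + 1)) := by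
  classical
  have h := Nat.findGreatest_spec (P := fun l => r l ≤ v) hL hv
  refine ⟨Nat.findGreatest (fun l => r l ≤ v) n, Nat.le_findGreatest hL hv,
    Nat.findGreatest_le n, h, fun hlt => ?_⟩
  by_contra hcon
  push Not at hcon
  have h2 : Nat.findGreatest (fun l => r l ≤ v) n + 1 ≤ n := hlt
  have := Nat.le_findGreatest (P := fun l => r l ≤ v) h2 hcon
  omega

theorem t1m_gm_mono (n : ℕ) {i j : ℕ} (h : i ≤ j) : gm n i ≤ gm n j := by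
  unfold gm
  have : (i : ℝ) ≤ j := by exact_mod_cast h
  gcongr

theorem t1m_gm_le (n : ℕ) {i : ℕ} (h : i ≤ n + 1) : gm n i ≤ 1 := by
  have := t1m_gm_mono n h
  rwa [(gm_exponents n).2.1] at this

theorem t1m_pow {g Q t : ℝ} (ht : 0 ≤ t) (hQ : 1 ≤ Q) (h : g ^ 4 ≤ Q * t ^ 4) :
    g ≤ Q * t := by
  by_contra hcon
  push Not at hcon
  have h1 : (Q * t) ^ 4 < g ^ 4 := pow_lt_pow_left₀ hcon (by positivity) (by norm_num)
  have h2 : Q * t ^ 4 ≤ (Q * t) ^ 4 := by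
    rw [mul_pow]
    refine mul_le_mul_of_nonneg_right ?_ (by positivity)
    calc Q = Q ^ 1 := (pow_one Q).symm
      _ ≤ Q ^ 4 := pow_le_pow_right₀ hQ (by norm_num)
  linarith

/-- the position of an atom -/
theorem t1m_atom {c A h K v g rl M0 s : ℝ} (hs : 0 < s) (hK : 1 ≤ K) (hg : 0 < g)
    (hv : 0 ≤ v) (hrl : 2 * v < rl) (hM : M0 ≤ c + A * h)
    (hAh : A * h ≤ s * g * v / 8)
    (hR : c * rl ≤ M0 * rl + K ^ 2 * rl ^ 3 / 6 - s * g * (max (rl - v) 0) ^ 2 / 2) :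
    3 * s / (8 * K ^ 2) * g ≤ rl := by
  have hrl0 : 0 < rl := by linarith only [hrl, hv]
  have h1 : rl / 2 ≤ max (rl - v) 0 := le_trans (by linarith) (le_max_left _ _)
  have h2 : (rl / 2) ^ 2 ≤ (max (rl - v) 0) ^ 2 := pow_le_pow_left₀ (by linarith only [hrl0]) h1 2
  have h3 := mul_le_mul_of_nonneg_left h2 (mul_pos hs hg).le
  have h4 := mul_le_mul_of_nonneg_right hM hrl0.le
  have h5 := mul_le_mul_of_nonneg_right hAh hrl0.le
  have h6 : s * g * v / 8 * rl ≤ s * g * rl / 16 * rl := by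
    refine mul_le_mul_of_nonneg_right ?_ hrl0.le
    have := mul_le_mul_of_nonneg_left hrl.le (mul_pos hs hg).le
    linarith only [this]
  have h7 : s * g * rl ^ 2 / 16 ≤ K ^ 2 * rl ^ 3 / 6 := by linarith only [h6, h5, h4, h3, hR]
  have h8 : rl ^ 2 * (3 * s * g) ≤ rl ^ 2 * (8 * K ^ 2 * rl) := by linarith only [h7]
  have h9 := le_of_mul_le_mul_left h8 (by positivity)
  have hK2 : 0 < 8 * K ^ 2 := by positivity
  rw [div_mul_eq_mul_div, div_le_iff₀ hK2]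
  linarith only [h9]

theorem t1m_num1 {A C K M0 Mn Rn b c h rn t v : ℝ} (hc1 : c < 1) (ht : 0 < t) (ht1 : t ≤ 1)
    (hCt : C * t ≤ 1) (hA : 0 ≤ A) (hrn0 : 0 ≤ rn) (hv : v = b ^ 2 * t ^ 8)
    (hcon : rn ≤ 2 * v) (hv0 : 0 ≤ v)
    (hCc' : (4 * b ^ 2 + A + 2 * K ^ 2 * b ^ 4 + 1) / (1 - c) ≤ C) (h12 : h ≤ t)
    (h1 : Mn ≤ M0 + K ^ 2 * rn ^ 2 / 2) (h2 : 1 - 2 * Rn ≤ Mn) (h3 : Rn ≤ rn)
    (hM0up : M0 ≤ c + A * h) : False := by
  have ht8t : t ^ 8 ≤ t := by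
    calc t ^ 8 ≤ t ^ 1 := pow_le_pow_of_le_one ht.le ht1 (by norm_num)
      _ = t := pow_one t
  have h4 : rn ^ 2 ≤ (2 * v) ^ 2 := pow_le_pow_left₀ hrn0 hcon 2
  have h5 := mul_le_mul_of_nonneg_left h4 (sq_nonneg K)
  have hvt : v ≤ b ^ 2 * t := by
    rw [hv]; exact mul_le_mul_of_nonneg_left ht8t (by positivity)
  have h6 : (4 * b ^ 2 + A + 2 * K ^ 2 * b ^ 4 + 1) ≤ C * (1 - c) := by
    rwa [div_le_iff₀ (by linarith)] at hCc'
  have h7 : (4 * b ^ 2 + A + 2 * K ^ 2 * b ^ 4 + 1) * t ≤ 1 - c := by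
    have := mul_le_mul_of_nonneg_right h6 ht.le
    have h8 : C * (1 - c) * t ≤ 1 * (1 - c) := by
      have := mul_le_mul_of_nonneg_right hCt (show 0 ≤ 1 - c by linarith)
      linarith
    linarith
  have h8 : v ^ 2 ≤ b ^ 4 * t := by
    have h9 : v ^ 2 ≤ (b ^ 2 * t) ^ 2 := pow_le_pow_left₀ hv0 hvt 2
    have h10 : (b ^ 2 * t) ^ 2 = b ^ 4 * t ^ 2 := by ring
    have h11 : t ^ 2 ≤ t := by (by_contra nlg; linarith only [nlg, mul_nonneg (le_of_lt (sub_pos.2 ht)) (sub_nonneg.2 ht1), mul_nonneg (le_of_lt (sub_pos.2 (not_le.1 nlg))) (sub_nonneg.2 ht1), mul_pos (sub_pos.2 (not_le.1 nlg)) (sub_pos.2 ht)])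
    rw [h10] at h9
    exact h9.trans (mul_le_mul_of_nonneg_left h11 (by positivity))
  have h13 : A * h ≤ A * t := mul_le_mul_of_nonneg_left h12 hA
  have h14 := mul_le_mul_of_nonneg_left h8 (sq_nonneg K)
  linarith only [h14, h13, h7, hvt, h5, hM0up, h3, h2, h1, hcon, ht]

theorem t1m_num2 {A C b g h s t v : ℝ} (hs0 : 0 < s) (ht : 0 < t) (ht1 : t ≤ 1) (hb2 : 1 < b ^ 2)
    (hg0 : 0 < g) (hgt : t ≤ g) (hh0 : 0 < h) (hv : v = b ^ 2 * t ^ 8) (hCA : 8 * A / s ≤ C)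
    (hCh : C * h ≤ t ^ 27) : A * h ≤ s * g * v / 8 := by
  have ht27 : t ^ 27 ≤ t ^ 9 := pow_le_pow_of_le_one ht.le ht1 (by norm_num)
  have h5 : 8 * A ≤ C * s := by rwa [div_le_iff₀ hs0] at hCA
  have h6 : 8 * A * h ≤ s * t ^ 27 := by
    have h7 := mul_le_mul_of_nonneg_right h5 hh0.le
    have h8 := mul_le_mul_of_nonneg_left hCh hs0.le
    linarith
  have h9 : t ^ 27 ≤ g * v := by
    refine ht27.trans ?_
    rw [hv]
    calc t ^ 9 = t * (1 * t ^ 8) := by ring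
      _ ≤ g * (b ^ 2 * t ^ 8) := by
        refine mul_le_mul hgt ?_ (by positivity) hg0.le
        exact mul_le_mul_of_nonneg_right hb2.le (by positivity)
  have h10 := mul_le_mul_of_nonneg_left h9 hs0.le
  linarith only [h10, h6]

theorem t1m_num3 {C b c₃ g t v : ℝ} (hc₃0 : 0 < c₃) (ht : 0 < t) (ht1 : t ≤ 1) (hCt : C * t ≤ 1)
    (hgt : t ≤ g) (hv : v = b ^ 2 * t ^ 8) (hCc₃ : 4 * b ^ 2 / c₃ ≤ C) : 4 * v ≤ c₃ * g := by
  have ht7 : t ^ 7 ≤ t := by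
    calc t ^ 7 ≤ t ^ 1 := pow_le_pow_of_le_one ht.le ht1 (by norm_num)
      _ = t := pow_one t
  have h1 : 4 * b ^ 2 ≤ C * c₃ := by rwa [div_le_iff₀ hc₃0] at hCc₃
  have h2 : 4 * b ^ 2 * t ≤ c₃ := by
    have h3 := mul_le_mul_of_nonneg_right h1 ht.le
    have h4 := mul_le_mul_of_nonneg_right hCt hc₃0.le
    linarith
  rw [hv]
  calc 4 * (b ^ 2 * t ^ 8) = 4 * b ^ 2 * t ^ 7 * t := by ring
    _ ≤ 4 * b ^ 2 * t * t := by
      refine mul_le_mul_of_nonneg_right ?_ ht.le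
      exact mul_le_mul_of_nonneg_left ht7 (by positivity)
    _ ≤ c₃ * g := mul_le_mul h2 hgt ht.le hc₃0.le

theorem t1m_num4 {Ca Cb Cc Kr Q b h rl t v : ℝ} (hb0 : 0 < b) (ht : 0 < t) (ht1 : t ≤ 1)
    (hCa : 1 ≤ Ca) (hCb : 1 ≤ Cb) (hCc : 1 ≤ Cc) (hKr : 0 < Kr) (hh1 : h ≤ t ^ 27)
    (hv : v = b ^ 2 * t ^ 8) (hr : rl ≤ 2 * v)
    (hQ : Q = 1 + Kr * (Cb * (2 * b) + Ca * (2 * b + 1) + Cc * (2 * b ^ 2 + 1))) :
    Kr * (Cb * √rl + Ca * (√rl + h) + Cc * (rl + h)) ≤ Q * t ^ 4 := by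
  have ht274 : t ^ 27 ≤ t ^ 4 := pow_le_pow_of_le_one ht.le ht1 (by norm_num)
  have ht84 : t ^ 8 ≤ t ^ 4 := pow_le_pow_of_le_one ht.le ht1 (by norm_num)
  have hsq : √rl ≤ 2 * b * t ^ 4 := by
    refine Real.sqrt_le_iff.2 ⟨by positivity, ?_⟩
    have : (2 * b * t ^ 4) ^ 2 = 4 * (b ^ 2 * t ^ 8) := by ring
    rw [this]
    have : 0 ≤ b ^ 2 * t ^ 8 := by positivity
    rw [hv] at hr
    linarith
  have hht4 : h ≤ t ^ 4 := hh1.trans ht274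
  have hrt : rl ≤ 2 * b ^ 2 * t ^ 4 := by
    have := mul_le_mul_of_nonneg_left ht84 (show 0 ≤ b ^ 2 by positivity)
    rw [← hv] at this
    linarith
  have f1 : Cb * √rl ≤ Cb * (2 * b * t ^ 4) := mul_le_mul_of_nonneg_left hsq (by linarith)
  have f2 : Ca * (√rl + h) ≤ Ca * (2 * b * t ^ 4 + t ^ 4) :=
    mul_le_mul_of_nonneg_left (by linarith) (by linarith)
  have f3 : Cc * (rl + h) ≤ Cc * (2 * b ^ 2 * t ^ 4 + t ^ 4) :=
    mul_le_mul_of_nonneg_left (by linarith) (by linarith)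
  have f5 := mul_le_mul_of_nonneg_left (add_le_add (add_le_add f1 f2) f3) hKr.le
  refine f5.trans ?_
  rw [hQ]
  have : 0 ≤ t ^ 4 := by positivity
  linarith only [this]

theorem t1m {b : ℝ} (hb : 1 < b) : ∃ C : ℝ, 1 ≤ C ∧ ∀ t : ℝ, 0 < t → t ≤ 1 / C → ∀ (n : ℕ)
    (r : ℕ → ℝ), C ≤ ((n : ℝ) + 1) * t ^ 27 → IsMin b n (gm n) r →
    ∀ L ≤ n, r L ≤ b ^ 2 * t ^ 8 → gm n (L + 1) ≤ C * t := by
  have hb0 : 0 < b := by linarith
  obtain ⟨K, hK, hBK⟩ := fl_bk b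
  obtain ⟨A, hA, hsplit⟩ := split_zero hb
  obtain ⟨G, hG, hgap⟩ := gap_rate hb
  obtain ⟨Ca, hCa, ha⟩ := long_a hb
  obtain ⟨Cb, hCb, hb'⟩ := long_b hb
  obtain ⟨Cc, hCc, hc'⟩ := long_c hb
  obtain ⟨Cd, hCd, hd⟩ := long_d hb
  obtain ⟨c, hc⟩ : ∃ c : ℝ, c = 1 / b ^ 2 := ⟨_, rfl⟩
  have hc0 : 0 < c := by rw [hc]; positivity
  have hb2 : 1 < b ^ 2 := by (by_contra nlg; linarith only [nlg, mul_pos (sub_pos.2 hb) (sub_pos.2 hb0), mul_nonneg (sub_nonneg.2 (not_lt.1 nlg)) (le_of_lt (sub_pos.2 hb0)), mul_nonneg (sq_nonneg (b : ℝ)) (le_of_lt (sub_pos.2 hb))])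
  have hc1 : c < 1 := by rw [hc, div_lt_one (by positivity)]; exact hb2
  obtain ⟨s, hs⟩ : ∃ s : ℝ, s = √c ^ 3 := ⟨_, rfl⟩
  have hs0 : 0 < s := by rw [hs]; have := Real.sqrt_pos.2 hc0; positivity
  obtain ⟨c₃, hc₃⟩ : ∃ c₃ : ℝ, c₃ = min (1 / 20) (3 * s / (8 * K ^ 2)) := ⟨_, rfl⟩
  have hc₃0 : 0 < c₃ := by rw [hc₃]; positivity
  obtain ⟨Kr, hKr, hra⟩ := ra_real (b := b) (S := b ^ 2) (c₃ := c₃ / 2) (c₄ := 1 / Cd) (C₂ := Cd)
    (by positivity) (by positivity) (by linarith)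
  obtain ⟨Q, hQ⟩ : ∃ Q : ℝ, Q = 1 + Kr * (Cb * (2 * b) + Ca * (2 * b + 1) +
    Cc * (2 * b ^ 2 + 1)) := ⟨_, rfl⟩
  have hQ1 : 1 ≤ Q := by
    rw [hQ]
    have : 0 ≤ Kr * (Cb * (2 * b) + Ca * (2 * b + 1) + Cc * (2 * b ^ 2 + 1)) := by positivity
    linarith only [this]
  obtain ⟨C, hC⟩ : ∃ C : ℝ, C = 1 + 8000 * G + 8 * A / s + 80 * b ^ 2 +
    (4 * b ^ 2 + A + 2 * K ^ 2 * b ^ 4 + 1) / (1 - c) + 4 * b ^ 2 / c₃ + Q := ⟨_, rfl⟩
  have p1 : 0 < 8 * A / s := by positivity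
  have p2 : 0 < (4 * b ^ 2 + A + 2 * K ^ 2 * b ^ 4 + 1) / (1 - c) := by
    have : 0 < 1 - c := by linarith only [hc1]
    positivity
  have p3 : 0 < 4 * b ^ 2 / c₃ := by positivity
  have hC1 : 1 ≤ C := by rw [hC]; linarith only [p3, p2, p1, hQ1, hc1, hb2, hc0, hG]
  have hCG : 8000 * G ≤ C := by rw [hC]; linarith only [p3, p2, p1, hQ1, hc1, hb2, hc0]
  have hCA : 8 * A / s ≤ C := by rw [hC]; linarith only [p3, p2, hQ1, hc1, hb2, hc0, hG]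
  have hCb2 : 80 * b ^ 2 ≤ C := by rw [hC]; linarith
  have hCc' : (4 * b ^ 2 + A + 2 * K ^ 2 * b ^ 4 + 1) / (1 - c) ≤ C := by rw [hC]; linarith only [p3, p1, hQ1, hc1, hb2, hc0, hG]
  have hCc₃ : 4 * b ^ 2 / c₃ ≤ C := by rw [hC]; linarith only [p2, p1, hQ1, hc1, hb2, hc0, hG]
  have hCQ : Q ≤ C := by rw [hC]; linarith only [p3, p2, p1, hc1, hb2, hc0, hG]
  have hC0 : 0 < C := by linarith
  refine ⟨C, hC1, ?_⟩
  intro t ht htC n r hn hr L hL hLv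
  have ht1 : t ≤ 1 := htC.trans ((div_le_one hC0).2 hC1)
  have hCt : C * t ≤ 1 := by rw [le_div_iff₀ hC0] at htC; linarith only [htC]
  have hn0 : (0 : ℝ) < (n : ℝ) + 1 := by positivity
  obtain ⟨h, hh⟩ : ∃ h : ℝ, h = 1 / ((n : ℝ) + 1) := ⟨_, rfl⟩
  have hh0 : 0 < h := by rw [hh]; positivity
  have hCh : C * h ≤ t ^ 27 := by
    rw [hh, mul_one_div, div_le_iff₀ hn0]
    linarith only [hn]
  have ht27 : t ^ 27 ≤ t ^ 9 := pow_le_pow_of_le_one ht.le ht1 (by norm_num)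
  have ht27' : t ^ 27 ≤ 1 := pow_le_one₀ ht.le ht1
  have ht274 : t ^ 27 ≤ t ^ 4 := pow_le_pow_of_le_one ht.le ht1 (by norm_num)
  have ht84 : t ^ 8 ≤ t ^ 4 := pow_le_pow_of_le_one ht.le ht1 (by norm_num)
  have ht8t : t ^ 8 ≤ t := by
    calc t ^ 8 ≤ t ^ 1 := pow_le_pow_of_le_one ht.le ht1 (by norm_num)
      _ = t := pow_one t
  have ht7 : t ^ 7 ≤ t := by
    calc t ^ 7 ≤ t ^ 1 := pow_le_pow_of_le_one ht.le ht1 (by norm_num)
      _ = t := pow_one t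
  -- smallness of `h`
  have hh1 : h ≤ t ^ 27 := by
    have : h ≤ C * h := le_mul_of_one_le_left hh0.le hC1
    linarith only [this, hCh]
  have hGh : G * h ≤ 0.05 ^ 3 := by
    have h1 : 8000 * G * h ≤ C * h := mul_le_mul_of_nonneg_right hCG hh0.le
    norm_num
    linarith only [h1, ht27', hCh]
  have hv0 : 0 ≤ b ^ 2 * t ^ 8 := by positivity
  obtain ⟨v, hv⟩ : ∃ v : ℝ, v = b ^ 2 * t ^ 8 := ⟨_, rfl⟩
  rw [← hv] at hLv hv0
  have hv40 : 2 * v ≤ 1 / 40 := by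
    have h1 : 80 * b ^ 2 * t ≤ C * t := mul_le_mul_of_nonneg_right hCb2 ht.le
    have h2 : b ^ 2 * t ^ 8 ≤ b ^ 2 * t := mul_le_mul_of_nonneg_left ht8t (by positivity)
    rw [hv]
    linarith only [h2, h1, hCt]
  have hexp := gm_exponents n
  have hBP := hr.1
  have hpath := hBP.2.1
  have hr0 := hBP.1
  obtain ⟨hKl, hBl⟩ := hBK n (gm n) r hexp hBP
  -- M at the level zero
  have hM0eq := Ml_zero (n := n) (m := gm n) hr0
  have hM0up : Ml n (gm n) r 0 ≤ c + A * h := by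
    rw [hM0eq, hc, hh]
    have := hsplit n r hr
    rw [mul_one_div]
    exact this
  have hM0lo : 0.95 * c ≤ Ml n (gm n) r 0 := by
    rw [hM0eq]
    have := hgap n (gm n) r h 0.05 hexp (fun l _ => by rw [gm_sub, hh]) hr (by norm_num)
      (by norm_num) hGh
    refine le_trans (le_of_eq ?_) this
    rw [hc]
    ring
  have hstat := stat hb0 hexp hr
  -- at least two levels
  have hn1 : 0 < n := by
    rcases Nat.eq_zero_or_pos n with h0 | h0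
    · exfalso
      rw [h0] at hn
      simp only [Nat.cast_zero, zero_add, one_mul] at hn
      have h8 : 80 * b ^ 2 ≤ 1 := hCb2.trans (hn.trans ht27')
      linarith only [h8, hb2]
    · exact h0
  have hmono : ∀ l < n, gm n l ≤ gm n (l + 1) := fun l _ => t1m_gm_mono n (Nat.le_succ l)
  have hR : ∀ l ≤ n, spR n (gm n) r l ≤ r l := fun l hl => spR_le hexp hpath hr0 hl
  have hR0 : spR n (gm n) r 0 ≤ 0 := by have := hR 0 (Nat.zero_le _); rwa [hr0] at this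
  have hseq := fun (L : ℕ) (v : ℝ) (hL : L < n) (hLv : r L ≤ v) =>
    seq_multi (c := c) (K := K) (v := v) (n := n) (L := L) (m := gm n) (r := r)
      (R := spR n (gm n) r) (M := Ml n (gm n) r) hc0 hr0 hpath.2 hmono
      (by simp [gm]) hR
      (fun l hl => spR_up (by linarith only [hc1, hc0, hK]) hexp hBP hl (hBl l hl) (Real.sqrt_nonneg c))
      (fun l hl => Ml_up (by linarith only [hc1, hc0, hK]) hexp hBP hl (hBl l hl) (Real.sqrt_nonneg c))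
      (fun l hl => Ml_low hexp hBP hl) hM0lo hR0 hL hLv
  -- the last level is not near zero
  have hlast : ¬ r n ≤ 2 * v := by
    intro hcon
    have h1 := (hseq 0 0 hn1 hr0.le).1 n le_rfl (by linarith only [hcon, hv40, hc1, hc0])
    have h2 := Ml_last (n := n) (m := gm n) (r := r) hexp hpath
    have h3 := hR n le_rfl
    have hrn0 : 0 ≤ r n := hr0 ▸ seq_mono hpath.2 (Nat.zero_le n) le_rfl
    exact t1m_num1 hc1 ht ht1 hCt (by linarith only [hc1, hc0, hA]) hrn0 hv hcon hv0 hCc' (hh1.trans (by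
      calc t ^ 27 ≤ t ^ 1 := pow_le_pow_of_le_one ht.le ht1 (by norm_num)
        _ = t := pow_one t)) h1 h2 h3 hM0up
  -- the level `L`
  have hLn : L < n := by
    rcases Nat.lt_or_ge L n with h1 | h1
    · exact h1
    · exfalso
      have : L = n := by omega
      rw [this] at hLv
      exact hlast (by linarith only [hlast, hLv, hv0])
  obtain ⟨g, hg⟩ : ∃ g : ℝ, g = gm n (L + 1) := ⟨_, rfl⟩
  rw [← hg]
  have hg0 : 0 < g := by rw [hg]; unfold gm; (clear * - hn1; positivity)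
  have hg1 : g ≤ 1 := by rw [hg]; exact t1m_gm_le n (by omega)
  by_contra hcon
  push Not at hcon
  have hgQ : Q * t < g := lt_of_le_of_lt (mul_le_mul_of_nonneg_right hCQ ht.le) hcon
  obtain ⟨L', hLL', hL'n, hL'v, hL'next⟩ := t1m_last (v := 2 * v) hL (by linarith only [hLv, hv0])
  have hL'n : L' < n := by
    rcases Nat.lt_or_ge L' n with h1 | h1
    · exact h1
    · exfalso
      have : L' = n := by omega
      rw [this] at hL'v
      exact hlast hL'v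
  have hnext := hL'next hL'n
  -- the next level is far
  have hgt : t ≤ g := by
    have : t ≤ Q * t := le_mul_of_one_le_left ht.le hQ1
    linarith only [this, hgQ]
  have hfar : c₃ * g ≤ r (L' + 1) := by
    by_cases h20 : r (L' + 1) ≤ 1 / 20
    · have h1 := (hseq L v hLn hLv).2 (L' + 1) (by omega) (by omega) h20
      have hrp : 0 < r (L' + 1) := by linarith only [hnext, hv0]
      have h2 := hstat.1 (L' + 1) (by omega) hrp
      rw [h2, ← hg, ← hs] at h1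
      have h3 : r (L' + 1) / b ^ 2 = c * r (L' + 1) := by rw [hc]; ring
      rw [h3] at h1
      have hAh : A * h ≤ s * g * v / 8 := t1m_num2 hs0 ht ht1 hb2 hg0 hgt hh0 hv hCA hCh
      have h4 := t1m_atom hs0 hK hg0 hv0 hnext hM0up hAh h1
      refine le_trans ?_ h4
      rw [hc₃]
      exact mul_le_mul_of_nonneg_right (min_le_right _ _) hg0.le
    · push Not at h20
      have h1 : c₃ ≤ 1 / 20 := by rw [hc₃]; exact min_le_left _ _
      calc c₃ * g ≤ 1 / 20 * 1 := mul_le_mul h1 hg1 hg0.le (by norm_num)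
        _ ≤ _ := by linarith only [h20]
  -- the long gap
  have hrL'0 : 0 ≤ r L' := hr0 ▸ seq_mono hpath.2 (Nat.zero_le L') hL'n.le
  have hVlow : c₃ / 2 * g ≤ r (L' + 1) - r L' := by
    have := t1m_num3 hc₃0 ht ht1 hCt hgt hv hCc₃
    linarith only [this, hfar, hL'v]
  have hV0 : r L' < r (L' + 1) := by linarith only [hnext, hL'v]
  have hVS : r (L' + 1) - r L' ≤ b ^ 2 := by
    have h1 : r (L' + 1) ≤ r n := seq_mono hpath.2 (by omega) le_rfl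
    have h2 := hBP.2.2
    linarith only [h2, h1, hrL'0]
  obtain ⟨⟨C', hAdm⟩, hMf, hM1, hM2⟩ := hd n r L' hr hL'n hV0
  have e1 := ha n r L' hr hL'n hV0
  have e2 := hb' n r L' hr hL'n hV0
  have e3 := hc' n r L' hr hL'n
  rw [← hh] at e1 e3
  obtain ⟨g', hg'⟩ : ∃ g' : ℝ, g' = gm n (L' + 1) := ⟨_, rfl⟩
  rw [← hg'] at hMf hM1 hM2 e1 e2
  have hgg : g ≤ g' := by rw [hg, hg']; exact t1m_gm_mono n (by omega)
  have hg'0 : 0 < g' := hg0.trans_le hgg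
  have hg'1 : g' ≤ 1 := by rw [hg']; exact t1m_gm_le n (by omega)
  have hfin := hra (r (L' + 1) - r L') g (Cc * (r L' + h)) (Cb * √(r L')) (Ca * (√(r L') + h))
    (Rf g' g' (r (L' + 1) - r L') (Fl n (gm n) r (L' + 1)))
    (Mf g' (r (L' + 1) - r L') (Fl n (gm n) r (L' + 1)))
    (M1f g' (r (L' + 1) - r L') (Fl n (gm n) r (L' + 1)))
    (M2f g' (r (L' + 1) - r L') (Fl n (gm n) r (L' + 1)))
    hVS hg0 hVlow (by positivity) (by (clear * - hCb; positivity)) (by (clear * - hCa hh0; positivity))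
    (Rf_cont hAdm hg'0 hg'1 hg'0 hg'1) (Mf_cont hAdm hg'0 hg'1) (M1f_cont hAdm hg'0 hg'1)
    (fun τ hτ => Rf_hasDerivAt hAdm hg'0 hg'1 hτ) (fun τ hτ => Mf_hasDerivAt hAdm hg'0 hg'1 hτ)
    (fun τ hτ => M1f_hasDerivAt hAdm hg'0 hg'1 hτ) (fun τ hτ => (hM2 τ hτ).1)
    (fun τ hτ => (hM2 τ hτ).2) (Rf_zero hAdm hg'0 hg'1 _ (by linarith only [hV0])) e2 e1
    (by rw [hMf]; exact e3) (hM1.trans (by
      rw [one_div, inv_mul_eq_div]
      exact neg_le_neg (div_le_div_of_nonneg_right hgg (by linarith only [hc1, hc0, hCd]))))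
  -- conclusion
  have f4 := t1m_num4 hb0 ht ht1 hCa hCb hCc hKr hh1 hv hL'v hQ
  have := t1m_pow ht.le hQ1 (hfin.trans f4)
  linarith only [this, hgQ]

end T1M

end Vale.Agent.P146.Pw2
end

section

/-!
# P146, polynomial lower bound, Parisi side: the conclusion
-/

open MeasureTheory ProbabilityTheory Filter Topology Set

namespace Vale.Agent.P146.Pw2

open Vale.Agent.P157.Par
open Vale.Agent.P146.Gap
open Vale.Agent.P146.Sk (chi PSK GoodPath trp)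
open Vale.Agent.P166.F (Lam)

theorem t1q {β : ℝ} (hβ : 1 < β) : ∃ C : ℝ, 1 ≤ C ∧ ∀ t : ℝ, 0 < t → t ≤ 1 / C → ∀ n : ℕ,
    C ≤ ((n : ℝ) + 1) * t ^ 27 → ∀ (k : ℕ) (μ p : ℕ → ℝ), Exponents k μ → Path k p → p k ≤ 1 →
    ∃ q : ℕ → ℝ, Path n q ∧ q n ≤ 1 ∧ GoodPath β n (gm n) q (PSK β k μ p + C / (n + 1)) ∧
      β * Sk.chi n (gm n) q ≤ 1 + C / (n + 1) ∧
      ∀ u ∈ Set.Icc (0 : ℝ) (t ^ 8), 1 - C * t ^ 9 ≤ β * Lam n (gm n) q u :=
  t1q_of hβ (t1m hβ) (split_zero hβ)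

end Vale.Agent.P146.Pw2
end

section

/-!
RATE: the mean free energy is within `N^{-1/36}` of a value of the Parisi functional.
-/

open MeasureTheory ProbabilityTheory

namespace Vale.Agent.P146.Pw2

open Vale.Agent.P146.Sk
open Vale.Agent.P157.Par (Path Exponents)

theorem rate_num {β : ℝ} (hβ : 0 < β) : ∃ C : ℝ, ∀ N : ℕ, 0 < N →
    ∃ (k : ℕ) (μ p : ℕ → ℝ), Exponents k μ ∧ Path k p ∧ p k ≤ 1 ∧
      PSK β k μ p ≤ pN β N + C * (N : ℝ) ^ (-(1 / 36) : ℝ) := by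
  obtain ⟨C, hC, h⟩ := Ub.rate_lower' hβ
  refine ⟨C + 1, fun N hN => ?_⟩
  by_contra hcon
  push Not at hcon
  have hN0 : (0 : ℝ) < N := by exact_mod_cast hN
  have h1 := h (pN β N + (C + 1) * (N : ℝ) ^ (-(1 / 36) : ℝ))
    (fun K m q hm hq hq1 => (hcon K m q hm hq hq1).le) N hN
  rw [Ub.free_mean hN] at h1
  have h2 : (N : ℝ) ^ (1 - 1 / 36 : ℝ) = N * (N : ℝ) ^ (-(1 / 36) : ℝ) := by
    nth_rewrite 2 [← Real.rpow_one (N : ℝ)]
    rw [← Real.rpow_add hN0]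
    norm_num
  rw [h2] at h1
  have h3 : 0 < (N : ℝ) * (N : ℝ) ^ (-(1 / 36) : ℝ) := by positivity
  linarith only [h3, h1]

theorem rate {β : ℝ} (hβ : 0 < β) : ∃ C d : ℝ, 0 < d ∧ ∀ N : ℕ, 0 < N →
    ∃ (k : ℕ) (μ p : ℕ → ℝ), Exponents k μ ∧ Path k p ∧ p k ≤ 1 ∧
      PSK β k μ p ≤ pN β N + C * (N : ℝ) ^ (-d) := by
  obtain ⟨C, h⟩ := rate_num hβ
  exact ⟨C, 1 / 36, by norm_num, h⟩

end Vale.Agent.P146.Pw2
end

section

/-!
# P146: the polynomial lower bound for the fluctuations of the free energy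
-/

open MeasureTheory ProbabilityTheory Filter Topology

namespace Vale.Agent.P146.Pw2

/-- **Polynomial fluctuations at low temperature**, with one exponent for all `β > 1`. -/
theorem power : ∃ c : ℝ, 0 < c ∧ ∀ β : ℝ, 1 < β → ∀ᶠ n : ℕ in atTop,
    (⨆ a : ℝ, (disorder n).real {g | |freeEnergy n β g - a| ≤ (n : ℝ) ^ c}) ≤ (n : ℝ) ^ (-c) ∧
    (n : ℝ) ^ c ≤ Var[freeEnergy n β; disorder n] := by
  refine ⟨1 / 36 / (4 * (((18 * (572 + 1) + 5) * (572 + 7) + 110 : ℕ) : ℝ)), by positivity,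
    fun β hβ => ?_⟩
  have hβ0 : 0 < β := by linarith
  exact fins_of (D := 572) (d := 1 / 36) hβ (by norm_num) (by norm_num) (t1q hβ)
    (rate_num hβ0) (fun C₀ => main_of_opt (D₃ := 5) hβ0 (opt_q5 hβ0)) rfl

end Vale.Agent.P146.Pw2
end
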